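import Claimed.Agent.R292.Rsw.Base31
import Claimed.Agent.R291.Ann.Top

/-!
# Row 292 (S0540), Rsw/CoreTop121 : R8 CORE = THE TOP OF THE CHAIN OF `exit_rsw_circuit`      (owner helper121, science chief of R8; prefix `rc` / `Rc`)

Port of R291 `Defs/Ann` + `Ann/Top` to `ℤ²` (vocabulary `Defs/RSW`).   Dictionary and block table: `origin/helper121:notes/R292/CORE_DICT.md`.
COLOURS ARE FLIPPED with respect to R291 (the exit asks for a MINUS circuit under the PLUS flat law).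

## vocabulary
* `rcU t n M   = P^+_{Box M}[ minus good edges separate Box n from the layer ]`                                    (R291 `anU`)
* `rcEta t n M = P^-_{Box M}[ a dual path crossing only edges which are NOT minus good joins Box n to Box M \ Box 2n ]`   (R291 `anEta`)
* `rcPi t n m  = P^-_{Box m}[ a primal chain of minus good edges joins a corner of Box n to the polygon of Box m ]`   (R291 `anPi`)
* histories: `RswCon` (pins of `s`, prescribed good-plus / good-minus / closed edges), `RswCon.Holds`, `RswCon.Legal` (an observed edge has its two spins pinned),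
  `RswCon.In` (the history lives in a window), `rswPK t F b K L` = probability of `L` under the flat law of `(F, b)` conditioned on the history `K`      (R291 `ClCon`, `ClLegal`, `amP`)
## contracts (as `Prop`s: the producers prove them in their own files)
* `RcChain t` (R3), pen 299      * `RcPoly t` (POLY2), pen 159      * `RcMono t` (T2 for `U`), pen 291 / 159      ⟹  `RcUEta t`   (`rc_U_eta`, proved here)
* `RcRec t` (REC), pens 109 189      * `RcD t` (Theorem D, sequence form), pen 51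
## the top, proved here (0 sorry)
* `rc_top : RcUEta t → RcRec t → RcD t → ` the statement of `exit_rsw_circuit`      (arithmetic = `ann_dich2` of R291/Ann/Top, imported)
-/

set_option autoImplicit false

namespace Claimed.Agent.R292

open Claims Claims.C0468 Claimed.Agent.R291

/-! ### events and the three sequences -/

/-- `U(n, M)` -/
noncomputable def rcU (t : ℝ) (n M : ℕ) : ℝ :=
  rswP t (rswBox 0 M) true (fun ω => RswSep (rswBox 0 M) false ω (rswBox 0 n) (rswLayer (rswBox 0 M)))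

/-- a dual path inside `F` which crosses only edges that are not good of colour `a` joins `Box(c,n)` to `F \ Box(c,2n)` -/
def RcArm (F : Finset (ℤ × ℤ)) (a : Bool) (c : ℤ × ℤ) (n : ℕ) (ω : RswCfg) : Prop :=
  ¬ RswSep F a ω (rswBox c n) (F \ rswBox c (2 * n))

/-- `η(n, M)` -/
noncomputable def rcEta (t : ℝ) (n M : ℕ) : ℝ := rswP t (rswBox 0 M) false (RcArm (rswBox 0 M) false 0 n)

/-- one step of a primal chain of good edges of colour `a` of `F` -/
def RcStepP (F : Finset (ℤ × ℤ)) (a : Bool) (ω : RswCfg) (u v : ℤ × ℤ) : Prop :=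
  ∃ e ∈ rswInt F, RswGood a ω e ∧ ((u = e.1 ∧ v = rswEnd e) ∨ (v = e.1 ∧ u = rswEnd e))

/-- a primal chain of good edges of colour `a` joins a vertex of `A` to a vertex of `B` -/
def RcCon (F : Finset (ℤ × ℤ)) (a : Bool) (ω : RswCfg) (A B : Set (ℤ × ℤ)) : Prop :=
  ∃ u ∈ A, ∃ v ∈ B, Relation.ReflTransGen (RcStepP F a ω) u v

/-- `π(n, m)` -/
noncomputable def rcPi (t : ℝ) (n m : ℕ) : ℝ :=
  rswP t (rswBox 0 m) false (fun ω => RcCon (rswBox 0 m) false ω (↑(cornersOf (rswBox 0 n)))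
    {v | v ∈ cornersOf (rswBox 0 m) ∧ OnPolygon (rswBox 0 m) v})

/-! ### histories -/

/-- a history: pinned spins and prescribed edge states -/
structure RswCon where
  /-- `s` pinned plus -/
  Sp : Finset (ℤ × ℤ)
  /-- `s` pinned minus -/
  Sm : Finset (ℤ × ℤ)
  /-- edges prescribed open, both endpoints plus -/
  Gp : Finset ((ℤ × ℤ) × Bool)
  /-- edges prescribed open, both endpoints minus -/
  Gm : Finset ((ℤ × ℤ) × Bool)
  /-- edges prescribed closed -/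
  Cl : Finset ((ℤ × ℤ) × Bool)

/-- the configuration satisfies the history -/
def RswCon.Holds (K : RswCon) (ω : RswCfg) : Prop :=
  K.Sp ⊆ ω.S ∧ (∀ v ∈ K.Sm, v ∉ ω.S) ∧ (∀ e ∈ K.Gp, RswGood true ω e) ∧ (∀ e ∈ K.Gm, RswGood false ω e) ∧ ∀ e ∈ K.Cl, e ∉ ω.O

/-- no history -/
def rswFree : RswCon := ⟨∅, ∅, ∅, ∅, ∅⟩

/-- legal history of the flat problem `F`: only interior edges are observed, and an observed edge has its two spins pinned (TEX 03-spatial: "reveals an edge only after its endpoint spins") -/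
structure RswCon.Legal (K : RswCon) (F : Finset (ℤ × ℤ)) : Prop where
  sp : K.Sp ⊆ cornersOf F
  sm : K.Sm ⊆ cornersOf F
  ed : K.Gp ∪ K.Gm ∪ K.Cl ⊆ rswInt F
  full : ∀ e ∈ K.Gp ∪ K.Gm ∪ K.Cl, e.1 ∈ K.Sp ∪ K.Sm ∧ rswEnd e ∈ K.Sp ∪ K.Sm

/-- the history lives in the window `R` (vertices) -/
structure RswCon.In (K : RswCon) (R : Finset (ℤ × ℤ)) : Prop where
  sp : K.Sp ⊆ R
  sm : K.Sm ⊆ R
  ed : ∀ e ∈ K.Gp ∪ K.Gm ∪ K.Cl, e.1 ∈ R ∧ rswEnd e ∈ R

/-- the history has positive probability -/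
def RswCon.Feas (K : RswCon) (t : ℝ) (F : Finset (ℤ × ℤ)) (b : Bool) : Prop :=
  open Classical in 0 < rswSum t F b (fun ω => if K.Holds ω then 1 else 0)

/-- probability of `L` under the flat law of `(F, b)` conditioned on the history `K` -/
noncomputable def rswPK (t : ℝ) (F : Finset (ℤ × ℤ)) (b : Bool) (K : RswCon) (L : RswCfg → Prop) : ℝ :=
  open Classical in
  rswSum t F b (fun ω => if K.Holds ω ∧ L ω then 1 else 0) / rswSum t F b (fun ω => if K.Holds ω then 1 else 0)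

/-- the order `(s, W⁺, -W⁻)` of TEX eq:spatial-order -/
def RswLe (ω ω' : RswCfg) : Prop :=
  ω.S ⊆ ω'.S ∧ (∀ e, RswGood true ω e → RswGood true ω' e) ∧ ∀ e, RswGood false ω' e → RswGood false ω e

/-- increasing event -/
def RswInc (L : RswCfg → Prop) : Prop := ∀ ω ω', RswLe ω ω' → L ω → L ω'

/-! ### the contracts -/

/-- **(R3)** chain lemma      (R291 `ann_chain`; slack `m + 2` for the layers of the two searches) -/
def RcChain (t : ℝ) : Prop :=
  ∀ n m M : ℕ, 1 ≤ n → n < m → m + 2 < M → 1 / 4 * ((1 - rcPi t (m + 2) M) * (1 - rcPi t n m)) ≤ rcU t n M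

/-- **(POLY2)**      (R291 `ann_poly_rad` with the geometry `plg_geo_rad` inside): for every inner ratio `R` there are `J`, `κ'` -/
def RcPoly (t : ℝ) : Prop :=
  ∀ R : ℕ, ∃ J κ' : ℕ, R < κ' ∧ ∀ s n' : ℕ, 1 ≤ s → n' ≤ R * s → 0 < rcEta t (4 * s) (7 * (4 * s)) →
    (rcEta t (4 * s) (7 * (4 * s)) / (21 * (s : ℝ)) ^ 4) ^ J ≤ 1 - rcPi t n' (κ' * s)

/-- **(T2)** for `U`      (R291 `ann_U_mono`) -/
def RcMono (t : ℝ) : Prop := ∀ n M M' : ℕ, n < M → M ≤ M' → rcU t n M ≤ rcU t n M'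

/-- `U` dominates a power of `η` at every scale      (R291 `ann_U_eta`) -/
def RcUEta (t : ℝ) : Prop :=
  ∃ κ J : ℕ, 2 ≤ κ ∧ ∀ K s : ℕ, κ ≤ 2 * K → 1 ≤ s →
    1 / 4 * (rcEta t (4 * s) (7 * (4 * s)) / (21 * (s : ℝ)) ^ 4) ^ J ≤ rcU t s (2 * K * s)

/-- **(REC)**      (R291 `exit_ann_ren_U`) -/
def RcRec (t : ℝ) : Prop :=
  ∃ K0 : ℕ, ∀ K : ℕ, K0 ≤ K → ∃ (ρ : ℕ) (C : ℝ) (n0 : ℕ), 2 ≤ ρ ∧ 0 < C ∧
    ∀ n N : ℕ, n0 ≤ n → ρ * n ≤ N → N ≤ ρ ^ 2 * n → rcU t N (2 * K * N) ≤ C * rcU t n (2 * K * n) ^ 2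

/-- **Theorem D**, sequence form      (R291 `exit_ann_D`) -/
def RcD (t : ℝ) : Prop :=
  ∀ (ρ : ℕ) (r : ℕ → ℕ), 1 ≤ r 0 → (∀ k, 3 * r k ≤ r (k + 1)) → (∀ k, r (k + 1) ≤ ρ * r k) →
    (∀ A : ℕ, ∃ k0, ∀ k, k0 ≤ k → rcEta t (r k) ((2 * ρ + 1) * r k) ≤ (1 / (r k : ℝ)) ^ A) → False

/-- the equation lemmas of the definitions of this file are generated HERE (RULES.md, rule 6) -/
theorem rc_defs_eqns_cite : True := by
  have := @rcU.eq_1
  have := @RcArm.eq_1
  have := @rcEta.eq_1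
  have := @RcStepP.eq_1
  have := @RcCon.eq_1
  have := @rcPi.eq_1
  have := @RswCon.Holds.eq_1
  have := @rswFree.eq_1
  have := @RswCon.Feas.eq_1
  have := @rswPK.eq_1
  have := @RswLe.eq_1
  have := @RswInc.eq_1
  have := @RcChain.eq_1
  have := @RcPoly.eq_1
  have := @RcMono.eq_1
  have := @RcUEta.eq_1
  have := @RcRec.eq_1
  have := @RcD.eq_1
  trivial

/-! ### elementary bounds -/

theorem rc_U_nonneg {t : ℝ} (h0 : 0 < t) (h1 : t ≤ 1) (n M : ℕ) : 0 ≤ rcU t n M := rsb_P_nonneg h0 h1 _ _ _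

theorem rc_eta_nonneg {t : ℝ} (h0 : 0 < t) (h1 : t ≤ 1) (n M : ℕ) : 0 ≤ rcEta t n M := rsb_P_nonneg h0 h1 _ _ _

theorem rc_eta_le_one {t : ℝ} (h0 : 0 < t) (h1 : t ≤ 1) (n M : ℕ) : rcEta t n M ≤ 1 := rsb_P_le_one h0 h1 _ _ _

theorem rc_pi_le_one {t : ℝ} (h0 : 0 < t) (h1 : t ≤ 1) (n m : ℕ) : rcPi t n m ≤ 1 := rsb_P_le_one h0 h1 _ _ _

/-! ### (POLY2) twice + (R3) + (T2)  ⟹  `U ≳ η^J` -/

theorem rc_U_eta {t : ℝ} (h0 : 0 < t) (h1 : t ≤ 1) (hch : RcChain t) (hpo : RcPoly t) (hmo : RcMono t) : RcUEta t := by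
  obtain ⟨J1, κ1, hR1, P1⟩ := hpo 1
  obtain ⟨J2, κ2, hR2, P2⟩ := hpo (κ1 + 2)
  refine ⟨κ2, J1 + J2 + 1, by omega, fun K s hK hs => ?_⟩
  have hU0 : 0 ≤ rcU t s (2 * K * s) := rc_U_nonneg h0 h1 _ _
  have hη0 : 0 ≤ rcEta t (4 * s) (7 * (4 * s)) := rc_eta_nonneg h0 h1 _ _
  rcases hη0.eq_or_lt with hz | hη
  · rw [← hz, zero_div, zero_pow (by omega), mul_zero]
    exact hU0
  have q1 := P1 s s hs (by omega) hη
  have q2 := P2 s (κ1 * s + 2) hs (by nlinarith) hη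
  have hsR : (1 : ℝ) ≤ s := by exact_mod_cast hs
  have hs4 : (0 : ℝ) < (21 * (s : ℝ)) ^ 4 := by positivity
  obtain ⟨p, hp⟩ : ∃ p, p = rcEta t (4 * s) (7 * (4 * s)) / (21 * (s : ℝ)) ^ 4 := ⟨_, rfl⟩
  have hp0 : 0 ≤ p := by rw [hp]; exact div_nonneg hη.le hs4.le
  have hp1 : p ≤ 1 := by
    rw [hp, div_le_one hs4]
    exact (rc_eta_le_one h0 h1 _ _).trans (one_le_pow₀ (by linarith))
  rw [← hp] at q1 q2 ⊢
  have hc := hch s (κ1 * s) (κ2 * s) hs (by nlinarith) (by nlinarith)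
  have hm := hmo s (κ2 * s) (2 * K * s) (by nlinarith) (Nat.mul_le_mul_right s hK)
  refine le_trans ?_ (hc.trans hm)
  have e : p ^ (J1 + J2 + 1) ≤ p ^ J2 * p ^ J1 := by
    rw [← pow_add]
    exact pow_le_pow_of_le_one hp0 hp1 (by omega)
  have := mul_le_mul q2 q1 (pow_nonneg hp0 _) ((pow_nonneg hp0 _).trans q2)
  nlinarith

/-! ### the top -/

/-- **the statement of `exit_rsw_circuit`** from (U ≳ η^J), (REC) and Theorem D -/
theorem rc_top (t : ℝ) (ht1 : 1 / 2 ≤ t) (ht2 : t < 1) (hUE : RcUEta t) (hRec : RcRec t) (hD : RcD t) :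
    ∃ (κ n0 : ℕ) (p : ℝ), 2 ≤ κ ∧ 0 < p ∧ ∀ n : ℕ, n0 ≤ n →
      p ≤ rswP t (rswBox 0 (κ * n)) true
        (fun ω => RswSep (rswBox 0 (κ * n)) false ω (rswBox 0 n) (rswLayer (rswBox 0 (κ * n)))) := by
  have h0 : 0 < t := by linarith
  obtain ⟨κ, J, hκ, P⟩ := hUE
  obtain ⟨K0, R⟩ := hRec
  obtain ⟨ρ, C, n2, hρ, hC, R⟩ := R (max K0 κ) (le_max_left _ _)
  set K := max K0 κ with hK
  have hK1 : κ ≤ K := le_max_right _ _
  have key := ann_dich2 (fun n => rcU t n (2 * K * n)) (fun s => rcEta t (4 * s) (7 * (4 * s))) ρ C J n2 hρ hC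
    (fun n => rc_U_nonneg h0 ht2.le _ _) R (fun s hs => P K s (by omega) hs)
    (fun T hT hdec => hD 3 (fun k => 4 * (3 ^ k * T))
      (by simpa using (by omega : 1 ≤ 4 * T))
      (fun k => le_of_eq (by rw [pow_succ]; ring)) (fun k => le_of_eq (by rw [pow_succ]; ring)) hdec)
  refine ⟨2 * K, max n2 1, 1 / (2 * C), by omega, by positivity, fun n hn => ?_⟩
  have := key n (le_trans (le_max_left _ _) hn) (le_trans (le_max_right _ _) hn)
  have h2 : 1 / (2 * C) ≤ rcU t n (2 * K * n) := by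
    rw [div_le_iff₀ (by positivity)]
    linarith
  exact h2

end Claimed.Agent.R292
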