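import Claimed.Agent.R292.Defs.RSW

/-!
# Row 292, unit RSW, block R2 CUT (helper91; prefix `rsk`, `Rsk`; the name `RswCut` is the one of the plan of 122)

TEX: AT paper, 03-spatial, lem:finite-cuts (1) (2).

* `RswCut F' a ω`   : every edge of the polygon of `F'` is a good edge of colour `a`.
* `rskIn F' ω`      : the configuration read inside `F'` (spins on all corners of `F'`, face spins on `F'`, interior edges of `F'`).
* `rskOut F' ω`     : the rest (spins off the inner corners of `F'`, face spins off `F'`, edges which are not interior edges of `F'`).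
* `rsk_cut_prod`    : product formula, all `t`.
* `rsk_cut_cross`   : the same, cross multiplied, all `t`.
* `rsk_cut`         : `rswSum t F b (1_cut * X * Y) = rswE t F' a X * rswSum t F b (1_cut * Y)`.
-/

set_option autoImplicit false
set_option linter.unusedSimpArgs false
set_option linter.unreachableTactic false
set_option linter.unusedTactic false

namespace Claimed.Agent.R292

open Claims Claims.C0468

/-! ## §A vocabulary -/

/-- `e` is an edge of the polygon of `F'`: exactly one of its two faces lies in `F'` -/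
def RskBd (F' : Finset (ℤ × ℤ)) (e : (ℤ × ℤ) × Bool) : Prop :=
  (e.1 ∈ F' ∧ rswCo e ∉ F') ∨ (e.1 ∉ F' ∧ rswCo e ∈ F')

/-- every edge of the polygon of `F'` is good of colour `a` -/
def RswCut (F' : Finset (ℤ × ℤ)) (a : Bool) (ω : RswCfg) : Prop :=
  ∀ e, RskBd F' e → RswGood a ω e

/-- the inner corners of `F'` -/
noncomputable def rskCore (F' : Finset (ℤ × ℤ)) : Finset (ℤ × ℤ) :=
  open Classical in (cornersOf F').filter (fun v => ¬ OnPolygon F' v)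

/-- the plus spins on the polygon of `F'` in the flat problem `(F', a)` -/
noncomputable def rskRim (F' : Finset (ℤ × ℤ)) (a : Bool) : Finset (ℤ × ℤ) :=
  if a = true then cornersOf F' \ rskCore F' else ∅

/-- the configuration read inside `F'` -/
def rskIn (F' : Finset (ℤ × ℤ)) (ω : RswCfg) : RswCfg :=
  ⟨ω.S ∩ cornersOf F', ω.D ∩ F', ω.O ∩ rswInt F'⟩

/-- the configuration read off the strict inside of `F'` -/
noncomputable def rskOut (F' : Finset (ℤ × ℤ)) (ω : RswCfg) : RswCfg :=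
  ⟨ω.S \ rskCore F', ω.D \ F', ω.O \ rswInt F'⟩

/-- `X` reads only inside `F'` -/
def RskInside (F' : Finset (ℤ × ℤ)) (X : RswCfg → ℝ) : Prop := ∀ ω, X (rskIn F' ω) = X ω

/-- `Y` reads only the rest -/
def RskOutside (F' : Finset (ℤ × ℤ)) (Y : RswCfg → ℝ) : Prop := ∀ ω, Y (rskOut F' ω) = Y ω

/-- the weight of the outside -/
noncomputable def rskWout (t : ℝ) (F F' : Finset (ℤ × ℤ)) (b : Bool) (η : RswCfg) : ℝ :=
  open Classical in
  if RswBc F b η then ∏ e ∈ rswInt F \ rswInt F', rswFac t η e else 0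

/-- the indicator of the cut -/
noncomputable def rskInd (F' : Finset (ℤ × ℤ)) (a : Bool) (ω : RswCfg) : ℝ :=
  open Classical in if RswCut F' a ω then 1 else 0

/-- the sum over the outside -/
noncomputable def rskG (t : ℝ) (F F' : Finset (ℤ × ℤ)) (a b : Bool) (Y : RswCfg → ℝ) : ℝ :=
  ∑ S ∈ (cornersOf F \ rskCore F').powerset, ∑ D ∈ (F \ F').powerset,
    ∑ O ∈ (rswInt F \ rswInt F').powerset,
      rskInd F' a ⟨S, D, O⟩ * rskWout t F F' b ⟨S, D, O⟩ * Y ⟨S, D, O⟩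

/-! ## §B lattice facts -/

theorem rsk_mem_corners {F : Finset (ℤ × ℤ)} {v : ℤ × ℤ} :
    v ∈ cornersOf F ↔
      (v ∈ F ∨ (v.1 - 1, v.2) ∈ F ∨ (v.1, v.2 - 1) ∈ F ∨ (v.1 - 1, v.2 - 1) ∈ F) := by
  obtain ⟨x, y⟩ := v
  unfold cornersOf
  simp only [Finset.mem_biUnion, Finset.mem_insert, Finset.mem_singleton, Prod.mk.injEq, Prod.exists]
  constructor
  · rintro ⟨p, q, hf, h⟩
    rcases h with ⟨rfl, rfl⟩ | ⟨rfl, rfl⟩ | ⟨rfl, rfl⟩ | ⟨rfl, rfl⟩
    · exact Or.inl hf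
    · exact Or.inr (Or.inl (by simpa using hf))
    · exact Or.inr (Or.inr (Or.inl (by simpa using hf)))
    · exact Or.inr (Or.inr (Or.inr (by simpa using hf)))
  · rintro (h | h | h | h)
    · exact ⟨x, y, h, Or.inl ⟨rfl, rfl⟩⟩
    · exact ⟨x - 1, y, h, Or.inr (Or.inl ⟨by ring, rfl⟩)⟩
    · exact ⟨x, y - 1, h, Or.inr (Or.inr (Or.inl ⟨rfl, by ring⟩))⟩
    · exact ⟨x - 1, y - 1, h, Or.inr (Or.inr (Or.inr ⟨by ring, by ring⟩))⟩

theorem rsk_mem_core {F' : Finset (ℤ × ℤ)} {v : ℤ × ℤ} :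
    v ∈ rskCore F' ↔
      (v ∈ F' ∧ (v.1 - 1, v.2) ∈ F' ∧ (v.1, v.2 - 1) ∈ F' ∧ (v.1 - 1, v.2 - 1) ∈ F') := by
  classical
  unfold rskCore
  rw [Finset.mem_filter]
  unfold OnPolygon
  rw [not_not]
  exact ⟨fun h => h.2, fun h => ⟨rsk_mem_corners.2 (Or.inl h.1), h⟩⟩

theorem rsk_core_iff {F' : Finset (ℤ × ℤ)} {v : ℤ × ℤ} : v ∈ rskCore F' ↔ ¬ OnPolygon F' v := by
  rw [rsk_mem_core]; unfold OnPolygon; rw [not_not]

theorem rsk_core_sub (F' : Finset (ℤ × ℤ)) : rskCore F' ⊆ cornersOf F' := by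
  classical
  exact Finset.filter_subset _ _

theorem rsk_corners_mono {F' F : Finset (ℤ × ℤ)} (h : F' ⊆ F) : cornersOf F' ⊆ cornersOf F := by
  intro v hv
  rw [rsk_mem_corners] at hv ⊢
  rcases hv with h1 | h1 | h1 | h1
  · exact Or.inl (h h1)
  · exact Or.inr (Or.inl (h h1))
  · exact Or.inr (Or.inr (Or.inl (h h1)))
  · exact Or.inr (Or.inr (Or.inr (h h1)))

theorem rsk_mem_int {F : Finset (ℤ × ℤ)} {e : (ℤ × ℤ) × Bool} :
    e ∈ rswInt F ↔ (e.1 ∈ F ∧ rswCo e ∈ F) := by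
  unfold rswInt
  simp [Finset.mem_filter, Finset.mem_product]

theorem rsk_int_mono {F' F : Finset (ℤ × ℤ)} (h : F' ⊆ F) : rswInt F' ⊆ rswInt F := by
  intro e he
  rw [rsk_mem_int] at he ⊢
  exact ⟨h he.1, h he.2⟩

/-- the endpoints of an interior edge are corners -/
theorem rsk_int_fst {F : Finset (ℤ × ℤ)} {e : (ℤ × ℤ) × Bool} (he : e ∈ rswInt F) :
    e.1 ∈ cornersOf F := rsk_mem_corners.2 (Or.inl (rsk_mem_int.1 he).1)

theorem rsk_int_end {F : Finset (ℤ × ℤ)} {e : (ℤ × ℤ) × Bool} (he : e ∈ rswInt F) :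
    rswEnd e ∈ cornersOf F := by
  obtain ⟨⟨x, y⟩, c⟩ := e
  have h1 := (rsk_mem_int.1 he).1
  rw [rsk_mem_corners]
  cases c
  · right; left
    simpa [rswEnd] using h1
  · right; right; left
    simpa [rswEnd] using h1

/-- an endpoint in the core forces both faces into `F'` -/
theorem rsk_fst_core {F' : Finset (ℤ × ℤ)} {e : (ℤ × ℤ) × Bool} (h : e.1 ∈ rskCore F') :
    e ∈ rswInt F' := by
  obtain ⟨⟨x, y⟩, c⟩ := e
  rw [rsk_mem_core] at h
  rw [rsk_mem_int]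
  cases c
  · exact ⟨h.1, by simpa [rswCo] using h.2.2.1⟩
  · exact ⟨h.1, by simpa [rswCo] using h.2.1⟩

theorem rsk_end_core {F' : Finset (ℤ × ℤ)} {e : (ℤ × ℤ) × Bool} (h : rswEnd e ∈ rskCore F') :
    e ∈ rswInt F' := by
  obtain ⟨⟨x, y⟩, c⟩ := e
  rw [rsk_mem_core] at h
  rw [rsk_mem_int]
  cases c
  · simp only [rswEnd, Bool.false_eq_true, if_false, add_sub_cancel_right] at h
    exact ⟨h.2.1, by simpa [rswCo] using h.2.2.2⟩
  · simp only [rswEnd, if_true, add_sub_cancel_right] at h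
    exact ⟨h.2.2.1, by simpa [rswCo] using h.2.2.2⟩

/-- on the cut every corner on the polygon of `F'` has colour `a` -/
theorem rsk_cut_rim {F' : Finset (ℤ × ℤ)} {a : Bool} {ω : RswCfg} (hc : RswCut F' a ω)
    {v : ℤ × ℤ} (hv : v ∈ cornersOf F') (hp : v ∉ rskCore F') : (v ∈ ω.S ↔ a = true) := by
  obtain ⟨x, y⟩ := v
  rw [rsk_mem_corners] at hv
  rw [rsk_mem_core] at hp
  simp only at hv hp
  have e1 := hc ((x, y), true)
  have e2 := hc ((x - 1, y), false)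
  have e3 := hc ((x, y - 1), true)
  have e4 := hc ((x, y), false)
  simp only [RskBd, RswGood, rswCo, rswEnd, if_true, Bool.false_eq_true, if_false,
    sub_add_cancel] at e1 e2 e3 e4
  by_cases hA : (x, y) ∈ F' <;> by_cases hB : (x - 1, y) ∈ F' <;>
    by_cases hC : (x - 1, y - 1) ∈ F' <;> by_cases hD : (x, y - 1) ∈ F' <;>
    simp only [hA, hB, hC, hD, true_and, and_true, not_true_eq_false, not_false_eq_true,
      false_and, and_false, or_false, false_or, or_true, true_or, forall_true_left,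
      IsEmpty.forall_iff, and_self, or_self] at e1 e2 e3 e4 hv hp
  all_goals first
    | exact e1.2.1
    | exact e4.2.1
    | exact e2.2.2
    | exact e3.2.2

/-! ## §C the factor of one edge -/

theorem rsk_fac_congr (t : ℝ) {ω ω' : RswCfg} {e : (ℤ × ℤ) × Bool}
    (hO : e ∈ ω.O ↔ e ∈ ω'.O) (h1 : e.1 ∈ ω.S ↔ e.1 ∈ ω'.S) (h2 : rswEnd e ∈ ω.S ↔ rswEnd e ∈ ω'.S)
    (h3 : e.1 ∈ ω.D ↔ e.1 ∈ ω'.D) (h4 : rswCo e ∈ ω.D ↔ rswCo e ∈ ω'.D) :
    rswFac t ω e = rswFac t ω' e := by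
  unfold rswFac
  simp only [hO, h1, h2, h3, h4]

theorem rsk_fac_congr_open (t : ℝ) {ω ω' : RswCfg} {e : (ℤ × ℤ) × Bool}
    (hO : e ∈ ω.O) (hO' : e ∈ ω'.O) (h1 : e.1 ∈ ω.S ↔ e.1 ∈ ω'.S)
    (h2 : rswEnd e ∈ ω.S ↔ rswEnd e ∈ ω'.S) :
    rswFac t ω e = rswFac t ω' e := by
  unfold rswFac
  simp only [hO, hO', h1, h2, if_true]

theorem rsk_fac_in (t : ℝ) (F' : Finset (ℤ × ℤ)) (ω : RswCfg) {e : (ℤ × ℤ) × Bool}
    (he : e ∈ rswInt F') : rswFac t (rskIn F' ω) e = rswFac t ω e := by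
  have h := rsk_mem_int.1 he
  apply rsk_fac_congr <;> simp only [rskIn, Finset.mem_inter]
  · exact ⟨fun h => h.1, fun h => ⟨h, he⟩⟩
  · exact ⟨fun h => h.1, fun h => ⟨h, rsk_int_fst he⟩⟩
  · exact ⟨fun h => h.1, fun h => ⟨h, rsk_int_end he⟩⟩
  · exact ⟨fun h => h.1, fun h' => ⟨h', h.1⟩⟩
  · exact ⟨fun h => h.1, fun h' => ⟨h', h.2⟩⟩

theorem rsk_out_S {F' : Finset (ℤ × ℤ)} {ω : RswCfg} {v : ℤ × ℤ} (hv : v ∉ rskCore F') :
    (v ∈ (rskOut F' ω).S ↔ v ∈ ω.S) := by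
  simp only [rskOut, Finset.mem_sdiff]
  exact ⟨fun h => h.1, fun h => ⟨h, hv⟩⟩

theorem rsk_out_O {F' : Finset (ℤ × ℤ)} {ω : RswCfg} {e : (ℤ × ℤ) × Bool} (he : e ∉ rswInt F') :
    (e ∈ (rskOut F' ω).O ↔ e ∈ ω.O) := by
  simp only [rskOut, Finset.mem_sdiff]
  exact ⟨fun h => h.1, fun h => ⟨h, he⟩⟩

theorem rsk_out_D {F' : Finset (ℤ × ℤ)} {ω : RswCfg} {f : ℤ × ℤ} (hf : f ∉ F') :
    (f ∈ (rskOut F' ω).D ↔ f ∈ ω.D) := by
  simp only [rskOut, Finset.mem_sdiff]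
  exact ⟨fun h => h.1, fun h => ⟨h, hf⟩⟩

theorem rsk_good_out {F' : Finset (ℤ × ℤ)} {a : Bool} {ω : RswCfg} {e : (ℤ × ℤ) × Bool}
    (he : e ∉ rswInt F') : (RswGood a (rskOut F' ω) e ↔ RswGood a ω e) := by
  unfold RswGood
  rw [rsk_out_O he, rsk_out_S (fun h => he (rsk_fst_core h)), rsk_out_S (fun h => he (rsk_end_core h))]

theorem rsk_bd_not_int {F' : Finset (ℤ × ℤ)} {e : (ℤ × ℤ) × Bool} (h : RskBd F' e) :
    e ∉ rswInt F' := by
  rw [rsk_mem_int]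
  rcases h with h | h
  · exact fun h' => h.2 h'.2
  · exact fun h' => h.1 h'.1

/-- the cut is read off the outside -/
theorem rsk_cut_out {F' : Finset (ℤ × ℤ)} {a : Bool} {ω : RswCfg} :
    (RswCut F' a (rskOut F' ω) ↔ RswCut F' a ω) := by
  unfold RswCut
  exact forall_congr' (fun e => imp_congr_right (fun h => rsk_good_out (rsk_bd_not_int h)))

theorem rsk_fac_out (t : ℝ) {F' : Finset (ℤ × ℤ)} {a : Bool} {ω : RswCfg} (hc : RswCut F' a ω)
    {e : (ℤ × ℤ) × Bool} (he : e ∉ rswInt F') : rswFac t (rskOut F' ω) e = rswFac t ω e := by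
  have h1 := rsk_out_S (ω := ω) (fun h => he (rsk_fst_core h))
  have h2 := rsk_out_S (ω := ω) (fun h => he (rsk_end_core h))
  by_cases hb : RskBd F' e
  · have hg := hc e hb
    exact rsk_fac_congr_open t ((rsk_out_O he).2 hg.1) hg.1 h1 h2
  · have h3 : e.1 ∉ F' ∧ rswCo e ∉ F' := by
      rw [rsk_mem_int] at he
      unfold RskBd at hb
      by_cases hx : e.1 ∈ F' <;> by_cases hy : rswCo e ∈ F' <;> simp_all
    exact rsk_fac_congr t (rsk_out_O he) h1 h2 (rsk_out_D h3.1) (rsk_out_D h3.2)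

theorem rsk_bc_out {F' F : Finset (ℤ × ℤ)} (hF : F' ⊆ F) {b : Bool} {ω : RswCfg} :
    (RswBc F b (rskOut F' ω) ↔ RswBc F b ω) := by
  unfold RswBc
  refine forall_congr' (fun v => imp_congr_right (fun _ => imp_congr_right (fun hp => ?_)))
  rw [rsk_out_S]
  intro hv
  rw [rsk_mem_core] at hv
  exact hp ⟨hF hv.1, hF hv.2.1, hF hv.2.2.1, hF hv.2.2.2⟩

theorem rsk_bc_in {F' : Finset (ℤ × ℤ)} {a : Bool} {ω : RswCfg} (hc : RswCut F' a ω) :
    RswBc F' a (rskIn F' ω) := by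
  intro v hv hp
  have := rsk_cut_rim hc hv (fun h => (rsk_core_iff.1 h) hp)
  simp only [rskIn, Finset.mem_inter]
  exact ⟨fun h => this.1 h.1, fun h => ⟨this.2 h, hv⟩⟩

/-- the weight splits on the cut -/
theorem rsk_wt_split (t : ℝ) {F' F : Finset (ℤ × ℤ)} (hF : F' ⊆ F) {a : Bool} (b : Bool)
    {ω : RswCfg} (hc : RswCut F' a ω) :
    rswWt t F b ω = rswWt t F' a (rskIn F' ω) * rskWout t F F' b (rskOut F' ω) := by
  classical
  unfold rswWt rskWout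
  rw [if_pos (rsk_bc_in hc)]
  by_cases hb : RswBc F b ω
  · rw [if_pos hb, if_pos ((rsk_bc_out hF).2 hb), ← Finset.prod_sdiff (rsk_int_mono hF), mul_comm]
    congr 1
    · exact Finset.prod_congr rfl (fun e he => (rsk_fac_in t F' ω he).symm)
    · exact Finset.prod_congr rfl
        (fun e he => (rsk_fac_out t hc (Finset.mem_sdiff.1 he).2).symm)
  · rw [if_neg hb, if_neg (fun h => hb ((rsk_bc_out hF).1 h)), mul_zero]

/-! ## §D sums over subsets -/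

theorem rsk_union_sdiff {α : Type*} [DecidableEq α] {A B S₁ S₂ : Finset α} (h1 : S₁ ⊆ B)
    (h2 : S₂ ⊆ A \ B) : (S₁ ∪ S₂) \ B = S₂ := by
  ext x
  simp only [Finset.mem_sdiff, Finset.mem_union]
  constructor
  · rintro ⟨h | h, hx⟩
    · exact absurd (h1 h) hx
    · exact h
  · intro h
    exact ⟨Or.inr h, (Finset.mem_sdiff.1 (h2 h)).2⟩

theorem rsk_union_inter {α : Type*} [DecidableEq α] {A B S₁ S₂ : Finset α} (h1 : S₁ ⊆ B)
    (h2 : S₂ ⊆ A \ B) : (S₁ ∪ S₂) ∩ B = S₁ := by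
  ext x
  simp only [Finset.mem_inter, Finset.mem_union]
  constructor
  · rintro ⟨h | h, hx⟩
    · exact h
    · exact absurd hx (Finset.mem_sdiff.1 (h2 h)).2
  · intro h
    exact ⟨Or.inl h, h1 h⟩

theorem rsk_sum_powerset_split {α : Type*} [DecidableEq α] {B A : Finset α} (hBA : B ⊆ A)
    (f : Finset α → ℝ) :
    ∑ S ∈ A.powerset, f S = ∑ S₁ ∈ B.powerset, ∑ S₂ ∈ (A \ B).powerset, f (S₁ ∪ S₂) := by
  rw [← Finset.sum_product']
  refine Finset.sum_nbij' (fun S => (S ∩ B, S \ B)) (fun p => p.1 ∪ p.2) ?_ ?_ ?_ ?_ ?_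
  · intro S hS
    rw [Finset.mem_powerset] at hS
    simp only [Finset.mem_product, Finset.mem_powerset]
    exact ⟨Finset.inter_subset_right, Finset.sdiff_subset_sdiff hS le_rfl⟩
  · intro p hp
    simp only [Finset.mem_product, Finset.mem_powerset] at hp
    rw [Finset.mem_powerset]
    exact Finset.union_subset (hp.1.trans hBA) (hp.2.trans Finset.sdiff_subset)
  · intro S _
    ext x
    simp only [Finset.mem_union, Finset.mem_inter, Finset.mem_sdiff]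
    tauto
  · intro p hp
    simp only [Finset.mem_product, Finset.mem_powerset] at hp
    exact Prod.ext (rsk_union_inter hp.1 hp.2) (rsk_union_sdiff hp.1 hp.2)
  · intro S _
    congr 1
    ext x
    simp only [Finset.mem_union, Finset.mem_inter, Finset.mem_sdiff]
    tauto

theorem rsk_sum6 {α β γ : Type*} (s₁ s₂ : Finset α) (d₁ d₂ : Finset β) (o₁ o₂ : Finset γ)
    (A B : α → β → γ → ℝ) :
    ∑ a₁ ∈ s₁, ∑ a₂ ∈ s₂, ∑ b₁ ∈ d₁, ∑ b₂ ∈ d₂, ∑ c₁ ∈ o₁, ∑ c₂ ∈ o₂, A a₁ b₁ c₁ * B a₂ b₂ c₂ =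
      (∑ a₁ ∈ s₁, ∑ b₁ ∈ d₁, ∑ c₁ ∈ o₁, A a₁ b₁ c₁) *
        (∑ a₂ ∈ s₂, ∑ b₂ ∈ d₂, ∑ c₂ ∈ o₂, B a₂ b₂ c₂) := by
  simp only [Finset.sum_mul]
  refine Finset.sum_congr rfl (fun a₁ _ => ?_)
  rw [Finset.sum_comm]
  refine Finset.sum_congr rfl (fun b₁ _ => ?_)
  have : ∀ a₂ ∈ s₂, ∑ b₂ ∈ d₂, ∑ c₁ ∈ o₁, ∑ c₂ ∈ o₂, A a₁ b₁ c₁ * B a₂ b₂ c₂ =
      ∑ c₁ ∈ o₁, ∑ b₂ ∈ d₂, ∑ c₂ ∈ o₂, A a₁ b₁ c₁ * B a₂ b₂ c₂ := fun a₂ _ => Finset.sum_comm
  rw [Finset.sum_congr rfl this, Finset.sum_comm]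
  refine Finset.sum_congr rfl (fun c₁ _ => ?_)
  simp only [Finset.mul_sum]

/-! ## §E the product formula -/

theorem rsk_rim_sub (F' : Finset (ℤ × ℤ)) (a : Bool) : rskRim F' a ⊆ cornersOf F' \ rskCore F' := by
  unfold rskRim
  split_ifs
  · exact le_rfl
  · exact Finset.empty_subset _

theorem rsk_mem_rim {F' : Finset (ℤ × ℤ)} {a : Bool} {v : ℤ × ℤ} :
    v ∈ rskRim F' a ↔ (a = true ∧ v ∈ cornersOf F' ∧ v ∉ rskCore F') := by
  unfold rskRim
  split_ifs with h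
  · simp [h]
  · simp [h]

/-- the flat problem `(F', a)` as a sum over the strict inside -/
theorem rsk_sum_in (t : ℝ) (F' : Finset (ℤ × ℤ)) (a : Bool) (X : RswCfg → ℝ) :
    rswSum t F' a X = ∑ S ∈ (rskCore F').powerset, ∑ D ∈ F'.powerset, ∑ O ∈ (rswInt F').powerset,
      rswWt t F' a ⟨S ∪ rskRim F' a, D, O⟩ * X ⟨S ∪ rskRim F' a, D, O⟩ := by
  classical
  unfold rswSum
  rw [rsk_sum_powerset_split (rsk_core_sub F')]
  refine Finset.sum_congr rfl (fun S₁ hS₁ => ?_)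
  rw [Finset.mem_powerset] at hS₁
  rw [Finset.sum_eq_single (rskRim F' a)]
  · intro S₂ hS₂ hne
    rw [Finset.mem_powerset] at hS₂
    refine Finset.sum_eq_zero (fun D _ => Finset.sum_eq_zero (fun O _ => ?_))
    unfold rswWt
    rw [if_neg, zero_mul]
    intro hb
    apply hne
    ext v
    rw [rsk_mem_rim]
    constructor
    · intro hv
      have h1 := Finset.mem_sdiff.1 (hS₂ hv)
      refine ⟨?_, h1.1, h1.2⟩
      exact (hb v h1.1 (fun h => h1.2 (rsk_core_iff.2 (not_not.2 h)))).1 (Finset.mem_union_right _ hv)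
    · rintro ⟨ha, h1, h2⟩
      have := (hb v h1 (fun h => h2 (rsk_core_iff.2 (not_not.2 h)))).2 ha
      rcases Finset.mem_union.1 this with h | h
      · exact absurd (hS₁ h) h2
      · exact h
  · intro h
    exact absurd (Finset.mem_powerset.2 (rsk_rim_sub F' a)) h

/-- one term of the big sum -/
theorem rsk_term (t : ℝ) {F' F : Finset (ℤ × ℤ)} (hF : F' ⊆ F) (a b : Bool) (X Y : RswCfg → ℝ)
    {S₁ S₂ D₁ D₂ : Finset (ℤ × ℤ)} {O₁ O₂ : Finset ((ℤ × ℤ) × Bool)}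
    (hS₁ : S₁ ⊆ rskCore F') (hS₂ : S₂ ⊆ cornersOf F \ rskCore F')
    (hD₁ : D₁ ⊆ F') (hD₂ : D₂ ⊆ F \ F')
    (hO₁ : O₁ ⊆ rswInt F') (hO₂ : O₂ ⊆ rswInt F \ rswInt F') :
    rswWt t F b ⟨S₁ ∪ S₂, D₁ ∪ D₂, O₁ ∪ O₂⟩ *
        (rskInd F' a ⟨S₁ ∪ S₂, D₁ ∪ D₂, O₁ ∪ O₂⟩ * X (rskIn F' ⟨S₁ ∪ S₂, D₁ ∪ D₂, O₁ ∪ O₂⟩) *
          Y (rskOut F' ⟨S₁ ∪ S₂, D₁ ∪ D₂, O₁ ∪ O₂⟩)) =
      (rswWt t F' a ⟨S₁ ∪ rskRim F' a, D₁, O₁⟩ * X ⟨S₁ ∪ rskRim F' a, D₁, O₁⟩) *
        (rskInd F' a ⟨S₂, D₂, O₂⟩ * rskWout t F F' b ⟨S₂, D₂, O₂⟩ * Y ⟨S₂, D₂, O₂⟩) := by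
  classical
  have hout : rskOut F' ⟨S₁ ∪ S₂, D₁ ∪ D₂, O₁ ∪ O₂⟩ = ⟨S₂, D₂, O₂⟩ := by
    unfold rskOut
    simp only [rsk_union_sdiff hS₁ hS₂, rsk_union_sdiff hD₁ hD₂, rsk_union_sdiff hO₁ hO₂]
  by_cases hc : RswCut F' a ⟨S₁ ∪ S₂, D₁ ∪ D₂, O₁ ∪ O₂⟩
  · have hc' : RswCut F' a ⟨S₂, D₂, O₂⟩ := by
      rw [← hout]; exact rsk_cut_out.2 hc
    have hin : rskIn F' ⟨S₁ ∪ S₂, D₁ ∪ D₂, O₁ ∪ O₂⟩ = ⟨S₁ ∪ rskRim F' a, D₁, O₁⟩ := by
      unfold rskIn
      simp only [rsk_union_inter hD₁ hD₂, rsk_union_inter hO₁ hO₂]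
      congr 1
      ext v
      simp only [Finset.mem_inter, Finset.mem_union, rsk_mem_rim]
      by_cases hv : v ∈ rskCore F'
      · have h2 : v ∉ S₂ := fun h => (Finset.mem_sdiff.1 (hS₂ h)).2 hv
        have h3 := rsk_core_sub F' hv
        simp [hv, h2, h3]
      · have h1 : v ∉ S₁ := fun h => hv (hS₁ h)
        by_cases h3 : v ∈ cornersOf F'
        · have h4 := rsk_cut_rim hc h3 hv
          simp only [Finset.mem_union, h1, false_or] at h4
          simp [hv, h1, h3, h4]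
        · simp [h1, h3]
    rw [rsk_wt_split t hF b hc, hout, hin]
    unfold rskInd
    rw [if_pos hc, if_pos hc']
    ring
  · have hc' : ¬ RswCut F' a ⟨S₂, D₂, O₂⟩ := by
      rw [← hout]; exact fun h => hc (rsk_cut_out.1 h)
    unfold rskInd
    rw [if_neg hc, if_neg hc']
    ring

/-- **product formula** (all `t`) -/
theorem rsk_cut_prod (t : ℝ) {F' F : Finset (ℤ × ℤ)} (hF : F' ⊆ F) (a b : Bool)
    (X Y : RswCfg → ℝ) :
    rswSum t F b (fun ω => rskInd F' a ω * X (rskIn F' ω) * Y (rskOut F' ω)) =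
      rswSum t F' a X * rskG t F F' a b Y := by
  classical
  rw [rsk_sum_in t F' a X]
  unfold rskG
  rw [← rsk_sum6 _ _ _ _ _ _
    (fun S D O => rswWt t F' a ⟨S ∪ rskRim F' a, D, O⟩ * X ⟨S ∪ rskRim F' a, D, O⟩)
    (fun S D O => rskInd F' a ⟨S, D, O⟩ * rskWout t F F' b ⟨S, D, O⟩ * Y ⟨S, D, O⟩)]
  unfold rswSum
  rw [rsk_sum_powerset_split ((rsk_core_sub F').trans (rsk_corners_mono hF))]
  refine Finset.sum_congr rfl (fun S₁ hS₁ => Finset.sum_congr rfl (fun S₂ hS₂ => ?_))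
  rw [rsk_sum_powerset_split hF]
  refine Finset.sum_congr rfl (fun D₁ hD₁ => Finset.sum_congr rfl (fun D₂ hD₂ => ?_))
  rw [rsk_sum_powerset_split (rsk_int_mono hF)]
  refine Finset.sum_congr rfl (fun O₁ hO₁ => Finset.sum_congr rfl (fun O₂ hO₂ => ?_))
  rw [Finset.mem_powerset] at hS₁ hS₂ hD₁ hD₂ hO₁ hO₂
  exact rsk_term t hF a b X Y hS₁ hS₂ hD₁ hD₂ hO₁ hO₂

/-- cross multiplied form (all `t`) -/
theorem rsk_cut_cross (t : ℝ) {F' F : Finset (ℤ × ℤ)} (hF : F' ⊆ F) (a b : Bool)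
    (X Y : RswCfg → ℝ) :
    rswSum t F b (fun ω => rskInd F' a ω * X (rskIn F' ω) * Y (rskOut F' ω)) *
        rswSum t F' a (fun _ => 1) =
      rswSum t F' a X * rswSum t F b (fun ω => rskInd F' a ω * Y (rskOut F' ω)) := by
  have h1 := rsk_cut_prod t hF a b X Y
  have h2 := rsk_cut_prod t hF a b (fun _ => 1) Y
  simp only [mul_one] at h2
  rw [h1, h2]
  ring

/-! ## §F positivity, and the normalised forms -/

theorem rsk_fac_nonneg {t : ℝ} (ht0 : 0 ≤ t) (ht1 : t ≤ 1) (ω : RswCfg) (e : (ℤ × ℤ) × Bool) :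
    0 ≤ rswFac t ω e := by
  unfold rswFac
  split_ifs <;> linarith

theorem rsk_wt_nonneg {t : ℝ} (ht0 : 0 ≤ t) (ht1 : t ≤ 1) (F : Finset (ℤ × ℤ)) (b : Bool)
    (ω : RswCfg) : 0 ≤ rswWt t F b ω := by
  unfold rswWt
  split_ifs
  · exact Finset.prod_nonneg (fun e _ => rsk_fac_nonneg ht0 ht1 ω e)
  · exact le_rfl

theorem rsk_sum_one_pos {t : ℝ} (ht0 : 0 < t) (ht1 : t ≤ 1) (F : Finset (ℤ × ℤ)) (b : Bool) :
    0 < rswSum t F b (fun _ => 1) := by
  classical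
  unfold rswSum
  have hnn : ∀ ω : RswCfg, 0 ≤ rswWt t F b ω * 1 := fun ω => by
    rw [mul_one]; exact rsk_wt_nonneg ht0.le ht1 F b ω
  refine Finset.sum_pos' (fun S _ => Finset.sum_nonneg (fun D _ => Finset.sum_nonneg
    (fun O _ => hnn _))) ⟨if b = true then cornersOf F else ∅, ?_, ?_⟩
  · rw [Finset.mem_powerset]
    split_ifs
    · exact le_rfl
    · exact Finset.empty_subset _
  refine Finset.sum_pos' (fun D _ => Finset.sum_nonneg (fun O _ => hnn _))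
    ⟨∅, Finset.empty_mem_powerset _, ?_⟩
  refine Finset.sum_pos' (fun O _ => hnn _) ⟨rswInt F, Finset.mem_powerset_self _, ?_⟩
  rw [mul_one]
  have hS : ∀ v ∈ cornersOf F, (v ∈ (if b = true then cornersOf F else ∅) ↔ b = true) := by
    intro v hv
    split_ifs with h
    · simp [h, hv]
    · simp [h]
  have hbc : RswBc F b ⟨if b = true then cornersOf F else ∅, ∅, rswInt F⟩ := fun v hv _ => hS v hv
  unfold rswWt
  rw [if_pos hbc]
  refine Finset.prod_pos (fun e he => ?_)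
  unfold rswFac
  simp only
  rw [if_pos he, if_pos (by rw [hS _ (rsk_int_fst he), hS _ (rsk_int_end he)])]
  exact ht0

/-- **lem:finite-cuts (2)**, composition form -/
theorem rsk_cut_comp {t : ℝ} (ht0 : 0 < t) (ht1 : t ≤ 1) {F' F : Finset (ℤ × ℤ)} (hF : F' ⊆ F)
    (a b : Bool) (X Y : RswCfg → ℝ) :
    rswSum t F b (fun ω => rskInd F' a ω * X (rskIn F' ω) * Y (rskOut F' ω)) =
      rswE t F' a X * rswSum t F b (fun ω => rskInd F' a ω * Y (rskOut F' ω)) := by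
  have h := rsk_cut_cross t hF a b X Y
  have hp := rsk_sum_one_pos ht0 ht1 F' a
  unfold rswE
  rw [div_mul_eq_mul_div, eq_div_iff hp.ne']
  exact h

/-- **lem:finite-cuts (2)**: `X` reads only inside `F'`, `Y` only the rest -/
theorem rsk_cut {t : ℝ} (ht0 : 0 < t) (ht1 : t ≤ 1) {F' F : Finset (ℤ × ℤ)} (hF : F' ⊆ F)
    (a b : Bool) {X Y : RswCfg → ℝ} (hX : RskInside F' X) (hY : RskOutside F' Y) :
    rswSum t F b (fun ω => rskInd F' a ω * X ω * Y ω) =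
      rswE t F' a X * rswSum t F b (fun ω => rskInd F' a ω * Y ω) := by
  have h := rsk_cut_comp ht0 ht1 hF a b X Y
  simp only [hX _, hY _] at h
  exact h

/-- the same for expectations -/
theorem rsk_cut_E {t : ℝ} (ht0 : 0 < t) (ht1 : t ≤ 1) {F' F : Finset (ℤ × ℤ)} (hF : F' ⊆ F)
    (a b : Bool) {X Y : RswCfg → ℝ} (hX : RskInside F' X) (hY : RskOutside F' Y) :
    rswE t F b (fun ω => rskInd F' a ω * X ω * Y ω) =
      rswE t F' a X * rswE t F b (fun ω => rskInd F' a ω * Y ω) := by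
  unfold rswE
  rw [rsk_cut ht0 ht1 hF a b hX hY]
  unfold rswE
  ring

/-- a local function whose windows lie in `F'` reads only inside `F'` -/
theorem rsk_inside_of_loc {F' R : Finset (ℤ × ℤ)} {R' : Finset ((ℤ × ℤ) × Bool)} {X : RswCfg → ℝ}
    (hX : RswLoc R R' X) (hR : R ⊆ F') (hR' : R' ⊆ rswInt F') : RskInside F' X := by
  intro ω
  apply hX
  · ext v
    simp only [rskIn, Finset.mem_inter]
    exact ⟨fun h => ⟨h.1.1, h.2⟩, fun h => ⟨⟨h.1, rsk_mem_corners.2 (Or.inl (hR h.2))⟩, h.2⟩⟩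
  · ext v
    simp only [rskIn, Finset.mem_inter]
    exact ⟨fun h => ⟨h.1.1, h.2⟩, fun h => ⟨⟨h.1, hR h.2⟩, h.2⟩⟩
  · ext v
    simp only [rskIn, Finset.mem_inter]
    exact ⟨fun h => ⟨h.1.1, h.2⟩, fun h => ⟨⟨h.1, hR' h.2⟩, h.2⟩⟩

/-- a local function whose windows avoid the strict inside of `F'` reads only the rest -/
theorem rsk_outside_of_loc {F' R : Finset (ℤ × ℤ)} {R' : Finset ((ℤ × ℤ) × Bool)} {Y : RswCfg → ℝ}
    (hY : RswLoc R R' Y) (hR : Disjoint R (cornersOf F')) (hR' : Disjoint R' (rswInt F')) :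
    RskOutside F' Y := by
  intro ω
  apply hY
  · ext v
    simp only [rskOut, Finset.mem_inter, Finset.mem_sdiff]
    exact ⟨fun h => ⟨h.1.1, h.2⟩, fun h => ⟨⟨h.1, fun h' =>
      Finset.disjoint_left.1 hR h.2 (rsk_core_sub F' h')⟩, h.2⟩⟩
  · ext v
    simp only [rskOut, Finset.mem_inter, Finset.mem_sdiff]
    exact ⟨fun h => ⟨h.1.1, h.2⟩, fun h => ⟨⟨h.1, fun h' =>
      Finset.disjoint_left.1 hR h.2 (rsk_mem_corners.2 (Or.inl h'))⟩, h.2⟩⟩
  · ext v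
    simp only [rskOut, Finset.mem_inter, Finset.mem_sdiff]
    exact ⟨fun h => ⟨h.1.1, h.2⟩, fun h => ⟨⟨h.1, fun h' =>
      Finset.disjoint_left.1 hR' h.2 h'⟩, h.2⟩⟩

/-- the indicator of the cut reads only the rest -/
theorem rsk_ind_outside (F' : Finset (ℤ × ℤ)) (a : Bool) : RskOutside F' (rskInd F' a) := by
  classical
  intro ω
  unfold rskInd
  by_cases h : RswCut F' a ω
  · rw [if_pos h, if_pos (rsk_cut_out.2 h)]
  · rw [if_neg h, if_neg (fun h' => h (rsk_cut_out.1 h'))]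

/-- a property of the good edges off the interior edges of `F'` reads only the rest -/
theorem rsk_outside_of_good {F' : Finset (ℤ × ℤ)} {a : Bool} {Y : RswCfg → ℝ}
    (hY : ∀ ω ω' : RswCfg, (∀ e, e ∉ rswInt F' → (RswGood a ω e ↔ RswGood a ω' e)) → Y ω = Y ω') :
    RskOutside F' Y := fun _ => hY _ _ (fun _ he => rsk_good_out he)

/-! ## §G several disjoint chambers: independent flat laws -/

theorem rsk_core_disjoint {F₁ F₂ : Finset (ℤ × ℤ)} (h : Disjoint F₁ F₂) {v : ℤ × ℤ}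
    (hv : v ∈ cornersOf F₂) : v ∉ rskCore F₁ := by
  intro hc
  rw [rsk_mem_core] at hc
  rw [rsk_mem_corners] at hv
  rcases hv with h1 | h1 | h1 | h1
  · exact Finset.disjoint_left.1 h hc.1 h1
  · exact Finset.disjoint_left.1 h hc.2.1 h1
  · exact Finset.disjoint_left.1 h hc.2.2.1 h1
  · exact Finset.disjoint_left.1 h hc.2.2.2 h1

theorem rsk_in_out_of_disjoint {F₁ F₂ : Finset (ℤ × ℤ)} (h : Disjoint F₁ F₂) (ω : RswCfg) :
    rskIn F₂ (rskOut F₁ ω) = rskIn F₂ ω := by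
  unfold rskIn rskOut
  simp only [RswCfg.mk.injEq]
  refine ⟨?_, ?_, ?_⟩
  · ext v
    simp only [Finset.mem_inter, Finset.mem_sdiff]
    exact ⟨fun h' => ⟨h'.1.1, h'.2⟩, fun h' => ⟨⟨h'.1, rsk_core_disjoint h h'.2⟩, h'.2⟩⟩
  · ext v
    simp only [Finset.mem_inter, Finset.mem_sdiff]
    exact ⟨fun h' => ⟨h'.1.1, h'.2⟩,
      fun h' => ⟨⟨h'.1, fun h1 => Finset.disjoint_left.1 h h1 h'.2⟩, h'.2⟩⟩
  · ext e
    simp only [Finset.mem_inter, Finset.mem_sdiff]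
    exact ⟨fun h' => ⟨h'.1.1, h'.2⟩, fun h' => ⟨⟨h'.1, fun h1 =>
      Finset.disjoint_left.1 h (rsk_mem_int.1 h1).1 (rsk_mem_int.1 h'.2).1⟩, h'.2⟩⟩

/-- what is read inside `F₂` is read outside a disjoint `F₁` -/
theorem rsk_inside_outside {F₁ F₂ : Finset (ℤ × ℤ)} (h : Disjoint F₁ F₂) {X : RswCfg → ℝ}
    (hX : RskInside F₂ X) : RskOutside F₁ X := fun ω => by
  rw [← hX, rsk_in_out_of_disjoint h, hX]

theorem rsk_cut_out_of_disjoint {F₁ F₂ : Finset (ℤ × ℤ)} (h : Disjoint F₁ F₂) {a : Bool}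
    {ω : RswCfg} : (RswCut F₂ a (rskOut F₁ ω) ↔ RswCut F₂ a ω) := by
  unfold RswCut
  refine forall_congr' (fun e => imp_congr_right (fun hb => rsk_good_out ?_))
  intro he
  rw [rsk_mem_int] at he
  rcases hb with hb | hb
  · exact Finset.disjoint_left.1 h he.1 hb.1
  · exact Finset.disjoint_left.1 h he.2 hb.2

theorem rsk_ind_outside_of_disjoint {F₁ F₂ : Finset (ℤ × ℤ)} (h : Disjoint F₁ F₂) (a : Bool) :
    RskOutside F₁ (rskInd F₂ a) := by
  classical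
  intro ω
  unfold rskInd
  by_cases hc : RswCut F₂ a ω
  · rw [if_pos hc, if_pos ((rsk_cut_out_of_disjoint h).2 hc)]
  · rw [if_neg hc, if_neg (fun h' => hc ((rsk_cut_out_of_disjoint h).1 h'))]

theorem rsk_outside_mul {F' : Finset (ℤ × ℤ)} {Y Y' : RswCfg → ℝ} (h : RskOutside F' Y)
    (h' : RskOutside F' Y') : RskOutside F' (fun ω => Y ω * Y' ω) := fun ω => by
  simp only [h ω, h' ω]

theorem rsk_outside_const (F' : Finset (ℤ × ℤ)) (c : ℝ) : RskOutside F' (fun _ => c) := fun _ => rfl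

theorem rsk_outside_prod {ι : Type*} {F' : Finset (ℤ × ℤ)} (s : Finset ι) {Y : ι → RswCfg → ℝ}
    (h : ∀ i ∈ s, RskOutside F' (Y i)) : RskOutside F' (fun ω => ∏ i ∈ s, Y i ω) := fun ω =>
  Finset.prod_congr rfl (fun i hi => h i hi ω)

theorem rsk_inside_mul {F' : Finset (ℤ × ℤ)} {X X' : RswCfg → ℝ} (h : RskInside F' X)
    (h' : RskInside F' X') : RskInside F' (fun ω => X ω * X' ω) := fun ω => by
  simp only [h ω, h' ω]

theorem rsk_inside_const (F' : Finset (ℤ × ℤ)) (c : ℝ) : RskInside F' (fun _ => c) := fun _ => rfl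

/-- **lem:finite-cuts (2)**, several chambers: given the cuts and the outside, the chambers carry independent flat laws -/
theorem rsk_cut_family {ι : Type*} {t : ℝ} (ht0 : 0 < t) (ht1 : t ≤ 1) {F : Finset (ℤ × ℤ)}
    (b : Bool) (Fs : ι → Finset (ℤ × ℤ)) (as : ι → Bool) (Xs : ι → RswCfg → ℝ) (s : Finset ι)
    (hsub : ∀ i ∈ s, Fs i ⊆ F)
    (hdis : ∀ i ∈ s, ∀ j ∈ s, i ≠ j → Disjoint (Fs i) (Fs j))
    (hX : ∀ i ∈ s, RskInside (Fs i) (Xs i)) (Y : RswCfg → ℝ) (hY : ∀ i ∈ s, RskOutside (Fs i) Y) :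
    rswSum t F b (fun ω => (∏ i ∈ s, rskInd (Fs i) (as i) ω * Xs i ω) * Y ω) =
      (∏ i ∈ s, rswE t (Fs i) (as i) (Xs i)) *
        rswSum t F b (fun ω => (∏ i ∈ s, rskInd (Fs i) (as i) ω) * Y ω) := by
  classical
  induction s using Finset.induction_on generalizing Y with
  | empty => simp
  | insert j s hj ih =>
    have hjm : j ∈ insert j s := Finset.mem_insert_self j s
    have hsm : ∀ i ∈ s, i ∈ insert j s := fun i hi => Finset.mem_insert_of_mem hi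
    have hne : ∀ i ∈ s, j ≠ i := fun i hi h => hj (h ▸ hi)
    have hY' : RskOutside (Fs j) (fun ω => (∏ i ∈ s, rskInd (Fs i) (as i) ω * Xs i ω) * Y ω) := by
      refine rsk_outside_mul (rsk_outside_prod s (fun i hi => rsk_outside_mul ?_ ?_)) (hY j hjm)
      · exact rsk_ind_outside_of_disjoint (hdis j hjm i (hsm i hi) (hne i hi)) (as i)
      · exact rsk_inside_outside (hdis j hjm i (hsm i hi) (hne i hi)) (hX i (hsm i hi))
    have h1 := rsk_cut ht0 ht1 (hsub j hjm) (as j) b (hX j hjm) hY'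
    have hY'' : ∀ i ∈ s, RskOutside (Fs i) (fun ω => rskInd (Fs j) (as j) ω * Y ω) := fun i hi =>
      rsk_outside_mul (rsk_ind_outside_of_disjoint (hdis i (hsm i hi) j hjm (hne i hi).symm) (as j))
        (hY i (hsm i hi))
    have h2 := ih (fun i hi => hsub i (hsm i hi))
      (fun i hi k hk => hdis i (hsm i hi) k (hsm k hk)) (fun i hi => hX i (hsm i hi)) _ hY''
    have e1 : (fun ω => (∏ i ∈ insert j s, rskInd (Fs i) (as i) ω * Xs i ω) * Y ω) =
        (fun ω => rskInd (Fs j) (as j) ω * Xs j ω *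
          ((∏ i ∈ s, rskInd (Fs i) (as i) ω * Xs i ω) * Y ω)) := by
      funext ω
      rw [Finset.prod_insert hj]
      ring
    have e2 : (fun ω => rskInd (Fs j) (as j) ω *
          ((∏ i ∈ s, rskInd (Fs i) (as i) ω * Xs i ω) * Y ω)) =
        (fun ω => (∏ i ∈ s, rskInd (Fs i) (as i) ω * Xs i ω) *
          (rskInd (Fs j) (as j) ω * Y ω)) := by
      funext ω
      ring
    have e3 : (fun ω => (∏ i ∈ insert j s, rskInd (Fs i) (as i) ω) * Y ω) =
        (fun ω => (∏ i ∈ s, rskInd (Fs i) (as i) ω) * (rskInd (Fs j) (as j) ω * Y ω)) := by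
      funext ω
      rw [Finset.prod_insert hj]
      ring
    rw [e1, h1, e2, h2, e3, Finset.prod_insert hj]
    ring

/-! ## §H lem:finite-cuts (1): the colours of the free `N` clusters are fair signs -/

/-- flip of the face spins on `C` -/
def rskFlip (C : Finset (ℤ × ℤ)) (ω : RswCfg) : RswCfg := ⟨ω.S, symmDiff ω.D C, ω.O⟩

/-- `C` is a union of `N` clusters of `ω` in `F`: no closed `W` edge of `F` has exactly one face in `C` -/
def RskClosed (F : Finset (ℤ × ℤ)) (O : Finset ((ℤ × ℤ) × Bool)) (C : Finset (ℤ × ℤ)) : Prop :=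
  ∀ e ∈ rswInt F, e ∉ O → (e.1 ∈ C ↔ rswCo e ∈ C)

theorem rsk_flip_fac (t : ℝ) {F : Finset (ℤ × ℤ)} {C : Finset (ℤ × ℤ)} {ω : RswCfg}
    (hC : RskClosed F ω.O C) {e : (ℤ × ℤ) × Bool} (he : e ∈ rswInt F) :
    rswFac t (rskFlip C ω) e = rswFac t ω e := by
  classical
  unfold rswFac rskFlip
  simp only
  by_cases hO : e ∈ ω.O
  · simp only [hO, if_true]
  · have h := hC e he hO
    have h2 : (e.1 ∈ symmDiff ω.D C ↔ rswCo e ∈ symmDiff ω.D C) ↔ (e.1 ∈ ω.D ↔ rswCo e ∈ ω.D) := by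
      simp only [Finset.mem_symmDiff, h]
      tauto
    simp only [hO, if_false, h2]

theorem rsk_flip_wt (t : ℝ) {F : Finset (ℤ × ℤ)} (b : Bool) {C : Finset (ℤ × ℤ)} {ω : RswCfg}
    (hC : RskClosed F ω.O C) : rswWt t F b (rskFlip C ω) = rswWt t F b ω := by
  classical
  unfold rswWt
  have hb : RswBc F b (rskFlip C ω) ↔ RswBc F b ω := Iff.rfl
  by_cases h : RswBc F b ω
  · rw [if_pos h, if_pos (hb.2 h)]
    exact Finset.prod_congr rfl (fun e he => rsk_flip_fac t hC he)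
  · rw [if_neg h, if_neg (fun h' => h (hb.1 h'))]

theorem rsk_sum_powerset_symmDiff {α : Type*} [DecidableEq α] {A C : Finset α} (hC : C ⊆ A)
    (f : Finset α → ℝ) : ∑ D ∈ A.powerset, f D = ∑ D ∈ A.powerset, f (symmDiff D C) := by
  have hm : ∀ D ∈ A.powerset, symmDiff D C ∈ A.powerset := by
    intro D hD
    rw [Finset.mem_powerset] at hD ⊢
    intro x hx
    rw [Finset.mem_symmDiff] at hx
    rcases hx with hx | hx
    · exact hD hx.1
    · exact hC hx.1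
  refine Finset.sum_nbij' (fun D => symmDiff D C) (fun D => symmDiff D C) hm hm ?_ ?_ ?_
  · intro D _
    exact symmDiff_symmDiff_cancel_right C D
  · intro D _
    exact symmDiff_symmDiff_cancel_right C D
  · intro D _
    simp only [symmDiff_symmDiff_cancel_right]

/-- **lem:finite-cuts (1)**: a union of `N` clusters chosen by `(s, W)` may be recoloured -/
theorem rsk_flip_sum (t : ℝ) (F : Finset (ℤ × ℤ)) (b : Bool)
    (C : Finset (ℤ × ℤ) → Finset ((ℤ × ℤ) × Bool) → Finset (ℤ × ℤ))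
    (hsub : ∀ S O, C S O ⊆ F) (hcl : ∀ S O, RskClosed F O (C S O)) (X : RswCfg → ℝ) :
    rswSum t F b X = rswSum t F b (fun ω => X (rskFlip (C ω.S ω.O) ω)) := by
  classical
  unfold rswSum
  refine Finset.sum_congr rfl (fun S _ => ?_)
  rw [Finset.sum_comm]
  conv_rhs => rw [Finset.sum_comm]
  refine Finset.sum_congr rfl (fun O _ => ?_)
  rw [rsk_sum_powerset_symmDiff (hsub S O)]
  refine Finset.sum_congr rfl (fun D _ => ?_)
  have h := rsk_flip_wt t b (ω := ⟨S, D, O⟩) (hcl S O)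
  unfold rskFlip at h ⊢
  simp only at h ⊢
  rw [h]

theorem rsk_flip_E (t : ℝ) (F : Finset (ℤ × ℤ)) (b : Bool)
    (C : Finset (ℤ × ℤ) → Finset ((ℤ × ℤ) × Bool) → Finset (ℤ × ℤ))
    (hsub : ∀ S O, C S O ⊆ F) (hcl : ∀ S O, RskClosed F O (C S O)) (X : RswCfg → ℝ) :
    rswE t F b X = rswE t F b (fun ω => X (rskFlip (C ω.S ω.O) ω)) := by
  unfold rswE
  rw [← rsk_flip_sum t F b C hsub hcl X]

/-! ## §I seals: a separator whose edges are open, or closed with both incident colours observed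
(TEX 05-screening, lem:screen-bridge-coupling, last paragraph: "exact separation") -/

/-- the part of the seal read inside `F'`: at a closed edge of the polygon of `F'` the colour of the inner face is the one of `β` -/
def RskSealA (F F' : Finset (ℤ × ℤ)) (β ω : RswCfg) : Prop :=
  ∀ e ∈ rswInt F, RskBd F' e → e ∉ β.O →
    (e.1 ∈ F' → (e.1 ∈ ω.D ↔ e.1 ∈ β.D)) ∧ (rswCo e ∈ F' → (rswCo e ∈ ω.D ↔ rswCo e ∈ β.D))

/-- the part of the seal read outside: the spins on the polygon of `F'`, the states of its edges, the colours of the outer faces of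
its closed edges are those of `β` -/
def RskSealB (F F' : Finset (ℤ × ℤ)) (β ω : RswCfg) : Prop :=
  (∀ v ∈ cornersOf F', v ∉ rskCore F' → (v ∈ ω.S ↔ v ∈ β.S)) ∧
  ∀ e ∈ rswInt F, RskBd F' e → (e ∈ ω.O ↔ e ∈ β.O) ∧
    (e ∉ β.O → (e.1 ∉ F' → (e.1 ∈ ω.D ↔ e.1 ∈ β.D)) ∧ (rswCo e ∉ F' → (rswCo e ∈ ω.D ↔ rswCo e ∈ β.D)))

/-- the seal -/
def RskSeal (F F' : Finset (ℤ × ℤ)) (β ω : RswCfg) : Prop := RskSealA F F' β ω ∧ RskSealB F F' β ω

noncomputable def rskSealInd (F F' : Finset (ℤ × ℤ)) (β ω : RswCfg) : ℝ :=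
  open Classical in if RskSeal F F' β ω then 1 else 0

theorem rsk_in_D {F' : Finset (ℤ × ℤ)} {ω : RswCfg} {f : ℤ × ℤ} (hf : f ∈ F') :
    (f ∈ (rskIn F' ω).D ↔ f ∈ ω.D) := by
  simp only [rskIn, Finset.mem_inter]
  exact ⟨fun h => h.1, fun h => ⟨h, hf⟩⟩

theorem rsk_sealA_in {F F' : Finset (ℤ × ℤ)} {β ω : RswCfg} :
    (RskSealA F F' β (rskIn F' ω) ↔ RskSealA F F' β ω) := by
  unfold RskSealA
  refine forall_congr' (fun e => imp_congr_right (fun _ => imp_congr_right (fun _ =>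
    imp_congr_right (fun _ => and_congr (imp_congr_right (fun h => ?_))
      (imp_congr_right (fun h => ?_))))))
  · rw [rsk_in_D h]
  · rw [rsk_in_D h]

theorem rsk_sealB_out {F F' : Finset (ℤ × ℤ)} {β ω : RswCfg} :
    (RskSealB F F' β (rskOut F' ω) ↔ RskSealB F F' β ω) := by
  unfold RskSealB
  refine and_congr (forall_congr' (fun v => imp_congr_right (fun _ => imp_congr_right (fun h => ?_))))
    (forall_congr' (fun e => imp_congr_right (fun _ => imp_congr_right (fun hb => and_congr ?_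
      (imp_congr_right (fun _ => and_congr (imp_congr_right (fun h => ?_))
        (imp_congr_right (fun h => ?_))))))))
  · rw [rsk_out_S h]
  · rw [rsk_out_O (rsk_bd_not_int hb)]
  · rw [rsk_out_D h]
  · rw [rsk_out_D h]

/-- the outside configuration, completed inside `F'` by the colours of `β` -/
def rskFill (F' : Finset (ℤ × ℤ)) (β η : RswCfg) : RswCfg := ⟨η.S, η.D ∪ (β.D ∩ F'), η.O⟩

noncomputable def rskWA (t : ℝ) (F' : Finset (ℤ × ℤ)) (ξ : RswCfg) : ℝ := ∏ e ∈ rswInt F', rswFac t ξ e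

noncomputable def rskWB (t : ℝ) (F F' : Finset (ℤ × ℤ)) (b : Bool) (β η : RswCfg) : ℝ :=
  open Classical in
  if RswBc F b η then ∏ e ∈ rswInt F \ rswInt F', rswFac t (rskFill F' β η) e else 0

theorem rsk_fill_fac (t : ℝ) {F F' : Finset (ℤ × ℤ)} {β ω : RswCfg} (hs : RskSeal F F' β ω)
    {e : (ℤ × ℤ) × Bool} (heF : e ∈ rswInt F) (he : e ∉ rswInt F') :
    rswFac t (rskFill F' β (rskOut F' ω)) e = rswFac t ω e := by
  have h1 : (e.1 ∈ (rskFill F' β (rskOut F' ω)).S ↔ e.1 ∈ ω.S) :=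
    rsk_out_S (ω := ω) (fun h => he (rsk_fst_core h))
  have h2 : (rswEnd e ∈ (rskFill F' β (rskOut F' ω)).S ↔ rswEnd e ∈ ω.S) :=
    rsk_out_S (ω := ω) (fun h => he (rsk_end_core h))
  have hO : (e ∈ (rskFill F' β (rskOut F' ω)).O ↔ e ∈ ω.O) := rsk_out_O he
  have hD : ∀ f, (f ∈ F' → (f ∈ ω.D ↔ f ∈ β.D)) →
      (f ∈ (rskFill F' β (rskOut F' ω)).D ↔ f ∈ ω.D) := by
    intro f hf
    simp only [rskFill, rskOut, Finset.mem_union, Finset.mem_sdiff, Finset.mem_inter]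
    by_cases hfF : f ∈ F'
    · have := hf hfF
      simp only [hfF, not_true_eq_false, and_false, and_true, false_or]
      exact this.symm
    · simp only [hfF, not_false_eq_true, and_true, and_false, or_false]
  by_cases hb : RskBd F' e
  · by_cases hβ : e ∈ β.O
    · have hω : e ∈ ω.O := ((hs.2.2 e heF hb).1).2 hβ
      exact rsk_fac_congr_open t (hO.2 hω) hω h1 h2
    · have hA := hs.1 e heF hb hβ
      exact rsk_fac_congr t hO h1 h2 (hD _ hA.1) (hD _ hA.2)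
  · have h3 : e.1 ∉ F' ∧ rswCo e ∉ F' := by
      rw [rsk_mem_int] at he
      unfold RskBd at hb
      by_cases hx : e.1 ∈ F' <;> by_cases hy : rswCo e ∈ F' <;> simp_all
    exact rsk_fac_congr t hO h1 h2 (hD _ (fun h => absurd h h3.1)) (hD _ (fun h => absurd h h3.2))

/-- the weight splits on the seal -/
theorem rsk_seal_wt (t : ℝ) {F' F : Finset (ℤ × ℤ)} (hF : F' ⊆ F) (b : Bool) {β ω : RswCfg}
    (hs : RskSeal F F' β ω) :
    rswWt t F b ω = rskWA t F' (rskIn F' ω) * rskWB t F F' b β (rskOut F' ω) := by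
  classical
  unfold rswWt rskWA rskWB
  by_cases hb : RswBc F b ω
  · rw [if_pos hb, if_pos ((rsk_bc_out hF).2 hb), ← Finset.prod_sdiff (rsk_int_mono hF), mul_comm]
    congr 1
    · exact Finset.prod_congr rfl (fun e he => (rsk_fac_in t F' ω he).symm)
    · exact Finset.prod_congr rfl (fun e he =>
        (rsk_fill_fac t hs (Finset.mem_sdiff.1 he).1 (Finset.mem_sdiff.1 he).2).symm)
  · rw [if_neg hb, if_neg (fun h => hb ((rsk_bc_out hF).1 h)), mul_zero]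

/-- the sum over the strict inside -/
noncomputable def rskI (t : ℝ) (F F' : Finset (ℤ × ℤ)) (β : RswCfg) (X : RswCfg → ℝ) : ℝ :=
  open Classical in
  ∑ S ∈ (rskCore F').powerset, ∑ D ∈ F'.powerset, ∑ O ∈ (rswInt F').powerset,
    (if RskSealA F F' β ⟨S ∪ (β.S ∩ (cornersOf F' \ rskCore F')), D, O⟩ then 1 else 0) *
      rskWA t F' ⟨S ∪ (β.S ∩ (cornersOf F' \ rskCore F')), D, O⟩ *
      X ⟨S ∪ (β.S ∩ (cornersOf F' \ rskCore F')), D, O⟩

/-- the sum over the rest -/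
noncomputable def rskJ (t : ℝ) (F F' : Finset (ℤ × ℤ)) (b : Bool) (β : RswCfg) (Y : RswCfg → ℝ) : ℝ :=
  open Classical in
  ∑ S ∈ (cornersOf F \ rskCore F').powerset, ∑ D ∈ (F \ F').powerset,
    ∑ O ∈ (rswInt F \ rswInt F').powerset,
      (if RskSealB F F' β ⟨S, D, O⟩ then 1 else 0) * rskWB t F F' b β ⟨S, D, O⟩ * Y ⟨S, D, O⟩

theorem rsk_seal_term (t : ℝ) {F' F : Finset (ℤ × ℤ)} (hF : F' ⊆ F) (b : Bool) (β : RswCfg)
    (X Y : RswCfg → ℝ)
    {S₁ S₂ D₁ D₂ : Finset (ℤ × ℤ)} {O₁ O₂ : Finset ((ℤ × ℤ) × Bool)}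
    (hS₁ : S₁ ⊆ rskCore F') (hS₂ : S₂ ⊆ cornersOf F \ rskCore F')
    (hD₁ : D₁ ⊆ F') (hD₂ : D₂ ⊆ F \ F')
    (hO₁ : O₁ ⊆ rswInt F') (hO₂ : O₂ ⊆ rswInt F \ rswInt F') :
    rswWt t F b ⟨S₁ ∪ S₂, D₁ ∪ D₂, O₁ ∪ O₂⟩ *
        (rskSealInd F F' β ⟨S₁ ∪ S₂, D₁ ∪ D₂, O₁ ∪ O₂⟩ * X (rskIn F' ⟨S₁ ∪ S₂, D₁ ∪ D₂, O₁ ∪ O₂⟩) *
          Y (rskOut F' ⟨S₁ ∪ S₂, D₁ ∪ D₂, O₁ ∪ O₂⟩)) =
      (open Classical in
        (if RskSealA F F' β ⟨S₁ ∪ (β.S ∩ (cornersOf F' \ rskCore F')), D₁, O₁⟩ then (1 : ℝ) else 0) *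
        rskWA t F' ⟨S₁ ∪ (β.S ∩ (cornersOf F' \ rskCore F')), D₁, O₁⟩ *
        X ⟨S₁ ∪ (β.S ∩ (cornersOf F' \ rskCore F')), D₁, O₁⟩) *
      (open Classical in
        (if RskSealB F F' β ⟨S₂, D₂, O₂⟩ then (1 : ℝ) else 0) * rskWB t F F' b β ⟨S₂, D₂, O₂⟩ *
          Y ⟨S₂, D₂, O₂⟩) := by
  classical
  have hout : rskOut F' ⟨S₁ ∪ S₂, D₁ ∪ D₂, O₁ ∪ O₂⟩ = ⟨S₂, D₂, O₂⟩ := by
    unfold rskOut
    simp only [rsk_union_sdiff hS₁ hS₂, rsk_union_sdiff hD₁ hD₂, rsk_union_sdiff hO₁ hO₂]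
  by_cases hB : RskSealB F F' β ⟨S₂, D₂, O₂⟩
  · have hB' : RskSealB F F' β ⟨S₁ ∪ S₂, D₁ ∪ D₂, O₁ ∪ O₂⟩ := by
      rw [← rsk_sealB_out, hout]; exact hB
    have hin : rskIn F' ⟨S₁ ∪ S₂, D₁ ∪ D₂, O₁ ∪ O₂⟩ =
        ⟨S₁ ∪ (β.S ∩ (cornersOf F' \ rskCore F')), D₁, O₁⟩ := by
      unfold rskIn
      simp only [rsk_union_inter hD₁ hD₂, rsk_union_inter hO₁ hO₂]
      congr 1
      ext v
      simp only [Finset.mem_inter, Finset.mem_union, Finset.mem_sdiff]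
      by_cases hv : v ∈ rskCore F'
      · have h2 : v ∉ S₂ := fun h => (Finset.mem_sdiff.1 (hS₂ h)).2 hv
        have h3 := rsk_core_sub F' hv
        simp [hv, h2, h3]
      · have h1 : v ∉ S₁ := fun h => hv (hS₁ h)
        by_cases h3 : v ∈ cornersOf F'
        · have h4 := hB.1 v h3 hv
          simp only at h4
          simp [hv, h1, h3, h4]
        · simp [h1, h3]
    by_cases hA : RskSealA F F' β ⟨S₁ ∪ (β.S ∩ (cornersOf F' \ rskCore F')), D₁, O₁⟩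
    · have hA' : RskSealA F F' β ⟨S₁ ∪ S₂, D₁ ∪ D₂, O₁ ∪ O₂⟩ := by
        rw [← rsk_sealA_in, hin]; exact hA
      have hs : RskSeal F F' β ⟨S₁ ∪ S₂, D₁ ∪ D₂, O₁ ∪ O₂⟩ := ⟨hA', hB'⟩
      rw [rsk_seal_wt t hF b hs, hout, hin]
      unfold rskSealInd
      rw [if_pos hs, if_pos hA, if_pos hB]
      ring
    · have hs : ¬ RskSeal F F' β ⟨S₁ ∪ S₂, D₁ ∪ D₂, O₁ ∪ O₂⟩ := by
        intro h
        apply hA
        rw [← hin, rsk_sealA_in]; exact h.1
      unfold rskSealInd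
      rw [if_neg hs, if_neg hA]
      ring
  · have hs : ¬ RskSeal F F' β ⟨S₁ ∪ S₂, D₁ ∪ D₂, O₁ ∪ O₂⟩ := by
      intro h
      apply hB
      rw [← hout, rsk_sealB_out]; exact h.2
    unfold rskSealInd
    rw [if_neg hs, if_neg hB]
    ring

/-- **exact separation, product form** (all `t`): on the seal the sum is a product of a functional of the inside and one of the rest -/
theorem rsk_seal_prod (t : ℝ) {F' F : Finset (ℤ × ℤ)} (hF : F' ⊆ F) (b : Bool) (β : RswCfg)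
    (X Y : RswCfg → ℝ) :
    rswSum t F b (fun ω => rskSealInd F F' β ω * X (rskIn F' ω) * Y (rskOut F' ω)) =
      rskI t F F' β X * rskJ t F F' b β Y := by
  classical
  unfold rskI rskJ
  rw [← rsk_sum6 _ _ _ _ _ _
    (fun S D O =>
      (if RskSealA F F' β ⟨S ∪ (β.S ∩ (cornersOf F' \ rskCore F')), D, O⟩ then (1 : ℝ) else 0) *
      rskWA t F' ⟨S ∪ (β.S ∩ (cornersOf F' \ rskCore F')), D, O⟩ *
      X ⟨S ∪ (β.S ∩ (cornersOf F' \ rskCore F')), D, O⟩)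
    (fun S D O => (if RskSealB F F' β ⟨S, D, O⟩ then (1 : ℝ) else 0) * rskWB t F F' b β ⟨S, D, O⟩ *
      Y ⟨S, D, O⟩)]
  unfold rswSum
  rw [rsk_sum_powerset_split ((rsk_core_sub F').trans (rsk_corners_mono hF))]
  refine Finset.sum_congr rfl (fun S₁ hS₁ => Finset.sum_congr rfl (fun S₂ hS₂ => ?_))
  rw [rsk_sum_powerset_split hF]
  refine Finset.sum_congr rfl (fun D₁ hD₁ => Finset.sum_congr rfl (fun D₂ hD₂ => ?_))
  rw [rsk_sum_powerset_split (rsk_int_mono hF)]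
  refine Finset.sum_congr rfl (fun O₁ hO₁ => Finset.sum_congr rfl (fun O₂ hO₂ => ?_))
  rw [Finset.mem_powerset] at hS₁ hS₂ hD₁ hD₂ hO₁ hO₂
  have h := rsk_seal_term t hF b β X Y hS₁ hS₂ hD₁ hD₂ hO₁ hO₂
  convert h using 3

/-- **exact separation**: conditional independence of the inside and the rest given the seal, four term form, no division -/
theorem rsk_seal_cross (t : ℝ) {F' F : Finset (ℤ × ℤ)} (hF : F' ⊆ F) (b : Bool) (β : RswCfg)
    {X X' Y Y' : RswCfg → ℝ} (hX : RskInside F' X) (hX' : RskInside F' X') (hY : RskOutside F' Y)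
    (hY' : RskOutside F' Y') :
    rswSum t F b (fun ω => rskSealInd F F' β ω * X ω * Y ω) *
        rswSum t F b (fun ω => rskSealInd F F' β ω * X' ω * Y' ω) =
      rswSum t F b (fun ω => rskSealInd F F' β ω * X ω * Y' ω) *
        rswSum t F b (fun ω => rskSealInd F F' β ω * X' ω * Y ω) := by
  have h1 := rsk_seal_prod t hF b β X Y
  have h2 := rsk_seal_prod t hF b β X' Y'
  have h3 := rsk_seal_prod t hF b β X Y'
  have h4 := rsk_seal_prod t hF b β X' Y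
  simp only [hX _, hX' _, hY _, hY' _] at h1 h2 h3 h4
  rw [h1, h2, h3, h4]
  ring

end Claimed.Agent.R292
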