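import Claimed.Agent.R292.Rsw.Base31
import Claimed.Agent.R292.Rsw.Cut91

/-!
# Row 292, Rsw/Plane171 : R7 = THE PLANE LAW (assembly)      (owner helper171; prefix `rsp171_`, `Rsp`, `rsp`)      0 sorry

`rsp171_plane : RspIn t p κ n0 Dom → (conclusion of exit_rsw_plane for every F with Dom F)`      [DKLM Thm 17.1; TEX 03-spatial l.305, 04-spectral l.14]

ROAD (no coupling): monotone sandwich + contraction by MINUS circuits.
* order `RspLe` = TEX eq:spatial-order `(s, W⁺, -W⁻)`; `A` increasing, reading `(S, O)` in `Λ_n`:   `l_N = E_{Λ_N,-} A ≤ E_{F,b} A ≤ E_{Λ_N,+} A = u_N`  (`up`, `dn`)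
* search of the outermost minus circuit in `Λ_{κM} \ Λ_M`, `M = N + 1`, from the layer (`rsp171_cut`): `u_{κM} ≤ P(Sep) l_{κM+1} + (1 - P(Sep)) u_N`, `P(Sep) ≥ p` (`circ`)  ⟹  `u_{κM+1} - l_{κM+1} ≤ (1-p)(u_N - l_N)`
* every function of `(S, O)` in a window is a difference of two increasing ones (`rsp171_split`)
* face spins `D`: `E_{F,b} X = ∑_U P_{F,b}(K_U) E_{U,-} X + O(‖X‖ (1-p)^k)`, and `K_U` reads `(S, O)` only.

WHAT IS CONSUMED = the record `RspIn` (fields `up dn` : R3 CMP 291; `circ` : `exit_rsw_circuit`, R8).   The exact cut behind the search is PROVED here (`rsp171_cut`, from `rsk_cut_E` of helper91).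
-/

set_option autoImplicit false

namespace Claimed.Agent.R292

open Claims Claims.C0468 Finset

/-! ## 0. vocabulary -/

/-- TEX eq:spatial-order: `(s, W⁺, -W⁻)` (on configurations whose open edges are monochromatic this is the coordinatewise order) -/
def RspLe (ω ω' : RswCfg) : Prop :=
  ω.S ⊆ ω'.S ∧ (∀ e ∈ ω.O, e.1 ∈ ω.S → e ∈ ω'.O) ∧ (∀ e ∈ ω'.O, e.1 ∉ ω'.S → e ∈ ω.O)

/-- increasing observable -/
def RspInc (A : RswCfg → ℝ) : Prop := ∀ ω ω' : RswCfg, RspLe ω ω' → A ω ≤ A ω'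

/-- `X` reads `S` in `V`, `D` in `G`, `O` in `Es` only -/
def RspLoc (V G : Finset (ℤ × ℤ)) (Es : Finset ((ℤ × ℤ) × Bool)) (X : RswCfg → ℝ) : Prop :=
  ∀ ω ω' : RswCfg, ω.S ∩ V = ω'.S ∩ V → ω.D ∩ G = ω'.D ∩ G → ω.O ∩ Es = ω'.O ∩ Es → X ω = X ω'

/-- `Y` reads `S` off `V` and `O` off `Es` only (and not `D`) -/
def RspOff (V : Finset (ℤ × ℤ)) (Es : Finset ((ℤ × ℤ) × Bool)) (Y : RswCfg → ℝ) : Prop :=
  ∀ ω ω' : RswCfg, ω.S \ V = ω'.S \ V → ω.O \ Es = ω'.O \ Es → Y ω = Y ω'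

/-- the vertices strictly inside `F` -/
noncomputable def rspInn (F : Finset (ℤ × ℤ)) : Finset (ℤ × ℤ) :=
  open Classical in (cornersOf F).filter (fun v => ¬ OnPolygon F v)

/-- `F'` lies strictly inside `F`: no corner of `F'` is on the polygon of `F` -/
def RspDeep (F' F : Finset (ℤ × ℤ)) : Prop := ∀ v ∈ cornersOf F', ¬ OnPolygon F v

/-- indicator -/
noncomputable def rspI (L : RswCfg → Prop) (ω : RswCfg) : ℝ := open Classical in if L ω then 1 else 0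

/-- the faces of `Λ` reached from its layer without crossing a good MINUS edge -/
noncomputable def rspOut (Λ : Finset (ℤ × ℤ)) (ω : RswCfg) : Finset (ℤ × ℤ) :=
  open Classical in Λ.filter (fun g => ∃ f ∈ rswLayer Λ, Relation.ReflTransGen (RswStep Λ false ω) f g)

/-- the search from the layer of `Λ` leaves exactly `U` -/
def rspK (Λ U : Finset (ℤ × ℤ)) (ω : RswCfg) : Prop := Λ \ rspOut Λ ω = U

/-- the annulus event: a minus circuit of good edges separates `Λ_n` from the layer of `Λ_m` -/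
def rspSep (n m : ℕ) (ω : RswCfg) : Prop := RswSep (rswBox 0 m) false ω (rswBox 0 n) (rswLayer (rswBox 0 m))

/-- **THE RECORD** (v2, 19:40Z: forms asked by helper31 and helper122): what the assembly consumes.
`Dom` = the class of ambient domains (contains the boxes `n ≥ 1`); `κ, n0, p` = the constants of `exit_rsw_circuit`. -/
structure RspIn (t p : ℝ) (κ n0 : ℕ) (Dom : Finset (ℤ × ℤ) → Prop) : Prop where
  p0 : 0 < p
  k2 : 2 ≤ κ
  box : ∀ n : ℕ, 1 ≤ n → Dom (rswBox 0 n)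
  /-- R3 CMP, with one layer of buffer: given anything off the strict inside of `F'`, the law in `F''` (deep in `F'`) is dominated by the plus flat law of `F''` -/
  up : ∀ (F'' F' F : Finset (ℤ × ℤ)) (b : Bool) (A Y : RswCfg → ℝ), Dom F → F' ⊆ F → F'' ⊆ F' → RspDeep F'' F' → RspInc A →
    RspLoc (cornersOf F'') ∅ (rswInt F'') A → RspOff (rspInn F') (rswInt F') Y → (∀ ω, 0 ≤ Y ω) →
    rswE t F b (fun ω => A ω * Y ω) ≤ rswE t F'' true A * rswE t F b Y
  /-- R3 CMP: the law inside `F'` dominates the minus flat law of `F'` -/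
  dn : ∀ (F' F : Finset (ℤ × ℤ)) (b : Bool) (A : RswCfg → ℝ), Dom F → F' ⊆ F → RspDeep F' F → RspInc A →
    RspLoc (cornersOf F') ∅ (rswInt F') A → rswE t F' false A ≤ rswE t F b A
  /-- R8 CORE = `exit_rsw_circuit` (weak form) -/
  circ : ∀ n : ℕ, n0 ≤ n → p ≤ rswP t (rswBox 0 (κ * n)) true (rspSep n (κ * n))

/-- convergence along all exhaustions -/
def RspConv (t : ℝ) (Dom : Finset (ℤ × ℤ) → Prop) (X : RswCfg → ℝ) : Prop :=
  ∃ ℓ : ℝ, ∀ ε : ℝ, 0 < ε → ∃ n0 : ℕ, ∀ (F : Finset (ℤ × ℤ)) (b : Bool), Dom F → rswBox 0 n0 ⊆ F → |rswE t F b X - ℓ| < ε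

theorem rsp171_eqns_cite : True := by
  have := @RspLe.eq_1
  have := @RspInc.eq_1
  have := @RspLoc.eq_1
  have := @RspOff.eq_1
  have := @rspInn.eq_1
  have := @RspDeep.eq_1
  have := @rspI.eq_1
  have := @rspOut.eq_1
  have := @rspK.eq_1
  have := @rspSep.eq_1
  have := @RspConv.eq_1
  trivial

/-! ## 1. sets -/

theorem rsp171_inter_mono {α : Type*} [DecidableEq α] {A B V V' : Finset α} (h : A ∩ V' = B ∩ V') (hV : V ⊆ V') :
    A ∩ V = B ∩ V := by
  ext x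
  have hx := Finset.ext_iff.1 h x
  simp only [mem_inter] at hx ⊢
  constructor
  · rintro ⟨a, b⟩; exact ⟨(hx.1 ⟨a, hV b⟩).1, b⟩
  · rintro ⟨a, b⟩; exact ⟨(hx.2 ⟨a, hV b⟩).1, b⟩

theorem rsp171_mem_of_inter {α : Type*} [DecidableEq α] {A B V : Finset α} (h : A ∩ V = B ∩ V) {x : α} (hx : x ∈ V) :
    x ∈ A ↔ x ∈ B := by
  have := Finset.ext_iff.1 h x
  simp only [mem_inter] at this
  constructor
  · intro a; exact (this.1 ⟨a, hx⟩).1
  · intro a; exact (this.2 ⟨a, hx⟩).1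

theorem rsp171_mem_of_sdiff {α : Type*} [DecidableEq α] {A B V : Finset α} (h : A \ V = B \ V) {x : α} (hx : x ∉ V) :
    x ∈ A ↔ x ∈ B := by
  have := Finset.ext_iff.1 h x
  simp only [mem_sdiff] at this
  constructor
  · intro a; exact (this.1 ⟨a, hx⟩).1
  · intro a; exact (this.2 ⟨a, hx⟩).1

theorem rsp171_loc_mono {V V' G G' : Finset (ℤ × ℤ)} {Es Es' : Finset ((ℤ × ℤ) × Bool)} {X : RswCfg → ℝ}
    (h : RspLoc V G Es X) (hV : V ⊆ V') (hG : G ⊆ G') (hE : Es ⊆ Es') : RspLoc V' G' Es' X := fun ω ω' h1 h2 h3 =>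
  h ω ω' (rsp171_inter_mono h1 hV) (rsp171_inter_mono h2 hG) (rsp171_inter_mono h3 hE)

theorem rsp171_not_onPolygon {F : Finset (ℤ × ℤ)} {v : ℤ × ℤ} :
    ¬ OnPolygon F v ↔ (v ∈ F ∧ (v.1 - 1, v.2) ∈ F ∧ (v.1, v.2 - 1) ∈ F ∧ (v.1 - 1, v.2 - 1) ∈ F) := by
  unfold OnPolygon; exact not_not

theorem rsp171_onPolygon_anti {F G : Finset (ℤ × ℤ)} (h : F ⊆ G) {v : ℤ × ℤ} (hv : ¬ OnPolygon F v) : ¬ OnPolygon G v := by
  rw [rsp171_not_onPolygon] at hv ⊢
  exact ⟨h hv.1, h hv.2.1, h hv.2.2.1, h hv.2.2.2⟩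

theorem rsp171_corners_mono {F G : Finset (ℤ × ℤ)} (h : F ⊆ G) : cornersOf F ⊆ cornersOf G := by
  unfold cornersOf
  exact biUnion_subset_biUnion_of_subset_left _ h

theorem rsp171_int_mono {F G : Finset (ℤ × ℤ)} (h : F ⊆ G) : rswInt F ⊆ rswInt G := by
  intro e he
  rw [rsb_mem_int] at he ⊢
  exact ⟨h he.1, h he.2⟩

theorem rsp171_mem_inn {F : Finset (ℤ × ℤ)} {v : ℤ × ℤ} : v ∈ rspInn F ↔ v ∈ cornersOf F ∧ ¬ OnPolygon F v := by
  classical
  unfold rspInn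
  simp only [mem_filter]

theorem rsp171_inn_mono {F G : Finset (ℤ × ℤ)} (h : F ⊆ G) : rspInn F ⊆ rspInn G := by
  intro v hv
  rw [rsp171_mem_inn] at hv ⊢
  exact ⟨rsp171_corners_mono h hv.1, rsp171_onPolygon_anti h hv.2⟩

theorem rsp171_deep_mono {U F' F G : Finset (ℤ × ℤ)} (h : RspDeep F' F) (hU : U ⊆ F') (hG : F ⊆ G) : RspDeep U G :=
  fun v hv => rsp171_onPolygon_anti hG (h v (rsp171_corners_mono hU hv))

theorem rsp171_corners_sub_inn {F' F : Finset (ℤ × ℤ)} (h : RspDeep F' F) (hs : F' ⊆ F) : cornersOf F' ⊆ rspInn F := by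
  intro v hv
  rw [rsp171_mem_inn]
  exact ⟨rsp171_corners_mono hs hv, h v hv⟩

/-- both faces of an edge are among the four faces round each of its endpoints -/
theorem rsp171_faces_of_end {A : Finset (ℤ × ℤ)} {e : (ℤ × ℤ) × Bool} {v : ℤ × ℤ} (hv : v = e.1 ∨ v = rswEnd e)
    (h : ¬ OnPolygon A v) : e.1 ∈ A ∧ rswCo e ∈ A := by
  rw [rsp171_not_onPolygon] at h
  obtain ⟨⟨x, y⟩, bb⟩ := e
  cases bb
  · rcases hv with rfl | rfl
    · simpa [rswCo] using ⟨h.1, h.2.2.1⟩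
    · simp [rswCo, rswEnd] at h ⊢
      exact ⟨h.2.1, h.2.2.2⟩
  · rcases hv with rfl | rfl
    · simpa [rswCo] using ⟨h.1, h.2.1⟩
    · simp [rswCo, rswEnd] at h ⊢
      exact ⟨h.2.2.1, h.2.2.2⟩

/-! ## 2. boxes -/

theorem rsp171_mem_box {n : ℕ} {v : ℤ × ℤ} : v ∈ rswBox 0 n ↔ (-(n : ℤ) ≤ v.1 ∧ v.1 < n) ∧ (-(n : ℤ) ≤ v.2 ∧ v.2 < n) := by
  unfold rswBox
  simp [mem_product, mem_Ico]

theorem rsp171_box_mono {n m : ℕ} (h : n ≤ m) : rswBox 0 n ⊆ rswBox 0 m := by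
  intro v hv
  rw [rsp171_mem_box] at hv ⊢
  have : (n : ℤ) ≤ m := by exact_mod_cast h
  omega

theorem rsp171_mem_corners {F : Finset (ℤ × ℤ)} {v : ℤ × ℤ} :
    v ∈ cornersOf F ↔ ∃ f ∈ F, v = f ∨ v = (f.1 + 1, f.2) ∨ v = (f.1, f.2 + 1) ∨ v = (f.1 + 1, f.2 + 1) := by
  unfold cornersOf
  simp only [mem_biUnion, mem_insert, mem_singleton]

theorem rsp171_box_deep (n : ℕ) : RspDeep (rswBox 0 n) (rswBox 0 (n + 1)) := by
  intro v hv
  rw [rsp171_mem_corners] at hv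
  obtain ⟨f, hf, h⟩ := hv
  rw [rsp171_mem_box] at hf
  rw [rsp171_not_onPolygon]
  simp only [rsp171_mem_box]
  push_cast
  rcases h with rfl | rfl | rfl | rfl <;> (try dsimp only) <;> omega

theorem rsp171_box_deep' {n m : ℕ} (h : n < m) {F : Finset (ℤ × ℤ)} (hF : rswBox 0 m ⊆ F) : RspDeep (rswBox 0 n) F :=
  rsp171_deep_mono (rsp171_box_deep n) (Finset.Subset.refl _) ((rsp171_box_mono h).trans hF)

theorem rsp171_exists_box (R : Finset (ℤ × ℤ)) : ∃ n : ℕ, R ⊆ rswBox 0 n := by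
  refine ⟨R.sup (fun v => v.1.natAbs + v.2.natAbs) + 1, fun v hv => ?_⟩
  have h : v.1.natAbs + v.2.natAbs ≤ R.sup (fun v => v.1.natAbs + v.2.natAbs) :=
    Finset.le_sup (f := fun v : ℤ × ℤ => v.1.natAbs + v.2.natAbs) hv
  rw [rsp171_mem_box]
  push_cast
  omega

/-! ## 3. steps and paths -/

theorem rsp171_good_congr {a : Bool} {ω ω' : RswCfg} {e : (ℤ × ℤ) × Bool} (h1 : e ∈ ω.O ↔ e ∈ ω'.O)
    (h2 : e.1 ∈ ω.S ↔ e.1 ∈ ω'.S) (h3 : rswEnd e ∈ ω.S ↔ rswEnd e ∈ ω'.S) : RswGood a ω e ↔ RswGood a ω' e := by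
  unfold RswGood; rw [h1, h2, h3]

theorem rsp171_rtg_mono {α : Type*} {r s : α → α → Prop} (h : ∀ a b, r a b → s a b) {a b : α}
    (hab : Relation.ReflTransGen r a b) : Relation.ReflTransGen s a b := by
  induction hab with
  | refl => exact Relation.ReflTransGen.refl
  | tail _ h2 ih => exact ih.tail (h _ _ h2)

theorem rsp171_step_symm {F : Finset (ℤ × ℤ)} {a : Bool} {ω : RswCfg} {f g : ℤ × ℤ} (h : RswStep F a ω f g) :
    RswStep F a ω g f := by
  obtain ⟨hf, hg, e, he, hn⟩ := h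
  exact ⟨hg, hf, e, he.symm, hn⟩

theorem rsp171_path_symm {F : Finset (ℤ × ℤ)} {a : Bool} {ω : RswCfg} {f g : ℤ × ℤ}
    (h : Relation.ReflTransGen (RswStep F a ω) f g) : Relation.ReflTransGen (RswStep F a ω) g f := by
  induction h with
  | refl => exact Relation.ReflTransGen.refl
  | tail _ h2 ih => exact Relation.ReflTransGen.head (rsp171_step_symm h2) ih

/-- the edge of a step inside `F` is an interior edge of `F` -/
theorem rsp171_edge_int {F : Finset (ℤ × ℤ)} {f g : ℤ × ℤ} {e : (ℤ × ℤ) × Bool} (hf : f ∈ F) (hg : g ∈ F)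
    (he : (f = e.1 ∧ g = rswCo e) ∨ (g = e.1 ∧ f = rswCo e)) : e.1 ∈ F ∧ rswCo e ∈ F := by
  rcases he with ⟨rfl, rfl⟩ | ⟨rfl, rfl⟩
  · exact ⟨hf, hg⟩
  · exact ⟨hg, hf⟩

/-- a step inside `Λ` reads `S` on the corners of `Λ` and `O` on the interior edges of `Λ` -/
theorem rsp171_step_in {Λ : Finset (ℤ × ℤ)} {a : Bool} {ω ω' : RswCfg} (hS : ω.S ∩ cornersOf Λ = ω'.S ∩ cornersOf Λ)
    (hO : ω.O ∩ rswInt Λ = ω'.O ∩ rswInt Λ) {f g : ℤ × ℤ} (h : RswStep Λ a ω f g) : RswStep Λ a ω' f g := by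
  obtain ⟨hf, hg, e, he, hn⟩ := h
  have hi := rsp171_edge_int hf hg he
  refine ⟨hf, hg, e, he, fun hgood => hn ?_⟩
  exact (rsp171_good_congr (rsp171_mem_of_inter hO (rsb_mem_int.2 hi)) (rsp171_mem_of_inter hS (rsb_int_fst_corner (rsb_mem_int.2 hi)))
    (rsp171_mem_of_inter hS (rsb_int_end_corner (rsb_mem_int.2 hi)))).2 hgood

theorem rsp171_step_in_eq {Λ : Finset (ℤ × ℤ)} {a : Bool} {ω ω' : RswCfg} (hS : ω.S ∩ cornersOf Λ = ω'.S ∩ cornersOf Λ)
    (hO : ω.O ∩ rswInt Λ = ω'.O ∩ rswInt Λ) : RswStep Λ a ω = RswStep Λ a ω' := by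
  funext f g
  exact propext ⟨rsp171_step_in hS hO, rsp171_step_in hS.symm hO.symm⟩

/-- going up in the order destroys good MINUS edges only -/
theorem rsp171_step_up {Λ : Finset (ℤ × ℤ)} {ω ω' : RswCfg} (h : RspLe ω ω') {f g : ℤ × ℤ} (hs : RswStep Λ false ω f g) :
    RswStep Λ false ω' f g := by
  obtain ⟨hf, hg, e, he, hn⟩ := hs
  refine ⟨hf, hg, e, he, fun hgood => hn ?_⟩
  obtain ⟨g1, g2, g3⟩ := hgood
  have n1 : e.1 ∉ ω'.S := fun hh => by simpa using g2.1 hh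
  have n2 : rswEnd e ∉ ω'.S := fun hh => by simpa using g3.1 hh
  refine ⟨h.2.2 e g1 n1, ?_, ?_⟩
  · exact ⟨fun hh => absurd (h.1 hh) n1, fun hh => by simp at hh⟩
  · exact ⟨fun hh => absurd (h.1 hh) n2, fun hh => by simp at hh⟩

/-- a face of `F'` off the layer has its four neighbours in `F'` -/
theorem rsp171_nbr {F' : Finset (ℤ × ℤ)} {x y : ℤ × ℤ} {e : (ℤ × ℤ) × Bool} (hx : x ∈ F') (hl : x ∉ rswLayer F')
    (he : (x = e.1 ∧ y = rswCo e) ∨ (y = e.1 ∧ x = rswCo e)) : y ∈ F' := by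
  classical
  have hall : ∀ v ∈ ({x, (x.1 + 1, x.2), (x.1, x.2 + 1), (x.1 + 1, x.2 + 1)} : Finset (ℤ × ℤ)), ¬ OnPolygon F' v := by
    intro v hv hp
    apply hl
    unfold rswLayer
    simp only [mem_filter]
    exact ⟨hx, v, hv, hp⟩
  obtain ⟨⟨p, q⟩, bb⟩ := e
  cases bb
  · rcases he with ⟨rfl, rfl⟩ | ⟨rfl, hx2⟩
    · have := rsp171_not_onPolygon.1 (hall (p, q) (by simp))
      simpa [rswCo] using this.2.2.1
    · have hx3 : x = (p, q - 1) := by simpa [rswCo] using hx2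
      subst hx3
      have := rsp171_not_onPolygon.1 (hall (p, q - 1 + 1) (by simp))
      simpa using this.1
  · rcases he with ⟨rfl, rfl⟩ | ⟨rfl, hx2⟩
    · have := rsp171_not_onPolygon.1 (hall (p, q) (by simp))
      simpa [rswCo] using this.2.1
    · have hx3 : x = (p - 1, q) := by simpa [rswCo] using hx2
      subst hx3
      have := rsp171_not_onPolygon.1 (hall (p - 1 + 1, q) (by simp))
      simpa using this.1

theorem rsp171_layer_sub {F' F : Finset (ℤ × ℤ)} (hFF : F' ⊆ F) {g : ℤ × ℤ} (hg : g ∈ F') (hl : g ∈ rswLayer F) :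
    g ∈ rswLayer F' := by
  classical
  unfold rswLayer at hl ⊢
  simp only [mem_filter] at hl ⊢
  obtain ⟨_, v, hv, hp⟩ := hl
  refine ⟨hg, v, hv, ?_⟩
  by_contra hn
  exact rsp171_onPolygon_anti hFF hn hp

/-- FIRST HIT: a path in `F` from `F'` to the layer of `F` starts with a path in `F'` to the layer of `F'` -/
theorem rsp171_prefix {F' F : Finset (ℤ × ℤ)} (hFF : F' ⊆ F) {a : Bool} {ω : RswCfg} {f g : ℤ × ℤ} (hf : f ∈ F')
    (hg : g ∈ rswLayer F) (h : Relation.ReflTransGen (RswStep F a ω) f g) :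
    ∃ g' ∈ rswLayer F', Relation.ReflTransGen (RswStep F' a ω) f g' := by
  have key : ∀ x, Relation.ReflTransGen (RswStep F a ω) f x →
      (x ∈ F' ∧ Relation.ReflTransGen (RswStep F' a ω) f x) ∨ ∃ g' ∈ rswLayer F', Relation.ReflTransGen (RswStep F' a ω) f g' := by
    intro x hx
    induction hx with
    | refl => exact Or.inl ⟨hf, Relation.ReflTransGen.refl⟩
    | tail _ hxy ih =>
      rcases ih with ⟨hx, hr⟩ | hr
      · rename_i x y _
        by_cases hl : x ∈ rswLayer F'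
        · exact Or.inr ⟨x, hl, hr⟩
        · obtain ⟨_, _, e, he, hn⟩ := hxy
          have hy := rsp171_nbr hx hl he
          exact Or.inl ⟨hy, hr.tail ⟨hx, hy, e, he, hn⟩⟩
      · exact Or.inr hr
  rcases key g h with ⟨hg', hr⟩ | hr
  · exact ⟨g, rsp171_layer_sub hFF hg' hg, hr⟩
  · exact hr

/-- LAST EXIT: a path from `A` may be replaced by a path from `A` which never returns to `A` -/
theorem rsp171_last_exit {F A : Finset (ℤ × ℤ)} {a : Bool} {ω : RswCfg} {f x : ℤ × ℤ} (hf : f ∈ A)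
    (h : Relation.ReflTransGen (RswStep F a ω) f x) :
    ∃ f' ∈ A, Relation.ReflTransGen (fun u v => RswStep F a ω u v ∧ v ∉ A) f' x := by
  induction h with
  | refl => exact ⟨f, hf, Relation.ReflTransGen.refl⟩
  | tail _ hxy ih =>
    rename_i x y _
    by_cases hy : y ∈ A
    · exact ⟨y, hy, Relation.ReflTransGen.refl⟩
    · obtain ⟨f', hf', hr⟩ := ih
      exact ⟨f', hf', hr.tail ⟨hxy, hy⟩⟩

/-- a step which leaves `A` or stays outside reads nothing strictly inside `A` -/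
theorem rsp171_step_off {F A : Finset (ℤ × ℤ)} {a : Bool} {ω ω' : RswCfg} (hS : ω.S \ rspInn A = ω'.S \ rspInn A)
    (hO : ω.O \ rswInt A = ω'.O \ rswInt A) {f g : ℤ × ℤ} (h : RswStep F a ω f g ∧ g ∉ A) : RswStep F a ω' f g ∧ g ∉ A := by
  obtain ⟨⟨hf, hg, e, he, hn⟩, hgA⟩ := h
  have hnot : ¬ (e.1 ∈ A ∧ rswCo e ∈ A) := by
    rintro ⟨h1, h2⟩
    rcases he with ⟨_, rfl⟩ | ⟨rfl, _⟩
    · exact hgA h2
    · exact hgA h1
  have e1 : e ∉ rswInt A := fun hh => hnot (rsb_mem_int.1 hh)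
  have e2 : e.1 ∉ rspInn A := fun hh => hnot (rsp171_faces_of_end (Or.inl rfl) (rsp171_mem_inn.1 hh).2)
  have e3 : rswEnd e ∉ rspInn A := fun hh => hnot (rsp171_faces_of_end (Or.inr rfl) (rsp171_mem_inn.1 hh).2)
  refine ⟨⟨hf, hg, e, he, fun hgood => hn ?_⟩, hgA⟩
  exact (rsp171_good_congr (rsp171_mem_of_sdiff hO e1) (rsp171_mem_of_sdiff hS e2) (rsp171_mem_of_sdiff hS e3)).2 hgood

/-- the event "no separation of `A` from `B` in `F`" reads nothing strictly inside `A` -/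
theorem rsp171_sep_off {F A B : Finset (ℤ × ℤ)} {a : Bool} {ω ω' : RswCfg} (hS : ω.S \ rspInn A = ω'.S \ rspInn A)
    (hO : ω.O \ rswInt A = ω'.O \ rswInt A) (h : RswSep F a ω' A B) : RswSep F a ω A B := by
  intro f hf g hg hr
  obtain ⟨f', hf', hr'⟩ := rsp171_last_exit hf hr
  have h2 : Relation.ReflTransGen (fun u v => RswStep F a ω' u v ∧ v ∉ A) f' g :=
    rsp171_rtg_mono (fun u v huv => rsp171_step_off hS hO huv) hr'
  exact h f' hf' g hg (rsp171_rtg_mono (fun u v huv => huv.1) h2)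

/-! ## 4. the events as observables -/

theorem rsp171_I_pos {L : RswCfg → Prop} {ω : RswCfg} (h : L ω) : rspI L ω = 1 := by
  unfold rspI; exact if_pos h

theorem rsp171_I_neg {L : RswCfg → Prop} {ω : RswCfg} (h : ¬ L ω) : rspI L ω = 0 := by
  unfold rspI; exact if_neg h

theorem rsp171_I_nonneg (L : RswCfg → Prop) (ω : RswCfg) : 0 ≤ rspI L ω := by
  by_cases h : L ω
  · rw [rsp171_I_pos h]; exact zero_le_one
  · rw [rsp171_I_neg h]

theorem rsp171_I_le_one (L : RswCfg → Prop) (ω : RswCfg) : rspI L ω ≤ 1 := by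
  by_cases h : L ω
  · rw [rsp171_I_pos h]
  · rw [rsp171_I_neg h]; exact zero_le_one

theorem rsp171_I_congr {L : RswCfg → Prop} {ω ω' : RswCfg} (h : L ω ↔ L ω') : rspI L ω = rspI L ω' := by
  by_cases h1 : L ω
  · rw [rsp171_I_pos h1, rsp171_I_pos (h.1 h1)]
  · rw [rsp171_I_neg h1, rsp171_I_neg (fun h2 => h1 (h.2 h2))]

theorem rsp171_I_mono {L : RswCfg → Prop} {ω ω' : RswCfg} (h : L ω → L ω') : rspI L ω ≤ rspI L ω' := by
  by_cases h1 : L ω
  · rw [rsp171_I_pos h1, rsp171_I_pos (h h1)]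
  · rw [rsp171_I_neg h1]; exact rsp171_I_nonneg _ _

theorem rsp171_I_compl (L : RswCfg → Prop) (ω : RswCfg) : rspI L ω + rspI (fun ω => ¬ L ω) ω = 1 := by
  by_cases h : L ω
  · rw [rsp171_I_pos h, rsp171_I_neg (L := fun ω => ¬ L ω) (not_not.2 h), add_zero]
  · rw [rsp171_I_neg h, rsp171_I_pos (L := fun ω => ¬ L ω) h, zero_add]

theorem rsp171_P_eq (t : ℝ) (F : Finset (ℤ × ℤ)) (b : Bool) (L : RswCfg → Prop) : rswP t F b L = rswE t F b (rspI L) := rfl

/-- the arm event is increasing -/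
theorem rsp171_arm_inc (n m : ℕ) : RspInc (rspI (fun ω => ¬ rspSep n m ω)) := by
  intro ω ω' h
  refine rsp171_I_mono (L := fun ω => ¬ rspSep n m ω) fun hn hs => hn ?_
  intro f hf g hg hr
  exact hs f hf g hg (rsp171_rtg_mono (fun u v huv => rsp171_step_up h huv) hr)

theorem rsp171_sep_loc {n m : ℕ} {ω ω' : RswCfg} (hS : ω.S ∩ cornersOf (rswBox 0 m) = ω'.S ∩ cornersOf (rswBox 0 m))
    (hO : ω.O ∩ rswInt (rswBox 0 m) = ω'.O ∩ rswInt (rswBox 0 m)) : rspSep n m ω ↔ rspSep n m ω' := by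
  unfold rspSep RswSep
  rw [rsp171_step_in_eq hS hO]

/-- the arm event reads `(S, O)` in the outer box -/
theorem rsp171_arm_loc (n m : ℕ) :
    RspLoc (cornersOf (rswBox 0 m)) ∅ (rswInt (rswBox 0 m)) (rspI (fun ω => ¬ rspSep n m ω)) := by
  intro ω ω' hS _ hO
  exact rsp171_I_congr (L := fun ω => ¬ rspSep n m ω) (not_congr (rsp171_sep_loc hS hO))

/-- the arm event reads nothing strictly inside the inner box -/
theorem rsp171_arm_off (n m : ℕ) :
    RspOff (rspInn (rswBox 0 n)) (rswInt (rswBox 0 n)) (rspI (fun ω => ¬ rspSep n m ω)) := by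
  intro ω ω' hS hO
  refine rsp171_I_congr (L := fun ω => ¬ rspSep n m ω) (not_congr ⟨?_, ?_⟩)
  · exact fun h => rsp171_sep_off hS.symm hO.symm h
  · exact fun h => rsp171_sep_off hS hO h

/-- the result of the search reads `(S, O)` in the box -/
theorem rsp171_K_loc (Λ U : Finset (ℤ × ℤ)) : RspLoc (cornersOf Λ) ∅ (rswInt Λ) (rspI (rspK Λ U)) := by
  intro ω ω' hS _ hO
  refine rsp171_I_congr ?_
  unfold rspK rspOut
  rw [rsp171_step_in_eq hS hO]

/-- arms are nested -/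
theorem rsp171_arm_nest {n n' m' M : ℕ} (h1 : n ≤ n') (h2 : n ≤ m') (h3 : m' ≤ M) {ω : RswCfg} (h : ¬ rspSep n M ω) :
    ¬ rspSep n' m' ω := by
  intro hs
  apply h
  intro f hf g hg hr
  obtain ⟨g', hg', hr'⟩ := rsp171_prefix (rsp171_box_mono h3) (rsp171_box_mono h2 hf) hg hr
  exact hs f (rsp171_box_mono h1 hf) g' hg' hr'

theorem rsp171_sep_iff {n m : ℕ} (hnm : n ≤ m) (ω : RswCfg) :
    rspSep n m ω ↔ rswBox 0 n ⊆ rswBox 0 m \ rspOut (rswBox 0 m) ω := by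
  classical
  constructor
  · intro h f hf
    rw [mem_sdiff]
    refine ⟨rsp171_box_mono hnm hf, fun hout => ?_⟩
    unfold rspOut at hout
    simp only [mem_filter] at hout
    obtain ⟨_, g, hg, hr⟩ := hout
    exact h f hf g hg (rsp171_path_symm hr)
  · intro h f hf g hg hr
    apply (mem_sdiff.1 (h hf)).2
    unfold rspOut
    simp only [mem_filter]
    exact ⟨rsp171_box_mono hnm hf, g, hg, rsp171_path_symm hr⟩

/-- the possible results of a successful search -/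
noncomputable def rspFam (n m : ℕ) : Finset (Finset (ℤ × ℤ)) :=
  open Classical in (rswBox 0 m).powerset.filter (fun U => rswBox 0 n ⊆ U)

theorem rsp171_mem_fam {n m : ℕ} {U : Finset (ℤ × ℤ)} : U ∈ rspFam n m ↔ U ⊆ rswBox 0 m ∧ rswBox 0 n ⊆ U := by
  classical
  unfold rspFam
  simp only [mem_filter, mem_powerset]

theorem rsp171_sep_sum {n m : ℕ} (hnm : n ≤ m) (ω : RswCfg) :
    rspI (rspSep n m) ω = ∑ U ∈ rspFam n m, rspI (rspK (rswBox 0 m) U) ω := by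
  classical
  have e : ∀ U, rspI (rspK (rswBox 0 m) U) ω = if rswBox 0 m \ rspOut (rswBox 0 m) ω = U then 1 else 0 := by
    intro U
    by_cases h : rswBox 0 m \ rspOut (rswBox 0 m) ω = U
    · rw [if_pos h]; exact rsp171_I_pos h
    · rw [if_neg h]; exact rsp171_I_neg h
  simp only [e]
  rw [Finset.sum_ite_eq]
  by_cases h : rspSep n m ω
  · rw [rsp171_I_pos h, if_pos]
    exact rsp171_mem_fam.2 ⟨sdiff_subset, (rsp171_sep_iff hnm ω).1 h⟩
  · rw [rsp171_I_neg h, if_neg]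
    exact fun hh => h ((rsp171_sep_iff hnm ω).2 (rsp171_mem_fam.1 hh).2)

/-! ## 5. the search and the exact cut (R2 CUT of helper91: `rsk_cut_E`) -/

theorem rsp171_mem_out {Λ : Finset (ℤ × ℤ)} {ω : RswCfg} {g : ℤ × ℤ} :
    g ∈ rspOut Λ ω ↔ g ∈ Λ ∧ ∃ f ∈ rswLayer Λ, Relation.ReflTransGen (RswStep Λ false ω) f g := by
  classical
  unfold rspOut
  simp only [mem_filter]

theorem rsp171_layer_sub_box (Λ : Finset (ℤ × ℤ)) : rswLayer Λ ⊆ Λ := by
  classical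
  intro x hx
  unfold rswLayer at hx
  simp only [mem_filter] at hx
  exact hx.1

/-- the end of a path inside `Λ` which starts in `Λ` is in `Λ` -/
theorem rsp171_path_mem {Λ : Finset (ℤ × ℤ)} {a : Bool} {ω : RswCfg} {f g : ℤ × ℤ} (hf : f ∈ Λ)
    (h : Relation.ReflTransGen (RswStep Λ a ω) f g) : g ∈ Λ := by
  induction h with
  | refl => exact hf
  | tail _ h2 _ => exact h2.2.1

/-- on `rspK Λ U` the searched set is `Λ \ U` -/
theorem rsp171_K_not_mem {Λ U : Finset (ℤ × ℤ)} {ω : RswCfg} (hK : rspK Λ U ω) {x : ℤ × ℤ} (hx : x ∈ rspOut Λ ω) : x ∉ U := by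
  intro hU
  rw [← hK] at hU
  exact (mem_sdiff.1 hU).2 hx

/-- the search never looks behind the cut: one inclusion -/
theorem rsp171_out_sub {Λ U : Finset (ℤ × ℤ)} {ω ω' : RswCfg} (hK : rspK Λ U ω)
    (hg : ∀ e, e ∉ rswInt U → (RswGood false ω e ↔ RswGood false ω' e)) {f x : ℤ × ℤ} (hf : f ∈ rswLayer Λ) :
    (Relation.ReflTransGen (RswStep Λ false ω) f x ↔ Relation.ReflTransGen (RswStep Λ false ω') f x) := by
  have hfΛ := rsp171_layer_sub_box Λ hf
  constructor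
  · intro h
    induction h with
    | refl => exact Relation.ReflTransGen.refl
    | tail h1 h2 ih =>
      rename_i x y
      refine ih.tail ?_
      obtain ⟨hx, hy, e, he, hn⟩ := h2
      have hxU : x ∉ U := rsp171_K_not_mem hK (rsp171_mem_out.2 ⟨hx, f, hf, h1⟩)
      have heU : e ∉ rswInt U := by
        intro hh
        have := rsb_mem_int.1 hh
        rcases he with ⟨rfl, _⟩ | ⟨_, rfl⟩
        · exact hxU this.1
        · exact hxU this.2
      exact ⟨hx, hy, e, he, fun hh => hn ((hg e heU).2 hh)⟩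
  · intro h
    induction h with
    | refl => exact Relation.ReflTransGen.refl
    | tail h1 h2 ih =>
      rename_i x y
      refine ih.tail ?_
      obtain ⟨hx, hy, e, he, hn⟩ := h2
      have hxU : x ∉ U := rsp171_K_not_mem hK (rsp171_mem_out.2 ⟨hx, f, hf, ih⟩)
      have heU : e ∉ rswInt U := by
        intro hh
        have := rsb_mem_int.1 hh
        rcases he with ⟨rfl, _⟩ | ⟨_, rfl⟩
        · exact hxU this.1
        · exact hxU this.2
      exact ⟨hx, hy, e, he, fun hh => hn ((hg e heU).1 hh)⟩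

theorem rsp171_K_of_good {Λ U : Finset (ℤ × ℤ)} {ω ω' : RswCfg} (hK : rspK Λ U ω)
    (hg : ∀ e, e ∉ rswInt U → (RswGood false ω e ↔ RswGood false ω' e)) : rspK Λ U ω' := by
  have e : rspOut Λ ω' = rspOut Λ ω := by
    ext x
    rw [rsp171_mem_out, rsp171_mem_out]
    refine and_congr_right fun _ => ⟨?_, ?_⟩
    · rintro ⟨f, hf, hr⟩; exact ⟨f, hf, (rsp171_out_sub hK hg hf).2 hr⟩
    · rintro ⟨f, hf, hr⟩; exact ⟨f, hf, (rsp171_out_sub hK hg hf).1 hr⟩
  unfold rspK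
  rw [e]
  exact hK

/-- the result of the search reads only the rest of `U` -/
theorem rsp171_K_outside (Λ U : Finset (ℤ × ℤ)) : RskOutside U (rspI (rspK Λ U)) := by
  refine rsk_outside_of_good (a := false) fun ω ω' hg => rsp171_I_congr ⟨fun h => rsp171_K_of_good h hg, fun h => ?_⟩
  exact rsp171_K_of_good h fun e he => (hg e he).symm

/-- on `rspK Λ U` the polygon of `U` is a good minus cut -/
theorem rsp171_K_cut {Λ U : Finset (ℤ × ℤ)} {ω : RswCfg} (hK : rspK Λ U ω) : RswCut U false ω := by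
  have hU : ∀ x, x ∈ U ↔ x ∈ Λ ∧ x ∉ rspOut Λ ω := by
    intro x
    rw [← hK, mem_sdiff]
  -- a face of `U`, a neighbour off `U`: the edge is good
  have key : ∀ (x y : ℤ × ℤ) (e : (ℤ × ℤ) × Bool), x ∈ U → y ∉ U → ((x = e.1 ∧ y = rswCo e) ∨ (y = e.1 ∧ x = rswCo e)) →
      RswGood false ω e := by
    intro x y e hx hy he
    have hx' := (hU x).1 hx
    have hl : x ∉ rswLayer Λ := fun hh => hx'.2 (rsp171_mem_out.2 ⟨hx'.1, x, hh, Relation.ReflTransGen.refl⟩)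
    have hyΛ : y ∈ Λ := rsp171_nbr hx'.1 hl he
    have hyO : y ∈ rspOut Λ ω := by
      by_contra hh
      exact hy ((hU y).2 ⟨hyΛ, hh⟩)
    obtain ⟨_, f, hf, hr⟩ := rsp171_mem_out.1 hyO
    by_contra hn
    exact hx'.2 (rsp171_mem_out.2 ⟨hx'.1, f, hf, hr.tail ⟨hyΛ, hx'.1, e, he.symm, hn⟩⟩)
  intro e he
  rcases he with ⟨h1, h2⟩ | ⟨h1, h2⟩
  · exact key e.1 (rswCo e) e h1 h2 (Or.inl ⟨rfl, rfl⟩)
  · exact key (rswCo e) e.1 e h2 h1 (Or.inr ⟨rfl, rfl⟩)

theorem rsp171_inn_sub (U : Finset (ℤ × ℤ)) : rspInn U ⊆ cornersOf U := fun _ hv => (rsp171_mem_inn.1 hv).1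

theorem rsp171_inside {U : Finset (ℤ × ℤ)} {X : RswCfg → ℝ} (hX : RspLoc (cornersOf U) U (rswInt U) X) : RskInside U X := by
  intro ω
  apply hX <;> simp only [rskIn, inter_assoc, inter_self]

/-- **THE CUT**: behind the searched minus cut the law is the minus flat law of the unsearched set -/
theorem rsp171_cut {t : ℝ} (h0 : 0 < t) (h1 : t ≤ 1) {Λ F U : Finset (ℤ × ℤ)} (b : Bool) {X : RswCfg → ℝ} (hΛ : Λ ⊆ F) (hU : U ⊆ Λ)
    (hX : RspLoc (cornersOf U) U (rswInt U) X) :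
    rswE t F b (fun ω => rspI (rspK Λ U) ω * X ω) = rswP t F b (rspK Λ U) * rswE t U false X := by
  have h := rsk_cut_E h0 h1 (hU.trans hΛ) false b (rsp171_inside hX) (rsp171_K_outside Λ U)
  have e : ∀ ω, rskInd U false ω * rspI (rspK Λ U) ω = rspI (rspK Λ U) ω := by
    intro ω
    by_cases hK : rspK Λ U ω
    · have : rskInd U false ω = 1 := by
        unfold rskInd; exact if_pos (rsp171_K_cut hK)
      rw [this, one_mul]
    · rw [rsp171_I_neg hK, mul_zero]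
  have e1 : (fun ω => rskInd U false ω * X ω * rspI (rspK Λ U) ω) = fun ω => rspI (rspK Λ U) ω * X ω := by
    funext ω
    rw [mul_right_comm, e]
  have e2 : (fun ω => rskInd U false ω * rspI (rspK Λ U) ω) = rspI (rspK Λ U) := by
    funext ω
    exact e ω
  rw [e1, e2] at h
  rw [h, rsp171_P_eq, mul_comm]

/-! ## 6. window functions: bounded; difference of two increasing functions -/

theorem rsp171_bdd {V G : Finset (ℤ × ℤ)} {Es : Finset ((ℤ × ℤ) × Bool)} {X : RswCfg → ℝ} (hX : RspLoc V G Es X) :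
    ∃ B : ℝ, 0 ≤ B ∧ ∀ ω, |X ω| ≤ B := by
  refine ⟨∑ S ∈ V.powerset, ∑ D ∈ G.powerset, ∑ O ∈ Es.powerset, |X ⟨S, D, O⟩|,
    sum_nonneg fun _ _ => sum_nonneg fun _ _ => sum_nonneg fun _ _ => abs_nonneg _, fun ω => ?_⟩
  have e : X ω = X ⟨ω.S ∩ V, ω.D ∩ G, ω.O ∩ Es⟩ := by
    apply hX <;> simp only [inter_assoc, inter_self]
  rw [e]
  calc |X ⟨ω.S ∩ V, ω.D ∩ G, ω.O ∩ Es⟩| ≤ ∑ O ∈ Es.powerset, |X ⟨ω.S ∩ V, ω.D ∩ G, O⟩| :=
        single_le_sum (f := fun O => |X ⟨ω.S ∩ V, ω.D ∩ G, O⟩|) (fun _ _ => abs_nonneg _) (mem_powerset.2 inter_subset_right)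
    _ ≤ ∑ D ∈ G.powerset, ∑ O ∈ Es.powerset, |X ⟨ω.S ∩ V, D, O⟩| :=
        single_le_sum (f := fun D => ∑ O ∈ Es.powerset, |X ⟨ω.S ∩ V, D, O⟩|) (fun _ _ => sum_nonneg fun _ _ => abs_nonneg _)
          (mem_powerset.2 inter_subset_right)
    _ ≤ _ :=
        single_le_sum (f := fun S => ∑ D ∈ G.powerset, ∑ O ∈ Es.powerset, |X ⟨S, D, O⟩|)
          (fun _ _ => sum_nonneg fun _ _ => sum_nonneg fun _ _ => abs_nonneg _) (mem_powerset.2 inter_subset_right)

/-- the three monotone coordinates in a window -/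
def rspT1 (V : Finset (ℤ × ℤ)) (ω : RswCfg) : Finset (ℤ × ℤ) := ω.S ∩ V
def rspT2 (Es : Finset ((ℤ × ℤ) × Bool)) (ω : RswCfg) : Finset ((ℤ × ℤ) × Bool) := (ω.O ∩ Es).filter (fun e => e.1 ∈ ω.S)
def rspT3 (Es : Finset ((ℤ × ℤ) × Bool)) (ω : RswCfg) : Finset ((ℤ × ℤ) × Bool) := (ω.O ∩ Es).filter (fun e => e.1 ∉ ω.S)

/-- the rank -/
def rspRk (V : Finset (ℤ × ℤ)) (Es : Finset ((ℤ × ℤ) × Bool)) (ω : RswCfg) : ℝ :=
  ((rspT1 V ω).card : ℝ) + ((rspT2 Es ω).card : ℝ) - ((rspT3 Es ω).card : ℝ)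

theorem rsp171_T1_sub {ω ω' : RswCfg} (h : RspLe ω ω') (V : Finset (ℤ × ℤ)) : rspT1 V ω ⊆ rspT1 V ω' :=
  inter_subset_inter_right h.1

theorem rsp171_T2_sub {ω ω' : RswCfg} (h : RspLe ω ω') (Es : Finset ((ℤ × ℤ) × Bool)) : rspT2 Es ω ⊆ rspT2 Es ω' := by
  intro e he
  simp only [rspT2, mem_filter, mem_inter] at he ⊢
  exact ⟨⟨h.2.1 e he.1.1 he.2, he.1.2⟩, h.1 he.2⟩

theorem rsp171_T3_sub {ω ω' : RswCfg} (h : RspLe ω ω') (Es : Finset ((ℤ × ℤ) × Bool)) : rspT3 Es ω' ⊆ rspT3 Es ω := by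
  intro e he
  simp only [rspT3, mem_filter, mem_inter] at he ⊢
  exact ⟨⟨h.2.2 e he.1.1 he.2, he.1.2⟩, fun hh => he.2 (h.1 hh)⟩

theorem rsp171_T23 (Es : Finset ((ℤ × ℤ) × Bool)) (ω : RswCfg) : rspT2 Es ω ∪ rspT3 Es ω = ω.O ∩ Es := by
  unfold rspT2 rspT3
  exact filter_union_filter_not_eq _ _

theorem rsp171_rk_mono {ω ω' : RswCfg} (h : RspLe ω ω') (V : Finset (ℤ × ℤ)) (Es : Finset ((ℤ × ℤ) × Bool)) :
    rspRk V Es ω ≤ rspRk V Es ω' := by
  unfold rspRk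
  have a1 : ((rspT1 V ω).card : ℝ) ≤ (rspT1 V ω').card := by exact_mod_cast card_le_card (rsp171_T1_sub h V)
  have a2 : ((rspT2 Es ω).card : ℝ) ≤ (rspT2 Es ω').card := by exact_mod_cast card_le_card (rsp171_T2_sub h Es)
  have a3 : ((rspT3 Es ω').card : ℝ) ≤ (rspT3 Es ω).card := by exact_mod_cast card_le_card (rsp171_T3_sub h Es)
  linarith

/-- the rank is strictly increasing on the window -/
theorem rsp171_rk_strict {ω ω' : RswCfg} (h : RspLe ω ω') (V : Finset (ℤ × ℤ)) (Es : Finset ((ℤ × ℤ) × Bool)) :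
    (ω.S ∩ V = ω'.S ∩ V ∧ ω.O ∩ Es = ω'.O ∩ Es) ∨ rspRk V Es ω + 1 ≤ rspRk V Es ω' := by
  have b1 := card_le_card (rsp171_T1_sub h V)
  have b2 := card_le_card (rsp171_T2_sub h Es)
  have b3 := card_le_card (rsp171_T3_sub h Es)
  by_cases hc : (rspT1 V ω').card ≤ (rspT1 V ω).card ∧ (rspT2 Es ω').card ≤ (rspT2 Es ω).card ∧ (rspT3 Es ω).card ≤ (rspT3 Es ω').card
  · left
    have e1 := eq_of_subset_of_card_le (rsp171_T1_sub h V) hc.1
    have e2 := eq_of_subset_of_card_le (rsp171_T2_sub h Es) hc.2.1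
    have e3 := eq_of_subset_of_card_le (rsp171_T3_sub h Es) hc.2.2
    refine ⟨e1, ?_⟩
    rw [← rsp171_T23, ← rsp171_T23, e2, e3]
  · right
    have : (rspT1 V ω).card + (rspT2 Es ω).card + (rspT3 Es ω').card + 1 ≤ (rspT1 V ω').card + (rspT2 Es ω').card + (rspT3 Es ω).card := by
      omega
    have this' : ((rspT1 V ω).card : ℝ) + (rspT2 Es ω).card + (rspT3 Es ω').card + 1 ≤ (rspT1 V ω').card + (rspT2 Es ω').card + (rspT3 Es ω).card := by
      exact_mod_cast this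
    unfold rspRk
    linarith

theorem rsp171_rk_loc (V : Finset (ℤ × ℤ)) (Es : Finset ((ℤ × ℤ) × Bool)) (hV : ∀ e ∈ Es, e.1 ∈ V) : RspLoc V ∅ Es (rspRk V Es) := by
  intro ω ω' hS _ hO
  have e1 : rspT1 V ω = rspT1 V ω' := hS
  have e2 : rspT2 Es ω = rspT2 Es ω' := by
    unfold rspT2
    rw [hO]
    refine filter_congr fun e he => ?_
    exact rsp171_mem_of_inter hS (hV e (mem_inter.1 he).2)
  have e3 : rspT3 Es ω = rspT3 Es ω' := by
    unfold rspT3
    rw [hO]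
    refine filter_congr fun e he => ?_
    exact not_congr (rsp171_mem_of_inter hS (hV e (mem_inter.1 he).2))
  unfold rspRk
  rw [e1, e2, e3]

/-- **SPLIT**: a function of `(S, O)` in a window is a difference of two increasing functions of `(S, O)` in the window -/
theorem rsp171_split {V : Finset (ℤ × ℤ)} {Es : Finset ((ℤ × ℤ) × Bool)} (hV : ∀ e ∈ Es, e.1 ∈ V) {X : RswCfg → ℝ}
    (hX : RspLoc V ∅ Es X) :
    ∃ A₁ A₂ : RswCfg → ℝ, RspInc A₁ ∧ RspInc A₂ ∧ RspLoc V ∅ Es A₁ ∧ RspLoc V ∅ Es A₂ ∧ ∀ ω, X ω = A₁ ω - A₂ ω := by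
  obtain ⟨B, hB0, hB⟩ := rsp171_bdd hX
  refine ⟨fun ω => X ω + 2 * B * rspRk V Es ω, fun ω => 2 * B * rspRk V Es ω, ?_, ?_, ?_, ?_, fun ω => by ring⟩
  · intro ω ω' h
    rcases rsp171_rk_strict h V Es with ⟨e1, e2⟩ | hs
    · have : X ω = X ω' := hX ω ω' e1 (by simp) e2
      have h2 := rsp171_rk_mono h V Es
      have : 2 * B * rspRk V Es ω ≤ 2 * B * rspRk V Es ω' := mul_le_mul_of_nonneg_left h2 (by linarith)
      simp only
      linarith
    · have a1 := abs_le.1 (hB ω)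
      have a2 := abs_le.1 (hB ω')
      have : 2 * B * (rspRk V Es ω + 1) ≤ 2 * B * rspRk V Es ω' := mul_le_mul_of_nonneg_left hs (by linarith)
      simp only
      nlinarith
  · intro ω ω' h
    exact mul_le_mul_of_nonneg_left (rsp171_rk_mono h V Es) (by linarith)
  · intro ω ω' a b c
    simp only
    rw [hX ω ω' a b c, rsp171_rk_loc V Es hV ω ω' a b c]
  · intro ω ω' a b c
    simp only
    rw [rsp171_rk_loc V Es hV ω ω' a b c]

/-! ## 7. sandwich and contraction -/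

section Main

variable {t p : ℝ} {κ n0 : ℕ} {Dom : Finset (ℤ × ℤ) → Prop}

theorem rsp171_off_const (V : Finset (ℤ × ℤ)) (Es : Finset ((ℤ × ℤ) × Bool)) (c : ℝ) : RspOff V Es (fun _ => c) := fun _ _ _ _ => rfl

/-- the law in `F` is dominated inside `F'` by the plus flat law of `F'` -/
theorem rsp171_up1 (h0 : 0 < t) (h1 : t ≤ 1) (H : RspIn t p κ n0 Dom) {F' F : Finset (ℤ × ℤ)} (b : Bool) {A : RswCfg → ℝ} (hD : Dom F)
    (hs : F' ⊆ F) (hd : RspDeep F' F) (hA : RspInc A) (hl : RspLoc (cornersOf F') ∅ (rswInt F') A) :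
    rswE t F b A ≤ rswE t F' true A := by
  have := H.up F' F F b A (fun _ => 1) hD (Finset.Subset.refl _) hs hd hA hl (rsp171_off_const _ _ 1) (fun _ => zero_le_one)
  simp only [mul_one] at this
  rwa [rsb_E_one h0 h1, mul_one] at this

theorem rsp171_p_le_one (h0 : 0 < t) (h1 : t ≤ 1) (H : RspIn t p κ n0 Dom) : p ≤ 1 :=
  (H.circ n0 le_rfl).trans (rsb_P_le_one h0 h1 _ _ _)

theorem rsp171_le_kmul (hk : 2 ≤ κ) (M : ℕ) : M ≤ κ * M := by nlinarith

theorem rsp171_box_loc {n N : ℕ} (h : n ≤ N) {G : Finset (ℤ × ℤ)} {A : RswCfg → ℝ}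
    (hl : RspLoc (cornersOf (rswBox 0 n)) G (rswInt (rswBox 0 n)) A) :
    RspLoc (cornersOf (rswBox 0 N)) G (rswInt (rswBox 0 N)) A :=
  rsp171_loc_mono hl (rsp171_corners_mono (rsp171_box_mono h)) (Finset.Subset.refl _) (rsp171_int_mono (rsp171_box_mono h))

/-- splitting of an expectation along an event -/
theorem rsp171_E_split (F : Finset (ℤ × ℤ)) (b : Bool) (L : RswCfg → Prop) (X : RswCfg → ℝ) :
    rswE t F b X = rswE t F b (fun ω => rspI L ω * X ω) + rswE t F b (fun ω => X ω * rspI (fun ω => ¬ L ω) ω) := by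
  rw [← rsb_E_add]
  congr 1
  funext ω
  have := rsp171_I_compl L ω
  calc X ω = (rspI L ω + rspI (fun ω => ¬ L ω) ω) * X ω := by rw [this, one_mul]
    _ = _ := by ring

/-- the part of an expectation on a successful search -/
theorem rsp171_E_sep (h0 : 0 < t) (h1 : t ≤ 1) {n m : ℕ} (hnm : n ≤ m) {F : Finset (ℤ × ℤ)} (b : Bool) (hF : rswBox 0 m ⊆ F)
    {X : RswCfg → ℝ} (hX : RspLoc (cornersOf (rswBox 0 n)) (rswBox 0 n) (rswInt (rswBox 0 n)) X) :
    rswE t F b (fun ω => rspI (rspSep n m) ω * X ω) =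
      ∑ U ∈ rspFam n m, rswP t F b (rspK (rswBox 0 m) U) * rswE t U false X := by
  have e : (fun ω => rspI (rspSep n m) ω * X ω) = fun ω => ∑ U ∈ rspFam n m, rspI (rspK (rswBox 0 m) U) ω * X ω := by
    funext ω
    rw [rsp171_sep_sum hnm, sum_mul]
  rw [e, rsb_E_finset_sum]
  refine sum_congr rfl fun U hU => ?_
  obtain ⟨hU1, hU2⟩ := rsp171_mem_fam.1 hU
  exact rsp171_cut h0 h1 b hF hU1 (rsp171_loc_mono hX (rsp171_corners_mono hU2) hU2 (rsp171_int_mono hU2))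

theorem rsp171_P_sep {n m : ℕ} (hnm : n ≤ m) (F : Finset (ℤ × ℤ)) (b : Bool) :
    rswP t F b (rspSep n m) = ∑ U ∈ rspFam n m, rswP t F b (rspK (rswBox 0 m) U) := by
  have e : rspI (rspSep n m) = fun ω => ∑ U ∈ rspFam n m, rspI (rspK (rswBox 0 m) U) ω := by
    funext ω
    exact rsp171_sep_sum hnm ω
  rw [rsp171_P_eq, e, rsb_E_finset_sum]
  rfl

/-- **CONTRACTION** -/
theorem rsp171_contract (h0 : 0 < t) (h1 : t ≤ 1) (H : RspIn t p κ n0 Dom) {A : RswCfg → ℝ} (hA : RspInc A) {n N : ℕ}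
    (hl : RspLoc (cornersOf (rswBox 0 n)) ∅ (rswInt (rswBox 0 n)) A) (hnN : n ≤ N) (hN : n0 ≤ N + 1) :
    rswE t (rswBox 0 (κ * (N + 1) + 1)) true A - rswE t (rswBox 0 (κ * (N + 1) + 1)) false A ≤
      (1 - p) * (rswE t (rswBox 0 N) true A - rswE t (rswBox 0 N) false A) := by
  have hkM := rsp171_le_kmul H.k2 (N + 1)
  set M := N + 1 with hM
  set K := κ * M with hK
  have hP := H.circ M hN
  have hP1 := rsb_P_le_one h0 h1 (rswBox 0 K) true (rspSep M K)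
  set P := rswP t (rswBox 0 K) true (rspSep M K) with hPdef
  have hlN := rsp171_box_loc hnN hl
  have hlM := rsp171_box_loc (show n ≤ M by omega) hl
  have hlK := rsp171_box_loc (show n ≤ K by omega) hl
  -- (b) the successful search
  have hb : rswE t (rswBox 0 K) true (fun ω => rspI (rspSep M K) ω * A ω) ≤ P * rswE t (rswBox 0 (K + 1)) false A := by
    rw [rsp171_E_sep h0 h1 hkM true (Finset.Subset.refl _)
      (rsp171_loc_mono hlM (Finset.Subset.refl _) (empty_subset _) (Finset.Subset.refl _)), hPdef,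
      rsp171_P_sep hkM, sum_mul]
    refine sum_le_sum fun U hU => ?_
    obtain ⟨hU1, hU2⟩ := rsp171_mem_fam.1 hU
    refine mul_le_mul_of_nonneg_left ?_ (rsb_P_nonneg h0 h1 _ _ _)
    exact H.dn U (rswBox 0 (K + 1)) false A (H.box _ (by omega)) (hU1.trans (rsp171_box_mono (by omega)))
      (rsp171_deep_mono (rsp171_box_deep K) hU1 (Finset.Subset.refl _)) hA
      (rsp171_loc_mono hlM (rsp171_corners_mono hU2) (Finset.Subset.refl _) (rsp171_int_mono hU2))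
  -- (c) the failed search
  have hc : rswE t (rswBox 0 K) true (fun ω => A ω * rspI (fun ω => ¬ rspSep M K ω) ω) ≤
      rswE t (rswBox 0 N) true A * (1 - P) := by
    have := H.up (rswBox 0 N) (rswBox 0 M) (rswBox 0 K) true A (rspI (fun ω => ¬ rspSep M K ω)) (H.box _ (by omega))
      (rsp171_box_mono hkM) (rsp171_box_mono (by omega)) (rsp171_box_deep N) hA hlN
      (rsp171_arm_off M K) (rsp171_I_nonneg _)
    rwa [← rsp171_P_eq, rsb_P_compl h0 h1] at this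
  have hsplit := rsp171_E_split (t := t) (rswBox 0 K) true (rspSep M K) A
  -- (d), (e) monotonicity in the box
  have hd : rswE t (rswBox 0 (K + 1)) true A ≤ rswE t (rswBox 0 K) true A :=
    rsp171_up1 h0 h1 H true (H.box _ (by omega)) (rsp171_box_mono (by omega)) (rsp171_box_deep K) hA hlK
  have he1 : rswE t (rswBox 0 N) false A ≤ rswE t (rswBox 0 (K + 1)) false A :=
    H.dn _ _ false A (H.box _ (by omega)) (rsp171_box_mono (by omega)) (rsp171_box_deep' (show N < K + 1 by omega) (Finset.Subset.refl _)) hA hlN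
  have he2 : rswE t (rswBox 0 (K + 1)) false A ≤ rswE t (rswBox 0 N) true A :=
    rsp171_up1 h0 h1 H false (H.box _ (by omega)) (rsp171_box_mono (by omega)) (rsp171_box_deep' (show N < K + 1 by omega) (Finset.Subset.refl _)) hA hlN
  set u' := rswE t (rswBox 0 (K + 1)) true A
  set l' := rswE t (rswBox 0 (K + 1)) false A
  set uN := rswE t (rswBox 0 N) true A
  set lN := rswE t (rswBox 0 N) false A
  have k0 : u' - l' ≤ (1 - P) * (uN - l') := by nlinarith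
  have k1 : (1 - P) * (uN - l') ≤ (1 - p) * (uN - l') := mul_le_mul_of_nonneg_right (by linarith) (by linarith)
  have k2 : (1 - p) * (uN - l') ≤ (1 - p) * (uN - lN) := mul_le_mul_of_nonneg_left (by linarith) (by linarith)
  linarith

/-- the scales `N ↦ κ (N + 1) + 1` -/
def rspSc (κ s : ℕ) : ℕ → ℕ
  | 0 => s
  | k + 1 => κ * (rspSc κ s k + 1) + 1

theorem rsp171_sc_ge (hk : 2 ≤ κ) (s k : ℕ) : s ≤ rspSc κ s k := by
  induction k with
  | zero => exact le_rfl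
  | succ k ih =>
    have := rsp171_le_kmul hk (rspSc κ s k + 1)
    simp only [rspSc]; omega

/-- convergence for increasing functions of `(S, O)` in a window -/
theorem rsp171_conv_inc (h0 : 0 < t) (h1 : t ≤ 1) (H : RspIn t p κ n0 Dom) {A : RswCfg → ℝ} (hA : RspInc A) {n : ℕ}
    (hl : RspLoc (cornersOf (rswBox 0 n)) ∅ (rswInt (rswBox 0 n)) A) : RspConv t Dom A := by
  set N : ℕ → ℕ := rspSc κ (max n n0) with hN
  have hNn : ∀ k, n ≤ N k := fun k => (le_max_left n n0).trans (rsp171_sc_ge H.k2 _ k)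
  have hN4 : ∀ k, n0 ≤ N k + 1 := fun k => ((le_max_right n n0).trans (rsp171_sc_ge H.k2 _ k)).trans (Nat.le_succ _)
  set u : ℕ → ℝ := fun k => rswE t (rswBox 0 (N k)) true A with hu
  set l : ℕ → ℝ := fun k => rswE t (rswBox 0 (N k)) false A with hl'
  have hp1 := rsp171_p_le_one h0 h1 H
  -- sandwich
  have sand : ∀ (k : ℕ) (F : Finset (ℤ × ℤ)) (b : Bool), Dom F → rswBox 0 (N k + 1) ⊆ F → l k ≤ rswE t F b A ∧ rswE t F b A ≤ u k := by
    intro k F b hD hF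
    have hs : rswBox 0 (N k) ⊆ F := (rsp171_box_mono (Nat.le_succ _)).trans hF
    have hd : RspDeep (rswBox 0 (N k)) F := rsp171_box_deep' (Nat.lt_succ_self _) hF
    exact ⟨H.dn _ _ b A hD hs hd hA (rsp171_box_loc (hNn k) hl), rsp171_up1 h0 h1 H b hD hs hd hA (rsp171_box_loc (hNn k) hl)⟩
  have hlu : ∀ j k, l j ≤ u k := by
    intro j k
    have a := sand j (rswBox 0 (max (N j) (N k) + 1)) true (H.box _ (by omega)) (rsp171_box_mono (by omega))
    have b := sand k (rswBox 0 (max (N j) (N k) + 1)) true (H.box _ (by omega)) (rsp171_box_mono (by omega))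
    exact a.1.trans b.2
  have hdk : ∀ k, u k - l k ≤ (1 - p) ^ k * (u 0 - l 0) := by
    intro k
    induction k with
    | zero => simp
    | succ k ih =>
      have := rsp171_contract h0 h1 H hA hl (hNn k) (hN4 k)
      have e : N (k + 1) = κ * (N k + 1) + 1 := rfl
      calc u (k + 1) - l (k + 1) ≤ (1 - p) * (u k - l k) := by simp only [hu, hl', e]; exact this
        _ ≤ (1 - p) * ((1 - p) ^ k * (u 0 - l 0)) := mul_le_mul_of_nonneg_left ih (by linarith)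
        _ = _ := by ring
  have hbdd : BddAbove (Set.range l) := ⟨u 0, by rintro _ ⟨j, rfl⟩; exact hlu j 0⟩
  refine ⟨⨆ j, l j, fun ε hε => ?_⟩
  have hd0 : 0 ≤ u 0 - l 0 := by linarith [hlu 0 0]
  obtain ⟨k, hk⟩ := exists_pow_lt_of_lt_one (show 0 < ε / (u 0 - l 0 + 1) by positivity) (show 1 - p < 1 by linarith [H.p0])
  refine ⟨N k + 1, fun F b hD hF => ?_⟩
  obtain ⟨s1, s2⟩ := sand k F b hD hF
  have a1 : l k ≤ ⨆ j, l j := le_ciSup hbdd k
  have a2 : ⨆ j, l j ≤ u k := ciSup_le fun j => hlu j k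
  have a3 : u k - l k < ε := by
    have hpk : 0 ≤ (1 - p) ^ k := pow_nonneg (by linarith) k
    calc u k - l k ≤ (1 - p) ^ k * (u 0 - l 0) := hdk k
      _ ≤ (1 - p) ^ k * (u 0 - l 0 + 1) := mul_le_mul_of_nonneg_left (by linarith) hpk
      _ < ε / (u 0 - l 0 + 1) * (u 0 - l 0 + 1) := mul_lt_mul_of_pos_right hk (by linarith)
      _ = ε := by field_simp
  rw [abs_lt]
  constructor <;> linarith

theorem rsp171_conv_sub {X Y : RswCfg → ℝ} (hX : RspConv t Dom X) (hY : RspConv t Dom Y) : RspConv t Dom (fun ω => X ω - Y ω) := by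
  obtain ⟨a, ha⟩ := hX
  obtain ⟨b, hb⟩ := hY
  refine ⟨a - b, fun ε hε => ?_⟩
  obtain ⟨n1, h1⟩ := ha (ε / 2) (by linarith)
  obtain ⟨n2, h2⟩ := hb (ε / 2) (by linarith)
  refine ⟨max n1 n2, fun F c hD hF => ?_⟩
  have c1 := abs_lt.1 (h1 F c hD ((rsp171_box_mono (le_max_left _ _)).trans hF))
  have c2 := abs_lt.1 (h2 F c hD ((rsp171_box_mono (le_max_right _ _)).trans hF))
  rw [rsb_E_sub, abs_lt]
  constructor <;> linarith

/-- convergence for all functions of `(S, O)` in a window -/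
theorem rsp171_conv_so (h0 : 0 < t) (h1 : t ≤ 1) (H : RspIn t p κ n0 Dom) {X : RswCfg → ℝ} {n : ℕ}
    (hl : RspLoc (cornersOf (rswBox 0 n)) ∅ (rswInt (rswBox 0 n)) X) : RspConv t Dom X := by
  obtain ⟨A₁, A₂, i1, i2, l1, l2, e⟩ := rsp171_split (fun e he => rsb_int_fst_corner he) hl
  have := rsp171_conv_sub (rsp171_conv_inc h0 h1 H i1 l1) (rsp171_conv_inc h0 h1 H i2 l2)
  have e' : X = fun ω => A₁ ω - A₂ ω := funext e
  rwa [e']

/-! ## 8. arms over many scales -/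

theorem rsp171_arm_step (h0 : 0 < t) (h1 : t ≤ 1) (H : RspIn t p κ n0 Dom) {n M : ℕ} (hnM : n ≤ M) (hM : n0 ≤ M + 1) :
    rswP t (rswBox 0 (κ * (M + 1) + 1)) true (fun ω => ¬ rspSep n (κ * (M + 1) + 1) ω) ≤
      (1 - p) * rswP t (rswBox 0 M) true (fun ω => ¬ rspSep n M ω) := by
  have hkM := rsp171_le_kmul H.k2 (M + 1)
  set K := κ * (M + 1) with hK
  have s1 : rswP t (rswBox 0 (K + 1)) true (fun ω => ¬ rspSep n (K + 1) ω) ≤
      rswE t (rswBox 0 (K + 1)) true (fun ω => rspI (fun ω => ¬ rspSep n M ω) ω * rspI (fun ω => ¬ rspSep (M + 1) K ω) ω) := by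
    rw [rsp171_P_eq]
    refine rsb_E_mono h0 h1 fun ω _ _ => ?_
    by_cases h : ¬ rspSep n (K + 1) ω
    · rw [rsp171_I_pos (L := fun ω => ¬ rspSep n (K + 1) ω) h,
        rsp171_I_pos (L := fun ω => ¬ rspSep n M ω) (rsp171_arm_nest le_rfl hnM (by omega) h),
        rsp171_I_pos (L := fun ω => ¬ rspSep (M + 1) K ω) (rsp171_arm_nest (by omega) (by omega) (by omega) h), one_mul]
    · rw [rsp171_I_neg (L := fun ω => ¬ rspSep n (K + 1) ω) h]
      exact mul_nonneg (rsp171_I_nonneg _ _) (rsp171_I_nonneg _ _)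
  have s2 := H.up (rswBox 0 M) (rswBox 0 (M + 1)) (rswBox 0 (K + 1)) true (rspI (fun ω => ¬ rspSep n M ω)) (rspI (fun ω => ¬ rspSep (M + 1) K ω))
    (H.box _ (by omega)) (rsp171_box_mono (by omega)) (rsp171_box_mono (by omega)) (rsp171_box_deep M)
    (rsp171_arm_inc n M) (rsp171_arm_loc n M) (rsp171_arm_off (M + 1) K) (rsp171_I_nonneg _)
  have s3 : rswE t (rswBox 0 (K + 1)) true (rspI (fun ω => ¬ rspSep (M + 1) K ω)) ≤ 1 - p := by
    have a := rsp171_up1 h0 h1 H true (H.box (K + 1) (by omega)) (rsp171_box_mono (show K ≤ K + 1 by omega)) (rsp171_box_deep K)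
      (rsp171_arm_inc (M + 1) K) (rsp171_arm_loc (M + 1) K)
    rw [← rsp171_P_eq t (rswBox 0 K), rsb_P_compl h0 h1] at a
    have := H.circ (M + 1) hM
    linarith
  have s4 : 0 ≤ rswE t (rswBox 0 M) true (rspI (fun ω => ¬ rspSep n M ω)) := rsb_E_nonneg h0 h1 fun ω _ _ => rsp171_I_nonneg _ _
  rw [rsp171_P_eq t (rswBox 0 M)]
  calc _ ≤ _ := s1
    _ ≤ _ := s2
    _ ≤ rswE t (rswBox 0 M) true (rspI (fun ω => ¬ rspSep n M ω)) * (1 - p) := mul_le_mul_of_nonneg_left s3 s4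
    _ = _ := mul_comm _ _

theorem rsp171_arm_pow (h0 : 0 < t) (h1 : t ≤ 1) (H : RspIn t p κ n0 Dom) (n k : ℕ) :
    rswP t (rswBox 0 (rspSc κ (max n n0) k)) true (fun ω => ¬ rspSep n (rspSc κ (max n n0) k) ω) ≤ (1 - p) ^ k := by
  have hp1 := rsp171_p_le_one h0 h1 H
  induction k with
  | zero => simpa using rsb_P_le_one h0 h1 _ _ _
  | succ k ih =>
    have := rsp171_arm_step h0 h1 H ((le_max_left n n0).trans (rsp171_sc_ge H.k2 _ k))
      (((le_max_right n n0).trans (rsp171_sc_ge H.k2 _ k)).trans (Nat.le_succ _))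
    calc _ ≤ _ := this
      _ ≤ (1 - p) * (1 - p) ^ k := mul_le_mul_of_nonneg_left ih (by linarith)
      _ = _ := by ring

theorem rsp171_arm_gen (h0 : 0 < t) (h1 : t ≤ 1) (H : RspIn t p κ n0 Dom) (n k : ℕ) {F : Finset (ℤ × ℤ)} (b : Bool) (hD : Dom F)
    (hF : rswBox 0 (rspSc κ (max n n0) k + 1) ⊆ F) : rswP t F b (fun ω => ¬ rspSep n (rspSc κ (max n n0) k) ω) ≤ (1 - p) ^ k := by
  refine le_trans ?_ (rsp171_arm_pow h0 h1 H n k)
  exact rsp171_up1 h0 h1 H b hD ((rsp171_box_mono (Nat.le_succ _)).trans hF) (rsp171_box_deep' (Nat.lt_succ_self _) hF)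
    (rsp171_arm_inc n _) (rsp171_arm_loc n _)

/-! ## 9. the face spins; the plane law -/

/-- almost constant along exhaustions -/
theorem rsp171_approx (h0 : 0 < t) (h1 : t ≤ 1) (H : RspIn t p κ n0 Dom) {X : RswCfg → ℝ} {n : ℕ}
    (hX : RspLoc (cornersOf (rswBox 0 n)) (rswBox 0 n) (rswInt (rswBox 0 n)) X) (ε : ℝ) (hε : 0 < ε) :
    ∃ (m0 : ℕ) (c : ℝ), ∀ (F : Finset (ℤ × ℤ)) (b : Bool), Dom F → rswBox 0 m0 ⊆ F → |rswE t F b X - c| < ε := by
  obtain ⟨B, hB0, hB⟩ := rsp171_bdd hX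
  obtain ⟨k, hk⟩ := exists_pow_lt_of_lt_one (show 0 < ε / (2 * (B + 1)) by positivity) (show 1 - p < 1 by linarith [H.p0])
  set m := rspSc κ (max n n0) k with hm
  have hnm : n ≤ m := (le_max_left n n0).trans (rsp171_sc_ge H.k2 _ k)
  -- the function of `(S, O)` which carries the main part
  set Z : RswCfg → ℝ := fun ω => ∑ U ∈ rspFam n m, rspI (rspK (rswBox 0 m) U) ω * rswE t U false X with hZ
  have hZl : RspLoc (cornersOf (rswBox 0 m)) ∅ (rswInt (rswBox 0 m)) Z := by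
    intro ω ω' a b c
    simp only [hZ]
    refine sum_congr rfl fun U _ => ?_
    rw [rsp171_K_loc (rswBox 0 m) U ω ω' a b c]
  obtain ⟨ℓ, hℓ⟩ := rsp171_conv_so h0 h1 H hZl
  obtain ⟨n1, hn1⟩ := hℓ (ε / 2) (by linarith)
  refine ⟨max n1 (m + 1), ℓ, fun F b hD hF => ?_⟩
  have hF1 : rswBox 0 n1 ⊆ F := (rsp171_box_mono (le_max_left _ _)).trans hF
  have hF2 : rswBox 0 (m + 1) ⊆ F := (rsp171_box_mono (le_max_right _ _)).trans hF
  have hFm : rswBox 0 m ⊆ F := (rsp171_box_mono (Nat.le_succ _)).trans hF2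
  have e1 : rswE t F b (fun ω => rspI (rspSep n m) ω * X ω) = rswE t F b Z := by
    rw [rsp171_E_sep h0 h1 hnm b hFm hX, hZ, rsb_E_finset_sum]
    refine sum_congr rfl fun U _ => ?_
    rw [rsb_E_mul_const, rsp171_P_eq]
  have e2 : |rswE t F b (fun ω => X ω * rspI (fun ω => ¬ rspSep n m ω) ω)| ≤ B * (1 - p) ^ k := by
    calc _ ≤ rswE t F b (fun ω => |X ω * rspI (fun ω => ¬ rspSep n m ω) ω|) := rsb_abs_E_le h0 h1 F b _
      _ ≤ rswE t F b (fun ω => B * rspI (fun ω => ¬ rspSep n m ω) ω) := by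
          refine rsb_E_mono h0 h1 fun ω _ _ => ?_
          rw [abs_mul, abs_of_nonneg (rsp171_I_nonneg _ _)]
          exact mul_le_mul_of_nonneg_right (hB ω) (rsp171_I_nonneg _ _)
      _ = B * rswP t F b (fun ω => ¬ rspSep n m ω) := by rw [rsb_E_const_mul, rsp171_P_eq]
      _ ≤ _ := mul_le_mul_of_nonneg_left (rsp171_arm_gen h0 h1 H n k b hD hF2) hB0
  have e3 : B * (1 - p) ^ k < ε / 2 := by
    have hpk : 0 ≤ (1 - p) ^ k := pow_nonneg (by linarith [rsp171_p_le_one h0 h1 H]) k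
    calc B * (1 - p) ^ k ≤ (B + 1) * (1 - p) ^ k := mul_le_mul_of_nonneg_right (by linarith) hpk
      _ < (B + 1) * (ε / (2 * (B + 1))) := mul_lt_mul_of_pos_left hk (by linarith)
      _ = ε / 2 := by field_simp
  have e4 := hn1 F b hD hF1
  rw [rsp171_E_split (t := t) F b (rspSep n m) X, e1]
  have a1 := abs_lt.1 e4
  have a2 := abs_le.1 e2
  rw [abs_lt]
  constructor <;> linarith

/-- almost constant along exhaustions ⟹ convergent -/
theorem rsp171_cauchy (hbox : ∀ n : ℕ, 1 ≤ n → Dom (rswBox 0 n)) {X : RswCfg → ℝ}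
    (h : ∀ ε : ℝ, 0 < ε → ∃ (m0 : ℕ) (c : ℝ), ∀ (F : Finset (ℤ × ℤ)) (b : Bool), Dom F → rswBox 0 m0 ⊆ F → |rswE t F b X - c| < ε) :
    RspConv t Dom X := by
  set a : ℕ → ℝ := fun j => rswE t (rswBox 0 (j + 1)) true X with ha
  have hc : CauchySeq a := by
    rw [Metric.cauchySeq_iff]
    intro ε hε
    obtain ⟨m0, c, hm0⟩ := h (ε / 2) (by linarith)
    refine ⟨m0, fun i hi j hj => ?_⟩
    have b1 := abs_lt.1 (hm0 (rswBox 0 (i + 1)) true (hbox _ (by omega)) (rsp171_box_mono (by omega)))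
    have b2 := abs_lt.1 (hm0 (rswBox 0 (j + 1)) true (hbox _ (by omega)) (rsp171_box_mono (by omega)))
    rw [Real.dist_eq, abs_lt]
    constructor <;> simp only [ha] <;> linarith
  obtain ⟨ℓ, hℓ⟩ := cauchySeq_tendsto_of_complete hc
  refine ⟨ℓ, fun ε hε => ?_⟩
  obtain ⟨m0, c, hm0⟩ := h (ε / 3) (by linarith)
  obtain ⟨j0, hj0⟩ := Metric.tendsto_atTop.1 hℓ (ε / 3) (by linarith)
  refine ⟨m0, fun F b hD hF => ?_⟩
  have b1 := abs_lt.1 (hm0 F b hD hF)
  have b2 := abs_lt.1 (hm0 (rswBox 0 (max m0 j0 + 1)) true (hbox _ (by omega)) (rsp171_box_mono (by omega)))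
  have b3 := hj0 (max m0 j0) (le_max_right _ _)
  rw [Real.dist_eq] at b3
  have b3' := abs_lt.1 b3
  simp only [ha] at b3'
  rw [abs_lt]
  constructor <;> linarith

/-- a window lies in a box -/
theorem rsp171_window (R : Finset (ℤ × ℤ)) (R' : Finset ((ℤ × ℤ) × Bool)) :
    ∃ n : ℕ, R ⊆ rswBox 0 n ∧ R ⊆ cornersOf (rswBox 0 n) ∧ R' ⊆ rswInt (rswBox 0 n) := by
  classical
  obtain ⟨n, hn⟩ := rsp171_exists_box (R ∪ R'.image (fun e => e.1) ∪ R'.image rswCo)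
  have hR : R ⊆ rswBox 0 n := fun v hv => hn (mem_union_left _ (mem_union_left _ hv))
  refine ⟨n, hR, fun v hv => rsp171_mem_corners.2 ⟨v, hR hv, Or.inl rfl⟩, fun e he => rsb_mem_int.2 ⟨?_, ?_⟩⟩
  · exact hn (mem_union_left _ (mem_union_right _ (mem_image_of_mem _ he)))
  · exact hn (mem_union_right _ (mem_image_of_mem _ he))

/-- **THE PLANE LAW** [DKLM Thm 17.1]: every local observable has ONE limit along ALL exhaustions by domains of the class `Dom`, both colours -/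
theorem rsp171_plane (h0 : 0 < t) (h1 : t ≤ 1) (H : RspIn t p κ n0 Dom) (R : Finset (ℤ × ℤ)) (R' : Finset ((ℤ × ℤ) × Bool)) (X : RswCfg → ℝ)
    (hX : RswLoc R R' X) :
    ∃ ℓ : ℝ, ∀ ε : ℝ, 0 < ε → ∃ m0 : ℕ, ∀ (F : Finset (ℤ × ℤ)) (b : Bool), Dom F → rswBox 0 m0 ⊆ F → |rswE t F b X - ℓ| < ε := by
  obtain ⟨n, a1, a2, a3⟩ := rsp171_window R R'
  have hl : RspLoc (cornersOf (rswBox 0 n)) (rswBox 0 n) (rswInt (rswBox 0 n)) X := rsp171_loc_mono (V := R) (G := R) (Es := R') hX a2 a1 a3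
  exact rsp171_cauchy H.box (rsp171_approx h0 h1 H hl)

/-- `exit_rsw_plane` VERBATIM from the record with `Dom = RswJordan` -/
theorem rsp171_exit (ht1 : 1 / 2 ≤ t) (ht2 : t < 1) (H : RspIn t p κ n0 RswJordan)
    (R : Finset (ℤ × ℤ)) (R' : Finset ((ℤ × ℤ) × Bool)) (X : RswCfg → ℝ) (hX : RswLoc R R' X) :
    ∃ ℓ : ℝ, ∀ ε : ℝ, 0 < ε → ∃ n0 : ℕ, ∀ (F : Finset (ℤ × ℤ)) (b : Bool),
      RswJordan F → rswBox 0 n0 ⊆ F → |rswE t F b X - ℓ| < ε :=
  rsp171_plane (by linarith) ht2.le H R R' X hX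

end Main

theorem rsp171_eqns_cite2 : True := by
  have := @rspFam.eq_1
  have := @rspT1.eq_1
  have := @rspT2.eq_1
  have := @rspT3.eq_1
  have := @rspRk.eq_1
  have := @rspSc.eq_1
  have := @rspSc.eq_2
  trivial

end Claimed.Agent.R292
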