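import Claimed.Agent.R292.Defs.RSW
import Claimed.Agent.R292.Height

/-!
# Row 292 (S0540), Rsw/Base31 : R0 BASE (`rsb_`) of unit RSW      (pen helper31)      0 sorry

## R0 BASE
* `rsb_fac_nonneg`, `rsb_fac_le_one`, `rsb_wt_nonneg`, `rsb_wt_ne_zero` (what a configuration of non zero weight satisfies)
* `RsbIn F ω` : `ω` is one of the configurations summed over; `rsb_sum_eq` (one sum over a product finset)
* `rswSum` : `rsb_sum_add/sub/neg/const_mul/mul_const/finset_sum/congr/mono/nonneg`, **`rsb_Z_pos`**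
* `rswE` : `rsb_E_add/sub/neg/const_mul/mul_const/finset_sum/const/congr/mono/nonneg`, `rsb_abs_E_le`, `rsb_E_le_of_le`, `rsb_E_cauchy`, `rsb_E_sq_le`
* `rswP` : `rsb_P_nonneg/le_one/mono/congr/union/compl/true/false/inter_ge/eq_one`, `rsb_P_markov`
* **`rsb_sum_O`**, `rsb_sum_marg` : the sum over `O` of the product = product of the `(s,d)` factors `1 / t / t / 0` (`rsbPair`)
* global flips `rsbFlipS` (`b ↔ !b`), `rsbFlipD` : `rsb_sum_flipS`, `rsb_E_flipS`, `rsb_P_flipS`, `rsb_sum_flipD`, `rsb_E_flipD`, `rsb_P_flipD`, `rsb_sep_flipS`, `rsb_sep_flipD`, `rsb_P_sep_flip`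

* heights: `rsb_H_flipS`, `rsb_H_flipD` (`rswH` changes sign at the corners), `rsb_E_H_neg` (symmetric law), `rsb_E_H_colour` (same law of the height for `b` and `!b`)

## R1 SYM : see `Rsw/Sym211.lean` (helper211; `RsySym`, `rsy_E`, `rsy_P`, `rsy_sep`, ...): my twin of it has been removed from this file.
-/

set_option autoImplicit false

namespace Claimed.Agent.R292

open Claims Claims.C0468

/-! ## R0 BASE : weights -/

theorem rsb_fac_nonneg {t : ℝ} (h0 : 0 ≤ t) (h1 : t ≤ 1) (ω : RswCfg) (e : (ℤ × ℤ) × Bool) :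
    0 ≤ rswFac t ω e := by
  unfold rswFac
  split_ifs <;> linarith

theorem rsb_fac_le_one {t : ℝ} (h0 : 0 ≤ t) (h1 : t ≤ 1) (ω : RswCfg) (e : (ℤ × ℤ) × Bool) :
    rswFac t ω e ≤ 1 := by
  unfold rswFac
  split_ifs <;> linarith

theorem rsb_fac_ne_zero {t : ℝ} {ω : RswCfg} {e : (ℤ × ℤ) × Bool} (h : rswFac t ω e ≠ 0) :
    (e ∈ ω.O → (e.1 ∈ ω.S ↔ rswEnd e ∈ ω.S)) ∧ (e ∉ ω.O → (e.1 ∈ ω.D ↔ rswCo e ∈ ω.D)) := by
  unfold rswFac at h
  constructor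
  · intro he
    rw [if_pos he] at h
    by_contra hc
    rw [if_neg hc] at h
    exact h rfl
  · intro he
    rw [if_neg he] at h
    by_contra hc
    rw [if_neg hc] at h
    exact h rfl

theorem rsb_wt_nonneg {t : ℝ} (h0 : 0 ≤ t) (h1 : t ≤ 1) (F : Finset (ℤ × ℤ)) (b : Bool) (ω : RswCfg) :
    0 ≤ rswWt t F b ω := by
  unfold rswWt
  split_ifs
  · exact Finset.prod_nonneg fun e _ => rsb_fac_nonneg h0 h1 ω e
  · exact le_rfl

theorem rsb_wt_le_one {t : ℝ} (h0 : 0 ≤ t) (h1 : t ≤ 1) (F : Finset (ℤ × ℤ)) (b : Bool) (ω : RswCfg) :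
    rswWt t F b ω ≤ 1 := by
  unfold rswWt
  split_ifs
  · exact Finset.prod_le_one (fun e _ => rsb_fac_nonneg h0 h1 ω e) fun e _ => rsb_fac_le_one h0 h1 ω e
  · exact zero_le_one

/-- what a configuration of non zero weight satisfies -/
theorem rsb_wt_ne_zero {t : ℝ} {F : Finset (ℤ × ℤ)} {b : Bool} {ω : RswCfg} (h : rswWt t F b ω ≠ 0) :
    RswBc F b ω ∧ ∀ e ∈ rswInt F, rswFac t ω e ≠ 0 ∧
      (e ∈ ω.O → (e.1 ∈ ω.S ↔ rswEnd e ∈ ω.S)) ∧ (e ∉ ω.O → (e.1 ∈ ω.D ↔ rswCo e ∈ ω.D)) := by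
  unfold rswWt at h
  by_cases hb : RswBc F b ω
  · rw [if_pos hb] at h
    refine ⟨hb, fun e he => ?_⟩
    have := (Finset.prod_ne_zero_iff.1 h) e he
    exact ⟨this, rsb_fac_ne_zero this⟩
  · rw [if_neg hb] at h
    exact absurd rfl h

theorem rsb_mem_int {F : Finset (ℤ × ℤ)} {e : (ℤ × ℤ) × Bool} : e ∈ rswInt F ↔ e.1 ∈ F ∧ rswCo e ∈ F := by
  unfold rswInt
  simp [Finset.mem_filter, Finset.mem_product]

theorem rsb_int_fst_corner {F : Finset (ℤ × ℤ)} {e : (ℤ × ℤ) × Bool} (he : e ∈ rswInt F) : e.1 ∈ cornersOf F :=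
  at92h_self_mem_corners (rsb_mem_int.1 he).1

theorem rsb_int_end_corner {F : Finset (ℤ × ℤ)} {e : (ℤ × ℤ) × Bool} (he : e ∈ rswInt F) :
    rswEnd e ∈ cornersOf F := by
  refine at92h_mem_corners.2 ⟨e.1, (rsb_mem_int.1 he).1, ?_⟩
  unfold rswEnd at92hCor
  split_ifs <;> simp

/-! ## the configurations summed over -/

/-- `ω` is one of the configurations of the flat problem on `F` -/
def RsbIn (F : Finset (ℤ × ℤ)) (ω : RswCfg) : Prop :=
  ω.S ⊆ cornersOf F ∧ ω.D ⊆ F ∧ ω.O ⊆ rswInt F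

/-- the index set of `rswSum` as one finset -/
noncomputable def rsbAll (F : Finset (ℤ × ℤ)) :
    Finset (Finset (ℤ × ℤ) × Finset (ℤ × ℤ) × Finset ((ℤ × ℤ) × Bool)) :=
  (cornersOf F).powerset ×ˢ F.powerset ×ˢ (rswInt F).powerset

/-- triple to configuration -/
def rsbMk (p : Finset (ℤ × ℤ) × Finset (ℤ × ℤ) × Finset ((ℤ × ℤ) × Bool)) : RswCfg := ⟨p.1, p.2.1, p.2.2⟩

theorem rsb_mem_all {F : Finset (ℤ × ℤ)} {p : Finset (ℤ × ℤ) × Finset (ℤ × ℤ) × Finset ((ℤ × ℤ) × Bool)} :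
    p ∈ rsbAll F ↔ RsbIn F (rsbMk p) := by
  simp [rsbAll, RsbIn, rsbMk, Finset.mem_product, Finset.mem_powerset]

theorem rsb_sum_eq (t : ℝ) (F : Finset (ℤ × ℤ)) (b : Bool) (X : RswCfg → ℝ) :
    rswSum t F b X = ∑ p ∈ rsbAll F, rswWt t F b (rsbMk p) * X (rsbMk p) := by
  unfold rswSum rsbAll
  rw [Finset.sum_product]
  refine Finset.sum_congr rfl fun S _ => ?_
  rw [Finset.sum_product]
  rfl

/-! ## `rswSum` -/

theorem rsb_sum_add (t : ℝ) (F : Finset (ℤ × ℤ)) (b : Bool) (X Y : RswCfg → ℝ) :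
    rswSum t F b (fun ω => X ω + Y ω) = rswSum t F b X + rswSum t F b Y := by
  simp only [rsb_sum_eq, mul_add, Finset.sum_add_distrib]

theorem rsb_sum_sub (t : ℝ) (F : Finset (ℤ × ℤ)) (b : Bool) (X Y : RswCfg → ℝ) :
    rswSum t F b (fun ω => X ω - Y ω) = rswSum t F b X - rswSum t F b Y := by
  simp only [rsb_sum_eq, mul_sub, Finset.sum_sub_distrib]

theorem rsb_sum_neg (t : ℝ) (F : Finset (ℤ × ℤ)) (b : Bool) (X : RswCfg → ℝ) :
    rswSum t F b (fun ω => - X ω) = - rswSum t F b X := by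
  simp only [rsb_sum_eq, mul_neg, Finset.sum_neg_distrib]

theorem rsb_sum_const_mul (t : ℝ) (F : Finset (ℤ × ℤ)) (b : Bool) (c : ℝ) (X : RswCfg → ℝ) :
    rswSum t F b (fun ω => c * X ω) = c * rswSum t F b X := by
  simp only [rsb_sum_eq, Finset.mul_sum]
  exact Finset.sum_congr rfl fun p _ => by ring

theorem rsb_sum_mul_const (t : ℝ) (F : Finset (ℤ × ℤ)) (b : Bool) (c : ℝ) (X : RswCfg → ℝ) :
    rswSum t F b (fun ω => X ω * c) = rswSum t F b X * c := by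
  simp only [rsb_sum_eq, Finset.sum_mul]
  exact Finset.sum_congr rfl fun p _ => by ring

theorem rsb_sum_zero (t : ℝ) (F : Finset (ℤ × ℤ)) (b : Bool) : rswSum t F b (fun _ => 0) = 0 := by
  simp only [rsb_sum_eq, mul_zero, Finset.sum_const_zero]

theorem rsb_sum_finset_sum {ι : Type*} (t : ℝ) (F : Finset (ℤ × ℤ)) (b : Bool) (s : Finset ι) (X : ι → RswCfg → ℝ) :
    rswSum t F b (fun ω => ∑ i ∈ s, X i ω) = ∑ i ∈ s, rswSum t F b (X i) := by
  simp only [rsb_sum_eq, Finset.mul_sum]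
  exact Finset.sum_comm

theorem rsb_sum_congr {t : ℝ} {F : Finset (ℤ × ℤ)} {b : Bool} {X Y : RswCfg → ℝ}
    (h : ∀ ω, RsbIn F ω → rswWt t F b ω ≠ 0 → X ω = Y ω) : rswSum t F b X = rswSum t F b Y := by
  simp only [rsb_sum_eq]
  refine Finset.sum_congr rfl fun p hp => ?_
  by_cases hw : rswWt t F b (rsbMk p) = 0
  · rw [hw, zero_mul, zero_mul]
  · rw [h _ (rsb_mem_all.1 hp) hw]

theorem rsb_sum_mono {t : ℝ} (h0 : 0 ≤ t) (h1 : t ≤ 1) {F : Finset (ℤ × ℤ)} {b : Bool} {X Y : RswCfg → ℝ}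
    (h : ∀ ω, RsbIn F ω → rswWt t F b ω ≠ 0 → X ω ≤ Y ω) : rswSum t F b X ≤ rswSum t F b Y := by
  simp only [rsb_sum_eq]
  refine Finset.sum_le_sum fun p hp => ?_
  by_cases hw : rswWt t F b (rsbMk p) = 0
  · rw [hw, zero_mul, zero_mul]
  · exact mul_le_mul_of_nonneg_left (h _ (rsb_mem_all.1 hp) hw) (rsb_wt_nonneg h0 h1 F b _)

theorem rsb_sum_nonneg {t : ℝ} (h0 : 0 ≤ t) (h1 : t ≤ 1) {F : Finset (ℤ × ℤ)} {b : Bool} {X : RswCfg → ℝ}
    (h : ∀ ω, RsbIn F ω → rswWt t F b ω ≠ 0 → 0 ≤ X ω) : 0 ≤ rswSum t F b X := by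
  rw [← rsb_sum_zero t F b]
  exact rsb_sum_mono h0 h1 h

/-- the constant configuration of colour `b`, all interior edges open -/
noncomputable def rsbFull (F : Finset (ℤ × ℤ)) (b : Bool) : RswCfg :=
  ⟨if b then cornersOf F else ∅, ∅, rswInt F⟩

theorem rsb_full_in (F : Finset (ℤ × ℤ)) (b : Bool) : RsbIn F (rsbFull F b) := by
  refine ⟨?_, Finset.empty_subset _, Finset.Subset.refl _⟩
  cases b <;> simp [rsbFull]

theorem rsb_full_wt (t : ℝ) (F : Finset (ℤ × ℤ)) (b : Bool) :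
    rswWt t F b (rsbFull F b) = t ^ (rswInt F).card := by
  have hb : RswBc F b (rsbFull F b) := by
    intro v hv _
    cases b <;> simp [rsbFull, hv]
  unfold rswWt
  rw [if_pos hb, ← Finset.prod_const]
  refine Finset.prod_congr rfl fun e he => ?_
  have h1 := rsb_int_fst_corner he
  have h2 := rsb_int_end_corner he
  have hs : (e.1 ∈ (rsbFull F b).S ↔ rswEnd e ∈ (rsbFull F b).S) := by
    cases b <;> simp [rsbFull, h1, h2]
  have ho : e ∈ (rsbFull F b).O := he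
  unfold rswFac
  rw [if_pos ho, if_pos hs]

/-- **the partition function is positive** -/
theorem rsb_Z_pos {t : ℝ} (h0 : 0 < t) (h1 : t ≤ 1) (F : Finset (ℤ × ℤ)) (b : Bool) :
    0 < rswSum t F b (fun _ => 1) := by
  rw [rsb_sum_eq]
  simp only [mul_one]
  refine Finset.sum_pos' (fun p _ => rsb_wt_nonneg h0.le h1 F b _)
    ⟨((rsbFull F b).S, (rsbFull F b).D, (rsbFull F b).O), rsb_mem_all.2 (rsb_full_in F b), ?_⟩
  have : rsbMk ((rsbFull F b).S, (rsbFull F b).D, (rsbFull F b).O) = rsbFull F b := rfl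
  rw [this, rsb_full_wt]
  positivity

/-! ## `rswE` -/

theorem rsb_E_add (t : ℝ) (F : Finset (ℤ × ℤ)) (b : Bool) (X Y : RswCfg → ℝ) :
    rswE t F b (fun ω => X ω + Y ω) = rswE t F b X + rswE t F b Y := by
  unfold rswE; rw [rsb_sum_add, add_div]

theorem rsb_E_sub (t : ℝ) (F : Finset (ℤ × ℤ)) (b : Bool) (X Y : RswCfg → ℝ) :
    rswE t F b (fun ω => X ω - Y ω) = rswE t F b X - rswE t F b Y := by
  unfold rswE; rw [rsb_sum_sub, sub_div]

theorem rsb_E_neg (t : ℝ) (F : Finset (ℤ × ℤ)) (b : Bool) (X : RswCfg → ℝ) :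
    rswE t F b (fun ω => - X ω) = - rswE t F b X := by
  unfold rswE; rw [rsb_sum_neg, neg_div]

theorem rsb_E_const_mul (t : ℝ) (F : Finset (ℤ × ℤ)) (b : Bool) (c : ℝ) (X : RswCfg → ℝ) :
    rswE t F b (fun ω => c * X ω) = c * rswE t F b X := by
  unfold rswE; rw [rsb_sum_const_mul, mul_div_assoc]

theorem rsb_E_mul_const (t : ℝ) (F : Finset (ℤ × ℤ)) (b : Bool) (c : ℝ) (X : RswCfg → ℝ) :
    rswE t F b (fun ω => X ω * c) = rswE t F b X * c := by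
  unfold rswE; rw [rsb_sum_mul_const]; ring

theorem rsb_E_finset_sum {ι : Type*} (t : ℝ) (F : Finset (ℤ × ℤ)) (b : Bool) (s : Finset ι) (X : ι → RswCfg → ℝ) :
    rswE t F b (fun ω => ∑ i ∈ s, X i ω) = ∑ i ∈ s, rswE t F b (X i) := by
  unfold rswE; rw [rsb_sum_finset_sum, Finset.sum_div]

theorem rsb_E_one {t : ℝ} (h0 : 0 < t) (h1 : t ≤ 1) (F : Finset (ℤ × ℤ)) (b : Bool) :
    rswE t F b (fun _ => 1) = 1 := by
  unfold rswE; exact div_self (rsb_Z_pos h0 h1 F b).ne'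

theorem rsb_E_const {t : ℝ} (h0 : 0 < t) (h1 : t ≤ 1) (F : Finset (ℤ × ℤ)) (b : Bool) (c : ℝ) :
    rswE t F b (fun _ => c) = c := by
  have := rsb_E_const_mul t F b c (fun _ => 1)
  simp only [mul_one] at this
  rw [this, rsb_E_one h0 h1, mul_one]

theorem rsb_E_congr {t : ℝ} {F : Finset (ℤ × ℤ)} {b : Bool} {X Y : RswCfg → ℝ}
    (h : ∀ ω, RsbIn F ω → rswWt t F b ω ≠ 0 → X ω = Y ω) : rswE t F b X = rswE t F b Y := by
  unfold rswE; rw [rsb_sum_congr h]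

theorem rsb_E_mono {t : ℝ} (h0 : 0 < t) (h1 : t ≤ 1) {F : Finset (ℤ × ℤ)} {b : Bool} {X Y : RswCfg → ℝ}
    (h : ∀ ω, RsbIn F ω → rswWt t F b ω ≠ 0 → X ω ≤ Y ω) : rswE t F b X ≤ rswE t F b Y := by
  unfold rswE
  exact div_le_div_of_nonneg_right (rsb_sum_mono h0.le h1 h) (rsb_Z_pos h0 h1 F b).le

theorem rsb_E_nonneg {t : ℝ} (h0 : 0 < t) (h1 : t ≤ 1) {F : Finset (ℤ × ℤ)} {b : Bool} {X : RswCfg → ℝ}
    (h : ∀ ω, RsbIn F ω → rswWt t F b ω ≠ 0 → 0 ≤ X ω) : 0 ≤ rswE t F b X := by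
  unfold rswE
  exact div_nonneg (rsb_sum_nonneg h0.le h1 h) (rsb_Z_pos h0 h1 F b).le

theorem rsb_abs_E_le {t : ℝ} (h0 : 0 < t) (h1 : t ≤ 1) (F : Finset (ℤ × ℤ)) (b : Bool) (X : RswCfg → ℝ) :
    |rswE t F b X| ≤ rswE t F b (fun ω => |X ω|) := by
  rw [abs_le]
  constructor
  · rw [← rsb_E_neg]
    exact rsb_E_mono h0 h1 fun ω _ _ => neg_abs_le _
  · exact rsb_E_mono h0 h1 fun ω _ _ => le_abs_self _

theorem rsb_E_le_of_le {t : ℝ} (h0 : 0 < t) (h1 : t ≤ 1) {F : Finset (ℤ × ℤ)} {b : Bool} {X : RswCfg → ℝ} {M : ℝ}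
    (h : ∀ ω, RsbIn F ω → rswWt t F b ω ≠ 0 → X ω ≤ M) : rswE t F b X ≤ M := by
  rw [← rsb_E_const h0 h1 F b M]
  exact rsb_E_mono h0 h1 h

theorem rsb_le_E_of_le {t : ℝ} (h0 : 0 < t) (h1 : t ≤ 1) {F : Finset (ℤ × ℤ)} {b : Bool} {X : RswCfg → ℝ} {M : ℝ}
    (h : ∀ ω, RsbIn F ω → rswWt t F b ω ≠ 0 → M ≤ X ω) : M ≤ rswE t F b X := by
  rw [← rsb_E_const h0 h1 F b M]
  exact rsb_E_mono h0 h1 h

theorem rsb_abs_E_le_of_le {t : ℝ} (h0 : 0 < t) (h1 : t ≤ 1) {F : Finset (ℤ × ℤ)} {b : Bool} {X : RswCfg → ℝ} {M : ℝ}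
    (h : ∀ ω, RsbIn F ω → rswWt t F b ω ≠ 0 → |X ω| ≤ M) : |rswE t F b X| ≤ M :=
  (rsb_abs_E_le h0 h1 F b X).trans (rsb_E_le_of_le h0 h1 h)

/-- Cauchy-Schwarz for the unnormalised sum -/
theorem rsb_sum_cauchy {t : ℝ} (h0 : 0 ≤ t) (h1 : t ≤ 1) (F : Finset (ℤ × ℤ)) (b : Bool) (X Y : RswCfg → ℝ) :
    rswSum t F b (fun ω => X ω * Y ω) ^ 2 ≤ rswSum t F b (fun ω => X ω ^ 2) * rswSum t F b (fun ω => Y ω ^ 2) := by
  simp only [rsb_sum_eq]
  have key := Finset.sum_mul_sq_le_sq_mul_sq (rsbAll F)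
    (fun p => Real.sqrt (rswWt t F b (rsbMk p)) * X (rsbMk p)) (fun p => Real.sqrt (rswWt t F b (rsbMk p)) * Y (rsbMk p))
  have e1 : ∀ p, Real.sqrt (rswWt t F b (rsbMk p)) * X (rsbMk p) * (Real.sqrt (rswWt t F b (rsbMk p)) * Y (rsbMk p))
      = rswWt t F b (rsbMk p) * (X (rsbMk p) * Y (rsbMk p)) := by
    intro p
    have := Real.mul_self_sqrt (rsb_wt_nonneg h0 h1 F b (rsbMk p))
    calc _ = (Real.sqrt (rswWt t F b (rsbMk p)) * Real.sqrt (rswWt t F b (rsbMk p))) * (X (rsbMk p) * Y (rsbMk p)) := by ring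
      _ = _ := by rw [this]
  have e2 : ∀ (Z : RswCfg → ℝ) p, (Real.sqrt (rswWt t F b (rsbMk p)) * Z (rsbMk p)) ^ 2
      = rswWt t F b (rsbMk p) * Z (rsbMk p) ^ 2 := by
    intro Z p
    rw [mul_pow, Real.sq_sqrt (rsb_wt_nonneg h0 h1 F b (rsbMk p))]
  simp only [e1, e2] at key
  exact key

theorem rsb_E_cauchy {t : ℝ} (h0 : 0 < t) (h1 : t ≤ 1) (F : Finset (ℤ × ℤ)) (b : Bool) (X Y : RswCfg → ℝ) :
    rswE t F b (fun ω => X ω * Y ω) ^ 2 ≤ rswE t F b (fun ω => X ω ^ 2) * rswE t F b (fun ω => Y ω ^ 2) := by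
  unfold rswE
  have hZ := rsb_Z_pos h0 h1 F b
  rw [div_pow, div_mul_div_comm, ← sq]
  exact div_le_div_of_nonneg_right (rsb_sum_cauchy h0.le h1 F b X Y) (by positivity)

theorem rsb_E_sq_le {t : ℝ} (h0 : 0 < t) (h1 : t ≤ 1) (F : Finset (ℤ × ℤ)) (b : Bool) (X : RswCfg → ℝ) :
    rswE t F b X ^ 2 ≤ rswE t F b (fun ω => X ω ^ 2) := by
  have := rsb_E_cauchy h0 h1 F b X (fun _ => 1)
  simp only [mul_one, one_pow] at this
  rwa [rsb_E_one h0 h1, mul_one] at this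

/-! ## `rswP` -/

theorem rsb_P_nonneg {t : ℝ} (h0 : 0 < t) (h1 : t ≤ 1) (F : Finset (ℤ × ℤ)) (b : Bool) (L : RswCfg → Prop) :
    0 ≤ rswP t F b L := by
  unfold rswP
  exact rsb_E_nonneg h0 h1 fun ω _ _ => by split_ifs <;> norm_num

theorem rsb_P_le_one {t : ℝ} (h0 : 0 < t) (h1 : t ≤ 1) (F : Finset (ℤ × ℤ)) (b : Bool) (L : RswCfg → Prop) :
    rswP t F b L ≤ 1 := by
  unfold rswP
  exact rsb_E_le_of_le h0 h1 fun ω _ _ => by split_ifs <;> norm_num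

theorem rsb_P_mono {t : ℝ} (h0 : 0 < t) (h1 : t ≤ 1) {F : Finset (ℤ × ℤ)} {b : Bool} {L L' : RswCfg → Prop}
    (h : ∀ ω, RsbIn F ω → rswWt t F b ω ≠ 0 → L ω → L' ω) : rswP t F b L ≤ rswP t F b L' := by
  unfold rswP
  refine rsb_E_mono h0 h1 fun ω hω hw => ?_
  by_cases hL : L ω
  · rw [if_pos hL, if_pos (h ω hω hw hL)]
  · rw [if_neg hL]; split_ifs <;> norm_num

theorem rsb_P_congr {t : ℝ} {F : Finset (ℤ × ℤ)} {b : Bool} {L L' : RswCfg → Prop}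
    (h : ∀ ω, RsbIn F ω → rswWt t F b ω ≠ 0 → (L ω ↔ L' ω)) : rswP t F b L = rswP t F b L' := by
  unfold rswP
  classical
  exact rsb_E_congr fun ω hω hw => if_congr (h ω hω hw) rfl rfl

theorem rsb_P_true {t : ℝ} (h0 : 0 < t) (h1 : t ≤ 1) (F : Finset (ℤ × ℤ)) (b : Bool) :
    rswP t F b (fun _ => True) = 1 := by
  unfold rswP
  exact (rsb_E_congr fun ω _ _ => if_pos trivial).trans (rsb_E_one h0 h1 F b)

theorem rsb_P_false (t : ℝ) (F : Finset (ℤ × ℤ)) (b : Bool) : rswP t F b (fun _ => False) = 0 := by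
  unfold rswP
  have : ∀ X : RswCfg → ℝ, (∀ ω, X ω = 0) → rswE t F b X = 0 := by
    intro X hX
    unfold rswE
    rw [rsb_sum_congr (Y := fun _ => 0) fun ω _ _ => hX ω, rsb_sum_zero, zero_div]
  exact this _ fun ω => if_neg not_false

theorem rsb_P_eq_one {t : ℝ} (h0 : 0 < t) (h1 : t ≤ 1) {F : Finset (ℤ × ℤ)} {b : Bool} {L : RswCfg → Prop}
    (h : ∀ ω, RsbIn F ω → rswWt t F b ω ≠ 0 → L ω) : rswP t F b L = 1 := by
  rw [← rsb_P_true h0 h1 F b]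
  exact rsb_P_congr fun ω hω hw => ⟨fun _ => trivial, fun _ => h ω hω hw⟩

theorem rsb_P_or_add_and (t : ℝ) (F : Finset (ℤ × ℤ)) (b : Bool) (L L' : RswCfg → Prop) :
    rswP t F b (fun ω => L ω ∨ L' ω) + rswP t F b (fun ω => L ω ∧ L' ω) = rswP t F b L + rswP t F b L' := by
  unfold rswP
  rw [← rsb_E_add, ← rsb_E_add]
  congr 1
  funext ω
  by_cases h : L ω <;> by_cases h' : L' ω <;> simp [h, h']

theorem rsb_P_union {t : ℝ} (h0 : 0 < t) (h1 : t ≤ 1) (F : Finset (ℤ × ℤ)) (b : Bool) (L L' : RswCfg → Prop) :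
    rswP t F b (fun ω => L ω ∨ L' ω) ≤ rswP t F b L + rswP t F b L' := by
  have := rsb_P_or_add_and t F b L L'
  have h2 := rsb_P_nonneg h0 h1 F b (fun ω => L ω ∧ L' ω)
  linarith

theorem rsb_P_inter_ge {t : ℝ} (h0 : 0 < t) (h1 : t ≤ 1) (F : Finset (ℤ × ℤ)) (b : Bool) (L L' : RswCfg → Prop) :
    rswP t F b L + rswP t F b L' - 1 ≤ rswP t F b (fun ω => L ω ∧ L' ω) := by
  have := rsb_P_or_add_and t F b L L'
  have h2 := rsb_P_le_one h0 h1 F b (fun ω => L ω ∨ L' ω)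
  linarith

theorem rsb_P_compl {t : ℝ} (h0 : 0 < t) (h1 : t ≤ 1) (F : Finset (ℤ × ℤ)) (b : Bool) (L : RswCfg → Prop) :
    rswP t F b (fun ω => ¬ L ω) = 1 - rswP t F b L := by
  have := rsb_P_or_add_and t F b L (fun ω => ¬ L ω)
  have e1 : rswP t F b (fun ω => L ω ∨ ¬ L ω) = 1 := rsb_P_eq_one h0 h1 fun ω _ _ => em _
  have e2 : rswP t F b (fun ω => L ω ∧ ¬ L ω) = 0 := by
    rw [← rsb_P_false t F b]
    exact rsb_P_congr fun ω _ _ => ⟨fun h => h.2 h.1, fun h => h.elim⟩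
  rw [e1, e2] at this
  linarith

theorem rsb_P_finset_union {ι : Type*} {t : ℝ} (h0 : 0 < t) (h1 : t ≤ 1) (F : Finset (ℤ × ℤ)) (b : Bool) (s : Finset ι)
    (L : ι → RswCfg → Prop) : rswP t F b (fun ω => ∃ i ∈ s, L i ω) ≤ ∑ i ∈ s, rswP t F b (L i) := by
  classical
  induction s using Finset.induction_on with
  | empty => simp [rsb_P_false]
  | insert a s ha ih =>
    rw [Finset.sum_insert ha]
    refine le_trans ?_ (add_le_add_right ih _)
    refine le_trans (le_of_eq ?_) (rsb_P_union h0 h1 F b (L a) (fun ω => ∃ i ∈ s, L i ω))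
    exact rsb_P_congr fun ω _ _ => by simp [Finset.mem_insert]

/-- Markov -/
theorem rsb_P_markov {t : ℝ} (h0 : 0 < t) (h1 : t ≤ 1) {F : Finset (ℤ × ℤ)} {b : Bool} {X : RswCfg → ℝ} {a : ℝ} (ha : 0 < a)
    (h : ∀ ω, RsbIn F ω → rswWt t F b ω ≠ 0 → 0 ≤ X ω) : rswP t F b (fun ω => a ≤ X ω) ≤ rswE t F b X / a := by
  rw [le_div_iff₀ ha]
  unfold rswP
  rw [← rsb_E_mul_const]
  refine rsb_E_mono h0 h1 fun ω hω hw => ?_
  split_ifs with hx
  · linarith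
  · have := h ω hω hw; linarith

/-- expectation of an indicator times a bounded variable -/
theorem rsb_E_ind_le {t : ℝ} (h0 : 0 < t) (h1 : t ≤ 1) {F : Finset (ℤ × ℤ)} {b : Bool} {X : RswCfg → ℝ} {M : ℝ}
    (L : RswCfg → Prop) (h : ∀ ω, RsbIn F ω → rswWt t F b ω ≠ 0 → L ω → X ω ≤ M) :
    (open Classical in rswE t F b (fun ω => if L ω then X ω else 0)) ≤ M * rswP t F b L := by
  unfold rswP
  rw [← rsb_E_const_mul]
  refine rsb_E_mono h0 h1 fun ω hω hw => ?_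
  by_cases hL : L ω
  · simp only [if_pos hL, mul_one]; exact h ω hω hw hL
  · simp only [if_neg hL, mul_zero]; exact le_rfl

/-! ## the sum over `O` -/

/-- the `(s,d)` factor of an edge pair: `1 / t / t / 0` -/
noncomputable def rsbPair (t : ℝ) (S D : Finset (ℤ × ℤ)) (e : (ℤ × ℤ) × Bool) : ℝ :=
  open Classical in
  if (e.1 ∈ S ↔ rswEnd e ∈ S) then (if (e.1 ∈ D ↔ rswCo e ∈ D) then 1 else t)
  else (if (e.1 ∈ D ↔ rswCo e ∈ D) then t else 0)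

/-- **sum over `O` of the product of the factors** (any finite set of edges `E`) -/
theorem rsb_sum_O (t : ℝ) (S D : Finset (ℤ × ℤ)) (E : Finset ((ℤ × ℤ) × Bool)) :
    ∑ O ∈ E.powerset, ∏ e ∈ E, rswFac t ⟨S, D, O⟩ e = ∏ e ∈ E, rsbPair t S D e := by
  classical
  have h1 : ∀ e, rsbPair t S D e = (if (e.1 ∈ S ↔ rswEnd e ∈ S) then t else 0) +
      (if (e.1 ∈ D ↔ rswCo e ∈ D) then (if (e.1 ∈ S ↔ rswEnd e ∈ S) then 1 - t else t) else 0) := by
    intro e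
    unfold rsbPair
    split_ifs <;> ring
  simp only [h1]
  rw [Finset.prod_add]
  refine Finset.sum_congr rfl fun O hO => ?_
  rw [Finset.mem_powerset] at hO
  rw [← Finset.prod_sdiff hO, mul_comm]
  congr 1
  · refine Finset.prod_congr rfl fun e he => ?_
    unfold rswFac
    rw [if_pos he]
  · refine Finset.prod_congr rfl fun e he => ?_
    unfold rswFac
    rw [if_neg (Finset.mem_sdiff.1 he).2]

theorem rsb_pair_nonneg {t : ℝ} (h0 : 0 ≤ t) (S D : Finset (ℤ × ℤ)) (e : (ℤ × ℤ) × Bool) : 0 ≤ rsbPair t S D e := by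
  unfold rsbPair
  split_ifs <;> linarith

/-- the marginal on the two spin fields: for `X` which does not read `O` -/
theorem rsb_sum_marg (t : ℝ) (F : Finset (ℤ × ℤ)) (b : Bool) (X : RswCfg → ℝ)
    (hX : ∀ S D O O', X ⟨S, D, O⟩ = X ⟨S, D, O'⟩) :
    rswSum t F b X = ∑ S ∈ (cornersOf F).powerset, ∑ D ∈ F.powerset,
      (open Classical in if RswBc F b ⟨S, D, ∅⟩ then ∏ e ∈ rswInt F, rsbPair t S D e else 0) * X ⟨S, D, ∅⟩ := by
  classical
  unfold rswSum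
  refine Finset.sum_congr rfl fun S _ => Finset.sum_congr rfl fun D _ => ?_
  have hbc : ∀ O, RswBc F b ⟨S, D, O⟩ ↔ RswBc F b ⟨S, D, ∅⟩ := fun O => Iff.rfl
  by_cases hb : RswBc F b ⟨S, D, ∅⟩
  · rw [if_pos hb, ← rsb_sum_O, Finset.sum_mul]
    refine Finset.sum_congr rfl fun O _ => ?_
    unfold rswWt
    rw [if_pos ((hbc O).2 hb), hX S D O ∅]
  · rw [if_neg hb, zero_mul]
    refine Finset.sum_eq_zero fun O _ => ?_
    unfold rswWt
    rw [if_neg (fun h => hb ((hbc O).1 h)), zero_mul]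

/-! ## global flips -/

theorem rsb_sum_powerset_sdiff {α : Type*} [DecidableEq α] (C : Finset α) (f : Finset α → ℝ) :
    ∑ S ∈ C.powerset, f (C \ S) = ∑ S ∈ C.powerset, f S := by
  refine Finset.sum_nbij' (fun S => C \ S) (fun S => C \ S) ?_ ?_ ?_ ?_ ?_
  · intro S _; exact Finset.mem_powerset.2 Finset.sdiff_subset
  · intro S _; exact Finset.mem_powerset.2 Finset.sdiff_subset
  · intro S hS; exact Finset.sdiff_sdiff_eq_self (Finset.mem_powerset.1 hS)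
  · intro S hS; exact Finset.sdiff_sdiff_eq_self (Finset.mem_powerset.1 hS)
  · intro S _; rfl

/-- flip of all primal spins -/
def rsbFlipS (F : Finset (ℤ × ℤ)) (ω : RswCfg) : RswCfg := ⟨cornersOf F \ ω.S, ω.D, ω.O⟩

/-- flip of all face spins -/
def rsbFlipD (F : Finset (ℤ × ℤ)) (ω : RswCfg) : RswCfg := ⟨ω.S, F \ ω.D, ω.O⟩

theorem rsb_flipS_mem {F : Finset (ℤ × ℤ)} {ω : RswCfg} {v : ℤ × ℤ} (hv : v ∈ cornersOf F) :
    v ∈ (rsbFlipS F ω).S ↔ v ∉ ω.S := by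
  simp [rsbFlipS, hv]

theorem rsb_flipD_mem {F : Finset (ℤ × ℤ)} {ω : RswCfg} {f : ℤ × ℤ} (hf : f ∈ F) :
    f ∈ (rsbFlipD F ω).D ↔ f ∉ ω.D := by
  simp [rsbFlipD, hf]

theorem rsb_fac_flipS (t : ℝ) {F : Finset (ℤ × ℤ)} (ω : RswCfg) {e : (ℤ × ℤ) × Bool} (he : e ∈ rswInt F) :
    rswFac t (rsbFlipS F ω) e = rswFac t ω e := by
  have h : (e.1 ∈ (rsbFlipS F ω).S ↔ rswEnd e ∈ (rsbFlipS F ω).S) ↔ (e.1 ∈ ω.S ↔ rswEnd e ∈ ω.S) := by
    rw [rsb_flipS_mem (rsb_int_fst_corner he), rsb_flipS_mem (rsb_int_end_corner he)]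
    exact not_iff_not
  unfold rswFac
  simp only [h]
  rfl

theorem rsb_fac_flipD (t : ℝ) {F : Finset (ℤ × ℤ)} (ω : RswCfg) {e : (ℤ × ℤ) × Bool} (he : e ∈ rswInt F) :
    rswFac t (rsbFlipD F ω) e = rswFac t ω e := by
  have h : (e.1 ∈ (rsbFlipD F ω).D ↔ rswCo e ∈ (rsbFlipD F ω).D) ↔ (e.1 ∈ ω.D ↔ rswCo e ∈ ω.D) := by
    rw [rsb_flipD_mem (rsb_mem_int.1 he).1, rsb_flipD_mem (rsb_mem_int.1 he).2]
    exact not_iff_not
  unfold rswFac
  simp only [h]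
  rfl

theorem rsb_bc_flipS {F : Finset (ℤ × ℤ)} {b : Bool} {ω : RswCfg} :
    RswBc F (!b) (rsbFlipS F ω) ↔ RswBc F b ω := by
  unfold RswBc
  refine forall_congr' fun v => forall_congr' fun hv => forall_congr' fun _ => ?_
  rw [rsb_flipS_mem hv]
  cases b <;> simp

theorem rsb_wt_flipS (t : ℝ) (F : Finset (ℤ × ℤ)) (b : Bool) (ω : RswCfg) :
    rswWt t F (!b) (rsbFlipS F ω) = rswWt t F b ω := by
  unfold rswWt
  classical
  exact if_congr rsb_bc_flipS (Finset.prod_congr rfl fun e he => rsb_fac_flipS t ω he) rfl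

theorem rsb_wt_flipD (t : ℝ) (F : Finset (ℤ × ℤ)) (b : Bool) (ω : RswCfg) :
    rswWt t F b (rsbFlipD F ω) = rswWt t F b ω := by
  unfold rswWt
  have : RswBc F b (rsbFlipD F ω) ↔ RswBc F b ω := Iff.rfl
  classical
  exact if_congr this (Finset.prod_congr rfl fun e he => rsb_fac_flipD t ω he) rfl

/-- **global flip of the primal spins exchanges the two boundary conditions** -/
theorem rsb_sum_flipS (t : ℝ) (F : Finset (ℤ × ℤ)) (b : Bool) (X : RswCfg → ℝ) :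
    rswSum t F (!b) X = rswSum t F b (fun ω => X (rsbFlipS F ω)) := by
  unfold rswSum
  rw [← rsb_sum_powerset_sdiff]
  refine Finset.sum_congr rfl fun S _ => Finset.sum_congr rfl fun D _ => Finset.sum_congr rfl fun O _ => ?_
  rw [← rsb_wt_flipS t F b ⟨S, D, O⟩]
  rfl

theorem rsb_E_flipS (t : ℝ) (F : Finset (ℤ × ℤ)) (b : Bool) (X : RswCfg → ℝ) :
    rswE t F (!b) X = rswE t F b (fun ω => X (rsbFlipS F ω)) := by
  unfold rswE
  rw [rsb_sum_flipS, rsb_sum_flipS t F b (fun _ => 1)]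

theorem rsb_P_flipS (t : ℝ) (F : Finset (ℤ × ℤ)) (b : Bool) (L : RswCfg → Prop) :
    rswP t F (!b) L = rswP t F b (fun ω => L (rsbFlipS F ω)) := by
  unfold rswP
  rw [rsb_E_flipS]

/-- **global flip of the face spins** -/
theorem rsb_sum_flipD (t : ℝ) (F : Finset (ℤ × ℤ)) (b : Bool) (X : RswCfg → ℝ) :
    rswSum t F b X = rswSum t F b (fun ω => X (rsbFlipD F ω)) := by
  unfold rswSum
  refine Finset.sum_congr rfl fun S _ => ?_
  rw [← rsb_sum_powerset_sdiff]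
  refine Finset.sum_congr rfl fun D _ => Finset.sum_congr rfl fun O _ => ?_
  rw [← rsb_wt_flipD t F b ⟨S, D, O⟩]
  rfl

theorem rsb_E_flipD (t : ℝ) (F : Finset (ℤ × ℤ)) (b : Bool) (X : RswCfg → ℝ) :
    rswE t F b X = rswE t F b (fun ω => X (rsbFlipD F ω)) := by
  unfold rswE
  rw [rsb_sum_flipD]

theorem rsb_P_flipD (t : ℝ) (F : Finset (ℤ × ℤ)) (b : Bool) (L : RswCfg → Prop) :
    rswP t F b L = rswP t F b (fun ω => L (rsbFlipD F ω)) := by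
  unfold rswP
  rw [rsb_E_flipD]

theorem rsb_good_flipS {F : Finset (ℤ × ℤ)} {a : Bool} {ω : RswCfg} {e : (ℤ × ℤ) × Bool} (he : e ∈ rswInt F) :
    RswGood (!a) (rsbFlipS F ω) e ↔ RswGood a ω e := by
  unfold RswGood
  rw [rsb_flipS_mem (rsb_int_fst_corner he), rsb_flipS_mem (rsb_int_end_corner he)]
  have : e ∈ (rsbFlipS F ω).O ↔ e ∈ ω.O := Iff.rfl
  rw [this]
  cases a <;> simp

theorem rsb_step_flipS {F : Finset (ℤ × ℤ)} {a : Bool} {ω : RswCfg} {f g : ℤ × ℤ} :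
    RswStep F (!a) (rsbFlipS F ω) f g ↔ RswStep F a ω f g := by
  unfold RswStep
  refine and_congr_right fun hf => and_congr_right fun hg => exists_congr fun e => and_congr_right fun h => ?_
  have he : e ∈ rswInt F := by
    rw [rsb_mem_int]
    rcases h with ⟨rfl, rfl⟩ | ⟨rfl, rfl⟩
    · exact ⟨hf, hg⟩
    · exact ⟨hg, hf⟩
  rw [rsb_good_flipS he]

theorem rsb_sep_flipS {F : Finset (ℤ × ℤ)} {a : Bool} {ω : RswCfg} {A B : Finset (ℤ × ℤ)} :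
    RswSep F (!a) (rsbFlipS F ω) A B ↔ RswSep F a ω A B := by
  have : RswStep F (!a) (rsbFlipS F ω) = RswStep F a ω := by
    funext f g; exact propext rsb_step_flipS
  unfold RswSep
  rw [this]

theorem rsb_sep_flipD {F : Finset (ℤ × ℤ)} {a : Bool} {ω : RswCfg} {A B : Finset (ℤ × ℤ)} :
    RswSep F a (rsbFlipD F ω) A B ↔ RswSep F a ω A B := Iff.rfl

/-- the circuit event: colours and boundary conditions exchanged together -/
theorem rsb_P_sep_flip (t : ℝ) (F : Finset (ℤ × ℤ)) (a b : Bool) (A B : Finset (ℤ × ℤ)) :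
    rswP t F (!b) (fun ω => RswSep F (!a) ω A B) = rswP t F b (fun ω => RswSep F a ω A B) := by
  rw [rsb_P_flipS]
  simp only [rsb_sep_flipS]

/-! ## the height under the two global flips -/

theorem rsb_spin_eq (F : Finset (ℤ × ℤ)) (ω : RswCfg) (v : ℤ × ℤ) :
    atSpin (rswTau F ω) v = if v ∈ cornersOf F then (if v ∈ ω.S then 1 else -1) else 1 := by
  unfold atSpin rswTau
  by_cases hv : v ∈ cornersOf F
  · rw [dif_pos hv, if_pos hv]
    by_cases hs : v ∈ ω.S <;> simp [hs]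
  · rw [dif_neg hv, if_neg hv]

theorem rsb_dual_eq (F : Finset (ℤ × ℤ)) (ω : RswCfg) (f : ℤ × ℤ) :
    atDual (rswTauD F ω) f = if f ∈ F then (if f ∈ ω.D then 1 else -1) else 1 := by
  unfold atDual rswTauD
  by_cases hv : f ∈ F
  · rw [dif_pos hv, if_pos hv]
    by_cases hs : f ∈ ω.D <;> simp [hs]
  · rw [dif_neg hv, if_neg hv]

theorem rsb_spin_flipS {F : Finset (ℤ × ℤ)} (ω : RswCfg) {v : ℤ × ℤ} (hv : v ∈ cornersOf F) :
    atSpin (rswTau F (rsbFlipS F ω)) v = - atSpin (rswTau F ω) v := by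
  rw [rsb_spin_eq, rsb_spin_eq, if_pos hv, if_pos hv]
  by_cases hs : v ∈ ω.S
  · rw [if_pos hs, if_neg (fun h => ((rsb_flipS_mem hv).1 h) hs)]
  · rw [if_neg hs, if_pos ((rsb_flipS_mem hv).2 hs)]; norm_num

theorem rsb_dual_flipD {F : Finset (ℤ × ℤ)} (ω : RswCfg) {f : ℤ × ℤ} (hf : f ∈ F) :
    atDual (rswTauD F (rsbFlipD F ω)) f = - atDual (rswTauD F ω) f := by
  rw [rsb_dual_eq, rsb_dual_eq, if_pos hf, if_pos hf]
  by_cases hs : f ∈ ω.D
  · rw [if_pos hs, if_neg (fun h => ((rsb_flipD_mem hf).1 h) hs)]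
  · rw [if_neg hs, if_pos ((rsb_flipD_mem hf).2 hs)]; norm_num

theorem rsb_flipS_flipS {F : Finset (ℤ × ℤ)} {ω : RswCfg} (h : ω.S ⊆ cornersOf F) : rsbFlipS F (rsbFlipS F ω) = ω := by
  obtain ⟨S, D, O⟩ := ω
  simp only [rsbFlipS]
  rw [Finset.sdiff_sdiff_eq_self h]

theorem rsb_flipD_flipD {F : Finset (ℤ × ℤ)} {ω : RswCfg} (h : ω.D ⊆ F) : rsbFlipD F (rsbFlipD F ω) = ω := by
  obtain ⟨S, D, O⟩ := ω
  simp only [rsbFlipD]
  rw [Finset.sdiff_sdiff_eq_self h]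

theorem rsb_isHeight_flipS {F : Finset (ℤ × ℤ)} {ω : RswCfg} {Hv Hf : ℤ × ℤ → ℝ}
    (h : IsATHeight (rswTau F ω) (rswTauD F ω) Hv Hf) :
    IsATHeight (rswTau F (rsbFlipS F ω)) (rswTauD F (rsbFlipS F ω)) (fun v => - Hv v) (fun f => - Hf f) := by
  rw [at92h_isHeight_iff] at h ⊢
  refine ⟨fun v hv hp => by rw [h.1 v hv hp, neg_zero], fun f hf v hc => ?_⟩
  have hv : v ∈ cornersOf F := at92h_mem_corners.2 ⟨f, hf, hc⟩
  have hd : rswTauD F (rsbFlipS F ω) = rswTauD F ω := rfl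
  rw [rsb_spin_flipS ω hv, hd]
  have := h.2 f hf v hc
  push_cast
  linarith

theorem rsb_isHeight_flipD {F : Finset (ℤ × ℤ)} {ω : RswCfg} {Hv Hf : ℤ × ℤ → ℝ}
    (h : IsATHeight (rswTau F ω) (rswTauD F ω) Hv Hf) :
    IsATHeight (rswTau F (rsbFlipD F ω)) (rswTauD F (rsbFlipD F ω)) (fun v => - Hv v) (fun f => - Hf f) := by
  rw [at92h_isHeight_iff] at h ⊢
  refine ⟨fun v hv hp => by rw [h.1 v hv hp, neg_zero], fun f hf v hc => ?_⟩
  have hd : rswTau F (rsbFlipD F ω) = rswTau F ω := rfl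
  rw [rsb_dual_flipD ω hf, hd]
  have := h.2 f hf v hc
  push_cast
  linarith

/-- the spin fields read only `ω.S ∩ cornersOf F` and `ω.D ∩ F` -/
theorem rsb_tau_flipS_flipS (F : Finset (ℤ × ℤ)) (ω : RswCfg) :
    rswTau F (rsbFlipS F (rsbFlipS F ω)) = rswTau F ω := by
  funext v
  unfold rswTau
  have : v.1 ∈ (rsbFlipS F (rsbFlipS F ω)).S ↔ v.1 ∈ ω.S := by
    rw [rsb_flipS_mem v.2, rsb_flipS_mem v.2, not_not]
  simp only [this]

theorem rsb_tauD_flipD_flipD (F : Finset (ℤ × ℤ)) (ω : RswCfg) :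
    rswTauD F (rsbFlipD F (rsbFlipD F ω)) = rswTauD F ω := by
  funext f
  unfold rswTauD
  have : f.1 ∈ (rsbFlipD F (rsbFlipD F ω)).D ↔ f.1 ∈ ω.D := by
    rw [rsb_flipD_mem f.2, rsb_flipD_mem f.2, not_not]
  simp only [this]

/-- **the flip of the primal spins changes the sign of the height** (at the corners of `F`) -/
theorem rsb_H_flipS (F : Finset (ℤ × ℤ)) (ω : RswCfg) {v : ℤ × ℤ} (hv : v ∈ cornersOf F) :
    rswH F (rsbFlipS F ω) v = - rswH F ω v := by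
  unfold rswH
  by_cases hex : ∃ Hv Hf : ℤ × ℤ → ℝ, IsATHeight (rswTau F ω) (rswTauD F ω) Hv Hf
  · obtain ⟨Hv, Hf, h⟩ := hex
    rw [at92h_eq h v hv, at92h_eq (rsb_isHeight_flipS h) v hv]
  · have hex' : ¬ ∃ Hv Hf : ℤ × ℤ → ℝ, IsATHeight (rswTau F (rsbFlipS F ω)) (rswTauD F (rsbFlipS F ω)) Hv Hf := by
      rintro ⟨Hv, Hf, h⟩
      have := rsb_isHeight_flipS h
      rw [rsb_tau_flipS_flipS] at this
      exact hex ⟨_, _, this⟩
    rw [at92h_zero_of_not hex, at92h_zero_of_not hex', neg_zero]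

/-- **the flip of the face spins changes the sign of the height** (at the corners of `F`) -/
theorem rsb_H_flipD (F : Finset (ℤ × ℤ)) (ω : RswCfg) {v : ℤ × ℤ} (hv : v ∈ cornersOf F) :
    rswH F (rsbFlipD F ω) v = - rswH F ω v := by
  unfold rswH
  by_cases hex : ∃ Hv Hf : ℤ × ℤ → ℝ, IsATHeight (rswTau F ω) (rswTauD F ω) Hv Hf
  · obtain ⟨Hv, Hf, h⟩ := hex
    rw [at92h_eq h v hv, at92h_eq (rsb_isHeight_flipD h) v hv]
  · have hex' : ¬ ∃ Hv Hf : ℤ × ℤ → ℝ, IsATHeight (rswTau F (rsbFlipD F ω)) (rswTauD F (rsbFlipD F ω)) Hv Hf := by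
      rintro ⟨Hv, Hf, h⟩
      have := rsb_isHeight_flipD h
      rw [rsb_tauD_flipD_flipD] at this
      exact hex ⟨_, _, this⟩
    rw [at92h_zero_of_not hex, at92h_zero_of_not hex', neg_zero]

/-- the law of the height is symmetric, and the same under the two boundary colours -/
theorem rsb_E_H_neg (t : ℝ) (F : Finset (ℤ × ℤ)) (b : Bool) (Z : (ℤ × ℤ → ℝ) → ℝ)
    (hZ : ∀ h h' : ℤ × ℤ → ℝ, (∀ v ∈ cornersOf F, h v = h' v) → Z h = Z h') :
    rswE t F b (fun ω => Z (rswH F ω)) = rswE t F b (fun ω => Z (fun v => - rswH F ω v)) := by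
  rw [rsb_E_flipD]
  congr 1
  funext ω
  exact hZ _ _ fun v hv => rsb_H_flipD F ω hv

theorem rsb_E_H_colour (t : ℝ) (F : Finset (ℤ × ℤ)) (b : Bool) (Z : (ℤ × ℤ → ℝ) → ℝ)
    (hZ : ∀ h h' : ℤ × ℤ → ℝ, (∀ v ∈ cornersOf F, h v = h' v) → Z h = Z h') :
    rswE t F (!b) (fun ω => Z (rswH F ω)) = rswE t F b (fun ω => Z (rswH F ω)) := by
  rw [rsb_E_flipS, rsb_E_H_neg t F b Z hZ]
  congr 1
  funext ω
  exact hZ _ _ fun v hv => rsb_H_flipS F ω hv

end Claimed.Agent.R292
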