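import Claimed.Agent.R292.Defs.RSW
import Claimed.Agent.R292.AtHeight

/-!
# Row 292 (S0540), unit RSW, block R1 SYM      (helper211; prefix `rsy_`, `Rsy`)

LATTICE SYMMETRIES OF THE FLAT PROBLEMS OF `Defs/RSW`.

* `RsySym` : a symmetry = three bijections (primal vertices `V`, faces `Fc`, edges `E`) + a homeomorphism of the plane, compatible with
  incidence vertex/face, endpoints of an edge, the two faces of an edge, the closed unit squares.
* `RsySym.refl`, `.symm`, `.trans` : they form a group;   generators `rsyT τ` (translation), `rsySw` (diagonal swap), `rsyRx` (reflection `x ↦ -x`);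
  derived: `rsyRy`, `rsyRot` (quarter turn), `rsyHalf` (half turn), `rsyAsw` (anti-diagonal): with `refl` the 8 symmetries of the square.
* `g.mF F`, `g.mV`, `g.mE`, `g.act ω` : the action on finite sets and on configurations.
* TRANSPORT: `rsy_cornersOf`, `rsy_onPolygon`, `rsy_int`, `rsy_fac`, `rsy_bc`, `rsy_wt`,
  **`rsy_sum`, `rsy_E`, `rsy_P`** : `rswE t (g.mF F) b X = rswE t F b (fun ω => X (g.act ω))`,
  `rsy_good`, `rsy_step`, `rsy_reach`, **`rsy_sep`**, `rsy_layer`, **`rsy_jordan`**, `rsy_loc`, boxes `rsy_box_*`.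
* HEIGHT (sec. 4): `rsy_spin`, `rsy_dual`, `rsy_isHeight`, **`rsy_H : rswH (g.mF F) (g.act ω) (g.V v) = rswH F ω v`** on `cornersOf F` (no hypothesis on `F`, `ω`),
  `rsy_arr`, `rsy_E_height` (the law of the height field is transported).
-/

set_option autoImplicit false
set_option linter.unusedSectionVars false
set_option linter.unusedVariables false

namespace Claimed.Agent.R292

open Claims Claims.C0468

/-! ## 0. incidence -/

/-- the vertex `v` is a corner of the face `f` -/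
def RsyInc (v f : ℤ × ℤ) : Prop := (v.1 = f.1 ∨ v.1 = f.1 + 1) ∧ (v.2 = f.2 ∨ v.2 = f.2 + 1)

/-- the closed unit square of the face `f` -/
def rsySq (f : ℤ × ℤ) : Set (ℝ × ℝ) :=
  Set.Icc ((1 : ℝ) * f.1) (1 * (f.1 + 1)) ×ˢ Set.Icc ((1 : ℝ) * f.2) (1 * (f.2 + 1))

theorem rsy_mem_corners4 (v f : ℤ × ℤ) :
    v ∈ ({f, (f.1 + 1, f.2), (f.1, f.2 + 1), (f.1 + 1, f.2 + 1)} : Finset (ℤ × ℤ)) ↔ RsyInc v f := by
  obtain ⟨a, b⟩ := v
  obtain ⟨c, d⟩ := f
  simp only [Finset.mem_insert, Finset.mem_singleton, Prod.mk.injEq, RsyInc]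
  tauto

theorem rsy_mem_cornersOf (F : Finset (ℤ × ℤ)) (v : ℤ × ℤ) : v ∈ cornersOf F ↔ ∃ f ∈ F, RsyInc v f := by
  unfold cornersOf
  rw [Finset.mem_biUnion]
  simp only [rsy_mem_corners4]

theorem rsy_onPolygon_iff (F : Finset (ℤ × ℤ)) (v : ℤ × ℤ) : OnPolygon F v ↔ ∃ f, RsyInc v f ∧ f ∉ F := by
  unfold OnPolygon
  constructor
  · intro h
    by_contra hc
    push Not at hc
    apply h
    refine ⟨hc v ⟨Or.inl rfl, Or.inl rfl⟩, hc _ ⟨Or.inr (by simp), Or.inl rfl⟩,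
      hc _ ⟨Or.inl rfl, Or.inr (by simp)⟩, hc _ ⟨Or.inr (by simp), Or.inr (by simp)⟩⟩
  · rintro ⟨⟨c, d⟩, ⟨h1, h2⟩, hf⟩ ⟨k1, k2, k3, k4⟩
    obtain ⟨a, b⟩ := v
    simp only at h1 h2 k1 k2 k3 k4
    apply hf
    rcases h1 with rfl | rfl <;> rcases h2 with rfl | rfl
    · exact k1
    · simpa using k3
    · simpa using k2
    · simpa using k4

theorem rsy_mem_int (F : Finset (ℤ × ℤ)) (e : (ℤ × ℤ) × Bool) : e ∈ rswInt F ↔ e.1 ∈ F ∧ rswCo e ∈ F := by
  unfold rswInt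
  simp [Finset.mem_filter, Finset.mem_product]

/-! ## 1. symmetries -/

/-- a symmetry of the lattice with its faces and edges -/
structure RsySym where
  V : (ℤ × ℤ) ≃ (ℤ × ℤ)
  Fc : (ℤ × ℤ) ≃ (ℤ × ℤ)
  E : ((ℤ × ℤ) × Bool) ≃ ((ℤ × ℤ) × Bool)
  hom : (ℝ × ℝ) ≃ₜ (ℝ × ℝ)
  inc : ∀ v f, RsyInc (V v) (Fc f) ↔ RsyInc v f
  ends : ∀ e, ((E e).1 = V e.1 ∧ rswEnd (E e) = V (rswEnd e)) ∨ ((E e).1 = V (rswEnd e) ∧ rswEnd (E e) = V e.1)
  cos : ∀ e, ((E e).1 = Fc e.1 ∧ rswCo (E e) = Fc (rswCo e)) ∨ ((E e).1 = Fc (rswCo e) ∧ rswCo (E e) = Fc e.1)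
  sq : ∀ f, hom '' rsySq f = rsySq (Fc f)

namespace RsySym

/-- the identity -/
def refl : RsySym where
  V := Equiv.refl _
  Fc := Equiv.refl _
  E := Equiv.refl _
  hom := Homeomorph.refl _
  inc := fun _ _ => Iff.rfl
  ends := fun _ => Or.inl ⟨rfl, rfl⟩
  cos := fun _ => Or.inl ⟨rfl, rfl⟩
  sq := fun f => by simp

/-- the inverse -/
def symm (g : RsySym) : RsySym where
  V := g.V.symm
  Fc := g.Fc.symm
  E := g.E.symm
  hom := g.hom.symm
  inc := fun v f => by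
    have := g.inc (g.V.symm v) (g.Fc.symm f)
    simpa using this.symm
  ends := fun e => by
    have := g.ends (g.E.symm e)
    simp only [Equiv.apply_symm_apply] at this
    rcases this with ⟨h1, h2⟩ | ⟨h1, h2⟩
    · left; exact ⟨by rw [h1]; simp, by rw [h2]; simp⟩
    · right; exact ⟨by rw [h2]; simp, by rw [h1]; simp⟩
  cos := fun e => by
    have := g.cos (g.E.symm e)
    simp only [Equiv.apply_symm_apply] at this
    rcases this with ⟨h1, h2⟩ | ⟨h1, h2⟩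
    · left; exact ⟨by rw [h1]; simp, by rw [h2]; simp⟩
    · right; exact ⟨by rw [h2]; simp, by rw [h1]; simp⟩
  sq := fun f => by
    have := g.sq (g.Fc.symm f)
    simp only [Equiv.apply_symm_apply] at this
    rw [← this, ← Set.image_comp]
    simp

/-- the composition: first `g`, then `h` -/
def trans (g h : RsySym) : RsySym where
  V := g.V.trans h.V
  Fc := g.Fc.trans h.Fc
  E := g.E.trans h.E
  hom := g.hom.trans h.hom
  inc := fun v f => by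
    simp only [Equiv.trans_apply]
    rw [h.inc, g.inc]
  ends := fun e => by
    simp only [Equiv.trans_apply]
    rcases g.ends e with ⟨h1, h2⟩ | ⟨h1, h2⟩ <;> rcases h.ends (g.E e) with ⟨k1, k2⟩ | ⟨k1, k2⟩
    · left; exact ⟨by rw [k1, h1], by rw [k2, h2]⟩
    · right; exact ⟨by rw [k1, h2], by rw [k2, h1]⟩
    · right; exact ⟨by rw [k1, h1], by rw [k2, h2]⟩
    · left; exact ⟨by rw [k1, h2], by rw [k2, h1]⟩
  cos := fun e => by
    simp only [Equiv.trans_apply]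
    rcases g.cos e with ⟨h1, h2⟩ | ⟨h1, h2⟩ <;> rcases h.cos (g.E e) with ⟨k1, k2⟩ | ⟨k1, k2⟩
    · left; exact ⟨by rw [k1, h1], by rw [k2, h2]⟩
    · right; exact ⟨by rw [k1, h2], by rw [k2, h1]⟩
    · right; exact ⟨by rw [k1, h1], by rw [k2, h2]⟩
    · left; exact ⟨by rw [k1, h2], by rw [k2, h1]⟩
  sq := fun f => by
    simp only [Equiv.trans_apply]
    rw [← h.sq, ← g.sq, ← Set.image_comp]
    rfl

/-- action on finite sets of vertices -/
def mV (g : RsySym) (A : Finset (ℤ × ℤ)) : Finset (ℤ × ℤ) := A.map g.V.toEmbedding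

/-- action on finite sets of faces -/
def mF (g : RsySym) (A : Finset (ℤ × ℤ)) : Finset (ℤ × ℤ) := A.map g.Fc.toEmbedding

/-- action on finite sets of edges -/
def mE (g : RsySym) (A : Finset ((ℤ × ℤ) × Bool)) : Finset ((ℤ × ℤ) × Bool) := A.map g.E.toEmbedding

/-- action on configurations -/
def act (g : RsySym) (ω : RswCfg) : RswCfg := ⟨g.mV ω.S, g.mF ω.D, g.mE ω.O⟩

end RsySym

section transport

variable (g : RsySym)

theorem rsy_mem_mV (A : Finset (ℤ × ℤ)) (v : ℤ × ℤ) : g.V v ∈ g.mV A ↔ v ∈ A :=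
  Finset.mem_map' g.V.toEmbedding

theorem rsy_mem_mF (A : Finset (ℤ × ℤ)) (f : ℤ × ℤ) : g.Fc f ∈ g.mF A ↔ f ∈ A :=
  Finset.mem_map' g.Fc.toEmbedding

theorem rsy_mem_mE (A : Finset ((ℤ × ℤ) × Bool)) (e : (ℤ × ℤ) × Bool) : g.E e ∈ g.mE A ↔ e ∈ A :=
  Finset.mem_map' g.E.toEmbedding

theorem rsy_mem_mV' (A : Finset (ℤ × ℤ)) (v : ℤ × ℤ) : v ∈ g.mV A ↔ g.V.symm v ∈ A :=
  Finset.mem_map_equiv

theorem rsy_mem_mF' (A : Finset (ℤ × ℤ)) (f : ℤ × ℤ) : f ∈ g.mF A ↔ g.Fc.symm f ∈ A :=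
  Finset.mem_map_equiv

theorem rsy_mem_mE' (A : Finset ((ℤ × ℤ) × Bool)) (e : (ℤ × ℤ) × Bool) : e ∈ g.mE A ↔ g.E.symm e ∈ A :=
  Finset.mem_map_equiv

theorem rsy_symm_mV (A : Finset (ℤ × ℤ)) : g.symm.mV (g.mV A) = A := by
  ext v; rw [rsy_mem_mV', rsy_mem_mV']; simp [RsySym.symm]

theorem rsy_symm_mF (A : Finset (ℤ × ℤ)) : g.symm.mF (g.mF A) = A := by
  ext v; rw [rsy_mem_mF', rsy_mem_mF']; simp [RsySym.symm]

theorem rsy_symm_mE (A : Finset ((ℤ × ℤ) × Bool)) : g.symm.mE (g.mE A) = A := by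
  ext v; rw [rsy_mem_mE', rsy_mem_mE']; simp [RsySym.symm]

theorem rsy_mV_symm (A : Finset (ℤ × ℤ)) : g.mV (g.symm.mV A) = A := by
  ext v; rw [rsy_mem_mV', rsy_mem_mV']; simp [RsySym.symm]

theorem rsy_mF_symm (A : Finset (ℤ × ℤ)) : g.mF (g.symm.mF A) = A := by
  ext v; rw [rsy_mem_mF', rsy_mem_mF']; simp [RsySym.symm]

theorem rsy_mE_symm (A : Finset ((ℤ × ℤ) × Bool)) : g.mE (g.symm.mE A) = A := by
  ext v; rw [rsy_mem_mE', rsy_mem_mE']; simp [RsySym.symm]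

theorem rsy_symm_act (ω : RswCfg) : g.symm.act (g.act ω) = ω := by
  cases ω; simp [RsySym.act, rsy_symm_mV, rsy_symm_mF, rsy_symm_mE]

theorem rsy_act_symm (ω : RswCfg) : g.act (g.symm.act ω) = ω := by
  cases ω; simp [RsySym.act, rsy_mV_symm, rsy_mF_symm, rsy_mE_symm]

theorem rsy_mF_subset {A B : Finset (ℤ × ℤ)} : g.mF A ⊆ g.mF B ↔ A ⊆ B := Finset.map_subset_map

theorem rsy_mV_subset {A B : Finset (ℤ × ℤ)} : g.mV A ⊆ g.mV B ↔ A ⊆ B := Finset.map_subset_map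

theorem rsy_mE_subset {A B : Finset ((ℤ × ℤ) × Bool)} : g.mE A ⊆ g.mE B ↔ A ⊆ B := Finset.map_subset_map

/-- corners -/
theorem rsy_cornersOf (F : Finset (ℤ × ℤ)) : cornersOf (g.mF F) = g.mV (cornersOf F) := by
  ext v
  rw [rsy_mem_mV', rsy_mem_cornersOf, rsy_mem_cornersOf]
  constructor
  · rintro ⟨f, hf, h⟩
    refine ⟨g.Fc.symm f, (rsy_mem_mF' g F f).1 hf, ?_⟩
    rw [← g.inc]; simpa using h
  · rintro ⟨f, hf, h⟩
    refine ⟨g.Fc f, (rsy_mem_mF g F f).2 hf, ?_⟩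
    rw [← g.inc] at h; simpa using h

/-- the polygon -/
theorem rsy_onPolygon (F : Finset (ℤ × ℤ)) (v : ℤ × ℤ) : OnPolygon (g.mF F) (g.V v) ↔ OnPolygon F v := by
  rw [rsy_onPolygon_iff, rsy_onPolygon_iff]
  constructor
  · rintro ⟨f, h, hf⟩
    refine ⟨g.Fc.symm f, ?_, fun hc => hf ((rsy_mem_mF' g F f).2 hc)⟩
    rw [← g.inc]; simpa using h
  · rintro ⟨f, h, hf⟩
    exact ⟨g.Fc f, (g.inc v f).2 h, fun hc => hf ((rsy_mem_mF g F f).1 hc)⟩

/-- interior edges -/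
theorem rsy_mem_int_E (F : Finset (ℤ × ℤ)) (e : (ℤ × ℤ) × Bool) : g.E e ∈ rswInt (g.mF F) ↔ e ∈ rswInt F := by
  rw [rsy_mem_int, rsy_mem_int]
  rcases g.cos e with ⟨h1, h2⟩ | ⟨h1, h2⟩
  · rw [h1, h2, rsy_mem_mF, rsy_mem_mF]
  · rw [h1, h2, rsy_mem_mF, rsy_mem_mF, and_comm]

theorem rsy_int (F : Finset (ℤ × ℤ)) : rswInt (g.mF F) = g.mE (rswInt F) := by
  ext e
  rw [rsy_mem_mE']
  have := rsy_mem_int_E g F (g.E.symm e)
  rw [Equiv.apply_symm_apply] at this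
  exact this

/-- agreement of the primal spins at the two ends of an edge -/
theorem rsy_agreeS (ω : RswCfg) (e : (ℤ × ℤ) × Bool) :
    ((g.E e).1 ∈ (g.act ω).S ↔ rswEnd (g.E e) ∈ (g.act ω).S) ↔ (e.1 ∈ ω.S ↔ rswEnd e ∈ ω.S) := by
  show ((g.E e).1 ∈ g.mV ω.S ↔ rswEnd (g.E e) ∈ g.mV ω.S) ↔ _
  rcases g.ends e with ⟨h1, h2⟩ | ⟨h1, h2⟩
  · rw [h1, h2, rsy_mem_mV, rsy_mem_mV]
  · rw [h1, h2, rsy_mem_mV, rsy_mem_mV]; tauto

/-- agreement of the face spins at the two faces of an edge -/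
theorem rsy_agreeD (ω : RswCfg) (e : (ℤ × ℤ) × Bool) :
    ((g.E e).1 ∈ (g.act ω).D ↔ rswCo (g.E e) ∈ (g.act ω).D) ↔ (e.1 ∈ ω.D ↔ rswCo e ∈ ω.D) := by
  show ((g.E e).1 ∈ g.mF ω.D ↔ rswCo (g.E e) ∈ g.mF ω.D) ↔ _
  rcases g.cos e with ⟨h1, h2⟩ | ⟨h1, h2⟩
  · rw [h1, h2, rsy_mem_mF, rsy_mem_mF]
  · rw [h1, h2, rsy_mem_mF, rsy_mem_mF]; tauto

theorem rsy_memO (ω : RswCfg) (e : (ℤ × ℤ) × Bool) : g.E e ∈ (g.act ω).O ↔ e ∈ ω.O :=
  rsy_mem_mE g ω.O e

/-- the edge factor -/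
theorem rsy_fac (t : ℝ) (ω : RswCfg) (e : (ℤ × ℤ) × Bool) : rswFac t (g.act ω) (g.E e) = rswFac t ω e := by
  unfold rswFac
  simp only [rsy_agreeS, rsy_agreeD, rsy_memO]

/-- the boundary condition -/
theorem rsy_bc (F : Finset (ℤ × ℤ)) (b : Bool) (ω : RswCfg) : RswBc (g.mF F) b (g.act ω) ↔ RswBc F b ω := by
  unfold RswBc
  rw [rsy_cornersOf]
  constructor
  · intro h v hv hp
    have := h (g.V v) ((rsy_mem_mV g _ v).2 hv) ((rsy_onPolygon g F v).2 hp)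
    rwa [show (g.act ω).S = g.mV ω.S from rfl, rsy_mem_mV] at this
  · intro h v hv hp
    have hv' := (rsy_mem_mV' g _ v).1 hv
    have hp' : OnPolygon F (g.V.symm v) := by
      rw [← rsy_onPolygon g]; simpa using hp
    have := h _ hv' hp'
    rwa [show (g.act ω).S = g.mV ω.S from rfl, rsy_mem_mV']

/-- the weight -/
theorem rsy_wt (t : ℝ) (F : Finset (ℤ × ℤ)) (b : Bool) (ω : RswCfg) :
    rswWt t (g.mF F) b (g.act ω) = rswWt t F b ω := by
  unfold rswWt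
  by_cases h : RswBc F b ω
  · rw [if_pos h, if_pos ((rsy_bc g F b ω).2 h), rsy_int]
    unfold RsySym.mE
    rw [Finset.prod_map]
    exact Finset.prod_congr rfl fun e _ => rsy_fac g t ω e
  · rw [if_neg h, if_neg (fun hc => h ((rsy_bc g F b ω).1 hc))]

/-- reindexing of a sum over a power set -/
theorem rsy_sum_powerset {α : Type*} (φ : α ≃ α) (s : Finset α) (G : Finset α → ℝ) :
    ∑ T ∈ (s.map φ.toEmbedding).powerset, G T = ∑ T ∈ s.powerset, G (T.map φ.toEmbedding) := by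
  symm
  refine Finset.sum_nbij' (fun T => T.map φ.toEmbedding) (fun T => T.map φ.symm.toEmbedding) ?_ ?_ ?_ ?_ ?_
  · intro T hT
    rw [Finset.mem_powerset] at hT ⊢
    exact Finset.map_subset_map.2 hT
  · intro T hT
    rw [Finset.mem_powerset] at hT ⊢
    intro x hx
    rw [Finset.mem_map_equiv] at hx
    have := hT hx
    rw [Finset.mem_map_equiv] at this
    simpa using this
  · intro T _
    ext x; simp [Finset.mem_map_equiv]
  · intro T _
    ext x; simp [Finset.mem_map_equiv]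
  · intro T _; rfl

/-- **the unnormalised sum is invariant** -/
theorem rsy_sum (t : ℝ) (F : Finset (ℤ × ℤ)) (b : Bool) (X : RswCfg → ℝ) :
    rswSum t (g.mF F) b X = rswSum t F b (fun ω => X (g.act ω)) := by
  unfold rswSum
  rw [rsy_cornersOf, rsy_int]
  unfold RsySym.mV RsySym.mE
  rw [rsy_sum_powerset]
  refine Finset.sum_congr rfl fun S _ => ?_
  conv_lhs => rw [show g.mF F = F.map g.Fc.toEmbedding from rfl]
  rw [rsy_sum_powerset]
  refine Finset.sum_congr rfl fun D _ => ?_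
  rw [rsy_sum_powerset]
  refine Finset.sum_congr rfl fun O _ => ?_
  have := rsy_wt g t F b ⟨S, D, O⟩
  rw [← this]
  rfl

/-- **the expectation is invariant** -/
theorem rsy_E (t : ℝ) (F : Finset (ℤ × ℤ)) (b : Bool) (X : RswCfg → ℝ) :
    rswE t (g.mF F) b X = rswE t F b (fun ω => X (g.act ω)) := by
  unfold rswE
  rw [rsy_sum, rsy_sum]

/-- **the probability is invariant** -/
theorem rsy_P (t : ℝ) (F : Finset (ℤ × ℤ)) (b : Bool) (L : RswCfg → Prop) :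
    rswP t (g.mF F) b L = rswP t F b (fun ω => L (g.act ω)) := by
  unfold rswP
  rw [rsy_E]


/-! ### circuits, separation, layer -/

theorem rsy_good (a : Bool) (ω : RswCfg) (e : (ℤ × ℤ) × Bool) :
    RswGood a (g.act ω) (g.E e) ↔ RswGood a ω e := by
  unfold RswGood
  rw [rsy_memO]
  show _ ∧ ((g.E e).1 ∈ g.mV ω.S ↔ a = true) ∧ (rswEnd (g.E e) ∈ g.mV ω.S ↔ a = true) ↔ _
  rcases g.ends e with ⟨h1, h2⟩ | ⟨h1, h2⟩
  · rw [h1, h2, rsy_mem_mV, rsy_mem_mV]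
  · rw [h1, h2, rsy_mem_mV, rsy_mem_mV]; tauto

theorem rsy_step_of {F : Finset (ℤ × ℤ)} {a : Bool} {ω : RswCfg} {f f' : ℤ × ℤ} (h : RswStep F a ω f f') :
    RswStep (g.mF F) a (g.act ω) (g.Fc f) (g.Fc f') := by
  obtain ⟨h1, h2, e, he, hg⟩ := h
  refine ⟨(rsy_mem_mF g F f).2 h1, (rsy_mem_mF g F f').2 h2, g.E e, ?_, fun hc => hg ((rsy_good g a ω e).1 hc)⟩
  rcases g.cos e with ⟨k1, k2⟩ | ⟨k1, k2⟩ <;> rcases he with ⟨rfl, rfl⟩ | ⟨rfl, rfl⟩
  · left; exact ⟨k1.symm, k2.symm⟩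
  · right; exact ⟨k1.symm, k2.symm⟩
  · right; exact ⟨k1.symm, k2.symm⟩
  · left; exact ⟨k1.symm, k2.symm⟩

theorem rsy_step (F : Finset (ℤ × ℤ)) (a : Bool) (ω : RswCfg) (f f' : ℤ × ℤ) :
    RswStep (g.mF F) a (g.act ω) (g.Fc f) (g.Fc f') ↔ RswStep F a ω f f' := by
  refine ⟨fun h => ?_, rsy_step_of g⟩
  have := rsy_step_of g.symm h
  rw [rsy_symm_mF, rsy_symm_act] at this
  simpa [RsySym.symm] using this

theorem rsy_reach_of {F : Finset (ℤ × ℤ)} {a : Bool} {ω : RswCfg} {f f' : ℤ × ℤ}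
    (h : Relation.ReflTransGen (RswStep F a ω) f f') :
    Relation.ReflTransGen (RswStep (g.mF F) a (g.act ω)) (g.Fc f) (g.Fc f') :=
  Relation.ReflTransGen.lift g.Fc (fun _ _ hab => rsy_step_of g hab) _ _ h

theorem rsy_reach (F : Finset (ℤ × ℤ)) (a : Bool) (ω : RswCfg) (f f' : ℤ × ℤ) :
    Relation.ReflTransGen (RswStep (g.mF F) a (g.act ω)) (g.Fc f) (g.Fc f') ↔
      Relation.ReflTransGen (RswStep F a ω) f f' := by
  refine ⟨fun h => ?_, rsy_reach_of g⟩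
  have := rsy_reach_of g.symm h
  rw [rsy_symm_mF, rsy_symm_act] at this
  simpa [RsySym.symm] using this

/-- **separation is transported** -/
theorem rsy_sep (F : Finset (ℤ × ℤ)) (a : Bool) (ω : RswCfg) (A B : Finset (ℤ × ℤ)) :
    RswSep (g.mF F) a (g.act ω) (g.mF A) (g.mF B) ↔ RswSep F a ω A B := by
  unfold RswSep
  constructor
  · intro h f hf f' hf' hr
    exact h _ ((rsy_mem_mF g A f).2 hf) _ ((rsy_mem_mF g B f').2 hf') (rsy_reach_of g hr)
  · intro h f hf f' hf' hr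
    refine h _ ((rsy_mem_mF' g A f).1 hf) _ ((rsy_mem_mF' g B f').1 hf') ?_
    rw [← rsy_reach g]
    simpa using hr

open scoped Classical in
theorem rsy_mem_layer (F : Finset (ℤ × ℤ)) (f : ℤ × ℤ) :
    f ∈ rswLayer F ↔ f ∈ F ∧ ∃ v, RsyInc v f ∧ OnPolygon F v := by
  unfold rswLayer
  simp only [Finset.mem_filter, rsy_mem_corners4]

theorem rsy_mem_layer_Fc (F : Finset (ℤ × ℤ)) (f : ℤ × ℤ) : g.Fc f ∈ rswLayer (g.mF F) ↔ f ∈ rswLayer F := by
  rw [rsy_mem_layer, rsy_mem_layer, rsy_mem_mF]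
  refine and_congr Iff.rfl ⟨?_, ?_⟩
  · rintro ⟨v, h1, h2⟩
    refine ⟨g.V.symm v, ?_, ?_⟩
    · rw [← g.inc]; simpa using h1
    · rw [← rsy_onPolygon g]; simpa using h2
  · rintro ⟨v, h1, h2⟩
    exact ⟨g.V v, (g.inc v f).2 h1, (rsy_onPolygon g F v).2 h2⟩

/-- the boundary layer is transported -/
theorem rsy_layer (F : Finset (ℤ × ℤ)) : rswLayer (g.mF F) = g.mF (rswLayer F) := by
  ext f
  rw [rsy_mem_mF']
  have := rsy_mem_layer_Fc g F (g.Fc.symm f)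
  rw [Equiv.apply_symm_apply] at this
  exact this

/-! ### the region and its Jordan curve -/

theorem rsy_region_eq (F : Finset (ℤ × ℤ)) : faceRegionSq 1 F = interior (⋃ f ∈ F, rsySq f) := rfl

theorem rsy_union (F : Finset (ℤ × ℤ)) : (⋃ f ∈ g.mF F, rsySq f) = g.hom '' (⋃ f ∈ F, rsySq f) := by
  rw [Set.image_iUnion₂]
  ext x
  simp only [Set.mem_iUnion, g.sq]
  constructor
  · rintro ⟨f, hf, hx⟩
    refine ⟨g.Fc.symm f, (rsy_mem_mF' g F f).1 hf, ?_⟩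
    simpa using hx
  · rintro ⟨f, hf, hx⟩
    exact ⟨g.Fc f, (rsy_mem_mF g F f).2 hf, hx⟩

theorem rsy_region (F : Finset (ℤ × ℤ)) : faceRegionSq 1 (g.mF F) = g.hom '' faceRegionSq 1 F := by
  rw [rsy_region_eq, rsy_region_eq, rsy_union, Homeomorph.image_interior]

theorem rsy_jordan_of {F : Finset (ℤ × ℤ)} (h : RswJordan F) : RswJordan (g.mF F) := by
  obtain ⟨γ, h1, h2, h3⟩ := h
  refine ⟨g.hom ∘ γ, g.hom.continuous.comp h1, g.hom.injective.comp h2, ?_⟩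
  rw [Set.range_comp, h3, rsy_region, Homeomorph.image_frontier]

/-- **the Jordan condition is transported** -/
theorem rsy_jordan (F : Finset (ℤ × ℤ)) : RswJordan (g.mF F) ↔ RswJordan F := by
  refine ⟨fun h => ?_, rsy_jordan_of g⟩
  have := rsy_jordan_of g.symm h
  rwa [rsy_symm_mF] at this

/-! ### local observables -/

theorem rsy_loc {R : Finset (ℤ × ℤ)} {R' : Finset ((ℤ × ℤ) × Bool)} {X : RswCfg → ℝ} (h : RswLoc R R' X) :
    RswLoc (g.mV R ∪ g.mF R) (g.mE R') (fun ω => X (g.symm.act ω)) := by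
  intro ω ω' hS hD hO
  apply h
  · ext v
    simp only [Finset.mem_inter]
    refine and_congr_left fun hv => ?_
    show v ∈ g.symm.mV ω.S ↔ v ∈ g.symm.mV ω'.S
    rw [rsy_mem_mV', rsy_mem_mV']
    have hv' : g.V v ∈ g.mV R ∪ g.mF R := Finset.mem_union_left _ ((rsy_mem_mV g R v).2 hv)
    have := Finset.ext_iff.1 hS (g.V v)
    simp only [Finset.mem_inter, hv', and_true] at this
    simpa [RsySym.symm] using this
  · ext v
    simp only [Finset.mem_inter]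
    refine and_congr_left fun hv => ?_
    show v ∈ g.symm.mF ω.D ↔ v ∈ g.symm.mF ω'.D
    rw [rsy_mem_mF', rsy_mem_mF']
    have hv' : g.Fc v ∈ g.mV R ∪ g.mF R := Finset.mem_union_right _ ((rsy_mem_mF g R v).2 hv)
    have := Finset.ext_iff.1 hD (g.Fc v)
    simp only [Finset.mem_inter, hv', and_true] at this
    simpa [RsySym.symm] using this
  · ext e
    simp only [Finset.mem_inter]
    refine and_congr_left fun he => ?_
    show e ∈ g.symm.mE ω.O ↔ e ∈ g.symm.mE ω'.O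
    rw [rsy_mem_mE', rsy_mem_mE']
    have he' : g.E e ∈ g.mE R' := (rsy_mem_mE g R' e).2 he
    have := Finset.ext_iff.1 hO (g.E e)
    simp only [Finset.mem_inter, he', and_true] at this
    simpa [RsySym.symm] using this

theorem rsy_trans_mF (h : RsySym) (A : Finset (ℤ × ℤ)) : (g.trans h).mF A = h.mF (g.mF A) := by
  unfold RsySym.mF RsySym.trans
  rw [Finset.map_map]
  rfl

theorem rsy_trans_mV (h : RsySym) (A : Finset (ℤ × ℤ)) : (g.trans h).mV A = h.mV (g.mV A) := by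
  unfold RsySym.mV RsySym.trans
  rw [Finset.map_map]
  rfl

theorem rsy_trans_mE (h : RsySym) (A : Finset ((ℤ × ℤ) × Bool)) : (g.trans h).mE A = h.mE (g.mE A) := by
  unfold RsySym.mE RsySym.trans
  rw [Finset.map_map]
  rfl

theorem rsy_trans_act (h : RsySym) (ω : RswCfg) : (g.trans h).act ω = h.act (g.act ω) := by
  unfold RsySym.act
  rw [rsy_trans_mV, rsy_trans_mF, rsy_trans_mE]

end transport

/-! ## 2. the generators -/

theorem rsy_mem_sq (f : ℤ × ℤ) (x : ℝ × ℝ) :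
    x ∈ rsySq f ↔ ((f.1 : ℝ) ≤ x.1 ∧ x.1 ≤ f.1 + 1) ∧ ((f.2 : ℝ) ≤ x.2 ∧ x.2 ≤ f.2 + 1) := by
  unfold rsySq
  simp only [Set.mem_prod, Set.mem_Icc, one_mul]

/-- the translation by `τ` -/
def rsyT (τ : ℤ × ℤ) : RsySym where
  V := Equiv.addRight τ
  Fc := Equiv.addRight τ
  E := (Equiv.addRight τ).prodCongr (Equiv.refl Bool)
  hom := Homeomorph.addRight ((τ.1 : ℝ), (τ.2 : ℝ))
  inc := fun v f => by
    simp only [RsyInc, Equiv.coe_addRight, Prod.fst_add, Prod.snd_add]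
    constructor <;> rintro ⟨h1, h2⟩ <;> constructor <;> omega
  ends := fun e => by
    obtain ⟨⟨x, y⟩, d⟩ := e
    refine Or.inl ⟨rfl, ?_⟩
    cases d <;> apply Prod.ext <;> simp [rswEnd] <;> ring
  cos := fun e => by
    obtain ⟨⟨x, y⟩, d⟩ := e
    refine Or.inl ⟨rfl, ?_⟩
    cases d <;> apply Prod.ext <;> simp [rswCo] <;> ring
  sq := fun f => by
    ext x
    rw [Homeomorph.image_eq_preimage_symm, Set.mem_preimage, rsy_mem_sq, rsy_mem_sq]
    simp only [Homeomorph.addRight_symm, Homeomorph.coe_addRight, Prod.fst_add, Prod.snd_add, Prod.fst_neg,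
      Prod.snd_neg, Equiv.coe_addRight, Int.cast_add]
    constructor <;> rintro ⟨⟨h1, h2⟩, h3, h4⟩ <;> refine ⟨⟨?_, ?_⟩, ?_, ?_⟩ <;> linarith

/-- the reflection in the diagonal -/
def rsySw : RsySym where
  V := Equiv.prodComm ℤ ℤ
  Fc := Equiv.prodComm ℤ ℤ
  E := (Equiv.prodComm ℤ ℤ).prodCongr Equiv.boolNot
  hom := Homeomorph.prodComm ℝ ℝ
  inc := fun v f => by
    simp only [RsyInc, Equiv.prodComm_apply, Prod.fst_swap, Prod.snd_swap]
    tauto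
  ends := fun e => by
    left
    obtain ⟨⟨x, y⟩, d⟩ := e
    cases d <;> simp [rswEnd]
  cos := fun e => by
    left
    obtain ⟨⟨x, y⟩, d⟩ := e
    cases d <;> simp [rswCo]
  sq := fun f => by
    ext x
    rw [Homeomorph.image_eq_preimage_symm, Set.mem_preimage, rsy_mem_sq, rsy_mem_sq]
    simp only [Homeomorph.prodComm_symm, Homeomorph.coe_prodComm, Prod.fst_swap, Prod.snd_swap,
      Equiv.prodComm_apply]
    tauto

/-- faces under `x ↦ -x` -/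
def rsyRxF : (ℤ × ℤ) ≃ (ℤ × ℤ) where
  toFun := fun f => (-f.1 - 1, f.2)
  invFun := fun f => (-f.1 - 1, f.2)
  left_inv := fun f => by ext <;> simp
  right_inv := fun f => by ext <;> simp

/-- edges under `x ↦ -x` -/
def rsyRxE : ((ℤ × ℤ) × Bool) ≃ ((ℤ × ℤ) × Bool) where
  toFun := fun e => if e.2 then ((-e.1.1, e.1.2), true) else ((-e.1.1 - 1, e.1.2), false)
  invFun := fun e => if e.2 then ((-e.1.1, e.1.2), true) else ((-e.1.1 - 1, e.1.2), false)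
  left_inv := fun e => by
    obtain ⟨⟨x, y⟩, d⟩ := e
    cases d <;> simp
  right_inv := fun e => by
    obtain ⟨⟨x, y⟩, d⟩ := e
    cases d <;> simp

/-- the reflection `x ↦ -x` -/
def rsyRx : RsySym where
  V := (Equiv.neg ℤ).prodCongr (Equiv.refl ℤ)
  Fc := rsyRxF
  E := rsyRxE
  hom := (Homeomorph.neg ℝ).prodCongr (Homeomorph.refl ℝ)
  inc := fun v f => by
    simp only [RsyInc, rsyRxF, Equiv.prodCongr_apply, Equiv.coe_fn_mk, Prod.map_fst, Prod.map_snd,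
      Equiv.neg_apply, Equiv.refl_apply]
    constructor <;> rintro ⟨h1, h2⟩ <;> constructor <;> omega
  ends := fun e => by
    obtain ⟨⟨x, y⟩, d⟩ := e
    cases d
    · right; simp [rswEnd, rsyRxE]; ring
    · left; simp [rswEnd, rsyRxE]
  cos := fun e => by
    obtain ⟨⟨x, y⟩, d⟩ := e
    cases d
    · left; simp [rswCo, rsyRxE, rsyRxF]
    · right; simp [rswCo, rsyRxE, rsyRxF]
  sq := fun f => by
    ext x
    rw [Homeomorph.image_eq_preimage_symm, Set.mem_preimage, rsy_mem_sq, rsy_mem_sq]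
    simp only [rsyRxF, Equiv.coe_fn_mk, Int.cast_sub, Int.cast_neg, Int.cast_one]
    have e1 : (((Homeomorph.neg ℝ).prodCongr (Homeomorph.refl ℝ)).symm x).1 = -x.1 := rfl
    have e2 : (((Homeomorph.neg ℝ).prodCongr (Homeomorph.refl ℝ)).symm x).2 = x.2 := rfl
    rw [e1, e2]
    constructor <;> rintro ⟨⟨h1, h2⟩, h3, h4⟩ <;> refine ⟨⟨?_, ?_⟩, ?_, ?_⟩ <;> linarith

/-- the reflection `y ↦ -y` -/
def rsyRy : RsySym := rsySw.trans (rsyRx.trans rsySw)

/-- the quarter turn `(x, y) ↦ (-y, x)` -/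
def rsyRot : RsySym := rsySw.trans rsyRx

/-- the half turn -/
def rsyHalf : RsySym := rsyRx.trans rsyRy

/-- the reflection in the anti-diagonal -/
def rsyAsw : RsySym := rsySw.trans rsyHalf

/-- the quarter turn the other way -/
def rsyRot' : RsySym := rsyRot.symm

/-! ## 3. boxes -/

theorem rsy_mem_box (z : ℤ × ℤ) (n : ℕ) (f : ℤ × ℤ) :
    f ∈ rswBox z n ↔ (z.1 - n ≤ f.1 ∧ f.1 < z.1 + n) ∧ (z.2 - n ≤ f.2 ∧ f.2 < z.2 + n) := by
  unfold rswBox
  simp only [Finset.mem_product, Finset.mem_Ico]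

theorem rsy_box_T (τ z : ℤ × ℤ) (n : ℕ) : (rsyT τ).mF (rswBox z n) = rswBox (z + τ) n := by
  ext f
  rw [rsy_mem_mF', rsy_mem_box, rsy_mem_box]
  simp only [rsyT, Equiv.addRight_symm, Equiv.coe_addRight, Prod.fst_add, Prod.snd_add, Prod.fst_neg, Prod.snd_neg]
  constructor <;> rintro ⟨⟨h1, h2⟩, h3, h4⟩ <;> refine ⟨⟨?_, ?_⟩, ?_, ?_⟩ <;> omega

theorem rsy_box_Sw (z : ℤ × ℤ) (n : ℕ) : rsySw.mF (rswBox z n) = rswBox z.swap n := by
  ext f
  rw [rsy_mem_mF', rsy_mem_box, rsy_mem_box]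
  simp only [rsySw, Equiv.prodComm_symm, Equiv.prodComm_apply, Prod.fst_swap, Prod.snd_swap]
  tauto

theorem rsy_box_Rx (z : ℤ × ℤ) (n : ℕ) : rsyRx.mF (rswBox z n) = rswBox (-z.1, z.2) n := by
  ext f
  rw [rsy_mem_mF', rsy_mem_box, rsy_mem_box]
  have e1 : (rsyRx.Fc.symm f).1 = -f.1 - 1 := rfl
  have e2 : (rsyRx.Fc.symm f).2 = f.2 := rfl
  rw [e1, e2]
  constructor <;> rintro ⟨⟨h1, h2⟩, h3, h4⟩ <;> refine ⟨⟨?_, ?_⟩, ?_, ?_⟩ <;> omega

theorem rsy_box_Ry (z : ℤ × ℤ) (n : ℕ) : rsyRy.mF (rswBox z n) = rswBox (z.1, -z.2) n := by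
  unfold rsyRy
  rw [rsy_trans_mF, rsy_trans_mF, rsy_box_Sw, rsy_box_Rx, rsy_box_Sw]
  rfl

theorem rsy_box_Rot (z : ℤ × ℤ) (n : ℕ) : rsyRot.mF (rswBox z n) = rswBox (-z.2, z.1) n := by
  unfold rsyRot
  rw [rsy_trans_mF, rsy_box_Sw, rsy_box_Rx]
  rfl

theorem rsy_box_Half (z : ℤ × ℤ) (n : ℕ) : rsyHalf.mF (rswBox z n) = rswBox (-z.1, -z.2) n := by
  unfold rsyHalf
  rw [rsy_trans_mF, rsy_box_Rx, rsy_box_Ry]

theorem rsy_box_Asw (z : ℤ × ℤ) (n : ℕ) : rsyAsw.mF (rswBox z n) = rswBox (-z.2, -z.1) n := by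
  unfold rsyAsw
  rw [rsy_trans_mF, rsy_box_Sw, rsy_box_Half]
  rfl

/-- the centred boxes are invariant under the 8 symmetries -/
theorem rsy_box0 (n : ℕ) : rsySw.mF (rswBox 0 n) = rswBox 0 n ∧ rsyRx.mF (rswBox 0 n) = rswBox 0 n ∧
    rsyRy.mF (rswBox 0 n) = rswBox 0 n ∧ rsyRot.mF (rswBox 0 n) = rswBox 0 n ∧
    rsyHalf.mF (rswBox 0 n) = rswBox 0 n ∧ rsyAsw.mF (rswBox 0 n) = rswBox 0 n := by
  refine ⟨?_, ?_, ?_, ?_, ?_, ?_⟩
  · rw [rsy_box_Sw]; rfl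
  · rw [rsy_box_Rx]; simp; rfl
  · rw [rsy_box_Ry]; simp; rfl
  · rw [rsy_box_Rot]; simp; rfl
  · rw [rsy_box_Half]; simp; rfl
  · rw [rsy_box_Asw]; simp; rfl

/-- **translation invariance of the circuit probability of `exit_rsw_circuit`** -/
theorem rsy_circuit_T (t : ℝ) (z : ℤ × ℤ) (m n : ℕ) (b a : Bool) :
    rswP t (rswBox z m) b (fun ω => RswSep (rswBox z m) a ω (rswBox z n) (rswLayer (rswBox z m))) =
      rswP t (rswBox 0 m) b (fun ω => RswSep (rswBox 0 m) a ω (rswBox 0 n) (rswLayer (rswBox 0 m))) := by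
  have h1 : ∀ k, rswBox z k = (rsyT z).mF (rswBox 0 k) := fun k => by rw [rsy_box_T, zero_add]
  rw [h1 m, h1 n, rsy_P]
  congr 1
  funext ω
  rw [rsy_layer, rsy_sep]

/-! ## 4. the height -/

theorem rsy_spin_eq (F : Finset (ℤ × ℤ)) (ω : RswCfg) (v : ℤ × ℤ) :
    atSpin (rswTau F ω) v = if v ∈ cornersOf F then (if v ∈ ω.S then 1 else -1) else 1 := by
  unfold atSpin rswTau
  by_cases hv : v ∈ cornersOf F
  · rw [dif_pos hv, if_pos hv]
    simp only [decide_eq_true_eq]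
  · rw [dif_neg hv, if_neg hv]

theorem rsy_dual_eq (F : Finset (ℤ × ℤ)) (ω : RswCfg) (f : ℤ × ℤ) :
    atDual (rswTauD F ω) f = if f ∈ F then (if f ∈ ω.D then 1 else -1) else 1 := by
  unfold atDual rswTauD
  by_cases hf : f ∈ F
  · rw [dif_pos hf, if_pos hf]
    simp only [decide_eq_true_eq]
  · rw [dif_neg hf, if_neg hf]

section height

variable (g : RsySym)

theorem rsy_spin (F : Finset (ℤ × ℤ)) (ω : RswCfg) (v : ℤ × ℤ) :
    atSpin (rswTau (g.mF F) (g.act ω)) (g.V v) = atSpin (rswTau F ω) v := by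
  rw [rsy_spin_eq, rsy_spin_eq, rsy_cornersOf]
  have h1 : g.V v ∈ g.mV (cornersOf F) ↔ v ∈ cornersOf F := rsy_mem_mV g _ v
  have h2 : g.V v ∈ (g.act ω).S ↔ v ∈ ω.S := rsy_mem_mV g _ v
  simp only [h1, h2]

theorem rsy_dual (F : Finset (ℤ × ℤ)) (ω : RswCfg) (f : ℤ × ℤ) :
    atDual (rswTauD (g.mF F) (g.act ω)) (g.Fc f) = atDual (rswTauD F ω) f := by
  rw [rsy_dual_eq, rsy_dual_eq]
  have h1 : g.Fc f ∈ g.mF F ↔ f ∈ F := rsy_mem_mF g _ f
  have h2 : g.Fc f ∈ (g.act ω).D ↔ f ∈ ω.D := rsy_mem_mF g _ f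
  simp only [h1, h2]

/-- a solution of the height problem is transported -/
theorem rsy_isHeight {F : Finset (ℤ × ℤ)} {ω : RswCfg} {Hv Hf : ℤ × ℤ → ℝ}
    (h : IsATHeight (rswTau F ω) (rswTauD F ω) Hv Hf) :
    IsATHeight (rswTau (g.mF F) (g.act ω)) (rswTauD (g.mF F) (g.act ω))
      (fun v => Hv (g.V.symm v)) (fun f => Hf (g.Fc.symm f)) := by
  refine ⟨fun v hv hp => ?_, fun f hf v hv => ?_⟩
  · rw [rsy_cornersOf, rsy_mem_mV'] at hv
    refine h.1 _ hv ?_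
    rw [← rsy_onPolygon g]; simpa using hp
  · rw [rsy_mem_mF'] at hf
    rw [rsy_mem_corners4] at hv
    have hv' : g.V.symm v ∈ ({g.Fc.symm f, ((g.Fc.symm f).1 + 1, (g.Fc.symm f).2),
        ((g.Fc.symm f).1, (g.Fc.symm f).2 + 1), ((g.Fc.symm f).1 + 1, (g.Fc.symm f).2 + 1)} : Finset (ℤ × ℤ)) := by
      rw [rsy_mem_corners4, ← g.inc]; simpa using hv
    have := h.2 _ hf _ hv'
    rw [← rsy_spin g, ← rsy_dual g] at this
    simpa using this

/-- **the height is transported** (no hypothesis on `F` or on the configuration) -/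
theorem rsy_H (F : Finset (ℤ × ℤ)) (ω : RswCfg) {v : ℤ × ℤ} (hv : v ∈ cornersOf F) :
    rswH (g.mF F) (g.act ω) (g.V v) = rswH F ω v := by
  unfold rswH
  by_cases hex : ∃ Hv Hf : ℤ × ℤ → ℝ, IsATHeight (rswTau F ω) (rswTauD F ω) Hv Hf
  · obtain ⟨Hv, Hf, h⟩ := hex
    rw [at2h_eq h v hv, at2h_eq (rsy_isHeight g h) (g.V v) (by rw [rsy_cornersOf, rsy_mem_mV]; exact hv)]
    simp
  · have hex' : ¬ ∃ Hv Hf : ℤ × ℤ → ℝ,
        IsATHeight (rswTau (g.mF F) (g.act ω)) (rswTauD (g.mF F) (g.act ω)) Hv Hf := by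
      rintro ⟨Hv, Hf, h⟩
      apply hex
      have := rsy_isHeight g.symm h
      rw [rsy_symm_mF, rsy_symm_act] at this
      exact ⟨_, _, this⟩
    rw [at2h_zero_of_not_exists hex, at2h_zero_of_not_exists hex']

/-- the statistic `∑ w(v) H(v)` -/
theorem rsy_arr (w : (ℤ × ℤ) →₀ ℝ) (h : ℤ × ℤ → ℝ) :
    rswArr (w.equivMapDomain g.V) h = rswArr w (fun v => h (g.V v)) := by
  unfold rswArr
  rw [Finsupp.equivMapDomain_eq_mapDomain, Finsupp.sum_mapDomain_index_inj g.V.injective]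

/-- the statistic of the transported height, for a weight carried by the corners -/
theorem rsy_arr_H (F : Finset (ℤ × ℤ)) (ω : RswCfg) (w : (ℤ × ℤ) →₀ ℝ) (hw : w.support ⊆ cornersOf F) :
    rswArr (w.equivMapDomain g.V) (rswH (g.mF F) (g.act ω)) = rswArr w (rswH F ω) := by
  rw [rsy_arr]
  unfold rswArr Finsupp.sum
  exact Finset.sum_congr rfl fun v hv => by
    show w v * rswH (g.mF F) (g.act ω) (g.V v) = w v * rswH F ω v
    rw [rsy_H g F ω (hw hv)]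

/-- **the law of a height statistic is transported** -/
theorem rsy_E_arr (t : ℝ) (F : Finset (ℤ × ℤ)) (b : Bool) (w : (ℤ × ℤ) →₀ ℝ) (hw : w.support ⊆ cornersOf F)
    (Φ : ℝ → ℝ) :
    rswE t (g.mF F) b (fun ω => Φ (rswArr (w.equivMapDomain g.V) (rswH (g.mF F) ω))) =
      rswE t F b (fun ω => Φ (rswArr w (rswH F ω))) := by
  rw [rsy_E]
  congr 1
  funext ω
  rw [rsy_arr_H g F ω w hw]

/-- products of height increments -/
theorem rsy_E_incr (t : ℝ) (F : Finset (ℤ × ℤ)) (b : Bool) {k : ℕ} (v v' : Fin k → ℤ × ℤ)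
    (hv : ∀ i, v i ∈ cornersOf F) (hv' : ∀ i, v' i ∈ cornersOf F) :
    rswE t (g.mF F) b (fun ω => ∏ i, (rswH (g.mF F) ω (g.V (v' i)) - rswH (g.mF F) ω (g.V (v i)))) =
      rswE t F b (fun ω => ∏ i, (rswH F ω (v' i) - rswH F ω (v i))) := by
  rw [rsy_E]
  congr 1
  funext ω
  exact Finset.prod_congr rfl fun i _ => by rw [rsy_H g F ω (hv i), rsy_H g F ω (hv' i)]

end height

/-- smearings are translated -/
theorem rsy_sm_T (τ z0 : ℤ × ℤ) (a : ℕ) (A : ℝ) (w : (ℤ × ℤ) →₀ ℝ) (h : RswSm z0 a A w) :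
    RswSm (z0 + τ) a A (w.equivMapDomain (rsyT τ).V) := by
  have hs : (w.equivMapDomain (rsyT τ).V).support = w.support.map (rsyT τ).V.toEmbedding := by
    rw [Finsupp.equivMapDomain_eq_mapDomain, Finsupp.mapDomain_support_of_injective (rsyT τ).V.injective w,
      Finset.map_eq_image]
    rfl
  refine ⟨?_, ?_, ?_⟩
  · rw [hs, ← rsy_box_T]
    exact Finset.map_subset_map.2 h.supp
  · rw [hs, Finset.sum_map]
    simpa [Finsupp.equivMapDomain_apply] using h.l1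
  · intro u
    rw [Finsupp.equivMapDomain_apply]
    exact h.sup _

theorem rsy_sum_T (τ : ℤ × ℤ) (w : (ℤ × ℤ) →₀ ℝ) :
    (w.equivMapDomain (rsyT τ).V).sum (fun _ x => x) = w.sum (fun _ x => x) := by
  rw [Finsupp.equivMapDomain_eq_mapDomain, Finsupp.sum_mapDomain_index_inj (rsyT τ).V.injective]

end Claimed.Agent.R292
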