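import Claimed.Agent.R292.Rsw.CmpInst291
import Claimed.Agent.R292.Defs.MODEL

/-!
# Row 292 (S0540), unit RSW / MODEL, CmpPin291 : (S0) COMPARISON WITH PINS      (owner helper291; prefix `cmq291_`, defs `cmq291*`; exit `cmp291_exit_cmp`)

`prop:comparison`, first sentence: the `(s, W)` law under prescriptions of vertex spins and of edge states with pinned endpoints is positively
associated in the order (3.4).  Forced OPEN edges are wires (`a = b = 1`, pair factor `(1,1,0)`), forced CLOSED edges with pinned endpoints carry a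
constant (`a = b = 0`, constant pair factor).  **`cmp291_exit_cmp`** = `exit_mdl_cmp` of `Exit/MODEL` verbatim.
-/

set_option autoImplicit false
set_option linter.unusedSectionVars false
set_option linter.unusedVariables false
set_option linter.unusedSimpArgs false

namespace Claimed.Agent.R292

open Finset
open Claims Claims.C0468
open Claimed.Agent.R291

/-! ## 1. generic: forced edges -/

section Gen

variable {V ι : Type*} [Fintype V] [DecidableEq V] [Fintype ι] [DecidableEq ι]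

/-- the abstract dictionary `(W⁺, W⁻) ↔ W` over one `s` -/
theorem cmq291_sum_dict (p q : ι → V) (s : V → Bool) (w : Finset ι × (Finset ι)ᵒᵈ → ℝ) (u : Finset ι → ℝ)
    (z1 : ∀ y, ¬ (y.1 ⊆ cmp291Ep p q s ∧ OrderDual.ofDual y.2 ⊆ cmp291Em p q s) → w y = 0)
    (z2 : ∀ W, ¬ W ⊆ cmp291Ep p q s ∪ cmp291Em p q s → u W = 0)
    (e : ∀ A B, A ⊆ cmp291Ep p q s → B ⊆ cmp291Em p q s → w (A, OrderDual.toDual B) = u (A ∪ B))
    (F : Finset ι → ℝ) :
    ∑ y, w y * F ((y.1 ∩ cmp291Ep p q s) ∪ (OrderDual.ofDual y.2 ∩ cmp291Em p q s)) = ∑ W, u W * F W := by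
  rw [← Finset.sum_filter_of_ne (s := (univ : Finset (Finset ι × (Finset ι)ᵒᵈ)))
    (p := fun y => y.1 ⊆ cmp291Ep p q s ∧ OrderDual.ofDual y.2 ⊆ cmp291Em p q s)]
  rw [← Finset.sum_filter_of_ne (s := (univ : Finset (Finset ι)))
    (p := fun W => W ⊆ cmp291Ep p q s ∪ cmp291Em p q s)]
  · refine Finset.sum_nbij' (fun y => y.1 ∪ OrderDual.ofDual y.2)
      (fun W => (W ∩ cmp291Ep p q s, OrderDual.toDual (W ∩ cmp291Em p q s))) ?_ ?_ ?_ ?_ ?_
    · intro y hy
      simp only [Finset.mem_filter, Finset.mem_univ, true_and] at hy ⊢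
      exact Finset.union_subset_union hy.1 hy.2
    · intro W hW
      simp only [Finset.mem_filter, Finset.mem_univ, true_and, OrderDual.ofDual_toDual]
      exact ⟨Finset.inter_subset_right, Finset.inter_subset_right⟩
    · rintro ⟨A, B⟩ hy
      simp only [Finset.mem_filter, Finset.mem_univ, true_and] at hy
      obtain ⟨hA, hB⟩ := hy
      refine Prod.ext ?_ ?_
      · show (A ∪ OrderDual.ofDual B) ∩ cmp291Ep p q s = A
        ext i
        simp only [Finset.mem_inter, Finset.mem_union]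
        constructor
        · rintro ⟨h | h, h'⟩
          · exact h
          · exact (cmp291_Ep_Em_disj p q s h' (hB h)).elim
        · intro h
          exact ⟨Or.inl h, hA h⟩
      · show OrderDual.toDual ((A ∪ OrderDual.ofDual B) ∩ cmp291Em p q s) = B
        apply OrderDual.ofDual.injective
        rw [OrderDual.ofDual_toDual]
        ext i
        simp only [Finset.mem_inter, Finset.mem_union]
        constructor
        · rintro ⟨h | h, h'⟩
          · exact (cmp291_Ep_Em_disj p q s (hA h) h').elim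
          · exact h
        · intro h
          exact ⟨Or.inr h, hB h⟩
    · intro W hW
      simp only [Finset.mem_filter, Finset.mem_univ, true_and] at hW
      show (W ∩ cmp291Ep p q s) ∪ (W ∩ cmp291Em p q s) = W
      rw [← Finset.inter_union_distrib_left]
      exact Finset.inter_eq_left.2 hW
    · rintro ⟨A, B⟩ hy
      simp only [Finset.mem_filter, Finset.mem_univ, true_and] at hy
      obtain ⟨hA, hB⟩ := hy
      have e' := e A (OrderDual.ofDual B) hA hB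
      rw [OrderDual.toDual_ofDual] at e'
      simp only
      rw [e', Finset.inter_eq_left.2 hA, Finset.inter_eq_left.2 hB]
  · intro W _ hne
    by_contra hW
    exact hne (by rw [z2 W hW, zero_mul])
  · intro y _ hne
    by_contra hy
    exact hne (by rw [z1 y hy, zero_mul])

/-- couplings under forced edges: `1` on the forced open edges, `0` on the forced closed ones -/
noncomputable def cmq291A (r : ℝ) (P₁ P₀ : Finset ι) (i : ι) : ℝ :=
  if i ∈ P₁ then 1 else if i ∈ P₀ then 0 else (1 + r)⁻¹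

/-- pair factors under forced edges -/
noncomputable def cmq291H (r : ℝ) (P₁ P₀ : Finset ι) (m : ι → Bool) (i : ι) : Bool → Bool → ℝ :=
  if i ∈ P₁ then cmp291H 1 1 0
  else if i ∈ P₀ then cmp291H (if m i = true then r else 1) (if m i = true then r else 1) (if m i = true then r else 1)
  else cmp291H (1 + r) (1 + r) 1

/-- the indicator of the forced edge states -/
noncomputable def cmq291Pi (P₁ P₀ W : Finset ι) : ℝ :=
  if ∀ i, (i ∈ P₁ → i ∈ W) ∧ (i ∈ P₀ → i ∉ W) then 1 else 0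

theorem cmq291_A_mem {r : ℝ} (hr : 0 ≤ r) (P₁ P₀ : Finset ι) (i : ι) :
    0 ≤ cmq291A r P₁ P₀ i ∧ cmq291A r P₁ P₀ i ≤ 1 := by
  unfold cmq291A
  split_ifs
  · exact ⟨zero_le_one, le_rfl⟩
  · exact ⟨le_rfl, zero_le_one⟩
  · exact cmp291_inv_mem hr

theorem cmq291_H_nonneg {r : ℝ} (hr : 0 ≤ r) (P₁ P₀ : Finset ι) (m : ι → Bool) (i : ι) (x y : Bool) :
    0 ≤ cmq291H r P₁ P₀ m i x y := by
  unfold cmq291H
  have hk : (0 : ℝ) ≤ if m i = true then r else 1 := by split_ifs <;> [exact hr; exact zero_le_one]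
  split_ifs
  · exact cmp291_H_nonneg zero_le_one zero_le_one le_rfl x y
  · exact cmp291_H_nonneg hr hr hr x y
  · exact cmp291_H_nonneg zero_le_one zero_le_one zero_le_one x y
  · exact cmp291_H_nonneg (by linarith) (by linarith) zero_le_one x y

theorem cmq291_H_super {r : ℝ} (hr : 0 ≤ r) (P₁ P₀ : Finset ι) (m : ι → Bool) (i : ι) (x y x' y' : Bool) :
    cmq291H r P₁ P₀ m i x y * cmq291H r P₁ P₀ m i x' y'
      ≤ cmq291H r P₁ P₀ m i (x ⊓ x') (y ⊓ y') * cmq291H r P₁ P₀ m i (x ⊔ x') (y ⊔ y') := by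
  unfold cmq291H
  split_ifs
  · exact cmp291_H_super (by norm_num) x y x' y'
  · exact cmp291_H_super le_rfl x y x' y'
  · exact cmp291_H_super le_rfl x y x' y'
  · exact cmp291_H_super (by nlinarith) x y x' y'

/-- the vertex factor under forced edges -/
noncomputable def cmq291G (p q : ι → V) (r : ℝ) (P₁ P₀ : Finset ι) (m : ι → Bool) (Φ : (V → Bool) → ℝ)
    (s : V → Bool) : ℝ :=
  Φ s * ∏ i, cmq291H r P₁ P₀ m i (s (p i)) (s (q i))

theorem cmq291_G_nonneg (p q : ι → V) {r : ℝ} (hr : 0 ≤ r) (P₁ P₀ : Finset ι) (m : ι → Bool)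
    {Φ : (V → Bool) → ℝ} (h0 : ∀ s, 0 ≤ Φ s) (s : V → Bool) : 0 ≤ cmq291G p q r P₁ P₀ m Φ s :=
  mul_nonneg (h0 s) (Finset.prod_nonneg fun i _ => cmq291_H_nonneg hr P₁ P₀ m i _ _)

theorem cmq291_G_super (p q : ι → V) {r : ℝ} (hr : 0 ≤ r) (P₁ P₀ : Finset ι) (m : ι → Bool)
    {Φ : (V → Bool) → ℝ} (h0 : ∀ s, 0 ≤ Φ s) (h : ∀ s s', Φ s * Φ s' ≤ Φ (s ⊓ s') * Φ (s ⊔ s'))
    (s s' : V → Bool) :
    cmq291G p q r P₁ P₀ m Φ s * cmq291G p q r P₁ P₀ m Φ s'
      ≤ cmq291G p q r P₁ P₀ m Φ (s ⊓ s') * cmq291G p q r P₁ P₀ m Φ (s ⊔ s') := by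
  have hH0 := cmq291_H_nonneg hr P₁ P₀ m
  have e := cmp291_G_holley p q (fld₁ := fun _ _ => 1) (fld₂ := fun _ _ => 1)
    (H₁ := cmq291H r P₁ P₀ m) (H₂ := cmq291H r P₁ P₀ m)
    (fun _ _ => zero_le_one) (fun _ _ => zero_le_one) hH0 hH0
    (fun _ _ _ => le_rfl) (cmq291_H_super hr P₁ P₀ m) s s'
  simp only [cmp291G, Finset.prod_const_one, one_mul] at e
  unfold cmq291G
  have n1 : 0 ≤ (∏ i, cmq291H r P₁ P₀ m i (s (p i)) (s (q i)))
      * ∏ i, cmq291H r P₁ P₀ m i (s' (p i)) (s' (q i)) :=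
    mul_nonneg (Finset.prod_nonneg fun i _ => hH0 _ _ _) (Finset.prod_nonneg fun i _ => hH0 _ _ _)
  calc Φ s * (∏ i, cmq291H r P₁ P₀ m i (s (p i)) (s (q i)))
        * (Φ s' * ∏ i, cmq291H r P₁ P₀ m i (s' (p i)) (s' (q i)))
      = (Φ s * Φ s') * ((∏ i, cmq291H r P₁ P₀ m i (s (p i)) (s (q i)))
          * ∏ i, cmq291H r P₁ P₀ m i (s' (p i)) (s' (q i))) := by ring
    _ ≤ _ := mul_le_mul (h s s') e n1 (mul_nonneg (h0 _) (h0 _))
    _ = _ := by ring

/-- the edge identity under forced states -/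
theorem cmq291_edge {r : ℝ} (hr : 0 ≤ r) (x y mi : Bool) (PA PB p1 p0 : Prop) [Decidable PA] [Decidable PB]
    [Decidable p1] [Decidable p0] (hA : PA → x = true ∧ y = true) (hB : PB → x = false ∧ y = false)
    (hd : p1 → ¬ p0) (hm : p0 → (x = y ↔ mi = true)) :
    (if p1 then cmp291H 1 1 0
      else if p0 then cmp291H (if mi = true then r else 1) (if mi = true then r else 1) (if mi = true then r else 1)
      else cmp291H (1 + r) (1 + r) 1) x y
      * ((if PA then 2 * (if x = true ∧ y = true then (if p1 then 1 else if p0 then 0 else (1 + r)⁻¹) else 0)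
            else 1 - (if x = true ∧ y = true then (if p1 then 1 else if p0 then 0 else (1 + r)⁻¹) else 0))
        * (if PB then 2 * (if x = false ∧ y = false then (if p1 then 1 else if p0 then 0 else (1 + r)⁻¹) else 0)
            else 1 - (if x = false ∧ y = false then (if p1 then 1 else if p0 then 0 else (1 + r)⁻¹) else 0)))
      = (if PA ∨ PB then 2 else if x = y then r else 1)
        * (if (p1 → PA ∨ PB) ∧ (p0 → ¬ (PA ∨ PB)) then 1 else 0) := by
  have h1 : (1 + r) ≠ 0 := by positivity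
  by_cases c1 : p1
  · have c0 : ¬ p0 := hd c1
    cases x <;> cases y <;> by_cases h2 : PA <;> by_cases h3 : PB <;> simp_all [cmp291H]
  · by_cases c0 : p0
    · cases x <;> cases y <;> cases mi <;> by_cases h2 : PA <;> by_cases h3 : PB <;> simp_all [cmp291H]
    · have := cmp291_edge_AT hr x y PA PB hA hB
      simp only [c1, c0, if_false, false_imp_iff, and_self, if_true, mul_one]
      exact this

theorem cmq291_Pi_prod (P₁ P₀ W : Finset ι) :
    cmq291Pi P₁ P₀ W = ∏ i, (if (i ∈ P₁ → i ∈ W) ∧ (i ∈ P₀ → i ∉ W) then (1 : ℝ) else 0) := by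
  unfold cmq291Pi
  rw [Finset.prod_ite_zero, Finset.prod_const_one]
  simp only [Finset.mem_univ, true_imp_iff]

/-- the weight with forced edges in the variables `(s, W⁺, W⁻)` -/
theorem cmq291_W_eq (p q : ι → V) {r : ℝ} (hr : 0 ≤ r) (P₁ P₀ : Finset ι) (hd : ∀ i ∈ P₁, i ∉ P₀)
    (m : ι → Bool) (Φ : (V → Bool) → ℝ) (s : V → Bool)
    (hm : Φ s ≠ 0 → ∀ i ∈ P₀, (s (p i) = s (q i) ↔ m i = true))
    {A B : Finset ι} (hA : A ⊆ cmp291Ep p q s) (hB : B ⊆ cmp291Em p q s) :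
    cmp291W p q (cmq291G p q r P₁ P₀ m Φ) (cmq291A r P₁ P₀) (cmq291A r P₁ P₀) s (A, OrderDual.toDual B)
      = (Fintype.card (V → Bool) : ℝ) * (Φ s * cmp291AT p q r s (A ∪ B) * cmq291Pi P₁ P₀ (A ∪ B)) := by
  by_cases hΦ : Φ s = 0
  · unfold cmp291W cmq291G
    rw [hΦ]
    ring
  have hm' := hm hΦ
  have hmono : ∀ i ∈ A ∪ B, s (p i) = s (q i) := fun i hi =>
    (cmp291_mono_iff p q s i).2 (Finset.union_subset_union hA hB hi)
  have hN : (iszN Bool p q A : ℝ) * (iszN Bool p q B : ℝ)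
      = (Fintype.card (V → Bool) : ℝ) * (iszN Bool p q (A ∪ B) : ℝ) := by
    exact_mod_cast cmp291_N_split p q s hA hB
  have hP : (∏ i, cmq291H r P₁ P₀ m i (s (p i)) (s (q i)))
      * ((∏ i, (if i ∈ A then 2 * cmp291Up p q (cmq291A r P₁ P₀) s i
            else 1 - cmp291Up p q (cmq291A r P₁ P₀) s i))
        * ∏ i, (if i ∈ B then 2 * cmp291Um p q (cmq291A r P₁ P₀) s i
            else 1 - cmp291Um p q (cmq291A r P₁ P₀) s i))
      = (∏ i, (if i ∈ A ∪ B then 2 else if s (p i) = s (q i) then r else 1)) * cmq291Pi P₁ P₀ (A ∪ B) := by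
    rw [cmq291_Pi_prod, ← Finset.prod_mul_distrib, ← Finset.prod_mul_distrib, ← Finset.prod_mul_distrib]
    refine Finset.prod_congr rfl fun i _ => ?_
    have := cmq291_edge hr (s (p i)) (s (q i)) (m i) (i ∈ A) (i ∈ B) (i ∈ P₁) (i ∈ P₀)
      (fun h => (cmp291_mem_Ep p q s i).1 (hA h)) (fun h => (cmp291_mem_Em p q s i).1 (hB h))
      (hd i) (hm' i)
    simp only [Finset.mem_union]
    exact this
  show cmq291G p q r P₁ P₀ m Φ s * (cmp291FK p q (cmp291Up p q (cmq291A r P₁ P₀) s) A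
      * cmp291FK p q (cmp291Um p q (cmq291A r P₁ P₀) s) B) = _
  unfold cmp291AT cmp291FK cmq291G
  rw [if_pos hmono]
  have hP' : Φ s * ((iszN Bool p q (A ∪ B) : ℝ)
        * ∏ i, (if i ∈ A ∪ B then 2 else if s (p i) = s (q i) then r else 1)) * cmq291Pi P₁ P₀ (A ∪ B)
      = Φ s * (iszN Bool p q (A ∪ B) : ℝ)
        * ((∏ i, (if i ∈ A ∪ B then 2 else if s (p i) = s (q i) then r else 1)) * cmq291Pi P₁ P₀ (A ∪ B)) := by
    ring
  rw [hP', ← hP]
  linear_combination (Φ s * ((∏ i, cmq291H r P₁ P₀ m i (s (p i)) (s (q i)))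
      * ((∏ i, (if i ∈ A then 2 * cmp291Up p q (cmq291A r P₁ P₀) s i
            else 1 - cmp291Up p q (cmq291A r P₁ P₀) s i))
        * ∏ i, (if i ∈ B then 2 * cmp291Um p q (cmq291A r P₁ P₀) s i
            else 1 - cmp291Um p q (cmq291A r P₁ P₀) s i)))) * hN

theorem cmq291_sum2 (p q : ι → V) {r : ℝ} (hr : 0 ≤ r) (P₁ P₀ : Finset ι) (hd : ∀ i ∈ P₁, i ∉ P₀)
    (m : ι → Bool) (Φ : (V → Bool) → ℝ)
    (hm : ∀ s, Φ s ≠ 0 → ∀ i ∈ P₀, (s (p i) = s (q i) ↔ m i = true))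
    (f : (V → Bool) → Finset ι → ℝ) :
    ∑ s, ∑ y, cmp291W p q (cmq291G p q r P₁ P₀ m Φ) (cmq291A r P₁ P₀) (cmq291A r P₁ P₀) s y
        * cmp291Ext p q f s y
      = (Fintype.card (V → Bool) : ℝ)
        * ∑ s, ∑ W, Φ s * cmp291AT p q r s W * (cmq291Pi P₁ P₀ W * f s W) := by
  rw [Finset.mul_sum]
  refine Finset.sum_congr rfl fun s _ => ?_
  rw [Finset.mul_sum]
  have := cmq291_sum_dict p q s
    (cmp291W p q (cmq291G p q r P₁ P₀ m Φ) (cmq291A r P₁ P₀) (cmq291A r P₁ P₀) s)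
    (fun W => (Fintype.card (V → Bool) : ℝ) * (Φ s * cmp291AT p q r s W * cmq291Pi P₁ P₀ W))
    (fun y hy => by
      rw [not_and_or] at hy
      unfold cmp291W
      rcases hy with h | h
      · rw [cmp291_FK_Up_zero p q _ s h]; ring
      · rw [cmp291_FK_Um_zero p q _ s h]; ring)
    (fun W hW => by
      have : ¬ ∀ i ∈ W, s (p i) = s (q i) := fun h => hW fun i hi => (cmp291_mono_iff p q s i).1 (h i hi)
      unfold cmp291AT
      rw [if_neg this]
      ring)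
    (fun A B hA hB => cmq291_W_eq p q hr P₁ P₀ hd m Φ s (hm s) hA hB) (f s)
  unfold cmp291Ext
  rw [this]
  refine Finset.sum_congr rfl fun W _ => ?_
  ring

/-- **Proposition 3.2 with forced edges**: association of `Φ(s) AT_r(s, W) 1[P₁ ⊆ W, W ∩ P₀ = ∅]` in the order (3.4); the monochromaticity of
every forced closed edge is determined on the support of `Φ` -/
theorem cmq291_AT_fkg (p q : ι → V) {r : ℝ} (hr : 0 ≤ r) (P₁ P₀ : Finset ι) (hd : ∀ i ∈ P₁, i ∉ P₀)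
    (m : ι → Bool) {Φ : (V → Bool) → ℝ} (h0 : ∀ s, 0 ≤ Φ s)
    (hΦ : ∀ s s', Φ s * Φ s' ≤ Φ (s ⊓ s') * Φ (s ⊔ s'))
    (hm : ∀ s, Φ s ≠ 0 → ∀ i ∈ P₀, (s (p i) = s (q i) ↔ m i = true))
    {f g : (V → Bool) → Finset ι → ℝ} (hf : cmp291Inc p q f) (hg : cmp291Inc p q g) :
    (∑ s, ∑ W, Φ s * cmp291AT p q r s W * (cmq291Pi P₁ P₀ W * f s W))
        * (∑ s, ∑ W, Φ s * cmp291AT p q r s W * (cmq291Pi P₁ P₀ W * g s W))
      ≤ (∑ s, ∑ W, Φ s * cmp291AT p q r s W * (cmq291Pi P₁ P₀ W * 1))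
        * ∑ s, ∑ W, Φ s * cmp291AT p q r s W * (cmq291Pi P₁ P₀ W * (f s W * g s W)) := by
  have key := cmp291_fkg p q (cmq291_G_nonneg p q hr P₁ P₀ m h0) (cmq291_G_super p q hr P₁ P₀ m h0 hΦ)
    (a := cmq291A r P₁ P₀) (b := cmq291A r P₁ P₀)
    (fun i => (cmq291_A_mem hr P₁ P₀ i).1) (fun i => (cmq291_A_mem hr P₁ P₀ i).2)
    (fun i => (cmq291_A_mem hr P₁ P₀ i).1) (fun i => (cmq291_A_mem hr P₁ P₀ i).2)
    (cmp291_Ext_mono p q hf) (cmp291_Ext_mono p q hg)
  have e3 := cmq291_sum2 p q hr P₁ P₀ hd m Φ hm (fun _ _ => 1)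
  have e3' : ∀ s y, cmp291Ext p q (fun _ _ => (1 : ℝ)) s y = 1 := fun _ _ => rfl
  simp only [e3', mul_one] at e3
  have e4 := cmq291_sum2 p q hr P₁ P₀ hd m Φ hm (fun s W => f s W * g s W)
  have e4' : ∀ s y, cmp291Ext p q (fun s W => f s W * g s W) s y
      = cmp291Ext p q f s y * cmp291Ext p q g s y := fun _ _ => rfl
  simp only [e4'] at e4
  rw [cmq291_sum2 p q hr P₁ P₀ hd m Φ hm f, cmq291_sum2 p q hr P₁ P₀ hd m Φ hm g, e3, e4] at key
  have hc : (0 : ℝ) < (Fintype.card (V → Bool) : ℝ) := by exact_mod_cast Fintype.card_pos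
  refine le_of_mul_le_mul_left ?_ (mul_pos hc hc)
  simp only [mul_one]
  nlinarith [key]

end Gen

/-! ## 2. the instance: prescriptions `MdlPin` in the flat problem `(F, b)` -/

section Inst

/-- vertex part of the prescriptions -/
noncomputable def cmq291Psi (K : MdlPin) (S : Finset (ℤ × ℤ)) : ℝ :=
  open Classical in if K.Sp ⊆ S ∧ ∀ v ∈ K.Sm, v ∉ S then 1 else 0

/-- edge part of the prescriptions -/
noncomputable def cmq291PiO (K : MdlPin) (O : Finset ((ℤ × ℤ) × Bool)) : ℝ :=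
  open Classical in if K.Oo ⊆ O ∧ ∀ e ∈ K.Oc, e ∉ O then 1 else 0

theorem cmq291_Psi_nonneg (K : MdlPin) (S : Finset (ℤ × ℤ)) : 0 ≤ cmq291Psi K S := by
  unfold cmq291Psi
  split_ifs
  · exact zero_le_one
  · exact le_rfl

theorem cmq291_Psi_super (K : MdlPin) (S S' : Finset (ℤ × ℤ)) :
    cmq291Psi K S * cmq291Psi K S' ≤ cmq291Psi K (S ∩ S') * cmq291Psi K (S ∪ S') := by
  classical
  by_cases h : K.Sp ⊆ S ∧ ∀ v ∈ K.Sm, v ∉ S
  · by_cases h' : K.Sp ⊆ S' ∧ ∀ v ∈ K.Sm, v ∉ S'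
    · have h1 : K.Sp ⊆ S ∩ S' ∧ ∀ v ∈ K.Sm, v ∉ S ∩ S' :=
        ⟨Finset.subset_inter h.1 h'.1, fun v hv hm => h.2 v hv (Finset.mem_inter.1 hm).1⟩
      have h2 : K.Sp ⊆ S ∪ S' ∧ ∀ v ∈ K.Sm, v ∉ S ∪ S' :=
        ⟨h.1.trans Finset.subset_union_left, fun v hv hm => by
          rcases Finset.mem_union.1 hm with a | a
          · exact h.2 v hv a
          · exact h'.2 v hv a⟩
      unfold cmq291Psi
      rw [if_pos h, if_pos h', if_pos h1, if_pos h2]
    · have : cmq291Psi K S' = 0 := by unfold cmq291Psi; rw [if_neg h']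
      rw [this, mul_zero]
      exact mul_nonneg (cmq291_Psi_nonneg _ _) (cmq291_Psi_nonneg _ _)
  · have : cmq291Psi K S = 0 := by unfold cmq291Psi; rw [if_neg h]
    rw [this, zero_mul]
    exact mul_nonneg (cmq291_Psi_nonneg _ _) (cmq291_Psi_nonneg _ _)

theorem cmq291_holds_split (K : MdlPin) (X : RswCfg → ℝ) (ω : RswCfg) :
    (open Classical in if K.Holds ω then X ω else 0) = cmq291Psi K ω.S * (cmq291PiO K ω.O * X ω) := by
  classical
  unfold cmq291Psi cmq291PiO MdlPin.Holds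
  by_cases hv : K.Sp ⊆ ω.S ∧ ∀ v ∈ K.Sm, v ∉ ω.S
  · by_cases he : K.Oo ⊆ ω.O ∧ ∀ e ∈ K.Oc, e ∉ ω.O
    · have hh : K.Sp ⊆ ω.S ∧ (∀ v ∈ K.Sm, v ∉ ω.S) ∧ K.Oo ⊆ ω.O ∧ ∀ e ∈ K.Oc, e ∉ ω.O :=
        ⟨hv.1, hv.2, he.1, he.2⟩
      rw [if_pos hh, if_pos hv, if_pos he, one_mul, one_mul]
    · rw [if_neg (fun hh => he ⟨hh.2.2.1, hh.2.2.2⟩), if_neg he, zero_mul, mul_zero]
  · rw [if_neg (fun hh => hv ⟨hh.1, hh.2.1⟩), if_neg hv, zero_mul]

/-- the prescribed problem in generic variables -/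
theorem cmq291_sumK {t : ℝ} (ht : t ≠ 0) {F : Finset (ℤ × ℤ)} (hF : Cmi291Dual F) (b : Bool) (K : MdlPin)
    (X : RswCfg → ℝ) (hX : ∀ S D O, X ⟨S, D, O⟩ = X ⟨S, ∅, O⟩) :
    (2 : ℝ) ^ Fintype.card (Option ↥(cmi291Inn F)) * mdlSumK t F b K X
      = cmi291K t F * ∑ s : Option ↥(cmi291Inn F) → Bool, ∑ W : Finset ↥(rswInt F),
          cmi291Phi F b (cmq291Psi K) s * cmp291AT (cmi291P F) (cmi291Q F) ((1 - t) / t) s W
            * (cmq291PiO K (cmi291O F W) * X ⟨cmi291S F s, ∅, cmi291O F W⟩) := by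
  have e : mdlSumK t F b K X
      = rswSum t F b (fun ω => cmq291Psi K ω.S * (cmq291PiO K ω.O * X ω)) := by
    unfold mdlSumK
    congr 1
    funext ω
    exact cmq291_holds_split K X ω
  rw [e]
  exact cmi291_sum_AT ht hF b (cmq291Psi K) (fun ω => cmq291PiO K ω.O * X ω)
    (fun S D O => by simp only; rw [hX S D O])

/-- forced open / closed edges as finsets of the edge type -/
noncomputable def cmq291P1 (F : Finset (ℤ × ℤ)) (K : MdlPin) : Finset ↥(rswInt F) := K.Oo.subtype (· ∈ rswInt F)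

noncomputable def cmq291P0 (F : Finset (ℤ × ℤ)) (K : MdlPin) : Finset ↥(rswInt F) := K.Oc.subtype (· ∈ rswInt F)

theorem cmq291_PiO_eq {F : Finset (ℤ × ℤ)} {K : MdlPin} (hO : K.Oo ⊆ rswInt F) (W : Finset ↥(rswInt F)) :
    cmq291PiO K (cmi291O F W) = cmq291Pi (cmq291P1 F K) (cmq291P0 F K) W := by
  classical
  unfold cmq291PiO cmq291Pi cmq291P1 cmq291P0
  have : (K.Oo ⊆ cmi291O F W ∧ ∀ e ∈ K.Oc, e ∉ cmi291O F W)
      ↔ ∀ i : ↥(rswInt F), (i ∈ K.Oo.subtype (· ∈ rswInt F) → i ∈ W)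
          ∧ (i ∈ K.Oc.subtype (· ∈ rswInt F) → i ∉ W) := by
    simp only [Finset.mem_subtype]
    constructor
    · rintro ⟨h1, h2⟩ i
      exact ⟨fun hi => (cmi291_mem_O i).1 (h1 hi), fun hi hw => h2 i.1 hi ((cmi291_mem_O i).2 hw)⟩
    · intro h
      refine ⟨fun e he => ?_, fun e he hw => ?_⟩
      · exact (cmi291_mem_O (⟨e, hO he⟩ : ↥(rswInt F))).2 ((h ⟨e, hO he⟩).1 he)
      · obtain ⟨i, hi, rfl⟩ := Finset.mem_map.1 hw
        exact (h i).2 he hi
  by_cases hh : K.Oo ⊆ cmi291O F W ∧ ∀ e ∈ K.Oc, e ∉ cmi291O F W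
  · rw [if_pos hh, if_pos (this.1 hh)]
  · rw [if_neg hh, if_neg (fun h => hh (this.2 h))]

theorem cmq291_PiO_zero {F : Finset (ℤ × ℤ)} {K : MdlPin}
    (h : ¬ (K.Oo ⊆ rswInt F ∧ ∀ e ∈ K.Oo, e ∉ K.Oc)) (W : Finset ↥(rswInt F)) :
    cmq291PiO K (cmi291O F W) = 0 := by
  classical
  unfold cmq291PiO
  rw [if_neg]
  rintro ⟨h1, h2⟩
  refine h ⟨fun e he => ?_, fun e he hc => h2 e hc (h1 he)⟩
  obtain ⟨i, _, rfl⟩ := Finset.mem_map.1 (h1 he)
  exact i.2

/-- association under prescriptions, observables increasing for `Cmi291Le` -/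
theorem cmq291_fkg_pin {t : ℝ} (h0 : 0 < t) (h1 : t ≤ 1) {F : Finset (ℤ × ℤ)} (hF : Cmi291Dual F) (b : Bool)
    (K : MdlPin) (hK : K.Ok) {X Y : RswCfg → ℝ} (hX : Cmi291Inc X) (hY : Cmi291Inc Y) :
    mdlSumK t F b K X * mdlSumK t F b K Y
      ≤ mdlSumK t F b K (fun _ => 1) * mdlSumK t F b K fun ω => X ω * Y ω := by
  classical
  have a1 := cmq291_sumK h0.ne' hF b K X hX.noD
  have a2 := cmq291_sumK h0.ne' hF b K Y hY.noD
  have a3 := cmq291_sumK h0.ne' hF b K (fun _ => 1) (fun _ _ _ => rfl)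
  have a4 := cmq291_sumK h0.ne' hF b K (fun ω => X ω * Y ω)
    (fun S D O => by rw [hX.noD S D O, hY.noD S D O])
  have hKc := cmi291_K_pos h0 F
  have hc : (0 : ℝ) < (2 : ℝ) ^ Fintype.card (Option ↥(cmi291Inn F)) := by positivity
  refine le_of_mul_le_mul_left ?_ (mul_pos hc hc)
  have goal_form : ∀ A B C D : ℝ,
      ((2 : ℝ) ^ Fintype.card (Option ↥(cmi291Inn F)) * A) * ((2 : ℝ) ^ Fintype.card (Option ↥(cmi291Inn F)) * B)
        ≤ ((2 : ℝ) ^ Fintype.card (Option ↥(cmi291Inn F)) * C)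
          * ((2 : ℝ) ^ Fintype.card (Option ↥(cmi291Inn F)) * D) →
      (2 : ℝ) ^ Fintype.card (Option ↥(cmi291Inn F)) * (2 : ℝ) ^ Fintype.card (Option ↥(cmi291Inn F)) * (A * B)
        ≤ (2 : ℝ) ^ Fintype.card (Option ↥(cmi291Inn F)) * (2 : ℝ) ^ Fintype.card (Option ↥(cmi291Inn F))
          * (C * D) := by
    intro A B C D h
    nlinarith [h]
  refine goal_form _ _ _ _ ?_
  rw [a1, a2, a3, a4]
  by_cases hO : K.Oo ⊆ rswInt F ∧ ∀ e ∈ K.Oo, e ∉ K.Oc
  · simp only [cmq291_PiO_eq hO.1]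
    have key := cmq291_AT_fkg (cmi291P F) (cmi291Q F) (cmi291_r_nonneg h0 h1) (cmq291P1 F K) (cmq291P0 F K)
      (fun i hi hi' => hO.2 i.1 (Finset.mem_subtype.1 hi) (Finset.mem_subtype.1 hi'))
      (fun i => decide (i.1.1 ∈ K.Sp ↔ rswEnd i.1 ∈ K.Sp))
      (cmi291_Phi_nonneg (F := F) b (cmq291_Psi_nonneg K))
      (cmi291_Phi_holley le_rfl (cmq291_Psi_nonneg K) (cmq291_Psi_nonneg K) (cmq291_Psi_super K))
      (fun s hs i hi => by
        have hΨ : cmq291Psi K (cmi291S F s) ≠ 0 := fun h => hs (by unfold cmi291Phi; rw [h, mul_zero])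
        have hh : K.Sp ⊆ cmi291S F s ∧ ∀ v ∈ K.Sm, v ∉ cmi291S F s := by
          by_contra hc
          exact hΨ (by unfold cmq291Psi; rw [if_neg hc])
        have hok := hK i.1 (Finset.mem_union_right _ (Finset.mem_subtype.1 hi))
        have hv : ∀ v ∈ K.Sp ∪ K.Sm, (v ∈ cmi291S F s ↔ v ∈ K.Sp) := by
          intro v hv
          constructor
          · intro hvS
            rcases Finset.mem_union.1 hv with a | a
            · exact a
            · exact (hh.2 v a hvS).elim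
          · intro a
            exact hh.1 a
        rw [← cmi291_mono_iff, hv _ hok.1, hv _ hok.2, decide_eq_true_iff])
      (cmi291_inc_gen (F := F) hX) (cmi291_inc_gen (F := F) hY)
    have := mul_le_mul_of_nonneg_left key (mul_pos hKc hKc).le
    nlinarith [this]
  · simp only [cmq291_PiO_zero hO, zero_mul, mul_zero, Finset.sum_const_zero, le_refl]

theorem cmq291_le_mdl_true {ω ω' : RswCfg} (h : Cmi291Le ω ω') : MdlLe true ω ω' :=
  ⟨fun v hv => ⟨fun _ => rfl, fun _ => h.1 (hv.2 rfl)⟩, fun _ hg => cmi291_good_true h hg,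
    fun _ hg => cmi291_good_false h hg⟩

theorem cmq291_le_mdl_false {ω ω' : RswCfg} (h : Cmi291Le ω ω') : MdlLe false ω' ω :=
  ⟨fun v hv => ⟨fun hm => hv.1 (h.1 hm), fun hf => (Bool.false_ne_true hf).elim⟩,
    fun _ hg => cmi291_good_false h hg, fun _ hg => cmi291_good_true h hg⟩

theorem cmq291_sumK_neg (t : ℝ) (F : Finset (ℤ × ℤ)) (b : Bool) (K : MdlPin) (X : RswCfg → ℝ) :
    mdlSumK t F b K (fun ω => - X ω) = - mdlSumK t F b K X := by
  classical
  unfold mdlSumK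
  have := rsz_sum_smul t F b (-1) (fun ω => if K.Holds ω then X ω else 0)
  rw [neg_one_mul] at this
  rw [← this]
  congr 1
  funext ω
  split_ifs <;> simp

/-- **(S0) = `exit_mdl_cmp` of `Exit/MODEL`, VERBATIM** -/
theorem cmp291_exit_cmp (t : ℝ) (ht1 : 1 / 2 ≤ t) (ht2 : t < 1) (F : Finset (ℤ × ℤ)) (hF : RswJordan F) (b a : Bool)
    (K : MdlPin) (hK : K.Ok) (X Y : RswCfg → ℝ) (hX : MdlInc a X) (hY : MdlInc a Y) :
    mdlSumK t F b K X * mdlSumK t F b K Y ≤ mdlSumK t F b K (fun _ => 1) * mdlSumK t F b K fun ω => X ω * Y ω := by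
  have h0 : 0 < t := by linarith
  have hD := cmi291_dual_of_jordan hF
  cases a with
  | true =>
    exact cmq291_fkg_pin h0 ht2.le hD b K hK (fun ω ω' h => hX ω ω' (cmq291_le_mdl_true h))
      (fun ω ω' h => hY ω ω' (cmq291_le_mdl_true h))
  | false =>
    have key := cmq291_fkg_pin h0 ht2.le hD b K hK (X := fun ω => - X ω) (Y := fun ω => - Y ω)
      (fun ω ω' h => neg_le_neg (hX ω' ω (cmq291_le_mdl_false h)))
      (fun ω ω' h => neg_le_neg (hY ω' ω (cmq291_le_mdl_false h)))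
    rw [cmq291_sumK_neg, cmq291_sumK_neg, neg_mul_neg] at key
    simpa only [neg_mul_neg] using key

end Inst

/-- the equation and congruence lemmas of the definitions of this file are generated HERE, once (RULES.md, rule 6) -/
theorem cmq291_eqns_cite : True := by
  have := @cmq291A.eq_1.{0}
  have := @cmq291H.eq_1.{0}
  have := @cmq291Pi.eq_1.{0}
  have := @cmq291G.eq_1.{0,0}
  have := @cmq291Psi.eq_1
  have := @cmq291PiO.eq_1
  have := @cmq291P1.eq_1
  have := @cmq291P0.eq_1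
  have := @cmq291A.congr_simp.{0}
  have := @cmq291H.congr_simp.{0}
  have := @cmq291Pi.congr_simp.{0}
  have := @cmq291G.congr_simp.{0,0}
  have := @cmq291Psi.congr_simp
  have := @cmq291PiO.congr_simp
  have := @cmq291P1.congr_simp
  have := @cmq291P0.congr_simp
  trivial

end Claimed.Agent.R292
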