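import Claimed.Agent.R292.Defs.RSW

/-!
# Row 292, Rsw/Base122 : R0 = ELEMENTARY CALCULUS OF `rswSum`, `rswE`, `rswP`      (owner helper122; prefix `rsz_`; TWIN of Rsw/Base31 (`rsb_`, richer): prefer Base31 in new files)      0 sorry

§1 weights `≥ 0`;  §2 `rswSum` linear / monotone;  §3 `0 < Z`;  §4 `rswE`;  §5 `rswP`;  §6 the global flips of `S` (`b ↔ !b`) and of `D`.
-/

set_option autoImplicit false

namespace Claimed.Agent.R292

open Claims Claims.C0468 Finset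

/-! ## 1. weights -/

theorem rsz_fac_nonneg {t : ℝ} (h0 : 0 ≤ t) (h1 : t ≤ 1) (ω : RswCfg) (e : (ℤ × ℤ) × Bool) :
    0 ≤ rswFac t ω e := by
  unfold rswFac
  split_ifs <;> linarith

theorem rsz_wt_nonneg {t : ℝ} (h0 : 0 ≤ t) (h1 : t ≤ 1) (F : Finset (ℤ × ℤ)) (b : Bool) (ω : RswCfg) :
    0 ≤ rswWt t F b ω := by
  unfold rswWt
  split_ifs
  · exact prod_nonneg fun e _ => rsz_fac_nonneg h0 h1 ω e
  · exact le_rfl

theorem rsz_wt_eq_zero {t : ℝ} {F : Finset (ℤ × ℤ)} {b : Bool} {ω : RswCfg} (h : ¬ RswBc F b ω) :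
    rswWt t F b ω = 0 := by
  unfold rswWt; rw [if_neg h]

theorem rsz_wt_of_bc {t : ℝ} {F : Finset (ℤ × ℤ)} {b : Bool} {ω : RswCfg} (h : RswBc F b ω) :
    rswWt t F b ω = ∏ e ∈ rswInt F, rswFac t ω e := by
  unfold rswWt; rw [if_pos h]

/-! ### geometry of the interior edges -/

theorem rsz_mem_int {F : Finset (ℤ × ℤ)} {e : (ℤ × ℤ) × Bool} : e ∈ rswInt F ↔ e.1 ∈ F ∧ rswCo e ∈ F := by
  unfold rswInt
  simp [Finset.mem_filter, Finset.mem_product]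

theorem rsz_face_corner {F : Finset (ℤ × ℤ)} {f : ℤ × ℤ} (hf : f ∈ F) : f ∈ cornersOf F := by
  unfold cornersOf
  exact mem_biUnion.2 ⟨f, hf, by simp⟩

theorem rsz_end_corner {F : Finset (ℤ × ℤ)} {e : (ℤ × ℤ) × Bool} (he : e.1 ∈ F) : rswEnd e ∈ cornersOf F := by
  unfold cornersOf rswEnd
  refine mem_biUnion.2 ⟨e.1, he, ?_⟩
  split_ifs <;> simp

/-! ## 2. `rswSum` -/

theorem rsz_sum_add (t : ℝ) (F : Finset (ℤ × ℤ)) (b : Bool) (X Y : RswCfg → ℝ) :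
    rswSum t F b (fun ω => X ω + Y ω) = rswSum t F b X + rswSum t F b Y := by
  unfold rswSum
  simp only [mul_add, sum_add_distrib]

theorem rsz_sum_sub (t : ℝ) (F : Finset (ℤ × ℤ)) (b : Bool) (X Y : RswCfg → ℝ) :
    rswSum t F b (fun ω => X ω - Y ω) = rswSum t F b X - rswSum t F b Y := by
  unfold rswSum
  simp only [mul_sub, sum_sub_distrib]

theorem rsz_sum_smul (t : ℝ) (F : Finset (ℤ × ℤ)) (b : Bool) (a : ℝ) (X : RswCfg → ℝ) :
    rswSum t F b (fun ω => a * X ω) = a * rswSum t F b X := by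
  unfold rswSum
  simp only [mul_sum]
  refine sum_congr rfl fun S _ => sum_congr rfl fun D _ => sum_congr rfl fun O _ => ?_
  ring

theorem rsz_sum_fsum {ι : Type*} (t : ℝ) (F : Finset (ℤ × ℤ)) (b : Bool) (s : Finset ι) (X : ι → RswCfg → ℝ) :
    rswSum t F b (fun ω => ∑ i ∈ s, X i ω) = ∑ i ∈ s, rswSum t F b (X i) := by
  classical
  induction s using Finset.induction_on with
  | empty => simp [rswSum]
  | insert i s hi ih =>
    simp only [sum_insert hi]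
    rw [rsz_sum_add, ih]

theorem rsz_sum_mono {t : ℝ} (h0 : 0 ≤ t) (h1 : t ≤ 1) (F : Finset (ℤ × ℤ)) (b : Bool) {X Y : RswCfg → ℝ}
    (h : ∀ ω, X ω ≤ Y ω) : rswSum t F b X ≤ rswSum t F b Y := by
  unfold rswSum
  exact sum_le_sum fun S _ => sum_le_sum fun D _ => sum_le_sum fun O _ =>
    mul_le_mul_of_nonneg_left (h _) (rsz_wt_nonneg h0 h1 F b _)

theorem rsz_sum_nonneg {t : ℝ} (h0 : 0 ≤ t) (h1 : t ≤ 1) (F : Finset (ℤ × ℤ)) (b : Bool) {X : RswCfg → ℝ}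
    (h : ∀ ω, 0 ≤ X ω) : 0 ≤ rswSum t F b X := by
  unfold rswSum
  exact sum_nonneg fun S _ => sum_nonneg fun D _ => sum_nonneg fun O _ =>
    mul_nonneg (rsz_wt_nonneg h0 h1 F b _) (h _)

/-- only the configurations of the problem with nonzero weight matter -/
theorem rsz_sum_congr (t : ℝ) (F : Finset (ℤ × ℤ)) (b : Bool) {X Y : RswCfg → ℝ}
    (h : ∀ ω : RswCfg, ω.S ⊆ cornersOf F → ω.D ⊆ F → ω.O ⊆ rswInt F → rswWt t F b ω ≠ 0 → X ω = Y ω) :
    rswSum t F b X = rswSum t F b Y := by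
  unfold rswSum
  refine sum_congr rfl fun S hS => sum_congr rfl fun D hD => sum_congr rfl fun O hO => ?_
  by_cases hw : rswWt t F b ⟨S, D, O⟩ = 0
  · rw [hw, zero_mul, zero_mul]
  · rw [h ⟨S, D, O⟩ (mem_powerset.1 hS) (mem_powerset.1 hD) (mem_powerset.1 hO) hw]

/-- monotonicity, reading only the configurations with nonzero weight -/
theorem rsz_sum_mono' {t : ℝ} (h0 : 0 ≤ t) (h1 : t ≤ 1) (F : Finset (ℤ × ℤ)) (b : Bool) {X Y : RswCfg → ℝ}
    (h : ∀ ω : RswCfg, ω.S ⊆ cornersOf F → ω.D ⊆ F → ω.O ⊆ rswInt F → rswWt t F b ω ≠ 0 → X ω ≤ Y ω) :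
    rswSum t F b X ≤ rswSum t F b Y := by
  unfold rswSum
  refine sum_le_sum fun S hS => sum_le_sum fun D hD => sum_le_sum fun O hO => ?_
  by_cases hw : rswWt t F b ⟨S, D, O⟩ = 0
  · rw [hw, zero_mul, zero_mul]
  · exact mul_le_mul_of_nonneg_left
      (h ⟨S, D, O⟩ (mem_powerset.1 hS) (mem_powerset.1 hD) (mem_powerset.1 hO) hw) (rsz_wt_nonneg h0 h1 F b _)

/-! ## 3. the partition function is positive -/

/-- the constant configuration: `s = b`, all interior `W` edges open -/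
def rszFlat (F : Finset (ℤ × ℤ)) (b : Bool) : RswCfg := ⟨if b then cornersOf F else ∅, ∅, rswInt F⟩

theorem rsz_flat_bc (F : Finset (ℤ × ℤ)) (b : Bool) : RswBc F b (rszFlat F b) := by
  intro v hv _
  cases b <;> simp [rszFlat, hv]

theorem rsz_flat_fac (t : ℝ) (F : Finset (ℤ × ℤ)) (b : Bool) {e : (ℤ × ℤ) × Bool} (he : e ∈ rswInt F) :
    rswFac t (rszFlat F b) e = t := by
  have h1 := (rsz_mem_int.1 he).1
  have h2 : (e.1 ∈ (rszFlat F b).S ↔ rswEnd e ∈ (rszFlat F b).S) := by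
    cases b
    · simp [rszFlat]
    · simp [rszFlat, rsz_face_corner h1, rsz_end_corner h1]
  unfold rswFac
  rw [if_pos (show e ∈ (rszFlat F b).O from he), if_pos h2]

theorem rsz_flat_wt (t : ℝ) (F : Finset (ℤ × ℤ)) (b : Bool) : rswWt t F b (rszFlat F b) = t ^ (rswInt F).card := by
  rw [rsz_wt_of_bc (rsz_flat_bc F b), prod_congr rfl (fun e he => rsz_flat_fac t F b he), prod_const]

theorem rsz_Z_pos {t : ℝ} (h0 : 0 < t) (h1 : t ≤ 1) (F : Finset (ℤ × ℤ)) (b : Bool) :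
    0 < rswSum t F b (fun _ => 1) := by
  have hS : (rszFlat F b).S ∈ (cornersOf F).powerset := by
    rw [mem_powerset]; cases b <;> simp [rszFlat]
  have hD : (rszFlat F b).D ∈ F.powerset := by simp [rszFlat]
  have hO : (rszFlat F b).O ∈ (rswInt F).powerset := by simp [rszFlat]
  have nn : ∀ S D O, 0 ≤ rswWt t F b ⟨S, D, O⟩ * 1 := fun S D O =>
    mul_nonneg (rsz_wt_nonneg h0.le h1 F b _) zero_le_one
  unfold rswSum
  calc 0 < rswWt t F b (rszFlat F b) * 1 := by rw [rsz_flat_wt, mul_one]; positivity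
    _ ≤ ∑ O ∈ (rswInt F).powerset, rswWt t F b ⟨(rszFlat F b).S, (rszFlat F b).D, O⟩ * 1 :=
        single_le_sum (f := fun O => rswWt t F b ⟨(rszFlat F b).S, (rszFlat F b).D, O⟩ * 1) (fun O _ => nn _ _ O) hO
    _ ≤ ∑ D ∈ F.powerset, ∑ O ∈ (rswInt F).powerset, rswWt t F b ⟨(rszFlat F b).S, D, O⟩ * 1 :=
        single_le_sum (f := fun D => ∑ O ∈ (rswInt F).powerset, rswWt t F b ⟨(rszFlat F b).S, D, O⟩ * 1)
          (fun D _ => sum_nonneg fun O _ => nn _ D O) hD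
    _ ≤ _ :=
        single_le_sum (f := fun S => ∑ D ∈ F.powerset, ∑ O ∈ (rswInt F).powerset, rswWt t F b ⟨S, D, O⟩ * 1)
          (fun S _ => sum_nonneg fun D _ => sum_nonneg fun O _ => nn S D O) hS

/-! ## 4. `rswE` -/

theorem rsz_E_const {t : ℝ} (h0 : 0 < t) (h1 : t ≤ 1) (F : Finset (ℤ × ℤ)) (b : Bool) (a : ℝ) :
    rswE t F b (fun _ => a) = a := by
  unfold rswE
  have := rsz_sum_smul t F b a (fun _ => 1)
  simp only [mul_one] at this
  rw [this, mul_div_assoc, div_self (rsz_Z_pos h0 h1 F b).ne', mul_one]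

theorem rsz_E_add (t : ℝ) (F : Finset (ℤ × ℤ)) (b : Bool) (X Y : RswCfg → ℝ) :
    rswE t F b (fun ω => X ω + Y ω) = rswE t F b X + rswE t F b Y := by
  unfold rswE; rw [rsz_sum_add, add_div]

theorem rsz_E_sub (t : ℝ) (F : Finset (ℤ × ℤ)) (b : Bool) (X Y : RswCfg → ℝ) :
    rswE t F b (fun ω => X ω - Y ω) = rswE t F b X - rswE t F b Y := by
  unfold rswE; rw [rsz_sum_sub, sub_div]

theorem rsz_E_smul (t : ℝ) (F : Finset (ℤ × ℤ)) (b : Bool) (a : ℝ) (X : RswCfg → ℝ) :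
    rswE t F b (fun ω => a * X ω) = a * rswE t F b X := by
  unfold rswE; rw [rsz_sum_smul, mul_div_assoc]

theorem rsz_E_fsum {ι : Type*} (t : ℝ) (F : Finset (ℤ × ℤ)) (b : Bool) (s : Finset ι) (X : ι → RswCfg → ℝ) :
    rswE t F b (fun ω => ∑ i ∈ s, X i ω) = ∑ i ∈ s, rswE t F b (X i) := by
  unfold rswE; rw [rsz_sum_fsum, sum_div]

theorem rsz_E_mono {t : ℝ} (h0 : 0 ≤ t) (h1 : t ≤ 1) (F : Finset (ℤ × ℤ)) (b : Bool) {X Y : RswCfg → ℝ}
    (h : ∀ ω, X ω ≤ Y ω) : rswE t F b X ≤ rswE t F b Y := by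
  unfold rswE
  exact div_le_div_of_nonneg_right (rsz_sum_mono h0 h1 F b h) (rsz_sum_nonneg h0 h1 F b fun _ => zero_le_one)

theorem rsz_E_mono' {t : ℝ} (h0 : 0 ≤ t) (h1 : t ≤ 1) (F : Finset (ℤ × ℤ)) (b : Bool) {X Y : RswCfg → ℝ}
    (h : ∀ ω : RswCfg, ω.S ⊆ cornersOf F → ω.D ⊆ F → ω.O ⊆ rswInt F → rswWt t F b ω ≠ 0 → X ω ≤ Y ω) :
    rswE t F b X ≤ rswE t F b Y := by
  unfold rswE
  exact div_le_div_of_nonneg_right (rsz_sum_mono' h0 h1 F b h) (rsz_sum_nonneg h0 h1 F b fun _ => zero_le_one)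

theorem rsz_E_congr (t : ℝ) (F : Finset (ℤ × ℤ)) (b : Bool) {X Y : RswCfg → ℝ}
    (h : ∀ ω : RswCfg, ω.S ⊆ cornersOf F → ω.D ⊆ F → ω.O ⊆ rswInt F → rswWt t F b ω ≠ 0 → X ω = Y ω) :
    rswE t F b X = rswE t F b Y := by
  unfold rswE; rw [rsz_sum_congr t F b h]

theorem rsz_E_nonneg {t : ℝ} (h0 : 0 ≤ t) (h1 : t ≤ 1) (F : Finset (ℤ × ℤ)) (b : Bool) {X : RswCfg → ℝ}
    (h : ∀ ω, 0 ≤ X ω) : 0 ≤ rswE t F b X := by
  unfold rswE
  exact div_nonneg (rsz_sum_nonneg h0 h1 F b h) (rsz_sum_nonneg h0 h1 F b fun _ => zero_le_one)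

theorem rsz_abs_E_le {t : ℝ} (h0 : 0 ≤ t) (h1 : t ≤ 1) (F : Finset (ℤ × ℤ)) (b : Bool) (X : RswCfg → ℝ) :
    |rswE t F b X| ≤ rswE t F b (fun ω => |X ω|) := by
  rw [abs_le]
  constructor
  · have := rsz_E_mono h0 h1 F b (X := fun ω => (-1) * |X ω|) (Y := X) (fun ω => by
      have := neg_abs_le (X ω); linarith)
    rw [rsz_E_smul] at this
    linarith
  · exact rsz_E_mono h0 h1 F b fun ω => le_abs_self _

/-! ## 5. `rswP` -/

open Classical in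
theorem rsz_P_def (t : ℝ) (F : Finset (ℤ × ℤ)) (b : Bool) (L : RswCfg → Prop) :
    rswP t F b L = rswE t F b (fun ω => if L ω then 1 else 0) := by
  unfold rswP
  congr 1

theorem rsz_P_nonneg {t : ℝ} (h0 : 0 ≤ t) (h1 : t ≤ 1) (F : Finset (ℤ × ℤ)) (b : Bool) (L : RswCfg → Prop) :
    0 ≤ rswP t F b L := by
  classical
  rw [rsz_P_def]
  exact rsz_E_nonneg h0 h1 F b fun ω => by split_ifs <;> norm_num

theorem rsz_P_le_one {t : ℝ} (h0 : 0 < t) (h1 : t ≤ 1) (F : Finset (ℤ × ℤ)) (b : Bool) (L : RswCfg → Prop) :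
    rswP t F b L ≤ 1 := by
  classical
  rw [rsz_P_def]
  calc rswE t F b (fun ω => if L ω then 1 else 0) ≤ rswE t F b (fun _ => 1) :=
        rsz_E_mono h0.le h1 F b fun ω => by split_ifs <;> norm_num
    _ = 1 := rsz_E_const h0 h1 F b 1

theorem rsz_P_mono {t : ℝ} (h0 : 0 ≤ t) (h1 : t ≤ 1) (F : Finset (ℤ × ℤ)) (b : Bool) {L L' : RswCfg → Prop}
    (h : ∀ ω, L ω → L' ω) : rswP t F b L ≤ rswP t F b L' := by
  classical
  rw [rsz_P_def, rsz_P_def]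
  refine rsz_E_mono h0 h1 F b fun ω => ?_
  by_cases hL : L ω
  · rw [if_pos hL, if_pos (h ω hL)]
  · rw [if_neg hL]; split_ifs <;> norm_num

theorem rsz_P_mono' {t : ℝ} (h0 : 0 ≤ t) (h1 : t ≤ 1) (F : Finset (ℤ × ℤ)) (b : Bool) {L L' : RswCfg → Prop}
    (h : ∀ ω : RswCfg, ω.S ⊆ cornersOf F → ω.D ⊆ F → ω.O ⊆ rswInt F → rswWt t F b ω ≠ 0 → L ω → L' ω) :
    rswP t F b L ≤ rswP t F b L' := by
  classical
  rw [rsz_P_def, rsz_P_def]
  refine rsz_E_mono' h0 h1 F b fun ω a1 a2 a3 a4 => ?_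
  by_cases hL : L ω
  · rw [if_pos hL, if_pos (h ω a1 a2 a3 a4 hL)]
  · rw [if_neg hL]; split_ifs <;> norm_num

theorem rsz_P_compl {t : ℝ} (h0 : 0 < t) (h1 : t ≤ 1) (F : Finset (ℤ × ℤ)) (b : Bool) (L : RswCfg → Prop) :
    rswP t F b (fun ω => ¬ L ω) = 1 - rswP t F b L := by
  classical
  rw [rsz_P_def, rsz_P_def]
  have h := rsz_E_sub t F b (fun _ => 1) (fun ω => if L ω then 1 else 0)
  rw [rsz_E_const h0 h1 F b 1] at h
  rw [← h]
  congr 1
  funext ω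
  by_cases hL : L ω <;> simp [hL]

theorem rsz_P_union {t : ℝ} (h0 : 0 ≤ t) (h1 : t ≤ 1) (F : Finset (ℤ × ℤ)) (b : Bool) (L L' : RswCfg → Prop) :
    rswP t F b (fun ω => L ω ∨ L' ω) ≤ rswP t F b L + rswP t F b L' := by
  classical
  rw [rsz_P_def, rsz_P_def, rsz_P_def, ← rsz_E_add]
  refine rsz_E_mono h0 h1 F b fun ω => ?_
  by_cases hL : L ω <;> by_cases hL' : L' ω <;> simp [hL, hL']

theorem rsz_P_true {t : ℝ} (h0 : 0 < t) (h1 : t ≤ 1) (F : Finset (ℤ × ℤ)) (b : Bool) :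
    rswP t F b (fun _ => True) = 1 := by
  classical
  rw [rsz_P_def]
  simp only [if_true]
  exact rsz_E_const h0 h1 F b 1

/-- `E[X] ≤ sup X` on an event plus the rest: the elementary splitting -/
theorem rsz_E_le_of_bound {t : ℝ} (h0 : 0 < t) (h1 : t ≤ 1) (F : Finset (ℤ × ℤ)) (b : Bool) {X : RswCfg → ℝ} {a : ℝ}
    (h : ∀ ω, X ω ≤ a) : rswE t F b X ≤ a := by
  rw [← rsz_E_const h0 h1 F b a]
  exact rsz_E_mono h0.le h1 F b h

/-! ## 6. the global flips -/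

/-- flip of the primal spins inside `cornersOf F` -/
def rszFlipS (F : Finset (ℤ × ℤ)) (ω : RswCfg) : RswCfg := ⟨cornersOf F \ ω.S, ω.D, ω.O⟩

/-- flip of the face spins inside `F` -/
def rszFlipD (F : Finset (ℤ × ℤ)) (ω : RswCfg) : RswCfg := ⟨ω.S, F \ ω.D, ω.O⟩

theorem rsz_flipS_fac (t : ℝ) (F : Finset (ℤ × ℤ)) (ω : RswCfg) {e : (ℤ × ℤ) × Bool} (he : e ∈ rswInt F) :
    rswFac t (rszFlipS F ω) e = rswFac t ω e := by
  have h1 := (rsz_mem_int.1 he).1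
  have a1 := rsz_face_corner h1
  have a2 : rswEnd e ∈ cornersOf F := rsz_end_corner h1
  have h : (e.1 ∈ (rszFlipS F ω).S ↔ rswEnd e ∈ (rszFlipS F ω).S) ↔ (e.1 ∈ ω.S ↔ rswEnd e ∈ ω.S) := by
    simp only [rszFlipS, mem_sdiff, a1, a2, true_and]
    tauto
  unfold rswFac
  simp only [h]
  rfl

theorem rsz_flipD_fac (t : ℝ) (F : Finset (ℤ × ℤ)) (ω : RswCfg) {e : (ℤ × ℤ) × Bool} (he : e ∈ rswInt F) :
    rswFac t (rszFlipD F ω) e = rswFac t ω e := by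
  obtain ⟨a1, a2⟩ := rsz_mem_int.1 he
  have h : (e.1 ∈ (rszFlipD F ω).D ↔ rswCo e ∈ (rszFlipD F ω).D) ↔ (e.1 ∈ ω.D ↔ rswCo e ∈ ω.D) := by
    simp only [rszFlipD, mem_sdiff, a1, a2, true_and]
    tauto
  unfold rswFac
  simp only [h]
  rfl

theorem rsz_flipS_bc (F : Finset (ℤ × ℤ)) (b : Bool) (ω : RswCfg) : RswBc F (!b) (rszFlipS F ω) ↔ RswBc F b ω := by
  unfold RswBc
  refine forall_congr' fun v => forall_congr' fun hv => forall_congr' fun _ => ?_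
  simp only [rszFlipS, mem_sdiff, hv, true_and]
  cases b <;> simp

theorem rsz_flipS_wt (t : ℝ) (F : Finset (ℤ × ℤ)) (b : Bool) (ω : RswCfg) :
    rswWt t F (!b) (rszFlipS F ω) = rswWt t F b ω := by
  by_cases h : RswBc F b ω
  · rw [rsz_wt_of_bc h, rsz_wt_of_bc ((rsz_flipS_bc F b ω).2 h)]
    exact prod_congr rfl fun e he => rsz_flipS_fac t F ω he
  · rw [rsz_wt_eq_zero h, rsz_wt_eq_zero (fun h' => h ((rsz_flipS_bc F b ω).1 h'))]

theorem rsz_flipD_wt (t : ℝ) (F : Finset (ℤ × ℤ)) (b : Bool) (ω : RswCfg) :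
    rswWt t F b (rszFlipD F ω) = rswWt t F b ω := by
  by_cases h : RswBc F b ω
  · rw [rsz_wt_of_bc h, rsz_wt_of_bc (show RswBc F b (rszFlipD F ω) from h)]
    exact prod_congr rfl fun e he => rsz_flipD_fac t F ω he
  · rw [rsz_wt_eq_zero h, rsz_wt_eq_zero (show ¬ RswBc F b (rszFlipD F ω) from h)]

/-- re-indexing of a sum over a powerset by the complement -/
theorem rsz_sum_powerset_compl {α : Type*} [DecidableEq α] (A : Finset α) (f : Finset α → ℝ) :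
    ∑ S ∈ A.powerset, f (A \ S) = ∑ S ∈ A.powerset, f S := by
  refine sum_nbij' (fun S => A \ S) (fun S => A \ S) ?_ ?_ ?_ ?_ ?_
  · intro S _; exact mem_powerset.2 sdiff_subset
  · intro S _; exact mem_powerset.2 sdiff_subset
  · intro S hS; exact Finset.sdiff_sdiff_eq_self (mem_powerset.1 hS)
  · intro S hS; exact Finset.sdiff_sdiff_eq_self (mem_powerset.1 hS)
  · intro S _; rfl

theorem rsz_flipS_sum (t : ℝ) (F : Finset (ℤ × ℤ)) (b : Bool) (X : RswCfg → ℝ) :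
    rswSum t F b (fun ω => X (rszFlipS F ω)) = rswSum t F (!b) X := by
  unfold rswSum
  rw [← rsz_sum_powerset_compl (cornersOf F)
    (fun S => ∑ D ∈ F.powerset, ∑ O ∈ (rswInt F).powerset, rswWt t F (!b) ⟨S, D, O⟩ * X ⟨S, D, O⟩)]
  refine sum_congr rfl fun S _ => sum_congr rfl fun D _ => sum_congr rfl fun O _ => ?_
  rw [← rsz_flipS_wt t F b ⟨S, D, O⟩]
  rfl

theorem rsz_flipD_sum (t : ℝ) (F : Finset (ℤ × ℤ)) (b : Bool) (X : RswCfg → ℝ) :
    rswSum t F b (fun ω => X (rszFlipD F ω)) = rswSum t F b X := by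
  unfold rswSum
  refine sum_congr rfl fun S _ => ?_
  rw [← rsz_sum_powerset_compl F
    (fun D => ∑ O ∈ (rswInt F).powerset, rswWt t F b ⟨S, D, O⟩ * X ⟨S, D, O⟩)]
  refine sum_congr rfl fun D _ => sum_congr rfl fun O _ => ?_
  rw [← rsz_flipD_wt t F b ⟨S, D, O⟩]
  rfl

theorem rsz_flipS_E (t : ℝ) (F : Finset (ℤ × ℤ)) (b : Bool) (X : RswCfg → ℝ) :
    rswE t F b (fun ω => X (rszFlipS F ω)) = rswE t F (!b) X := by
  unfold rswE
  rw [rsz_flipS_sum, ← rsz_flipS_sum t F b (fun _ => 1)]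

theorem rsz_flipD_E (t : ℝ) (F : Finset (ℤ × ℤ)) (b : Bool) (X : RswCfg → ℝ) :
    rswE t F b (fun ω => X (rszFlipD F ω)) = rswE t F b X := by
  unfold rswE
  rw [rsz_flipD_sum]

theorem rsz_flipS_P (t : ℝ) (F : Finset (ℤ × ℤ)) (b : Bool) (L : RswCfg → Prop) :
    rswP t F b (fun ω => L (rszFlipS F ω)) = rswP t F (!b) L := by
  classical
  rw [rsz_P_def, rsz_P_def, ← rsz_flipS_E]

theorem rsz_flipD_P (t : ℝ) (F : Finset (ℤ × ℤ)) (b : Bool) (L : RswCfg → Prop) :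
    rswP t F b (fun ω => L (rszFlipD F ω)) = rswP t F b L := by
  classical
  rw [rsz_P_def, rsz_P_def, ← rsz_flipD_E t F b (fun ω => if L ω then 1 else 0)]

/-- the equation lemmas of the definitions of this file are generated HERE (RULES.md, rule 6) -/
theorem rsz_defs_eqns_cite : True := by
  have := @rszFlat.eq_1
  have := @rszFlipS.eq_1
  have := @rszFlipD.eq_1
  trivial

end Claimed.Agent.R292
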