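import Claimed.Agent.R292.Defs.RSW

/-!
# Row 292 (S0540), Rsw/Dual251 : PLANAR BOND DUALITY ON `ℤ²` IN THE WORDS OF Defs/RSW      (pen helper251; prefix `rdu251`)

Model-free: `G` is ANY set of "good" edges (`e : (ℤ × ℤ) × Bool`, endpoints `e.1`, `rswEnd e`, faces `e.1`, `rswCo e`).
* `rdu251Step F G`   one step of a chain of faces inside `F` across an edge which is NOT in `G`      (`RswStep F a ω` = the case `G = {e | RswGood a ω e}`)
* `rdu251PStep F G`  one step of a chain of vertices along an edge of `G` both of whose faces lie in `F`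
* `Rdu251DualBT`, `Rdu251PrimLR`, `Rdu251DualLR`, `Rdu251PrimBT` : crossings of the rectangle of faces `[x0,x1) × [y0,y1)`.
MAIN RESULTS
* `rdu251_prim_of_not_dual`  no bottom-top chain of faces  ⟹  a left-right chain of good edges      (handshake / parity by columns, no Jordan curve)
* `rdu251_not_both`          never both      (mod 2 cochain of the chain of faces + its potential)
* `rdu251_duality`, `rdu251_duality'` : `PrimLR ↔ ¬ DualBT`, `PrimBT ↔ ¬ DualLR`.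
* sec. 13 (N5 of CORE_DICT): SITE duality `rdu251_site_duality`, `rdu251_site_duality'` : nn crossing off `P` ↔ no STAR crossing of `P` in the other direction; `rdu251_star_or_star`.
* sec. 12 (for Rsw/Chain299): `rdu251_potential` (Poincare lemma mod 2 on `ℤ²`), `rdu251_one_sign` (= `Rch299OneSign`), `rdu251_geo_box`, `rdu251_geo_rect`,
  `rdu251_geo_dom` (first versions of `Rch299GeoBox`, `GeoRect`, `GeoDom`), `rdu251_geo_ico`, `rdu251_geo_inv` (= `Rch299GeoBox`, `Rch299GeoDom` of 21:18Z), `rdu251_conn_union`, `rdu251_conn_prod`, `rdu251_conn_touch`, `rdu251_conn_search`, `rdu251_conn_exchange`.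
-/

set_option autoImplicit false

namespace Claimed.Agent.R292

open Relation

/-- one step of a chain of faces inside `F` across an edge which is not good -/
def rdu251Step (F : Set (ℤ × ℤ)) (G : Set ((ℤ × ℤ) × Bool)) (f g : ℤ × ℤ) : Prop :=
  f ∈ F ∧ g ∈ F ∧ ∃ e : (ℤ × ℤ) × Bool, ((f = e.1 ∧ g = rswCo e) ∨ (g = e.1 ∧ f = rswCo e)) ∧ e ∉ G

/-- one step of a chain of vertices along a good edge both of whose faces lie in `F` -/
def rdu251PStep (F : Set (ℤ × ℤ)) (G : Set ((ℤ × ℤ) × Bool)) (u v : ℤ × ℤ) : Prop :=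
  ∃ e : (ℤ × ℤ) × Bool, e ∈ G ∧ e.1 ∈ F ∧ rswCo e ∈ F ∧
    ((u = e.1 ∧ v = rswEnd e) ∨ (v = e.1 ∧ u = rswEnd e))

/-- the rectangle of faces `[x0,x1) × [y0,y1)` -/
def rdu251Rect (x0 x1 y0 y1 : ℤ) : Set (ℤ × ℤ) := {f | x0 ≤ f.1 ∧ f.1 < x1 ∧ y0 ≤ f.2 ∧ f.2 < y1}

/-- a chain of faces from the bottom row to the top row which crosses no good edge -/
def Rdu251DualBT (x0 x1 y0 y1 : ℤ) (G : Set ((ℤ × ℤ) × Bool)) : Prop :=
  ∃ f g : ℤ × ℤ, f ∈ rdu251Rect x0 x1 y0 y1 ∧ f.2 = y0 ∧ g ∈ rdu251Rect x0 x1 y0 y1 ∧ g.2 = y1 - 1 ∧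
    ReflTransGen (rdu251Step (rdu251Rect x0 x1 y0 y1) G) f g

/-- a chain of good edges from the left side to the right side -/
def Rdu251PrimLR (x0 x1 y0 y1 : ℤ) (G : Set ((ℤ × ℤ) × Bool)) : Prop :=
  ∃ u v : ℤ × ℤ, u.1 = x0 ∧ v.1 = x1 ∧ ReflTransGen (rdu251PStep (rdu251Rect x0 x1 y0 y1) G) u v

/-- a chain of faces from the left column to the right column which crosses no good edge -/
def Rdu251DualLR (x0 x1 y0 y1 : ℤ) (G : Set ((ℤ × ℤ) × Bool)) : Prop :=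
  ∃ f g : ℤ × ℤ, f ∈ rdu251Rect x0 x1 y0 y1 ∧ f.1 = x0 ∧ g ∈ rdu251Rect x0 x1 y0 y1 ∧ g.1 = x1 - 1 ∧
    ReflTransGen (rdu251Step (rdu251Rect x0 x1 y0 y1) G) f g

/-- a chain of good edges from the bottom side to the top side -/
def Rdu251PrimBT (x0 x1 y0 y1 : ℤ) (G : Set ((ℤ × ℤ) × Bool)) : Prop :=
  ∃ u v : ℤ × ℤ, u.2 = y0 ∧ v.2 = y1 ∧ ReflTransGen (rdu251PStep (rdu251Rect x0 x1 y0 y1) G) u v

theorem rdu251_mem_rect {x0 x1 y0 y1 : ℤ} {f : ℤ × ℤ} :
    f ∈ rdu251Rect x0 x1 y0 y1 ↔ x0 ≤ f.1 ∧ f.1 < x1 ∧ y0 ≤ f.2 ∧ f.2 < y1 := Iff.rfl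

theorem rdu251_step_symm {F : Set (ℤ × ℤ)} {G : Set ((ℤ × ℤ) × Bool)} {f g : ℤ × ℤ}
    (h : rdu251Step F G f g) : rdu251Step F G g f := by
  obtain ⟨hf, hg, e, he, heG⟩ := h
  exact ⟨hg, hf, e, he.symm, heG⟩

theorem rdu251_pstep_symm {F : Set (ℤ × ℤ)} {G : Set ((ℤ × ℤ) × Bool)} {u v : ℤ × ℤ}
    (h : rdu251PStep F G u v) : rdu251PStep F G v u := by
  obtain ⟨e, h1, h2, h3, h4⟩ := h
  exact ⟨e, h1, h2, h3, h4.symm⟩

theorem rdu251_chain_symm {F : Set (ℤ × ℤ)} {G : Set ((ℤ × ℤ) × Bool)} {f g : ℤ × ℤ}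
    (h : ReflTransGen (rdu251Step F G) f g) : ReflTransGen (rdu251Step F G) g f := by
  induction h with
  | refl => exact ReflTransGen.refl
  | tail _ hbc ih => exact ReflTransGen.head (rdu251_step_symm hbc) ih

theorem rdu251_pchain_symm {F : Set (ℤ × ℤ)} {G : Set ((ℤ × ℤ) × Bool)} {u v : ℤ × ℤ}
    (h : ReflTransGen (rdu251PStep F G) u v) : ReflTransGen (rdu251PStep F G) v u := by
  induction h with
  | refl => exact ReflTransGen.refl
  | tail _ hbc ih => exact ReflTransGen.head (rdu251_pstep_symm hbc) ih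

/-! ### arithmetic mod 2 -/

theorem rdu251_two : (2 : ZMod 2) = 0 := by decide

theorem rdu251_add_self (a : ZMod 2) : a + a = 0 := CharTwo.add_self_eq_zero a

/-- telescoping mod 2 -/
theorem rdu251_tel (a : ℕ → ZMod 2) (n : ℕ) :
    ∑ j ∈ Finset.range n, (a (j + 1) + a j) = a n + a 0 := by
  induction n with
  | zero => simp [rdu251_add_self]
  | succ n ih =>
    rw [Finset.sum_range_succ, ih]
    linear_combination (a n) * rdu251_two

/-! ### no chain of faces  ⟹  a chain of good edges -/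

/-- core of the existence half, rectangle `[x0, x0+w+1) × [y0, y0+h+1)` -/
theorem rdu251_prim_core (x0 y0 : ℤ) (w h : ℕ) (G : Set ((ℤ × ℤ) × Bool))
    (hno : ¬ Rdu251DualBT x0 (x0 + w + 1) y0 (y0 + h + 1) G) :
    Rdu251PrimLR x0 (x0 + w + 1) y0 (y0 + h + 1) G := by
  classical
  by_contra hcon
  set R := rdu251Rect x0 (x0 + w + 1) y0 (y0 + h + 1) with hR
  -- the cluster of the bottom row
  set C : Set (ℤ × ℤ) := {f | ∃ b, b ∈ R ∧ b.2 = y0 ∧ ReflTransGen (rdu251Step R G) b f} with hC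
  have c1 : ∀ f, f ∈ R → f.2 = y0 → f ∈ C := fun f hf h0 => ⟨f, hf, h0, ReflTransGen.refl⟩
  have c2 : ∀ f, f ∈ R → f.2 = y0 + h → f ∉ C := by
    rintro f hf h1 ⟨b, hb, hb0, hch⟩
    exact hno ⟨b, f, hb, hb0, hf, by rw [h1]; ring, hch⟩
  have c3 : ∀ e : (ℤ × ℤ) × Bool, e.1 ∈ R → rswCo e ∈ R → e ∉ G → (e.1 ∈ C ↔ rswCo e ∈ C) := by
    intro e h1 h2 hG
    constructor
    · rintro ⟨b, hb, hb0, hch⟩
      exact ⟨b, hb, hb0, hch.tail ⟨h1, h2, e, Or.inl ⟨rfl, rfl⟩, hG⟩⟩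
    · rintro ⟨b, hb, hb0, hch⟩
      exact ⟨b, hb, hb0, hch.tail ⟨h2, h1, e, Or.inr ⟨rfl, rfl⟩, hG⟩⟩
  -- the vertices which are not joined to the right side
  set K : Set (ℤ × ℤ) := {v | ¬ ∃ r : ℤ × ℤ, r.1 = x0 + w + 1 ∧ ReflTransGen (rdu251PStep R G) v r} with hK
  have k1 : ∀ u : ℤ × ℤ, u.1 = x0 → u ∈ K := by
    rintro u hu ⟨r, hr, hch⟩
    exact hcon ⟨u, r, hu, hr, hch⟩
  have k2 : ∀ v : ℤ × ℤ, v.1 = x0 + w + 1 → v ∉ K := fun v hv hvK => hvK ⟨v, hv, ReflTransGen.refl⟩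
  have k3 : ∀ u v, rdu251PStep R G u v → (u ∈ K ↔ v ∈ K) := by
    intro u v huv
    constructor
    · rintro hu ⟨r, hr, hch⟩
      exact hu ⟨r, hr, ReflTransGen.head huv hch⟩
    · rintro hv ⟨r, hr, hch⟩
      exact hv ⟨r, hr, ReflTransGen.head (rdu251_pstep_symm huv) hch⟩
  set χ : ℤ × ℤ → ZMod 2 := fun f => if f ∈ C then 1 else 0 with hχ
  set k : ℤ × ℤ → ZMod 2 := fun v => if v ∈ K then 1 else 0 with hk
  set d : (ℤ × ℤ) × Bool → ZMod 2 := fun e => if e.1 ∈ R ∧ rswCo e ∈ R then χ e.1 + χ (rswCo e) else 0 with hd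
  have hP : ∀ e, d e * k e.1 = d e * k (rswEnd e) := by
    intro e
    by_cases hint : e.1 ∈ R ∧ rswCo e ∈ R
    · by_cases hG : e ∈ G
      · have := k3 e.1 (rswEnd e) ⟨e, hG, hint.1, hint.2, Or.inl ⟨rfl, rfl⟩⟩
        have hkk : k e.1 = k (rswEnd e) := by simp only [hk, this]
        rw [hkk]
      · have := c3 e hint.1 hint.2 hG
        have hd0 : d e = 0 := by
          simp only [hd, hint, and_self, if_true, hχ, this]
          exact rdu251_add_self _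
        rw [hd0, zero_mul, zero_mul]
    · have hd0 : d e = 0 := by simp only [hd, hint, if_false]
      rw [hd0, zero_mul, zero_mul]
  set g : (ℤ × ℤ) × Bool → ZMod 2 := fun e => d e * k e.1 with hg
  have hmemR : ∀ x y : ℤ, (x, y) ∈ R ↔ x0 ≤ x ∧ x < x0 + w + 1 ∧ y0 ≤ y ∧ y < y0 + h + 1 := fun x y => Iff.rfl
  -- values of `d`
  have dH : ∀ x y : ℤ, x0 ≤ x → x < x0 + w + 1 → y0 < y → y < y0 + h + 1 →
      d ((x, y), false) = χ (x, y) + χ (x, y - 1) := by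
    intro x y h1 h2 h3 h4
    have e1 : ((x, y) : ℤ × ℤ) ∈ R := (hmemR x y).2 ⟨h1, h2, h3.le, h4⟩
    have e2 : rswCo ((x, y), false) = (x, y - 1) := by simp [rswCo]
    have e3 : ((x, y - 1) : ℤ × ℤ) ∈ R := (hmemR x (y - 1)).2 ⟨h1, h2, by omega, by omega⟩
    simp only [hd, e2, e1, e3, and_self, if_true]
  have dV : ∀ x y : ℤ, x0 < x → x < x0 + w + 1 → y0 ≤ y → y < y0 + h + 1 →
      d ((x, y), true) = χ (x, y) + χ (x - 1, y) := by
    intro x y h1 h2 h3 h4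
    have e1 : ((x, y) : ℤ × ℤ) ∈ R := (hmemR x y).2 ⟨h1.le, h2, h3, h4⟩
    have e2 : rswCo ((x, y), true) = (x - 1, y) := by simp [rswCo]
    have e3 : ((x - 1, y) : ℤ × ℤ) ∈ R := (hmemR (x - 1) y).2 ⟨by omega, by omega, h3, h4⟩
    simp only [hd, e2, e1, e3, and_self, if_true]
  -- the vertex relation
  have hvert : ∀ x y : ℤ, x0 < x → x < x0 + w + 1 → y0 < y → y < y0 + h + 1 →
      g ((x, y), false) + g ((x - 1, y), false) = g ((x, y), true) + g ((x, y - 1), true) := by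
    intro x y h1 h2 h3 h4
    have a2 : g ((x - 1, y), false) = d ((x - 1, y), false) * k (x, y) := by
      have := hP ((x - 1, y), false)
      simp only [rswEnd, Bool.false_eq_true, if_false, sub_add_cancel] at this
      exact this
    have a4 : g ((x, y - 1), true) = d ((x, y - 1), true) * k (x, y) := by
      have := hP ((x, y - 1), true)
      simp only [rswEnd, if_true, sub_add_cancel] at this
      exact this
    rw [a2, a4]
    simp only [hg]
    rw [dH x y h1.le h2 h3 h4, dH (x - 1) y (by omega) (by omega) h3 h4, dV x y h1 h2 h3.le h4,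
      dV x (y - 1) h1 h2 (by omega) (by omega)]
    ring
  -- the column counts
  set N : ℕ → ZMod 2 := fun i => ∑ j ∈ Finset.range h, g ((x0 + i, y0 + (j + 1 : ℕ)), false) with hN
  have hN0 : N 0 = 1 := by
    have e : ∀ j ∈ Finset.range h, g ((x0 + (0 : ℕ), y0 + (j + 1 : ℕ)), false)
        = χ (x0, y0 + (j + 1 : ℕ)) + χ (x0, y0 + (j : ℕ)) := by
      intro j hj
      have hj' := Finset.mem_range.1 hj
      simp only [hg, Nat.cast_zero, add_zero]
      rw [dH x0 (y0 + (j + 1 : ℕ)) le_rfl (by omega) (by push_cast; omega) (by push_cast; omega)]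
      have hk1 : k (x0, y0 + (j + 1 : ℕ)) = 1 := by simp only [hk, k1 (x0, y0 + (j + 1 : ℕ)) rfl, if_true]
      rw [hk1, mul_one]
      congr 2
      push_cast; ring_nf
    simp only [hN]
    rw [Finset.sum_congr rfl e, rdu251_tel (fun j => χ (x0, y0 + (j : ℕ))) h]
    have t1 : χ (x0, y0 + (h : ℕ)) = 0 := by
      simp only [hχ, c2 (x0, y0 + (h : ℕ)) ((hmemR _ _).2 ⟨le_rfl, by omega, by omega, by omega⟩) rfl, if_false]
    have t2 : χ (x0, y0 + ((0 : ℕ) : ℤ)) = 1 := by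
      simp only [hχ, Nat.cast_zero, add_zero,
        c1 (x0, y0) ((hmemR _ _).2 ⟨le_rfl, by omega, le_rfl, by omega⟩) rfl, if_true]
    rw [t1, t2, zero_add]
  have hNw : N w = 0 := by
    simp only [hN]
    apply Finset.sum_eq_zero
    intro j _
    have := hP ((x0 + w, y0 + (j + 1 : ℕ)), false)
    simp only [rswEnd, Bool.false_eq_true, if_false] at this
    simp only [hg]
    rw [this]
    have hk0 : k (x0 + w + 1, y0 + (j + 1 : ℕ)) = 0 := by
      simp only [hk, k2 (x0 + w + 1, y0 + (j + 1 : ℕ)) rfl, if_false]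
    rw [hk0, mul_zero]
  have hstep : ∀ i : ℕ, i < w → N (i + 1) = N i := by
    intro i hi
    have hsum : N (i + 1) + N i = 0 := by
      simp only [hN]
      rw [← Finset.sum_add_distrib]
      have e : ∀ j ∈ Finset.range h, g ((x0 + (i + 1 : ℕ), y0 + (j + 1 : ℕ)), false) + g ((x0 + (i : ℕ), y0 + (j + 1 : ℕ)), false)
          = g ((x0 + (i + 1 : ℕ), y0 + (j + 1 : ℕ)), true) + g ((x0 + (i + 1 : ℕ), y0 + (j : ℕ)), true) := by
        intro j hj
        have hj' := Finset.mem_range.1 hj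
        have := hvert (x0 + (i + 1 : ℕ)) (y0 + (j + 1 : ℕ)) (by push_cast; omega) (by push_cast; omega)
          (by push_cast; omega) (by push_cast; omega)
        have r1 : x0 + ((i + 1 : ℕ) : ℤ) - 1 = x0 + (i : ℕ) := by push_cast; ring
        have r2 : y0 + ((j + 1 : ℕ) : ℤ) - 1 = y0 + (j : ℕ) := by push_cast; ring
        rw [r1, r2] at this
        exact this
      rw [Finset.sum_congr rfl e, rdu251_tel (fun j => g ((x0 + (i + 1 : ℕ), y0 + (j : ℕ)), true)) h]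
      have t1 : g ((x0 + (i + 1 : ℕ), y0 + (h : ℕ)), true) = 0 := by
        simp only [hg]
        rw [dV _ _ (by push_cast; omega) (by push_cast; omega) (by omega) (by omega)]
        have u1 : χ (x0 + (i + 1 : ℕ), y0 + (h : ℕ)) = 0 := by
          simp only [hχ, c2 (x0 + (i + 1 : ℕ), y0 + (h : ℕ))
            ((hmemR _ _).2 ⟨by push_cast; omega, by push_cast; omega, by omega, by omega⟩) rfl, if_false]
        have u2 : χ (x0 + (i + 1 : ℕ) - 1, y0 + (h : ℕ)) = 0 := by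
          simp only [hχ, c2 (x0 + (i + 1 : ℕ) - 1, y0 + (h : ℕ))
            ((hmemR _ _).2 ⟨by push_cast; omega, by push_cast; omega, by omega, by omega⟩) rfl, if_false]
        rw [u1, u2, add_zero, zero_mul]
      have t2 : g ((x0 + (i + 1 : ℕ), y0 + ((0 : ℕ) : ℤ)), true) = 0 := by
        simp only [hg]
        rw [dV _ _ (by push_cast; omega) (by push_cast; omega) (by simp) (by push_cast; omega)]
        have u1 : χ (x0 + (i + 1 : ℕ), y0 + ((0 : ℕ) : ℤ)) = 1 := by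
          simp only [hχ, c1 (x0 + (i + 1 : ℕ), y0 + ((0 : ℕ) : ℤ))
            ((hmemR _ _).2 ⟨by push_cast; omega, by push_cast; omega, by simp, by push_cast; omega⟩) (by simp), if_true]
        have u2 : χ (x0 + (i + 1 : ℕ) - 1, y0 + ((0 : ℕ) : ℤ)) = 1 := by
          simp only [hχ, c1 (x0 + (i + 1 : ℕ) - 1, y0 + ((0 : ℕ) : ℤ))
            ((hmemR _ _).2 ⟨by push_cast; omega, by push_cast; omega, by simp, by push_cast; omega⟩) (by simp), if_true]
        rw [u1, u2, rdu251_add_self, zero_mul]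
      rw [t1, t2, add_zero]
    calc N (i + 1) = N (i + 1) + (N i + N i) := by rw [rdu251_add_self, add_zero]
      _ = (N (i + 1) + N i) + N i := by ring
      _ = N i := by rw [hsum, zero_add]
  have hall : ∀ i : ℕ, i ≤ w → N i = 1 := by
    intro i
    induction i with
    | zero => intro _; exact hN0
    | succ i ih => intro hi; rw [hstep i (by omega), ih (by omega)]
  have := hall w le_rfl
  rw [hNw] at this
  exact absurd this (by decide)

/-- **no bottom-top chain of faces  ⟹  a left-right chain of good edges** -/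
theorem rdu251_prim_of_not_dual {x0 x1 y0 y1 : ℤ} (hx : x0 < x1) (hy : y0 < y1) (G : Set ((ℤ × ℤ) × Bool))
    (hno : ¬ Rdu251DualBT x0 x1 y0 y1 G) : Rdu251PrimLR x0 x1 y0 y1 G := by
  obtain ⟨w, hw⟩ : ∃ w : ℕ, x1 = x0 + w + 1 := ⟨(x1 - x0 - 1).toNat, by omega⟩
  obtain ⟨h, hh⟩ : ∃ h : ℕ, y1 = y0 + h + 1 := ⟨(y1 - y0 - 1).toNat, by omega⟩
  subst hw hh
  exact rdu251_prim_core x0 y0 w h G hno

/-! ### never both -/

/-- the mod 2 circulation of a function of edges round a face -/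
def rdu251Curl (m : (ℤ × ℤ) × Bool → ZMod 2) (f : ℤ × ℤ) : ZMod 2 :=
  m (f, false) + m (f, true) + m ((f.1, f.2 + 1), false) + m ((f.1 + 1, f.2), true)

theorem rdu251_curl_add (m m' : (ℤ × ℤ) × Bool → ZMod 2) (f : ℤ × ℤ) :
    rdu251Curl (fun e => m e + m' e) f = rdu251Curl m f + rdu251Curl m' f := by
  unfold rdu251Curl; ring

theorem rdu251_curl_single (e : (ℤ × ℤ) × Bool) (f : ℤ × ℤ) :
    rdu251Curl (fun e' => if e' = e then 1 else 0) f
      = (if f = e.1 then 1 else 0) + (if f = rswCo e then 1 else 0) := by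
  obtain ⟨⟨a, b⟩, t⟩ := e
  obtain ⟨x, y⟩ := f
  cases t
  · have h1 : (y + 1 = b) ↔ (y = b - 1) := by omega
    simp [rdu251Curl, rswCo, Prod.ext_iff, h1]
  · have h1 : (x + 1 = a) ↔ (x = a - 1) := by omega
    simp [rdu251Curl, rswCo, Prod.ext_iff, h1]

/-- the mod 2 cochain of a chain of faces -/
theorem rdu251_cochain {F : Set (ℤ × ℤ)} {G : Set ((ℤ × ℤ) × Bool)} {a b : ℤ × ℤ}
    (h : ReflTransGen (rdu251Step F G) a b) :
    ∃ m : (ℤ × ℤ) × Bool → ZMod 2, (∀ e, m e ≠ 0 → e.1 ∈ F ∧ rswCo e ∈ F ∧ e ∉ G) ∧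
      ∀ f, rdu251Curl m f = (if f = a then 1 else 0) + (if f = b then 1 else 0) := by
  induction h with
  | refl =>
    refine ⟨fun _ => 0, fun e he => absurd rfl he, fun f => ?_⟩
    rw [rdu251_add_self]
    simp [rdu251Curl]
  | @tail b c _ hbc ih =>
    obtain ⟨m, hm1, hm2⟩ := ih
    obtain ⟨hb, hc, e, he, heG⟩ := hbc
    refine ⟨fun e' => m e' + (if e' = e then 1 else 0), fun e' he' => ?_, fun f => ?_⟩
    · by_cases hee : e' = e
      · subst hee
        rcases he with ⟨h1, h2⟩ | ⟨h1, h2⟩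
        · exact ⟨h1 ▸ hb, h2 ▸ hc, heG⟩
        · exact ⟨h1 ▸ hc, h2 ▸ hb, heG⟩
      · apply hm1
        simpa [hee] using he'
    · rw [rdu251_curl_add, hm2, rdu251_curl_single]
      rcases he with ⟨h1, h2⟩ | ⟨h1, h2⟩
      · rw [← h1, ← h2]
        linear_combination (if f = b then (1 : ZMod 2) else 0) * rdu251_two
      · rw [← h1, ← h2]
        linear_combination (if f = b then (1 : ZMod 2) else 0) * rdu251_two

/-- core of the exclusion half, rectangle `[x0, x0+w+1) × [y0, y0+h+1)` -/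
theorem rdu251_not_both_core (x0 y0 : ℤ) (w h : ℕ) (G : Set ((ℤ × ℤ) × Bool))
    (hd : Rdu251DualBT x0 (x0 + w + 1) y0 (y0 + h + 1) G)
    (hp : Rdu251PrimLR x0 (x0 + w + 1) y0 (y0 + h + 1) G) : False := by
  classical
  obtain ⟨a, b, haR, ha0, hbR, hb1, hch⟩ := hd
  obtain ⟨u, v, hu, hv, hpch⟩ := hp
  set R := rdu251Rect x0 (x0 + w + 1) y0 (y0 + h + 1) with hR
  have hmemR : ∀ x y : ℤ, (x, y) ∈ R ↔ x0 ≤ x ∧ x < x0 + w + 1 ∧ y0 ≤ y ∧ y < y0 + h + 1 := fun x y => Iff.rfl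
  obtain ⟨m, hm1, hm2⟩ := rdu251_cochain hch
  set ea : (ℤ × ℤ) × Bool := ((a.1, y0), false) with hea
  set eb : (ℤ × ℤ) × Bool := ((b.1, y0 + h + 1), false) with heb
  set m' : (ℤ × ℤ) × Bool → ZMod 2 :=
    fun e => (m e + (if e = ea then 1 else 0)) + (if e = eb then 1 else 0) with hm'
  have haeq : a = (a.1, y0) := Prod.ext rfl ha0
  have hbeq : b = (b.1, y0 + h) := Prod.ext rfl (by rw [hb1]; ring)
  have haR' := (rdu251_mem_rect.1 haR)
  have hbR' := (rdu251_mem_rect.1 hbR)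
  -- the extended cochain is closed on the rectangle
  have curl0 : ∀ f, f ∈ R → rdu251Curl m' f = 0 := by
    intro f hf
    have hf' := rdu251_mem_rect.1 hf
    have e1 : rdu251Curl m' f = (rdu251Curl m f + rdu251Curl (fun e => if e = ea then 1 else 0) f)
        + rdu251Curl (fun e => if e = eb then 1 else 0) f := by
      rw [← rdu251_curl_add, ← rdu251_curl_add]
    rw [e1, hm2, rdu251_curl_single, rdu251_curl_single]
    have s1 : ea.1 = a := haeq.symm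
    have s2 : rswCo eb = b := by
      rw [hbeq]; simp [heb, rswCo]
    have s3 : f ≠ rswCo ea := by
      intro hh
      have : f.2 = y0 - 1 := by rw [hh]; simp [hea, rswCo]
      omega
    have s4 : f ≠ eb.1 := by
      intro hh
      have : f.2 = y0 + h + 1 := by rw [hh]
      omega
    rw [s1, s2, if_neg s3, if_neg s4]
    linear_combination ((if f = a then (1 : ZMod 2) else 0) + (if f = b then (1 : ZMod 2) else 0)) * rdu251_two
  -- where the extended cochain vanishes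
  have hz : ∀ e : (ℤ × ℤ) × Bool, (e.1 ∉ R ∨ rswCo e ∉ R ∨ e ∈ G) → e ≠ ea → e ≠ eb → m' e = 0 := by
    intro e he h1 h2
    have : m e = 0 := by
      by_contra hne
      obtain ⟨q1, q2, q3⟩ := hm1 e hne
      rcases he with he | he | he
      · exact he q1
      · exact he q2
      · exact q3 he
    simp only [hm', this, if_neg h1, if_neg h2, add_zero]
  have hzG : ∀ e : (ℤ × ℤ) × Bool, e ∈ G → e.1 ∈ R → rswCo e ∈ R → m' e = 0 := by
    intro e hG h1 h2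
    apply hz e (Or.inr (Or.inr hG))
    · intro hh
      have : rswCo e = (a.1, y0 - 1) := by rw [hh]; simp [hea, rswCo]
      rw [this] at h2
      have := (hmemR _ _).1 h2
      omega
    · intro hh
      rw [hh] at h1
      have := (hmemR _ _).1 h1
      omega
  have hzT : ∀ x y : ℤ, (x ≤ x0 ∨ x0 + w + 1 ≤ x) → m' ((x, y), true) = 0 := by
    intro x y hx
    apply hz
    · rcases hx with hx | hx
      · right; left
        intro hh
        have : rswCo ((x, y), true) = (x - 1, y) := by simp [rswCo]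
        rw [this] at hh
        have := (hmemR _ _).1 hh
        omega
      · left
        intro hh
        have := (hmemR _ _).1 hh
        omega
    · simp [hea]
    · simp [heb]
  -- the potential
  set P : ℕ → ℤ → ZMod 2 := fun i y => ∑ i' ∈ Finset.range i, m' ((x0 + (i' : ℕ), y), false) with hP
  have hH : ∀ (i : ℕ) (y : ℤ), P (i + 1) y = P i y + m' ((x0 + (i : ℕ), y), false) := by
    intro i y
    simp only [hP]
    rw [Finset.sum_range_succ]
  have hV : ∀ (i : ℕ), i ≤ w + 1 → ∀ y : ℤ, y0 ≤ y → y < y0 + h + 1 →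
      P i (y + 1) + P i y = m' ((x0 + (i : ℕ), y), true) := by
    intro i
    induction i with
    | zero =>
      intro _ y _ _
      rw [hzT _ _ (Or.inl (by simp))]
      simp [hP]
    | succ i ih =>
      intro hi y hy0 hy1
      have h1 := ih (by omega) y hy0 hy1
      have h2 := curl0 (x0 + (i : ℕ), y) ((hmemR _ _).2 ⟨by omega, by omega, hy0, hy1⟩)
      unfold rdu251Curl at h2
      simp only at h2
      rw [hH, hH]
      have r1 : x0 + ((i + 1 : ℕ) : ℤ) = x0 + (i : ℕ) + 1 := by push_cast; ring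
      rw [r1]
      linear_combination h1 + h2 - (m' ((x0 + (i : ℕ) + 1, y), true)) * rdu251_two
  set pv : ℤ × ℤ → ZMod 2 := fun z => P (z.1 - x0).toNat z.2 with hpv
  have hedge : ∀ e : (ℤ × ℤ) × Bool, e ∈ G → e.1 ∈ R → rswCo e ∈ R → pv e.1 = pv (rswEnd e) := by
    rintro ⟨⟨x, y⟩, t⟩ hG h1 h2
    have h1' := (hmemR _ _).1 h1
    have h0 := hzG _ hG h1 h2
    cases t
    · have e1 : rswEnd ((x, y), false) = (x + 1, y) := by simp [rswEnd]
      rw [e1]
      simp only [hpv]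
      have e2 : (x + 1 - x0).toNat = (x - x0).toNat + 1 := by omega
      rw [e2, hH]
      have e3 : x0 + (((x - x0).toNat : ℕ) : ℤ) = x := by
        rw [Int.toNat_of_nonneg (by omega)]; ring
      rw [e3, h0, add_zero]
    · have e1 : rswEnd ((x, y), true) = (x, y + 1) := by simp [rswEnd]
      rw [e1]
      simp only [hpv]
      have h3 := hV (x - x0).toNat (by omega) y h1'.2.2.1 h1'.2.2.2
      have e3 : x0 + (((x - x0).toNat : ℕ) : ℤ) = x := by
        rw [Int.toNat_of_nonneg (by omega)]; ring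
      rw [e3, h0] at h3
      calc P (x - x0).toNat y = P (x - x0).toNat y + (P (x - x0).toNat (y + 1) + P (x - x0).toNat y) := by
            rw [h3, add_zero]
        _ = P (x - x0).toNat (y + 1) + (P (x - x0).toNat y + P (x - x0).toNat y) := by ring
        _ = P (x - x0).toNat (y + 1) := by rw [rdu251_add_self, add_zero]
  have hstep : ∀ z z', rdu251PStep R G z z' → pv z = pv z' := by
    rintro z z' ⟨e, hG, h1, h2, h3⟩
    rcases h3 with ⟨r1, r2⟩ | ⟨r1, r2⟩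
    · rw [r1, r2]; exact hedge e hG h1 h2
    · rw [r1, r2]; exact (hedge e hG h1 h2).symm
  have hconst : pv u = pv v := by
    clear hu hv
    induction hpch with
    | refl => rfl
    | tail _ hbc ih => exact ih.trans (hstep _ _ hbc)
  have hpu : pv u = 0 := by
    simp only [hpv, hu, sub_self, Int.toNat_zero, hP, Finset.range_zero, Finset.sum_empty]
  -- the row counts
  have hrow0 : P (w + 1) y0 = 1 := by
    simp only [hP]
    rw [Finset.sum_eq_single (a.1 - x0).toNat]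
    · have e3 : x0 + (((a.1 - x0).toNat : ℕ) : ℤ) = a.1 := by
        rw [Int.toNat_of_nonneg (by omega)]; ring
      rw [e3]
      have hm0 : m ((a.1, y0), false) = 0 := by
        by_contra hne
        obtain ⟨_, q2, _⟩ := hm1 _ hne
        have : rswCo ((a.1, y0), false) = (a.1, y0 - 1) := by simp [rswCo]
        rw [this] at q2
        have := (hmemR _ _).1 q2
        omega
      have hne : ((a.1, y0), false) ≠ eb := by
        simp only [heb, ne_eq, Prod.mk.injEq, and_true, not_and]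
        intro _; omega
      show (m ea + (if ea = ea then 1 else 0)) + (if ea = eb then 1 else 0) = 1
      rw [hm0, if_pos rfl, if_neg hne, zero_add, add_zero]
    · intro i _ hi
      apply hz
      · right; left
        intro hh
        have : rswCo ((x0 + (i : ℕ), y0), false) = (x0 + (i : ℕ), y0 - 1) := by simp [rswCo]
        rw [this] at hh
        have := (hmemR _ _).1 hh
        omega
      · simp only [hea, ne_eq, Prod.mk.injEq, and_true]
        intro hh; apply hi; omega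
      · simp only [heb, ne_eq, Prod.mk.injEq, and_true, not_and]
        intro _; omega
    · intro hh
      exfalso; apply hh
      rw [Finset.mem_range]; omega
  have hrow : ∀ j : ℕ, j ≤ h + 1 → P (w + 1) (y0 + (j : ℕ)) = 1 := by
    intro j
    induction j with
    | zero => intro _; simpa using hrow0
    | succ j ih =>
      intro hj
      have h3 := hV (w + 1) le_rfl (y0 + (j : ℕ)) (by omega) (by omega)
      rw [hzT _ _ (Or.inr (by push_cast; omega)), ih (by omega)] at h3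
      have r1 : y0 + ((j + 1 : ℕ) : ℤ) = y0 + (j : ℕ) + 1 := by push_cast; ring
      rw [r1]
      have key : ∀ t : ZMod 2, t + 1 = 0 → t = 1 := by decide
      exact key _ h3
  -- the height of the last vertex
  have hv2 : y0 ≤ v.2 ∧ v.2 ≤ y0 + h + 1 := by
    rcases ReflTransGen.cases_tail hpch with heq | ⟨c, _, hcv⟩
    · exfalso
      rw [heq] at hv
      omega
    · obtain ⟨⟨⟨x, y⟩, t⟩, _, h1, h2, h3⟩ := hcv
      have h1' := (hmemR _ _).1 h1
      rcases h3 with ⟨_, r2⟩ | ⟨r1, _⟩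
      · rw [r2]
        cases t <;> simp [rswEnd] <;> omega
      · rw [r1]
        simp only
        omega
  have hpvv : pv v = 1 := by
    simp only [hpv, hv]
    have e2 : (x0 + (w : ℤ) + 1 - x0).toNat = w + 1 := by omega
    rw [e2]
    have := hrow (v.2 - y0).toNat (by omega)
    rw [Int.toNat_of_nonneg (by omega)] at this
    have r : y0 + (v.2 - y0) = v.2 := by ring
    rw [r] at this
    exact this
  rw [hpu, hpvv] at hconst
  exact absurd hconst (by decide)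

/-- **never both** -/
theorem rdu251_not_both {x0 x1 y0 y1 : ℤ} (hx : x0 < x1) (hy : y0 < y1) (G : Set ((ℤ × ℤ) × Bool))
    (hd : Rdu251DualBT x0 x1 y0 y1 G) (hp : Rdu251PrimLR x0 x1 y0 y1 G) : False := by
  obtain ⟨w, hw⟩ : ∃ w : ℕ, x1 = x0 + w + 1 := ⟨(x1 - x0 - 1).toNat, by omega⟩
  obtain ⟨h, hh⟩ : ∃ h : ℕ, y1 = y0 + h + 1 := ⟨(y1 - y0 - 1).toNat, by omega⟩
  subst hw hh
  exact rdu251_not_both_core x0 y0 w h G hd hp

/-- **DUALITY IN A RECTANGLE** -/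
theorem rdu251_duality {x0 x1 y0 y1 : ℤ} (hx : x0 < x1) (hy : y0 < y1) (G : Set ((ℤ × ℤ) × Bool)) :
    Rdu251PrimLR x0 x1 y0 y1 G ↔ ¬ Rdu251DualBT x0 x1 y0 y1 G :=
  ⟨fun hp hd => rdu251_not_both hx hy G hd hp, rdu251_prim_of_not_dual hx hy G⟩

/-! ### transposition -/

/-- transposition of an edge -/
def rdu251T (e : (ℤ × ℤ) × Bool) : (ℤ × ℤ) × Bool := (e.1.swap, !e.2)

theorem rdu251_T_T (e : (ℤ × ℤ) × Bool) : rdu251T (rdu251T e) = e := by
  obtain ⟨⟨a, b⟩, t⟩ := e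
  simp [rdu251T]

theorem rdu251_T_fst (e : (ℤ × ℤ) × Bool) : (rdu251T e).1 = e.1.swap := rfl

theorem rdu251_end_T (e : (ℤ × ℤ) × Bool) : rswEnd (rdu251T e) = (rswEnd e).swap := by
  obtain ⟨⟨a, b⟩, t⟩ := e
  cases t <;> simp [rdu251T, rswEnd]

theorem rdu251_co_T (e : (ℤ × ℤ) × Bool) : rswCo (rdu251T e) = (rswCo e).swap := by
  obtain ⟨⟨a, b⟩, t⟩ := e
  cases t <;> simp [rdu251T, rswCo]

theorem rdu251_preimage_T_T (G : Set ((ℤ × ℤ) × Bool)) : rdu251T ⁻¹' (rdu251T ⁻¹' G) = G := by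
  ext e
  simp only [Set.mem_preimage, rdu251_T_T]

theorem rdu251_rect_swap (x0 x1 y0 y1 : ℤ) :
    Prod.swap ⁻¹' rdu251Rect x0 x1 y0 y1 = rdu251Rect y0 y1 x0 x1 := by
  ext ⟨a, b⟩
  simp only [Set.mem_preimage, Prod.swap_prod_mk, rdu251_mem_rect]
  tauto

theorem rdu251_step_T {F : Set (ℤ × ℤ)} {G : Set ((ℤ × ℤ) × Bool)} {f g : ℤ × ℤ}
    (h : rdu251Step F G f g) : rdu251Step (Prod.swap ⁻¹' F) (rdu251T ⁻¹' G) f.swap g.swap := by
  obtain ⟨hf, hg, e, he, heG⟩ := h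
  refine ⟨by simpa using hf, by simpa using hg, rdu251T e, ?_, by simpa [rdu251_T_T] using heG⟩
  rw [rdu251_co_T, rdu251_T_fst]
  rcases he with ⟨h1, h2⟩ | ⟨h1, h2⟩
  · exact Or.inl ⟨by rw [h1], by rw [h2]⟩
  · exact Or.inr ⟨by rw [h1], by rw [h2]⟩

theorem rdu251_pstep_T {F : Set (ℤ × ℤ)} {G : Set ((ℤ × ℤ) × Bool)} {u v : ℤ × ℤ}
    (h : rdu251PStep F G u v) : rdu251PStep (Prod.swap ⁻¹' F) (rdu251T ⁻¹' G) u.swap v.swap := by
  obtain ⟨e, hG, h1, h2, h3⟩ := h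
  refine ⟨rdu251T e, by simpa [rdu251_T_T] using hG, by simpa [rdu251_T_fst] using h1,
    by simpa [rdu251_co_T] using h2, ?_⟩
  rw [rdu251_end_T, rdu251_T_fst]
  rcases h3 with ⟨r1, r2⟩ | ⟨r1, r2⟩
  · exact Or.inl ⟨by rw [r1], by rw [r2]⟩
  · exact Or.inr ⟨by rw [r1], by rw [r2]⟩

theorem rdu251_chain_T {F : Set (ℤ × ℤ)} {G : Set ((ℤ × ℤ) × Bool)} {f g : ℤ × ℤ}
    (h : ReflTransGen (rdu251Step F G) f g) :
    ReflTransGen (rdu251Step (Prod.swap ⁻¹' F) (rdu251T ⁻¹' G)) f.swap g.swap :=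
  ReflTransGen.lift Prod.swap (fun _ _ h => rdu251_step_T h) _ _ h

theorem rdu251_pchain_T {F : Set (ℤ × ℤ)} {G : Set ((ℤ × ℤ) × Bool)} {u v : ℤ × ℤ}
    (h : ReflTransGen (rdu251PStep F G) u v) :
    ReflTransGen (rdu251PStep (Prod.swap ⁻¹' F) (rdu251T ⁻¹' G)) u.swap v.swap :=
  ReflTransGen.lift Prod.swap (fun _ _ h => rdu251_pstep_T h) _ _ h

theorem rdu251_dualLR_T {x0 x1 y0 y1 : ℤ} {G : Set ((ℤ × ℤ) × Bool)} (h : Rdu251DualLR x0 x1 y0 y1 G) :
    Rdu251DualBT y0 y1 x0 x1 (rdu251T ⁻¹' G) := by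
  obtain ⟨f, g, hf, hf0, hg, hg1, hch⟩ := h
  have := rdu251_chain_T hch
  rw [rdu251_rect_swap] at this
  refine ⟨f.swap, g.swap, ?_, hf0, ?_, hg1, this⟩
  · rw [← rdu251_rect_swap]; simpa using hf
  · rw [← rdu251_rect_swap]; simpa using hg

theorem rdu251_dualBT_T {x0 x1 y0 y1 : ℤ} {G : Set ((ℤ × ℤ) × Bool)} (h : Rdu251DualBT x0 x1 y0 y1 G) :
    Rdu251DualLR y0 y1 x0 x1 (rdu251T ⁻¹' G) := by
  obtain ⟨f, g, hf, hf0, hg, hg1, hch⟩ := h
  have := rdu251_chain_T hch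
  rw [rdu251_rect_swap] at this
  refine ⟨f.swap, g.swap, ?_, hf0, ?_, hg1, this⟩
  · rw [← rdu251_rect_swap]; simpa using hf
  · rw [← rdu251_rect_swap]; simpa using hg

theorem rdu251_primBT_T {x0 x1 y0 y1 : ℤ} {G : Set ((ℤ × ℤ) × Bool)} (h : Rdu251PrimBT x0 x1 y0 y1 G) :
    Rdu251PrimLR y0 y1 x0 x1 (rdu251T ⁻¹' G) := by
  obtain ⟨u, v, hu, hv, hch⟩ := h
  have := rdu251_pchain_T hch
  rw [rdu251_rect_swap] at this
  exact ⟨u.swap, v.swap, hu, hv, this⟩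

theorem rdu251_primLR_T {x0 x1 y0 y1 : ℤ} {G : Set ((ℤ × ℤ) × Bool)} (h : Rdu251PrimLR x0 x1 y0 y1 G) :
    Rdu251PrimBT y0 y1 x0 x1 (rdu251T ⁻¹' G) := by
  obtain ⟨u, v, hu, hv, hch⟩ := h
  have := rdu251_pchain_T hch
  rw [rdu251_rect_swap] at this
  exact ⟨u.swap, v.swap, hu, hv, this⟩

/-- **DUALITY IN A RECTANGLE, the other direction** -/
theorem rdu251_duality' {x0 x1 y0 y1 : ℤ} (hx : x0 < x1) (hy : y0 < y1) (G : Set ((ℤ × ℤ) × Bool)) :
    Rdu251PrimBT x0 x1 y0 y1 G ↔ ¬ Rdu251DualLR x0 x1 y0 y1 G := by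
  constructor
  · intro hp hd
    exact rdu251_not_both hy hx _ (rdu251_dualLR_T hd) (rdu251_primBT_T hp)
  · intro hno
    have h1 : ¬ Rdu251DualBT y0 y1 x0 x1 (rdu251T ⁻¹' G) := by
      intro hd
      have := rdu251_dualBT_T hd
      rw [rdu251_preimage_T_T] at this
      exact hno this
    have := rdu251_primLR_T (rdu251_prim_of_not_dual hy hx _ h1)
    rw [rdu251_preimage_T_T] at this
    exact this

/-! ### the words of Defs/RSW -/

/-- the good edges of colour `a` -/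
def rdu251Good (a : Bool) (ω : RswCfg) : Set ((ℤ × ℤ) × Bool) := {e | RswGood a ω e}

theorem rdu251_rswStep (F : Finset (ℤ × ℤ)) (a : Bool) (ω : RswCfg) :
    RswStep F a ω = rdu251Step (↑F) (rdu251Good a ω) := by
  funext f g
  rfl

theorem rdu251_rswSep (F : Finset (ℤ × ℤ)) (a : Bool) (ω : RswCfg) (A B : Finset (ℤ × ℤ)) :
    RswSep F a ω A B ↔ ∀ f ∈ A, ∀ g ∈ B, ¬ ReflTransGen (rdu251Step (↑F) (rdu251Good a ω)) f g := by
  unfold RswSep
  rw [rdu251_rswStep]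

/-- monotonicity of the chains of faces -/
theorem rdu251_chain_mono {F F' : Set (ℤ × ℤ)} {G G' : Set ((ℤ × ℤ) × Bool)} (hF : F ⊆ F') (hG : G' ⊆ G)
    {f g : ℤ × ℤ} (h : ReflTransGen (rdu251Step F G) f g) : ReflTransGen (rdu251Step F' G') f g :=
  ReflTransGen.mono (fun _ _ ⟨h1, h2, e, he, heG⟩ => ⟨hF h1, hF h2, e, he, fun h => heG (hG h)⟩) _ _ h

/-- monotonicity of the chains of good edges -/
theorem rdu251_pchain_mono {F F' : Set (ℤ × ℤ)} {G G' : Set ((ℤ × ℤ) × Bool)} (hF : F ⊆ F') (hG : G ⊆ G')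
    {u v : ℤ × ℤ} (h : ReflTransGen (rdu251PStep F G) u v) : ReflTransGen (rdu251PStep F' G') u v :=
  ReflTransGen.mono (fun _ _ ⟨e, h1, h2, h3, h4⟩ => ⟨e, hG h1, hF h2, hF h3, h4⟩) _ _ h

/-! ### a left-right chain and a bottom-top chain of good edges are joined -/

/-- the four faces round a vertex -/
def rdu251Around (z : ℤ × ℤ) : Set (ℤ × ℤ) :=
  {f | f = z ∨ f = (z.1 - 1, z.2) ∨ f = (z.1, z.2 - 1) ∨ f = (z.1 - 1, z.2 - 1)}

/-- both faces of an edge lie round both of its endpoints -/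
theorem rdu251_face_around (e : (ℤ × ℤ) × Bool) :
    e.1 ∈ rdu251Around e.1 ∧ e.1 ∈ rdu251Around (rswEnd e) := by
  obtain ⟨⟨a, b⟩, t⟩ := e
  refine ⟨Or.inl rfl, ?_⟩
  cases t
  · right; left; simp [rswEnd]
  · right; right; left; simp [rswEnd]

/-- if no edge at `z` is good, the faces of a rectangle round `z` are joined -/
theorem rdu251_around_joined {x0 x1 y0 y1 : ℤ} {G : Set ((ℤ × ℤ) × Bool)} (z : ℤ × ℤ)
    (hz : ∀ e : (ℤ × ℤ) × Bool, (e.1 = z ∨ rswEnd e = z) → e ∉ G) {f g : ℤ × ℤ}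
    (hf : f ∈ rdu251Around z) (hfR : f ∈ rdu251Rect x0 x1 y0 y1)
    (hg : g ∈ rdu251Around z) (hgR : g ∈ rdu251Rect x0 x1 y0 y1) :
    ReflTransGen (rdu251Step (rdu251Rect x0 x1 y0 y1) G) f g := by
  obtain ⟨a, b⟩ := z
  set R := rdu251Rect x0 x1 y0 y1 with hR
  have hmemR : ∀ x y : ℤ, (x, y) ∈ R ↔ x0 ≤ x ∧ x < x1 ∧ y0 ≤ y ∧ y < y1 := fun x y => Iff.rfl
  have l1 : (a, b) ∈ R → (a - 1, b) ∈ R → rdu251Step R G (a, b) (a - 1, b) := fun h1 h2 =>
    ⟨h1, h2, ((a, b), true), Or.inl ⟨rfl, by simp [rswCo]⟩, hz _ (Or.inl rfl)⟩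
  have l2 : (a, b) ∈ R → (a, b - 1) ∈ R → rdu251Step R G (a, b) (a, b - 1) := fun h1 h2 =>
    ⟨h1, h2, ((a, b), false), Or.inl ⟨rfl, by simp [rswCo]⟩, hz _ (Or.inl rfl)⟩
  have l3 : (a - 1, b) ∈ R → (a - 1, b - 1) ∈ R → rdu251Step R G (a - 1, b) (a - 1, b - 1) := fun h1 h2 =>
    ⟨h1, h2, ((a - 1, b), false), Or.inl ⟨rfl, by simp [rswCo]⟩, hz _ (Or.inr (by simp [rswEnd]))⟩
  have l4 : (a, b - 1) ∈ R → (a - 1, b - 1) ∈ R → rdu251Step R G (a, b - 1) (a - 1, b - 1) := fun h1 h2 =>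
    ⟨h1, h2, ((a, b - 1), true), Or.inl ⟨rfl, by simp [rswCo]⟩, hz _ (Or.inr (by simp [rswEnd]))⟩
  have S := @rdu251_step_symm R G
  rcases hf with rfl | rfl | rfl | rfl <;> rcases hg with rfl | rfl | rfl | rfl
  · exact ReflTransGen.refl
  · exact ReflTransGen.single (l1 hfR hgR)
  · exact ReflTransGen.single (l2 hfR hgR)
  · have hm : (a - 1, b) ∈ R := by
      have h1 := (hmemR _ _).1 hfR; have h2 := (hmemR _ _).1 hgR
      exact (hmemR _ _).2 ⟨by omega, by omega, by omega, by omega⟩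
    exact (ReflTransGen.single (l1 hfR hm)).tail (l3 hm hgR)
  · exact ReflTransGen.single (S (l1 hgR hfR))
  · exact ReflTransGen.refl
  · have hm : (a, b) ∈ R := by
      have h1 := (hmemR _ _).1 hfR; have h2 := (hmemR _ _).1 hgR
      exact (hmemR _ _).2 ⟨by omega, by omega, by omega, by omega⟩
    exact (ReflTransGen.single (S (l1 hm hfR))).tail (l2 hm hgR)
  · exact ReflTransGen.single (l3 hfR hgR)
  · exact ReflTransGen.single (S (l2 hgR hfR))
  · have hm : (a, b) ∈ R := by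
      have h1 := (hmemR _ _).1 hfR; have h2 := (hmemR _ _).1 hgR
      exact (hmemR _ _).2 ⟨by omega, by omega, by omega, by omega⟩
    exact (ReflTransGen.single (S (l2 hm hfR))).tail (l1 hm hgR)
  · exact ReflTransGen.refl
  · exact ReflTransGen.single (l4 hfR hgR)
  · have hm : (a - 1, b) ∈ R := by
      have h1 := (hmemR _ _).1 hfR; have h2 := (hmemR _ _).1 hgR
      exact (hmemR _ _).2 ⟨by omega, by omega, by omega, by omega⟩
    exact (ReflTransGen.single (S (l3 hm hfR))).tail (S (l1 hgR hm))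
  · exact ReflTransGen.single (S (l3 hgR hfR))
  · exact ReflTransGen.single (S (l4 hgR hfR))
  · exact ReflTransGen.refl

/-- a chain of vertices none of which touches `G'` drags a chain of faces along -/
theorem rdu251_drag {x0 x1 y0 y1 : ℤ} {G G' : Set ((ℤ × ℤ) × Bool)} {u v : ℤ × ℤ}
    (h : ReflTransGen (rdu251PStep (rdu251Rect x0 x1 y0 y1) G) u v)
    (hfree : ∀ z, ReflTransGen (rdu251PStep (rdu251Rect x0 x1 y0 y1) G) u z →
      ∀ e : (ℤ × ℤ) × Bool, (e.1 = z ∨ rswEnd e = z) → e ∉ G')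
    {f g : ℤ × ℤ} (hf : f ∈ rdu251Around u) (hfR : f ∈ rdu251Rect x0 x1 y0 y1)
    (hg : g ∈ rdu251Around v) (hgR : g ∈ rdu251Rect x0 x1 y0 y1) :
    ReflTransGen (rdu251Step (rdu251Rect x0 x1 y0 y1) G') f g := by
  induction h generalizing g with
  | refl => exact rdu251_around_joined u (hfree u ReflTransGen.refl) hf hfR hg hgR
  | @tail b c hub hbc ih =>
    have hbc' := hbc
    obtain ⟨e, _, h1, _, h3⟩ := hbc'
    have ha := rdu251_face_around e
    have hb : e.1 ∈ rdu251Around b ∧ e.1 ∈ rdu251Around c := by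
      rcases h3 with ⟨r1, r2⟩ | ⟨r1, r2⟩
      · rw [r1, r2]; exact ha
      · rw [r1, r2]; exact ha.symm
    exact (ih hb.1 h1).trans
      (rdu251_around_joined c (hfree c (hub.tail hbc)) hb.2 h1 hg hgR)

/-- **a left-right chain and a bottom-top chain of good edges of one rectangle are joined** -/
theorem rdu251_cross_meet {x0 x1 y0 y1 : ℤ} (hx : x0 < x1) (hy : y0 < y1) (G : Set ((ℤ × ℤ) × Bool))
    {u v u' v' : ℤ × ℤ} (hu : u.1 = x0) (hv : v.1 = x1)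
    (huv : ReflTransGen (rdu251PStep (rdu251Rect x0 x1 y0 y1) G) u v)
    (hu' : u'.2 = y0) (hv' : v'.2 = y1)
    (huv' : ReflTransGen (rdu251PStep (rdu251Rect x0 x1 y0 y1) G) u' v') :
    ReflTransGen (rdu251PStep (rdu251Rect x0 x1 y0 y1) G) u u' := by
  by_contra hcon
  set R := rdu251Rect x0 x1 y0 y1 with hR
  -- the good edges of the cluster of `u'`
  set G' : Set ((ℤ × ℤ) × Bool) :=
    {e | e ∈ G ∧ e.1 ∈ R ∧ rswCo e ∈ R ∧ ReflTransGen (rdu251PStep R G) u' e.1} with hG'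
  have hBT : Rdu251PrimBT x0 x1 y0 y1 G' := by
    refine ⟨u', v', hu', hv', ?_⟩
    have : ∀ z, ReflTransGen (rdu251PStep R G) u' z → ReflTransGen (rdu251PStep R G') u' z := by
      intro z hz
      induction hz with
      | refl => exact ReflTransGen.refl
      | @tail b c hub hbc ih =>
        refine ih.tail ?_
        obtain ⟨e, h0, h1, h2, h3⟩ := hbc
        refine ⟨e, ⟨h0, h1, h2, ?_⟩, h1, h2, h3⟩
        rcases h3 with ⟨r1, _⟩ | ⟨r1, r2⟩
        · rw [← r1]; exact hub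
        · rw [← r1]; exact hub.tail ⟨e, h0, h1, h2, Or.inr ⟨r1, r2⟩⟩
    exact this v' huv'
  have hfree : ∀ z, ReflTransGen (rdu251PStep R G) u z →
      ∀ e : (ℤ × ℤ) × Bool, (e.1 = z ∨ rswEnd e = z) → e ∉ G' := by
    rintro z hz e he ⟨h0, h1, h2, h3⟩
    apply hcon
    rcases he with he | he
    · rw [he] at h3
      exact hz.trans (rdu251_pchain_symm h3)
    · have h4 : ReflTransGen (rdu251PStep R G) u' z := by
        rw [← he]; exact h3.tail ⟨e, h0, h1, h2, Or.inl ⟨rfl, rfl⟩⟩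
      exact hz.trans (rdu251_pchain_symm h4)
  -- a face of the left column round `u`, a face of the right column round `v`
  have hne : u ≠ v := by
    intro h; rw [h] at hu; omega
  obtain ⟨f, hfa, hfR⟩ : ∃ f, f ∈ rdu251Around u ∧ f ∈ R := by
    rcases ReflTransGen.cases_head huv with h | ⟨c, huc, _⟩
    · exact absurd h hne
    · obtain ⟨e, _, h1, _, h3⟩ := huc
      have ha := rdu251_face_around e
      rcases h3 with ⟨r1, _⟩ | ⟨_, r2⟩
      · exact ⟨e.1, r1 ▸ ha.1, h1⟩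
      · exact ⟨e.1, r2 ▸ ha.2, h1⟩
  obtain ⟨g, hga, hgR⟩ : ∃ g, g ∈ rdu251Around v ∧ g ∈ R := by
    rcases ReflTransGen.cases_tail huv with h | ⟨c, _, hcv⟩
    · exact absurd h.symm hne
    · obtain ⟨e, _, h1, _, h3⟩ := hcv
      have ha := rdu251_face_around e
      rcases h3 with ⟨_, r2⟩ | ⟨r1, _⟩
      · exact ⟨e.1, r2 ▸ ha.2, h1⟩
      · exact ⟨e.1, r1 ▸ ha.1, h1⟩
  have hf0 : f.1 = x0 := by
    have h1 := rdu251_mem_rect.1 hfR
    rcases hfa with h | h | h | h <;> rw [h] at h1 ⊢ <;> (try dsimp only at h1 ⊢) <;> omega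
  have hg1 : g.1 = x1 - 1 := by
    have h1 := rdu251_mem_rect.1 hgR
    rcases hga with h | h | h | h <;> rw [h] at h1 ⊢ <;> (try dsimp only at h1 ⊢) <;> omega
  exact (rdu251_duality' hx hy G').1 hBT ⟨f, g, hfR, hf0, hgR, hg1, rdu251_drag huv hfree hfa hfR hga hgR⟩

/-! ### four long crossings of an annulus separate -/

/-- last entry of a chain of faces into a part `H` of `F` -/
theorem rdu251_last_entry {F H E : Set (ℤ × ℤ)} {G : Set ((ℤ × ℤ) × Bool)}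
    (hE : ∀ a b, rdu251Step F G a b → a ∉ H → b ∈ H → b ∈ E) {f g : ℤ × ℤ}
    (h : ReflTransGen (rdu251Step F G) f g) (hf : f ∉ H) :
    g ∉ H ∨ ∃ f', f' ∈ E ∧ f' ∈ H ∧ ReflTransGen (rdu251Step H G) f' g := by
  induction h with
  | refl => exact Or.inl hf
  | @tail b c _ hbc ih =>
    by_cases hc : c ∈ H
    · right
      rcases ih with hb | ⟨f', h1, h2, h3⟩
      · exact ⟨c, hE b c hbc hb hc, hc, ReflTransGen.refl⟩
      · have hbH : b ∈ H := by
          rcases ReflTransGen.cases_tail h3 with h | ⟨d, _, hd⟩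
          · rw [h]; exact h2
          · exact hd.2.1
        obtain ⟨_, _, e, he, heG⟩ := hbc
        exact ⟨f', h1, h2, h3.tail ⟨hbH, hc, e, he, heG⟩⟩
    · exact Or.inl hc

/-- neighbouring faces -/
theorem rdu251_step_adj {F : Set (ℤ × ℤ)} {G : Set ((ℤ × ℤ) × Bool)} {f g : ℤ × ℤ}
    (h : rdu251Step F G f g) :
    (g.1 = f.1 ∧ (g.2 = f.2 + 1 ∨ g.2 = f.2 - 1)) ∨ (g.2 = f.2 ∧ (g.1 = f.1 + 1 ∨ g.1 = f.1 - 1)) := by
  obtain ⟨_, _, ⟨⟨a, b⟩, t⟩, he, _⟩ := h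
  cases t
  · rcases he with ⟨h1, h2⟩ | ⟨h1, h2⟩
    · rw [h1, h2]; simp [rswCo]
    · rw [h1, h2]; simp [rswCo]
  · rcases he with ⟨h1, h2⟩ | ⟨h1, h2⟩
    · rw [h1, h2]; simp [rswCo]
    · rw [h1, h2]; simp [rswCo]

/-- **four long crossings of the annulus `[X0,X1)×[Y0,Y1) \ [a0,a1)×[b0,b1)` by good edges separate the inner box from the
boundary faces of the outer box** -/
theorem rdu251_sep_of_four {X0 X1 Y0 Y1 a0 a1 b0 b1 : ℤ} (h1 : X0 < a0) (h2 : a1 < X1) (h3 : Y0 < b0) (h4 : b1 < Y1)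
    (h5 : a0 ≤ a1) (h6 : b0 ≤ b1)
    (G : Set ((ℤ × ℤ) × Bool))
    (hT : Rdu251PrimLR X0 X1 b1 Y1 G) (hB : Rdu251PrimLR X0 X1 Y0 b0 G)
    (hL : Rdu251PrimBT X0 a0 Y0 Y1 G) (hR : Rdu251PrimBT a1 X1 Y0 Y1 G)
    {f g : ℤ × ℤ} (hf : f ∈ rdu251Rect a0 a1 b0 b1)
    (hg : g.1 = X0 ∨ g.1 = X1 - 1 ∨ g.2 = Y0 ∨ g.2 = Y1 - 1) :
    ¬ ReflTransGen (rdu251Step (rdu251Rect X0 X1 Y0 Y1) G) f g := by
  intro hch
  have hf' := rdu251_mem_rect.1 hf
  have hgF : g ∈ rdu251Rect X0 X1 Y0 Y1 := by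
    rcases ReflTransGen.cases_tail hch with h | ⟨d, _, hd⟩
    · rw [h]; exact rdu251_mem_rect.2 ⟨by omega, by omega, by omega, by omega⟩
    · exact hd.2.1
  have hg' := rdu251_mem_rect.1 hgF
  rcases hg with hg | hg | hg | hg
  · -- left
    have := rdu251_last_entry (H := rdu251Rect X0 a0 Y0 Y1) (E := {p | p.1 = a0 - 1}) (by
      intro a b hab ha hb
      have q1 := rdu251_mem_rect.1 hab.1
      have q2 := rdu251_mem_rect.1 hb
      have q3 := rdu251_step_adj hab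
      have q4 : ¬ (X0 ≤ a.1 ∧ a.1 < a0 ∧ Y0 ≤ a.2 ∧ a.2 < Y1) := ha
      show b.1 = a0 - 1
      omega) hch (fun h => by have := rdu251_mem_rect.1 h; omega)
    rcases this with h | ⟨f', e1, e2, e3⟩
    · exact h (rdu251_mem_rect.2 ⟨by omega, by omega, by omega, by omega⟩)
    · exact (rdu251_duality' (by omega) (by omega) G).1 hL
        ⟨g, f', rdu251_mem_rect.2 ⟨by omega, by omega, by omega, by omega⟩, hg, e2, e1, rdu251_chain_symm e3⟩
  · -- right
    have := rdu251_last_entry (H := rdu251Rect a1 X1 Y0 Y1) (E := {p | p.1 = a1}) (by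
      intro a b hab ha hb
      have q1 := rdu251_mem_rect.1 hab.1
      have q2 := rdu251_mem_rect.1 hb
      have q3 := rdu251_step_adj hab
      have q4 : ¬ (a1 ≤ a.1 ∧ a.1 < X1 ∧ Y0 ≤ a.2 ∧ a.2 < Y1) := ha
      show b.1 = a1
      omega) hch (fun h => by have := rdu251_mem_rect.1 h; omega)
    rcases this with h | ⟨f', e1, e2, e3⟩
    · exact h (rdu251_mem_rect.2 ⟨by omega, by omega, by omega, by omega⟩)
    · exact (rdu251_duality' (by omega) (by omega) G).1 hR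
        ⟨f', g, e2, e1, rdu251_mem_rect.2 ⟨by omega, by omega, by omega, by omega⟩, hg, e3⟩
  · -- bottom
    have := rdu251_last_entry (H := rdu251Rect X0 X1 Y0 b0) (E := {p | p.2 = b0 - 1}) (by
      intro a b hab ha hb
      have q1 := rdu251_mem_rect.1 hab.1
      have q2 := rdu251_mem_rect.1 hb
      have q3 := rdu251_step_adj hab
      have q4 : ¬ (X0 ≤ a.1 ∧ a.1 < X1 ∧ Y0 ≤ a.2 ∧ a.2 < b0) := ha
      show b.2 = b0 - 1
      omega) hch (fun h => by have := rdu251_mem_rect.1 h; omega)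
    rcases this with h | ⟨f', e1, e2, e3⟩
    · exact h (rdu251_mem_rect.2 ⟨by omega, by omega, by omega, by omega⟩)
    · exact (rdu251_duality (by omega) (by omega) G).1 hB
        ⟨g, f', rdu251_mem_rect.2 ⟨by omega, by omega, by omega, by omega⟩, hg, e2, e1, rdu251_chain_symm e3⟩
  · -- top
    have := rdu251_last_entry (H := rdu251Rect X0 X1 b1 Y1) (E := {p | p.2 = b1}) (by
      intro a b hab ha hb
      have q1 := rdu251_mem_rect.1 hab.1
      have q2 := rdu251_mem_rect.1 hb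
      have q3 := rdu251_step_adj hab
      have q4 : ¬ (X0 ≤ a.1 ∧ a.1 < X1 ∧ b1 ≤ a.2 ∧ a.2 < Y1) := ha
      show b.2 = b1
      omega) hch (fun h => by have := rdu251_mem_rect.1 h; omega)
    rcases this with h | ⟨f', e1, e2, e3⟩
    · exact h (rdu251_mem_rect.2 ⟨by omega, by omega, by omega, by omega⟩)
    · exact (rdu251_duality (by omega) (by omega) G).1 hT
        ⟨f', g, e2, e1, rdu251_mem_rect.2 ⟨by omega, by omega, by omega, by omega⟩, hg, e3⟩

/-- the box of Defs/RSW is a rectangle -/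
theorem rdu251_coe_box (z : ℤ × ℤ) (n : ℕ) :
    (↑(rswBox z n) : Set (ℤ × ℤ)) = rdu251Rect (z.1 - n) (z.1 + n) (z.2 - n) (z.2 + n) := by
  ext ⟨a, b⟩
  simp only [rswBox, Finset.coe_product, Finset.coe_Ico, Set.mem_prod, Set.mem_Ico, rdu251_mem_rect]
  tauto

/-- the layer of a box lies in its four boundary rows -/
theorem rdu251_layer_box {z : ℤ × ℤ} {n : ℕ} {g : ℤ × ℤ} (hg : g ∈ rswLayer (rswBox z n)) :
    g.1 = z.1 - n ∨ g.1 = z.1 + n - 1 ∨ g.2 = z.2 - n ∨ g.2 = z.2 + n - 1 := by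
  classical
  have hmem : ∀ p : ℤ × ℤ, p ∈ rswBox z n ↔ (z.1 - n ≤ p.1 ∧ p.1 < z.1 + n) ∧ (z.2 - n ≤ p.2 ∧ p.2 < z.2 + n) := by
    intro p
    simp only [rswBox, Finset.mem_product, Finset.mem_Ico]
  simp only [rswLayer, Finset.mem_filter] at hg
  obtain ⟨hgF, v, hv, hpoly⟩ := hg
  have hgF' := (hmem g).1 hgF
  by_contra hcon
  simp only [not_or] at hcon
  apply hpoly
  simp only [Finset.mem_insert, Finset.mem_singleton] at hv
  rcases hv with rfl | rfl | rfl | rfl <;>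
    refine ⟨(hmem _).2 ?_, (hmem _).2 ?_, (hmem _).2 ?_, (hmem _).2 ?_⟩ <;>
    (try dsimp only) <;> omega

/-- **`RswSep` from four long crossings of the annulus `Λ_N \ Λ_n`** (the event of `exit_rsw_circuit` is the case `N = 2 n`) -/
theorem rdu251_rswSep_of_four (z : ℤ × ℤ) {n N : ℕ} (hnN : n < N) (a : Bool) (ω : RswCfg)
    (hT : Rdu251PrimLR (z.1 - N) (z.1 + N) (z.2 + n) (z.2 + N) (rdu251Good a ω))
    (hB : Rdu251PrimLR (z.1 - N) (z.1 + N) (z.2 - N) (z.2 - n) (rdu251Good a ω))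
    (hL : Rdu251PrimBT (z.1 - N) (z.1 - n) (z.2 - N) (z.2 + N) (rdu251Good a ω))
    (hR : Rdu251PrimBT (z.1 + n) (z.1 + N) (z.2 - N) (z.2 + N) (rdu251Good a ω)) :
    RswSep (rswBox z N) a ω (rswBox z n) (rswLayer (rswBox z N)) := by
  rw [rdu251_rswSep]
  intro f hf g hg
  rw [rdu251_coe_box]
  have hf' : f ∈ rdu251Rect (z.1 - n) (z.1 + n) (z.2 - n) (z.2 + n) := by
    rw [← rdu251_coe_box]; exact hf
  exact rdu251_sep_of_four (by omega) (by omega) (by omega) (by omega) (by omega) (by omega) _ hT hB hL hR hf'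
    (rdu251_layer_box hg)

/-! ### separation = a closed set of faces with good boundary (exploration form) -/

theorem rdu251_sep_iff_cut (F : Set (ℤ × ℤ)) (G : Set ((ℤ × ℤ) × Bool)) (A B : Set (ℤ × ℤ)) :
    (∀ f ∈ A, ∀ g ∈ B, ¬ ReflTransGen (rdu251Step F G) f g) ↔
      ∃ K : Set (ℤ × ℤ), A ⊆ K ∧ Disjoint K B ∧
        ∀ e : (ℤ × ℤ) × Bool, e.1 ∈ F → rswCo e ∈ F → ¬ (e.1 ∈ K ↔ rswCo e ∈ K) → e ∈ G := by
  constructor
  · intro h
    refine ⟨{g | ∃ f ∈ A, ReflTransGen (rdu251Step F G) f g}, fun f hf => ⟨f, hf, ReflTransGen.refl⟩, ?_, ?_⟩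
    · rw [Set.disjoint_left]
      rintro g ⟨f, hf, hch⟩ hg
      exact h f hf g hg hch
    · intro e h1 h2 hne
      by_contra hG
      apply hne
      constructor
      · rintro ⟨f, hf, hch⟩
        exact ⟨f, hf, hch.tail ⟨h1, h2, e, Or.inl ⟨rfl, rfl⟩, hG⟩⟩
      · rintro ⟨f, hf, hch⟩
        exact ⟨f, hf, hch.tail ⟨h2, h1, e, Or.inr ⟨rfl, rfl⟩, hG⟩⟩
  · rintro ⟨K, hA, hKB, hK⟩ f hf g hg hch
    have key : ∀ g, ReflTransGen (rdu251Step F G) f g → g ∈ K := by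
      intro g hch
      induction hch with
      | refl => exact hA hf
      | @tail b c _ hbc ih =>
        obtain ⟨hb, hc, e, he, heG⟩ := hbc
        by_contra hcK
        apply heG
        rcases he with ⟨r1, r2⟩ | ⟨r1, r2⟩
        · exact hK e (r1 ▸ hb) (r2 ▸ hc) (fun hiff => hcK (r2 ▸ hiff.1 (r1 ▸ ih)))
        · exact hK e (r1 ▸ hc) (r2 ▸ hb) (fun hiff => hcK (r1 ▸ hiff.2 (r2 ▸ ih)))
    exact Set.disjoint_left.1 hKB (key g hch) hg

/-! ### sub-rectangles and gluing -/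

/-- coordinates of a step along an edge -/
theorem rdu251_pstep_coord {F : Set (ℤ × ℤ)} {G : Set ((ℤ × ℤ) × Bool)} {b d : ℤ × ℤ}
    (h : rdu251PStep F G b d) :
    (∃ x y : ℤ, ((x, y), false) ∈ G ∧ (x, y) ∈ F ∧ (x, y - 1) ∈ F ∧
        ((b = (x, y) ∧ d = (x + 1, y)) ∨ (d = (x, y) ∧ b = (x + 1, y)))) ∨
    (∃ x y : ℤ, ((x, y), true) ∈ G ∧ (x, y) ∈ F ∧ (x - 1, y) ∈ F ∧
        ((b = (x, y) ∧ d = (x, y + 1)) ∨ (d = (x, y) ∧ b = (x, y + 1)))) := by
  obtain ⟨⟨⟨x, y⟩, t⟩, hG, h1, h2, h3⟩ := h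
  cases t
  · left
    refine ⟨x, y, hG, h1, ?_, ?_⟩
    · simpa [rswCo] using h2
    · simpa [rswEnd] using h3
  · right
    refine ⟨x, y, hG, h1, ?_, ?_⟩
    · simpa [rswCo] using h2
    · simpa [rswEnd] using h3

theorem rdu251_pstep_of_h {F : Set (ℤ × ℤ)} {G : Set ((ℤ × ℤ) × Bool)} {x y : ℤ}
    (hG : ((x, y), false) ∈ G) (h1 : (x, y) ∈ F) (h2 : (x, y - 1) ∈ F) :
    rdu251PStep F G (x, y) (x + 1, y) :=
  ⟨((x, y), false), hG, h1, by simpa [rswCo] using h2, Or.inl ⟨rfl, by simp [rswEnd]⟩⟩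

theorem rdu251_pstep_of_v {F : Set (ℤ × ℤ)} {G : Set ((ℤ × ℤ) × Bool)} {x y : ℤ}
    (hG : ((x, y), true) ∈ G) (h1 : (x, y) ∈ F) (h2 : (x - 1, y) ∈ F) :
    rdu251PStep F G (x, y) (x, y + 1) :=
  ⟨((x, y), true), hG, h1, by simpa [rswCo] using h2, Or.inl ⟨rfl, by simp [rswEnd]⟩⟩

/-- a step to the right of the column `x = c` is a step of the right part of the rectangle -/
theorem rdu251_pstep_right {x0 x1 y0 y1 c : ℤ} {G : Set ((ℤ × ℤ) × Bool)} {b d : ℤ × ℤ}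
    (h : rdu251PStep (rdu251Rect x0 x1 y0 y1) G b d) (hb : c ≤ b.1) (hd : c ≤ d.1) (hbd : c < b.1 ∨ c < d.1) :
    rdu251PStep (rdu251Rect c x1 y0 y1) G b d := by
  rcases rdu251_pstep_coord h with ⟨x, y, hG, h1, h2, h3⟩ | ⟨x, y, hG, h1, h2, h3⟩
  · have h1' : x0 ≤ x ∧ x < x1 ∧ y0 ≤ y ∧ y < y1 := h1
    have h2' : x0 ≤ x ∧ x < x1 ∧ y0 ≤ y - 1 ∧ y - 1 < y1 := h2
    rcases h3 with ⟨rfl, rfl⟩ | ⟨rfl, rfl⟩
    · have hb' : c ≤ x := hb
      exact rdu251_pstep_of_h hG (show c ≤ x ∧ x < x1 ∧ y0 ≤ y ∧ y < y1 from ⟨hb', h1'.2⟩)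
        (show c ≤ x ∧ x < x1 ∧ y0 ≤ y - 1 ∧ y - 1 < y1 from ⟨hb', h2'.2⟩)
    · have hd' : c ≤ x := hd
      exact rdu251_pstep_symm (rdu251_pstep_of_h hG (show c ≤ x ∧ x < x1 ∧ y0 ≤ y ∧ y < y1 from ⟨hd', h1'.2⟩)
        (show c ≤ x ∧ x < x1 ∧ y0 ≤ y - 1 ∧ y - 1 < y1 from ⟨hd', h2'.2⟩))
  · have h1' : x0 ≤ x ∧ x < x1 ∧ y0 ≤ y ∧ y < y1 := h1
    have h2' : x0 ≤ x - 1 ∧ x - 1 < x1 ∧ y0 ≤ y ∧ y < y1 := h2
    rcases h3 with ⟨rfl, rfl⟩ | ⟨rfl, rfl⟩
    · have hx : c < x := by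
        rcases hbd with h | h
        · exact h
        · exact h
      exact rdu251_pstep_of_v hG (show c ≤ x ∧ x < x1 ∧ y0 ≤ y ∧ y < y1 from ⟨hx.le, h1'.2⟩)
        (show c ≤ x - 1 ∧ x - 1 < x1 ∧ y0 ≤ y ∧ y < y1 from ⟨by omega, h2'.2⟩)
    · have hx : c < x := by
        rcases hbd with h | h
        · exact h
        · exact h
      exact rdu251_pstep_symm (rdu251_pstep_of_v hG (show c ≤ x ∧ x < x1 ∧ y0 ≤ y ∧ y < y1 from ⟨hx.le, h1'.2⟩)
        (show c ≤ x - 1 ∧ x - 1 < x1 ∧ y0 ≤ y ∧ y < y1 from ⟨by omega, h2'.2⟩))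

/-- a step to the left of the column `x = c` is a step of the left part of the rectangle -/
theorem rdu251_pstep_left {x0 x1 y0 y1 c : ℤ} {G : Set ((ℤ × ℤ) × Bool)} {b d : ℤ × ℤ}
    (h : rdu251PStep (rdu251Rect x0 x1 y0 y1) G b d) (hb : b.1 ≤ c) (hd : d.1 ≤ c) (hbd : b.1 < c ∨ d.1 < c) :
    rdu251PStep (rdu251Rect x0 c y0 y1) G b d := by
  rcases rdu251_pstep_coord h with ⟨x, y, hG, h1, h2, h3⟩ | ⟨x, y, hG, h1, h2, h3⟩
  · have h1' : x0 ≤ x ∧ x < x1 ∧ y0 ≤ y ∧ y < y1 := h1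
    have h2' : x0 ≤ x ∧ x < x1 ∧ y0 ≤ y - 1 ∧ y - 1 < y1 := h2
    rcases h3 with ⟨rfl, rfl⟩ | ⟨rfl, rfl⟩
    · have hd' : x + 1 ≤ c := hd
      exact rdu251_pstep_of_h hG (show x0 ≤ x ∧ x < c ∧ y0 ≤ y ∧ y < y1 from ⟨h1'.1, by omega, h1'.2.2⟩)
        (show x0 ≤ x ∧ x < c ∧ y0 ≤ y - 1 ∧ y - 1 < y1 from ⟨h1'.1, by omega, h2'.2.2⟩)
    · have hb' : x + 1 ≤ c := hb
      exact rdu251_pstep_symm (rdu251_pstep_of_h hG
        (show x0 ≤ x ∧ x < c ∧ y0 ≤ y ∧ y < y1 from ⟨h1'.1, by omega, h1'.2.2⟩)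
        (show x0 ≤ x ∧ x < c ∧ y0 ≤ y - 1 ∧ y - 1 < y1 from ⟨h1'.1, by omega, h2'.2.2⟩))
  · have h1' : x0 ≤ x ∧ x < x1 ∧ y0 ≤ y ∧ y < y1 := h1
    have h2' : x0 ≤ x - 1 ∧ x - 1 < x1 ∧ y0 ≤ y ∧ y < y1 := h2
    rcases h3 with ⟨rfl, rfl⟩ | ⟨rfl, rfl⟩
    · have hx : x < c := by
        rcases hbd with h | h
        · exact h
        · exact h
      exact rdu251_pstep_of_v hG (show x0 ≤ x ∧ x < c ∧ y0 ≤ y ∧ y < y1 from ⟨h1'.1, hx, h1'.2.2⟩)
        (show x0 ≤ x - 1 ∧ x - 1 < c ∧ y0 ≤ y ∧ y < y1 from ⟨h2'.1, by omega, h2'.2.2⟩)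
    · have hx : x < c := by
        rcases hbd with h | h
        · exact h
        · exact h
      exact rdu251_pstep_symm (rdu251_pstep_of_v hG
        (show x0 ≤ x ∧ x < c ∧ y0 ≤ y ∧ y < y1 from ⟨h1'.1, hx, h1'.2.2⟩)
        (show x0 ≤ x - 1 ∧ x - 1 < c ∧ y0 ≤ y ∧ y < y1 from ⟨h2'.1, by omega, h2'.2.2⟩))

/-- the first coordinates of the two ends of a step differ by at most one -/
theorem rdu251_pstep_adj {F : Set (ℤ × ℤ)} {G : Set ((ℤ × ℤ) × Bool)} {b d : ℤ × ℤ}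
    (h : rdu251PStep F G b d) : d.1 ≤ b.1 + 1 ∧ b.1 ≤ d.1 + 1 := by
  rcases rdu251_pstep_coord h with ⟨x, y, _, _, _, h3⟩ | ⟨x, y, _, _, _, h3⟩ <;>
    rcases h3 with ⟨rfl, rfl⟩ | ⟨rfl, rfl⟩ <;> dsimp only <;> omega

/-- the part of a chain of good edges after its last visit to the column `x = c` -/
theorem rdu251_pchain_right {x0 x1 y0 y1 c : ℤ} {G : Set ((ℤ × ℤ) × Bool)} {u v : ℤ × ℤ}
    (h : ReflTransGen (rdu251PStep (rdu251Rect x0 x1 y0 y1) G) u v) (hu : u.1 ≤ c) :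
    v.1 ≤ c ∨ (c < v.1 ∧ ∃ p : ℤ × ℤ, p.1 = c ∧ ReflTransGen (rdu251PStep (rdu251Rect x0 x1 y0 y1) G) u p ∧
      ReflTransGen (rdu251PStep (rdu251Rect c x1 y0 y1) G) p v) := by
  induction h with
  | refl => exact Or.inl hu
  | @tail b d hub hbd ih =>
    by_cases hd : d.1 ≤ c
    · exact Or.inl hd
    · right
      refine ⟨by omega, ?_⟩
      have hadj := rdu251_pstep_adj hbd
      rcases ih with hb | ⟨hb, p, hp, hup, hpb⟩
      · exact ⟨b, by omega, hub, ReflTransGen.single (rdu251_pstep_right hbd (by omega) (by omega) (Or.inr (by omega)))⟩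
      · exact ⟨p, hp, hup, hpb.tail (rdu251_pstep_right hbd (by omega) (by omega) (Or.inr (by omega)))⟩

/-- the part of a chain of good edges after its last visit to the column `x = c`, on the other side -/
theorem rdu251_pchain_left {x0 x1 y0 y1 c : ℤ} {G : Set ((ℤ × ℤ) × Bool)} {u v : ℤ × ℤ}
    (h : ReflTransGen (rdu251PStep (rdu251Rect x0 x1 y0 y1) G) u v) (hu : c ≤ u.1) :
    c ≤ v.1 ∨ (v.1 < c ∧ ∃ p : ℤ × ℤ, p.1 = c ∧ ReflTransGen (rdu251PStep (rdu251Rect x0 x1 y0 y1) G) u p ∧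
      ReflTransGen (rdu251PStep (rdu251Rect x0 c y0 y1) G) p v) := by
  induction h with
  | refl => exact Or.inl hu
  | @tail b d hub hbd ih =>
    by_cases hd : c ≤ d.1
    · exact Or.inl hd
    · right
      refine ⟨by omega, ?_⟩
      have hadj := rdu251_pstep_adj hbd
      rcases ih with hb | ⟨hb, p, hp, hup, hpb⟩
      · exact ⟨b, by omega, hub, ReflTransGen.single (rdu251_pstep_left hbd (by omega) (by omega) (Or.inr (by omega)))⟩
      · exact ⟨p, hp, hup, hpb.tail (rdu251_pstep_left hbd (by omega) (by omega) (Or.inr (by omega)))⟩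

theorem rdu251_rect_mono {x0 x1 y0 y1 x0' x1' y0' y1' : ℤ} (h1 : x0' ≤ x0) (h2 : x1 ≤ x1') (h3 : y0' ≤ y0)
    (h4 : y1 ≤ y1') : rdu251Rect x0 x1 y0 y1 ⊆ rdu251Rect x0' x1' y0' y1' := by
  intro f hf
  have := rdu251_mem_rect.1 hf
  exact rdu251_mem_rect.2 ⟨by omega, by omega, by omega, by omega⟩

/-- **an LR crossing contains an LR crossing of every sub-rectangle of full height** -/
theorem rdu251_primLR_sub {x0 x1 y0 y1 c d : ℤ} (h1 : x0 ≤ c) (h2 : c < d) (h3 : d ≤ x1)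
    {G : Set ((ℤ × ℤ) × Bool)} (h : Rdu251PrimLR x0 x1 y0 y1 G) : Rdu251PrimLR c d y0 y1 G := by
  obtain ⟨u, v, hu, hv, hch⟩ := h
  rcases rdu251_pchain_right (c := c) hch (by omega) with hh | ⟨_, p, hp, _, hpv⟩
  · omega
  · rcases rdu251_pchain_left (c := d) (rdu251_pchain_symm hpv) (by omega) with hh | ⟨_, q, hq, _, hqp⟩
    · omega
    · exact ⟨p, q, hp, hq, rdu251_pchain_symm hqp⟩

/-- **GLUING**: `LR[x0,x2) + LR[x1,x3) + BT[x1,x2) ⟹ LR[x0,x3)` -/
theorem rdu251_glue_LR {x0 x1 x2 x3 y0 y1 : ℤ} (h01 : x0 ≤ x1) (h12 : x1 < x2) (h23 : x2 ≤ x3) (hy : y0 < y1)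
    {G : Set ((ℤ × ℤ) × Bool)} (hA : Rdu251PrimLR x0 x2 y0 y1 G) (hB : Rdu251PrimLR x1 x3 y0 y1 G)
    (hC : Rdu251PrimBT x1 x2 y0 y1 G) : Rdu251PrimLR x0 x3 y0 y1 G := by
  obtain ⟨u1, v1, hu1, hv1, hch1⟩ := hA
  obtain ⟨u2, v2, hu2, hv2, hch2⟩ := hB
  obtain ⟨u3, v3, hu3, hv3, hch3⟩ := hC
  rcases rdu251_pchain_right (c := x1) hch1 (by omega) with hh | ⟨_, p, hp, hup, hpv⟩
  · omega
  rcases rdu251_pchain_left (c := x2) (rdu251_pchain_symm hch2) (by omega) with hh | ⟨_, q, hq, hvq, hqu⟩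
  · omega
  have m1 := rdu251_cross_meet h12 hy G hp hv1 hpv hu3 hv3 hch3
  have m2 := rdu251_cross_meet h12 hy G hu2 hq (rdu251_pchain_symm hqu) hu3 hv3 hch3
  refine ⟨u1, v2, hu1, hv2, ?_⟩
  have e1 := rdu251_pchain_mono (rdu251_rect_mono le_rfl h23 le_rfl le_rfl) (le_refl G) hup
  have e2 := rdu251_pchain_mono (rdu251_rect_mono h01 h23 le_rfl le_rfl) (le_refl G) m1
  have e3 := rdu251_pchain_mono (rdu251_rect_mono h01 h23 le_rfl le_rfl) (le_refl G) (rdu251_pchain_symm m2)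
  have e4 := rdu251_pchain_mono (rdu251_rect_mono h01 le_rfl le_rfl le_rfl) (le_refl G) hch2
  exact ((e1.trans e2).trans e3).trans e4

/-- a BT crossing contains a BT crossing of every sub-rectangle of full width -/
theorem rdu251_primBT_sub {x0 x1 y0 y1 c d : ℤ} (h1 : y0 ≤ c) (h2 : c < d) (h3 : d ≤ y1)
    {G : Set ((ℤ × ℤ) × Bool)} (h : Rdu251PrimBT x0 x1 y0 y1 G) : Rdu251PrimBT x0 x1 c d G := by
  have := rdu251_primLR_T (rdu251_primLR_sub h1 h2 h3 (rdu251_primBT_T h))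
  rwa [rdu251_preimage_T_T] at this

/-- **GLUING**, the other direction: `BT[y0,y2) + BT[y1,y3) + LR[y1,y2) ⟹ BT[y0,y3)` -/
theorem rdu251_glue_BT {x0 x1 y0 y1 y2 y3 : ℤ} (h01 : y0 ≤ y1) (h12 : y1 < y2) (h23 : y2 ≤ y3) (hx : x0 < x1)
    {G : Set ((ℤ × ℤ) × Bool)} (hA : Rdu251PrimBT x0 x1 y0 y2 G) (hB : Rdu251PrimBT x0 x1 y1 y3 G)
    (hC : Rdu251PrimLR x0 x1 y1 y2 G) : Rdu251PrimBT x0 x1 y0 y3 G := by
  have := rdu251_primLR_T (rdu251_glue_LR h01 h12 h23 hx (rdu251_primBT_T hA) (rdu251_primBT_T hB)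
    (rdu251_primLR_T hC))
  rwa [rdu251_preimage_T_T] at this

/-- crossings are monotone in the good edges and in the height / width of the rectangle -/
theorem rdu251_primLR_mono {x0 x1 y0 y1 y0' y1' : ℤ} (h3 : y0' ≤ y0) (h4 : y1 ≤ y1')
    {G G' : Set ((ℤ × ℤ) × Bool)} (hG : G ⊆ G') (h : Rdu251PrimLR x0 x1 y0 y1 G) :
    Rdu251PrimLR x0 x1 y0' y1' G' := by
  obtain ⟨u, v, hu, hv, hch⟩ := h
  exact ⟨u, v, hu, hv, rdu251_pchain_mono (rdu251_rect_mono le_rfl le_rfl h3 h4) hG hch⟩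

theorem rdu251_primBT_mono {x0 x1 y0 y1 x0' x1' : ℤ} (h1 : x0' ≤ x0) (h2 : x1 ≤ x1')
    {G G' : Set ((ℤ × ℤ) × Bool)} (hG : G ⊆ G') (h : Rdu251PrimBT x0 x1 y0 y1 G) :
    Rdu251PrimBT x0' x1' y0 y1 G' := by
  obtain ⟨u, v, hu, hv, hch⟩ := h
  exact ⟨u, v, hu, hv, rdu251_pchain_mono (rdu251_rect_mono h1 h2 le_rfl le_rfl) hG hch⟩

/-! ### four long DUAL crossings of an annulus block the chains of good edges -/

/-- vertical versions of `rdu251_pchain_right`, `rdu251_pchain_left` -/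
theorem rdu251_pchain_up {x0 x1 y0 y1 c : ℤ} {G : Set ((ℤ × ℤ) × Bool)} {u v : ℤ × ℤ}
    (h : ReflTransGen (rdu251PStep (rdu251Rect x0 x1 y0 y1) G) u v) (hu : u.2 ≤ c) :
    v.2 ≤ c ∨ (c < v.2 ∧ ∃ p : ℤ × ℤ, p.2 = c ∧ ReflTransGen (rdu251PStep (rdu251Rect x0 x1 y0 y1) G) u p ∧
      ReflTransGen (rdu251PStep (rdu251Rect x0 x1 c y1) G) p v) := by
  have h' := rdu251_pchain_T h
  rw [rdu251_rect_swap] at h'
  rcases rdu251_pchain_right (c := c) h' hu with hh | ⟨hh, p, hp, h1, h2⟩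
  · exact Or.inl hh
  · refine Or.inr ⟨hh, p.swap, hp, ?_, ?_⟩
    · have := rdu251_pchain_T h1
      rwa [rdu251_rect_swap, rdu251_preimage_T_T, Prod.swap_swap] at this
    · have := rdu251_pchain_T h2
      rwa [rdu251_rect_swap, rdu251_preimage_T_T, Prod.swap_swap] at this

theorem rdu251_pchain_down {x0 x1 y0 y1 c : ℤ} {G : Set ((ℤ × ℤ) × Bool)} {u v : ℤ × ℤ}
    (h : ReflTransGen (rdu251PStep (rdu251Rect x0 x1 y0 y1) G) u v) (hu : c ≤ u.2) :
    c ≤ v.2 ∨ (v.2 < c ∧ ∃ p : ℤ × ℤ, p.2 = c ∧ ReflTransGen (rdu251PStep (rdu251Rect x0 x1 y0 y1) G) u p ∧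
      ReflTransGen (rdu251PStep (rdu251Rect x0 x1 y0 c) G) p v) := by
  have h' := rdu251_pchain_T h
  rw [rdu251_rect_swap] at h'
  rcases rdu251_pchain_left (c := c) h' hu with hh | ⟨hh, p, hp, h1, h2⟩
  · exact Or.inl hh
  · refine Or.inr ⟨hh, p.swap, hp, ?_, ?_⟩
    · have := rdu251_pchain_T h1
      rwa [rdu251_rect_swap, rdu251_preimage_T_T, Prod.swap_swap] at this
    · have := rdu251_pchain_T h2
      rwa [rdu251_rect_swap, rdu251_preimage_T_T, Prod.swap_swap] at this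

/-- **four long crossings of the annulus by chains of faces block every chain of good edges from the inner box to the polygon
of the outer box** -/
theorem rdu251_psep_of_four {X0 X1 Y0 Y1 a0 a1 b0 b1 : ℤ} (h1 : X0 < a0) (h2 : a1 < X1) (h3 : Y0 < b0) (h4 : b1 < Y1)
    (G : Set ((ℤ × ℤ) × Bool))
    (hT : Rdu251DualLR X0 X1 b1 Y1 G) (hB : Rdu251DualLR X0 X1 Y0 b0 G)
    (hL : Rdu251DualBT X0 a0 Y0 Y1 G) (hR : Rdu251DualBT a1 X1 Y0 Y1 G)
    {u v : ℤ × ℤ} (hu : a0 ≤ u.1 ∧ u.1 ≤ a1 ∧ b0 ≤ u.2 ∧ u.2 ≤ b1)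
    (hv : v.1 ≤ X0 ∨ X1 ≤ v.1 ∨ v.2 ≤ Y0 ∨ Y1 ≤ v.2) :
    ¬ ReflTransGen (rdu251PStep (rdu251Rect X0 X1 Y0 Y1) G) u v := by
  intro hch
  have hX : X0 < X1 := by omega
  have hY : Y0 < Y1 := by omega
  rcases hv with hv | hv | hv | hv
  · rcases rdu251_pchain_left (c := a0) hch hu.1 with hh | ⟨_, p, hp, _, hpv⟩
    · omega
    · -- a chain of the left rectangle from `x = a0` to `x ≤ X0`
      rcases rdu251_pchain_right (c := X0) (rdu251_pchain_symm hpv) hv with hh | ⟨_, q, hq, _, hqp⟩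
      · omega
      · exact rdu251_not_both h1 hY G hL ⟨q, p, hq, hp, hqp⟩
  · rcases rdu251_pchain_right (c := a1) hch hu.2.1 with hh | ⟨_, p, hp, _, hpv⟩
    · omega
    · rcases rdu251_pchain_left (c := X1) (rdu251_pchain_symm hpv) hv with hh | ⟨_, q, hq, _, hqp⟩
      · omega
      · exact rdu251_not_both h2 hY G hR ⟨p, q, hp, hq, rdu251_pchain_symm hqp⟩
  · rcases rdu251_pchain_down (c := b0) hch hu.2.2.1 with hh | ⟨_, p, hp, _, hpv⟩
    · omega
    · rcases rdu251_pchain_up (c := Y0) (rdu251_pchain_symm hpv) hv with hh | ⟨_, q, hq, _, hqp⟩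
      · omega
      · exact (rdu251_duality' hX h3 G).1 ⟨q, p, hq, hp, hqp⟩ hB
  · rcases rdu251_pchain_up (c := b1) hch hu.2.2.2 with hh | ⟨_, p, hp, _, hpv⟩
    · omega
    · rcases rdu251_pchain_down (c := Y1) (rdu251_pchain_symm hpv) hv with hh | ⟨_, q, hq, _, hqp⟩
      · omega
      · exact (rdu251_duality' hX h4 G).1 ⟨p, q, hp, hq, rdu251_pchain_symm hqp⟩ hT

/-- the primal steps through `rswInt` (the shape of `RcStepP` of CoreTop121) are the steps of this file -/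
theorem rdu251_pstep_int (F : Finset (ℤ × ℤ)) (a : Bool) (ω : RswCfg) (u v : ℤ × ℤ) :
    (∃ e ∈ rswInt F, RswGood a ω e ∧ ((u = e.1 ∧ v = rswEnd e) ∨ (v = e.1 ∧ u = rswEnd e))) ↔
      rdu251PStep (↑F) (rdu251Good a ω) u v := by
  constructor
  · rintro ⟨e, he, hg, h⟩
    simp only [rswInt, Finset.mem_filter, Finset.mem_product, Finset.mem_univ, and_true] at he
    exact ⟨e, hg, he.1, he.2, h⟩
  · rintro ⟨e, hg, h1, h2, h⟩
    refine ⟨e, ?_, hg, h⟩
    simp only [rswInt, Finset.mem_filter, Finset.mem_product, Finset.mem_univ, and_true]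
    exact ⟨h1, h2⟩

/-! ### a left-right chain and a bottom-top chain of FACES are joined -/

/-- the four corners of a face -/
def rdu251Corner (h : ℤ × ℤ) : Set (ℤ × ℤ) :=
  {v | v = h ∨ v = (h.1 + 1, h.2) ∨ v = (h.1, h.2 + 1) ∨ v = (h.1 + 1, h.2 + 1)}

/-- the first endpoint of an edge is a corner of both of its faces -/
theorem rdu251_vertex_corner (e : (ℤ × ℤ) × Bool) :
    e.1 ∈ rdu251Corner e.1 ∧ e.1 ∈ rdu251Corner (rswCo e) := by
  obtain ⟨⟨a, b⟩, t⟩ := e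
  refine ⟨Or.inl rfl, ?_⟩
  cases t
  · right; right; left; simp [rswCo]
  · right; left; simp [rswCo]

/-- the corners of a face all of whose edges are good are joined (height at least two, face off the first and the last column) -/
theorem rdu251_corner_joined {x0 x1 y0 y1 : ℤ} {G : Set ((ℤ × ℤ) × Bool)} (hy : y0 + 2 ≤ y1) (h : ℤ × ℤ)
    (hx0 : x0 < h.1) (hx1 : h.1 + 1 < x1) (hy0 : y0 ≤ h.2) (hy1 : h.2 < y1)
    (hG : ∀ e : (ℤ × ℤ) × Bool, (e.1 = h ∨ rswCo e = h) → e ∈ G) {v w : ℤ × ℤ}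
    (hv : v ∈ rdu251Corner h) (hw : w ∈ rdu251Corner h) :
    ReflTransGen (rdu251PStep (rdu251Rect x0 x1 y0 y1) G) v w := by
  obtain ⟨a, b⟩ := h
  dsimp only at hx0 hx1 hy0 hy1
  set R := rdu251Rect x0 x1 y0 y1 with hR
  have hmemR : ∀ x y : ℤ, (x, y) ∈ R ↔ x0 ≤ x ∧ x < x1 ∧ y0 ≤ y ∧ y < y1 := fun x y => Iff.rfl
  have eL : rdu251PStep R G (a, b) (a, b + 1) :=
    rdu251_pstep_of_v (hG _ (Or.inl rfl)) ((hmemR _ _).2 ⟨by omega, by omega, hy0, hy1⟩)
      ((hmemR _ _).2 ⟨by omega, by omega, hy0, hy1⟩)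
  have eR : rdu251PStep R G (a + 1, b) (a + 1, b + 1) :=
    rdu251_pstep_of_v (hG _ (Or.inr (by simp [rswCo]))) ((hmemR _ _).2 ⟨by omega, by omega, hy0, hy1⟩)
      ((hmemR _ _).2 ⟨by omega, by omega, hy0, hy1⟩)
  have key : ∀ v, v ∈ rdu251Corner (a, b) → ReflTransGen (rdu251PStep R G) (a, b) v := by
    by_cases htop : b + 1 < y1
    · have eT : rdu251PStep R G (a, b + 1) (a + 1, b + 1) :=
        rdu251_pstep_of_h (hG _ (Or.inr (by simp [rswCo]))) ((hmemR _ _).2 ⟨by omega, by omega, by omega, htop⟩)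
          ((hmemR _ _).2 ⟨by omega, by omega, by omega, by omega⟩)
      rintro v (rfl | rfl | rfl | rfl)
      · exact ReflTransGen.refl
      · exact ((ReflTransGen.single eL).tail eT).tail (rdu251_pstep_symm eR)
      · exact ReflTransGen.single eL
      · exact (ReflTransGen.single eL).tail eT
    · have eB : rdu251PStep R G (a, b) (a + 1, b) :=
        rdu251_pstep_of_h (hG _ (Or.inl rfl)) ((hmemR _ _).2 ⟨by omega, by omega, hy0, hy1⟩)
          ((hmemR _ _).2 ⟨by omega, by omega, by omega, by omega⟩)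
      rintro v (rfl | rfl | rfl | rfl)
      · exact ReflTransGen.refl
      · exact ReflTransGen.single eB
      · exact ReflTransGen.single eL
      · exact (ReflTransGen.single eB).tail eR
  exact (rdu251_pchain_symm (key v hv)).trans (key w hw)

/-- **a left-right chain and a bottom-top chain of faces of one rectangle are joined** -/
theorem rdu251_dual_cross_meet {x0 x1 y0 y1 : ℤ} (hx : x0 < x1) (hy : y0 < y1) (G : Set ((ℤ × ℤ) × Bool))
    {f g f' g' : ℤ × ℤ} (hfR : f ∈ rdu251Rect x0 x1 y0 y1) (hf : f.1 = x0)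
    (hgR : g ∈ rdu251Rect x0 x1 y0 y1) (hg : g.1 = x1 - 1)
    (hfg : ReflTransGen (rdu251Step (rdu251Rect x0 x1 y0 y1) G) f g)
    (hfR' : f' ∈ rdu251Rect x0 x1 y0 y1) (hf' : f'.2 = y0) (hg' : g'.2 = y1 - 1)
    (hfg' : ReflTransGen (rdu251Step (rdu251Rect x0 x1 y0 y1) G) f' g') :
    ReflTransGen (rdu251Step (rdu251Rect x0 x1 y0 y1) G) f f' := by
  by_contra hcon
  set R := rdu251Rect x0 x1 y0 y1 with hR
  set Rh := rdu251Rect (x0 - 1) (x1 + 1) y0 y1 with hRh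
  have hRRh : R ⊆ Rh := rdu251_rect_mono (by omega) (by omega) le_rfl le_rfl
  set C2 : Set (ℤ × ℤ) := {h | ReflTransGen (rdu251Step R G) f' h} with hC2
  have hC2R : ∀ h, h ∈ C2 → h ∈ R := by
    intro h hh
    rcases ReflTransGen.cases_tail hh with e | ⟨d, _, hd⟩
    · rw [e]; exact hfR'
    · exact hd.2.1
  set G' : Set ((ℤ × ℤ) × Bool) := {e | e.1 ∈ C2 ∨ rswCo e ∈ C2} with hG'
  have notC2 : ∀ h, ReflTransGen (rdu251Step R G) f h → h ∉ C2 :=
    fun h hh hc => hcon (hh.trans (rdu251_chain_symm hc))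
  have hfR1 := rdu251_mem_rect.1 hfR
  have hgR1 := rdu251_mem_rect.1 hgR
  -- the chain of faces, prolonged by one face on each side
  have hLR : Rdu251DualLR (x0 - 1) (x1 + 1) y0 y1 G' := by
    have mid : ∀ h, ReflTransGen (rdu251Step R G) f h → ReflTransGen (rdu251Step Rh G') f h := by
      intro h hh
      induction hh with
      | refl => exact ReflTransGen.refl
      | @tail b c hfb hbc ih =>
        refine ih.tail ?_
        have nb := notC2 b hfb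
        have nc := notC2 c (hfb.tail hbc)
        obtain ⟨hb, hc, e, he, _⟩ := hbc
        refine ⟨hRRh hb, hRRh hc, e, he, ?_⟩
        rcases he with ⟨r1, r2⟩ | ⟨r1, r2⟩
        · rintro (h | h)
          · exact nb (r1 ▸ h)
          · exact nc (r2 ▸ h)
        · rintro (h | h)
          · exact nc (r1 ▸ h)
          · exact nb (r2 ▸ h)
    have s1 : rdu251Step Rh G' (x0 - 1, f.2) f := by
      refine ⟨rdu251_mem_rect.2 ⟨le_rfl, by dsimp only; omega, hfR1.2.2.1, hfR1.2.2.2⟩, hRRh hfR, (f, true),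
        Or.inr ⟨rfl, by simp [rswCo, hf]⟩, ?_⟩
      rintro (h | h)
      · exact notC2 f ReflTransGen.refl h
      · have := rdu251_mem_rect.1 (hC2R _ h)
        simp [rswCo] at this
        omega
    have s2 : rdu251Step Rh G' g (x1, g.2) := by
      refine ⟨hRRh hgR, rdu251_mem_rect.2 ⟨by dsimp only; omega, by dsimp only; omega, hgR1.2.2.1, hgR1.2.2.2⟩,
        ((x1, g.2), true), Or.inr ⟨rfl, ?_⟩, ?_⟩
      · apply Prod.ext
        · simp [rswCo, hg]
        · simp [rswCo]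
      · rintro (h | h)
        · have := rdu251_mem_rect.1 (hC2R _ h)
          dsimp only at this
          omega
        · have e : rswCo ((x1, g.2), true) = g := by
            apply Prod.ext
            · simp [rswCo, hg]
            · simp [rswCo]
          rw [e] at h
          exact notC2 g hfg h
    exact ⟨(x0 - 1, f.2), (x1, g.2), s1.1, rfl, s2.2.1, by dsimp only; ring,
      (ReflTransGen.head s1 (mid g hfg)).tail s2⟩
  -- the chain of good edges along the other chain of faces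
  have hBT : Rdu251PrimBT (x0 - 1) (x1 + 1) y0 y1 G' := by
    have hfR1' := rdu251_mem_rect.1 hfR'
    by_cases hh : y0 + 2 ≤ y1
    · have Q : ∀ h, ReflTransGen (rdu251Step R G) f' h → ∀ v, v ∈ rdu251Corner h →
          ReflTransGen (rdu251PStep Rh G') f' v := by
        intro h hh'
        induction hh' with
        | refl =>
          intro v hv
          exact rdu251_corner_joined hh f' (by omega) (by omega) hfR1'.2.2.1 hfR1'.2.2.2
            (by
              rintro e (he | he)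
              · exact Or.inl (he ▸ (ReflTransGen.refl : ReflTransGen (rdu251Step R G) f' f'))
              · exact Or.inr (he ▸ (ReflTransGen.refl : ReflTransGen (rdu251Step R G) f' f')))
            (Or.inl rfl) hv
        | @tail b c hfb hbc ih =>
          intro v hv
          have hcC : c ∈ C2 := hfb.tail hbc
          have hcR := rdu251_mem_rect.1 (hC2R c hcC)
          obtain ⟨_, _, e, he, _⟩ := hbc
          have hvc := rdu251_vertex_corner e
          have hb : e.1 ∈ rdu251Corner b ∧ e.1 ∈ rdu251Corner c := by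
            rcases he with ⟨r1, r2⟩ | ⟨r1, r2⟩
            · rw [r1, r2]; exact hvc
            · rw [r1, r2]; exact hvc.symm
          exact (ih _ hb.1).trans (rdu251_corner_joined hh c (by omega) (by omega) hcR.2.2.1 hcR.2.2.2
            (by
              rintro e' (he' | he')
              · exact Or.inl (he' ▸ hcC)
              · exact Or.inr (he' ▸ hcC)) hb.2 hv)
      exact ⟨f', (g'.1, g'.2 + 1), hf', by dsimp only; omega, Q g' hfg' _ (Or.inr (Or.inr (Or.inl rfl)))⟩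
    · refine ⟨f', (f'.1, f'.2 + 1), hf', by dsimp only; omega, ReflTransGen.single ?_⟩
      have : rdu251PStep Rh G' (f'.1, f'.2) (f'.1, f'.2 + 1) :=
        rdu251_pstep_of_v (Or.inl (ReflTransGen.refl : ReflTransGen (rdu251Step R G) f' f'))
          (rdu251_mem_rect.2 ⟨by dsimp only; omega, by dsimp only; omega, hfR1'.2.2.1, hfR1'.2.2.2⟩)
          (rdu251_mem_rect.2 ⟨by dsimp only; omega, by dsimp only; omega, hfR1'.2.2.1, hfR1'.2.2.2⟩)
      exact this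
  exact (rdu251_duality' (by omega) hy G').1 hBT hLR

/-! ### sub-rectangles and gluing for the chains of faces -/

theorem rdu251_chain_mem {F : Set (ℤ × ℤ)} {G : Set ((ℤ × ℤ) × Bool)} {f g : ℤ × ℤ}
    (h : ReflTransGen (rdu251Step F G) f g) (hf : f ∈ F) : g ∈ F := by
  rcases ReflTransGen.cases_tail h with e | ⟨d, _, hd⟩
  · rw [e]; exact hf
  · exact hd.2.1

/-- the part of a chain of faces after its last entry into the columns `x ≥ c` -/
theorem rdu251_chain_right {x0 x1 y0 y1 c : ℤ} {G : Set ((ℤ × ℤ) × Bool)} {f g : ℤ × ℤ}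
    (h : ReflTransGen (rdu251Step (rdu251Rect x0 x1 y0 y1) G) f g) (hfR : f ∈ rdu251Rect x0 x1 y0 y1)
    (hf : f.1 ≤ c) :
    g.1 < c ∨ ∃ p : ℤ × ℤ, p.1 = c ∧ p ∈ rdu251Rect c x1 y0 y1 ∧
      ReflTransGen (rdu251Step (rdu251Rect x0 x1 y0 y1) G) f p ∧
      ReflTransGen (rdu251Step (rdu251Rect c x1 y0 y1) G) p g := by
  induction h with
  | refl =>
    by_cases hc : f.1 < c
    · exact Or.inl hc
    · have := rdu251_mem_rect.1 hfR
      exact Or.inr ⟨f, by omega, rdu251_mem_rect.2 ⟨by omega, this.2.1, this.2.2⟩, ReflTransGen.refl, ReflTransGen.refl⟩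
  | @tail b d hfb hbd ih =>
    by_cases hd : d.1 < c
    · exact Or.inl hd
    · right
      have hadj := rdu251_step_adj hbd
      have hdR := rdu251_mem_rect.1 hbd.2.1
      have hdR' : d ∈ rdu251Rect c x1 y0 y1 := rdu251_mem_rect.2 ⟨by omega, hdR.2.1, hdR.2.2⟩
      rcases ih with hb | ⟨p, hp, hpR, hfp, hpb⟩
      · exact ⟨d, by omega, hdR', hfb.tail hbd, ReflTransGen.refl⟩
      · obtain ⟨_, _, e, he, heG⟩ := hbd
        exact ⟨p, hp, hpR, hfp, hpb.tail ⟨rdu251_chain_mem hpb hpR, hdR', e, he, heG⟩⟩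

/-- the part of a chain of faces after its last entry into the columns `x < c` -/
theorem rdu251_chain_left {x0 x1 y0 y1 c : ℤ} {G : Set ((ℤ × ℤ) × Bool)} {f g : ℤ × ℤ}
    (h : ReflTransGen (rdu251Step (rdu251Rect x0 x1 y0 y1) G) f g) (hfR : f ∈ rdu251Rect x0 x1 y0 y1)
    (hf : c - 1 ≤ f.1) :
    c ≤ g.1 ∨ ∃ p : ℤ × ℤ, p.1 = c - 1 ∧ p ∈ rdu251Rect x0 c y0 y1 ∧
      ReflTransGen (rdu251Step (rdu251Rect x0 x1 y0 y1) G) f p ∧
      ReflTransGen (rdu251Step (rdu251Rect x0 c y0 y1) G) p g := by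
  induction h with
  | refl =>
    by_cases hc : c ≤ f.1
    · exact Or.inl hc
    · have := rdu251_mem_rect.1 hfR
      exact Or.inr ⟨f, by omega, rdu251_mem_rect.2 ⟨this.1, by omega, this.2.2⟩, ReflTransGen.refl, ReflTransGen.refl⟩
  | @tail b d hfb hbd ih =>
    by_cases hd : c ≤ d.1
    · exact Or.inl hd
    · right
      have hadj := rdu251_step_adj hbd
      have hdR := rdu251_mem_rect.1 hbd.2.1
      have hdR' : d ∈ rdu251Rect x0 c y0 y1 := rdu251_mem_rect.2 ⟨hdR.1, by omega, hdR.2.2⟩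
      rcases ih with hb | ⟨p, hp, hpR, hfp, hpb⟩
      · exact ⟨d, by omega, hdR', hfb.tail hbd, ReflTransGen.refl⟩
      · obtain ⟨_, _, e, he, heG⟩ := hbd
        exact ⟨p, hp, hpR, hfp, hpb.tail ⟨rdu251_chain_mem hpb hpR, hdR', e, he, heG⟩⟩

/-- **an LR chain of faces contains an LR chain of faces of every sub-rectangle of full height** -/
theorem rdu251_dualLR_sub {x0 x1 y0 y1 c d : ℤ} (h1 : x0 ≤ c) (h2 : c < d) (h3 : d ≤ x1)
    {G : Set ((ℤ × ℤ) × Bool)} (h : Rdu251DualLR x0 x1 y0 y1 G) : Rdu251DualLR c d y0 y1 G := by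
  obtain ⟨f, g, hfR, hf, hgR, hg, hch⟩ := h
  rcases rdu251_chain_right (c := c) hch hfR (by omega) with hh | ⟨p, hp, hpR, _, hpg⟩
  · omega
  · have hgR' := rdu251_chain_mem hpg hpR
    rcases rdu251_chain_left (c := d) (rdu251_chain_symm hpg) hgR' (by omega) with hh | ⟨q, hq, hqR, _, hqp⟩
    · omega
    · exact ⟨p, q, rdu251_chain_mem hqp hqR, hp, hqR, hq, rdu251_chain_symm hqp⟩

/-- **GLUING of chains of faces**: `LR[x0,x2) + LR[x1,x3) + BT[x1,x2) ⟹ LR[x0,x3)` -/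
theorem rdu251_glue_dualLR {x0 x1 x2 x3 y0 y1 : ℤ} (h01 : x0 ≤ x1) (h12 : x1 < x2) (h23 : x2 ≤ x3) (hy : y0 < y1)
    {G : Set ((ℤ × ℤ) × Bool)} (hA : Rdu251DualLR x0 x2 y0 y1 G) (hB : Rdu251DualLR x1 x3 y0 y1 G)
    (hC : Rdu251DualBT x1 x2 y0 y1 G) : Rdu251DualLR x0 x3 y0 y1 G := by
  obtain ⟨f1, g1, hf1R, hf1, hg1R, hg1, hch1⟩ := hA
  obtain ⟨f2, g2, hf2R, hf2, hg2R, hg2, hch2⟩ := hB
  obtain ⟨f3, g3, hf3R, hf3, _, hg3, hch3⟩ := hC
  rcases rdu251_chain_right (c := x1) hch1 hf1R (by omega) with hh | ⟨p, hp, hpR, hfp, hpg⟩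
  · omega
  rcases rdu251_chain_left (c := x2) (rdu251_chain_symm hch2) hg2R (by omega) with hh | ⟨q, hq, hqR, hgq, hqf⟩
  · omega
  have m1 := rdu251_dual_cross_meet h12 hy G hpR hp (rdu251_chain_mem hpg hpR) hg1 hpg hf3R hf3 hg3 hch3
  have m2 := rdu251_dual_cross_meet h12 hy G (rdu251_chain_mem hqf hqR) hf2 hqR hq (rdu251_chain_symm hqf)
    hf3R hf3 hg3 hch3
  have i1 : rdu251Rect x0 x2 y0 y1 ⊆ rdu251Rect x0 x3 y0 y1 := rdu251_rect_mono le_rfl h23 le_rfl le_rfl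
  have i2 : rdu251Rect x1 x2 y0 y1 ⊆ rdu251Rect x0 x3 y0 y1 := rdu251_rect_mono h01 h23 le_rfl le_rfl
  have i3 : rdu251Rect x1 x3 y0 y1 ⊆ rdu251Rect x0 x3 y0 y1 := rdu251_rect_mono h01 le_rfl le_rfl le_rfl
  refine ⟨f1, g2, i1 hf1R, hf1, i3 hg2R, hg2, ?_⟩
  have e1 := rdu251_chain_mono i1 (le_refl G) hfp
  have e2 := rdu251_chain_mono i2 (le_refl G) m1
  have e3 := rdu251_chain_mono i2 (le_refl G) (rdu251_chain_symm m2)
  have e4 := rdu251_chain_mono i3 (le_refl G) hch2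
  exact ((e1.trans e2).trans e3).trans e4

theorem rdu251_dualBT_sub {x0 x1 y0 y1 c d : ℤ} (h1 : y0 ≤ c) (h2 : c < d) (h3 : d ≤ y1)
    {G : Set ((ℤ × ℤ) × Bool)} (h : Rdu251DualBT x0 x1 y0 y1 G) : Rdu251DualBT x0 x1 c d G := by
  have := rdu251_dualLR_T (rdu251_dualLR_sub h1 h2 h3 (rdu251_dualBT_T h))
  rwa [rdu251_preimage_T_T] at this

/-- **GLUING of chains of faces**, the other direction -/
theorem rdu251_glue_dualBT {x0 x1 y0 y1 y2 y3 : ℤ} (h01 : y0 ≤ y1) (h12 : y1 < y2) (h23 : y2 ≤ y3) (hx : x0 < x1)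
    {G : Set ((ℤ × ℤ) × Bool)} (hA : Rdu251DualBT x0 x1 y0 y2 G) (hB : Rdu251DualBT x0 x1 y1 y3 G)
    (hC : Rdu251DualLR x0 x1 y1 y2 G) : Rdu251DualBT x0 x1 y0 y3 G := by
  have := rdu251_dualLR_T (rdu251_glue_dualLR h01 h12 h23 hx (rdu251_dualBT_T hA) (rdu251_dualBT_T hB)
    (rdu251_dualLR_T hC))
  rwa [rdu251_preimage_T_T] at this

theorem rdu251_dualLR_mono {x0 x1 y0 y1 y0' y1' : ℤ} (h3 : y0' ≤ y0) (h4 : y1 ≤ y1')
    {G G' : Set ((ℤ × ℤ) × Bool)} (hG : G' ⊆ G) (h : Rdu251DualLR x0 x1 y0 y1 G) :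
    Rdu251DualLR x0 x1 y0' y1' G' := by
  obtain ⟨f, g, hfR, hf, hgR, hg, hch⟩ := h
  have i := rdu251_rect_mono (le_refl x0) (le_refl x1) h3 h4
  exact ⟨f, g, i hfR, hf, i hgR, hg, rdu251_chain_mono i hG hch⟩

theorem rdu251_dualBT_mono {x0 x1 y0 y1 x0' x1' : ℤ} (h1 : x0' ≤ x0) (h2 : x1 ≤ x1')
    {G G' : Set ((ℤ × ℤ) × Bool)} (hG : G' ⊆ G) (h : Rdu251DualBT x0 x1 y0 y1 G) :
    Rdu251DualBT x0' x1' y0 y1 G' := by
  obtain ⟨f, g, hfR, hf, hgR, hg, hch⟩ := h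
  have i := rdu251_rect_mono h1 h2 (le_refl y0) (le_refl y1)
  exact ⟨f, g, i hfR, hf, i hgR, hg, rdu251_chain_mono i hG hch⟩

open Claims Claims.C0468

/-! ## 12. Connectedness in potential form; potentials on `ℤ²`; ONE SIGN; the three GEO statements of `Rsw/Chain299` -/

/-- connectedness of a set of vertices in potential form (same body as `Rch299Conn`) -/
def Rdu251Conn (K : Set (ℤ × ℤ)) : Prop :=
  ∀ φ : ℤ × ℤ → Bool, (∀ e : (ℤ × ℤ) × Bool, e.1 ∈ K → rswEnd e ∈ K → φ e.1 = φ (rswEnd e)) → ∀ u ∈ K, ∀ v ∈ K, φ u = φ v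

theorem rdu251_conn_union {K L : Set (ℤ × ℤ)} (hK : Rdu251Conn K) (hL : Rdu251Conn L) (h : (K ∩ L).Nonempty) :
    Rdu251Conn (K ∪ L) := by
  intro φ hφ
  obtain ⟨z, hzK, hzL⟩ := h
  have h1 : ∀ u ∈ K, φ u = φ z := fun u hu => hK φ (fun e h1 h2 => hφ e (Or.inl h1) (Or.inl h2)) u hu z hzK
  have h2 : ∀ u ∈ L, φ u = φ z := fun u hu => hL φ (fun e h1 h2 => hφ e (Or.inr h1) (Or.inr h2)) u hu z hzL
  have h3 : ∀ u ∈ K ∪ L, φ u = φ z := fun u hu => hu.elim (h1 u) (h2 u)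
  intro u hu v hv
  rw [h3 u hu, h3 v hv]

/-- products of intervals (bounded or not) are connected -/
theorem rdu251_conn_prod (I J : Set ℤ) (hI : I.OrdConnected) (hJ : J.OrdConnected) : Rdu251Conn (I ×ˢ J) := by
  intro φ hφ
  have hH : ∀ y ∈ J, ∀ a ∈ I, ∀ n : ℕ, a + n ∈ I → φ (a + n, y) = φ (a, y) := by
    intro y hy a ha n
    induction n with
    | zero => intro _; simp
    | succ k ih =>
      intro hk
      have hk' : a + (k : ℤ) ∈ I := hI.out ha hk ⟨by omega, by push_cast; omega⟩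
      have h1 := hφ ((a + k, y), false) ⟨hk', hy⟩ (by
        simp only [rswEnd, Bool.false_eq_true, if_false]
        refine ⟨?_, hy⟩
        have : a + (k : ℤ) + 1 = a + ((k + 1 : ℕ) : ℤ) := by push_cast; ring
        simpa only [this] using hk)
      simp only [rswEnd, Bool.false_eq_true, if_false] at h1
      have h2 : a + ((k + 1 : ℕ) : ℤ) = a + (k : ℤ) + 1 := by push_cast; ring
      rw [h2, ← h1, ih hk']
  have hV : ∀ x ∈ I, ∀ a ∈ J, ∀ n : ℕ, a + n ∈ J → φ (x, a + n) = φ (x, a) := by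
    intro x hx a ha n
    induction n with
    | zero => intro _; simp
    | succ k ih =>
      intro hk
      have hk' : a + (k : ℤ) ∈ J := hJ.out ha hk ⟨by omega, by push_cast; omega⟩
      have h1 := hφ ((x, a + k), true) ⟨hx, hk'⟩ (by
        simp only [rswEnd, if_true]
        refine ⟨hx, ?_⟩
        have : a + (k : ℤ) + 1 = a + ((k + 1 : ℕ) : ℤ) := by push_cast; ring
        simpa only [this] using hk)
      simp only [rswEnd, if_true] at h1
      have h2 : a + ((k + 1 : ℕ) : ℤ) = a + (k : ℤ) + 1 := by push_cast; ring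
      rw [h2, ← h1, ih hk']
  have hH' : ∀ y ∈ J, ∀ a ∈ I, ∀ b ∈ I, φ (a, y) = φ (b, y) := by
    intro y hy a ha b hb
    rcases le_total a b with h | h
    · obtain ⟨n, rfl⟩ := Int.le.dest h
      exact (hH y hy a ha n hb).symm
    · obtain ⟨n, rfl⟩ := Int.le.dest h
      exact hH y hy b hb n ha
  have hV' : ∀ x ∈ I, ∀ a ∈ J, ∀ b ∈ J, φ (x, a) = φ (x, b) := by
    intro x hx a ha b hb
    rcases le_total a b with h | h
    · obtain ⟨n, rfl⟩ := Int.le.dest h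
      exact (hV x hx a ha n hb).symm
    · obtain ⟨n, rfl⟩ := Int.le.dest h
      exact hV x hx b hb n ha
  rintro ⟨a, b⟩ ⟨ha, hb⟩ ⟨c, d⟩ ⟨hc, hd⟩
  exact (hH' b hb a ha c hc).trans (hV' c hc b hb d hd)

/-- **(GEO 2)** rectangles of vertices are connected (= `Rch299GeoRect`) -/
theorem rdu251_geo_rect (x0 x1 y0 y1 : ℤ) :
    Rdu251Conn (↑(Finset.Icc x0 x1 ×ˢ Finset.Icc y0 y1) : Set (ℤ × ℤ)) := by
  rw [Finset.coe_product, Finset.coe_Icc, Finset.coe_Icc]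
  exact rdu251_conn_prod _ _ Set.ordConnected_Icc Set.ordConnected_Icc

/-- **(GEO 1)** the complement of the open box is connected (`z = 0`: `Rch299GeoBox`) -/
theorem rdu251_geo_box (z : ℤ × ℤ) (M : ℕ) : Rdu251Conn {v | OnPolygon (rswBox z M) v} := by
  have hset : {v | OnPolygon (rswBox z M) v}
      = (((Set.Ici (z.1 + M) ×ˢ (Set.univ : Set ℤ)) ∪ ((Set.univ : Set ℤ) ×ˢ Set.Ici (z.2 + M)))
          ∪ (Set.Iic (z.1 - M) ×ˢ (Set.univ : Set ℤ))) ∪ ((Set.univ : Set ℤ) ×ˢ Set.Iic (z.2 - M)) := by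
    ext ⟨x, y⟩
    simp only [OnPolygon, rswBox, Finset.mem_product, Finset.mem_Ico, Set.mem_ofPred_eq, Set.mem_union, Set.mem_prod,
      Set.mem_Ici, Set.mem_Iic, Set.mem_univ, and_true, true_and]
    omega
  rw [hset]
  refine rdu251_conn_union (rdu251_conn_union (rdu251_conn_union
    (rdu251_conn_prod _ _ Set.ordConnected_Ici Set.ordConnected_univ)
    (rdu251_conn_prod _ _ Set.ordConnected_univ Set.ordConnected_Ici) ⟨(z.1 + M, z.2 + M), ?_⟩)
    (rdu251_conn_prod _ _ Set.ordConnected_Iic Set.ordConnected_univ) ⟨(z.1 - M, z.2 + M), ?_⟩)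
    (rdu251_conn_prod _ _ Set.ordConnected_univ Set.ordConnected_Iic) ⟨(z.1 + M, z.2 - M), ?_⟩
  all_goals simp

/-! ### potentials on `ℤ²` -/

theorem rdu251_up_exists (g : ℕ → Bool) : ∃ S : ℕ → Bool, S 0 = false ∧ ∀ n, S (n + 1) = (S n ^^ g n) :=
  ⟨fun n => Nat.rec false (fun i r => r ^^ g i) n, rfl, fun _ => rfl⟩

/-- discrete primitive on `ℤ` -/
theorem rdu251_prim (g : ℤ → Bool) : ∃ S : ℤ → Bool, S 0 = false ∧ ∀ x, S (x + 1) = (S x ^^ g x) := by
  obtain ⟨P, hP0, hP⟩ := rdu251_up_exists (fun i => g i)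
  obtain ⟨N, hN0, hN⟩ := rdu251_up_exists (fun i => g (-1 - i))
  refine ⟨fun x => P x.toNat ^^ N (-x).toNat, by simp [hP0, hN0], fun x => ?_⟩
  dsimp only
  rcases lt_or_ge x 0 with hx | hx
  · obtain ⟨n, rfl⟩ : ∃ n : ℕ, x = -1 - n := ⟨(-1 - x).toNat, by omega⟩
    have e1 : (-1 - (n : ℤ) + 1).toNat = 0 := by omega
    have e2 : (-(-1 - (n : ℤ) + 1)).toNat = n := by omega
    have e3 : (-1 - (n : ℤ)).toNat = 0 := by omega
    have e4 : (-(-1 - (n : ℤ))).toNat = n + 1 := by omega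
    simp only [e1, e2, e3, e4, hN, hP0]
    cases N n <;> cases g (-1 - n) <;> rfl
  · obtain ⟨n, rfl⟩ : ∃ n : ℕ, x = n := ⟨x.toNat, by omega⟩
    have e1 : ((n : ℤ) + 1).toNat = n + 1 := by omega
    have e2 : (-((n : ℤ) + 1)).toNat = 0 := by omega
    have e3 : ((n : ℤ)).toNat = n := by omega
    have e4 : (-((n : ℤ))).toNat = 0 := by omega
    simp only [e1, e2, e3, e4, hP, hN0]
    cases P n <;> cases g n <;> rfl

theorem rdu251_int_const (D : ℤ → Bool) (h : ∀ y, D (y + 1) = D y) (y : ℤ) : D y = D 0 := by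
  induction y using Int.induction_on with
  | zero => rfl
  | succ i ih => rw [h, ih]
  | pred i ih =>
    have h1 := h (-(i : ℤ) - 1)
    rw [sub_add_cancel] at h1
    rw [← h1, ih]

theorem rdu251_bool_a : ∀ a b p q cb cr ct cl : Bool, (cb ^^ cr ^^ ct ^^ cl) = false →
    (a ^^ (p ^^ cl) ^^ (b ^^ (q ^^ cr)) ^^ ct) = (a ^^ p ^^ (b ^^ q) ^^ cb) := by decide

theorem rdu251_bool_b : ∀ a b c d s : Bool,
    (((a ^^ b) && s) ^^ ((b ^^ c) && s) ^^ ((d ^^ c) && s) ^^ ((a ^^ d) && s)) = false := by decide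

theorem rdu251_bool_c : ∀ a b : Bool, (a ^^ b) = false → a = b := by decide

/-- **Poincaré lemma on `ℤ²`, mod 2**: a closed 1-form has a potential -/
theorem rdu251_potential (c : (ℤ × ℤ) × Bool → Bool)
    (hc : ∀ x y : ℤ, (c ((x, y), false) ^^ c ((x + 1, y), true) ^^ c ((x, y + 1), false) ^^ c ((x, y), true)) = false) :
    ∃ φ : ℤ × ℤ → Bool, ∀ e, (φ e.1 ^^ φ (rswEnd e)) = c e := by
  obtain ⟨h, h0, hh⟩ := rdu251_prim (fun x => c ((x, 0), false))
  choose v hv0 hv using fun x : ℤ => rdu251_prim (fun y => c ((x, y), true))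
  refine ⟨fun p => h p.1 ^^ v p.1 p.2, ?_⟩
  rintro ⟨⟨x, y⟩, o⟩
  cases o
  · have key := rdu251_int_const (fun y => h x ^^ v x y ^^ (h (x + 1) ^^ v (x + 1) y) ^^ c ((x, y), false)) (by
      intro y
      rw [hv, hv]
      exact rdu251_bool_a _ _ _ _ _ _ _ _ (hc x y)) y
    rw [hv0, hv0, hh] at key
    simp only [rswEnd, Bool.false_eq_true, if_false]
    rw [hh]
    revert key
    cases h x <;> cases v x y <;> cases v (x + 1) y <;> cases c ((x, y), false) <;>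
      cases c ((x, 0), false) <;> simp
  · simp only [rswEnd, if_true]
    rw [hv]
    cases h x <;> cases v x y <;> cases c ((x, y), true) <;> rfl

/-! ### ONE SIGN -/

/-- the dual of `e` is an open edge whose two faces have colour `a` (same body as `Rch299Good`) -/
def Rdu251DGood (a : Bool) (ω : RswCfg) (e : (ℤ × ℤ) × Bool) : Prop :=
  e ∈ ω.O ∧ (e.1 ∈ ω.D ↔ a = true) ∧ (rswCo e ∈ ω.D ↔ a = true)

/-- one primal step along an interior edge of `F` whose dual is NOT good (same body as `Rch299Step`) -/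
def Rdu251DStep (F : Finset (ℤ × ℤ)) (a : Bool) (ω : RswCfg) (u v : ℤ × ℤ) : Prop :=
  ∃ e ∈ rswInt F, ¬ Rdu251DGood a ω e ∧ ((u = e.1 ∧ v = rswEnd e) ∨ (v = e.1 ∧ u = rswEnd e))

/-- one primal step along an interior edge of `F` which is not in `ω.O` (same body as `Rch299StepC`) -/
def Rdu251DStepC (F : Finset (ℤ × ℤ)) (ω : RswCfg) (u v : ℤ × ℤ) : Prop :=
  ∃ e ∈ rswInt F, e ∉ ω.O ∧ ((u = e.1 ∧ v = rswEnd e) ∨ (v = e.1 ∧ u = rswEnd e))

/-- the vertices of the polygon of `F` (same body as `rch299Pol`) -/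
def rdu251Pol (F : Finset (ℤ × ℤ)) : Set (ℤ × ℤ) := {v | v ∈ cornersOf F ∧ OnPolygon F v}

theorem rdu251_mem_int {G : Finset (ℤ × ℤ)} {e : (ℤ × ℤ) × Bool} : e ∈ rswInt G ↔ e.1 ∈ G ∧ rswCo e ∈ G := by
  simp only [rswInt, Finset.mem_filter, Finset.mem_product, Finset.mem_univ, and_true]

theorem rdu251_int_of_inner_fst {G : Finset (ℤ × ℤ)} {e : (ℤ × ℤ) × Bool} (h : ¬ OnPolygon G e.1) : e ∈ rswInt G := by
  obtain ⟨⟨x, y⟩, o⟩ := e
  simp only [OnPolygon, not_not] at h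
  obtain ⟨h1, h2, h3, h4⟩ := h
  cases o
  · exact rdu251_mem_int.2 ⟨h1, h3⟩
  · exact rdu251_mem_int.2 ⟨h1, h2⟩

theorem rdu251_int_of_inner_end {G : Finset (ℤ × ℤ)} {e : (ℤ × ℤ) × Bool} (h : ¬ OnPolygon G (rswEnd e)) :
    e ∈ rswInt G := by
  obtain ⟨⟨x, y⟩, o⟩ := e
  simp only [OnPolygon, not_not] at h
  cases o
  · simp only [rswEnd, Bool.false_eq_true, if_false, add_sub_cancel_right] at h
    obtain ⟨h1, h2, h3, h4⟩ := h
    exact rdu251_mem_int.2 ⟨h2, h4⟩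
  · simp only [rswEnd, if_true, add_sub_cancel_right] at h
    obtain ⟨h1, h2, h3, h4⟩ := h
    exact rdu251_mem_int.2 ⟨h3, h4⟩

theorem rdu251_corners_of_int {G : Finset (ℤ × ℤ)} {e : (ℤ × ℤ) × Bool} (h : e ∈ rswInt G) :
    e.1 ∈ cornersOf G ∧ rswEnd e ∈ cornersOf G := by
  obtain ⟨⟨x, y⟩, o⟩ := e
  have h1 : (x, y) ∈ G := (rdu251_mem_int.1 h).1
  constructor
  · exact Finset.mem_biUnion.2 ⟨(x, y), h1, by simp⟩
  · refine Finset.mem_biUnion.2 ⟨(x, y), h1, ?_⟩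
    cases o <;> simp [rswEnd]

/-- **(ONE SIGN)** (= `Rch299OneSign`): if no chain of interior edges off `ω.O` joins the polygon to `A`, then the good edges of ONE
colour already separate.  Proof by potentials on `ℤ²` (no Jordan curve). -/
theorem rdu251_one_sign (G : Finset (ℤ × ℤ)) (A : Set (ℤ × ℤ)) (ω : RswCfg)
    (hK : Rdu251Conn {v | OnPolygon G v}) (hA : Rdu251Conn A) (hAin : ∀ v ∈ A, ¬ OnPolygon G v)
    (hd : ∀ e ∈ rswInt G, e ∈ ω.O → (e.1 ∈ ω.D ↔ rswCo e ∈ ω.D))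
    (hsep : ∀ u ∈ rdu251Pol G, ∀ v ∈ A, ¬ Relation.ReflTransGen (Rdu251DStepC G ω) u v) :
    (∀ u ∈ rdu251Pol G, ∀ v ∈ A, ¬ Relation.ReflTransGen (Rdu251DStep G true ω) u v) ∨
    (∀ u ∈ rdu251Pol G, ∀ v ∈ A, ¬ Relation.ReflTransGen (Rdu251DStep G false ω) u v) := by
  classical
  let K : Set (ℤ × ℤ) := {v | OnPolygon G v ∨ ∃ u ∈ rdu251Pol G, Relation.ReflTransGen (Rdu251DStepC G ω) u v}
  -- an edge leaving `K` is interior and open
  have hcut : ∀ e : (ℤ × ℤ) × Bool, ¬ (e.1 ∈ K ↔ rswEnd e ∈ K) → e ∈ rswInt G ∧ e ∈ ω.O := by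
    intro e he
    have hint : e ∈ rswInt G := by
      by_contra hcon
      have h1 : OnPolygon G e.1 := by
        by_contra h
        exact hcon (rdu251_int_of_inner_fst h)
      have h2 : OnPolygon G (rswEnd e) := by
        by_contra h
        exact hcon (rdu251_int_of_inner_end h)
      exact he ⟨fun _ => Or.inl h2, fun _ => Or.inl h1⟩
    refine ⟨hint, ?_⟩
    by_contra hO
    obtain ⟨c1, c2⟩ := rdu251_corners_of_int hint
    have step : ∀ p q, p ∈ cornersOf G → Rdu251DStepC G ω p q → p ∈ K → q ∈ K := by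
      intro p q hp hpq hpK
      rcases hpK with hpK | ⟨u, hu, huv⟩
      · exact Or.inr ⟨p, ⟨hp, hpK⟩, Relation.ReflTransGen.single hpq⟩
      · exact Or.inr ⟨u, hu, huv.tail hpq⟩
    exact he ⟨step _ _ c1 ⟨e, hint, hO, Or.inl ⟨rfl, rfl⟩⟩, step _ _ c2 ⟨e, hint, hO, Or.inr ⟨rfl, rfl⟩⟩⟩
  let k : ℤ × ℤ → Bool := fun v => decide (v ∈ K)
  let c : (ℤ × ℤ) × Bool → Bool := fun e => (k e.1 ^^ k (rswEnd e)) && decide (e.1 ∈ ω.D)
  have hk : ∀ e : (ℤ × ℤ) × Bool, (e.1 ∈ K ↔ rswEnd e ∈ K) → k e.1 = k (rswEnd e) :=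
    fun e he => decide_eq_decide.2 he
  have hk' : ∀ e : (ℤ × ℤ) × Bool, (k e.1 ^^ k (rswEnd e)) = true → e ∈ rswInt G ∧ e ∈ ω.O := by
    intro e he
    refine hcut e (fun hiff => ?_)
    rw [hk e hiff] at he
    simp at he
  have hc2 : ∀ e, c e = ((k e.1 ^^ k (rswEnd e)) && decide (rswCo e ∈ ω.D)) := by
    intro e
    cases hx : (k e.1 ^^ k (rswEnd e))
    · simp [c, hx]
    · obtain ⟨h1, h2⟩ := hk' e hx
      simp only [c, hx]
      rw [decide_eq_decide.2 (hd e h1 h2)]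
  have hclosed : ∀ x y : ℤ,
      (c ((x, y), false) ^^ c ((x + 1, y), true) ^^ c ((x, y + 1), false) ^^ c ((x, y), true)) = false := by
    intro x y
    rw [hc2 ((x + 1, y), true), hc2 ((x, y + 1), false)]
    simp only [c, rswEnd, rswCo, Bool.false_eq_true, if_false, if_true, add_sub_cancel_right]
    exact rdu251_bool_b _ _ _ _ _
  obtain ⟨φ, hφ⟩ := rdu251_potential c hclosed
  have hsame : ∀ e : (ℤ × ℤ) × Bool, (e.1 ∈ K ↔ rswEnd e ∈ K) → φ e.1 = φ (rswEnd e) := by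
    intro e he
    refine rdu251_bool_c _ _ ?_
    rw [hφ e]
    simp [c, hk e he]
  -- `φ` is constant on the polygon side and on `A`
  have hφK : ∀ u, OnPolygon G u → ∀ v, OnPolygon G v → φ u = φ v := fun u hu v hv =>
    hK φ (fun e h1 h2 => hsame e ⟨fun _ => Or.inl h2, fun _ => Or.inl h1⟩) u hu v hv
  have hAK : ∀ v ∈ A, v ∉ K := by
    rintro v hv (h | ⟨u, hu, huv⟩)
    · exact hAin v hv h
    · exact hsep u hu v hv huv
  have hφA : ∀ u ∈ A, ∀ v ∈ A, φ u = φ v := fun u hu v hv =>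
    hA φ (fun e h1 h2 => hsame e ⟨fun h => absurd h (hAK _ h1), fun h => absurd h (hAK _ h2)⟩) u hu v hv
  -- chains avoiding the plus good edges do not change `φ`
  have hch1 : ∀ u v, Relation.ReflTransGen (Rdu251DStep G true ω) u v → φ u = φ v := by
    intro u v h
    induction h with
    | refl => rfl
    | tail _ hstep ih =>
      obtain ⟨e, he, hng, hcase⟩ := hstep
      have hce : c e = false := by
        by_contra hne
        have hne' : c e = true := by simpa using hne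
        simp only [c, Bool.and_eq_true, decide_eq_true_eq] at hne'
        obtain ⟨hx, hD⟩ := hne'
        obtain ⟨h1, h2⟩ := hk' e hx
        exact hng ⟨h2, by simp [hD], by simp [(hd e h1 h2).1 hD]⟩
      have h3 : φ e.1 = φ (rswEnd e) := rdu251_bool_c _ _ (by rw [hφ e, hce])
      rcases hcase with ⟨rfl, rfl⟩ | ⟨rfl, rfl⟩
      · rw [ih, h3]
      · rw [ih, h3]
  -- chains avoiding the minus good edges do not change `φ xor 1_K`
  have hch2 : ∀ u v, Relation.ReflTransGen (Rdu251DStep G false ω) u v → (φ u ^^ k u) = (φ v ^^ k v) := by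
    intro u v h
    induction h with
    | refl => rfl
    | tail _ hstep ih =>
      obtain ⟨e, he, hng, hcase⟩ := hstep
      have h3 : (φ e.1 ^^ k e.1) = (φ (rswEnd e) ^^ k (rswEnd e)) := by
        have h4 := hφ e
        cases hx : (k e.1 ^^ k (rswEnd e))
        · have h5 : c e = false := by simp [c, hx]
          rw [h5] at h4
          rw [rdu251_bool_c _ _ h4, rdu251_bool_c _ _ hx]
        · obtain ⟨h1, h2⟩ := hk' e hx
          have hD : e.1 ∈ ω.D := by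
            by_contra hD
            have hD' : rswCo e ∉ ω.D := fun h => hD ((hd e h1 h2).2 h)
            exact hng ⟨h2, by simp [hD], by simp [hD']⟩
          have h5 : c e = true := by simp [c, hx, hD]
          rw [h5] at h4
          revert h4 hx
          cases φ e.1 <;> cases φ (rswEnd e) <;> cases k e.1 <;> cases k (rswEnd e) <;> simp
      rcases hcase with ⟨rfl, rfl⟩ | ⟨rfl, rfl⟩
      · rw [ih, h3]
      · rw [ih, h3]
  by_contra hcon
  rw [not_or] at hcon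
  obtain ⟨hc1, hc2'⟩ := hcon
  simp only [not_forall, not_not] at hc1 hc2'
  obtain ⟨u1, hu1, v1, hv1, ch1⟩ := hc1
  obtain ⟨u2, hu2, v2, hv2, ch2⟩ := hc2'
  have e1 := hch1 u1 v1 ch1
  have e2 := hch2 u2 v2 ch2
  have e3 := hφK u1 hu1.2 u2 hu2.2
  have e4 := hφA v1 hv1 v2 hv2
  have k1 : k u2 = true := decide_eq_true (Or.inl hu2.2)
  have k2 : k v2 = false := decide_eq_false (hAK v2 hv2)
  rw [k1, k2, ← e3, ← e4, e1] at e2
  revert e2
  cases φ v1 <;> simp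

/-! ### (GEO 3): the exchanged domain left by a search -/

set_option linter.unnecessarySeqFocus false

/-- the faces which touch a connected set `W` of vertices, read through the exchange `(x,y) ↦ (-y,-x)`, form a connected set -/
theorem rdu251_conn_touch {W : Set (ℤ × ℤ)} (hW : Rdu251Conn W) :
    Rdu251Conn {v : ℤ × ℤ | (-v.2, -v.1) ∈ W ∨ (-v.2 + 1, -v.1) ∈ W ∨ (-v.2, -v.1 + 1) ∈ W ∨ (-v.2 + 1, -v.1 + 1) ∈ W} := by
  intro φ hφ
  have hσ : ∀ w ∈ W, ((-w.2, -w.1) : ℤ × ℤ) ∈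
      {v : ℤ × ℤ | (-v.2, -v.1) ∈ W ∨ (-v.2 + 1, -v.1) ∈ W ∨ (-v.2, -v.1 + 1) ∈ W ∨ (-v.2 + 1, -v.1 + 1) ∈ W} := by
    rintro ⟨x, y⟩ hw
    left
    simpa using hw
  have h1 : ∀ w ∈ W, ∀ w' ∈ W, φ (-w.2, -w.1) = φ (-w'.2, -w'.1) := by
    refine hW (fun w => φ (-w.2, -w.1)) ?_
    rintro ⟨⟨x, y⟩, o⟩ ha hb
    cases o
    · simp only [rswEnd, Bool.false_eq_true, if_false] at hb ⊢
      have h2 := hφ ((-y, -(x + 1)), true) (hσ _ hb) (by
        have : rswEnd ((-y, -(x + 1)), true) = (-y, -x) := by simp [rswEnd]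
        rw [this]
        exact hσ _ ha)
      have h3 : rswEnd ((-y, -(x + 1)), true) = (-y, -x) := by simp [rswEnd]
      rw [h3] at h2
      exact h2.symm
    · simp only [rswEnd, if_true] at hb ⊢
      have h3 : rswEnd ((-(y + 1), -x), false) = (-y, -x) := by simp [rswEnd]
      have h2 := hφ ((-(y + 1), -x), false) (hσ _ hb) (by
        rw [h3]
        exact hσ _ ha)
      rw [h3] at h2
      exact h2.symm
  have h2 : ∀ v ∈ {v : ℤ × ℤ | (-v.2, -v.1) ∈ W ∨ (-v.2 + 1, -v.1) ∈ W ∨ (-v.2, -v.1 + 1) ∈ W ∨ (-v.2 + 1, -v.1 + 1) ∈ W},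
      ∃ w ∈ W, φ v = φ (-w.2, -w.1) := by
    rintro ⟨a, b⟩ hv
    have hv' := hv
    rcases hv with h | h | h | h
    · exact ⟨_, h, by simp⟩
    · refine ⟨_, h, ?_⟩
      have h3 : rswEnd ((a, b - 1), true) = (a, b) := by simp [rswEnd]
      have h4 : ((-(-a), -(-b + 1)) : ℤ × ℤ) = (a, b - 1) := by
        ext <;> simp <;> ring
      have h5 := hφ ((a, b - 1), true) (by rw [← h4]; exact hσ _ h) (by rw [h3]; exact hv')
      rw [h3] at h5
      dsimp only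
      rw [h4]
      exact h5.symm
    · refine ⟨_, h, ?_⟩
      have h3 : rswEnd ((a - 1, b), false) = (a, b) := by simp [rswEnd]
      have h4 : ((-(-a + 1), -(-b)) : ℤ × ℤ) = (a - 1, b) := by
        ext <;> simp <;> ring
      have h5 := hφ ((a - 1, b), false) (by rw [← h4]; exact hσ _ h) (by rw [h3]; exact hv')
      rw [h3] at h5
      dsimp only
      rw [h4]
      exact h5.symm
    · refine ⟨_, h, ?_⟩
      have h3 : rswEnd ((a - 1, b), false) = (a, b) := by simp [rswEnd]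
      have h3' : rswEnd ((a - 1, b - 1), true) = (a - 1, b) := by simp [rswEnd]
      have h4 : ((-(-a + 1), -(-b + 1)) : ℤ × ℤ) = (a - 1, b - 1) := by
        ext <;> simp <;> ring
      have hm : ((a - 1, b) : ℤ × ℤ) ∈
          {v : ℤ × ℤ | (-v.2, -v.1) ∈ W ∨ (-v.2 + 1, -v.1) ∈ W ∨ (-v.2, -v.1 + 1) ∈ W ∨ (-v.2 + 1, -v.1 + 1) ∈ W} := by
        right; left
        have : ((-b + 1, -(a - 1)) : ℤ × ℤ) = (-b + 1, -a + 1) := by
          ext <;> simp <;> ring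
        show ((-b + 1, -(a - 1)) : ℤ × ℤ) ∈ W
        rw [this]
        exact h
      have h5 := hφ ((a - 1, b), false) hm (by rw [h3]; exact hv')
      have h6 := hφ ((a - 1, b - 1), true) (by rw [← h4]; exact hσ _ h) (by rw [h3']; exact hm)
      rw [h3] at h5
      rw [h3'] at h6
      dsimp only at h5 h6 ⊢
      rw [h4, h6, h5]
  intro u hu v hv
  obtain ⟨w, hw, e1⟩ := h2 u hu
  obtain ⟨w', hw', e2⟩ := h2 v hv
  rw [e1, e2, h1 w hw w' hw']

/-- the polygon side together with what a search (along any edges of the lattice with endpoints in `cornersOf F`) reaches from the polygon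
is connected -/
theorem rdu251_conn_search (F : Finset (ℤ × ℤ)) (a : Bool) (ω : RswCfg) (hF : Rdu251Conn {v | OnPolygon F v}) :
    Rdu251Conn {v | OnPolygon F v ∨ ∃ u ∈ rdu251Pol F, Relation.ReflTransGen (Rdu251DStep F a ω) u v} := by
  intro φ hφ
  have h1 : ∀ u, OnPolygon F u → ∀ v, OnPolygon F v → φ u = φ v := fun u hu v hv =>
    hF φ (fun e h1 h2 => hφ e (Or.inl h1) (Or.inl h2)) u hu v hv
  have h2 : ∀ u ∈ rdu251Pol F, ∀ v, Relation.ReflTransGen (Rdu251DStep F a ω) u v → φ u = φ v := by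
    intro u hu v h
    induction h with
    | refl => rfl
    | tail hab hstep ih =>
      have hb := hab.tail hstep
      obtain ⟨e, he, hng, hcase⟩ := hstep
      rcases hcase with ⟨rfl, rfl⟩ | ⟨rfl, rfl⟩
      · rw [ih]
        exact hφ e (Or.inr ⟨u, hu, hab⟩) (Or.inr ⟨u, hu, hb⟩)
      · rw [ih]
        exact (hφ e (Or.inr ⟨u, hu, hb⟩) (Or.inr ⟨u, hu, hab⟩)).symm
  -- a reference point on the polygon side
  have h3 : ∀ v ∈ {v | OnPolygon F v ∨ ∃ u ∈ rdu251Pol F, Relation.ReflTransGen (Rdu251DStep F a ω) u v},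
      ∃ u, OnPolygon F u ∧ φ v = φ u := by
    rintro v (h | ⟨u, hu, huv⟩)
    · exact ⟨v, h, rfl⟩
    · exact ⟨u, hu.2, (h2 u hu v huv).symm⟩
  intro u hu v hv
  obtain ⟨u', hu', e1⟩ := h3 u hu
  obtain ⟨v', hv', e2⟩ := h3 v hv
  rw [e1, e2, h1 u' hu' v' hv']

theorem rdu251_onPolygon_of_not_corner {F : Finset (ℤ × ℤ)} {v : ℤ × ℤ} (h : v ∉ cornersOf F) : OnPolygon F v := by
  intro hv
  exact h (Finset.mem_biUnion.2 ⟨v, hv.1, by simp⟩)

/-- if the faces of `G` are the exchanged vertices off `W` and `W` is connected, the polygon side of `G` is connected -/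
theorem rdu251_conn_exchange (G : Finset (ℤ × ℤ)) (W : Set (ℤ × ℤ)) (hmem : ∀ f : ℤ × ℤ, f ∈ G ↔ ¬ ((-f.2, -f.1) ∈ W))
    (hW : Rdu251Conn W) : Rdu251Conn {v | OnPolygon G v} := by
  have hset : {v | OnPolygon G v} =
      {v : ℤ × ℤ | (-v.2, -v.1) ∈ W ∨ (-v.2 + 1, -v.1) ∈ W ∨ (-v.2, -v.1 + 1) ∈ W ∨ (-v.2 + 1, -v.1 + 1) ∈ W} := by
    ext ⟨p, q⟩
    have e1 : -(p - 1) = -p + 1 := by ring
    have e2 : -(q - 1) = -q + 1 := by ring
    show OnPolygon _ _ ↔ ((-q, -p) ∈ W ∨ (-q + 1, -p) ∈ W ∨ (-q, -p + 1) ∈ W ∨ (-q + 1, -p + 1) ∈ W)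
    unfold OnPolygon
    rw [hmem, hmem, hmem, hmem]
    dsimp only
    rw [e1, e2]
    tauto
  rw [hset]
  exact rdu251_conn_touch hW

/-- **(GEO 3)** (= `Rch299GeoDom`; `σ = rssSig`, `J = rch299J F ω`) -/
theorem rdu251_geo_dom (σ : (ℤ × ℤ) ≃ (ℤ × ℤ)) (hσ : ∀ v, σ v = (-v.2, -v.1)) (F J : Finset (ℤ × ℤ)) (a : Bool) (ω : RswCfg)
    (hJ : ∀ v, v ∈ J ↔ v ∈ cornersOf F ∧ ∃ u ∈ rdu251Pol F, Relation.ReflTransGen (Rdu251DStep F a ω) u v)
    (hF : Rdu251Conn {v | OnPolygon F v}) :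
    Rdu251Conn {v | OnPolygon ((cornersOf F \ J).map σ.toEmbedding) v} := by
  have hmem : ∀ f : ℤ × ℤ, f ∈ (cornersOf F \ J).map σ.toEmbedding ↔
      ¬ ((-f.2, -f.1) ∈ {v | OnPolygon F v ∨ ∃ u ∈ rdu251Pol F, Relation.ReflTransGen (Rdu251DStep F a ω) u v}) := by
    intro f
    have hinv : ∀ w : ℤ × ℤ, σ w = f ↔ w = (-f.2, -f.1) := by
      intro w
      rw [hσ]
      constructor
      · rintro rfl
        simp
      · rintro rfl
        simp
    simp only [Finset.mem_map, Equiv.coe_toEmbedding, hinv, Finset.mem_sdiff, hJ]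
    constructor
    · rintro ⟨w, ⟨hw1, hw2⟩, rfl⟩ (h | h)
      · exact hw2 ⟨hw1, _, ⟨hw1, h⟩, Relation.ReflTransGen.refl⟩
      · exact hw2 ⟨hw1, h⟩
    · intro h
      refine ⟨_, ⟨?_, fun h' => h (Or.inr h'.2)⟩, rfl⟩
      by_contra hc
      exact h (Or.inl (rdu251_onPolygon_of_not_corner hc))
  exact rdu251_conn_exchange _ _ hmem (rdu251_conn_search F a ω hF)

/-! ### second versions (Chain299 of 21:18Z): rectangles; the domain left by the search from the layer -/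

/-- **(GEO 1)** the complement of the open rectangle is connected (= `Rch299GeoBox`) -/
theorem rdu251_geo_ico (x0 x1 y0 y1 : ℤ) : Rdu251Conn {v | OnPolygon (Finset.Ico x0 x1 ×ˢ Finset.Ico y0 y1) v} := by
  have hset : {v | OnPolygon (Finset.Ico x0 x1 ×ˢ Finset.Ico y0 y1) v}
      = (((Set.Ici x1 ×ˢ (Set.univ : Set ℤ)) ∪ ((Set.univ : Set ℤ) ×ˢ Set.Ici y1))
          ∪ (Set.Iic x0 ×ˢ (Set.univ : Set ℤ))) ∪ ((Set.univ : Set ℤ) ×ˢ Set.Iic y0) := by
    ext ⟨x, y⟩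
    simp only [OnPolygon, Finset.mem_product, Finset.mem_Ico, Set.mem_ofPred_eq, Set.mem_union, Set.mem_prod,
      Set.mem_Ici, Set.mem_Iic, Set.mem_univ, and_true, true_and]
    omega
  rw [hset]
  refine rdu251_conn_union (rdu251_conn_union (rdu251_conn_union
    (rdu251_conn_prod _ _ Set.ordConnected_Ici Set.ordConnected_univ)
    (rdu251_conn_prod _ _ Set.ordConnected_univ Set.ordConnected_Ici) ⟨(x1, y1), ?_⟩)
    (rdu251_conn_prod _ _ Set.ordConnected_Iic Set.ordConnected_univ) ⟨(x0, y1), ?_⟩)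
    (rdu251_conn_prod _ _ Set.ordConnected_univ Set.ordConnected_Iic) ⟨(x1, y0), ?_⟩
  all_goals simp

/-- the four corners of a face which is not in `G` lie on the polygon side of `G` -/
theorem rdu251_corner_onPolygon {G : Finset (ℤ × ℤ)} {x y : ℤ} (h : (x, y) ∉ G) :
    OnPolygon G (x, y) ∧ OnPolygon G (x + 1, y) ∧ OnPolygon G (x, y + 1) ∧ OnPolygon G (x + 1, y + 1) := by
  refine ⟨fun hv => h hv.1, fun hv => h ?_, fun hv => h ?_, fun hv => h ?_⟩
  · simpa using hv.2.1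
  · simpa using hv.2.2.1
  · simpa using hv.2.2.2

/-- a potential of the polygon side of `G` is constant on the corners of a face which is not in `G` -/
theorem rdu251_corner_const {G : Finset (ℤ × ℤ)} {φ : ℤ × ℤ → Bool}
    (hφ : ∀ e : (ℤ × ℤ) × Bool, e.1 ∈ {v | OnPolygon G v} → rswEnd e ∈ {v | OnPolygon G v} → φ e.1 = φ (rswEnd e))
    {x y : ℤ} (h : (x, y) ∉ G) :
    φ (x + 1, y) = φ (x, y) ∧ φ (x, y + 1) = φ (x, y) ∧ φ (x + 1, y + 1) = φ (x, y) := by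
  obtain ⟨c1, c2, c3, c4⟩ := rdu251_corner_onPolygon h
  have e1 := hφ ((x, y), false) c1 (by simpa [rswEnd] using c2)
  have e2 := hφ ((x, y), true) c1 (by simpa [rswEnd] using c3)
  have e3 := hφ ((x + 1, y), true) c2 (by simpa [rswEnd] using c4)
  simp only [rswEnd, Bool.false_eq_true, if_false, if_true] at e1 e2 e3
  exact ⟨e1.symm, e2.symm, by rw [← e3, ← e1]⟩

/-- **(GEO 3)**, second version (= `Rch299GeoDom`, `Inv = rs122Inv F a ω (rswLayer F)`): the domain left by the search from the layer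
has a connected complement -/
theorem rdu251_geo_inv (F Inv : Finset (ℤ × ℤ)) (a : Bool) (ω : RswCfg)
    (hInv : ∀ g, g ∈ Inv ↔ g ∈ F ∧ ∃ f ∈ rswLayer F, Relation.ReflTransGen (RswStep F a ω) f g)
    (hF : Rdu251Conn {v | OnPolygon F v}) : Rdu251Conn {v | OnPolygon (F \ Inv) v} := by
  classical
  intro φ hφ
  have hsub : ∀ v, OnPolygon F v → OnPolygon (F \ Inv) v := by
    intro v hv h
    exact hv ⟨(Finset.mem_sdiff.1 h.1).1, (Finset.mem_sdiff.1 h.2.1).1, (Finset.mem_sdiff.1 h.2.2.1).1,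
      (Finset.mem_sdiff.1 h.2.2.2).1⟩
  have h1 : ∀ u, OnPolygon F u → ∀ v, OnPolygon F v → φ u = φ v := fun u hu v hv =>
    hF φ (fun e h1 h2 => hφ e (hsub _ h1) (hsub _ h2)) u hu v hv
  -- the value of `φ` at the lower left corner of a face of `Inv` is a value on the polygon side of `F`
  have h2 : ∀ f ∈ rswLayer F, ∀ g, Relation.ReflTransGen (RswStep F a ω) f g → ∃ u, OnPolygon F u ∧ φ g = φ u := by
    intro f hf g hch
    induction hch with
    | refl =>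
      have hfI : f ∉ F \ Inv := by
        intro h
        have hfF := (Finset.mem_sdiff.1 h).1
        exact (Finset.mem_sdiff.1 h).2 ((hInv f).2 ⟨hfF, f, hf, Relation.ReflTransGen.refl⟩)
      obtain ⟨x, y⟩ := f
      obtain ⟨c1, c2, c3⟩ := rdu251_corner_const hφ hfI
      simp only [rswLayer, Finset.mem_filter] at hf
      obtain ⟨_, v, hv, hvP⟩ := hf
      simp only [Finset.mem_insert, Finset.mem_singleton] at hv
      rcases hv with rfl | rfl | rfl | rfl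
      · exact ⟨_, hvP, rfl⟩
      · exact ⟨_, hvP, c1.symm⟩
      · exact ⟨_, hvP, c2.symm⟩
      · exact ⟨_, hvP, c3.symm⟩
    | tail hab hstep ih =>
      rename_i b c
      obtain ⟨u, hu, hbu⟩ := ih
      refine ⟨u, hu, ?_⟩
      rw [← hbu]
      have hbI : b ∉ F \ Inv := fun h =>
        (Finset.mem_sdiff.1 h).2 ((hInv b).2 ⟨(Finset.mem_sdiff.1 h).1, f, hf, hab⟩)
      have hcI : c ∉ F \ Inv := fun h =>
        (Finset.mem_sdiff.1 h).2 ((hInv c).2 ⟨(Finset.mem_sdiff.1 h).1, f, hf, hab.tail hstep⟩)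
      obtain ⟨_, _, ⟨⟨x, y⟩, o⟩, hcase, _⟩ := hstep
      cases o
      · -- horizontal edge: faces `(x, y)` and `(x, y - 1)`
        simp only [rswCo, Bool.false_eq_true, if_false] at hcase
        rcases hcase with ⟨rfl, rfl⟩ | ⟨rfl, rfl⟩
        · have := (rdu251_corner_const hφ hcI).2.1
          rw [sub_add_cancel] at this
          exact this.symm
        · have := (rdu251_corner_const hφ hbI).2.1
          rw [sub_add_cancel] at this
          exact this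
      · simp only [rswCo, if_true] at hcase
        rcases hcase with ⟨rfl, rfl⟩ | ⟨rfl, rfl⟩
        · have := (rdu251_corner_const hφ hcI).1
          rw [sub_add_cancel] at this
          exact this.symm
        · have := (rdu251_corner_const hφ hbI).1
          rw [sub_add_cancel] at this
          exact this
  have h3 : ∀ g ∈ Inv, ∃ u, OnPolygon F u ∧ φ g = φ u := by
    intro g hg
    obtain ⟨_, f, hf, hch⟩ := (hInv g).1 hg
    exact h2 f hf g hch
  have hnot : ∀ g ∈ Inv, g ∉ F \ Inv := fun g hg h => (Finset.mem_sdiff.1 h).2 hg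
  have h4 : ∀ v, OnPolygon (F \ Inv) v → ∃ u, OnPolygon F u ∧ φ v = φ u := by
    rintro ⟨x, y⟩ hv
    by_cases hP : OnPolygon F (x, y)
    · exact ⟨_, hP, rfl⟩
    · simp only [OnPolygon, not_not] at hP
      obtain ⟨p1, p2, p3, p4⟩ := hP
      by_cases q1 : (x, y) ∈ Inv
      · exact h3 _ q1
      by_cases q2 : (x - 1, y) ∈ Inv
      · obtain ⟨u, hu, e⟩ := h3 _ q2
        have := (rdu251_corner_const hφ (hnot _ q2)).1
        rw [sub_add_cancel] at this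
        exact ⟨u, hu, this.trans e⟩
      by_cases q3 : (x, y - 1) ∈ Inv
      · obtain ⟨u, hu, e⟩ := h3 _ q3
        have := (rdu251_corner_const hφ (hnot _ q3)).2.1
        rw [sub_add_cancel] at this
        exact ⟨u, hu, this.trans e⟩
      by_cases q4 : (x - 1, y - 1) ∈ Inv
      · obtain ⟨u, hu, e⟩ := h3 _ q4
        have := (rdu251_corner_const hφ (hnot _ q4)).2.2
        rw [sub_add_cancel, sub_add_cancel] at this
        exact ⟨u, hu, this.trans e⟩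
      exact absurd ⟨Finset.mem_sdiff.2 ⟨p1, q1⟩, Finset.mem_sdiff.2 ⟨p2, q2⟩, Finset.mem_sdiff.2 ⟨p3, q3⟩,
        Finset.mem_sdiff.2 ⟨p4, q4⟩⟩ hv
  intro u hu v hv
  obtain ⟨u', hu', e1⟩ := h4 u hu
  obtain ⟨v', hv', e2⟩ := h4 v hv
  rw [e1, e2, h1 u' hu' v' hv']

/-! ## 13. SITE duality on rectangles of `ℤ²` (N5 of CORE_DICT): nearest-neighbour crossings against STAR crossings

Sites = points of `ℤ²` in the rectangle `[x0,x1) × [y0,y1)` (`rdu251Rect`; read them as faces, as vertices, whatever).  `P` any set of sites. -/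

/-- nearest neighbours -/
def Rdu251NN (f g : ℤ × ℤ) : Prop := |f.1 - g.1| + |f.2 - g.2| = 1

/-- king move (or equality) -/
def Rdu251Star (f g : ℤ × ℤ) : Prop := |f.1 - g.1| ≤ 1 ∧ |f.2 - g.2| ≤ 1

/-- one nearest-neighbour step inside `A` -/
def rdu251NNStep (A : Set (ℤ × ℤ)) (f g : ℤ × ℤ) : Prop := f ∈ A ∧ g ∈ A ∧ Rdu251NN f g

/-- one star step inside `A` -/
def rdu251StarStep (A : Set (ℤ × ℤ)) (f g : ℤ × ℤ) : Prop := f ∈ A ∧ g ∈ A ∧ Rdu251Star f g

/-- a nearest-neighbour chain of sites of `Q` from the left column to the right column -/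
def Rdu251SiteLR (x0 x1 y0 y1 : ℤ) (Q : Set (ℤ × ℤ)) : Prop :=
  ∃ f g : ℤ × ℤ, f ∈ rdu251Rect x0 x1 y0 y1 ∩ Q ∧ f.1 = x0 ∧ g ∈ rdu251Rect x0 x1 y0 y1 ∩ Q ∧ g.1 = x1 - 1 ∧
    ReflTransGen (rdu251NNStep (rdu251Rect x0 x1 y0 y1 ∩ Q)) f g

/-- a star chain of sites of `P` from the bottom row to the top row -/
def Rdu251StarBT (x0 x1 y0 y1 : ℤ) (P : Set (ℤ × ℤ)) : Prop :=
  ∃ f g : ℤ × ℤ, f ∈ rdu251Rect x0 x1 y0 y1 ∩ P ∧ f.2 = y0 ∧ g ∈ rdu251Rect x0 x1 y0 y1 ∩ P ∧ g.2 = y1 - 1 ∧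
    ReflTransGen (rdu251StarStep (rdu251Rect x0 x1 y0 y1 ∩ P)) f g

/-- the edges which touch a face of `A` -/
def rdu251Touch (A : Set (ℤ × ℤ)) : Set ((ℤ × ℤ) × Bool) := {e | e.1 ∈ A ∨ rswCo e ∈ A}

theorem rdu251_nn_cases {f g : ℤ × ℤ} (h : Rdu251NN f g) :
    (g.1 = f.1 - 1 ∧ g.2 = f.2) ∨ (g.1 = f.1 + 1 ∧ g.2 = f.2) ∨ (g.1 = f.1 ∧ g.2 = f.2 - 1) ∨ (g.1 = f.1 ∧ g.2 = f.2 + 1) := by
  unfold Rdu251NN at h
  rcases abs_cases (f.1 - g.1) with ⟨h1, h2⟩ | ⟨h1, h2⟩ <;> rcases abs_cases (f.2 - g.2) with ⟨h3, h4⟩ | ⟨h3, h4⟩ <;> omega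

/-- nearest neighbours = the two faces of an edge -/
theorem rdu251_nn_edge {f g : ℤ × ℤ} :
    Rdu251NN f g ↔ ∃ e : (ℤ × ℤ) × Bool, (f = e.1 ∧ g = rswCo e) ∨ (g = e.1 ∧ f = rswCo e) := by
  constructor
  · intro h
    obtain ⟨a, b⟩ := f
    obtain ⟨c, d⟩ := g
    rcases rdu251_nn_cases h with ⟨h1, h2⟩ | ⟨h1, h2⟩ | ⟨h1, h2⟩ | ⟨h1, h2⟩ <;> dsimp only at h1 h2 <;> subst h1 <;> subst h2
    · exact ⟨(_, true), Or.inl ⟨rfl, by simp [rswCo]⟩⟩
    · exact ⟨(_, true), Or.inr ⟨rfl, by simp [rswCo]⟩⟩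
    · exact ⟨(_, false), Or.inl ⟨rfl, by simp [rswCo]⟩⟩
    · exact ⟨(_, false), Or.inr ⟨rfl, by simp [rswCo]⟩⟩
  · rintro ⟨⟨⟨a, b⟩, o⟩, ⟨rfl, rfl⟩ | ⟨rfl, rfl⟩⟩ <;> cases o <;> simp [Rdu251NN, rswCo]

/-- the second face of an edge lies round both of its endpoints -/
theorem rdu251_co_around (e : (ℤ × ℤ) × Bool) :
    rswCo e ∈ rdu251Around e.1 ∧ rswCo e ∈ rdu251Around (rswEnd e) := by
  obtain ⟨⟨a, b⟩, t⟩ := e
  cases t
  · refine ⟨Or.inr (Or.inr (Or.inl (by simp [rswCo]))), Or.inr (Or.inr (Or.inr (by simp [rswCo, rswEnd])))⟩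
  · refine ⟨Or.inr (Or.inl (by simp [rswCo])), Or.inr (Or.inr (Or.inr (by simp [rswCo, rswEnd])))⟩

/-- two faces round a vertex are star neighbours -/
theorem rdu251_around_star {z f g : ℤ × ℤ} (hf : f ∈ rdu251Around z) (hg : g ∈ rdu251Around z) : Rdu251Star f g := by
  have h1 : (f.1 = z.1 ∨ f.1 = z.1 - 1) ∧ (f.2 = z.2 ∨ f.2 = z.2 - 1) := by
    rcases hf with rfl | rfl | rfl | rfl <;> simp
  have h2 : (g.1 = z.1 ∨ g.1 = z.1 - 1) ∧ (g.2 = z.2 ∨ g.2 = z.2 - 1) := by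
    rcases hg with rfl | rfl | rfl | rfl <;> simp
  unfold Rdu251Star
  rw [abs_le, abs_le]
  omega

/-- two star neighbours have a common corner -/
theorem rdu251_star_corner {f g : ℤ × ℤ} (h : Rdu251Star f g) : ∃ z, z ∈ rdu251Corner f ∧ z ∈ rdu251Corner g := by
  obtain ⟨a, b⟩ := f
  obtain ⟨c, d⟩ := g
  unfold Rdu251Star at h
  rw [abs_le, abs_le] at h
  dsimp only at h
  refine ⟨(max a c, max b d), ?_, ?_⟩
  · have h1 : max a c = a ∨ max a c = a + 1 := by omega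
    have h2 : max b d = b ∨ max b d = b + 1 := by omega
    rcases h1 with h1 | h1 <;> rcases h2 with h2 | h2 <;> rw [h1, h2]
    · exact Or.inl rfl
    · exact Or.inr (Or.inr (Or.inl rfl))
    · exact Or.inr (Or.inl rfl)
    · exact Or.inr (Or.inr (Or.inr rfl))
  · have h1 : max a c = c ∨ max a c = c + 1 := by omega
    have h2 : max b d = d ∨ max b d = d + 1 := by omega
    rcases h1 with h1 | h1 <;> rcases h2 with h2 | h2 <;> rw [h1, h2]
    · exact Or.inl rfl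
    · exact Or.inr (Or.inr (Or.inl rfl))
    · exact Or.inr (Or.inl rfl)
    · exact Or.inr (Or.inr (Or.inr rfl))

/-- (I, easy half) a nearest-neighbour crossing off `P` is a chain of faces of the rectangle enlarged by one column on each side -/
theorem rdu251_dual_of_site {x0 x1 y0 y1 : ℤ} (P : Set (ℤ × ℤ)) (h : Rdu251SiteLR x0 x1 y0 y1 Pᶜ) :
    Rdu251DualLR (x0 - 1) (x1 + 1) y0 y1 (rdu251Touch (rdu251Rect x0 x1 y0 y1 ∩ P)) := by
  obtain ⟨⟨fx, fy⟩, ⟨gx, gy⟩, ⟨hfR, hfP⟩, hf0, ⟨hgR, hgP⟩, hg1, hch⟩ := h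
  dsimp only at hf0 hg1
  subst hf0
  obtain rfl : x1 = gx + 1 := by omega
  obtain ⟨f1, f2, f3, f4⟩ := hfR
  obtain ⟨g1, g2, g3, g4⟩ := hgR
  dsimp only at f1 f2 f3 f4 g1 g2 g3 g4
  have hsub : ∀ a, a ∈ rdu251Rect fx (gx + 1) y0 y1 → a ∈ rdu251Rect (fx - 1) (gx + 1 + 1) y0 y1 := by
    rintro a ⟨a1, a2, a3, a4⟩
    exact ⟨by omega, by omega, a3, a4⟩
  refine ⟨(fx - 1, fy), (gx + 1, gy), ⟨by dsimp only; omega, by dsimp only; omega, f3, f4⟩, rfl,
    ⟨by dsimp only; omega, by dsimp only; omega, g3, g4⟩, by simp, ?_⟩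
  have s1 : rdu251Step (rdu251Rect (fx - 1) (gx + 1 + 1) y0 y1) (rdu251Touch (rdu251Rect fx (gx + 1) y0 y1 ∩ P))
      (fx - 1, fy) (fx, fy) := by
    refine ⟨⟨by dsimp only; omega, by dsimp only; omega, f3, f4⟩, ⟨by dsimp only; omega, by dsimp only; omega, f3, f4⟩,
      ((fx, fy), true), Or.inr ⟨rfl, by simp [rswCo]⟩, ?_⟩
    rintro (h | h)
    · exact hfP h.2
    · have := h.1.1
      simp only [rswCo, if_true] at this
      omega
  have s2 : rdu251Step (rdu251Rect (fx - 1) (gx + 1 + 1) y0 y1) (rdu251Touch (rdu251Rect fx (gx + 1) y0 y1 ∩ P))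
      (gx, gy) (gx + 1, gy) := by
    refine ⟨⟨by dsimp only; omega, by dsimp only; omega, g3, g4⟩, ⟨by dsimp only; omega, by dsimp only; omega, g3, g4⟩,
      ((gx + 1, gy), true), Or.inr ⟨rfl, by simp [rswCo]⟩, ?_⟩
    rintro (h | h)
    · have := h.1.2.1
      dsimp only at this
      omega
    · apply hgP
      have := h.2
      simpa [rswCo] using this
  have mid : ReflTransGen (rdu251Step (rdu251Rect (fx - 1) (gx + 1 + 1) y0 y1)
      (rdu251Touch (rdu251Rect fx (gx + 1) y0 y1 ∩ P))) (fx, fy) (gx, gy) := by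
    refine ReflTransGen.mono ?_ _ _ hch
    rintro a b ⟨⟨haR, haP⟩, ⟨hbR, hbP⟩, hnn⟩
    obtain ⟨e, he⟩ := rdu251_nn_edge.1 hnn
    refine ⟨hsub a haR, hsub b hbR, e, he, ?_⟩
    rcases he with ⟨rfl, rfl⟩ | ⟨rfl, rfl⟩
    · rintro (h | h)
      · exact haP h.2
      · exact hbP h.2
    · rintro (h | h)
      · exact hbP h.2
      · exact haP h.2
  exact (ReflTransGen.single s1).trans (mid.tail s2)

/-- (I, other half) -/
theorem rdu251_site_of_dual {x0 x1 y0 y1 : ℤ} (hx : x0 < x1) (P : Set (ℤ × ℤ))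
    (h : Rdu251DualLR (x0 - 1) (x1 + 1) y0 y1 (rdu251Touch (rdu251Rect x0 x1 y0 y1 ∩ P))) :
    Rdu251SiteLR x0 x1 y0 y1 Pᶜ := by
  obtain ⟨f', g', hf'R, hf', hg'R, hg', hch⟩ := h
  have key : ∀ b, ReflTransGen (rdu251Step (rdu251Rect (x0 - 1) (x1 + 1) y0 y1)
        (rdu251Touch (rdu251Rect x0 x1 y0 y1 ∩ P))) f' b →
      Rdu251SiteLR x0 x1 y0 y1 Pᶜ ∨ (b.1 ≤ x1 - 1 ∧ (b ∈ rdu251Rect x0 x1 y0 y1 →
        ∃ f, f ∈ rdu251Rect x0 x1 y0 y1 ∩ Pᶜ ∧ f.1 = x0 ∧ ReflTransGen (rdu251NNStep (rdu251Rect x0 x1 y0 y1 ∩ Pᶜ)) f b)) := by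
    intro b hb
    induction hb with
    | refl =>
      right
      refine ⟨by omega, fun hb => ?_⟩
      have := hb.1
      omega
    | @tail b c _ hstep ih =>
      rcases ih with ih | ⟨ih1, ih2⟩
      · exact Or.inl ih
      obtain ⟨hbR, hcR, e, hcase, heG⟩ := hstep
      have hnn : Rdu251NN b c := rdu251_nn_edge.2 ⟨e, hcase⟩
      have hbP : b ∈ rdu251Rect x0 x1 y0 y1 → b ∈ rdu251Rect x0 x1 y0 y1 ∩ Pᶜ := by
        intro hb
        refine ⟨hb, fun hP => heG ?_⟩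
        rcases hcase with ⟨rfl, rfl⟩ | ⟨rfl, rfl⟩
        · exact Or.inl ⟨hb, hP⟩
        · exact Or.inr ⟨hb, hP⟩
      have hcP : c ∈ rdu251Rect x0 x1 y0 y1 → c ∈ rdu251Rect x0 x1 y0 y1 ∩ Pᶜ := by
        intro hc
        refine ⟨hc, fun hP => heG ?_⟩
        rcases hcase with ⟨rfl, rfl⟩ | ⟨rfl, rfl⟩
        · exact Or.inr ⟨hc, hP⟩
        · exact Or.inl ⟨hc, hP⟩
      have hadj := rdu251_nn_cases hnn
      obtain ⟨b1, b2, b3, b4⟩ := hbR
      obtain ⟨c1, c2, c3, c4⟩ := hcR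
      by_cases hc1 : c.1 = x1
      · left
        have hbRR : b ∈ rdu251Rect x0 x1 y0 y1 := ⟨by omega, by omega, b3, b4⟩
        obtain ⟨f, hf, hf0, hfb⟩ := ih2 hbRR
        exact ⟨f, b, hf, hf0, hbP hbRR, by omega, hfb⟩
      · right
        refine ⟨by omega, fun hcRR => ?_⟩
        by_cases hbRR : b ∈ rdu251Rect x0 x1 y0 y1
        · obtain ⟨f, hf, hf0, hfb⟩ := ih2 hbRR
          exact ⟨f, hf, hf0, hfb.tail ⟨hbP hbRR, hcP hcRR, hnn⟩⟩
        · have hb0 : b.1 = x0 - 1 := by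
            by_contra hne
            exact hbRR ⟨by omega, by omega, b3, b4⟩
          have := hcRR.1
          exact ⟨c, hcP hcRR, by omega, ReflTransGen.refl⟩
  rcases key g' hch with h | ⟨h1, _⟩
  · exact h
  · omega

/-- (II, first half) a chain of edges touching `P` gives a star chain of `P` -/
theorem rdu251_star_of_prim {x0 x1 y0 y1 : ℤ} (hy : y0 < y1) (P : Set (ℤ × ℤ))
    (h : Rdu251PrimBT (x0 - 1) (x1 + 1) y0 y1 (rdu251Touch (rdu251Rect x0 x1 y0 y1 ∩ P))) :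
    Rdu251StarBT x0 x1 y0 y1 P := by
  obtain ⟨u, v, hu, hv, hch⟩ := h
  have key : ∀ b, ReflTransGen (rdu251PStep (rdu251Rect (x0 - 1) (x1 + 1) y0 y1)
        (rdu251Touch (rdu251Rect x0 x1 y0 y1 ∩ P))) u b →
      b = u ∨ ∃ f g, f ∈ rdu251Rect x0 x1 y0 y1 ∩ P ∧ f.2 = y0 ∧ g ∈ rdu251Rect x0 x1 y0 y1 ∩ P ∧ g ∈ rdu251Around b ∧
        ReflTransGen (rdu251StarStep (rdu251Rect x0 x1 y0 y1 ∩ P)) f g := by
    intro b hb
    induction hb with
    | refl => exact Or.inl rfl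
    | @tail b c _ hstep ih =>
      obtain ⟨e, heG, _, _, hcase⟩ := hstep
      obtain ⟨p, hp, hpb, hpc⟩ : ∃ p, p ∈ rdu251Rect x0 x1 y0 y1 ∩ P ∧ p ∈ rdu251Around b ∧ p ∈ rdu251Around c := by
        rcases heG with hG | hG
        · refine ⟨e.1, hG, ?_⟩
          rcases hcase with ⟨rfl, rfl⟩ | ⟨rfl, rfl⟩
          · exact rdu251_face_around e
          · exact (rdu251_face_around e).symm
        · refine ⟨rswCo e, hG, ?_⟩
          rcases hcase with ⟨rfl, rfl⟩ | ⟨rfl, rfl⟩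
          · exact rdu251_co_around e
          · exact (rdu251_co_around e).symm
      right
      rcases ih with hbu | ⟨f, g, hf, hf0, hg, hgb, hfg⟩
      · refine ⟨p, p, hp, ?_, hp, hpc, ReflTransGen.refl⟩
        have h3 := hp.1.2.2.1
        rw [hbu] at hpb
        rcases hpb with rfl | rfl | rfl | rfl <;> (try dsimp only at h3 ⊢) <;> omega
      · exact ⟨f, p, hf, hf0, hp, hpc, hfg.tail ⟨hg, hp, rdu251_around_star hgb hpb⟩⟩
  rcases key v hch with hvu | ⟨f, g, hf, hf0, hg, hgv, hfg⟩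
  · rw [hvu] at hv
    omega
  · refine ⟨f, g, hf, hf0, hg, ?_, hfg⟩
    have h4 := hg.1.2.2.2
    rcases hgv with rfl | rfl | rfl | rfl <;> (try dsimp only at h4 ⊢) <;> omega

/-- (II, second half) a star chain of `P` gives a chain of edges touching `P` -/
theorem rdu251_prim_of_star {x0 x1 y0 y1 : ℤ} (P : Set (ℤ × ℤ)) (h : Rdu251StarBT x0 x1 y0 y1 P) :
    Rdu251PrimBT (x0 - 1) (x1 + 1) y0 y1 (rdu251Touch (rdu251Rect x0 x1 y0 y1 ∩ P)) := by
  obtain ⟨f, g, hf, hf0, hg, hg1, hch⟩ := h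
  have hT : ∀ c ∈ rdu251Rect x0 x1 y0 y1 ∩ P, ∀ e : (ℤ × ℤ) × Bool, (e.1 = c ∨ rswCo e = c) →
      e ∈ rdu251Touch (rdu251Rect x0 x1 y0 y1 ∩ P) := by
    rintro c hc e (rfl | rfl)
    · exact Or.inl hc
    · exact Or.inr hc
  by_cases hh : y0 + 2 ≤ y1
  · have hj : ∀ c ∈ rdu251Rect x0 x1 y0 y1 ∩ P, ∀ v ∈ rdu251Corner c, ∀ w ∈ rdu251Corner c,
        ReflTransGen (rdu251PStep (rdu251Rect (x0 - 1) (x1 + 1) y0 y1) (rdu251Touch (rdu251Rect x0 x1 y0 y1 ∩ P))) v w := by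
      intro c hc v hv w hw
      obtain ⟨c1, c2, c3, c4⟩ := hc.1
      exact rdu251_corner_joined hh c (by omega) (by omega) c3 c4 (hT c hc) hv hw
    have key : ∀ b, ReflTransGen (rdu251StarStep (rdu251Rect x0 x1 y0 y1 ∩ P)) f b → ∀ z ∈ rdu251Corner b,
        ReflTransGen (rdu251PStep (rdu251Rect (x0 - 1) (x1 + 1) y0 y1) (rdu251Touch (rdu251Rect x0 x1 y0 y1 ∩ P))) f z := by
      intro b hb
      induction hb with
      | refl => exact fun z hz => hj f hf f (Or.inl rfl) z hz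
      | @tail b c _ hstep ih =>
        obtain ⟨_, hc, hs⟩ := hstep
        obtain ⟨w, hwb, hwc⟩ := rdu251_star_corner hs
        exact fun z hz => (ih w hwb).trans (hj c hc w hwc z hz)
    exact ⟨f, (g.1, g.2 + 1), hf0, by dsimp only; omega, key g hch _ (Or.inr (Or.inr (Or.inl rfl)))⟩
  · obtain ⟨f1, f2, f3, f4⟩ := hf.1
    refine ⟨f, (f.1, f.2 + 1), hf0, by dsimp only; omega, ReflTransGen.single ?_⟩
    exact rdu251_pstep_of_v (x := f.1) (y := f.2) (hT f hf _ (Or.inl rfl)) ⟨by dsimp only; omega, by dsimp only; omega, f3, f4⟩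
      ⟨by dsimp only; omega, by dsimp only; omega, f3, f4⟩

/-- **SITE DUALITY IN A RECTANGLE**: a nearest-neighbour left-right crossing off `P`, or else a star bottom-top crossing of `P` -/
theorem rdu251_site_duality {x0 x1 y0 y1 : ℤ} (hx : x0 < x1) (hy : y0 < y1) (P : Set (ℤ × ℤ)) :
    Rdu251SiteLR x0 x1 y0 y1 Pᶜ ↔ ¬ Rdu251StarBT x0 x1 y0 y1 P := by
  have hd := rdu251_duality' (x0 := x0 - 1) (x1 := x1 + 1) (by omega) hy (rdu251Touch (rdu251Rect x0 x1 y0 y1 ∩ P))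
  constructor
  · intro hs hstar
    exact hd.1 (rdu251_prim_of_star P hstar) (rdu251_dual_of_site P hs)
  · intro hno
    refine rdu251_site_of_dual hx P ?_
    by_contra hnd
    exact hno (rdu251_star_of_prim hy P (hd.2 hnd))

/-! ### the transposed form; nearest-neighbour chains are star chains -/

/-- a nearest-neighbour chain of sites of `Q` from the bottom row to the top row -/
def Rdu251SiteBT (x0 x1 y0 y1 : ℤ) (Q : Set (ℤ × ℤ)) : Prop :=
  ∃ f g : ℤ × ℤ, f ∈ rdu251Rect x0 x1 y0 y1 ∩ Q ∧ f.2 = y0 ∧ g ∈ rdu251Rect x0 x1 y0 y1 ∩ Q ∧ g.2 = y1 - 1 ∧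
    ReflTransGen (rdu251NNStep (rdu251Rect x0 x1 y0 y1 ∩ Q)) f g

/-- a star chain of sites of `P` from the left column to the right column -/
def Rdu251StarLR (x0 x1 y0 y1 : ℤ) (P : Set (ℤ × ℤ)) : Prop :=
  ∃ f g : ℤ × ℤ, f ∈ rdu251Rect x0 x1 y0 y1 ∩ P ∧ f.1 = x0 ∧ g ∈ rdu251Rect x0 x1 y0 y1 ∩ P ∧ g.1 = x1 - 1 ∧
    ReflTransGen (rdu251StarStep (rdu251Rect x0 x1 y0 y1 ∩ P)) f g

theorem rdu251_mem_swap {x0 x1 y0 y1 : ℤ} {Q : Set (ℤ × ℤ)} {f : ℤ × ℤ} (h : f ∈ rdu251Rect x0 x1 y0 y1 ∩ Q) :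
    f.swap ∈ rdu251Rect y0 y1 x0 x1 ∩ (Prod.swap ⁻¹' Q) := by
  obtain ⟨⟨h1, h2, h3, h4⟩, hQ⟩ := h
  exact ⟨⟨h3, h4, h1, h2⟩, by simpa using hQ⟩

theorem rdu251_nnchain_swap {x0 x1 y0 y1 : ℤ} {Q : Set (ℤ × ℤ)} {f g : ℤ × ℤ}
    (h : ReflTransGen (rdu251NNStep (rdu251Rect x0 x1 y0 y1 ∩ Q)) f g) :
    ReflTransGen (rdu251NNStep (rdu251Rect y0 y1 x0 x1 ∩ (Prod.swap ⁻¹' Q))) f.swap g.swap := by
  refine ReflTransGen.lift Prod.swap ?_ _ _ h
  rintro a b ⟨ha, hb, hnn⟩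
  refine ⟨rdu251_mem_swap ha, rdu251_mem_swap hb, ?_⟩
  unfold Rdu251NN at hnn ⊢
  simpa [add_comm] using hnn

theorem rdu251_starchain_swap {x0 x1 y0 y1 : ℤ} {Q : Set (ℤ × ℤ)} {f g : ℤ × ℤ}
    (h : ReflTransGen (rdu251StarStep (rdu251Rect x0 x1 y0 y1 ∩ Q)) f g) :
    ReflTransGen (rdu251StarStep (rdu251Rect y0 y1 x0 x1 ∩ (Prod.swap ⁻¹' Q))) f.swap g.swap := by
  refine ReflTransGen.lift Prod.swap ?_ _ _ h
  rintro a b ⟨ha, hb, hs⟩
  exact ⟨rdu251_mem_swap ha, rdu251_mem_swap hb, hs.2, hs.1⟩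

theorem rdu251_swap_swap (Q : Set (ℤ × ℤ)) : Prod.swap ⁻¹' (Prod.swap ⁻¹' Q) = Q := by
  ext ⟨a, b⟩
  simp

theorem rdu251_siteLR_swap {x0 x1 y0 y1 : ℤ} {Q : Set (ℤ × ℤ)} :
    Rdu251SiteLR x0 x1 y0 y1 Q ↔ Rdu251SiteBT y0 y1 x0 x1 (Prod.swap ⁻¹' Q) := by
  constructor
  · rintro ⟨f, g, hf, hf0, hg, hg1, hch⟩
    exact ⟨f.swap, g.swap, rdu251_mem_swap hf, hf0, rdu251_mem_swap hg, hg1, rdu251_nnchain_swap hch⟩
  · rintro ⟨f, g, hf, hf0, hg, hg1, hch⟩
    have h1 := rdu251_mem_swap hf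
    have h2 := rdu251_mem_swap hg
    have h3 := rdu251_nnchain_swap hch
    rw [rdu251_swap_swap] at h1 h2 h3
    exact ⟨f.swap, g.swap, h1, hf0, h2, hg1, h3⟩

theorem rdu251_starBT_swap {x0 x1 y0 y1 : ℤ} {P : Set (ℤ × ℤ)} :
    Rdu251StarBT x0 x1 y0 y1 P ↔ Rdu251StarLR y0 y1 x0 x1 (Prod.swap ⁻¹' P) := by
  constructor
  · rintro ⟨f, g, hf, hf0, hg, hg1, hch⟩
    exact ⟨f.swap, g.swap, rdu251_mem_swap hf, hf0, rdu251_mem_swap hg, hg1, rdu251_starchain_swap hch⟩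
  · rintro ⟨f, g, hf, hf0, hg, hg1, hch⟩
    have h1 := rdu251_mem_swap hf
    have h2 := rdu251_mem_swap hg
    have h3 := rdu251_starchain_swap hch
    rw [rdu251_swap_swap] at h1 h2 h3
    exact ⟨f.swap, g.swap, h1, hf0, h2, hg1, h3⟩

/-- **SITE DUALITY IN A RECTANGLE, the other direction** -/
theorem rdu251_site_duality' {x0 x1 y0 y1 : ℤ} (hx : x0 < x1) (hy : y0 < y1) (P : Set (ℤ × ℤ)) :
    Rdu251SiteBT x0 x1 y0 y1 Pᶜ ↔ ¬ Rdu251StarLR x0 x1 y0 y1 P := by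
  have h := rdu251_site_duality hy hx (Prod.swap ⁻¹' P)
  rw [rdu251_siteLR_swap, rdu251_starBT_swap, ← Set.preimage_compl, rdu251_swap_swap, rdu251_swap_swap] at h
  exact h

theorem rdu251_star_of_nn {f g : ℤ × ℤ} (h : Rdu251NN f g) : Rdu251Star f g := by
  have := rdu251_nn_cases h
  unfold Rdu251Star
  rw [abs_le, abs_le]
  omega

theorem rdu251_starchain_of_nn {A : Set (ℤ × ℤ)} {f g : ℤ × ℤ} (h : ReflTransGen (rdu251NNStep A) f g) :
    ReflTransGen (rdu251StarStep A) f g :=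
  ReflTransGen.mono (fun _ _ hs => ⟨hs.1, hs.2.1, rdu251_star_of_nn hs.2.2⟩) _ _ h

theorem rdu251_starBT_of_siteBT {x0 x1 y0 y1 : ℤ} {P : Set (ℤ × ℤ)} (h : Rdu251SiteBT x0 x1 y0 y1 P) :
    Rdu251StarBT x0 x1 y0 y1 P := by
  obtain ⟨f, g, hf, hf0, hg, hg1, hch⟩ := h
  exact ⟨f, g, hf, hf0, hg, hg1, rdu251_starchain_of_nn hch⟩

theorem rdu251_starLR_of_siteLR {x0 x1 y0 y1 : ℤ} {P : Set (ℤ × ℤ)} (h : Rdu251SiteLR x0 x1 y0 y1 P) :
    Rdu251StarLR x0 x1 y0 y1 P := by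
  obtain ⟨f, g, hf, hf0, hg, hg1, hch⟩ := h
  exact ⟨f, g, hf, hf0, hg, hg1, rdu251_starchain_of_nn hch⟩

/-- the alternative used for the seed of N5: in a rectangle there is a star bottom-top crossing of `P` or a star left-right crossing off `P` -/
theorem rdu251_star_or_star {x0 x1 y0 y1 : ℤ} (hx : x0 < x1) (hy : y0 < y1) (P : Set (ℤ × ℤ)) :
    Rdu251StarBT x0 x1 y0 y1 P ∨ Rdu251StarLR x0 x1 y0 y1 Pᶜ := by
  by_cases h : Rdu251StarBT x0 x1 y0 y1 P
  · exact Or.inl h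
  · exact Or.inr (rdu251_starLR_of_siteLR ((rdu251_site_duality hx hy P).2 h))

/-- never a nearest-neighbour bottom-top crossing of `P` together with a nearest-neighbour left-right crossing off `P` -/
theorem rdu251_not_nn_nn {x0 x1 y0 y1 : ℤ} (hx : x0 < x1) (hy : y0 < y1) (P : Set (ℤ × ℤ))
    (h1 : Rdu251SiteBT x0 x1 y0 y1 P) (h2 : Rdu251SiteLR x0 x1 y0 y1 Pᶜ) : False :=
  (rdu251_site_duality hx hy P).1 h2 (rdu251_starBT_of_siteBT h1)

/-- the equation lemmas of the definitions of this file are generated HERE -/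
theorem rdu251_eqns_cite : True := by
  have := @rdu251Step.eq_1
  have := @rdu251PStep.eq_1
  have := @rdu251Rect.eq_1
  have := @Rdu251DualBT.eq_1
  have := @Rdu251PrimLR.eq_1
  have := @Rdu251DualLR.eq_1
  have := @Rdu251PrimBT.eq_1
  have := @rdu251Curl.eq_1
  have := @rdu251T.eq_1
  have := @rdu251Good.eq_1
  have := @rdu251Around.eq_1
  have := @rdu251Corner.eq_1
  have := @Rdu251Conn.eq_1
  have := @Rdu251DGood.eq_1
  have := @Rdu251DStep.eq_1
  have := @Rdu251DStepC.eq_1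
  have := @rdu251Pol.eq_1
  have := @Rdu251NN.eq_1
  have := @Rdu251Star.eq_1
  have := @rdu251NNStep.eq_1
  have := @rdu251StarStep.eq_1
  have := @Rdu251SiteLR.eq_1
  have := @Rdu251StarBT.eq_1
  have := @rdu251Touch.eq_1
  have := @Rdu251SiteBT.eq_1
  have := @Rdu251StarLR.eq_1
  trivial

end Claimed.Agent.R292
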