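import Claimed.Agent.R292.Defs.RSW

/-!
# Row 292 (S0540), Rsw/Expl107 : EXPLORATION FROM THE LAYER      (block R4c of unit RSW, head helper122; pen helper107; prefix `rsx_` / `Rsx` / `rsx`)

TEX 03-spatial, lem:finite-cuts (2) + (4) ("inspect no variable beyond a completed open `W` rim").

* sec. 0  unfolding lemmas of Defs/RSW (all by `rfl` : no on-demand equation lemma is made here), geometry of one edge.
* sec. 1  `rsxCfgs F`, `rswSum` as ONE sum, positivity of the partition function.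
* sec. 2  SWAP: `F' ⊆ F`, `RsxCut F F' a ω` := the spin is `a` on the polygon of `F'` and the edges between `F'` and `F \ F'` are open.
          `rsx_swap : Σ_F (1_cut X Y) * Z_{F'} = Σ_F (1_cut Y) * Σ_{F'} X`   (`X` reads strictly inside `F'`, `Y` reads the rest).
* sec. 3  `rsxOut F a ω` := faces reachable from `rswLayer F` by `RswStep`; it is determined by the configuration on itself (`rsx_out_congr`, `rsx_out_loc`);
          the rest `F \ rsxOut` is sealed by a cut (`rsx_out_cut`); `RswSep .. A (rswLayer F) ↔ Disjoint A rsxOut`.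
* sec. 4  DECOMPOSITION `rsx_decomp : E_F (1_Sep X) = Σ_G P_F (Out = G) * E_{F \ G}^a X`, and its two corollaries (lower bound, two sided bound).
* sec. 5  a union of two face sets without common edge: the flat law is a product (`rsx_comp`).
-/

set_option autoImplicit false

namespace Claimed.Agent.R292

open Claims Claims.C0468 Finset

/-! ## 0. Unfolding lemmas, geometry of one edge -/

theorem rsx_end_false (v : ℤ × ℤ) : rswEnd (v, false) = (v.1 + 1, v.2) := rfl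
theorem rsx_end_true (v : ℤ × ℤ) : rswEnd (v, true) = (v.1, v.2 + 1) := rfl
theorem rsx_co_false (v : ℤ × ℤ) : rswCo (v, false) = (v.1, v.2 - 1) := rfl
theorem rsx_co_true (v : ℤ × ℤ) : rswCo (v, true) = (v.1 - 1, v.2) := rfl

theorem rsx_mem_int {F : Finset (ℤ × ℤ)} {e : (ℤ × ℤ) × Bool} : e ∈ rswInt F ↔ e.1 ∈ F ∧ rswCo e ∈ F := by
  show e ∈ (F ×ˢ (Finset.univ : Finset Bool)).filter (fun e => rswCo e ∈ F) ↔ _
  rw [Finset.mem_filter, Finset.mem_product]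
  simp

theorem rsx_int_mono {F' F : Finset (ℤ × ℤ)} (h : F' ⊆ F) : rswInt F' ⊆ rswInt F := fun e he => by
  rw [rsx_mem_int] at he ⊢
  exact ⟨h he.1, h he.2⟩

theorem rsx_mem_corners {F : Finset (ℤ × ℤ)} {v : ℤ × ℤ} :
    v ∈ cornersOf F ↔ v ∈ F ∨ (v.1 - 1, v.2) ∈ F ∨ (v.1, v.2 - 1) ∈ F ∨ (v.1 - 1, v.2 - 1) ∈ F := by
  have h : v ∈ cornersOf F ↔
      ∃ f ∈ F, v ∈ ({f, (f.1 + 1, f.2), (f.1, f.2 + 1), (f.1 + 1, f.2 + 1)} : Finset (ℤ × ℤ)) := Finset.mem_biUnion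
  rw [h]
  constructor
  · rintro ⟨f, hf, hv⟩
    simp only [Finset.mem_insert, Finset.mem_singleton] at hv
    rcases hv with rfl | rfl | rfl | rfl
    · exact Or.inl hf
    · right; left; simpa using hf
    · right; right; left; simpa using hf
    · right; right; right; simpa using hf
  · rintro (h | h | h | h)
    · exact ⟨v, h, by simp⟩
    · exact ⟨_, h, by simp⟩
    · exact ⟨_, h, by simp⟩
    · exact ⟨_, h, by simp⟩

theorem rsx_corners_mono {F' F : Finset (ℤ × ℤ)} (h : F' ⊆ F) : cornersOf F' ⊆ cornersOf F := fun v hv => by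
  rw [rsx_mem_corners] at hv ⊢
  rcases hv with h1 | h1 | h1 | h1
  · exact Or.inl (h h1)
  · exact Or.inr (Or.inl (h h1))
  · exact Or.inr (Or.inr (Or.inl (h h1)))
  · exact Or.inr (Or.inr (Or.inr (h h1)))

theorem rsx_onPoly {F : Finset (ℤ × ℤ)} {v : ℤ × ℤ} :
    OnPolygon F v ↔ ¬ (v ∈ F ∧ (v.1 - 1, v.2) ∈ F ∧ (v.1, v.2 - 1) ∈ F ∧ (v.1 - 1, v.2 - 1) ∈ F) := Iff.rfl

/-- the vertices strictly inside `F`: the four faces around them are in `F` -/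
def rsxIn (F : Finset (ℤ × ℤ)) : Finset (ℤ × ℤ) :=
  F.filter (fun v => (v.1 - 1, v.2) ∈ F ∧ (v.1, v.2 - 1) ∈ F ∧ (v.1 - 1, v.2 - 1) ∈ F)

theorem rsx_mem_in {F : Finset (ℤ × ℤ)} {v : ℤ × ℤ} :
    v ∈ rsxIn F ↔ v ∈ F ∧ (v.1 - 1, v.2) ∈ F ∧ (v.1, v.2 - 1) ∈ F ∧ (v.1 - 1, v.2 - 1) ∈ F := Finset.mem_filter

theorem rsx_in_iff {F : Finset (ℤ × ℤ)} {v : ℤ × ℤ} : v ∈ rsxIn F ↔ ¬ OnPolygon F v := by
  rw [rsx_mem_in, rsx_onPoly, not_not]

theorem rsx_in_sub_corners (F : Finset (ℤ × ℤ)) : rsxIn F ⊆ cornersOf F := fun _ hv =>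
  rsx_mem_corners.2 (Or.inl (rsx_mem_in.1 hv).1)

theorem rsx_in_mono {F' F : Finset (ℤ × ℤ)} (h : F' ⊆ F) : rsxIn F' ⊆ rsxIn F := fun v hv => by
  rw [rsx_mem_in] at hv ⊢
  exact ⟨h hv.1, h hv.2.1, h hv.2.2.1, h hv.2.2.2⟩

/-- both faces of an edge are among the four faces around its first endpoint -/
theorem rsx_in_faces1 {F : Finset (ℤ × ℤ)} {e : (ℤ × ℤ) × Bool} (h : e.1 ∈ rsxIn F) : e.1 ∈ F ∧ rswCo e ∈ F := by
  obtain ⟨v, b⟩ := e
  rw [rsx_mem_in] at h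
  cases b
  · exact ⟨h.1, h.2.2.1⟩
  · exact ⟨h.1, h.2.1⟩

/-- both faces of an edge are among the four faces around its second endpoint -/
theorem rsx_in_faces2 {F : Finset (ℤ × ℤ)} {e : (ℤ × ℤ) × Bool} (h : rswEnd e ∈ rsxIn F) : e.1 ∈ F ∧ rswCo e ∈ F := by
  obtain ⟨v, b⟩ := e
  rw [rsx_mem_in] at h
  cases b
  · rw [rsx_end_false] at h
    simp only [add_sub_cancel_right] at h
    exact ⟨h.2.1, h.2.2.2⟩
  · rw [rsx_end_true] at h
    simp only [add_sub_cancel_right] at h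
    exact ⟨h.2.2.1, h.2.2.2⟩

/-- the endpoints of an edge are corners of its faces -/
theorem rsx_end_corner1 {F : Finset (ℤ × ℤ)} {e : (ℤ × ℤ) × Bool} (h : e.1 ∈ F ∨ rswCo e ∈ F) : e.1 ∈ cornersOf F := by
  obtain ⟨v, b⟩ := e
  rw [rsx_mem_corners]
  cases b
  · rcases h with h | h
    · exact Or.inl h
    · exact Or.inr (Or.inr (Or.inl h))
  · rcases h with h | h
    · exact Or.inl h
    · exact Or.inr (Or.inl h)

theorem rsx_end_corner2 {F : Finset (ℤ × ℤ)} {e : (ℤ × ℤ) × Bool} (h : e.1 ∈ F ∨ rswCo e ∈ F) : rswEnd e ∈ cornersOf F := by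
  obtain ⟨v, b⟩ := e
  rw [rsx_mem_corners]
  cases b
  · rw [rsx_end_false]
    simp only [add_sub_cancel_right]
    rcases h with h | h
    · exact Or.inr (Or.inl h)
    · exact Or.inr (Or.inr (Or.inr h))
  · rw [rsx_end_true]
    simp only [add_sub_cancel_right]
    rcases h with h | h
    · exact Or.inr (Or.inr (Or.inl h))
    · exact Or.inr (Or.inr (Or.inr h))

/-- the factor of one edge as a function of three propositions -/
noncomputable def rsxFacP (t : ℝ) (o s d : Prop) : ℝ :=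
  open Classical in
  if o then (if s then t else 0) else if d then (if s then 1 - t else t) else 0

theorem rsx_fac_eq (t : ℝ) (ω : RswCfg) (e : (ℤ × ℤ) × Bool) :
    rswFac t ω e = rsxFacP t (e ∈ ω.O) (e.1 ∈ ω.S ↔ rswEnd e ∈ ω.S) (e.1 ∈ ω.D ↔ rswCo e ∈ ω.D) := by
  show (if e ∈ ω.O then (if (e.1 ∈ ω.S ↔ rswEnd e ∈ ω.S) then t else 0)
    else if (e.1 ∈ ω.D ↔ rswCo e ∈ ω.D) then (if (e.1 ∈ ω.S ↔ rswEnd e ∈ ω.S) then 1 - t else t) else 0) = _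
  unfold rsxFacP
  split_ifs <;> rfl

theorem rsx_facP_nonneg {t : ℝ} (h0 : 0 ≤ t) (h1 : t ≤ 1) (o s d : Prop) : 0 ≤ rsxFacP t o s d := by
  unfold rsxFacP
  split_ifs <;> linarith

theorem rsx_fac_nonneg {t : ℝ} (h0 : 0 ≤ t) (h1 : t ≤ 1) (ω : RswCfg) (e : (ℤ × ℤ) × Bool) : 0 ≤ rswFac t ω e := by
  rw [rsx_fac_eq]; exact rsx_facP_nonneg h0 h1 _ _ _

theorem rsx_fac_congr (t : ℝ) {ω ω' : RswCfg} {e : (ℤ × ℤ) × Bool} (hO : e ∈ ω.O ↔ e ∈ ω'.O)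
    (h1 : e.1 ∈ ω.S ↔ e.1 ∈ ω'.S) (h2 : rswEnd e ∈ ω.S ↔ rswEnd e ∈ ω'.S)
    (h3 : e.1 ∈ ω.D ↔ e.1 ∈ ω'.D) (h4 : rswCo e ∈ ω.D ↔ rswCo e ∈ ω'.D) : rswFac t ω e = rswFac t ω' e := by
  rw [rsx_fac_eq, rsx_fac_eq, propext hO, propext h1, propext h2, propext h3, propext h4]

/-- an open edge does not see the face spins -/
theorem rsx_fac_congr_open (t : ℝ) {ω ω' : RswCfg} {e : (ℤ × ℤ) × Bool} (hO : e ∈ ω.O) (hO' : e ∈ ω'.O)
    (h1 : e.1 ∈ ω.S ↔ e.1 ∈ ω'.S) (h2 : rswEnd e ∈ ω.S ↔ rswEnd e ∈ ω'.S) : rswFac t ω e = rswFac t ω' e := by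
  rw [rsx_fac_eq, rsx_fac_eq, propext h1, propext h2]
  unfold rsxFacP
  rw [if_pos hO, if_pos hO']

/-- the indicator of a proposition -/
noncomputable def rsxInd (p : Prop) : ℝ := open Classical in if p then 1 else 0

theorem rsx_ind_pos {p : Prop} (h : p) : rsxInd p = 1 := by unfold rsxInd; rw [if_pos h]
theorem rsx_ind_neg {p : Prop} (h : ¬ p) : rsxInd p = 0 := by unfold rsxInd; rw [if_neg h]
theorem rsx_ind_nonneg (p : Prop) : 0 ≤ rsxInd p := by unfold rsxInd; split_ifs <;> norm_num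
theorem rsx_ind_le_one (p : Prop) : rsxInd p ≤ 1 := by unfold rsxInd; split_ifs <;> norm_num
theorem rsx_ind_congr {p q : Prop} (h : p ↔ q) : rsxInd p = rsxInd q := by rw [propext h]

theorem rsx_P_eq (t : ℝ) (F : Finset (ℤ × ℤ)) (b : Bool) (L : RswCfg → Prop) :
    rswP t F b L = rswE t F b (fun ω => rsxInd (L ω)) := rfl

theorem rsx_E_eq (t : ℝ) (F : Finset (ℤ × ℤ)) (b : Bool) (X : RswCfg → ℝ) :
    rswE t F b X = rswSum t F b X / rswSum t F b (fun _ => 1) := rfl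

theorem rsx_wt_eq (t : ℝ) (F : Finset (ℤ × ℤ)) (b : Bool) (ω : RswCfg) :
    rswWt t F b ω = rsxInd (RswBc F b ω) * ∏ e ∈ rswInt F, rswFac t ω e := by
  show (open Classical in if RswBc F b ω then ∏ e ∈ rswInt F, rswFac t ω e else 0) = _
  by_cases h : RswBc F b ω
  · rw [if_pos h, rsx_ind_pos h, one_mul]
  · rw [if_neg h, rsx_ind_neg h, zero_mul]

theorem rsx_bc_iff {F : Finset (ℤ × ℤ)} {b : Bool} {ω : RswCfg} :
    RswBc F b ω ↔ ∀ v ∈ cornersOf F, OnPolygon F v → (v ∈ ω.S ↔ b = true) := Iff.rfl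

theorem rsx_good_iff {a : Bool} {ω : RswCfg} {e : (ℤ × ℤ) × Bool} :
    RswGood a ω e ↔ e ∈ ω.O ∧ (e.1 ∈ ω.S ↔ a = true) ∧ (rswEnd e ∈ ω.S ↔ a = true) := Iff.rfl

theorem rsx_step_iff {F : Finset (ℤ × ℤ)} {a : Bool} {ω : RswCfg} {f g : ℤ × ℤ} :
    RswStep F a ω f g ↔ f ∈ F ∧ g ∈ F ∧ ∃ e, ((f = e.1 ∧ g = rswCo e) ∨ (g = e.1 ∧ f = rswCo e)) ∧ ¬ RswGood a ω e := Iff.rfl

theorem rsx_sep_def {F : Finset (ℤ × ℤ)} {a : Bool} {ω : RswCfg} {A B : Finset (ℤ × ℤ)} :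
    RswSep F a ω A B ↔ ∀ f ∈ A, ∀ g ∈ B, ¬ Relation.ReflTransGen (RswStep F a ω) f g := Iff.rfl

theorem rsx_mem_layer {F : Finset (ℤ × ℤ)} {f : ℤ × ℤ} :
    f ∈ rswLayer F ↔ f ∈ F ∧ ∃ v ∈ ({f, (f.1 + 1, f.2), (f.1, f.2 + 1), (f.1 + 1, f.2 + 1)} : Finset (ℤ × ℤ)), OnPolygon F v :=
  @Finset.mem_filter _ _ (fun _ => Classical.propDecidable _) _ _

/-! ## 1. One sum, positivity -/

theorem rsx_cfg_ext {ω ω' : RswCfg} (h1 : ω.S = ω'.S) (h2 : ω.D = ω'.D) (h3 : ω.O = ω'.O) : ω = ω' := by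
  cases ω; cases ω'; simp only at h1 h2 h3; subst h1; subst h2; subst h3; rfl

/-- the configurations of the flat problem in `F` -/
def rsxCfgs (F : Finset (ℤ × ℤ)) : Finset RswCfg :=
  ((cornersOf F).powerset ×ˢ F.powerset ×ˢ (rswInt F).powerset).map
    ⟨fun p => ⟨p.1, p.2.1, p.2.2⟩, fun p q h => by
      have h1 := congrArg RswCfg.S h
      have h2 := congrArg RswCfg.D h
      have h3 := congrArg RswCfg.O h
      exact Prod.ext h1 (Prod.ext h2 h3)⟩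

theorem rsx_mem_cfgs {F : Finset (ℤ × ℤ)} {ω : RswCfg} :
    ω ∈ rsxCfgs F ↔ ω.S ⊆ cornersOf F ∧ ω.D ⊆ F ∧ ω.O ⊆ rswInt F := by
  unfold rsxCfgs
  rw [Finset.mem_map]
  constructor
  · rintro ⟨p, hp, rfl⟩
    rw [Finset.mem_product, Finset.mem_product, Finset.mem_powerset, Finset.mem_powerset, Finset.mem_powerset] at hp
    exact hp
  · intro h
    refine ⟨(ω.S, ω.D, ω.O), ?_, rfl⟩
    rw [Finset.mem_product, Finset.mem_product, Finset.mem_powerset, Finset.mem_powerset, Finset.mem_powerset]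
    exact h

theorem rsx_sum_eq (t : ℝ) (F : Finset (ℤ × ℤ)) (b : Bool) (X : RswCfg → ℝ) :
    rswSum t F b X = ∑ ω ∈ rsxCfgs F, rswWt t F b ω * X ω := by
  show (∑ S ∈ (cornersOf F).powerset, ∑ D ∈ F.powerset, ∑ O ∈ (rswInt F).powerset,
    rswWt t F b ⟨S, D, O⟩ * X ⟨S, D, O⟩) = _
  unfold rsxCfgs
  rw [Finset.sum_map, Finset.sum_product]
  refine Finset.sum_congr rfl fun S _ => ?_
  rw [Finset.sum_product]
  rfl

theorem rsx_wt_nonneg {t : ℝ} (h0 : 0 ≤ t) (h1 : t ≤ 1) (F : Finset (ℤ × ℤ)) (b : Bool) (ω : RswCfg) : 0 ≤ rswWt t F b ω := by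
  rw [rsx_wt_eq]
  exact mul_nonneg (rsx_ind_nonneg _) (Finset.prod_nonneg fun e _ => rsx_fac_nonneg h0 h1 ω e)

theorem rsx_sum_nonneg {t : ℝ} (h0 : 0 ≤ t) (h1 : t ≤ 1) (F : Finset (ℤ × ℤ)) (b : Bool) {X : RswCfg → ℝ} (hX : ∀ ω, 0 ≤ X ω) :
    0 ≤ rswSum t F b X := by
  rw [rsx_sum_eq]
  exact Finset.sum_nonneg fun ω _ => mul_nonneg (rsx_wt_nonneg h0 h1 F b ω) (hX ω)

theorem rsx_sum_mono {t : ℝ} (h0 : 0 ≤ t) (h1 : t ≤ 1) (F : Finset (ℤ × ℤ)) (b : Bool) {X Y : RswCfg → ℝ} (h : ∀ ω, X ω ≤ Y ω) :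
    rswSum t F b X ≤ rswSum t F b Y := by
  rw [rsx_sum_eq, rsx_sum_eq]
  exact Finset.sum_le_sum fun ω _ => mul_le_mul_of_nonneg_left (h ω) (rsx_wt_nonneg h0 h1 F b ω)

theorem rsx_sum_congr (t : ℝ) (F : Finset (ℤ × ℤ)) (b : Bool) {X Y : RswCfg → ℝ} (h : ∀ ω, X ω = Y ω) :
    rswSum t F b X = rswSum t F b Y := by
  rw [funext h]

theorem rsx_sum_finsum {ι : Type} (t : ℝ) (F : Finset (ℤ × ℤ)) (b : Bool) (s : Finset ι) (X : ι → RswCfg → ℝ) :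
    rswSum t F b (fun ω => ∑ i ∈ s, X i ω) = ∑ i ∈ s, rswSum t F b (X i) := by
  simp only [rsx_sum_eq, Finset.mul_sum]
  exact Finset.sum_comm

theorem rsx_sum_mul_const (t : ℝ) (F : Finset (ℤ × ℤ)) (b : Bool) (X : RswCfg → ℝ) (c : ℝ) :
    rswSum t F b (fun ω => X ω * c) = rswSum t F b X * c := by
  simp only [rsx_sum_eq, Finset.sum_mul]
  exact Finset.sum_congr rfl fun ω _ => by ring

/-- the constant configuration: spin `b`, all edges open -/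
def rsxCst (F : Finset (ℤ × ℤ)) (b : Bool) : RswCfg := ⟨if b = true then cornersOf F else ∅, ∅, rswInt F⟩

theorem rsx_cst_S {F : Finset (ℤ × ℤ)} {b : Bool} {v : ℤ × ℤ} (hv : v ∈ cornersOf F) : v ∈ (rsxCst F b).S ↔ b = true := by
  unfold rsxCst
  cases b <;> simp [hv]

theorem rsx_Z_pos {t : ℝ} (h0 : 0 < t) (h1 : t ≤ 1) (F : Finset (ℤ × ℤ)) (b : Bool) : 0 < rswSum t F b (fun _ => 1) := by
  rw [rsx_sum_eq]
  have hmem : rsxCst F b ∈ rsxCfgs F := by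
    rw [rsx_mem_cfgs]
    refine ⟨?_, Finset.empty_subset _, Finset.Subset.refl _⟩
    unfold rsxCst
    cases b <;> simp
  refine Finset.sum_pos' (fun ω _ => mul_nonneg (rsx_wt_nonneg h0.le h1 F b ω) zero_le_one) ⟨_, hmem, ?_⟩
  have hbc : RswBc F b (rsxCst F b) := fun v hv _ => rsx_cst_S hv
  rw [mul_one, rsx_wt_eq, rsx_ind_pos hbc, one_mul]
  refine Finset.prod_pos fun e he => ?_
  have he' := rsx_mem_int.1 he
  have e1 : e.1 ∈ (rsxCst F b).S ↔ rswEnd e ∈ (rsxCst F b).S := by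
    rw [rsx_cst_S (rsx_end_corner1 (Or.inl he'.1)), rsx_cst_S (rsx_end_corner2 (Or.inl he'.1))]
  rw [rsx_fac_eq]
  unfold rsxFacP
  rw [if_pos (show e ∈ (rsxCst F b).O from he), if_pos e1]
  exact h0

/-! ## 2. The swap -/

/-- `X` reads the configuration only strictly inside `F'` -/
def RsxLocIn (F' : Finset (ℤ × ℤ)) (X : RswCfg → ℝ) : Prop :=
  ∀ ω ω' : RswCfg, ω.S ∩ rsxIn F' = ω'.S ∩ rsxIn F' → ω.D ∩ F' = ω'.D ∩ F' → ω.O ∩ rswInt F' = ω'.O ∩ rswInt F' → X ω = X ω'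

/-- `Y` does not read the configuration strictly inside `F'` -/
def RsxLocOut (F' : Finset (ℤ × ℤ)) (Y : RswCfg → ℝ) : Prop :=
  ∀ ω ω' : RswCfg, ω.S \ rsxIn F' = ω'.S \ rsxIn F' → ω.D \ F' = ω'.D \ F' → ω.O \ rswInt F' = ω'.O \ rswInt F' → Y ω = Y ω'

/-- `η` strictly inside `F'`, `ω` elsewhere -/
def rsxMix (F' : Finset (ℤ × ℤ)) (η ω : RswCfg) : RswCfg :=
  ⟨(η.S ∩ rsxIn F') ∪ (ω.S \ rsxIn F'), (η.D ∩ F') ∪ (ω.D \ F'), (η.O ∩ rswInt F') ∪ (ω.O \ rswInt F')⟩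

/-- restriction to the flat problem of `F'` -/
def rsxRes (F' : Finset (ℤ × ℤ)) (ω : RswCfg) : RswCfg := ⟨ω.S ∩ cornersOf F', ω.D ∩ F', ω.O ∩ rswInt F'⟩

/-- the cut: the spin is `a` on the polygon of `F'`, the edges of `F` between `F'` and the rest are open -/
def RsxCut (F F' : Finset (ℤ × ℤ)) (a : Bool) (ω : RswCfg) : Prop :=
  RswBc F' a ω ∧ ∀ e ∈ rswInt F, e ∉ rswInt F' → (e.1 ∈ F' ∨ rswCo e ∈ F') → e ∈ ω.O

theorem rsx_eqns_cite : True := by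
  have := @rsxIn.eq_1
  have := @rsxFacP.eq_1
  have := @rsxInd.eq_1
  have := @rsxCfgs.eq_1
  have := @rsxCst.eq_1
  have := @RsxLocIn.eq_1
  have := @RsxLocOut.eq_1
  have := @rsxMix.eq_1
  have := @rsxRes.eq_1
  have := @RsxCut.eq_1
  trivial

theorem rsx_mix_S_in {F' : Finset (ℤ × ℤ)} (η ω : RswCfg) {v : ℤ × ℤ} (hv : v ∈ rsxIn F') : v ∈ (rsxMix F' η ω).S ↔ v ∈ η.S := by
  simp [rsxMix, hv]
theorem rsx_mix_S_out {F' : Finset (ℤ × ℤ)} (η ω : RswCfg) {v : ℤ × ℤ} (hv : v ∉ rsxIn F') : v ∈ (rsxMix F' η ω).S ↔ v ∈ ω.S := by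
  simp [rsxMix, hv]
theorem rsx_mix_D_in {F' : Finset (ℤ × ℤ)} (η ω : RswCfg) {v : ℤ × ℤ} (hv : v ∈ F') : v ∈ (rsxMix F' η ω).D ↔ v ∈ η.D := by
  simp [rsxMix, hv]
theorem rsx_mix_D_out {F' : Finset (ℤ × ℤ)} (η ω : RswCfg) {v : ℤ × ℤ} (hv : v ∉ F') : v ∈ (rsxMix F' η ω).D ↔ v ∈ ω.D := by
  simp [rsxMix, hv]
theorem rsx_mix_O_in {F' : Finset (ℤ × ℤ)} (η ω : RswCfg) {e : (ℤ × ℤ) × Bool} (he : e ∈ rswInt F') : e ∈ (rsxMix F' η ω).O ↔ e ∈ η.O := by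
  simp [rsxMix, he]
theorem rsx_mix_O_out {F' : Finset (ℤ × ℤ)} (η ω : RswCfg) {e : (ℤ × ℤ) × Bool} (he : e ∉ rswInt F') : e ∈ (rsxMix F' η ω).O ↔ e ∈ ω.O := by
  simp [rsxMix, he]

theorem rsx_res_S {F' : Finset (ℤ × ℤ)} (ω : RswCfg) {v : ℤ × ℤ} (hv : v ∈ cornersOf F') : v ∈ (rsxRes F' ω).S ↔ v ∈ ω.S := by
  simp [rsxRes, hv]
theorem rsx_res_D {F' : Finset (ℤ × ℤ)} (ω : RswCfg) {v : ℤ × ℤ} (hv : v ∈ F') : v ∈ (rsxRes F' ω).D ↔ v ∈ ω.D := by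
  simp [rsxRes, hv]
theorem rsx_res_O {F' : Finset (ℤ × ℤ)} (ω : RswCfg) {e : (ℤ × ℤ) × Bool} (he : e ∈ rswInt F') : e ∈ (rsxRes F' ω).O ↔ e ∈ ω.O := by
  simp [rsxRes, he]

theorem rsx_res_mem (F' : Finset (ℤ × ℤ)) (ω : RswCfg) : rsxRes F' ω ∈ rsxCfgs F' :=
  rsx_mem_cfgs.2 ⟨Finset.inter_subset_right, Finset.inter_subset_right, Finset.inter_subset_right⟩

theorem rsx_mix_mem {F F' : Finset (ℤ × ℤ)} (h : F' ⊆ F) (η : RswCfg) {ω : RswCfg} (hω : ω ∈ rsxCfgs F) : rsxMix F' η ω ∈ rsxCfgs F := by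
  rw [rsx_mem_cfgs] at hω ⊢
  refine ⟨Finset.union_subset (Finset.inter_subset_right.trans ((rsx_in_sub_corners F').trans (rsx_corners_mono h)))
      (Finset.sdiff_subset.trans hω.1),
    Finset.union_subset (Finset.inter_subset_right.trans h) (Finset.sdiff_subset.trans hω.2.1),
    Finset.union_subset (Finset.inter_subset_right.trans (rsx_int_mono h)) (Finset.sdiff_subset.trans hω.2.2)⟩

theorem rsx_set1 {α : Type} [DecidableEq α] (a b T : Finset α) : ((b ∩ T) ∪ (a \ T)) \ T = a \ T := by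
  ext v; simp only [Finset.mem_union, Finset.mem_inter, Finset.mem_sdiff]; tauto

theorem rsx_set2 {α : Type} [DecidableEq α] (a b T : Finset α) : ((b ∩ T) ∪ (a \ T)) ∩ T = b ∩ T := by
  ext v; simp only [Finset.mem_union, Finset.mem_inter, Finset.mem_sdiff]; tauto

theorem rsx_set3 {α : Type} [DecidableEq α] {a T T' : Finset α} (h : T ⊆ T') : (a ∩ T') ∩ T = a ∩ T := by
  ext v; simp only [Finset.mem_inter]
  constructor
  · rintro ⟨⟨h1, _⟩, h2⟩; exact ⟨h1, h2⟩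
  · rintro ⟨h1, h2⟩; exact ⟨⟨h1, h h2⟩, h2⟩

theorem rsx_set4 {α : Type} [DecidableEq α] {a b T T' : Finset α} (h : T ⊆ T') :
    ((a ∩ T') ∩ T) ∪ (((b ∩ T) ∪ (a \ T)) \ T) = a := by
  ext v; simp only [Finset.mem_union, Finset.mem_inter, Finset.mem_sdiff]
  constructor
  · rintro (⟨⟨h1, _⟩, _⟩ | ⟨h1 | h1, h2⟩)
    · exact h1
    · exact absurd h1.2 h2
    · exact h1.1
  · intro h1
    by_cases hv : v ∈ T
    · exact Or.inl ⟨⟨h1, h hv⟩, hv⟩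
    · exact Or.inr ⟨Or.inr ⟨h1, hv⟩, hv⟩

theorem rsx_out_mix {F' : Finset (ℤ × ℤ)} {Y : RswCfg → ℝ} (hY : RsxLocOut F' Y) (η ω : RswCfg) : Y (rsxMix F' η ω) = Y ω :=
  hY _ _ (rsx_set1 _ _ _) (rsx_set1 _ _ _) (rsx_set1 _ _ _)

theorem rsx_in_mix {F' : Finset (ℤ × ℤ)} {X : RswCfg → ℝ} (hX : RsxLocIn F' X) (η ω : RswCfg) : X (rsxMix F' η ω) = X η :=
  hX _ _ (rsx_set2 _ _ _) (rsx_set2 _ _ _) (rsx_set2 _ _ _)

theorem rsx_in_res {F' : Finset (ℤ × ℤ)} {X : RswCfg → ℝ} (hX : RsxLocIn F' X) (ω : RswCfg) : X (rsxRes F' ω) = X ω :=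
  hX _ _ (rsx_set3 (rsx_in_sub_corners F')) (rsx_set3 (Finset.Subset.refl _)) (rsx_set3 (Finset.Subset.refl _))

theorem rsx_mix_res_mix (F' : Finset (ℤ × ℤ)) (η ω : RswCfg) : rsxMix F' (rsxRes F' ω) (rsxMix F' η ω) = ω :=
  rsx_cfg_ext (rsx_set4 (rsx_in_sub_corners F')) (rsx_set4 (Finset.Subset.refl _)) (rsx_set4 (Finset.Subset.refl _))

/-- the boundary condition of `F` does not see the inside of `F'` -/
theorem rsx_bc_mix {F F' : Finset (ℤ × ℤ)} (h : F' ⊆ F) (b : Bool) (η ω : RswCfg) : RswBc F b (rsxMix F' η ω) ↔ RswBc F b ω := by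
  rw [rsx_bc_iff, rsx_bc_iff]
  refine forall₂_congr fun v _ => imp_congr_right fun hp => ?_
  rw [rsx_mix_S_out η ω (fun hv => (rsx_in_iff.1 (rsx_in_mono h hv)) hp)]

theorem rsx_cut_mix (F F' : Finset (ℤ × ℤ)) (a : Bool) (η ω : RswCfg) : RsxCut F F' a (rsxMix F' η ω) ↔ RsxCut F F' a ω := by
  unfold RsxCut
  rw [rsx_bc_mix (Finset.Subset.refl F')]
  refine and_congr_right fun _ => forall₂_congr fun e _ => imp_congr_right fun he => ?_
  rw [rsx_mix_O_out η ω he]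

theorem rsx_bc_res (F' : Finset (ℤ × ℤ)) (a : Bool) (ω : RswCfg) : RswBc F' a (rsxRes F' ω) ↔ RswBc F' a ω := by
  rw [rsx_bc_iff, rsx_bc_iff]
  refine forall₂_congr fun v hv => ?_
  rw [rsx_res_S ω hv]

theorem rsx_res_mix {F' : Finset (ℤ × ℤ)} {a : Bool} {η ω : RswCfg} (hη : η ∈ rsxCfgs F') (h1 : RswBc F' a η) (h2 : RswBc F' a ω) :
    rsxRes F' (rsxMix F' η ω) = η := by
  rw [rsx_mem_cfgs] at hη
  refine rsx_cfg_ext ?_ ?_ ?_
  · ext v
    by_cases hc : v ∈ cornersOf F'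
    · rw [rsx_res_S _ hc]
      by_cases hv : v ∈ rsxIn F'
      · rw [rsx_mix_S_in η ω hv]
      · rw [rsx_mix_S_out η ω hv, h2 v hc (fun hh => hv (rsx_in_iff.2 (not_not.2 hh))),
          h1 v hc (fun hh => hv (rsx_in_iff.2 (not_not.2 hh)))]
    · constructor
      · intro hh; exact absurd (Finset.mem_inter.1 hh).2 hc
      · intro hh; exact absurd (hη.1 hh) hc
  · show ((η.D ∩ F') ∪ (ω.D \ F')) ∩ F' = η.D
    rw [rsx_set2, Finset.inter_eq_left.2 hη.2.1]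
  · show ((η.O ∩ rswInt F') ∪ (ω.O \ rswInt F')) ∩ rswInt F' = η.O
    rw [rsx_set2, Finset.inter_eq_left.2 hη.2.2]

theorem rsx_mix_S_corner {F' : Finset (ℤ × ℤ)} {a : Bool} {η ω : RswCfg} (h1 : RswBc F' a η) (h2 : RswBc F' a ω) {v : ℤ × ℤ}
    (hc : v ∈ cornersOf F') : v ∈ (rsxMix F' η ω).S ↔ v ∈ η.S := by
  by_cases hv : v ∈ rsxIn F'
  · rw [rsx_mix_S_in η ω hv]
  · rw [rsx_mix_S_out η ω hv, h2 v hc (fun hh => hv (rsx_in_iff.2 (not_not.2 hh))),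
      h1 v hc (fun hh => hv (rsx_in_iff.2 (not_not.2 hh)))]

theorem rsx_fac_mix_in (t : ℝ) {F' : Finset (ℤ × ℤ)} {a : Bool} {η ω : RswCfg} (h1 : RswBc F' a η) (h2 : RswBc F' a ω)
    {e : (ℤ × ℤ) × Bool} (he : e ∈ rswInt F') : rswFac t (rsxMix F' η ω) e = rswFac t η e := by
  have he' := rsx_mem_int.1 he
  exact rsx_fac_congr t (rsx_mix_O_in η ω he) (rsx_mix_S_corner h1 h2 (rsx_end_corner1 (Or.inl he'.1)))
    (rsx_mix_S_corner h1 h2 (rsx_end_corner2 (Or.inl he'.1))) (rsx_mix_D_in η ω he'.1) (rsx_mix_D_in η ω he'.2)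

theorem rsx_fac_mix_out (t : ℝ) {F F' : Finset (ℤ × ℤ)} {a : Bool} (η : RswCfg) {ω : RswCfg} (hc : RsxCut F F' a ω)
    {e : (ℤ × ℤ) × Bool} (he : e ∈ rswInt F) (he' : e ∉ rswInt F') : rswFac t (rsxMix F' η ω) e = rswFac t ω e := by
  have n1 : e.1 ∉ rsxIn F' := fun hh => he' (rsx_mem_int.2 (rsx_in_faces1 hh))
  have n2 : rswEnd e ∉ rsxIn F' := fun hh => he' (rsx_mem_int.2 (rsx_in_faces2 hh))
  by_cases hx : e.1 ∈ F' ∨ rswCo e ∈ F'
  · have ho := hc.2 e he he' hx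
    exact rsx_fac_congr_open t ((rsx_mix_O_out η ω he').2 ho) ho (rsx_mix_S_out η ω n1) (rsx_mix_S_out η ω n2)
  · rw [not_or] at hx
    exact rsx_fac_congr t (rsx_mix_O_out η ω he') (rsx_mix_S_out η ω n1) (rsx_mix_S_out η ω n2)
      (rsx_mix_D_out η ω hx.1) (rsx_mix_D_out η ω hx.2)

theorem rsx_fac_res (t : ℝ) {F' : Finset (ℤ × ℤ)} (ω : RswCfg) {e : (ℤ × ℤ) × Bool} (he : e ∈ rswInt F') :
    rswFac t (rsxRes F' ω) e = rswFac t ω e := by
  have he' := rsx_mem_int.1 he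
  exact rsx_fac_congr t (rsx_res_O ω he) (rsx_res_S ω (rsx_end_corner1 (Or.inl he'.1)))
    (rsx_res_S ω (rsx_end_corner2 (Or.inl he'.1))) (rsx_res_D ω he'.1) (rsx_res_D ω he'.2)

/-- the product of the factors over a set of edges -/
noncomputable def rsxPw (t : ℝ) (E : Finset ((ℤ × ℤ) × Bool)) (ω : RswCfg) : ℝ := ∏ e ∈ E, rswFac t ω e

theorem rsx_wt_split (t : ℝ) {F F' : Finset (ℤ × ℤ)} (h : F' ⊆ F) (b : Bool) (ω : RswCfg) :
    rswWt t F b ω = rsxInd (RswBc F b ω) * (rsxPw t (rswInt F \ rswInt F') ω * rsxPw t (rswInt F') ω) := by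
  rw [rsx_wt_eq]
  unfold rsxPw
  rw [Finset.prod_sdiff (rsx_int_mono h)]

theorem rsx_wt_pw (t : ℝ) {F' : Finset (ℤ × ℤ)} {a : Bool} {η : RswCfg} (h : RswBc F' a η) : rswWt t F' a η = rsxPw t (rswInt F') η := by
  rw [rsx_wt_eq, rsx_ind_pos h, one_mul]; rfl

/-- **SWAP** (TEX lem:finite-cuts (2)): `Σ_F (1_cut X Y) * Z_{F'} = Σ_F (1_cut Y) * Σ_{F'} X` -/
theorem rsx_swap (t : ℝ) {F F' : Finset (ℤ × ℤ)} (h : F' ⊆ F) (a b : Bool) {X Y : RswCfg → ℝ}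
    (hX : RsxLocIn F' X) (hY : RsxLocOut F' Y) :
    rswSum t F b (fun ω => rsxInd (RsxCut F F' a ω) * X ω * Y ω) * rswSum t F' a (fun _ => 1)
      = rswSum t F b (fun ω => rsxInd (RsxCut F F' a ω) * Y ω) * rswSum t F' a X := by
  classical
  simp only [rsx_sum_eq]
  rw [Finset.sum_mul_sum, Finset.sum_mul_sum, ← Finset.sum_product', ← Finset.sum_product']
  set Q : RswCfg × RswCfg → Prop := fun p => RsxCut F F' a p.1 ∧ RswBc F' a p.2 with hQ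
  have L : ∑ p ∈ rsxCfgs F ×ˢ rsxCfgs F', rswWt t F b p.1 * (rsxInd (RsxCut F F' a p.1) * X p.1 * Y p.1) * (rswWt t F' a p.2 * 1)
      = ∑ p ∈ (rsxCfgs F ×ˢ rsxCfgs F').filter Q,
          rswWt t F b p.1 * (rsxInd (RsxCut F F' a p.1) * X p.1 * Y p.1) * (rswWt t F' a p.2 * 1) := by
    refine (Finset.sum_filter_of_ne ?_).symm
    rintro ⟨ω, η⟩ _ hne
    simp only at hne
    refine ⟨?_, ?_⟩
    · by_contra hc
      apply hne
      rw [rsx_ind_neg hc]; ring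
    · by_contra hc
      apply hne
      rw [rsx_wt_eq t F' a η, rsx_ind_neg hc]; ring
  have R : ∑ p ∈ rsxCfgs F ×ˢ rsxCfgs F', rswWt t F b p.1 * (rsxInd (RsxCut F F' a p.1) * Y p.1) * (rswWt t F' a p.2 * X p.2)
      = ∑ p ∈ (rsxCfgs F ×ˢ rsxCfgs F').filter Q,
          rswWt t F b p.1 * (rsxInd (RsxCut F F' a p.1) * Y p.1) * (rswWt t F' a p.2 * X p.2) := by
    refine (Finset.sum_filter_of_ne ?_).symm
    rintro ⟨ω, η⟩ _ hne
    simp only at hne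
    refine ⟨?_, ?_⟩
    · by_contra hc
      apply hne
      rw [rsx_ind_neg hc]; ring
    · by_contra hc
      apply hne
      rw [rsx_wt_eq t F' a η, rsx_ind_neg hc]; ring
  rw [L, R]
  refine Finset.sum_nbij' (fun p => (rsxMix F' p.2 p.1, rsxRes F' p.1)) (fun p => (rsxMix F' p.2 p.1, rsxRes F' p.1)) ?_ ?_ ?_ ?_ ?_
  · intro p hp
    obtain ⟨hp1, hp2⟩ := Finset.mem_filter.1 hp
    obtain ⟨h1, _⟩ := Finset.mem_product.1 hp1
    exact Finset.mem_filter.2 ⟨Finset.mem_product.2 ⟨rsx_mix_mem h _ h1, rsx_res_mem F' _⟩,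
      (rsx_cut_mix F F' a _ _).2 hp2.1, (rsx_bc_res F' a _).2 hp2.1.1⟩
  · intro p hp
    obtain ⟨hp1, hp2⟩ := Finset.mem_filter.1 hp
    obtain ⟨h1, _⟩ := Finset.mem_product.1 hp1
    exact Finset.mem_filter.2 ⟨Finset.mem_product.2 ⟨rsx_mix_mem h _ h1, rsx_res_mem F' _⟩,
      (rsx_cut_mix F F' a _ _).2 hp2.1, (rsx_bc_res F' a _).2 hp2.1.1⟩
  · intro p hp
    obtain ⟨hp1, hp2⟩ := Finset.mem_filter.1 hp
    obtain ⟨_, h2⟩ := Finset.mem_product.1 hp1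
    exact Prod.ext (rsx_mix_res_mix _ _ _) (rsx_res_mix h2 hp2.2 hp2.1.1)
  · intro p hp
    obtain ⟨hp1, hp2⟩ := Finset.mem_filter.1 hp
    obtain ⟨_, h2⟩ := Finset.mem_product.1 hp1
    exact Prod.ext (rsx_mix_res_mix _ _ _) (rsx_res_mix h2 hp2.2 hp2.1.1)
  · rintro ⟨ω, η⟩ hp
    obtain ⟨_, hc, hb⟩ := Finset.mem_filter.1 hp
    simp only at hc hb ⊢
    have e1 : rsxPw t (rswInt F \ rswInt F') (rsxMix F' η ω) = rsxPw t (rswInt F \ rswInt F') ω :=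
      Finset.prod_congr rfl fun e he => rsx_fac_mix_out t η hc (Finset.mem_sdiff.1 he).1 (Finset.mem_sdiff.1 he).2
    have e2 : rsxPw t (rswInt F') (rsxMix F' η ω) = rsxPw t (rswInt F') η :=
      Finset.prod_congr rfl fun e he => rsx_fac_mix_in t hb hc.1 he
    have e3 : rsxPw t (rswInt F') (rsxRes F' ω) = rsxPw t (rswInt F') ω :=
      Finset.prod_congr rfl fun e he => rsx_fac_res t ω he
    rw [rsx_wt_split t h b ω, rsx_wt_split t h b (rsxMix F' η ω), rsx_wt_pw t hb, rsx_wt_pw t ((rsx_bc_res F' a ω).2 hc.1),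
      e1, e2, e3, rsx_ind_congr (rsx_bc_mix h b η ω), rsx_ind_congr (rsx_cut_mix F F' a η ω), rsx_out_mix hY, rsx_in_res hX]
    ring

/-- SWAP, expectation form -/
theorem rsx_swap_E {t : ℝ} (h0 : 0 < t) (h1 : t ≤ 1) {F F' : Finset (ℤ × ℤ)} (h : F' ⊆ F) (a b : Bool) {X Y : RswCfg → ℝ}
    (hX : RsxLocIn F' X) (hY : RsxLocOut F' Y) :
    rswSum t F b (fun ω => rsxInd (RsxCut F F' a ω) * X ω * Y ω)
      = rswSum t F b (fun ω => rsxInd (RsxCut F F' a ω) * Y ω) * rswE t F' a X := by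
  have hz := rsx_Z_pos h0 h1 F' a
  rw [rsx_E_eq, ← mul_div_assoc, ← rsx_swap t h a b hX hY, mul_div_assoc, div_self hz.ne', mul_one]

/-! ## 3. The exploration from the layer -/

/-- the faces reachable from the layer of `F` by dual steps across edges which are not good -/
noncomputable def rsxOut (F : Finset (ℤ × ℤ)) (a : Bool) (ω : RswCfg) : Finset (ℤ × ℤ) :=
  @Finset.filter _ (fun g => ∃ f ∈ rswLayer F, Relation.ReflTransGen (RswStep F a ω) f g) (fun _ => Classical.propDecidable _) F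

theorem rsx_mem_out {F : Finset (ℤ × ℤ)} {a : Bool} {ω : RswCfg} {g : ℤ × ℤ} :
    g ∈ rsxOut F a ω ↔ g ∈ F ∧ ∃ f ∈ rswLayer F, Relation.ReflTransGen (RswStep F a ω) f g := by
  unfold rsxOut
  exact @Finset.mem_filter _ _ (fun _ => Classical.propDecidable _) _ _

theorem rsx_out_sub (F : Finset (ℤ × ℤ)) (a : Bool) (ω : RswCfg) : rsxOut F a ω ⊆ F := fun _ hg => (rsx_mem_out.1 hg).1

theorem rsx_layer_sub (F : Finset (ℤ × ℤ)) : rswLayer F ⊆ F := fun _ hf => (rsx_mem_layer.1 hf).1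

theorem rsx_layer_sub_out (F : Finset (ℤ × ℤ)) (a : Bool) (ω : RswCfg) : rswLayer F ⊆ rsxOut F a ω := fun f hf =>
  rsx_mem_out.2 ⟨rsx_layer_sub F hf, f, hf, Relation.ReflTransGen.refl⟩

theorem rsx_out_step {F : Finset (ℤ × ℤ)} {a : Bool} {ω : RswCfg} {f g : ℤ × ℤ} (hf : f ∈ rsxOut F a ω) (h : RswStep F a ω f g) :
    g ∈ rsxOut F a ω := by
  obtain ⟨_, f0, hf0, hr⟩ := rsx_mem_out.1 hf
  exact rsx_mem_out.2 ⟨h.2.1, f0, hf0, hr.tail h⟩

theorem rsx_step_symm {F : Finset (ℤ × ℤ)} {a : Bool} {ω : RswCfg} {f g : ℤ × ℤ} (h : RswStep F a ω f g) : RswStep F a ω g f := by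
  obtain ⟨h1, h2, e, he, hg⟩ := h
  exact ⟨h2, h1, e, he.symm, hg⟩

theorem rsx_reach_symm {F : Finset (ℤ × ℤ)} {a : Bool} {ω : RswCfg} {f g : ℤ × ℤ} (h : Relation.ReflTransGen (RswStep F a ω) f g) :
    Relation.ReflTransGen (RswStep F a ω) g f := by
  induction h with
  | refl => exact Relation.ReflTransGen.refl
  | tail _ hs ih => exact Relation.ReflTransGen.head (rsx_step_symm hs) ih

theorem rsx_reach_mem {F : Finset (ℤ × ℤ)} {a : Bool} {ω : RswCfg} {f g : ℤ × ℤ} (hf : f ∈ F)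
    (h : Relation.ReflTransGen (RswStep F a ω) f g) : g ∈ F := by
  induction h with
  | refl => exact hf
  | tail _ hs _ => exact hs.2.1

/-- everything reachable from the explored set is explored -/
theorem rsx_out_reach {F : Finset (ℤ × ℤ)} {a : Bool} {ω : RswCfg} {f g : ℤ × ℤ} (hf : f ∈ rsxOut F a ω)
    (h : Relation.ReflTransGen (RswStep F a ω) f g) : g ∈ rsxOut F a ω := by
  induction h with
  | refl => exact hf
  | tail _ hs ih => exact rsx_out_step ih hs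

/-- separation from the layer = not explored -/
theorem rsx_sep_iff {F : Finset (ℤ × ℤ)} {a : Bool} {ω : RswCfg} {A : Finset (ℤ × ℤ)} :
    RswSep F a ω A (rswLayer F) ↔ Disjoint A (rsxOut F a ω) := by
  rw [rsx_sep_def, Finset.disjoint_left]
  constructor
  · intro h f hf ho
    obtain ⟨_, g, hg, hr⟩ := rsx_mem_out.1 ho
    exact h f hf g hg (rsx_reach_symm hr)
  · intro h f hf g hg hr
    exact h hf (rsx_out_reach (rsx_layer_sub_out F a ω hg) (rsx_reach_symm hr))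

/-- **the explored set is determined by the status of the edges which touch it** -/
theorem rsx_out_congr {F : Finset (ℤ × ℤ)} {a : Bool} {ω ω' : RswCfg}
    (h : ∀ e : (ℤ × ℤ) × Bool, (e.1 ∈ rsxOut F a ω ∨ rswCo e ∈ rsxOut F a ω) → (RswGood a ω e ↔ RswGood a ω' e)) :
    rsxOut F a ω' = rsxOut F a ω := by
  ext g
  constructor
  · intro hg
    obtain ⟨-, f, hf, hr⟩ := rsx_mem_out.1 hg
    clear hg
    induction hr with
    | refl => exact rsx_layer_sub_out F a ω hf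
    | @tail g1 g2 hr1 hs ih =>
      obtain ⟨h1, h2, e, he, hgd⟩ := hs
      refine rsx_out_step ih ⟨h1, h2, e, he, fun hh => hgd ((h e ?_).1 hh)⟩
      rcases he with ⟨rfl, _⟩ | ⟨_, rfl⟩
      · exact Or.inl ih
      · exact Or.inr ih
  · intro hg
    obtain ⟨hgF, f, hf, hr⟩ := rsx_mem_out.1 hg
    refine rsx_mem_out.2 ⟨hgF, f, hf, ?_⟩
    clear hg hgF
    induction hr with
    | refl => exact Relation.ReflTransGen.refl
    | @tail g1 g2 hr1 hs ih =>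
      have h1o : g1 ∈ rsxOut F a ω := rsx_out_reach (rsx_layer_sub_out F a ω hf) hr1
      obtain ⟨h1, h2, e, he, hgd⟩ := hs
      refine ih.tail ⟨h1, h2, e, he, fun hh => hgd ((h e ?_).2 hh)⟩
      rcases he with ⟨rfl, _⟩ | ⟨_, rfl⟩
      · exact Or.inl h1o
      · exact Or.inr h1o

theorem rsx_sdiff_mem {α : Type} [DecidableEq α] {a b T : Finset α} (h : a \ T = b \ T) {v : α} (hv : v ∉ T) : v ∈ a ↔ v ∈ b := by
  have h1 : v ∈ a \ T ↔ v ∈ b \ T := by rw [h]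
  simpa [Finset.mem_sdiff, hv] using h1

/-- two configurations which agree off the strict inside of `F \ G`: if one explores `G` so does the other -/
theorem rsx_out_loc1 {F G : Finset (ℤ × ℤ)} {a : Bool} {ω ω' : RswCfg}
    (hS : ω.S \ rsxIn (F \ G) = ω'.S \ rsxIn (F \ G)) (hO : ω.O \ rswInt (F \ G) = ω'.O \ rswInt (F \ G))
    (h : rsxOut F a ω = G) : rsxOut F a ω' = G := by
  rw [← h]
  refine rsx_out_congr fun e he => ?_
  rw [h] at he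
  have hn : ¬ (e.1 ∈ F \ G ∧ rswCo e ∈ F \ G) := by
    rintro ⟨h1, h2⟩
    rcases he with he | he
    · exact (Finset.mem_sdiff.1 h1).2 he
    · exact (Finset.mem_sdiff.1 h2).2 he
  rw [rsx_good_iff, rsx_good_iff, rsx_sdiff_mem hO (fun hh => hn (rsx_mem_int.1 hh)),
    rsx_sdiff_mem hS (fun hh => hn (rsx_in_faces1 hh)), rsx_sdiff_mem hS (fun hh => hn (rsx_in_faces2 hh))]

/-- the event `{Out = G}` does not read the strict inside of `F \ G` -/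
theorem rsx_out_loc (F G : Finset (ℤ × ℤ)) (a : Bool) : RsxLocOut (F \ G) (fun ω => rsxInd (rsxOut F a ω = G)) := by
  intro ω ω' hS _ hO
  exact rsx_ind_congr ⟨rsx_out_loc1 hS hO, rsx_out_loc1 hS.symm hO.symm⟩

/-- a face of `F` with a neighbour outside `F` is in the layer -/
theorem rsx_layer_of_edge {F : Finset (ℤ × ℤ)} {e : (ℤ × ℤ) × Bool} :
    (e.1 ∈ F → rswCo e ∉ F → e.1 ∈ rswLayer F) ∧ (rswCo e ∈ F → e.1 ∉ F → rswCo e ∈ rswLayer F) := by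
  obtain ⟨v, b⟩ := e
  cases b
  · refine ⟨fun h1 h2 => rsx_mem_layer.2 ⟨h1, v, by simp, fun hh => h2 hh.2.2.1⟩,
      fun h1 h2 => rsx_mem_layer.2 ⟨h1, v, ?_, fun hh => h2 hh.1⟩⟩
    rw [rsx_co_false]
    simp
  · refine ⟨fun h1 h2 => rsx_mem_layer.2 ⟨h1, v, by simp, fun hh => h2 hh.2.1⟩,
      fun h1 h2 => rsx_mem_layer.2 ⟨h1, v, ?_, fun hh => h2 hh.1⟩⟩
    rw [rsx_co_true]
    simp

/-- an edge between the unexplored part and anything else is good -/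
theorem rsx_cross_good {F : Finset (ℤ × ℤ)} {a : Bool} {ω : RswCfg} {e : (ℤ × ℤ) × Bool}
    (h : (e.1 ∈ F \ rsxOut F a ω ∧ rswCo e ∉ F \ rsxOut F a ω) ∨ (rswCo e ∈ F \ rsxOut F a ω ∧ e.1 ∉ F \ rsxOut F a ω)) :
    RswGood a ω e := by
  by_contra hg
  rcases h with ⟨h1, h2⟩ | ⟨h1, h2⟩
  · obtain ⟨h1F, h1o⟩ := Finset.mem_sdiff.1 h1
    by_cases hF : rswCo e ∈ F
    · have ho : rswCo e ∈ rsxOut F a ω := by
        by_contra hh; exact h2 (Finset.mem_sdiff.2 ⟨hF, hh⟩)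
      exact h1o (rsx_out_step ho ⟨hF, h1F, e, Or.inr ⟨rfl, rfl⟩, hg⟩)
    · exact h1o (rsx_layer_sub_out F a ω (rsx_layer_of_edge.1 h1F hF))
  · obtain ⟨h1F, h1o⟩ := Finset.mem_sdiff.1 h1
    by_cases hF : e.1 ∈ F
    · have ho : e.1 ∈ rsxOut F a ω := by
        by_contra hh; exact h2 (Finset.mem_sdiff.2 ⟨hF, hh⟩)
      exact h1o (rsx_out_step ho ⟨hF, h1F, e, Or.inl ⟨rfl, rfl⟩, hg⟩)
    · exact h1o (rsx_layer_sub_out F a ω (rsx_layer_of_edge.2 h1F hF))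

/-- around a vertex: if the edges between `F'` and its complement are good, the polygon of `F'` has the colour `a` -/
theorem rsx_bc_of_cross {F' : Finset (ℤ × ℤ)} {a : Bool} {ω : RswCfg}
    (h : ∀ e : (ℤ × ℤ) × Bool, ((e.1 ∈ F' ∧ rswCo e ∉ F') ∨ (rswCo e ∈ F' ∧ e.1 ∉ F')) → RswGood a ω e) : RswBc F' a ω := by
  intro v hv hp
  rw [rsx_mem_corners] at hv
  rw [rsx_onPoly] at hp
  -- the four edges at `v`
  have e1 := h (v, true)
  have e2 := h (v, false)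
  have e3 := h ((v.1 - 1, v.2), false)
  have e4 := h ((v.1, v.2 - 1), true)
  simp only [rsx_co_true, rsx_co_false, rsx_good_iff, rsx_end_false, rsx_end_true, sub_add_cancel, Prod.mk.eta] at e1 e2 e3 e4
  by_cases p0 : v ∈ F' <;> by_cases p1 : (v.1 - 1, v.2) ∈ F' <;> by_cases p2 : (v.1, v.2 - 1) ∈ F' <;>
    by_cases p3 : (v.1 - 1, v.2 - 1) ∈ F' <;> simp only [p0, p1, p2, p3, and_true, not_true, not_false_iff, and_false,
      or_false, or_true, forall_true_left, false_imp_iff, and_self, or_self] at e1 e2 e3 e4 hv hp <;>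
    first
      | exact e1.2.1
      | exact e2.2.1
      | exact e3.2.2

/-- **the unexplored part is sealed by a cut** -/
theorem rsx_out_cut (F : Finset (ℤ × ℤ)) (a : Bool) (ω : RswCfg) : RsxCut F (F \ rsxOut F a ω) a ω := by
  refine ⟨rsx_bc_of_cross fun e he => rsx_cross_good he, fun e _ he' hx => ?_⟩
  have hn : ¬ (e.1 ∈ F \ rsxOut F a ω ∧ rswCo e ∈ F \ rsxOut F a ω) := fun hh => he' (rsx_mem_int.2 hh)
  refine (rsx_cross_good (F := F) (a := a) (ω := ω) (e := e) ?_).1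
  rcases hx with hx | hx
  · exact Or.inl ⟨hx, fun hh => hn ⟨hx, hh⟩⟩
  · exact Or.inr ⟨hx, fun hh => hn ⟨hh, hx⟩⟩

/-! ## 4. The decomposition -/

/-- two faces share an edge -/
def RsxAdj (f g : ℤ × ℤ) : Prop := ∃ e : (ℤ × ℤ) × Bool, (f = e.1 ∧ g = rswCo e) ∨ (g = e.1 ∧ f = rswCo e)

/-- every face of `G` is joined to the layer of `F` by a path of faces of `G` -/
def RsxAnch (F G : Finset (ℤ × ℤ)) : Prop :=
  ∀ g ∈ G, ∃ f ∈ rswLayer F, Relation.ReflTransGen (fun x y => x ∈ G ∧ y ∈ G ∧ RsxAdj x y) f g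

/-- the possible explored sets which do not meet `A` -/
noncomputable def rsxSets (F A : Finset (ℤ × ℤ)) : Finset (Finset (ℤ × ℤ)) :=
  @Finset.filter _ (fun G => Disjoint A G ∧ rswLayer F ⊆ G ∧ RsxAnch F G) (fun _ => Classical.propDecidable _) F.powerset

theorem rsx_mem_sets {F A G : Finset (ℤ × ℤ)} : G ∈ rsxSets F A ↔ G ⊆ F ∧ Disjoint A G ∧ rswLayer F ⊆ G ∧ RsxAnch F G := by
  unfold rsxSets
  rw [@Finset.mem_filter _ _ (fun _ => Classical.propDecidable _) _ _, Finset.mem_powerset]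

theorem rsx_out_anch (F : Finset (ℤ × ℤ)) (a : Bool) (ω : RswCfg) : RsxAnch F (rsxOut F a ω) := by
  intro g hg
  obtain ⟨-, f, hf, hr⟩ := rsx_mem_out.1 hg
  refine ⟨f, hf, ?_⟩
  clear hg
  induction hr with
  | refl => exact Relation.ReflTransGen.refl
  | @tail g1 g2 hr1 hs ih =>
    have h1o : g1 ∈ rsxOut F a ω := rsx_out_reach (rsx_layer_sub_out F a ω hf) hr1
    exact ih.tail ⟨h1o, rsx_out_step h1o hs, hs.2.2.choose, hs.2.2.choose_spec.1⟩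

theorem rsx_out_mem_sets {F A : Finset (ℤ × ℤ)} {a : Bool} {ω : RswCfg} :
    rsxOut F a ω ∈ rsxSets F A ↔ RswSep F a ω A (rswLayer F) := by
  rw [rsx_mem_sets, rsx_sep_iff]
  exact ⟨fun h => h.2.1, fun h => ⟨rsx_out_sub F a ω, h, rsx_layer_sub_out F a ω, rsx_out_anch F a ω⟩⟩

theorem rsx_ind_sum (F A : Finset (ℤ × ℤ)) (a : Bool) (ω : RswCfg) :
    rsxInd (RswSep F a ω A (rswLayer F)) = ∑ G ∈ rsxSets F A, rsxInd (rsxOut F a ω = G) := by
  by_cases h : RswSep F a ω A (rswLayer F)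
  · rw [rsx_ind_pos h, Finset.sum_eq_single (rsxOut F a ω), rsx_ind_pos rfl]
    · intro G _ hne
      exact rsx_ind_neg (fun hh => hne hh.symm)
    · intro hh
      exact absurd (rsx_out_mem_sets.2 h) hh
  · rw [rsx_ind_neg h]
    refine (Finset.sum_eq_zero fun G hG => rsx_ind_neg fun hh => h ?_).symm
    rw [← hh] at hG
    exact rsx_out_mem_sets.1 hG

theorem rsx_inter_mono {α : Type} [DecidableEq α] {a b T R : Finset α} (h : a ∩ T = b ∩ T) (hR : R ⊆ T) : a ∩ R = b ∩ R := by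
  ext v
  have h1 : v ∈ a ∩ T ↔ v ∈ b ∩ T := by rw [h]
  simp only [Finset.mem_inter] at h1 ⊢
  constructor
  · rintro ⟨h2, h3⟩; exact ⟨(h1.1 ⟨h2, hR h3⟩).1, h3⟩
  · rintro ⟨h2, h3⟩; exact ⟨(h1.2 ⟨h2, hR h3⟩).1, h3⟩

theorem rsx_locIn_mono {F' F'' : Finset (ℤ × ℤ)} (h : F' ⊆ F'') {X : RswCfg → ℝ} (hX : RsxLocIn F' X) : RsxLocIn F'' X :=
  fun ω ω' h1 h2 h3 => hX ω ω' (rsx_inter_mono h1 (rsx_in_mono h)) (rsx_inter_mono h2 h) (rsx_inter_mono h3 (rsx_int_mono h))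

/-- from the locality of Defs/RSW -/
theorem rsx_locIn_of_loc {R : Finset (ℤ × ℤ)} {R' : Finset ((ℤ × ℤ) × Bool)} {X : RswCfg → ℝ} (hX : RswLoc R R' X)
    {F' : Finset (ℤ × ℤ)} (h1 : R ⊆ rsxIn F') (h2 : R' ⊆ rswInt F') : RsxLocIn F' X :=
  fun ω ω' e1 e2 e3 => hX ω ω' (rsx_inter_mono e1 h1)
    (rsx_inter_mono e2 (h1.trans (fun _ hv => (rsx_mem_in.1 hv).1))) (rsx_inter_mono e3 h2)

theorem rsx_sub_sdiff {F A G : Finset (ℤ × ℤ)} (hA : A ⊆ F) (hG : G ∈ rsxSets F A) : A ⊆ F \ G := fun _ hf =>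
  Finset.mem_sdiff.2 ⟨hA hf, fun hh => Finset.disjoint_left.1 (rsx_mem_sets.1 hG).2.1 hf hh⟩

/-- one explored set -/
theorem rsx_expl_one {t : ℝ} (h0 : 0 < t) (h1 : t ≤ 1) (F G : Finset (ℤ × ℤ)) (a b : Bool) {X : RswCfg → ℝ}
    (hX : RsxLocIn (F \ G) X) :
    rswSum t F b (fun ω => rsxInd (rsxOut F a ω = G) * X ω)
      = rswSum t F b (fun ω => rsxInd (rsxOut F a ω = G)) * rswE t (F \ G) a X := by
  have hs := rsx_swap_E h0 h1 (Finset.sdiff_subset : F \ G ⊆ F) a b hX (rsx_out_loc F G a)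
  have e1 : ∀ ω, rsxInd (RsxCut F (F \ G) a ω) * X ω * rsxInd (rsxOut F a ω = G) = rsxInd (rsxOut F a ω = G) * X ω := by
    intro ω
    by_cases h : rsxOut F a ω = G
    · have hc : RsxCut F (F \ G) a ω := by rw [← h]; exact rsx_out_cut F a ω
      rw [rsx_ind_pos hc, rsx_ind_pos h]; ring
    · rw [rsx_ind_neg h]; ring
  have e2 : ∀ ω, rsxInd (RsxCut F (F \ G) a ω) * rsxInd (rsxOut F a ω = G) = rsxInd (rsxOut F a ω = G) := by
    intro ω
    by_cases h : rsxOut F a ω = G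
    · have hc : RsxCut F (F \ G) a ω := by rw [← h]; exact rsx_out_cut F a ω
      rw [rsx_ind_pos hc, rsx_ind_pos h]; ring
    · rw [rsx_ind_neg h]; ring
  rw [rsx_sum_congr t F b e1, rsx_sum_congr t F b e2] at hs
  exact hs

/-- **DECOMPOSITION** over the explored set (TEX lem:finite-cuts (2),(4)):
`E_F (1_Sep X) = Σ_G P_F (Out = G) * E_{F \ G}^a X` -/
theorem rsx_decomp {t : ℝ} (h0 : 0 < t) (h1 : t ≤ 1) {F A : Finset (ℤ × ℤ)} (hA : A ⊆ F) (a b : Bool) {X : RswCfg → ℝ}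
    (hX : RsxLocIn A X) :
    rswE t F b (fun ω => rsxInd (RswSep F a ω A (rswLayer F)) * X ω)
      = ∑ G ∈ rsxSets F A, rswP t F b (fun ω => rsxOut F a ω = G) * rswE t (F \ G) a X := by
  have e1 : ∀ ω, rsxInd (RswSep F a ω A (rswLayer F)) * X ω = ∑ G ∈ rsxSets F A, rsxInd (rsxOut F a ω = G) * X ω := by
    intro ω
    rw [rsx_ind_sum, Finset.sum_mul]
  rw [rsx_E_eq, rsx_sum_congr t F b e1, rsx_sum_finsum, Finset.sum_div]
  refine Finset.sum_congr rfl fun G hG => ?_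
  rw [rsx_expl_one h0 h1 F G a b (rsx_locIn_mono (rsx_sub_sdiff hA hG) hX), rsx_P_eq,
    rsx_E_eq t F b (fun ω => rsxInd (rsxOut F a ω = G))]
  ring

/-- the probability of the separation is the sum over the explored sets -/
theorem rsx_P_sep (t : ℝ) (F A : Finset (ℤ × ℤ)) (a b : Bool) :
    rswP t F b (fun ω => RswSep F a ω A (rswLayer F)) = ∑ G ∈ rsxSets F A, rswP t F b (fun ω => rsxOut F a ω = G) := by
  rw [rsx_P_eq, rsx_E_eq, rsx_sum_congr t F b (fun ω => rsx_ind_sum F A a ω), rsx_sum_finsum, Finset.sum_div]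
  rfl

theorem rsx_P_nonneg {t : ℝ} (h0 : 0 < t) (h1 : t ≤ 1) (F : Finset (ℤ × ℤ)) (b : Bool) (L : RswCfg → Prop) : 0 ≤ rswP t F b L := by
  rw [rsx_P_eq, rsx_E_eq]
  exact div_nonneg (rsx_sum_nonneg h0.le h1 F b fun ω => rsx_ind_nonneg _) (rsx_Z_pos h0 h1 F b).le

theorem rsx_E_mono {t : ℝ} (h0 : 0 < t) (h1 : t ≤ 1) (F : Finset (ℤ × ℤ)) (b : Bool) {X Y : RswCfg → ℝ} (h : ∀ ω, X ω ≤ Y ω) :
    rswE t F b X ≤ rswE t F b Y := by
  rw [rsx_E_eq, rsx_E_eq]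
  exact div_le_div_of_nonneg_right (rsx_sum_mono h0.le h1 F b h) (rsx_Z_pos h0 h1 F b).le

/-- **STOPPED CUT, lower bound**: `P_F (Sep) * inf_G E_{F \ G}^a X ≤ E_F X` for `X ≥ 0` reading only inside `A` -/
theorem rsx_lower {t : ℝ} (h0 : 0 < t) (h1 : t ≤ 1) {F A : Finset (ℤ × ℤ)} (hA : A ⊆ F) (a b : Bool) {X : RswCfg → ℝ}
    (hX : RsxLocIn A X) (hnn : ∀ ω, 0 ≤ X ω) (m : ℝ) (hm : ∀ G ∈ rsxSets F A, m ≤ rswE t (F \ G) a X) :
    rswP t F b (fun ω => RswSep F a ω A (rswLayer F)) * m ≤ rswE t F b X := by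
  have hle : rswE t F b (fun ω => rsxInd (RswSep F a ω A (rswLayer F)) * X ω) ≤ rswE t F b X :=
    rsx_E_mono h0 h1 F b fun ω => by
      have := mul_le_mul_of_nonneg_right (rsx_ind_le_one (RswSep F a ω A (rswLayer F))) (hnn ω)
      rwa [one_mul] at this
  refine le_trans ?_ hle
  rw [rsx_decomp h0 h1 hA a b hX, rsx_P_sep, Finset.sum_mul]
  exact Finset.sum_le_sum fun G hG => mul_le_mul_of_nonneg_left (hm G hG) (rsx_P_nonneg h0 h1 F b _)

/-- **STOPPED CUT, two sided**: if all the inner laws give `X` the mean `ℓ` up to `ε`, so does the law on the separation event -/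
theorem rsx_close {t : ℝ} (h0 : 0 < t) (h1 : t ≤ 1) {F A : Finset (ℤ × ℤ)} (hA : A ⊆ F) (a b : Bool) {X : RswCfg → ℝ}
    (hX : RsxLocIn A X) (ℓ ε : ℝ) (hm : ∀ G ∈ rsxSets F A, |rswE t (F \ G) a X - ℓ| ≤ ε) :
    |rswE t F b (fun ω => rsxInd (RswSep F a ω A (rswLayer F)) * X ω) - rswP t F b (fun ω => RswSep F a ω A (rswLayer F)) * ℓ|
      ≤ rswP t F b (fun ω => RswSep F a ω A (rswLayer F)) * ε := by
  rw [rsx_decomp h0 h1 hA a b hX, rsx_P_sep, Finset.sum_mul, Finset.sum_mul, ← Finset.sum_sub_distrib]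
  refine (Finset.abs_sum_le_sum_abs _ _).trans (Finset.sum_le_sum fun G hG => ?_)
  rw [← mul_sub, abs_mul, abs_of_nonneg (rsx_P_nonneg h0 h1 F b _)]
  exact mul_le_mul_of_nonneg_left (hm G hG) (rsx_P_nonneg h0 h1 F b _)

/-! ## 5. Face sets without common edge -/

/-- at a polygon vertex of `F'` there is an edge with exactly one face in `F'` -/
theorem rsx_vertex_cross {F' : Finset (ℤ × ℤ)} {v : ℤ × ℤ} (hv : v ∈ cornersOf F') (hp : OnPolygon F' v) :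
    ∃ e : (ℤ × ℤ) × Bool, ((e.1 ∈ F' ∧ rswCo e ∉ F') ∨ (rswCo e ∈ F' ∧ e.1 ∉ F')) ∧ (e.1 = v ∨ rswEnd e = v) := by
  rw [rsx_mem_corners] at hv
  rw [rsx_onPoly] at hp
  by_cases h01 : (v ∈ F' ↔ (v.1 - 1, v.2) ∈ F')
  · by_cases h02 : (v ∈ F' ↔ (v.1, v.2 - 1) ∈ F')
    · refine ⟨((v.1 - 1, v.2), false), ?_, Or.inr ?_⟩
      · simp only [rsx_co_false]
        tauto
      · rw [rsx_end_false]; simp
    · refine ⟨(v, false), ?_, Or.inl rfl⟩
      simp only [rsx_co_false]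
      tauto
  · refine ⟨(v, true), ?_, Or.inl rfl⟩
    simp only [rsx_co_true]
    tauto

theorem rsx_sum_congr_bc (t : ℝ) (F : Finset (ℤ × ℤ)) (b : Bool) {X Y : RswCfg → ℝ} (h : ∀ ω, RswBc F b ω → X ω = Y ω) :
    rswSum t F b X = rswSum t F b Y := by
  rw [rsx_sum_eq, rsx_sum_eq]
  refine Finset.sum_congr rfl fun ω _ => ?_
  by_cases hb : RswBc F b ω
  · rw [h ω hb]
  · rw [rsx_wt_eq, rsx_ind_neg hb]; ring

/-- `F1 ⊆ F` shares no edge with the rest of `F` -/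
def RsxIsol (F F1 : Finset (ℤ × ℤ)) : Prop := ∀ e ∈ rswInt F, (e.1 ∈ F1 ↔ rswCo e ∈ F1)

theorem rsx_isol_cut {F F1 : Finset (ℤ × ℤ)} (h : F1 ⊆ F) (hi : RsxIsol F F1) {a : Bool} {ω : RswCfg} (hb : RswBc F a ω) :
    RsxCut F F1 a ω := by
  refine ⟨fun v hv hp => hb v (rsx_corners_mono h hv) fun hin => ?_, fun e he he' hx => ?_⟩
  · obtain ⟨e, he, hev⟩ := rsx_vertex_cross hv hp
    have hvin : v ∈ rsxIn F := rsx_mem_in.2 hin
    have hint : e ∈ rswInt F := by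
      rcases hev with hev | hev
      · exact rsx_mem_int.2 (rsx_in_faces1 (by rw [hev]; exact hvin))
      · exact rsx_mem_int.2 (rsx_in_faces2 (by rw [hev]; exact hvin))
    have := hi e hint
    tauto
  · exfalso
    have := hi e he
    exact he' (rsx_mem_int.2 (by tauto))

/-- **the flat law of `F` restricted to an isolated part `F1` is the flat law of `F1`** -/
theorem rsx_comp {t : ℝ} (h0 : 0 < t) (h1 : t ≤ 1) {F F1 : Finset (ℤ × ℤ)} (h : F1 ⊆ F) (hi : RsxIsol F F1) (a : Bool)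
    {X : RswCfg → ℝ} (hX : RsxLocIn F1 X) : rswE t F a X = rswE t F1 a X := by
  have hs := rsx_swap_E h0 h1 h a a hX (Y := fun _ => 1) (fun _ _ _ _ _ => rfl)
  have e1 : rswSum t F a (fun ω => rsxInd (RsxCut F F1 a ω) * X ω * 1) = rswSum t F a X :=
    rsx_sum_congr_bc t F a (fun ω hb => by rw [rsx_ind_pos (rsx_isol_cut h hi hb)]; ring)
  have e2 : rswSum t F a (fun ω => rsxInd (RsxCut F F1 a ω) * 1) = rswSum t F a (fun _ => 1) :=
    rsx_sum_congr_bc t F a (fun ω hb => by rw [rsx_ind_pos (rsx_isol_cut h hi hb)]; ring)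
  rw [e1, e2] at hs
  rw [rsx_E_eq t F a X, hs, mul_comm, mul_div_assoc, div_self (rsx_Z_pos h0 h1 F a).ne', mul_one]

theorem rsx_eqns_cite2 : True := by
  have := @rsxPw.eq_1
  have := @rsxOut.eq_1
  have := @RsxAdj.eq_1
  have := @RsxAnch.eq_1
  have := @rsxSets.eq_1
  have := @RsxIsol.eq_1
  trivial

end Claimed.Agent.R292
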