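import Claimed.Agent.R292.Rsw.Arch107
import Claimed.Agent.R292.Exit.MODEL
import Claimed.Agent.R292.Model.Circ1

/-!
# Row 292 (S0540), Rsw/ArchWire107 : `exit_rsw_arm` FROM THE CONTRACTS `mdl1_circ_cond` (S1, seat 1) AND `exit_mdl_cmp` (S0, seat 291)      (pen helper107; prefix `rsa107_`)

No proof of its own: the two records of Rsw/Arch107 are filled by the contracts.   `rsa107_exit` has the type of `exit_rsw_arm` (Exit/Arch, 281) word for word.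
-/

set_option autoImplicit false

namespace Claimed.Agent.R292

open Claims Claims.C0468

/-- the record `Rsa107Fkg` = `exit_mdl_cmp` at the empty prescription -/
theorem rsa107_fkg_of_cmp (t : ℝ) (ht1 : 1 / 2 ≤ t) (ht2 : t < 1) : Rsa107Fkg t := by
  intro F hF b a X Y hX hY
  have hok : (⟨∅, ∅, ∅, ∅⟩ : MdlPin).Ok := by
    intro e he
    simp at he
  have hold : ∀ ω, (⟨∅, ∅, ∅, ∅⟩ : MdlPin).Holds ω := fun ω =>
    ⟨Finset.empty_subset _, fun v hv => absurd hv (Finset.notMem_empty v), Finset.empty_subset _,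
      fun e he => absurd he (Finset.notMem_empty e)⟩
  have h := exit_mdl_cmp t ht1 ht2 F hF b a ⟨∅, ∅, ∅, ∅⟩ hok X Y hX hY
  simpa only [mdlSumK, hold, if_true] using h

/-- **[ARM]** from the contracts -/
theorem rsa107_exit (t : ℝ) (ht1 : 1 / 2 ≤ t) (ht2 : t < 1) :
    ∃ C α : ℝ, 0 < C ∧ 0 < α ∧ ∀ (F : Finset (ℤ × ℤ)) (z : ℤ × ℤ) (r R : ℕ), RswJordan F → 1 ≤ r → r ≤ R → ¬ rswBox z r ⊆ F →
      rswP t F true (fun ω => ¬ RswSepW F ω (F ∩ rswBox z r) (F \ rswBox z R)) ≤ C * ((r : ℝ) / R) ^ α := by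
  obtain ⟨p, hp, n0, H⟩ := mdl1_circ_cond t ht1 ht2
  exact rsa107_arm t ht1 ht2 hp (fun n hn F z b a L hJ hs hL => H n hn F z b a L hJ hs hL) (rsa107_fkg_of_cmp t ht1 ht2)

/-- **[ARM], plain form** from the contracts -/
theorem rsa107_exit_plain (t : ℝ) (ht1 : 1 / 2 ≤ t) (ht2 : t < 1) :
    ∃ C α : ℝ, 0 < C ∧ 0 < α ∧ ∀ (F : Finset (ℤ × ℤ)) (z : ℤ × ℤ) (r R : ℕ), RswJordan F → 1 ≤ r → r ≤ R → ¬ rswBox z r ⊆ F →
      rswP t F true (fun ω => ¬ RswSep F true ω (F ∩ rswBox z r) (F \ rswBox z R)) ≤ C * ((r : ℝ) / R) ^ α := by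
  obtain ⟨p, hp, n0, H⟩ := mdl1_circ_cond t ht1 ht2
  exact rsa107_arm_plain t ht1 ht2 hp (fun n hn F z b a L hJ hs hL => H n hn F z b a L hJ hs hL) (rsa107_fkg_of_cmp t ht1 ht2)

end Claimed.Agent.R292
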