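import Claimed.Agent.R292.Defs.RSW

/-!
# Row 292 (S0540), Rsw/BoxJordan219 : A BOX IS A JORDAN FACE SET      (helper219; prefix `bj219_`)

* `bj219_region`        `faceRegionSq 1 (rswBox z M)` is the open sup-ball of radius `M` about `z`
* **`bj219_box_jordan`**  `1 ≤ M → RswJordan (rswBox z M)`        (radial projection of the circle onto the sup-sphere)
-/

set_option autoImplicit false

namespace Claimed.Agent.R292

open Claims Claims.C0468

theorem bj219_slab {a b : ℤ} (hab : a < b) {x : ℝ} (h1 : (a : ℝ) ≤ x) (h2 : x ≤ b) :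
    ∃ k : ℤ, a ≤ k ∧ k < b ∧ (k : ℝ) ≤ x ∧ x ≤ (k : ℝ) + 1 := by
  by_cases h : ⌊x⌋ < b
  · exact ⟨⌊x⌋, Int.le_floor.2 h1, h, Int.floor_le x, (Int.lt_floor_add_one x).le⟩
  · refine ⟨b - 1, by omega, by omega, ?_, ?_⟩
    · have h3 : (b : ℝ) ≤ x := by
        have : b ≤ ⌊x⌋ := by omega
        exact Int.le_floor.1 this
      push_cast
      linarith
    · push_cast
      linarith

theorem bj219_union (z : ℤ × ℤ) {M : ℕ} (hM : 1 ≤ M) :
    (⋃ f ∈ rswBox z M, Set.Icc ((1 : ℝ) * f.1) (1 * (f.1 + 1)) ×ˢ Set.Icc ((1 : ℝ) * f.2) (1 * (f.2 + 1)))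
      = Metric.closedBall ((z.1 : ℝ), (z.2 : ℝ)) M := by
  rw [← closedBall_prod_same, Real.closedBall_eq_Icc, Real.closedBall_eq_Icc]
  ext ⟨x, y⟩
  simp only [Set.mem_iUnion, Set.mem_prod, Set.mem_Icc, exists_prop, one_mul, rswBox, Finset.mem_product, Finset.mem_Ico]
  constructor
  · rintro ⟨f, ⟨⟨a1, a2⟩, a3, a4⟩, ⟨h1, h2⟩, h3, h4⟩
    have b1 : ((z.1 : ℝ) - M) ≤ f.1 := by exact_mod_cast a1
    have b2 : (f.1 : ℝ) + 1 ≤ (z.1 : ℝ) + M := by exact_mod_cast a2
    have b3 : ((z.2 : ℝ) - M) ≤ f.2 := by exact_mod_cast a3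
    have b4 : (f.2 : ℝ) + 1 ≤ (z.2 : ℝ) + M := by exact_mod_cast a4
    exact ⟨⟨by linarith, by linarith⟩, by linarith, by linarith⟩
  · rintro ⟨⟨h1, h2⟩, h3, h4⟩
    have hM' : (1 : ℤ) ≤ M := by exact_mod_cast hM
    obtain ⟨k, k1, k2, k3, k4⟩ := bj219_slab (a := z.1 - M) (b := z.1 + M) (by omega) (x := x) (by push_cast; exact h1)
      (by push_cast; exact h2)
    obtain ⟨l, l1, l2, l3, l4⟩ := bj219_slab (a := z.2 - M) (b := z.2 + M) (by omega) (x := y) (by push_cast; exact h3)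
      (by push_cast; exact h4)
    exact ⟨(k, l), ⟨⟨k1, k2⟩, l1, l2⟩, ⟨k3, k4⟩, l3, l4⟩

theorem bj219_region (z : ℤ × ℤ) {M : ℕ} (hM : 1 ≤ M) :
    faceRegionSq 1 (rswBox z M) = Metric.ball ((z.1 : ℝ), (z.2 : ℝ)) M := by
  unfold faceRegionSq
  rw [bj219_union z hM]
  exact interior_closedBall _ (by positivity)

theorem bj219_frontier (z : ℤ × ℤ) {M : ℕ} (hM : 1 ≤ M) :
    frontier (faceRegionSq 1 (rswBox z M)) = Metric.sphere ((z.1 : ℝ), (z.2 : ℝ)) M := by
  rw [bj219_region z hM]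
  exact frontier_ball _ (by positivity)

/-- the point of the plane under a point of the circle -/
noncomputable def bj219U (w : Circle) : ℝ × ℝ := ((w : ℂ).re, (w : ℂ).im)

theorem bj219U_eqns_cite (w : Circle) : bj219U w = ((w : ℂ).re, (w : ℂ).im) := by rw [bj219U]

theorem bj219_U_continuous : Continuous bj219U := by
  unfold bj219U
  exact (Complex.continuous_re.comp continuous_subtype_val).prodMk (Complex.continuous_im.comp continuous_subtype_val)

theorem bj219_U_ne (w : Circle) : bj219U w ≠ 0 := by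
  intro h
  have h1 : (w : ℂ).re = 0 := congrArg Prod.fst h
  have h2 : (w : ℂ).im = 0 := congrArg Prod.snd h
  exact Circle.coe_ne_zero w (Complex.ext h1 h2)

theorem bj219_U_norm_pos (w : Circle) : 0 < ‖bj219U w‖ := norm_pos_iff.2 (bj219_U_ne w)

/-- positive multiples of two points of the circle coincide only if the points coincide -/
theorem bj219_U_inj {w w' : Circle} {a a' : ℝ} (ha : 0 < a) (ha' : 0 < a') (h : a • bj219U w = a' • bj219U w') : w = w' := by
  have h1 : a * (w : ℂ).re = a' * (w' : ℂ).re := congrArg Prod.fst h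
  have h2 : a * (w : ℂ).im = a' * (w' : ℂ).im := congrArg Prod.snd h
  have hc : (a : ℂ) * (w : ℂ) = (a' : ℂ) * (w' : ℂ) := by
    apply Complex.ext
    · simpa using h1
    · simpa using h2
  have hn := congrArg norm hc
  rw [norm_mul, norm_mul, Circle.norm_coe, Circle.norm_coe, mul_one, mul_one, Complex.norm_real, Complex.norm_real,
    Real.norm_of_nonneg ha.le, Real.norm_of_nonneg ha'.le] at hn
  rw [hn] at hc
  have hne : (a' : ℂ) ≠ 0 := by exact_mod_cast ha'.ne'
  exact Circle.coe_injective (mul_left_cancel₀ hne hc)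

/-- every nonzero point of the plane is a positive multiple of a point of the circle -/
theorem bj219_U_surj {v : ℝ × ℝ} (hv : v ≠ 0) : ∃ (w : Circle) (a : ℝ), 0 < a ∧ v = a • bj219U w := by
  set ζ : ℂ := ⟨v.1, v.2⟩ with hζ
  have hζ0 : ζ ≠ 0 := by
    intro h
    apply hv
    have h1 : v.1 = 0 := congrArg Complex.re h
    have h2 : v.2 = 0 := congrArg Complex.im h
    exact Prod.ext h1 h2
  refine ⟨Circle.exp (Complex.arg ζ), ‖ζ‖, norm_pos_iff.2 hζ0, ?_⟩
  have h := Complex.norm_mul_exp_arg_mul_I ζ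
  rw [← Circle.coe_exp] at h
  have h1 := congrArg Complex.re h
  have h2 := congrArg Complex.im h
  simp only [Complex.re_ofReal_mul, Complex.im_ofReal_mul] at h1 h2
  exact Prod.ext h1.symm h2.symm

/-- **a box is a Jordan face set** -/
theorem bj219_box_jordan (z : ℤ × ℤ) {M : ℕ} (hM : 1 ≤ M) : RswJordan (rswBox z M) := by
  have hM0 : (0 : ℝ) < M := by exact_mod_cast hM
  refine ⟨fun w => ((z.1 : ℝ), (z.2 : ℝ)) + ((M : ℝ) / ‖bj219U w‖) • bj219U w, ?_, ?_, ?_⟩
  · have h1 : Continuous fun w : Circle => (M : ℝ) / ‖bj219U w‖ :=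
      continuous_const.div bj219_U_continuous.norm (fun w => (bj219_U_norm_pos w).ne')
    exact continuous_const.add (h1.smul bj219_U_continuous)
  · intro w w' h
    simp only [add_right_inj] at h
    exact bj219_U_inj (div_pos hM0 (bj219_U_norm_pos w)) (div_pos hM0 (bj219_U_norm_pos w')) h
  · rw [bj219_frontier z hM]
    ext y
    simp only [Set.mem_range, mem_sphere_iff_norm]
    constructor
    · rintro ⟨w, rfl⟩
      rw [add_sub_cancel_left, norm_smul, Real.norm_of_nonneg (div_pos hM0 (bj219_U_norm_pos w)).le,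
        div_mul_cancel₀ _ (bj219_U_norm_pos w).ne']
    · intro hy
      have hv : y - ((z.1 : ℝ), (z.2 : ℝ)) ≠ 0 := by
        intro h
        rw [h, norm_zero] at hy
        exact hM0.ne hy
      obtain ⟨w, a, ha, hw⟩ := bj219_U_surj hv
      refine ⟨w, ?_⟩
      have hn : (M : ℝ) = a * ‖bj219U w‖ := by
        rw [← hy, hw, norm_smul, Real.norm_of_nonneg ha.le]
      rw [hn, mul_div_assoc, div_self (bj219_U_norm_pos w).ne', mul_one, ← hw]
      abel

end Claimed.Agent.R292
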