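import Claimed.Agent.R292.Rsw.Cut91
import Claimed.Agent.R292.Rsw.Expl107
import Claimed.Agent.R292.Height

/-!
# Row 292, unit RSW, block R2 CUT, second file: THE HEIGHT AT A CUT (helper91; prefix `rsk`, `Rsk`)

TEX: AT paper, 03-spatial, lem:finite-cuts (2): "an open monochromatic `W` cut fixes a constant height on its perimeter".

* `rsk_isHt_iff`     `IsATHeight` of a configuration in the signs `rskSg`.
* `rsk_ht_of_wt`     `At92hExt F` + nonzero weight in `(F, b)`, EITHER colour `b`  ⟹  the height exists.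
* `rsk_H_face`       on the cut, `rswH F ω - rswH F' ω` is constant on the four corners of every face of `F'`.
* `rsk_H_const`      ... hence constant on the corners of a star connected set of faces of `F'`; `rsk_king_box`: boxes are star connected.
* `rsk_arr_cut`      zero total smearings do not see the constant.
* **`rsk_cut_arr`**  domain Markov property for zero total smearings of the height.
-/

set_option autoImplicit false
set_option linter.unusedSimpArgs false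

namespace Claimed.Agent.R292

open Claims Claims.C0468

/-! ## §A signs -/

/-- the sign `±1` of a site with respect to a set of plus sites -/
def rskSg (A : Finset (ℤ × ℤ)) (v : ℤ × ℤ) : ℤ := if v ∈ A then 1 else -1

theorem rsk_atSpin {F : Finset (ℤ × ℤ)} (ω : RswCfg) {v : ℤ × ℤ} (hv : v ∈ cornersOf F) :
    atSpin (rswTau F ω) v = rskSg ω.S v := by
  unfold atSpin rswTau rskSg
  rw [dif_pos hv]
  simp

theorem rsk_atDual {F : Finset (ℤ × ℤ)} (ω : RswCfg) {f : ℤ × ℤ} (hf : f ∈ F) :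
    atDual (rswTauD F ω) f = rskSg ω.D f := by
  unfold atDual rswTauD rskSg
  rw [dif_pos hf]
  simp

theorem rsk_isHt_iff {F : Finset (ℤ × ℤ)} {ω : RswCfg} {Hv Hf : ℤ × ℤ → ℝ} :
    IsATHeight (rswTau F ω) (rswTauD F ω) Hv Hf ↔
      (∀ v ∈ cornersOf F, OnPolygon F v → Hv v = 0) ∧
        ∀ f ∈ F, ∀ v, at92hCor f v → Hf f - Hv v = ((rskSg ω.S v : ℝ) * (rskSg ω.D f : ℝ)) / 2 := by
  rw [at92h_isHeight_iff]
  refine and_congr_right (fun _ => forall₂_congr (fun f hf => forall₂_congr (fun v hv => ?_)))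
  rw [rsk_atSpin ω (at92h_mem_corners.2 ⟨f, hf, hv⟩), rsk_atDual ω hf]

/-- the spins are closed around the interior edges of `F` -/
def RskClosedSpins (F : Finset (ℤ × ℤ)) (ω : RswCfg) : Prop :=
  ∀ e ∈ rswInt F, (rskSg ω.S e.1 - rskSg ω.S (rswEnd e)) * (rskSg ω.D e.1 - rskSg ω.D (rswCo e)) = 0

theorem rsk_sg_eq {A : Finset (ℤ × ℤ)} {v w : ℤ × ℤ} (h : v ∈ A ↔ w ∈ A) : rskSg A v = rskSg A w := by
  unfold rskSg
  simp only [h]

theorem rsk_closed_of_wt {t : ℝ} {F : Finset (ℤ × ℤ)} {b : Bool} {ω : RswCfg}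
    (h : rswWt t F b ω ≠ 0) : RswBc F b ω ∧ RskClosedSpins F ω := by
  classical
  unfold rswWt at h
  by_cases hb : RswBc F b ω
  · rw [if_pos hb] at h
    refine ⟨hb, fun e he => ?_⟩
    have hf : rswFac t ω e ≠ 0 := fun h0 => h (Finset.prod_eq_zero he h0)
    by_cases h1 : (e.1 ∈ ω.S ↔ rswEnd e ∈ ω.S)
    · rw [rsk_sg_eq h1]; simp
    · by_cases h2 : (e.1 ∈ ω.D ↔ rswCo e ∈ ω.D)
      · rw [rsk_sg_eq h2]; simp
      · exfalso
        apply hf
        unfold rswFac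
        simp [h1, h2]
  · rw [if_neg hb] at h
    exact absurd rfl h

theorem rsk_closed_mono {F' F : Finset (ℤ × ℤ)} (hF : F' ⊆ F) {ω : RswCfg}
    (h : RskClosedSpins F ω) : RskClosedSpins F' ω := fun e he => h e (rsk_int_mono hF he)

/-! ## §B existence of the height, either colour -/

theorem rsk_ht_of_closed {F : Finset (ℤ × ℤ)} (hext : At92hExt F) {a : Bool} {ω : RswCfg}
    (hbc : RswBc F a ω) (hcl : RskClosedSpins F ω) :
    ∃ Hv Hf : ℤ × ℤ → ℝ, IsATHeight (rswTau F ω) (rswTauD F ω) Hv Hf := by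
  classical
  set α : ℤ := if a = true then 1 else -1 with hα
  set s : ℤ × ℤ → ℤ := fun v => if v ∈ rskCore F then rskSg ω.S v else α with hs
  set d : ℤ × ℤ → ℤ := fun f => if f ∈ F then rskSg ω.D f else 1 with hd
  -- `s` is the true sign on all corners
  have hsc : ∀ v ∈ cornersOf F, s v = rskSg ω.S v := by
    intro v hv
    by_cases hc : v ∈ rskCore F
    · simp only [hs, if_pos hc]
    · have h1 := hbc v hv (fun h => hc (rsk_core_iff.2 (not_not.2 h)))
      simp only [hs, if_neg hc, hα, rskSg, h1]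
  have hedge : ∀ e : (ℤ × ℤ) × Bool, (s e.1 - s (rswEnd e)) * (d e.1 - d (rswCo e)) = 0 := by
    intro e
    by_cases he : e ∈ rswInt F
    · have h1 := rsk_mem_int.1 he
      have := hcl e he
      rw [hsc _ (rsk_int_fst he), hsc _ (rsk_int_end he)]
      simp only [hd, if_pos h1.1, if_pos h1.2]
      exact this
    · have h1 : e.1 ∉ rskCore F := fun h => he (rsk_fst_core h)
      have h2 : rswEnd e ∉ rskCore F := fun h => he (rsk_end_core h)
      simp only [hs, if_neg h1, if_neg h2, sub_self, zero_mul]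
  obtain ⟨Pv, Pf, hp⟩ := at92h_plane s d
    (fun x y => by simpa [rswEnd, rswCo] using hedge ((x, y), false))
    (fun x y => by simpa [rswEnd, rswCo] using hedge ((x, y), true))
  obtain ⟨g0, hg0⟩ := Infinite.exists_notMem_finset F
  have hE : ∀ f, f ∉ F → ∀ v, at92hCor f v → Pf f - Pv v = (α : ℝ) / 2 := by
    intro f hf v hv
    have hc : v ∉ rskCore F := fun h => (rsk_core_iff.1 h) (at92h_onPolygon hf hv)
    rw [hp f v hv]
    simp only [hs, hd, if_neg hc, if_neg hf]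
    push_cast
    ring
  have hS := hext {f | f ∉ F ∧ Pf f = Pf g0} (fun f hf => hf.1) ⟨g0, hg0, rfl⟩ (by
    rintro f ⟨hfF, hf⟩ g hg hadj
    obtain ⟨v, hv1, hv2⟩ := at92h_common_corner hadj
    refine ⟨hg, ?_⟩
    have a1 := hE f hfF v hv1
    have a2 := hE g hg v hv2
    linarith)
  refine ⟨fun v => Pv v - (Pf g0 - (α : ℝ) / 2), fun f => Pf f - (Pf g0 - (α : ℝ) / 2), ?_⟩
  rw [rsk_isHt_iff]
  refine ⟨fun v _ hv => ?_, fun f hf v hv => ?_⟩
  · obtain ⟨g, hg, hgv⟩ := at92h_exists_ext hv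
    have a1 := hE g hg v hgv
    have a2 := (hS g hg).2
    linarith
  · have h1 := hp f v hv
    rw [hsc v (at92h_mem_corners.2 ⟨f, hf, hv⟩)] at h1
    simp only [hd, if_pos hf] at h1
    rw [← h1]; ring

theorem rsk_ht_of_wt {t : ℝ} {F : Finset (ℤ × ℤ)} (hext : At92hExt F) {b : Bool} {ω : RswCfg}
    (h : rswWt t F b ω ≠ 0) : ∃ Hv Hf : ℤ × ℤ → ℝ, IsATHeight (rswTau F ω) (rswTauD F ω) Hv Hf :=
  rsk_ht_of_closed hext (rsk_closed_of_wt h).1 (rsk_closed_of_wt h).2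

/-- the boundary condition of `(F', a)` on the cut, for `ω` itself -/
theorem rsk_bc_of_cut {F' : Finset (ℤ × ℤ)} {a : Bool} {ω : RswCfg} (hc : RswCut F' a ω) :
    RswBc F' a ω := fun _ hv hp => rsk_cut_rim hc hv (fun h => (rsk_core_iff.1 h) hp)

/-! ## §C the height of `F` and the height of the chamber -/

theorem rsk_tau_in (F' : Finset (ℤ × ℤ)) (ω : RswCfg) : rswTau F' (rskIn F' ω) = rswTau F' ω := by
  funext v
  unfold rswTau rskIn
  simp [v.2]

theorem rsk_tauD_in (F' : Finset (ℤ × ℤ)) (ω : RswCfg) : rswTauD F' (rskIn F' ω) = rswTauD F' ω := by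
  funext f
  unfold rswTauD rskIn
  simp [f.2]

/-- the height of the flat problem on `F'` reads only inside `F'` -/
theorem rsk_H_in (F' : Finset (ℤ × ℤ)) (ω : RswCfg) : rswH F' (rskIn F' ω) = rswH F' ω := by
  unfold rswH
  rw [rsk_tau_in, rsk_tauD_in]

theorem rsk_inside_H (F' : Finset (ℤ × ℤ)) (g : (ℤ × ℤ → ℝ) → ℝ) :
    RskInside F' (fun ω => g (rswH F' ω)) := fun ω => by
  simp only [rsk_H_in]

/-- on the cut the two heights differ by a constant on the corners of every face of `F'` -/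
theorem rsk_H_face {t : ℝ} {F' F : Finset (ℤ × ℤ)} (hF : F' ⊆ F) (hextF : At92hExt F)
    (hextF' : At92hExt F') {a b : Bool} {ω : RswCfg} (hc : RswCut F' a ω)
    (hw : rswWt t F b ω ≠ 0) {f : ℤ × ℤ} (hf : f ∈ F') {v v' : ℤ × ℤ} (hv : at92hCor f v)
    (hv' : at92hCor f v') :
    rswH F ω v - rswH F' ω v = rswH F ω v' - rswH F' ω v' := by
  obtain ⟨Hv, Hf, h⟩ := rsk_ht_of_wt hextF hw
  obtain ⟨Hv', Hf', h'⟩ := rsk_ht_of_closed hextF' (rsk_bc_of_cut hc)
    (rsk_closed_mono hF (rsk_closed_of_wt hw).2)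
  have e1 := at92h_eq h
  have e2 := at92h_eq h'
  have c1 : ∀ u, at92hCor f u → u ∈ cornersOf F := fun u hu => at92h_mem_corners.2 ⟨f, hF hf, hu⟩
  have c2 : ∀ u, at92hCor f u → u ∈ cornersOf F' := fun u hu => at92h_mem_corners.2 ⟨f, hf, hu⟩
  unfold rswH
  rw [e1 v (c1 v hv), e1 v' (c1 v' hv'), e2 v (c2 v hv), e2 v' (c2 v' hv')]
  rw [rsk_isHt_iff] at h h'
  have a1 := h.2 f (hF hf) v hv
  have a2 := h.2 f (hF hf) v' hv'
  have a3 := h'.2 f hf v hv
  have a4 := h'.2 f hf v' hv'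
  linarith

/-- the height of the chamber vanishes on its polygon -/
theorem rsk_H_rim {t : ℝ} {F' F : Finset (ℤ × ℤ)} (hF : F' ⊆ F)
    (hextF' : At92hExt F') {a b : Bool} {ω : RswCfg} (hc : RswCut F' a ω)
    (hw : rswWt t F b ω ≠ 0) {v : ℤ × ℤ} (hv : v ∈ cornersOf F') (hp : OnPolygon F' v) :
    rswH F' ω v = 0 := by
  obtain ⟨Hv', Hf', h'⟩ := rsk_ht_of_closed hextF' (rsk_bc_of_cut hc)
    (rsk_closed_mono hF (rsk_closed_of_wt hw).2)
  unfold rswH
  rw [at92h_eq h' v hv]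
  exact h'.1 v hv hp

/-- star connected set of faces -/
def RskKing (T : Set (ℤ × ℤ)) : Prop :=
  ∀ S : Set (ℤ × ℤ), S ⊆ T → S.Nonempty → (∀ f ∈ S, ∀ g ∈ T, at92hAdj f g → g ∈ S) → T ⊆ S

theorem rsk_cor_self (f : ℤ × ℤ) : at92hCor f f := ⟨Or.inl rfl, Or.inl rfl⟩

/-- on the cut the two heights differ by a constant on the corners of a star connected part of `F'` -/
theorem rsk_H_const {t : ℝ} {F' F : Finset (ℤ × ℤ)} (hF : F' ⊆ F) (hextF : At92hExt F)
    (hextF' : At92hExt F') {a b : Bool} {ω : RswCfg} (hc : RswCut F' a ω)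
    (hw : rswWt t F b ω ≠ 0) {T : Set (ℤ × ℤ)} (hT : ∀ f ∈ T, f ∈ F') (hK : RskKing T) :
    ∃ h0 : ℝ, ∀ f ∈ T, ∀ v, at92hCor f v → rswH F ω v = h0 + rswH F' ω v := by
  by_cases hne : T.Nonempty
  · obtain ⟨f0, hf0⟩ := hne
    refine ⟨rswH F ω f0 - rswH F' ω f0, ?_⟩
    have key := hK {f | f ∈ T ∧ rswH F ω f - rswH F' ω f = rswH F ω f0 - rswH F' ω f0}
      (fun f hf => hf.1) ⟨f0, hf0, rfl⟩ (by
        rintro f ⟨hfT, hf⟩ g hg hadj
        obtain ⟨v, hv1, hv2⟩ := at92h_common_corner hadj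
        refine ⟨hg, ?_⟩
        have a1 := rsk_H_face hF hextF hextF' hc hw (hT f hfT) (rsk_cor_self f) hv1
        have a2 := rsk_H_face hF hextF hextF' hc hw (hT g hg) (rsk_cor_self g) hv2
        linarith)
    intro f hf v hv
    have a1 := (key hf).2
    have a2 := rsk_H_face hF hextF hextF' hc hw (hT f hf) (rsk_cor_self f) hv
    linarith
  · exact ⟨0, fun f hf => absurd ⟨f, hf⟩ hne⟩

/-! ## §D boxes are star connected -/

theorem rsk_adj_symm {f g : ℤ × ℤ} (h : at92hAdj f g) : at92hAdj g f :=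
  ⟨by rw [abs_sub_comm]; exact h.1, by rw [abs_sub_comm]; exact h.2⟩

theorem rsk_adj_of_cor {f g v : ℤ × ℤ} (h1 : at92hCor f v) (h2 : at92hCor g v) : at92hAdj f g := by
  obtain ⟨a1, a2⟩ := h1
  obtain ⟨b1, b2⟩ := h2
  constructor <;> rw [abs_le] <;> constructor <;> omega

theorem rsk_king_rect (x0 x1 y0 y1 : ℤ) :
    RskKing {f : ℤ × ℤ | (x0 ≤ f.1 ∧ f.1 < x1) ∧ (y0 ≤ f.2 ∧ f.2 < y1)} := by
  intro S hST hne hcl g hg
  obtain ⟨f0, hf0⟩ := hne
  have key : ∀ n : ℕ, ∀ f ∈ S, (g.1 - f.1).natAbs + (g.2 - f.2).natAbs ≤ n → g ∈ S := by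
    intro n
    induction n with
    | zero =>
      intro f hf hn
      have h1 : g.1 = f.1 := by omega
      have h2 : g.2 = f.2 := by omega
      have : g = f := Prod.ext h1 h2
      rw [this]; exact hf
    | succ n ih =>
      intro f hf hn
      have hfT := hST hf
      simp only [Set.mem_ofPred_eq] at hfT hg
      rcases lt_trichotomy f.1 g.1 with h | h | h
      · refine ih (f.1 + 1, f.2) (hcl f hf _ ?_ ⟨by simp, by simp⟩) ?_
        · simp only [Set.mem_ofPred_eq]; omega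
        · simp only; omega
      · rcases lt_trichotomy f.2 g.2 with h' | h' | h'
        · refine ih (f.1, f.2 + 1) (hcl f hf _ ?_ ⟨by simp, by simp⟩) ?_
          · simp only [Set.mem_ofPred_eq]; omega
          · simp only; omega
        · have : g = f := Prod.ext h.symm h'.symm
          rw [this]; exact hf
        · refine ih (f.1, f.2 - 1) (hcl f hf _ ?_ ⟨by simp, by simp⟩) ?_
          · simp only [Set.mem_ofPred_eq]; omega
          · simp only; omega
      · refine ih (f.1 - 1, f.2) (hcl f hf _ ?_ ⟨by simp, by simp⟩) ?_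
        · simp only [Set.mem_ofPred_eq]; omega
        · simp only; omega
  exact key _ f0 hf0 le_rfl

theorem rsk_king_box (z : ℤ × ℤ) (n : ℕ) : RskKing (↑(rswBox z n) : Set (ℤ × ℤ)) := by
  have h : (↑(rswBox z n) : Set (ℤ × ℤ)) =
      {f : ℤ × ℤ | (z.1 - n ≤ f.1 ∧ f.1 < z.1 + n) ∧ (z.2 - n ≤ f.2 ∧ f.2 < z.2 + n)} := by
    ext f
    simp [rswBox, Finset.mem_product, Finset.mem_Ico]
  rw [h]
  exact rsk_king_rect _ _ _ _

/-! ## §E the domain Markov property for gradients of the height -/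

/-- `g` reads the height on the corners of `T` only, and only up to an additive constant -/
def RskGrad (T : Set (ℤ × ℤ)) (g : (ℤ × ℤ → ℝ) → ℝ) : Prop :=
  ∀ (h h' : ℤ × ℤ → ℝ) (h0 : ℝ), (∀ f ∈ T, ∀ v, at92hCor f v → h v = h0 + h' v) → g h = g h'

/-- only the configurations with nonzero weight matter -/
theorem rsk_sum_congr_wt (t : ℝ) (F : Finset (ℤ × ℤ)) (b : Bool) {X Y : RswCfg → ℝ}
    (h : ∀ ω : RswCfg, rswWt t F b ω ≠ 0 → X ω = Y ω) : rswSum t F b X = rswSum t F b Y := by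
  unfold rswSum
  refine Finset.sum_congr rfl fun S _ => Finset.sum_congr rfl fun D _ =>
    Finset.sum_congr rfl fun O _ => ?_
  by_cases hw : rswWt t F b ⟨S, D, O⟩ = 0
  · rw [hw, zero_mul, zero_mul]
  · rw [h ⟨S, D, O⟩ hw]

/-- **lem:finite-cuts (2) for the height**: gradient observables inside a star connected part of the chamber -/
theorem rsk_cut_grad {t : ℝ} (ht0 : 0 < t) (ht1 : t ≤ 1) {F' F : Finset (ℤ × ℤ)} (hF : F' ⊆ F)
    (hextF : At92hExt F) (hextF' : At92hExt F') (a b : Bool) {T : Set (ℤ × ℤ)}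
    (hT : ∀ f ∈ T, f ∈ F') (hK : RskKing T) {g : (ℤ × ℤ → ℝ) → ℝ} (hg : RskGrad T g)
    {Y : RswCfg → ℝ} (hY : RskOutside F' Y) :
    rswSum t F b (fun ω => rskInd F' a ω * g (rswH F ω) * Y ω) =
      rswE t F' a (fun ω => g (rswH F' ω)) * rswSum t F b (fun ω => rskInd F' a ω * Y ω) := by
  classical
  rw [← rsk_cut ht0 ht1 hF a b (rsk_inside_H F' g) hY]
  refine rsk_sum_congr_wt t F b (fun ω hw => ?_)
  by_cases hc : RswCut F' a ω
  · obtain ⟨h0, hh⟩ := rsk_H_const hF hextF hextF' hc hw hT hK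
    rw [hg _ _ h0 hh]
  · unfold rskInd
    rw [if_neg hc]
    ring

theorem rsk_arr_shift (w : (ℤ × ℤ) →₀ ℝ) {h h' : ℤ × ℤ → ℝ} {h0 : ℝ}
    (hs : ∀ v ∈ w.support, h v = h0 + h' v) :
    rswArr w h = h0 * w.sum (fun _ x => x) + rswArr w h' := by
  unfold rswArr Finsupp.sum
  rw [Finset.mul_sum, ← Finset.sum_add_distrib]
  refine Finset.sum_congr rfl (fun v hv => ?_)
  simp only
  rw [hs v hv]
  ring

theorem rsk_grad_arr {T : Set (ℤ × ℤ)} {w : (ℤ × ℤ) →₀ ℝ} (hw : ∀ v ∈ w.support, v ∈ T)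
    (h0 : w.sum (fun _ x => x) = 0) (φ : ℝ → ℝ) : RskGrad T (fun h => φ (rswArr w h)) := by
  intro h h' c hh
  have := rsk_arr_shift w (h := h) (h' := h') (h0 := c)
    (fun v hv => hh v (hw v hv) v (rsk_cor_self v))
  simp only [this, h0, mul_zero, zero_add]

theorem rsk_grad_incr {T : Set (ℤ × ℤ)} {ι : Type*} [Fintype ι] {v v' : ι → ℤ × ℤ}
    (hv : ∀ i, v i ∈ T) (hv' : ∀ i, v' i ∈ T) (φ : (ι → ℝ) → ℝ) :
    RskGrad T (fun h => φ (fun i => h (v' i) - h (v i))) := by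
  intro h h' c hh
  have : (fun i => h (v' i) - h (v i)) = (fun i => h' (v' i) - h' (v i)) := by
    funext i
    rw [hh _ (hv i) _ (rsk_cor_self _), hh _ (hv' i) _ (rsk_cor_self _)]
    ring
  simp only [this]

/-- **domain Markov property for zero total smearings of the height** -/
theorem rsk_cut_arr {t : ℝ} (ht0 : 0 < t) (ht1 : t ≤ 1) {F' F : Finset (ℤ × ℤ)} (hF : F' ⊆ F)
    (hextF : At92hExt F) (hextF' : At92hExt F') (a b : Bool) {z0 : ℤ × ℤ} {n : ℕ}
    (hbox : rswBox z0 n ⊆ F') {w : (ℤ × ℤ) →₀ ℝ} (hw : w.support ⊆ rswBox z0 n)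
    (h0 : w.sum (fun _ x => x) = 0) (φ : ℝ → ℝ) {Y : RswCfg → ℝ} (hY : RskOutside F' Y) :
    rswSum t F b (fun ω => rskInd F' a ω * φ (rswArr w (rswH F ω)) * Y ω) =
      rswE t F' a (fun ω => φ (rswArr w (rswH F' ω))) *
        rswSum t F b (fun ω => rskInd F' a ω * Y ω) :=
  rsk_cut_grad ht0 ht1 hF hextF hextF' a b (T := ↑(rswBox z0 n))
    (fun _ hf => hbox (Finset.mem_coe.1 hf)) (rsk_king_box z0 n)
    (rsk_grad_arr (fun _ hv => Finset.mem_coe.2 (hw hv)) h0 φ) hY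

/-! ## §F the exterior of a chamber is star connected -/

theorem rsk_ext_of_jordan {F : Finset (ℤ × ℤ)} (h : RswJordan F) : At92hExt F := by
  obtain ⟨γ, hc, _, hr⟩ := h
  intro S h1 h2 h3
  refine at92h_ext_conn one_pos F ?_ S h1 h2 h3
  rw [← hr]
  exact isPreconnected_range hc

/-- remove from `F` a set `U` of faces which hangs on the exterior of `F`: the exterior stays star connected -/
theorem rsk_ext_sdiff {F U : Finset (ℤ × ℤ)} (hext : At92hExt F)
    (hU : ∀ S : Set (ℤ × ℤ), (∀ g, g ∉ F → g ∈ S) → (∀ f ∈ S, ∀ g ∈ U, at92hAdj f g → g ∈ S) →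
      ∀ g ∈ U, g ∈ S) : At92hExt (F \ U) := by
  intro S hS hne hcl
  have hmem : ∀ g, g ∉ F \ U ↔ (g ∉ F ∨ g ∈ U) := by
    intro g
    rw [Finset.mem_sdiff]
    tauto
  -- step 1
  have h1 : ∃ f ∈ S, f ∉ F := by
    by_contra hcon
    push Not at hcon
    obtain ⟨f, hf⟩ := hne
    have hfU : f ∈ U := by
      rcases (hmem f).1 (hS f hf) with h | h
      · exact absurd (hcon f hf) h
      · exact h
    have := hU {g | g ∉ F \ U ∧ g ∉ S} (fun g hg => ⟨(hmem g).2 (Or.inl hg), fun h => hg (hcon g h)⟩)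
      (by
        rintro p ⟨hp1, hp2⟩ g hg hadj
        exact ⟨(hmem g).2 (Or.inr hg), fun h => hp2 (hcl g h p hp1 (rsk_adj_symm hadj))⟩) f hfU
    exact this.2 hf
  -- step 2
  obtain ⟨f1, hf1, hf1F⟩ := h1
  have h2 : ∀ g, g ∉ F → g ∈ S := by
    intro g hg
    have := hext {f | f ∈ S ∧ f ∉ F} (fun f hf => hf.2) ⟨f1, hf1, hf1F⟩
      (fun f hf p hp hadj => ⟨hcl f hf.1 p ((hmem p).2 (Or.inl hp)) hadj, hp⟩) g hg
    exact this.1
  -- step 3
  have h3 := hU S h2 (fun f hf g hg hadj => hcl f hf g ((hmem g).2 (Or.inr hg)) hadj)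
  intro g hg
  rcases (hmem g).1 hg with h | h
  · exact h2 g h
  · exact h3 g h

theorem rsk_step_adj {F : Finset (ℤ × ℤ)} {a : Bool} {ω : RswCfg} {f g : ℤ × ℤ}
    (h : RswStep F a ω f g) : at92hAdj f g := by
  obtain ⟨_, _, ⟨⟨x, y⟩, c⟩, h1, _⟩ := h
  cases c <;> rcases h1 with ⟨rfl, rfl⟩ | ⟨rfl, rfl⟩ <;> constructor <;> simp [rswCo]

theorem rsk_mem_layer {F : Finset (ℤ × ℤ)} {f : ℤ × ℤ} :
    f ∈ rswLayer F ↔ f ∈ F ∧
      ∃ v ∈ ({f, (f.1 + 1, f.2), (f.1, f.2 + 1), (f.1 + 1, f.2 + 1)} : Finset (ℤ × ℤ)), OnPolygon F v := by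
  unfold rswLayer
  simp only [Finset.mem_filter]

/-- the faces reached from the layer hang on the exterior -/
theorem rsk_ext_of_reach {F U : Finset (ℤ × ℤ)} (hext : At92hExt F) {a : Bool} {ω : RswCfg}
    (hU : ∀ g, g ∈ U ↔ ∃ f ∈ rswLayer F, Relation.ReflTransGen (RswStep F a ω) f g) :
    At92hExt (F \ U) := by
  classical
  refine rsk_ext_sdiff hext (fun S h1 h2 g hg => ?_)
  obtain ⟨f, hf, hr⟩ := (hU g).1 hg
  induction hr with
  | refl =>
    obtain ⟨_, v, hv, hp⟩ := rsk_mem_layer.1 hf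
    obtain ⟨p, hp1, hp2⟩ := at92h_exists_ext hp
    have hcor : at92hCor f v := by
      simp only [Finset.mem_insert, Finset.mem_singleton] at hv
      rcases hv with rfl | rfl | rfl | rfl <;> simp [at92hCor]
    exact h2 p (h1 p hp1) f hg (rsk_adj_of_cor hp2 hcor)
  | tail hr' hstep ih =>
    rename_i p q
    exact h2 p (ih ((hU p).2 ⟨f, hf, hr'⟩)) q hg (rsk_step_adj hstep)

/-! ## §G the exploration of 107 (`Rsw/Expl107`) and the height: stopped cut for gradients -/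

theorem rsk_core_eq_in (F' : Finset (ℤ × ℤ)) : rskCore F' = rsxIn F' := by
  ext v
  rw [rsk_core_iff, rsx_in_iff]

theorem rsk_outside_of_locOut {F' : Finset (ℤ × ℤ)} {Y : RswCfg → ℝ} (hY : RsxLocOut F' Y) :
    RskOutside F' Y := by
  intro ω
  apply hY
  · simp only [rskOut, rsk_core_eq_in]
    exact Finset.sdiff_idem _ _
  · simp only [rskOut]
    exact Finset.sdiff_idem _ _
  · simp only [rskOut]
    exact Finset.sdiff_idem _ _

theorem rsk_cut_of_out (F : Finset (ℤ × ℤ)) (a : Bool) (ω : RswCfg) :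
    RswCut (F \ rsxOut F a ω) a ω := by
  intro e he
  apply rsx_cross_good (F := F)
  rcases he with h | h
  · exact Or.inl h
  · exact Or.inr ⟨h.2, h.1⟩

theorem rsk_adj_of_rsxAdj {f g : ℤ × ℤ} (h : RsxAdj f g) : at92hAdj f g := by
  obtain ⟨⟨⟨x, y⟩, c⟩, h1⟩ := h
  cases c <;> rcases h1 with ⟨rfl, rfl⟩ | ⟨rfl, rfl⟩ <;> constructor <;> simp [rswCo]

/-- an anchored set hangs on the exterior -/
theorem rsk_ext_of_anch {F G : Finset (ℤ × ℤ)} (hext : At92hExt F) (hG : RsxAnch F G) :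
    At92hExt (F \ G) := by
  refine rsk_ext_sdiff hext (fun S h1 h2 g hg => ?_)
  obtain ⟨f, hf, hr⟩ := hG g hg
  induction hr with
  | refl =>
    obtain ⟨_, v, hv, hp⟩ := rsk_mem_layer.1 hf
    obtain ⟨p, hp1, hp2⟩ := at92h_exists_ext hp
    have hcor : at92hCor f v := by
      simp only [Finset.mem_insert, Finset.mem_singleton] at hv
      rcases hv with rfl | rfl | rfl | rfl <;> simp [at92hCor]
    exact h2 p (h1 p hp1) f hg (rsk_adj_of_cor hp2 hcor)
  | @tail p q _ hstep ih =>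
    exact h2 p (ih hstep.1) q hg (rsk_adj_of_rsxAdj hstep.2.2)

/-- one explored set, gradient observable of the height -/
theorem rsk_expl_one_grad {t : ℝ} (ht0 : 0 < t) (ht1 : t ≤ 1) {F G : Finset (ℤ × ℤ)}
    (hextF : At92hExt F) (hG : RsxAnch F G) (a b : Bool) {T : Set (ℤ × ℤ)}
    (hT : ∀ f ∈ T, f ∈ F \ G) (hK : RskKing T) {g : (ℤ × ℤ → ℝ) → ℝ} (hg : RskGrad T g) :
    rswSum t F b (fun ω => rsxInd (rsxOut F a ω = G) * g (rswH F ω)) =
      rswSum t F b (fun ω => rsxInd (rsxOut F a ω = G)) *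
        rswE t (F \ G) a (fun ω => g (rswH (F \ G) ω)) := by
  have h := rsk_cut_grad ht0 ht1 (Finset.sdiff_subset : F \ G ⊆ F) hextF (rsk_ext_of_anch hextF hG)
    a b hT hK hg (rsk_outside_of_locOut (rsx_out_loc F G a))
  have hind : ∀ ω, rsxOut F a ω = G → rskInd (F \ G) a ω = 1 := by
    intro ω hω
    unfold rskInd
    rw [if_pos (by rw [← hω]; exact rsk_cut_of_out F a ω)]
  have e1 : ∀ ω, rskInd (F \ G) a ω * g (rswH F ω) * rsxInd (rsxOut F a ω = G) =
      rsxInd (rsxOut F a ω = G) * g (rswH F ω) := by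
    intro ω
    by_cases hω : rsxOut F a ω = G
    · rw [hind ω hω]; ring
    · rw [rsx_ind_neg hω]; ring
  have e2 : ∀ ω, rskInd (F \ G) a ω * rsxInd (rsxOut F a ω = G) = rsxInd (rsxOut F a ω = G) := by
    intro ω
    by_cases hω : rsxOut F a ω = G
    · rw [hind ω hω]; ring
    · rw [rsx_ind_neg hω]; ring
  rw [rsx_sum_congr t F b e1, rsx_sum_congr t F b e2] at h
  rw [h]; ring

/-- **DECOMPOSITION for the height**: `E_F (1_Sep g(H_F)) = Σ_G P_F (Out = G) E_{F \ G}^a g(H_{F \ G})`, `g` a gradient observable in `A` -/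
theorem rsk_decomp_grad {t : ℝ} (ht0 : 0 < t) (ht1 : t ≤ 1) {F A : Finset (ℤ × ℤ)} (hA : A ⊆ F)
    (hextF : At92hExt F) (a b : Bool) {T : Set (ℤ × ℤ)} (hT : ∀ f ∈ T, f ∈ A) (hK : RskKing T)
    {g : (ℤ × ℤ → ℝ) → ℝ} (hg : RskGrad T g) :
    rswE t F b (fun ω => rsxInd (RswSep F a ω A (rswLayer F)) * g (rswH F ω)) =
      ∑ G ∈ rsxSets F A, rswP t F b (fun ω => rsxOut F a ω = G) *
        rswE t (F \ G) a (fun ω => g (rswH (F \ G) ω)) := by
  have e1 : ∀ ω, rsxInd (RswSep F a ω A (rswLayer F)) * g (rswH F ω) =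
      ∑ G ∈ rsxSets F A, rsxInd (rsxOut F a ω = G) * g (rswH F ω) := by
    intro ω
    rw [rsx_ind_sum, Finset.sum_mul]
  rw [rsx_E_eq, rsx_sum_congr t F b e1, rsx_sum_finsum, Finset.sum_div]
  refine Finset.sum_congr rfl fun G hG => ?_
  rw [rsk_expl_one_grad ht0 ht1 hextF (rsx_mem_sets.1 hG).2.2.2 a b
    (fun f hf => rsx_sub_sdiff hA hG (hT f hf)) hK hg, rsx_P_eq,
    rsx_E_eq t F b (fun ω => rsxInd (rsxOut F a ω = G))]
  ring

/-- **STOPPED CUT for the height, upper bound**: on the separation event a nonnegative gradient observable is bounded by the worst chamber -/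
theorem rsk_stopped_le {t : ℝ} (ht0 : 0 < t) (ht1 : t ≤ 1) {F A : Finset (ℤ × ℤ)} (hA : A ⊆ F)
    (hextF : At92hExt F) (a b : Bool) {T : Set (ℤ × ℤ)} (hT : ∀ f ∈ T, f ∈ A) (hK : RskKing T)
    {g : (ℤ × ℤ → ℝ) → ℝ} (hg : RskGrad T g) (m : ℝ)
    (hm : ∀ G ∈ rsxSets F A, rswE t (F \ G) a (fun ω => g (rswH (F \ G) ω)) ≤ m) :
    rswE t F b (fun ω => rsxInd (RswSep F a ω A (rswLayer F)) * g (rswH F ω)) ≤
      rswP t F b (fun ω => RswSep F a ω A (rswLayer F)) * m := by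
  rw [rsk_decomp_grad ht0 ht1 hA hextF a b hT hK hg, rsx_P_sep, Finset.sum_mul]
  exact Finset.sum_le_sum fun G hG => mul_le_mul_of_nonneg_left (hm G hG) (rsx_P_nonneg ht0 ht1 F b _)

end Claimed.Agent.R292
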