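import Claimed.Agent.R292.Rsw.Expl107
import Claimed.Agent.R292.Rsw.CutHt91
import Claimed.Agent.R292.Rsw.Base122
import Claimed.Agent.R292.Model.Dict21
import Claimed.Agent.R291.Mom.Rc

/-!
# Row 292 (S0540), Rsw/First164 : THE CHAIN OF OUTERMOST OPPOSITE `W` CIRCUITS AND THE COVARIANCE      (block R6 MOM, chief helper164; prefix `rsf164_`, defs `rsf164*`, `Rsf164*`)

The first domain of R291 (component off the `0` cluster, fair sign by reflection of the inside) does NOT port to bare six-vertex heights: a plaquette `(u,u';f,g)` with `u,u'` in the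
`0` cluster has weight `c` iff `K f = K g`, so the sign of a hole is coupled to its neighbours.  On the decorated model `(S, D, O)` it works, with the exploration of `Rsw/Expl107`:
state `(F, b)`, `U = rsxOut F (!b) ω`, next problem `(F \ U, !b)`.
* §1 deterministic: on `U` the face height is `sg b * d / 2`, so `|rswH F ω| ≤ 1` off the strict inside of `F \ U`; `|rswH F ω - rswH (F \ U) ω| ≤ 1` inside.
* §2 recolouring `D` on a sealed part `C`: `rswH F (rskFlip C ω) = rswH F ω - 2 * rswH C ω` on the corners of `C`, unchanged elsewhere.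
* §3 the covariance: `c (F, b) = E[Δ z Δ w] + ∑_G P (Out = G) [z, w inside] c (F \ G, !b)`, `|Δ| ≤ 1`; `c = 0` if an isolated part separates `z` from `w`.
* §4 the kernel `rsf164Ker t z w`, `rsf164_ker_ok`, `|c| ≤ 1 + momS`.
* §5 the hypotheses of the shell calculus of `R291/Mom/Rc` for this kernel: `rsf164_K_pot` (K-POT) is unconditional; `rsf164_K_obs` (K-OBS) is proved FROM its hypothesis `hobs`,
  the body of the record `Rsf164Obs t`.
END STATE (helper164, 23:58Z 15 Oct).  PROVED, with no hypothesis beyond `0 < t ≤ 1` and `At92hExt`: §1 to §4 and K-POT.  CONTRACT in this file: `Rsf164Obs t` (a `def : Prop`, not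
proved here; with probability `≥ κ` no circuit of good `!b` edges surrounds `rswBox z r`).  Its twin, word for word, `Rao225Obs t` is proved in `Rsw/ArmObs225` (`rao225_obs`) FROM the two
records `Arm101Circ t p n0` and `Rsa107Fkg t`; the covariance bound that uses this file is `Rsw/MomArm11` (`mar11_covE`).  For the state of those records see `Exit/RSWFront`.
No statement of the row follows from this file alone; there is no S-file for row 292.
-/

set_option autoImplicit false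

namespace Claimed.Agent.R292

open Claims Claims.C0468 Claimed.Agent.R291

/-! ## 1. The explored part -/

/-- the sign of a colour -/
def rsf164Sg (b : Bool) : ℤ := if b = true then 1 else -1

theorem rsf164_sg_iff (A : Finset (ℤ × ℤ)) (v : ℤ × ℤ) (b : Bool) : rskSg A v = rsf164Sg b ↔ (v ∈ A ↔ b = true) := by
  unfold rskSg rsf164Sg
  by_cases h : v ∈ A <;> cases b <;> simp [h]

theorem rsf164_sg_not (A : Finset (ℤ × ℤ)) (v : ℤ × ℤ) (b : Bool) : rskSg A v ≠ rsf164Sg b ↔ (v ∈ A ↔ (!b) = true) := by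
  unfold rskSg rsf164Sg
  by_cases h : v ∈ A <;> cases b <;> simp [h]

theorem rsf164_sg_neg (A : Finset (ℤ × ℤ)) (v : ℤ × ℤ) (b : Bool) (h : rskSg A v ≠ rsf164Sg b) : rskSg A v = - rsf164Sg b := by
  unfold rskSg rsf164Sg at *
  by_cases h' : v ∈ A <;> cases b <;> simp_all

theorem rsf164_sg_sq (A : Finset (ℤ × ℤ)) (v : ℤ × ℤ) : rskSg A v = 1 ∨ rskSg A v = -1 := by
  unfold rskSg
  split_ifs <;> simp

theorem rsf164_sgb_sq (b : Bool) : rsf164Sg b = 1 ∨ rsf164Sg b = -1 := by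
  unfold rsf164Sg
  split_ifs <;> simp

/-- the two endpoints of an edge are corners of its two faces -/
theorem rsf164_cor (e : (ℤ × ℤ) × Bool) :
    at92hCor e.1 e.1 ∧ at92hCor e.1 (rswEnd e) ∧ at92hCor (rswCo e) e.1 ∧ at92hCor (rswCo e) (rswEnd e) := by
  obtain ⟨⟨x, y⟩, c⟩ := e
  cases c <;> simp [at92hCor, rswEnd, rswCo]

theorem rsf164_wt {t : ℝ} {F : Finset (ℤ × ℤ)} {b : Bool} {ω : RswCfg} (h : rswWt t F b ω ≠ 0) :
    RswBc F b ω ∧ ∀ e ∈ rswInt F, rswFac t ω e ≠ 0 := by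
  classical
  unfold rswWt at h
  by_cases hb : RswBc F b ω
  · rw [if_pos hb] at h
    exact ⟨hb, fun e he h0 => h (Finset.prod_eq_zero he h0)⟩
  · rw [if_neg hb] at h
    exact absurd rfl h

theorem rsf164_closed_d {t : ℝ} {ω : RswCfg} {e : (ℤ × ℤ) × Bool} (h : rswFac t ω e ≠ 0) (ho : e ∉ ω.O) :
    (e.1 ∈ ω.D ↔ rswCo e ∈ ω.D) := by
  classical
  by_contra hd
  apply h
  unfold rswFac
  rw [if_neg ho, if_neg hd]

/-- **on the explored part the face height is `sg b * d / 2`** -/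
theorem rsf164_out_face {t : ℝ} {F : Finset (ℤ × ℤ)} {b : Bool} {ω : RswCfg} (hw : rswWt t F b ω ≠ 0)
    {Hv Hf : ℤ × ℤ → ℝ} (h : IsATHeight (rswTau F ω) (rswTauD F ω) Hv Hf) {g : ℤ × ℤ} (hg : g ∈ rsxOut F (!b) ω) :
    Hf g = (rsf164Sg b : ℝ) * (rskSg ω.D g : ℝ) / 2 := by
  obtain ⟨hbc, hfac⟩ := rsf164_wt hw
  rw [rsk_isHt_iff] at h
  obtain ⟨-, f, hf, hr⟩ := rsx_mem_out.1 hg
  clear hg
  induction hr with
  | refl =>
    obtain ⟨hfF, v, hv, hp⟩ := rsk_mem_layer.1 hf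
    have hcor : at92hCor f v := by
      simp only [Finset.mem_insert, Finset.mem_singleton] at hv
      rcases hv with rfl | rfl | rfl | rfl <;> simp [at92hCor]
    have hvc : v ∈ cornersOf F := at92h_mem_corners.2 ⟨f, hfF, hcor⟩
    have e1 := h.2 f hfF v hcor
    rw [h.1 v hvc hp, (rsf164_sg_iff ω.S v b).2 (hbc v hvc hp)] at e1
    linarith
  | tail _ hstep ih =>
    rename_i p q
    obtain ⟨hp, hq, e, hpq, hng⟩ := hstep
    obtain ⟨c1, c2, c3, c4⟩ := rsf164_cor e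
    have heint : e ∈ rswInt F := by
      rw [rsx_mem_int]
      rcases hpq with ⟨rfl, rfl⟩ | ⟨rfl, rfl⟩
      · exact ⟨hp, hq⟩
      · exact ⟨hq, hp⟩
    obtain ⟨he1, he2⟩ := rsx_mem_int.1 heint
    have a1 := h.2 _ he1 _ c1
    have a2 := h.2 _ he1 _ c2
    have a3 := h.2 _ he2 _ c3
    have a4 := h.2 _ he2 _ c4
    -- the key: the formula passes from one face of `e` to the other
    have key : (Hf e.1 = (rsf164Sg b : ℝ) * (rskSg ω.D e.1 : ℝ) / 2 ↔
        Hf (rswCo e) = (rsf164Sg b : ℝ) * (rskSg ω.D (rswCo e) : ℝ) / 2) := by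
      by_cases s1 : rskSg ω.S e.1 = rsf164Sg b
      · rw [s1] at a1 a3
        constructor <;> intro hh <;> linarith
      · by_cases s2 : rskSg ω.S (rswEnd e) = rsf164Sg b
        · rw [s2] at a2 a4
          constructor <;> intro hh <;> linarith
        · have ho : e ∉ ω.O := fun ho => hng ⟨ho, (rsf164_sg_not _ _ _).1 s1, (rsf164_sg_not _ _ _).1 s2⟩
          have hd := rsk_sg_eq (rsf164_closed_d (hfac e heint) ho)
          rw [hd] at a1 ⊢
          constructor <;> intro hh <;> linarith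
    rcases hpq with ⟨rfl, rfl⟩ | ⟨rfl, rfl⟩
    · exact key.1 ih
    · exact key.2 ih

/-- the unexplored part -/
noncomputable def rsf164D (F : Finset (ℤ × ℤ)) (b : Bool) (ω : RswCfg) : Finset (ℤ × ℤ) := F \ rsxOut F (!b) ω

theorem rsf164_D_sub (F : Finset (ℤ × ℤ)) (b : Bool) (ω : RswCfg) : rsf164D F b ω ⊆ F := Finset.sdiff_subset

theorem rsf164_D_cut (F : Finset (ℤ × ℤ)) (b : Bool) (ω : RswCfg) : RswCut (rsf164D F b ω) (!b) ω := by
  intro e he
  refine rsx_cross_good (F := F) ?_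
  rcases he with ⟨h1, h2⟩ | ⟨h1, h2⟩
  · exact Or.inl ⟨h1, h2⟩
  · exact Or.inr ⟨h2, h1⟩

theorem rsf164_D_ext {F : Finset (ℤ × ℤ)} (hext : At92hExt F) (b : Bool) (ω : RswCfg) : At92hExt (rsf164D F b ω) := by
  refine rsk_ext_of_reach hext (a := !b) (ω := ω) fun g => ?_
  rw [rsx_mem_out]
  constructor
  · exact fun h => h.2
  · rintro ⟨f, hf, hr⟩
    exact ⟨rsx_reach_mem (rsx_layer_sub F hf) hr, f, hf, hr⟩

/-- the height of the unexplored part exists -/
theorem rsf164_D_ht {t : ℝ} {F : Finset (ℤ × ℤ)} (hext : At92hExt F) {b : Bool} {ω : RswCfg} (hw : rswWt t F b ω ≠ 0) :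
    ∃ Hv Hf : ℤ × ℤ → ℝ, IsATHeight (rswTau (rsf164D F b ω) ω) (rswTauD (rsf164D F b ω) ω) Hv Hf :=
  rsk_ht_of_closed (rsf164_D_ext hext b ω) (rsk_bc_of_cut (rsf164_D_cut F b ω))
    (rsk_closed_mono (rsf164_D_sub F b ω) (rsk_closed_of_wt hw).2)

theorem rsf164_abs_le_one {a b c : ℤ} (ha : a = 1 ∨ a = -1) (hb : b = 1 ∨ b = -1) (hc : c = 1 ∨ c = -1) :
    |((a : ℝ) * (c : ℝ) / 2 - (b : ℝ) * (c : ℝ) / 2)| ≤ 1 := by
  rcases ha with rfl | rfl <;> rcases hb with rfl | rfl <;> rcases hc with rfl | rfl <;> norm_num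

/-- **off the strict inside of the unexplored part the height is `0` or `± 1`** -/
theorem rsf164_out_bound {t : ℝ} {F : Finset (ℤ × ℤ)} (hext : At92hExt F) {b : Bool} {ω : RswCfg} (hw : rswWt t F b ω ≠ 0)
    {x : ℤ × ℤ} (hx : x ∈ cornersOf F) (hx' : x ∉ rsxIn (rsf164D F b ω)) : |rswH F ω x| ≤ 1 := by
  obtain ⟨Hv, Hf, h⟩ := rsk_ht_of_wt hext hw
  have e0 : rswH F ω x = Hv x := at92h_eq h x hx
  rw [e0]
  obtain ⟨g, hg, hgx⟩ := at92h_exists_ext (rsx_in_iff.not_left.1 hx')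
  by_cases hgF : g ∈ F
  · have hgU : g ∈ rsxOut F (!b) ω := by
      by_contra hh
      exact hg (Finset.mem_sdiff.2 ⟨hgF, hh⟩)
    have e1 := rsf164_out_face hw h hgU
    have e2 := (rsk_isHt_iff.1 h).2 g hgF x hgx
    have e3 : Hv x = (rsf164Sg b : ℝ) * (rskSg ω.D g : ℝ) / 2 - (rskSg ω.S x : ℝ) * (rskSg ω.D g : ℝ) / 2 := by linarith
    rw [e3]
    exact rsf164_abs_le_one (rsf164_sgb_sq b) (rsf164_sg_sq _ _) (rsf164_sg_sq _ _)
  · rw [h.1 x hx (at92h_onPolygon hgF hgx)]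
    simp

theorem rsf164_cor_iff {f v : ℤ × ℤ} : v ∈ mdl21Cor f ↔ at92hCor f v := by
  rw [mdl21_mem_cor]
  obtain ⟨x, y⟩ := v
  obtain ⟨p, q⟩ := f
  simp only [at92hCor, Prod.mk.injEq]
  constructor
  · rintro (⟨rfl, rfl⟩ | ⟨rfl, rfl⟩ | ⟨rfl, rfl⟩ | ⟨rfl, rfl⟩) <;> simp
  · rintro ⟨rfl | rfl, rfl | rfl⟩ <;> simp

/-- the inner height, cut off -/
noncomputable def rsf164X (C : Finset (ℤ × ℤ)) (ω : RswCfg) (x : ℤ × ℤ) : ℝ :=
  if x ∈ cornersOf C then rswH C ω x else 0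

/-- **the level of the unexplored part is `0` or `± 1`** -/
theorem rsf164_delta_bound {t : ℝ} {F : Finset (ℤ × ℤ)} (hext : At92hExt F) {b : Bool} {ω : RswCfg} (hw : rswWt t F b ω ≠ 0)
    {x : ℤ × ℤ} (hx : x ∈ cornersOf F) : |rswH F ω x - rsf164X (rsf164D F b ω) ω x| ≤ 1 := by
  unfold rsf164X
  by_cases hxD : x ∈ cornersOf (rsf164D F b ω)
  · rw [if_pos hxD]
    have hsub := rsf164_D_sub F b ω
    have hextD := rsf164_D_ext hext b ω
    have hcut := rsf164_D_cut F b ω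
    refine (mdl21_induct (rsf164D F b ω) (fun f => |rswH F ω f - rswH (rsf164D F b ω) ω f| ≤ 1)
      (fun v => |rswH F ω v - rswH (rsf164D F b ω) ω v| ≤ 1) ?_ ?_ ?_).2 x hxD
    · intro v hv hp
      rw [rsk_H_rim hsub hextD hcut hw hv hp, sub_zero]
      exact rsf164_out_bound hext hw (rsx_corners_mono hsub hv) (rsx_in_iff.not_left.2 hp)
    · intro f hf v hv hq
      rw [rsk_H_face hsub hext hextD hcut hw hf (rsk_cor_self f) (rsf164_cor_iff.1 hv)]
      exact hq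
    · intro f hf v hv hq
      rw [rsk_H_face hsub hext hextD hcut hw hf (rsf164_cor_iff.1 hv) (rsk_cor_self f)]
      exact hq
  · rw [if_neg hxD, sub_zero]
    exact rsf164_out_bound hext hw hx (fun h => hxD (rsx_in_sub_corners _ h))

/-! ## 2. Recolouring `D` on a part `C` -/

theorem rsf164_flip_sg (A C : Finset (ℤ × ℤ)) (f : ℤ × ℤ) :
    rskSg (symmDiff A C) f = if f ∈ C then - rskSg A f else rskSg A f := by
  unfold rskSg
  by_cases h1 : f ∈ A <;> by_cases h2 : f ∈ C <;> simp [Finset.mem_symmDiff, h1, h2]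

theorem rsf164_poly_mono {C F : Finset (ℤ × ℤ)} (h : C ⊆ F) {v : ℤ × ℤ} (hp : OnPolygon F v) : OnPolygon C v :=
  fun hh => hp ⟨h hh.1, h hh.2.1, h hh.2.2.1, h hh.2.2.2⟩

/-- **the height after recolouring `D` on `C ⊆ F`**: `H_F - 2 H_C` on the corners of `C`, unchanged elsewhere -/
theorem rsf164_flip_H {F C : Finset (ℤ × ℤ)} (hC : C ⊆ F) {ω : RswCfg}
    (hF : ∃ Hv Hf : ℤ × ℤ → ℝ, IsATHeight (rswTau F ω) (rswTauD F ω) Hv Hf)
    (hCh : ∃ Hv Hf : ℤ × ℤ → ℝ, IsATHeight (rswTau C ω) (rswTauD C ω) Hv Hf)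
    {x : ℤ × ℤ} (hx : x ∈ cornersOf F) :
    rswH F (rskFlip C ω) x = rswH F ω x - 2 * rsf164X C ω x := by
  classical
  obtain ⟨Hv, Hf, h⟩ := hF
  obtain ⟨Hv', Hf', h'⟩ := hCh
  have e1 : rswH F ω x = Hv x := at92h_eq h x hx
  have e2 : ∀ v ∈ cornersOf C, rswH C ω v = Hv' v := at92h_eq h'
  have key : IsATHeight (rswTau F (rskFlip C ω)) (rswTauD F (rskFlip C ω))
      (fun v => Hv v - 2 * (if v ∈ cornersOf C then Hv' v else 0)) (fun f => Hf f - 2 * (if f ∈ C then Hf' f else 0)) := by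
    rw [rsk_isHt_iff] at h h' ⊢
    refine ⟨fun v hv hp => ?_, fun f hf v hv => ?_⟩
    · show Hv v - 2 * (if v ∈ cornersOf C then Hv' v else 0) = 0
      rw [h.1 v hv hp]
      by_cases hvC : v ∈ cornersOf C
      · rw [if_pos hvC, h'.1 v hvC (rsf164_poly_mono hC hp)]; ring
      · rw [if_neg hvC]; ring
    · have a1 := h.2 f hf v hv
      show Hf f - 2 * (if f ∈ C then Hf' f else 0) - (Hv v - 2 * (if v ∈ cornersOf C then Hv' v else 0))
        = ((rskSg ω.S v : ℝ) * (rskSg (symmDiff ω.D C) f : ℝ)) / 2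
      rw [rsf164_flip_sg]
      by_cases hfC : f ∈ C
      · have hvC : v ∈ cornersOf C := at92h_mem_corners.2 ⟨f, hfC, hv⟩
        have a2 := h'.2 f hfC v hv
        rw [if_pos hfC, if_pos hvC, if_pos hfC]
        push_cast
        linarith
      · rw [if_neg hfC, if_neg hfC]
        by_cases hvC : v ∈ cornersOf C
        · rw [if_pos hvC, h'.1 v hvC (at92h_onPolygon hfC hv)]
          linarith
        · rw [if_neg hvC]
          linarith
  have e3 : rswH F (rskFlip C ω) x = Hv x - 2 * (if x ∈ cornersOf C then Hv' x else 0) := at92h_eq key x hx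
  rw [e3, e1]
  unfold rsf164X
  by_cases hxC : x ∈ cornersOf C
  · rw [if_pos hxC, if_pos hxC, e2 x hxC]
  · rw [if_neg hxC, if_neg hxC]

/-! ## 3. The covariance -/

/-- the covariance of the flat problem `s = (F, b)` -/
noncomputable def rsf164C (t : ℝ) (z w : ℤ × ℤ) (s : Finset (ℤ × ℤ) × Bool) : ℝ :=
  rswE t s.1 s.2 (fun ω => rswH s.1 ω z * rswH s.1 ω w)

/-- the unexplored part reads `S` and `O` only -/
theorem rsf164_D_SO (F : Finset (ℤ × ℤ)) (b : Bool) (ω : RswCfg) : rsf164D F b ⟨ω.S, ∅, ω.O⟩ = rsf164D F b ω := by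
  unfold rsf164D
  rw [rsx_out_congr (ω := ω) (ω' := ⟨ω.S, ∅, ω.O⟩) (fun e _ => by rw [rsx_good_iff, rsx_good_iff])]

theorem rsf164_D_closed (F : Finset (ℤ × ℤ)) (b : Bool) (ω : RswCfg) : RskClosed F ω.O (rsf164D F b ω) := by
  intro e _ ho
  by_contra hne
  have hg : RswGood (!b) ω e := by
    refine rsf164_D_cut F b ω e ?_
    unfold RskBd
    tauto
  exact ho hg.1

theorem rsf164_core_eq (F' : Finset (ℤ × ℤ)) : rskCore F' = rsxIn F' := by
  ext v
  rw [rsk_core_iff, rsx_in_iff]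

theorem rsf164_outside_of_loc {F' : Finset (ℤ × ℤ)} {Y : RswCfg → ℝ} (h : RsxLocOut F' Y) : RskOutside F' Y := by
  intro ω
  refine h _ _ ?_ ?_ ?_
  · show (ω.S \ rskCore F') \ rsxIn F' = ω.S \ rsxIn F'
    rw [rsf164_core_eq, sdiff_idem]
  · show (ω.D \ F') \ F' = ω.D \ F'
    rw [sdiff_idem]
  · show (ω.O \ rswInt F') \ rswInt F' = ω.O \ rswInt F'
    rw [sdiff_idem]

theorem rsf164_D_eq_iff {F D : Finset (ℤ × ℤ)} (hD : D ⊆ F) (b : Bool) (ω : RswCfg) :
    rsf164D F b ω = D ↔ rsxOut F (!b) ω = F \ D := by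
  unfold rsf164D
  constructor
  · intro h
    rw [← h, Finset.sdiff_sdiff_eq_self (rsx_out_sub F (!b) ω)]
  · intro h
    rw [h, Finset.sdiff_sdiff_eq_self hD]

theorem rsf164_D_outside {F D : Finset (ℤ × ℤ)} (hD : D ⊆ F) (b : Bool) :
    RskOutside D (fun ω => rsxInd (rsf164D F b ω = D)) := by
  have h := rsf164_outside_of_loc (rsx_out_loc F (F \ D) (!b))
  rw [Finset.sdiff_sdiff_eq_self hD] at h
  intro ω
  have := h ω
  simp only [rsx_ind_congr (rsf164_D_eq_iff hD b _)]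
  exact this

/-- **domain Markov property at the unexplored part**, for functions of its own height -/
theorem rsf164_markov {t : ℝ} (ht0 : 0 < t) (ht1 : t ≤ 1) {F D : Finset (ℤ × ℤ)} (hD : D ⊆ F) (b : Bool) (g : (ℤ × ℤ → ℝ) → ℝ) :
    rswE t F b (fun ω => rsxInd (rsf164D F b ω = D) * g (rswH D ω)) =
      rswP t F b (fun ω => rsf164D F b ω = D) * rswE t D (!b) (fun ω => g (rswH D ω)) := by
  have h := rsk_cut ht0 ht1 hD (!b) b (rsk_inside_H D g) (rsf164_D_outside hD b)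
  have e1 : ∀ ω, rskInd D (!b) ω * rsxInd (rsf164D F b ω = D) = rsxInd (rsf164D F b ω = D) := by
    intro ω
    by_cases hh : rsf164D F b ω = D
    · have hc : RswCut D (!b) ω := by rw [← hh]; exact rsf164_D_cut F b ω
      unfold rskInd
      rw [if_pos hc, one_mul]
    · rw [rsx_ind_neg hh, mul_zero]
  have e2 : (fun ω => rskInd D (!b) ω * g (rswH D ω) * rsxInd (rsf164D F b ω = D))
      = fun ω => rsxInd (rsf164D F b ω = D) * g (rswH D ω) := by
    funext ω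
    rw [mul_right_comm, e1]
  have e3 : (fun ω => rskInd D (!b) ω * rsxInd (rsf164D F b ω = D)) = fun ω => rsxInd (rsf164D F b ω = D) := funext e1
  rw [e2, e3] at h
  rw [rsx_P_eq, rsx_E_eq, rsx_E_eq t F b (fun ω => rsxInd (rsf164D F b ω = D)), h]
  ring

theorem rsf164_P_ne {t : ℝ} {F : Finset (ℤ × ℤ)} {b : Bool} {L : RswCfg → Prop} (h : rswP t F b L ≠ 0) :
    ∃ ω, rswWt t F b ω ≠ 0 ∧ L ω := by
  by_contra hcon
  push Not at hcon
  apply h
  rw [rsx_P_eq, rsz_E_congr t F b (Y := fun _ => 0 * 1) (fun ω _ _ _ hw => by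
    rw [rsx_ind_neg (fun hL => hcon ω hw hL), zero_mul]), rsz_E_smul, zero_mul]

/-- on the polygon the height of a flat problem vanishes -/
theorem rsf164_H_poly {t : ℝ} {F : Finset (ℤ × ℤ)} (hext : At92hExt F) {b : Bool} {ω : RswCfg} (hw : rswWt t F b ω ≠ 0)
    {x : ℤ × ℤ} (hx : x ∈ cornersOf F) (hp : OnPolygon F x) : rswH F ω x = 0 := by
  obtain ⟨Hv, Hf, h⟩ := rsk_ht_of_wt hext hw
  have e0 : rswH F ω x = Hv x := at92h_eq h x hx
  rw [e0, h.1 x hx hp]

/-- the cut off height vanishes off the strict inside -/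
theorem rsf164_X_zero {t : ℝ} {F : Finset (ℤ × ℤ)} (hext : At92hExt F) {b : Bool} {ω : RswCfg} (hw : rswWt t F b ω ≠ 0)
    {x : ℤ × ℤ} (hx : x ∉ rsxIn F) : rsf164X F ω x = 0 := by
  unfold rsf164X
  by_cases hc : x ∈ cornersOf F
  · rw [if_pos hc, rsf164_H_poly hext hw hc (rsx_in_iff.not_left.1 hx)]
  · rw [if_neg hc]

theorem rsf164_ind_sum (F : Finset (ℤ × ℤ)) (b : Bool) (ω : RswCfg) (φ : Finset (ℤ × ℤ) → ℝ) :
    φ (rsf164D F b ω) = ∑ D ∈ F.powerset, rsxInd (rsf164D F b ω = D) * φ D := by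
  rw [Finset.sum_eq_single (rsf164D F b ω), rsx_ind_pos rfl, one_mul]
  · intro D _ hne
    rw [rsx_ind_neg (fun hh => hne hh.symm), zero_mul]
  · intro hh
    exact absurd (Finset.mem_powerset.2 (rsf164_D_sub F b ω)) hh

/-- **THE RECURSION FOR THE COVARIANCE** -/
theorem rsf164_cov_rec {t : ℝ} (ht0 : 0 < t) (ht1 : t ≤ 1) {F : Finset (ℤ × ℤ)} (hext : At92hExt F) (b : Bool) {z w : ℤ × ℤ}
    (hz : z ∈ cornersOf F) (hw : w ∈ cornersOf F) :
    |rsf164C t z w (F, b)| ≤ 1 + ∑ D ∈ F.powerset, rswP t F b (fun ω => rsf164D F b ω = D) *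
      (if z ∈ rsxIn D ∧ w ∈ rsxIn D then |rsf164C t z w (D, !b)| else 0) := by
  classical
  set Φ : RswCfg → ℝ := fun ω => rswH F ω z * rswH F ω w with hΦ
  set A : RswCfg → ℝ := fun ω => (rswH F ω z - rsf164X (rsf164D F b ω) ω z) * (rswH F ω w - rsf164X (rsf164D F b ω) ω w) with hA
  set B : RswCfg → ℝ := fun ω => rsf164X (rsf164D F b ω) ω z * rsf164X (rsf164D F b ω) ω w with hB
  have h1 : rswE t F b Φ = rswE t F b (fun ω => Φ (rskFlip (rsf164D F b ⟨ω.S, ∅, ω.O⟩) ω)) :=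
    rsk_flip_E t F b (fun S O => rsf164D F b ⟨S, ∅, O⟩) (fun S O => rsf164_D_sub F b _)
      (fun S O => rsf164_D_closed F b ⟨S, ∅, O⟩) Φ
  have h2 : rswE t F b (fun ω => Φ ω + Φ (rskFlip (rsf164D F b ⟨ω.S, ∅, ω.O⟩) ω)) = rswE t F b (fun ω => 2 * (A ω + B ω)) := by
    refine rsz_E_congr t F b fun ω _ _ _ hwt => ?_
    rw [rsf164_D_SO]
    have hF := rsk_ht_of_wt hext hwt
    have hD := rsf164_D_ht hext hwt
    simp only [hΦ, hA, hB]
    rw [rsf164_flip_H (rsf164_D_sub F b ω) hF hD hz, rsf164_flip_H (rsf164_D_sub F b ω) hF hD hw]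
    ring
  have h3 : rsf164C t z w (F, b) = rswE t F b A + rswE t F b B := by
    have : 2 * rswE t F b Φ = 2 * (rswE t F b A + rswE t F b B) := by
      have e1 := rsz_E_add t F b Φ (fun ω => Φ (rskFlip (rsf164D F b ⟨ω.S, ∅, ω.O⟩) ω))
      have e2 := rsz_E_smul t F b 2 (fun ω => A ω + B ω)
      have e3 := rsz_E_add t F b A B
      rw [h2, e2, e3, ← h1] at e1
      linarith
    show rswE t F b Φ = _
    linarith
  have h4 : |rswE t F b A| ≤ 1 := by
    refine (rsz_abs_E_le ht0.le ht1 F b A).trans ?_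
    rw [← rsz_E_const ht0 ht1 F b 1]
    refine rsz_E_mono' ht0.le ht1 F b fun ω _ _ _ hwt => ?_
    simp only [hA]
    rw [abs_mul]
    have a1 := rsf164_delta_bound hext hwt hz
    have a2 := rsf164_delta_bound hext hwt hw
    calc _ ≤ (1 : ℝ) * 1 := mul_le_mul a1 a2 (abs_nonneg _) zero_le_one
      _ = 1 := one_mul 1
  have h5 : rswE t F b B = ∑ D ∈ F.powerset, rswP t F b (fun ω => rsf164D F b ω = D) *
      rswE t D (!b) (fun ω => rsf164X D ω z * rsf164X D ω w) := by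
    have e : B = fun ω => ∑ D ∈ F.powerset, rsxInd (rsf164D F b ω = D) * (rsf164X D ω z * rsf164X D ω w) := by
      funext ω
      exact rsf164_ind_sum F b ω (fun D => rsf164X D ω z * rsf164X D ω w)
    rw [e, rsz_E_fsum]
    refine Finset.sum_congr rfl fun D hD => ?_
    exact rsf164_markov ht0 ht1 (Finset.mem_powerset.1 hD) b
      (fun h => (if z ∈ cornersOf D then h z else 0) * (if w ∈ cornersOf D then h w else 0))
  rw [h3, h5]
  refine (abs_add_le _ _).trans (add_le_add h4 ((Finset.abs_sum_le_sum_abs _ _).trans (Finset.sum_le_sum fun D hD => ?_)))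
  rw [abs_mul, abs_of_nonneg (rsz_P_nonneg ht0.le ht1 F b _)]
  by_cases hP : rswP t F b (fun ω => rsf164D F b ω = D) = 0
  · rw [hP, zero_mul, zero_mul]
  · refine mul_le_mul_of_nonneg_left ?_ (rsz_P_nonneg ht0.le ht1 F b _)
    obtain ⟨ω0, hw0, hD0⟩ := rsf164_P_ne hP
    have hextD : At92hExt D := by rw [← hD0]; exact rsf164_D_ext hext b ω0
    by_cases hin : z ∈ rsxIn D ∧ w ∈ rsxIn D
    · rw [if_pos hin]
      apply le_of_eq
      congr 1
      unfold rsf164C rsf164X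
      simp only [if_pos (rsx_in_sub_corners D hin.1), if_pos (rsx_in_sub_corners D hin.2)]
    · rw [if_neg hin]
      apply le_of_eq
      rw [abs_eq_zero, rsz_E_congr t D (!b) (Y := fun _ => 0 * 1) (fun ω _ _ _ hwt => ?_), rsz_E_smul, zero_mul]
      by_cases hz' : z ∈ rsxIn D
      · have hw' : w ∉ rsxIn D := fun h => hin ⟨hz', h⟩
        rw [rsf164_X_zero hextD hwt hw']; ring
      · rw [rsf164_X_zero hextD hwt hz']; ring

/-! ### isolated parts -/

/-- the polygon of an isolated part lies on the polygon of `F` -/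
theorem rsf164_isol_poly {F C : Finset (ℤ × ℤ)} (hi : RsxIsol F C) {v : ℤ × ℤ} (hv : v ∈ cornersOf C)
    (hp : OnPolygon C v) : OnPolygon F v := by
  by_contra hin
  have hvin : v ∈ rsxIn F := rsx_in_iff.2 hin
  obtain ⟨e, he, hev⟩ := rsx_vertex_cross hv hp
  have hint : e ∈ rswInt F := by
    rcases hev with hev | hev
    · exact rsx_mem_int.2 (rsx_in_faces1 (by rw [hev]; exact hvin))
    · exact rsx_mem_int.2 (rsx_in_faces2 (by rw [hev]; exact hvin))
  have := hi e hint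
  tauto

/-- the height of `F` is a height of every isolated part -/
theorem rsf164_isol_ht {F C : Finset (ℤ × ℤ)} (hC : C ⊆ F) (hi : RsxIsol F C) {ω : RswCfg} {Hv Hf : ℤ × ℤ → ℝ}
    (h : IsATHeight (rswTau F ω) (rswTauD F ω) Hv Hf) : IsATHeight (rswTau C ω) (rswTauD C ω) Hv Hf := by
  rw [rsk_isHt_iff] at h ⊢
  exact ⟨fun v hv hp => h.1 v (rsx_corners_mono hC hv) (rsf164_isol_poly hi hv hp), fun f hf v hv => h.2 f (hC hf) v hv⟩

/-- **the covariance vanishes if an isolated part separates `z` from `w`** -/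
theorem rsf164_cov_zero {t : ℝ} {F C : Finset (ℤ × ℤ)} (hext : At92hExt F) (b : Bool) (hC : C ⊆ F) (hi : RsxIsol F C) {z w : ℤ × ℤ}
    (hz : z ∈ cornersOf C) (hw : w ∈ cornersOf F) (hw' : w ∉ cornersOf C) : rsf164C t z w (F, b) = 0 := by
  have h1 : rswE t F b (fun ω => rswH F ω z * rswH F ω w) = rswE t F b (fun ω => rswH F (rskFlip C ω) z * rswH F (rskFlip C ω) w) :=
    rsk_flip_E t F b (fun _ _ => C) (fun _ _ => hC) (fun _ O e he _ => hi e he) (fun ω => rswH F ω z * rswH F ω w)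
  have h2 : rswE t F b (fun ω => rswH F (rskFlip C ω) z * rswH F (rskFlip C ω) w)
      = rswE t F b (fun ω => (-1) * (rswH F ω z * rswH F ω w)) := by
    refine rsz_E_congr t F b fun ω _ _ _ hwt => ?_
    obtain ⟨Hv, Hf, h⟩ := rsk_ht_of_wt hext hwt
    have hCh := rsf164_isol_ht hC hi h
    rw [rsf164_flip_H hC ⟨Hv, Hf, h⟩ ⟨Hv, Hf, hCh⟩ (rsx_corners_mono hC hz), rsf164_flip_H hC ⟨Hv, Hf, h⟩ ⟨Hv, Hf, hCh⟩ hw]
    unfold rsf164X
    rw [if_pos hz, if_neg hw']
    have e1 : rswH C ω z = Hv z := at92h_eq hCh z hz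
    have e2 : rswH F ω z = Hv z := at92h_eq h z (rsx_corners_mono hC hz)
    rw [e1, e2]
    ring
  rw [h2, rsz_E_smul] at h1
  show rswE t F b (fun ω => rswH F ω z * rswH F ω w) = 0
  linarith

/-- no isolated part separates `z` from `w` -/
def Rsf164Conn (F : Finset (ℤ × ℤ)) (z w : ℤ × ℤ) : Prop :=
  ∀ C : Finset (ℤ × ℤ), C ⊆ F → RsxIsol F C → z ∈ cornersOf C → w ∈ cornersOf C

/-! ## 4. The kernel -/

/-- distance (sup norm, faces) from `z` to the complement of `D` -/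
noncomputable def rsf164Rad (z : ℤ × ℤ) (D : Finset (ℤ × ℤ)) : ℕ := sInf {n | ¬ rswBox z n ⊆ D}

theorem rsf164_mem_box {z u : ℤ × ℤ} {n : ℕ} :
    u ∈ rswBox z n ↔ z.1 - n ≤ u.1 ∧ u.1 < z.1 + n ∧ z.2 - n ≤ u.2 ∧ u.2 < z.2 + n := by
  unfold rswBox
  rw [Finset.mem_product, Finset.mem_Ico, Finset.mem_Ico]
  tauto

theorem rsf164_box_mono (z : ℤ × ℤ) {m n : ℕ} (h : m ≤ n) : rswBox z m ⊆ rswBox z n := by
  intro u hu
  rw [rsf164_mem_box] at hu ⊢
  omega

/-- no finite set contains all the boxes -/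
theorem rsf164_box_esc (z : ℤ × ℤ) (D : Finset (ℤ × ℤ)) : ∃ n : ℕ, ¬ rswBox z n ⊆ D := by
  by_contra hcon
  push Not at hcon
  have hinj : Function.Injective (fun n : ℕ => ((z.1 + n, z.2) : ℤ × ℤ)) := by
    intro a b hab
    have := congrArg Prod.fst hab
    simpa using this
  have hsub : Set.range (fun n : ℕ => ((z.1 + n, z.2) : ℤ × ℤ)) ⊆ (D : Set (ℤ × ℤ)) := by
    rintro _ ⟨n, rfl⟩
    refine hcon (n + 1) ?_
    rw [rsf164_mem_box]
    push_cast
    refine ⟨by linarith, by linarith, by linarith, by linarith⟩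
  exact Set.infinite_range_of_injective hinj (D.finite_toSet.subset hsub)

theorem rsf164_rad_le {z : ℤ × ℤ} {D : Finset (ℤ × ℤ)} {n : ℕ} : rsf164Rad z D ≤ n ↔ ¬ rswBox z n ⊆ D := by
  constructor
  · intro h hsub
    have hm : rsf164Rad z D ∈ {n | ¬ rswBox z n ⊆ D} := Nat.sInf_mem (rsf164_box_esc z D)
    exact hm ((rsf164_box_mono z h).trans hsub)
  · intro h
    exact Nat.sInf_le h

theorem rsf164_lt_rad {z : ℤ × ℤ} {D : Finset (ℤ × ℤ)} {n : ℕ} : n + 1 ≤ rsf164Rad z D ↔ rswBox z n ⊆ D := by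
  rw [Nat.succ_le_iff, ← not_le, rsf164_rad_le, not_not]

theorem rsf164_rad_mono (z : ℤ × ℤ) {D F : Finset (ℤ × ℤ)} (h : D ⊆ F) : rsf164Rad z D ≤ rsf164Rad z F := by
  rw [rsf164_rad_le]
  intro h1
  exact (rsf164_rad_le.1 le_rfl) (h1.trans h)

theorem rsf164_in_iff_box {z : ℤ × ℤ} {D : Finset (ℤ × ℤ)} : z ∈ rsxIn D ↔ rswBox z 1 ⊆ D := by
  rw [rsx_mem_in]
  constructor
  · rintro ⟨h1, h2, h3, h4⟩ ⟨x, y⟩ hu
    rw [rsf164_mem_box] at hu
    obtain ⟨a, c⟩ := z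
    simp only [Nat.cast_one] at hu h1 h2 h3 h4
    have hx : x = a ∨ x = a - 1 := by omega
    have hy : y = c ∨ y = c - 1 := by omega
    rcases hx with rfl | rfl <;> rcases hy with rfl | rfl <;> assumption
  · intro h
    refine ⟨h ?_, h ?_, h ?_, h ?_⟩ <;> rw [rsf164_mem_box] <;> simp

/-- a nonempty finite set of faces has a layer -/
theorem rsf164_layer_nonempty {F : Finset (ℤ × ℤ)} (hF : F.Nonempty) : (rswLayer F).Nonempty := by
  obtain ⟨f, hf, hmax⟩ := F.exists_max_image (fun u : ℤ × ℤ => u.1) hF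
  refine ⟨f, rsx_mem_layer.2 ⟨hf, (f.1 + 1, f.2), by simp, fun hh => ?_⟩⟩
  have := hmax _ hh.1
  simp at this

theorem rsf164_D_ssub {F : Finset (ℤ × ℤ)} (hF : F.Nonempty) (b : Bool) (ω : RswCfg) : (rsf164D F b ω).card < F.card := by
  obtain ⟨f, hf⟩ := rsf164_layer_nonempty hF
  refine Finset.card_lt_card ⟨rsf164_D_sub F b ω, fun hc => ?_⟩
  exact (Finset.mem_sdiff.1 (hc (rsx_layer_sub F hf))).2 (rsx_layer_sub_out F (!b) ω hf)

/-- probability that the unexplored part of `s` is `s'` -/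
noncomputable def rsf164P (t : ℝ) (s s' : Finset (ℤ × ℤ) × Bool) : ℝ := rswP t s.1 s.2 (fun ω => rsf164D s.1 s.2 ω = s'.1)

open Classical in
/-- **the kernel of the chain** `(F, b) ↦ (F \ rsxOut F (!b) ω, !b)`, marked vertex `z` -/
noncomputable def rsf164Ker (t : ℝ) (z : ℤ × ℤ) : MomKer (Finset (ℤ × ℤ) × Bool) where
  ch := fun s => (s.1.powerset.filter (fun D => rsf164P t s (D, !s.2) ≠ 0 ∧ z ∈ rsxIn D)).image (fun D => (D, !s.2))
  p := rsf164P t
  nx := id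
  sz := fun s => s.1.card
  rad := fun s => rsf164Rad z s.1
  good := fun s => At92hExt s.1

theorem rsf164_mem_ch {t : ℝ} {z : ℤ × ℤ} {s s' : Finset (ℤ × ℤ) × Bool} :
    s' ∈ (rsf164Ker t z).ch s ↔ s'.1 ⊆ s.1 ∧ s'.2 = !s.2 ∧ rsf164P t s s' ≠ 0 ∧ z ∈ rsxIn s'.1 := by
  classical
  obtain ⟨D, a⟩ := s'
  simp only [rsf164Ker, Finset.mem_image, Finset.mem_filter, Finset.mem_powerset, Prod.mk.injEq]
  constructor
  · rintro ⟨D', ⟨h1, h2, h3⟩, rfl, rfl⟩
    exact ⟨h1, rfl, h2, h3⟩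
  · rintro ⟨h1, rfl, h2, h3⟩
    exact ⟨D, ⟨h1, h2, h3⟩, rfl, rfl⟩

/-- sums over the kernel = sums over all subsets -/
theorem rsf164_ker_sum (t : ℝ) (z : ℤ × ℤ) (s : Finset (ℤ × ℤ) × Bool) (φ : Finset (ℤ × ℤ) × Bool → ℝ) :
    ∑ s' ∈ (rsf164Ker t z).ch s, (rsf164Ker t z).p s s' * φ s' =
      ∑ D ∈ s.1.powerset, rsf164P t s (D, !s.2) * (if z ∈ rsxIn D then φ (D, !s.2) else 0) := by
  classical
  show ∑ s' ∈ (s.1.powerset.filter (fun D => rsf164P t s (D, !s.2) ≠ 0 ∧ z ∈ rsxIn D)).image (fun D => (D, !s.2)),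
    rsf164P t s s' * φ s' = _
  rw [Finset.sum_image (fun a _ b _ h => (Prod.mk.inj h).1), Finset.sum_filter]
  refine Finset.sum_congr rfl fun D _ => ?_
  by_cases h1 : rsf164P t s (D, !s.2) = 0
  · simp [h1]
  · by_cases h2 : z ∈ rsxIn D
    · simp [h1, h2]
    · simp [h2]

theorem rsf164_P_nonneg {t : ℝ} (ht0 : 0 < t) (ht1 : t ≤ 1) (s s' : Finset (ℤ × ℤ) × Bool) : 0 ≤ rsf164P t s s' :=
  rsz_P_nonneg ht0.le ht1 _ _ _

/-- the unexplored parts are disjoint events -/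
theorem rsf164_P_sum {t : ℝ} (ht0 : 0 < t) (ht1 : t ≤ 1) (s : Finset (ℤ × ℤ) × Bool) :
    ∑ D ∈ s.1.powerset, rsf164P t s (D, !s.2) = 1 := by
  unfold rsf164P
  simp only [rsx_P_eq]
  rw [← rsz_E_fsum]
  have e : (fun ω => ∑ D ∈ s.1.powerset, rsxInd (rsf164D s.1 s.2 ω = D)) = fun _ => (1 : ℝ) := by
    funext ω
    have := rsf164_ind_sum s.1 s.2 ω (fun _ => 1)
    simp only [mul_one] at this
    exact this.symm
  rw [e, rsz_E_const ht0 ht1]

theorem rsf164_ker_ok {t : ℝ} (ht0 : 0 < t) (ht1 : t ≤ 1) (z : ℤ × ℤ) : (rsf164Ker t z).Ok where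
  p_nn := fun s s' => rsf164_P_nonneg ht0 ht1 s s'
  p_sum := fun s => by
    have h := rsf164_ker_sum t z s (fun _ => 1)
    simp only [mul_one] at h
    rw [h]
    refine le_of_le_of_eq ?_ (rsf164_P_sum ht0 ht1 s)
    refine Finset.sum_le_sum fun D _ => ?_
    have := rsf164_P_nonneg ht0 ht1 s (D, !s.2)
    split_ifs
    · rw [mul_one]
    · rw [mul_zero]; exact this
  sz_lt := fun s s' hs' => by
    obtain ⟨h1, _, h3, h4⟩ := rsf164_mem_ch.1 hs'
    obtain ⟨ω, _, hD⟩ := rsf164_P_ne h3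
    have hne : s.1.Nonempty := ⟨z, h1 (rsx_mem_in.1 h4).1⟩
    show s'.1.card < s.1.card
    rw [← hD]
    exact rsf164_D_ssub hne s.2 ω
  rad_ch := fun s s' hs' => rsf164_rad_mono z (rsf164_mem_ch.1 hs').1
  rad_nx := fun _ => le_rfl
  good_nx := fun s hs s' hs' => by
    obtain ⟨_, _, h3, _⟩ := rsf164_mem_ch.1 hs'
    obtain ⟨ω, _, hD⟩ := rsf164_P_ne h3
    show At92hExt s'.1
    rw [← hD]
    exact rsf164_D_ext hs s.2 ω

/-- what the chain counts: `w` strictly inside, not separated from `z` -/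
def Rsf164Chi (z w : ℤ × ℤ) (s : Finset (ℤ × ℤ) × Bool) : Prop := w ∈ rsxIn s.1 ∧ Rsf164Conn s.1 z w

open Classical in
/-- the positive part of `|c| - 1` -/
noncomputable def rsf164Cp (t : ℝ) (z w : ℤ × ℤ) (s : Finset (ℤ × ℤ) × Bool) : ℝ :=
  if z ∈ rsxIn s.1 ∧ w ∈ rsxIn s.1 then max (|rsf164C t z w s| - 1) 0 else 0

theorem rsf164_Cp_nonneg (t : ℝ) (z w : ℤ × ℤ) (s : Finset (ℤ × ℤ) × Bool) : 0 ≤ rsf164Cp t z w s := by
  unfold rsf164Cp
  split_ifs
  · exact le_max_right _ _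
  · exact le_rfl

open Classical in
/-- `|c| - 1` is a sub-solution of the recursion of the chain -/
theorem rsf164_Cp_sub {t : ℝ} (ht0 : 0 < t) (ht1 : t ≤ 1) (z w : ℤ × ℤ) (s : Finset (ℤ × ℤ) × Bool) (hs : At92hExt s.1) :
    rsf164Cp t z w s ≤ ∑ s' ∈ (rsf164Ker t z).ch s, (rsf164Ker t z).p s s' *
      ((if Rsf164Chi z w s' then 1 else 0) + rsf164Cp t z w ((rsf164Ker t z).nx s')) := by
  show rsf164Cp t z w s ≤ ∑ s' ∈ (rsf164Ker t z).ch s, (rsf164Ker t z).p s s' *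
      ((if Rsf164Chi z w s' then 1 else 0) + rsf164Cp t z w s')
  rw [rsf164_ker_sum t z s (fun s' => (if Rsf164Chi z w s' then 1 else 0) + rsf164Cp t z w s')]
  have hχ : ∀ s' : Finset (ℤ × ℤ) × Bool, (0 : ℝ) ≤ (if Rsf164Chi z w s' then 1 else 0) + rsf164Cp t z w s' := by
    intro s'
    have := rsf164_Cp_nonneg t z w s'
    split_ifs <;> linarith
  have hnn : ∀ D : Finset (ℤ × ℤ), 0 ≤ rsf164P t s (D, !s.2) *
      (if z ∈ rsxIn D then (if Rsf164Chi z w (D, !s.2) then 1 else 0) + rsf164Cp t z w (D, !s.2) else 0) := by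
    intro D
    refine mul_nonneg (rsf164_P_nonneg ht0 ht1 _ _) ?_
    by_cases h1 : z ∈ rsxIn D
    · rw [if_pos h1]; exact hχ _
    · rw [if_neg h1]
  by_cases hin : z ∈ rsxIn s.1 ∧ w ∈ rsxIn s.1
  · have hrec := rsf164_cov_rec ht0 ht1 hs s.2 (rsx_in_sub_corners _ hin.1) (rsx_in_sub_corners _ hin.2)
    have e0 : rsf164Cp t z w s = max (|rsf164C t z w s| - 1) 0 := by
      unfold rsf164Cp
      rw [if_pos hin]
    rw [e0]
    refine max_le ?_ (Finset.sum_nonneg fun D _ => hnn D)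
    have e : (s.1, s.2) = s := rfl
    rw [e] at hrec
    refine (sub_le_iff_le_add'.2 hrec).trans (Finset.sum_le_sum fun D _ => ?_)
    show rsf164P t s (D, !s.2) * _ ≤ _
    by_cases hP : rsf164P t s (D, !s.2) = 0
    · rw [hP, zero_mul, zero_mul]
    · refine mul_le_mul_of_nonneg_left ?_ (rsf164_P_nonneg ht0 ht1 _ _)
      obtain ⟨ω0, _, hD0⟩ := rsf164_P_ne hP
      have hextD : At92hExt D := by
        have : rsf164D s.1 s.2 ω0 = D := hD0
        rw [← this]; exact rsf164_D_ext hs s.2 ω0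
      by_cases hD : z ∈ rsxIn D ∧ w ∈ rsxIn D
      · rw [if_pos hD, if_pos hD.1]
        have hcp : rsf164Cp t z w (D, !s.2) = max (|rsf164C t z w (D, !s.2)| - 1) 0 := by
          unfold rsf164Cp
          rw [if_pos hD]
        rw [hcp]
        by_cases hc : Rsf164Conn D z w
        · rw [if_pos (show Rsf164Chi z w (D, !s.2) from ⟨hD.2, hc⟩)]
          have := le_max_left (|rsf164C t z w (D, !s.2)| - 1) 0
          linarith
        · unfold Rsf164Conn at hc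
          push Not at hc
          obtain ⟨C, hC, hi, hzC, hwC⟩ := hc
          rw [rsf164_cov_zero hextD (!s.2) hC hi hzC (rsx_in_sub_corners _ hD.2) hwC, abs_zero]
          have := le_max_right ((0 : ℝ) - 1) 0
          split_ifs <;> linarith
      · rw [if_neg hD]
        by_cases h1 : z ∈ rsxIn D
        · rw [if_pos h1]; exact hχ _
        · rw [if_neg h1]
  · have e0 : rsf164Cp t z w s = 0 := by
      unfold rsf164Cp
      rw [if_neg hin]
    rw [e0]
    exact Finset.sum_nonneg fun D _ => hnn D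

open Classical in
/-- **THE COVARIANCE IS BOUNDED BY THE EXPECTED NUMBER OF COMMON DOMAINS OF THE CHAIN** -/
theorem rsf164_cov_le {t : ℝ} (ht0 : 0 < t) (ht1 : t ≤ 1) (z w : ℤ × ℤ) (n : ℕ) (s : Finset (ℤ × ℤ) × Bool) (hs : At92hExt s.1)
    (hz : z ∈ rsxIn s.1) (hw : w ∈ rsxIn s.1) (hn : s.1.card ≤ n) :
    |rsf164C t z w s| ≤ 1 + momS (rsf164Ker t z) (fun s' => if Rsf164Chi z w s' then 1 else 0) n s := by
  have h := mom_rc_sub (rsf164_ker_ok ht0 ht1 z) (χ := fun s' => if Rsf164Chi z w s' then (1 : ℝ) else 0) (c := rsf164Cp t z w)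
    (fun s hs => rsf164_Cp_sub ht0 ht1 z w s hs) n s hs hn
  have h2 : |rsf164C t z w s| - 1 ≤ rsf164Cp t z w s := by
    unfold rsf164Cp
    rw [if_pos ⟨hz, hw⟩]
    exact le_max_left _ _
  linarith

/-! ## 5. The hypotheses of the shell calculus for the kernel -/

open Classical in
/-- the law of the unexplored part -/
theorem rsf164_P_pred (t : ℝ) (s : Finset (ℤ × ℤ) × Bool) (π : Finset (ℤ × ℤ) → Prop) :
    ∑ D ∈ s.1.powerset, rsf164P t s (D, !s.2) * (if π D then 1 else 0) = rswP t s.1 s.2 (fun ω => π (rsf164D s.1 s.2 ω)) := by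
  unfold rsf164P
  simp only [rsx_P_eq]
  simp only [← rsz_E_smul, mul_comm]
  rw [← rsz_E_fsum]
  refine congrArg _ (funext fun ω => ?_)
  have := rsf164_ind_sum s.1 s.2 ω (fun D => if π D then (1 : ℝ) else 0)
  rw [Finset.sum_congr rfl (fun i _ => mul_comm _ _), ← this]
  unfold rsxInd
  congr

/-- RECORD (unit RSW, pen 225): with probability `≥ κ` no circuit of good `!b` edges surrounds `rswBox z r` when the `b` wired polygon of `F` is within `6 r` of `z` -/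
def Rsf164Obs (t : ℝ) : Prop :=
  ∃ (κ : ℝ) (r0 : ℕ), 0 < κ ∧ ∀ (F : Finset (ℤ × ℤ)) (b : Bool) (z : ℤ × ℤ) (r : ℕ), At92hExt F → r0 ≤ r → ¬ rswBox z (6 * r) ⊆ F →
    rswP t F b (fun ω => rswBox z r ⊆ F ∧ RswSep F (!b) ω (rswBox z r) (rswLayer F)) ≤ 1 - κ

theorem rsf164_box_sub_D {F : Finset (ℤ × ℤ)} {b : Bool} {ω : RswCfg} {z : ℤ × ℤ} {r : ℕ} :
    rswBox z r ⊆ rsf164D F b ω ↔ rswBox z r ⊆ F ∧ RswSep F (!b) ω (rswBox z r) (rswLayer F) := by
  rw [rsx_sep_iff, Finset.disjoint_left]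
  unfold rsf164D
  constructor
  · intro h
    exact ⟨fun f hf => (Finset.mem_sdiff.1 (h hf)).1, fun f hf => (Finset.mem_sdiff.1 (h hf)).2⟩
  · rintro ⟨h1, h2⟩ f hf
    exact Finset.mem_sdiff.2 ⟨h1 hf, h2 hf⟩

/-- **(K-OBS)** one more domain of radius `> r` has probability `≤ 1 - κ` from a problem of radius `≤ 6 r` -/
theorem rsf164_K_obs {t : ℝ} (ht0 : 0 < t) (ht1 : t ≤ 1) {κ : ℝ} {r0 : ℕ}
    (hobs : ∀ (F : Finset (ℤ × ℤ)) (b : Bool) (z : ℤ × ℤ) (r : ℕ), At92hExt F → r0 ≤ r → ¬ rswBox z (6 * r) ⊆ F →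
      rswP t F b (fun ω => rswBox z r ⊆ F ∧ RswSep F (!b) ω (rswBox z r) (rswLayer F)) ≤ 1 - κ)
    (z : ℤ × ℤ) (s : Finset (ℤ × ℤ) × Bool) (r : ℕ) (hs : (rsf164Ker t z).good s) (hr : r0 ≤ r) (hrad : (rsf164Ker t z).rad s ≤ 6 * r) :
    momQ (rsf164Ker t z) (r + 1) 1 s ≤ 1 - κ := by
  classical
  rw [mom_rc_Q_succ]
  simp only [mom_rc_Q_zero]
  rw [rsf164_ker_sum t z s (fun s' => if r + 1 ≤ (rsf164Ker t z).rad s' then 1 else 0)]
  refine le_trans ?_ (hobs s.1 s.2 z r hs hr (rsf164_rad_le.1 hrad))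
  have hev : (fun ω => rswBox z r ⊆ s.1 ∧ RswSep s.1 (!s.2) ω (rswBox z r) (rswLayer s.1)) = fun ω => rswBox z r ⊆ rsf164D s.1 s.2 ω :=
    funext fun ω => propext rsf164_box_sub_D.symm
  rw [hev, ← rsf164_P_pred t s (fun D => rswBox z r ⊆ D)]
  refine Finset.sum_le_sum fun D _ => mul_le_mul_of_nonneg_left ?_ (rsf164_P_nonneg ht0 ht1 _ _)
  by_cases h1 : z ∈ rsxIn D
  · rw [if_pos h1]
    have e : (r + 1 ≤ (rsf164Ker t z).rad (D, !s.2)) ↔ rswBox z r ⊆ D := rsf164_lt_rad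
    by_cases h2 : rswBox z r ⊆ D
    · rw [if_pos (e.2 h2), if_pos h2]
    · rw [if_neg (fun h => h2 (e.1 h)), if_neg h2]
  · rw [if_neg h1]
    split_ifs <;> norm_num

/-- between a face of `F` and a face off `F` in a box there is a face of the layer of `F` in the box -/
theorem rsf164_layer_in_box {F : Finset (ℤ × ℤ)} {z f : ℤ × ℤ} {r : ℕ} (hz : z ∈ F) (hzb : z ∈ rswBox z r) (hf : f ∈ rswBox z r) (hfF : f ∉ F) :
    ∃ g ∈ rswBox z r, g ∈ rswLayer F := by
  classical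
  obtain ⟨f0, hf0, hmin⟩ := ((rswBox z r).filter (fun f => f ∉ F)).exists_min_image
    (fun f => (f.1 - z.1).natAbs + (f.2 - z.2).natAbs) ⟨f, Finset.mem_filter.2 ⟨hf, hfF⟩⟩
  obtain ⟨hb0, hF0⟩ := Finset.mem_filter.1 hf0
  rw [rsf164_mem_box] at hb0
  have hne : f0 ≠ z := fun h => hF0 (h ▸ hz)
  -- a neighbour of `f0` closer to `z`
  have key : ∀ g : ℤ × ℤ, g ∈ rswBox z r → (g.1 - z.1).natAbs + (g.2 - z.2).natAbs < (f0.1 - z.1).natAbs + (f0.2 - z.2).natAbs → g ∈ F := by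
    intro g hg hlt
    by_contra hgF
    have := hmin g (Finset.mem_filter.2 ⟨hg, hgF⟩)
    omega
  obtain ⟨x, y⟩ := f0
  obtain ⟨a, c⟩ := z
  simp only at hb0 key
  have hne' : x ≠ a ∨ y ≠ c := by
    by_contra hh
    push Not at hh
    exact hne (by rw [hh.1, hh.2])
  rcases lt_trichotomy x a with hx | hx | hx
  · have hg : ((x + 1, y) : ℤ × ℤ) ∈ F := key _ (by rw [rsf164_mem_box]; simp only; omega) (by simp only; omega)
    exact ⟨(x + 1, y), by rw [rsf164_mem_box]; simp only; omega,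
      (rsx_layer_of_edge (F := F) (e := ((x + 1, y), true))).1 hg (by rw [rsx_co_true]; simpa using hF0)⟩
  · rcases lt_trichotomy y c with hy | hy | hy
    · have hg : ((x, y + 1) : ℤ × ℤ) ∈ F := key _ (by rw [rsf164_mem_box]; simp only; omega) (by simp only; omega)
      exact ⟨(x, y + 1), by rw [rsf164_mem_box]; simp only; omega,
        (rsx_layer_of_edge (F := F) (e := ((x, y + 1), false))).1 hg (by rw [rsx_co_false]; simpa using hF0)⟩
    · exact absurd hy (by rcases hne' with h | h; exact absurd hx h; exact h)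
    · have hg : ((x, y - 1) : ℤ × ℤ) ∈ F := key _ (by rw [rsf164_mem_box]; simp only; omega) (by simp only; omega)
      exact ⟨(x, y - 1), by rw [rsf164_mem_box]; simp only; omega,
        (rsx_layer_of_edge (F := F) (e := ((x, y), false))).2 (by rw [rsx_co_false]; exact hg) hF0⟩
  · have hg : ((x - 1, y) : ℤ × ℤ) ∈ F := key _ (by rw [rsf164_mem_box]; simp only; omega) (by simp only; omega)
    exact ⟨(x - 1, y), by rw [rsf164_mem_box]; simp only; omega,
      (rsx_layer_of_edge (F := F) (e := ((x, y), true))).2 (by rw [rsx_co_true]; exact hg) hF0⟩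

/-- the potential of the small scales: number of faces of the problem in `rswBox z R` -/
noncomputable def rsf164Pot (z : ℤ × ℤ) (R : ℕ) (s : Finset (ℤ × ℤ) × Bool) : ℕ := (s.1 ∩ rswBox z R).card

theorem rsf164_pot_le (z : ℤ × ℤ) (R : ℕ) (s : Finset (ℤ × ℤ) × Bool) : rsf164Pot z R s ≤ (2 * R) ^ 2 := by
  unfold rsf164Pot
  refine (Finset.card_le_card Finset.inter_subset_right).trans ?_
  unfold rswBox
  rw [Finset.card_product, Int.card_Ico, Int.card_Ico]
  have e1 : (z.1 + R - (z.1 - R)).toNat = 2 * R := by omega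
  have e2 : (z.2 + R - (z.2 - R)).toNat = 2 * R := by omega
  rw [e1, e2, sq]

/-- **(K-POT)** the potential never increases, and drops at every domain of radius `≤ R` -/
theorem rsf164_K_pot (t : ℝ) (z : ℤ × ℤ) (R : ℕ) :
    (∀ s, ∀ s' ∈ (rsf164Ker t z).ch s, rsf164Pot z R ((rsf164Ker t z).nx s') ≤ rsf164Pot z R s) ∧
    (∀ s, ∀ s' ∈ (rsf164Ker t z).ch s, (rsf164Ker t z).rad s' ≤ R → rsf164Pot z R ((rsf164Ker t z).nx s') + 1 ≤ rsf164Pot z R s) := by
  classical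
  refine ⟨fun s s' hs' => ?_, fun s s' hs' hrad => ?_⟩
  · exact Finset.card_le_card (Finset.inter_subset_inter (rsf164_mem_ch.1 hs').1 (Finset.Subset.refl _))
  · obtain ⟨h1, _, h3, h4⟩ := rsf164_mem_ch.1 hs'
    obtain ⟨ω, _, hD⟩ := rsf164_P_ne h3
    have hD' : rsf164D s.1 s.2 ω = s'.1 := hD
    have hnb : ¬ rswBox z R ⊆ s'.1 := rsf164_rad_le.1 hrad
    obtain ⟨f, hf, hfD⟩ := Finset.not_subset.1 hnb
    have hzD : z ∈ s'.1 := (rsx_mem_in.1 h4).1
    have hR : 1 ≤ R := by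
      rcases Nat.eq_zero_or_pos R with h0 | h0
      · subst h0
        rw [rsf164_mem_box] at hf
        simp at hf
        omega
      · exact h0
    have hzb : z ∈ rswBox z R := by
      rw [rsf164_mem_box]
      have : (1 : ℤ) ≤ R := by exact_mod_cast hR
      omega
    -- a face of `s.1 \ s'.1` in the box
    have hex : ∃ g ∈ rswBox z R, g ∈ s.1 ∧ g ∉ s'.1 := by
      by_cases hfF : f ∈ s.1
      · exact ⟨f, hf, hfF, hfD⟩
      · obtain ⟨g, hg, hgl⟩ := rsf164_layer_in_box (h1 hzD) hzb hf hfF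
        refine ⟨g, hg, rsx_layer_sub _ hgl, fun hh => ?_⟩
        rw [← hD'] at hh
        exact (Finset.mem_sdiff.1 hh).2 (rsx_layer_sub_out _ _ _ hgl)
    obtain ⟨g, hg, hgF, hgD⟩ := hex
    show (s'.1 ∩ rswBox z R).card + 1 ≤ (s.1 ∩ rswBox z R).card
    refine Nat.succ_le_of_lt (Finset.card_lt_card ⟨Finset.inter_subset_inter h1 (Finset.Subset.refl _), fun hc => ?_⟩)
    exact hgD (Finset.mem_inter.1 (hc (Finset.mem_inter.2 ⟨hgF, hg⟩))).1

theorem rsf164_eqns_cite : True := by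
  have := @rsf164Sg.eq_1
  have := @rsf164D.eq_1
  have := @rsf164X.eq_1
  have := @rsf164C.eq_1
  have := @Rsf164Conn.eq_1
  have := @rsf164Rad.eq_1
  have := @rsf164P.eq_1
  have := @rsf164Ker.eq_1
  have := @Rsf164Chi.eq_1
  have := @rsf164Cp.eq_1
  have := @Rsf164Obs.eq_1
  have := @rsf164Pot.eq_1
  trivial

end Claimed.Agent.R292
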