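import Claimed.Agent.R292.Rsw.MidSv151
import Claimed.Agent.R292.Rsw.CutHt91
import Claimed.Agent.R292.Rsw.Sym211
import Claimed.Agent.R292.Rsw.Base31
import Claimed.Agent.R292.Model.Basic
import Claimed.Agent.R292.Rsw.First164

/-!
# Row 292 (S0540), Rsw/CutStop151 : THE STOPPED CUT AND THE PLANE MOMENTS      (owner helper151; prefix `mpl151_` / `Mpl151`)      blocks CUT-STOP + R6c MOM-PLANE of unit RSW (head 122, chief MOM 164)

In the vocabulary of `Defs/RSW`, ON THE CLASS OF DOMAINS `At92hExt` (exterior star connected; contains the Jordan sets, the boxes and the chambers of a stopped cut):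
* `mpl151_ext_box`               boxes are in the class
* `mpl151_expl_one`, **`mpl151_lower`**   the exploration of 107 run in a box `B` inside ANY ambient problem `F0 ⊇ B` + the height at a cut of 91: `P_{F0}(Sep in B) * inf_G E_{B \ G} φ(Y) ≤ E_{F0} φ(Y)`
* `Mpl151Circ`, `Mpl151Smear2`   THE TWO RECORDS: PLUS circuit in an annulus under every flat law; smearing bound with `p = 2`
* **`mpl151_circ_of_exit`**      `Mpl151Circ t` PROVED from the statement of `exit_rsw_circuit` (`Mpl151CircBox t`) + association without pins (`Mpl151Fkg t` = instance of `exit_mdl_cmp`; 291: `cmp291_exit_cmp`):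
                                 global flip (31) + translation (211) + domination by the opposite wired box (191 `mdl_base`)
* **`mpl151_cut`**               the stopped cut (shape of R291 `exit_dis_cut`) PROVED from `Mpl151Circ`
* **`mpl151_exit_plane`**        the statement of `exit_rsw_mom_plane` VERBATIM from the two records
* **`mpl151_det`**               (DET) of block MOM (statement + proof of 11): a cut of colour `a` around `z`, `w` which comes close to `z` blocks the circuits of the other colour; tools `mpl151_pot` (potential of two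
                                 cuts without a common vertex, Poincare lemma only), `mpl151_line`, `mpl151_esc`
* **`mpl151_smear`**, **`mpl151_exit_smear`**  the statement of `exit_rsw_mom_smear` for EVERY `p` (on the class; verbatim) from the record with `p = 2`
-/

set_option autoImplicit false

namespace Claimed.Agent.R292

open Finset Claimed.Agent.R291 Claims Claims.C0468

/-! ## 1. The exterior of a box is star connected -/

theorem mpl151_mem_box {z f : ℤ × ℤ} {n : ℕ} :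
    f ∈ rswBox z n ↔ (z.1 - n ≤ f.1 ∧ f.1 < z.1 + n) ∧ (z.2 - n ≤ f.2 ∧ f.2 < z.2 + n) := by
  unfold rswBox
  simp only [mem_product, mem_Ico]

/-- a set closed under star adjacency in the complement of `F` contains every exterior column which it meets -/
theorem mpl151_col {F : Finset (ℤ × ℤ)} {S : Set (ℤ × ℤ)} (hcl : ∀ f ∈ S, ∀ g, g ∉ F → at92hAdj f g → g ∈ S) {x : ℤ}
    (hx : ∀ y, (x, y) ∉ F) {y : ℤ} (hy : (x, y) ∈ S) (y' : ℤ) : (x, y') ∈ S := by
  have up : ∀ k : ℕ, (x, y + k) ∈ S := by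
    intro k
    induction k with
    | zero => simpa using hy
    | succ k ih =>
      refine hcl _ ih _ (hx _) ⟨by simp, ?_⟩
      simp only [Nat.cast_add, Nat.cast_one]
      rw [abs_le]; constructor <;> omega
  have down : ∀ k : ℕ, (x, y - k) ∈ S := by
    intro k
    induction k with
    | zero => simpa using hy
    | succ k ih =>
      refine hcl _ ih _ (hx _) ⟨by simp, ?_⟩
      simp only [Nat.cast_add, Nat.cast_one]
      rw [abs_le]; constructor <;> omega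
  rcases le_total y y' with h | h
  · have := up (y' - y).toNat
    rwa [Int.toNat_of_nonneg (by omega), add_sub_cancel] at this
  · have := down (y - y').toNat
    rwa [Int.toNat_of_nonneg (by omega), sub_sub_cancel] at this

theorem mpl151_row {F : Finset (ℤ × ℤ)} {S : Set (ℤ × ℤ)} (hcl : ∀ f ∈ S, ∀ g, g ∉ F → at92hAdj f g → g ∈ S) {y : ℤ}
    (hy : ∀ x, (x, y) ∉ F) {x : ℤ} (hx : (x, y) ∈ S) (x' : ℤ) : (x', y) ∈ S := by
  have up : ∀ k : ℕ, (x + k, y) ∈ S := by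
    intro k
    induction k with
    | zero => simpa using hx
    | succ k ih =>
      refine hcl _ ih _ (hy _) ⟨?_, by simp⟩
      simp only [Nat.cast_add, Nat.cast_one]
      rw [abs_le]; constructor <;> omega
  have down : ∀ k : ℕ, (x - k, y) ∈ S := by
    intro k
    induction k with
    | zero => simpa using hx
    | succ k ih =>
      refine hcl _ ih _ (hy _) ⟨?_, by simp⟩
      simp only [Nat.cast_add, Nat.cast_one]
      rw [abs_le]; constructor <;> omega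
  rcases le_total x x' with h | h
  · have := up (x' - x).toNat
    rwa [Int.toNat_of_nonneg (by omega), add_sub_cancel] at this
  · have := down (x - x').toNat
    rwa [Int.toNat_of_nonneg (by omega), sub_sub_cancel] at this

/-- **boxes are in the class `At92hExt`** -/
theorem mpl151_ext_box (z : ℤ × ℤ) (n : ℕ) : At92hExt (rswBox z n) := by
  intro S hS hne hcl
  have hcolX : ∀ x : ℤ, (x < z.1 - n ∨ z.1 + n ≤ x) → ∀ y, (x, y) ∉ rswBox z n := by
    intro x hx y hm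
    have := (mpl151_mem_box.1 hm).1
    simp only at this
    omega
  have hrowY : ∀ y : ℤ, (y < z.2 - n ∨ z.2 + n ≤ y) → ∀ x, (x, y) ∉ rswBox z n := by
    intro y hy x hm
    have := (mpl151_mem_box.1 hm).2
    simp only at this
    omega
  have hcase : ∀ f : ℤ × ℤ, f ∉ rswBox z n → (f.1 < z.1 - n ∨ z.1 + n ≤ f.1) ∨ (f.2 < z.2 - n ∨ z.2 + n ≤ f.2) := by
    intro f hf
    by_contra hcon
    apply hf
    rw [mpl151_mem_box]
    omega
  have hX := hcolX (z.1 + n) (Or.inr le_rfl)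
  have hY := hrowY (z.2 + n) (Or.inr le_rfl)
  -- the corner face lies in `S`
  have hP : (z.1 + n, z.2 + n) ∈ S := by
    obtain ⟨f, hf⟩ := hne
    rcases hcase f (hS f hf) with h | h
    · have h1 : (f.1, z.2 + (n : ℤ)) ∈ S := mpl151_col hcl (hcolX f.1 h) (y := f.2) hf _
      exact mpl151_row hcl hY h1 _
    · have h1 : (z.1 + (n : ℤ), f.2) ∈ S := mpl151_row hcl (hrowY f.2 h) (x := f.1) hf _
      exact mpl151_col hcl hX h1 _
  intro g hg
  rcases hcase g hg with h | h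
  · have h1 : (g.1, z.2 + (n : ℤ)) ∈ S := mpl151_row hcl hY hP _
    exact mpl151_col hcl (hcolX g.1 h) h1 g.2
  · have h1 : (z.1 + (n : ℤ), g.2) ∈ S := mpl151_col hcl hX hP _
    exact mpl151_row hcl (hrowY g.2 h) h1 g.1

/-! ## 2. The LOCAL exploration: a box `B` inside an arbitrary ambient problem `F0` -/

/-- one explored set of the exploration of `B ⊆ F0`, under the law of `F0` (91: `rsk_cut_arr`; 107: `rsx_out_loc`; both do not see the ambient set) -/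
theorem mpl151_expl_one {t : ℝ} (ht0 : 0 < t) (ht1 : t ≤ 1) {F0 B G : Finset (ℤ × ℤ)} (hB : B ⊆ F0)
    (hext0 : At92hExt F0) (hextB : At92hExt B) (hG : RsxAnch B G) (a b : Bool) {z0 : ℤ × ℤ} {n : ℕ}
    (hbox : rswBox z0 n ⊆ B \ G) {w : (ℤ × ℤ) →₀ ℝ} (hw : w.support ⊆ rswBox z0 n) (h0 : w.sum (fun _ x => x) = 0) (φ : ℝ → ℝ) :
    rswSum t F0 b (fun ω => rsxInd (rsxOut B a ω = G) * φ (rswArr w (rswH F0 ω))) =
      rswSum t F0 b (fun ω => rsxInd (rsxOut B a ω = G)) * rswE t (B \ G) a (fun ω => φ (rswArr w (rswH (B \ G) ω))) := by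
  have h := rsk_cut_arr ht0 ht1 (sdiff_subset.trans hB : B \ G ⊆ F0) hext0 (rsk_ext_of_anch hextB hG) a b hbox hw h0 φ
    (rsk_outside_of_locOut (rsx_out_loc B G a))
  have hind : ∀ ω, rsxOut B a ω = G → rskInd (B \ G) a ω = 1 := by
    intro ω hω
    unfold rskInd
    rw [if_pos (by rw [← hω]; exact rsk_cut_of_out B a ω)]
  have e1 : ∀ ω, rskInd (B \ G) a ω * φ (rswArr w (rswH F0 ω)) * rsxInd (rsxOut B a ω = G) =
      rsxInd (rsxOut B a ω = G) * φ (rswArr w (rswH F0 ω)) := by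
    intro ω
    by_cases hω : rsxOut B a ω = G
    · rw [hind ω hω]; ring
    · rw [rsx_ind_neg hω]; ring
  have e2 : ∀ ω, rskInd (B \ G) a ω * rsxInd (rsxOut B a ω = G) = rsxInd (rsxOut B a ω = G) := by
    intro ω
    by_cases hω : rsxOut B a ω = G
    · rw [hind ω hω]; ring
    · rw [rsx_ind_neg hω]; ring
  rw [rsx_sum_congr t F0 b e1, rsx_sum_congr t F0 b e2] at h
  rw [h]; ring

/-- **STOPPED CUT IN A BOX, lower bound**: `P_{F0} (Sep in B) * inf_G E_{B \ G}^a φ(Y) ≤ E_{F0} φ(Y)`, `φ ≥ 0`, `Y` a zero total smearing in `rswBox z0 n ⊆ A ⊆ B ⊆ F0` -/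
theorem mpl151_lower {t : ℝ} (ht0 : 0 < t) (ht1 : t ≤ 1) {F0 B A : Finset (ℤ × ℤ)} (hB : B ⊆ F0)
    (hext0 : At92hExt F0) (hextB : At92hExt B) (a b : Bool) {z0 : ℤ × ℤ} {n : ℕ} (hA : rswBox z0 n ⊆ A) (hAB : A ⊆ B)
    {w : (ℤ × ℤ) →₀ ℝ} (hw : w.support ⊆ rswBox z0 n) (h0 : w.sum (fun _ x => x) = 0) {φ : ℝ → ℝ} (hφ : ∀ y, 0 ≤ φ y) (m : ℝ)
    (hm : ∀ G ∈ rsxSets B A, m ≤ rswE t (B \ G) a (fun ω => φ (rswArr w (rswH (B \ G) ω)))) :
    rswP t F0 b (fun ω => RswSep B a ω A (rswLayer B)) * m ≤ rswE t F0 b (fun ω => φ (rswArr w (rswH F0 ω))) := by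
  have hle : rswE t F0 b (fun ω => rsxInd (RswSep B a ω A (rswLayer B)) * φ (rswArr w (rswH F0 ω))) ≤
      rswE t F0 b (fun ω => φ (rswArr w (rswH F0 ω))) :=
    rsx_E_mono ht0 ht1 F0 b fun ω => by
      have := mul_le_mul_of_nonneg_right (rsx_ind_le_one (RswSep B a ω A (rswLayer B))) (hφ (rswArr w (rswH F0 ω)))
      rwa [one_mul] at this
  refine le_trans ?_ hle
  have e1 : ∀ ω, rsxInd (RswSep B a ω A (rswLayer B)) * φ (rswArr w (rswH F0 ω)) =
      ∑ G ∈ rsxSets B A, rsxInd (rsxOut B a ω = G) * φ (rswArr w (rswH F0 ω)) := by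
    intro ω
    rw [rsx_ind_sum, Finset.sum_mul]
  have hdec : rswE t F0 b (fun ω => rsxInd (RswSep B a ω A (rswLayer B)) * φ (rswArr w (rswH F0 ω))) =
      ∑ G ∈ rsxSets B A, rswP t F0 b (fun ω => rsxOut B a ω = G) *
        rswE t (B \ G) a (fun ω => φ (rswArr w (rswH (B \ G) ω))) := by
    rw [rsx_E_eq, rsx_sum_congr t F0 b e1, rsx_sum_finsum, Finset.sum_div]
    refine Finset.sum_congr rfl fun G hG => ?_
    rw [mpl151_expl_one ht0 ht1 hB hext0 hextB (rsx_mem_sets.1 hG).2.2.2 a b (hA.trans (rsx_sub_sdiff hAB hG)) hw h0 φ,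
      rsx_P_eq, rsx_E_eq t F0 b (fun ω => rsxInd (rsxOut B a ω = G))]
    ring
  have hP : rswP t F0 b (fun ω => RswSep B a ω A (rswLayer B)) = ∑ G ∈ rsxSets B A, rswP t F0 b (fun ω => rsxOut B a ω = G) := by
    rw [rsx_P_eq, rsx_E_eq, rsx_sum_congr t F0 b (fun ω => rsx_ind_sum B A a ω), rsx_sum_finsum, Finset.sum_div]
    rfl
  rw [hdec, hP, Finset.sum_mul]
  exact Finset.sum_le_sum fun G hG => mul_le_mul_of_nonneg_left (hm G hG) (rsx_P_nonneg ht0 ht1 F0 b _)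

/-! ## 3. R6c MOM-PLANE: the two records -/

/-- RECORD (CIRC) [PROVED below, `mpl151_circ_of_exit`].  A PLUS circuit of open `W` edges in the annulus `rswBox z0 (κρ) \ rswBox z0 ρ`, with probability `≥ c1`, under EVERY flat PLUS law
of a Jordan domain which contains `rswBox z0 (L1 ρ)`. -/
def Mpl151Circ (t : ℝ) : Prop :=
  ∃ (c1 : ℝ) (κ L1 ρ0 : ℕ), 0 < c1 ∧ 1 ≤ κ ∧ ∀ (F0 : Finset (ℤ × ℤ)) (z0 : ℤ × ℤ) (ρ : ℕ),
    RswJordan F0 → ρ0 ≤ ρ → rswBox z0 (L1 * ρ) ⊆ F0 →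
    c1 ≤ rswP t F0 true (fun ω => RswSep (rswBox z0 (κ * ρ)) true ω (rswBox z0 ρ) (rswLayer (rswBox z0 (κ * ρ))))

/-- the statement of `exit_rsw_circuit` (R8 CORE) -/
def Mpl151CircBox (t : ℝ) : Prop :=
  ∃ (κ n0 : ℕ) (p : ℝ), 2 ≤ κ ∧ 0 < p ∧ ∀ n : ℕ, n0 ≤ n →
    p ≤ rswP t (rswBox 0 (κ * n)) true
      (fun ω => RswSep (rswBox 0 (κ * n)) false ω (rswBox 0 n) (rswLayer (rswBox 0 (κ * n))))

/-- the empty prescriptions -/
def mpl151Pin : MdlPin := ⟨∅, ∅, ∅, ∅⟩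

/-- association in the order (3.4), colour PLUS, no prescriptions, flat PLUS law of a Jordan domain = instance of (S0) `exit_mdl_cmp` -/
def Mpl151Fkg (t : ℝ) : Prop := ∀ F : Finset (ℤ × ℤ), RswJordan F → MdlFkgAt t F true true mpl151Pin

/-- RECORD (SMEAR, `p = 2`) = the statement of `exit_rsw_mom_smear t _ _ 2` [R6b] ON THE CLASS `At92hExt` (the chambers of a stopped cut are in this class: 91 `rsk_ext_of_anch`) -/
def Mpl151Smear2 (t : ℝ) : Prop :=
  ∃ C : ℝ, 0 < C ∧ ∀ (F : Finset (ℤ × ℤ)) (z0 : ℤ × ℤ) (a n : ℕ) (A : ℝ) (w : (ℤ × ℤ) →₀ ℝ),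
    At92hExt F → 1 ≤ a → rswBox z0 (3 * a) ⊆ F → ¬ rswBox z0 n ⊆ F → RswSm z0 a A w →
    rswE t F true (fun ω => |rswArr w (rswH F ω)| ^ 2) ≤ (C * A * (1 + Real.sqrt (Real.log ((n : ℝ) / a)))) ^ 2

theorem mpl151_eqns_cite : True := by
  have := @Mpl151Circ.eq_1
  have := @Mpl151Smear2.eq_1
  have := @Mpl151CircBox.eq_1
  have := @mpl151Pin.eq_1
  have := @Mpl151Fkg.eq_1
  trivial

/-! ## 4. (CIRC) from the statement of `exit_rsw_circuit` -/

theorem mpl151_pin_ok : mpl151Pin.Ok := by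
  intro e he
  simp [mpl151Pin] at he

theorem mpl151_pin_holds (ω : RswCfg) : mpl151Pin.Holds ω := by
  refine ⟨?_, ?_, ?_, ?_⟩ <;> simp [mpl151Pin]

theorem mpl151_sumK (t : ℝ) (F : Finset (ℤ × ℤ)) (b : Bool) (X : RswCfg → ℝ) :
    mdlSumK t F b mpl151Pin X = rswSum t F b X := by
  unfold mdlSumK
  simp only [mpl151_pin_holds, if_true]

/-- more good edges: fewer steps -/
theorem mpl151_reach_anti {Λ : Finset (ℤ × ℤ)} {a : Bool} {ω ω' : RswCfg} (h : ∀ e, e ∈ rswInt Λ → RswGood a ω e → RswGood a ω' e)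
    {f g : ℤ × ℤ} (hr : Relation.ReflTransGen (RswStep Λ a ω') f g) : Relation.ReflTransGen (RswStep Λ a ω) f g := by
  refine Relation.ReflTransGen.mono ?_ f g hr
  rintro x y ⟨hx, hy, e, he, hg⟩
  refine ⟨hx, hy, e, he, fun hc => hg (h e ?_ hc)⟩
  rw [rsk_mem_int]
  rcases he with ⟨rfl, rfl⟩ | ⟨rfl, rfl⟩
  · exact ⟨hx, hy⟩
  · exact ⟨hy, hx⟩

theorem mpl151_sep_inc (Λ A B : Finset (ℤ × ℤ)) (a : Bool) : MdlInc a (fun ω => rsxInd (RswSep Λ a ω A B)) := by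
  intro ω ω' hle
  by_cases h : RswSep Λ a ω A B
  · have h' : RswSep Λ a ω' A B := fun f hf g hg hr => h f hf g hg (mpl151_reach_anti (fun e _ => hle.2.1 e) hr)
    show rsxInd _ ≤ rsxInd _
    rw [rsx_ind_pos h, rsx_ind_pos h']
  · show rsxInd _ ≤ rsxInd _
    rw [rsx_ind_neg h]
    exact rsx_ind_nonneg _

theorem mpl151_good_in {Λ : Finset (ℤ × ℤ)} (a : Bool) (ω : RswCfg) {e : (ℤ × ℤ) × Bool} (he : e ∈ rswInt Λ) :
    RswGood a (rskIn Λ ω) e ↔ RswGood a ω e := by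
  unfold RswGood rskIn
  simp only [mem_inter, he, rsk_int_fst he, rsk_int_end he, and_true]

theorem mpl151_sep_inside (Λ A B : Finset (ℤ × ℤ)) (a : Bool) : RskInside Λ (fun ω => rsxInd (RswSep Λ a ω A B)) := by
  intro ω
  have : RswSep Λ a (rskIn Λ ω) A B ↔ RswSep Λ a ω A B := by
    constructor
    · intro h f hf g hg hr
      exact h f hf g hg (mpl151_reach_anti (fun e he => (mpl151_good_in a ω he).1) hr)
    · intro h f hf g hg hr
      exact h f hf g hg (mpl151_reach_anti (fun e he => (mpl151_good_in a ω he).2) hr)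
  show rsxInd _ = rsxInd _
  simp only [this]

/-- the corners of a box are interior points of every set which contains the next box -/
theorem mpl151_box_inner {F : Finset (ℤ × ℤ)} {z : ℤ × ℤ} {n : ℕ} (h : rswBox z (n + 1) ⊆ F) :
    ∀ v ∈ cornersOf (rswBox z n), ¬ OnPolygon F v := by
  intro v hv hp
  obtain ⟨f, hf, hi⟩ := (rsy_mem_cornersOf _ _).1 hv
  obtain ⟨g, hg, hgF⟩ := (rsy_onPolygon_iff _ _).1 hp
  apply hgF
  apply h
  rw [mpl151_mem_box] at hf ⊢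
  unfold RsyInc at hi hg
  push_cast
  omega

/-- **(CIRC) PROVED** from the statement of `exit_rsw_circuit` and association: the flat PLUS law of `F0 ⊇ rswBox z0 (κρ + 1)` dominates, inside `Λ = rswBox z0 (κρ)`, the flat MINUS law of `Λ`
(191 `mdl_base`); the PLUS circuit under the MINUS law of `Λ` = the MINUS circuit under the PLUS law (31 `rsb_P_sep_flip`), translated to the origin (211 `rsy_circuit_T`) -/
theorem mpl151_circ_of_exit {t : ℝ} (ht0 : 0 < t) (ht2 : t < 1) (hbox : Mpl151CircBox t) (hfkg : Mpl151Fkg t) : Mpl151Circ t := by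
  obtain ⟨κ, n0, p, hκ, hp, H⟩ := hbox
  refine ⟨p, κ, κ + 1, max n0 1, hp, by omega, ?_⟩
  intro F0 z0 ρ hJ hρ hin
  have hρ0 : n0 ≤ ρ := (le_max_left _ _).trans hρ
  have hρ1 : 1 ≤ ρ := (le_max_right _ _).trans hρ
  have hsub1 : rswBox z0 (κ * ρ + 1) ⊆ F0 := (mpl151_box_mono z0 (by nlinarith)).trans hin
  have hsub : rswBox z0 (κ * ρ) ⊆ F0 := (mpl151_box_mono z0 (by omega)).trans hsub1
  have h1 := mdl_base ht0 ht2 hsub true true mpl151_pin_ok (hfkg F0 hJ) (mpl151_box_inner hsub1) (by simp [mpl151Pin])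
    (mpl151_sep_inc (rswBox z0 (κ * ρ)) (rswBox z0 ρ) (rswLayer (rswBox z0 (κ * ρ))) true)
    (mpl151_sep_inside (rswBox z0 (κ * ρ)) (rswBox z0 ρ) (rswLayer (rswBox z0 (κ * ρ))) true)
  rw [mpl151_sumK, mpl151_sumK] at h1
  have hZ : 0 < rswSum t F0 true (fun _ => 1) := rsk_sum_one_pos ht0 ht2.le F0 true
  have h3 := H ρ hρ0
  rw [← rsy_circuit_T t z0 (κ * ρ) ρ true false, ← rsb_P_sep_flip t (rswBox z0 (κ * ρ)) false true, rsx_P_eq] at h3
  rw [rsx_P_eq, rsx_E_eq t F0, le_div_iff₀ hZ]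
  exact (mul_le_mul_of_nonneg_right h3 hZ.le).trans h1

/-! ## 5. R6c MOM-PLANE: the theorems -/

/-- **THE STOPPED CUT** (shape of R291 `exit_dis_cut`), PROVED from the record (CIRC): for a zero total smearing `Y` in `rswBox z0 ρ` and `g ≥ 0`: `E g(Y) ≥ c1 * inf_F E_F g(Y)`,
the infimum over the `F` of the class `At92hExt` between `rswBox z0 ρ` and `rswBox z0 (κρ)` -/
theorem mpl151_cut {t : ℝ} (ht0 : 0 < t) (ht1 : t ≤ 1) (hcirc : Mpl151Circ t) :
    ∃ (c1 : ℝ) (κ L1 ρ0 : ℕ), 0 < c1 ∧ ∀ (F0 : Finset (ℤ × ℤ)) (z0 : ℤ × ℤ) (ρ : ℕ) (w : (ℤ × ℤ) →₀ ℝ) (g : ℝ → ℝ) (m : ℝ),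
      RswJordan F0 → ρ0 ≤ ρ → rswBox z0 (L1 * ρ) ⊆ F0 → w.support ⊆ rswBox z0 ρ → w.sum (fun _ x => x) = 0 → (∀ y, 0 ≤ g y) → 0 ≤ m →
      (∀ F : Finset (ℤ × ℤ), At92hExt F → rswBox z0 ρ ⊆ F → F ⊆ rswBox z0 (κ * ρ) →
        m ≤ rswE t F true (fun ω => g (rswArr w (rswH F ω)))) →
      c1 * m ≤ rswE t F0 true (fun ω => g (rswArr w (rswH F0 ω))) := by
  obtain ⟨c1, κ, L1, ρ0, hc1, hκ, H⟩ := hcirc
  refine ⟨c1, κ, L1 + κ, ρ0, hc1, ?_⟩
  intro F0 z0 ρ w g m hJ hρ hin hw h0 hg hm0 hm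
  have hB : rswBox z0 (κ * ρ) ⊆ F0 := (mpl151_box_mono z0 (by nlinarith)).trans hin
  have hL : rswBox z0 (L1 * ρ) ⊆ F0 := (mpl151_box_mono z0 (by nlinarith)).trans hin
  have hAB : rswBox z0 ρ ⊆ rswBox z0 (κ * ρ) := mpl151_box_mono z0 (by nlinarith)
  have h1 := mpl151_lower ht0 ht1 hB (rsk_ext_of_jordan hJ) (mpl151_ext_box z0 (κ * ρ)) true true (Finset.Subset.refl (rswBox z0 ρ)) hAB hw h0 hg m
    (fun G hG => hm _ (rsk_ext_of_anch (mpl151_ext_box z0 (κ * ρ)) (rsx_mem_sets.1 hG).2.2.2) (rsx_sub_sdiff hAB hG) sdiff_subset)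
  exact (mul_le_mul_of_nonneg_right (H F0 z0 ρ hJ hρ hL) hm0).trans h1

/-- second moment in a cut problem: `rswBox z0 ρ ⊆ F ⊆ rswBox z0 (κρ)`, `3a ≤ ρ ≤ (3 + ρ0) a` -/
theorem mpl151_second {t C2 : ℝ} (hC2 : 0 < C2)
    (hsm : ∀ (F : Finset (ℤ × ℤ)) (z0 : ℤ × ℤ) (a n : ℕ) (A : ℝ) (w : (ℤ × ℤ) →₀ ℝ),
      At92hExt F → 1 ≤ a → rswBox z0 (3 * a) ⊆ F → ¬ rswBox z0 n ⊆ F → RswSm z0 a A w →
      rswE t F true (fun ω => |rswArr w (rswH F ω)| ^ 2) ≤ (C2 * A * (1 + Real.sqrt (Real.log ((n : ℝ) / a)))) ^ 2)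
    (κ ρ0 : ℕ) {F : Finset (ℤ × ℤ)} {z0 : ℤ × ℤ} {a ρ : ℕ} {A : ℝ} {w : (ℤ × ℤ) →₀ ℝ} (hF : At92hExt F) (ha : 1 ≤ a) (h3 : 3 * a ≤ ρ)
    (hρ : ρ ≤ (3 + ρ0) * a) (hin : rswBox z0 ρ ⊆ F) (hout : F ⊆ rswBox z0 (κ * ρ)) (hw : RswSm z0 a A w) :
    rswE t F true (fun ω => |rswArr w (rswH F ω)| ^ 2) ≤ (C2 * A * (1 + Real.sqrt (Real.log ((κ : ℝ) * (3 + (ρ0 : ℝ)) + 1)))) ^ 2 := by
  have hA : 0 ≤ A := (sum_nonneg fun u _ => abs_nonneg (w u)).trans hw.l1
  have hn : ¬ rswBox z0 (κ * ρ + 1) ⊆ F := fun hc => mpl151_box_not_sub z0 (κ * ρ) (hc.trans hout)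
  have h1 := hsm F z0 a (κ * ρ + 1) A w hF ha ((mpl151_box_mono z0 h3).trans hin) hn hw
  refine h1.trans ?_
  have ha0 : (0 : ℝ) < a := by exact_mod_cast ha
  have h2 : ((κ * ρ + 1 : ℕ) : ℝ) / a ≤ (κ : ℝ) * (3 + (ρ0 : ℝ)) + 1 := by
    rw [div_le_iff₀ ha0]
    have e1 : (ρ : ℝ) ≤ (3 + (ρ0 : ℝ)) * a := by exact_mod_cast hρ
    have e2 : (1 : ℝ) ≤ a := by exact_mod_cast ha
    have e3 : (0 : ℝ) ≤ κ := Nat.cast_nonneg κ
    have e4 : (κ : ℝ) * ρ ≤ κ * ((3 + (ρ0 : ℝ)) * a) := mul_le_mul_of_nonneg_left e1 e3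
    push_cast
    nlinarith
  have h4 : 0 < ((κ * ρ + 1 : ℕ) : ℝ) / a := by positivity
  have h5 : Real.sqrt (Real.log (((κ * ρ + 1 : ℕ) : ℝ) / a)) ≤ Real.sqrt (Real.log ((κ : ℝ) * (3 + (ρ0 : ℝ)) + 1)) :=
    Real.sqrt_le_sqrt (Real.log_le_log h4 h2)
  have h6 := Real.sqrt_nonneg (Real.log (((κ * ρ + 1 : ℕ) : ℝ) / a))
  refine pow_le_pow_left₀ (by positivity) ?_ 2
  exact mul_le_mul_of_nonneg_left (by linarith) (by positivity)

/-- **TEX eq:plane-neutral-moments = VERBATIM the statement of `exit_rsw_mom_plane`**, from the two records -/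
theorem mpl151_exit_plane (t : ℝ) (ht1 : 1 / 2 ≤ t) (ht2 : t < 1) (hcirc : Mpl151Circ t) (hsmR : Mpl151Smear2 t) :
    ∃ C0 : ℕ, ∀ p : ℕ, ∃ C : ℝ, 0 < C ∧ ∀ (F : Finset (ℤ × ℤ)) (z0 : ℤ × ℤ) (a : ℕ) (A : ℝ) (w : (ℤ × ℤ) →₀ ℝ),
      RswJordan F → 1 ≤ a → rswBox z0 (C0 * a) ⊆ F → RswSm z0 a A w → w.sum (fun _ x => x) = 0 →
      rswE t F true (fun ω => |rswArr w (rswH F ω)| ^ p) ≤ (C * A) ^ p := by
  classical
  have ht0 : 0 < t := by linarith
  obtain ⟨c1, κ, L1, ρ0, hc1, hcut⟩ := mpl151_cut ht0 ht2.le hcirc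
  obtain ⟨C2, hC2, hsm⟩ := hsmR
  refine ⟨(L1 + 1) * (3 + ρ0), fun p => ?_⟩
  set c4 : ℝ := 1 + Real.sqrt (Real.log ((κ : ℝ) * (3 + (ρ0 : ℝ)) + 1)) with hc4
  have hc40 : 0 < c4 := by have := Real.sqrt_nonneg (Real.log ((κ : ℝ) * (3 + (ρ0 : ℝ)) + 1)); linarith
  set Mc : ℝ := 2 * C2 * c4 + 1 with hMc
  have hMc0 : 0 < Mc := by positivity
  set cp := mdpC 1 (c1 / 2) p with hcp
  have hcp0 : 0 < cp := mdpC_pos 1 (c1 / 2) p
  refine ⟨(cp + 1) * Mc, by positivity, ?_⟩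
  intro F z0 a A w hJ ha hin hw htot
  have hF : At92hExt F := rsk_ext_of_jordan hJ
  rcases Nat.eq_zero_or_pos p with hp | hp
  · subst hp
    simp only [pow_zero]
    exact (rsz_E_const ht0 ht2.le F true 1).le
  have hA : 0 ≤ A := (sum_nonneg fun u _ => abs_nonneg (w u)).trans hw.l1
  rcases hA.eq_or_lt with hA0 | hApos
  · -- `A = 0`: the statistic vanishes
    have hw0 : ∀ u ∈ w.support, w u = 0 := by
      intro u hu
      have h1 : |w u| ≤ ∑ v ∈ w.support, |w v| := single_le_sum (f := fun v => |w v|) (fun v _ => abs_nonneg _) hu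
      have h2 : |w u| ≤ 0 := by rw [hA0]; exact h1.trans hw.l1
      exact abs_eq_zero.1 (le_antisymm h2 (abs_nonneg _))
    have hY : ∀ h : ℤ × ℤ → ℝ, rswArr w h = 0 := fun h => by
      unfold rswArr Finsupp.sum
      exact sum_eq_zero fun u hu => by simp only [hw0 u hu, zero_mul]
    simp only [hY, abs_zero, zero_pow hp.ne']
    rw [rsz_E_const ht0 ht2.le]
    positivity
  set M : ℝ := Mc * A with hM
  have hM0 : 0 < M := by positivity
  set ρ := max (3 * a) ρ0 with hρdef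
  have h3 : 3 * a ≤ ρ := le_max_left _ _
  have hρ0 : ρ0 ≤ ρ := le_max_right _ _
  have hρ : ρ ≤ (3 + ρ0) * a := by
    apply max_le
    · nlinarith
    · nlinarith
  have hin' : rswBox z0 (L1 * ρ) ⊆ F := by
    refine (mpl151_box_mono z0 ?_).trans hin
    calc L1 * ρ ≤ L1 * ((3 + ρ0) * a) := Nat.mul_le_mul_left L1 hρ
      _ ≤ (L1 + 1) * ((3 + ρ0) * a) := Nat.mul_le_mul_right _ (Nat.le_succ L1)
      _ = (L1 + 1) * (3 + ρ0) * a := (mul_assoc _ _ _).symm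
  have hsupp : w.support ⊆ cornersOf F := by
    intro v hv
    refine rsz_face_corner (hin (mpl151_box_mono z0 ?_ (hw.supp hv)))
    nlinarith
  -- the central event
  obtain ⟨g, hg⟩ : ∃ g : ℝ → ℝ, ∀ y, g y = if |y| ≤ M then (1 : ℝ) else 0 := ⟨_, fun _ => rfl⟩
  have hcen : c1 * (1 / 2) ≤ rswE t F true (fun ω => g (rswArr w (rswH F ω))) := by
    refine hcut F z0 ρ w g (1 / 2) hJ hρ0 hin' (hw.supp.trans (mpl151_box_mono z0 (by omega))) htot
      (fun y => by rw [hg]; split_ifs <;> norm_num) (by norm_num) ?_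
    intro F' hF' hi ho
    have h2 := mpl151_second hC2 hsm κ ρ0 hF' ha h3 hρ hi ho hw
    simp only [hg]
    refine mpl151_cheb ht0 ht2.le F' true (fun ω => rswArr w (rswH F' ω)) hM0 h2 ?_
    rw [hM, hMc, ← hc4]
    have e1 : 0 ≤ C2 * A * c4 := by positivity
    nlinarith
  -- amplification
  simp only [hg] at hcen
  have hl1 : ∑ v ∈ w.support, |w v| ≤ 2 * M := by
    have h2 : A ≤ M := by
      rw [hM, hMc]
      have : 0 ≤ 2 * C2 * c4 * A := by positivity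
      nlinarith
    have := hw.l1
    linarith
  have hamp := mpl151_amp_rsw ht0 ht2.le hF w hsupp hM0 (by positivity : 0 < c1 / 2) hl1 (by linarith) p
  refine hamp.trans ?_
  rw [← hcp, hM]
  have h1 : cp ≤ (cp + 1) ^ p := (by linarith : cp ≤ cp + 1).trans (le_self_pow₀ (by linarith) hp.ne')
  calc cp * (Mc * A) ^ p ≤ (cp + 1) ^ p * (Mc * A) ^ p := mul_le_mul_of_nonneg_right h1 (by positivity)
    _ = ((cp + 1) * Mc * A) ^ p := by rw [← mul_pow]; ring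

/-- **`p = 2` ⟹ ALL `p`**: the statement of `exit_rsw_mom_smear t _ _ p` on the class `At92hExt` for every `p`, from the record with `p = 2` (Chebyshev + amplification) -/
theorem mpl151_smear (t : ℝ) (ht1 : 1 / 2 ≤ t) (ht2 : t < 1) (hsmR : Mpl151Smear2 t) (p : ℕ) :
    ∃ C : ℝ, 0 < C ∧ ∀ (F : Finset (ℤ × ℤ)) (z0 : ℤ × ℤ) (a n : ℕ) (A : ℝ) (w : (ℤ × ℤ) →₀ ℝ),
      At92hExt F → 1 ≤ a → rswBox z0 (3 * a) ⊆ F → ¬ rswBox z0 n ⊆ F → RswSm z0 a A w →
      rswE t F true (fun ω => |rswArr w (rswH F ω)| ^ p) ≤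
        (C * A * (1 + Real.sqrt (Real.log ((n : ℝ) / a)))) ^ p := by
  classical
  have ht0 : 0 < t := by linarith
  obtain ⟨C2, hC2, hsm⟩ := hsmR
  set cp := mdpC 1 (1 / 2) p with hcp
  have hcp0 : 0 < cp := mdpC_pos 1 (1 / 2) p
  refine ⟨(cp + 1) * (2 * C2 + 1), by positivity, ?_⟩
  intro F z0 a n A w hF ha hin hn hw
  set B : ℝ := 1 + Real.sqrt (Real.log ((n : ℝ) / a)) with hB
  have hB1 : 1 ≤ B := by have := Real.sqrt_nonneg (Real.log ((n : ℝ) / a)); linarith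
  rcases Nat.eq_zero_or_pos p with hp | hp
  · subst hp
    simp only [pow_zero]
    exact (rsz_E_const ht0 ht2.le F true 1).le
  have hA : 0 ≤ A := (sum_nonneg fun u _ => abs_nonneg (w u)).trans hw.l1
  rcases hA.eq_or_lt with hA0 | hApos
  · have hw0 : ∀ u ∈ w.support, w u = 0 := by
      intro u hu
      have h1 : |w u| ≤ ∑ v ∈ w.support, |w v| := single_le_sum (f := fun v => |w v|) (fun v _ => abs_nonneg _) hu
      have h2 : |w u| ≤ 0 := by rw [hA0]; exact h1.trans hw.l1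
      exact abs_eq_zero.1 (le_antisymm h2 (abs_nonneg _))
    have hY : ∀ h : ℤ × ℤ → ℝ, rswArr w h = 0 := fun h => by
      unfold rswArr Finsupp.sum
      exact sum_eq_zero fun u hu => by simp only [hw0 u hu, zero_mul]
    simp only [hY, abs_zero, zero_pow hp.ne']
    rw [rsz_E_const ht0 ht2.le]
    positivity
  set M : ℝ := (2 * C2 + 1) * A * B with hM
  have hM0 : 0 < M := by positivity
  have hsupp : w.support ⊆ cornersOf F := by
    intro v hv
    exact rsz_face_corner (hin (mpl151_box_mono z0 (by omega) (hw.supp hv)))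
  have h2 := hsm F z0 a n A w hF ha hin hn hw
  have hcen : 1 / 2 ≤ rswE t F true (fun ω => if |rswArr w (rswH F ω)| ≤ M then 1 else 0) := by
    refine mpl151_cheb ht0 ht2.le F true (fun ω => rswArr w (rswH F ω)) hM0 h2 ?_
    rw [hM, ← hB]
    have e1 : 0 ≤ C2 * A * B := by positivity
    have e2 : 0 ≤ A * B := by positivity
    nlinarith
  have hl1 : ∑ v ∈ w.support, |w v| ≤ 2 * M := by
    have h3 : A ≤ M := by
      rw [hM]
      have e2 : A * 1 ≤ A * B := mul_le_mul_of_nonneg_left hB1 hA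
      have e3 : 0 ≤ 2 * C2 * (A * B) := by positivity
      nlinarith
    have := hw.l1
    linarith
  have hamp := mpl151_amp_rsw ht0 ht2.le hF w hsupp hM0 (by norm_num : (0 : ℝ) < 1 / 2) hl1 hcen p
  refine hamp.trans ?_
  rw [← hcp, hM]
  have h1 : cp ≤ (cp + 1) ^ p := (by linarith : cp ≤ cp + 1).trans (le_self_pow₀ (by linarith) hp.ne')
  calc cp * ((2 * C2 + 1) * A * B) ^ p ≤ (cp + 1) ^ p * ((2 * C2 + 1) * A * B) ^ p :=
        mul_le_mul_of_nonneg_right h1 (by positivity)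
    _ = ((cp + 1) * (2 * C2 + 1) * A * B) ^ p := by rw [← mul_pow]; ring

/-- **VERBATIM the statement of `exit_rsw_mom_smear`**, every `p`, from the record with `p = 2` -/
theorem mpl151_exit_smear (t : ℝ) (ht1 : 1 / 2 ≤ t) (ht2 : t < 1) (hsmR : Mpl151Smear2 t) (p : ℕ) :
    ∃ C : ℝ, 0 < C ∧ ∀ (F : Finset (ℤ × ℤ)) (z0 : ℤ × ℤ) (a n : ℕ) (A : ℝ) (w : (ℤ × ℤ) →₀ ℝ),
      RswJordan F → 1 ≤ a → rswBox z0 (3 * a) ⊆ F → ¬ rswBox z0 n ⊆ F → RswSm z0 a A w →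
      rswE t F true (fun ω => |rswArr w (rswH F ω)| ^ p) ≤
        (C * A * (1 + Real.sqrt (Real.log ((n : ℝ) / a)))) ^ p := by
  obtain ⟨C, hC, H⟩ := mpl151_smear t ht1 ht2 hsmR p
  exact ⟨C, hC, fun F z0 a n A w hF => H F z0 a n A w (rsk_ext_of_jordan hF)⟩

/-! ## 6. (DET): a cut of colour `a` which surrounds `z` and `w` and comes close to `z` blocks the circuits of the other colour (proof of 11: Poincare lemma only) -/

/-- two faces share an edge (coordinates) -/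
def Mpl151Nb (f g : ℤ × ℤ) : Prop :=
  (g.1 = f.1 + 1 ∧ g.2 = f.2) ∨ (g.1 = f.1 - 1 ∧ g.2 = f.2) ∨ (g.1 = f.1 ∧ g.2 = f.2 + 1) ∨ (g.1 = f.1 ∧ g.2 = f.2 - 1)

theorem mpl151_nb_symm {f g : ℤ × ℤ} (h : Mpl151Nb f g) : Mpl151Nb g f := by
  unfold Mpl151Nb at *
  omega

/-- off the rim of `A` the four faces around a vertex agree on `A` -/
theorem mpl151_agree {A : Finset (ℤ × ℤ)} {x y : ℤ} (h : ¬ ((x + 1, y + 1) ∈ cornersOf A ∧ (x + 1, y + 1) ∉ rskCore A)) :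
    ((x + 1, y + 1) ∈ A ↔ (x, y) ∈ A) ∧ ((x, y + 1) ∈ A ↔ (x, y) ∈ A) ∧ ((x + 1, y) ∈ A ↔ (x, y) ∈ A) := by
  rw [rsk_mem_corners, rsk_mem_core] at h
  simp only [add_sub_cancel_right] at h
  tauto

/-- **the potential of two cuts without a common vertex**: `dψ = 1_D d1_U` -/
theorem mpl151_pot {D U : Finset (ℤ × ℤ)}
    (hdich : ∀ v, ¬ (v ∈ cornersOf D ∧ v ∉ rskCore D) ∨ ¬ (v ∈ cornersOf U ∧ v ∉ rskCore U)) :
    ∃ ψ : ℤ × ℤ → ℝ, ∀ f g, Mpl151Nb f g → ψ g - ψ f = (rsxInd (g ∈ U) - rsxInd (f ∈ U)) * rsxInd (f ∈ D) := by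
  -- at every vertex: `u` is constant or `δ` is constant
  have key : ∀ x y : ℤ,
      (rsxInd ((x + 1, y + 1) ∈ U) = rsxInd ((x, y) ∈ U) ∧ rsxInd ((x, y + 1) ∈ U) = rsxInd ((x, y) ∈ U) ∧
        rsxInd ((x + 1, y) ∈ U) = rsxInd ((x, y) ∈ U)) ∨
      (rsxInd ((x + 1, y + 1) ∈ D) = rsxInd ((x, y) ∈ D) ∧ rsxInd ((x, y + 1) ∈ D) = rsxInd ((x, y) ∈ D) ∧
        rsxInd ((x + 1, y) ∈ D) = rsxInd ((x, y) ∈ D)) := by
    intro x y
    rcases hdich (x + 1, y + 1) with h | h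
    · obtain ⟨h1, h2, h3⟩ := mpl151_agree h
      exact Or.inr ⟨rsx_ind_congr h1, rsx_ind_congr h2, rsx_ind_congr h3⟩
    · obtain ⟨h1, h2, h3⟩ := mpl151_agree h
      exact Or.inl ⟨rsx_ind_congr h1, rsx_ind_congr h2, rsx_ind_congr h3⟩
  obtain ⟨H, hx, hy⟩ := at92h_poincare
    (fun a b => (rsxInd ((a + 1, b) ∈ U) - rsxInd ((a, b) ∈ U)) * rsxInd ((a, b) ∈ D))
    (fun a b => (rsxInd ((a, b + 1) ∈ U) - rsxInd ((a, b) ∈ U)) * rsxInd ((a, b) ∈ D)) (by
      intro a b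
      rcases key a b with ⟨h1, h2, h3⟩ | ⟨h1, h2, h3⟩
      · simp only [h1, h2, h3]; ring
      · simp only [h2, h3]; ring)
  refine ⟨fun f => H f.1 f.2, ?_⟩
  rintro ⟨x, y⟩ ⟨x', y'⟩ h
  unfold Mpl151Nb at h
  simp only at h ⊢
  rcases h with ⟨h1, h2⟩ | ⟨h1, h2⟩ | ⟨h1, h2⟩ | ⟨h1, h2⟩ <;> subst x' <;> subst y'
  · rw [hx]; ring
  · have e := hx (x - 1) y
    simp only [sub_add_cancel] at e
    rw [e]
    rcases key (x - 1) y with ⟨_, _, h3⟩ | ⟨_, _, h3⟩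
    · simp only [sub_add_cancel] at h3
      rw [h3]; ring
    · simp only [sub_add_cancel] at h3
      rw [h3]; ring
  · rw [hy]; ring
  · have e := hy x (y - 1)
    simp only [sub_add_cancel] at e
    rw [e]
    rcases key x (y - 1) with ⟨_, h2, _⟩ | ⟨_, h2, _⟩
    · simp only [sub_add_cancel] at h2
      rw [h2]; ring
    · simp only [sub_add_cancel] at h2
      rw [h2]; ring

/-- a straight walk in `D`: it stays in `D` on the level of `val`, or it leaves `D` -/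
theorem mpl151_line {D : Finset (ℤ × ℤ)} {val : ℤ × ℤ → ℝ} (hval : ∀ f g, f ∈ D → Mpl151Nb f g → val g = val f)
    {f : ℤ × ℤ} (hf : f ∈ D) {d : ℤ × ℤ} (hd : d = (1, 0) ∨ d = (-1, 0) ∨ d = (0, 1) ∨ d = (0, -1)) (n : ℕ) :
    ((f.1 + n * d.1, f.2 + n * d.2) ∈ D ∧ val (f.1 + n * d.1, f.2 + n * d.2) = val f) ∨
      ∃ m : ℕ, m < n ∧ (f.1 + m * d.1, f.2 + m * d.2) ∈ D ∧ val (f.1 + m * d.1, f.2 + m * d.2) = val f ∧
        ∃ g, Mpl151Nb (f.1 + m * d.1, f.2 + m * d.2) g ∧ g ∉ D := by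
  induction n with
  | zero =>
    left
    simp only [Nat.cast_zero, zero_mul, add_zero]
    exact ⟨hf, trivial⟩
  | succ n ih =>
    rcases ih with ⟨h1, h2⟩ | ⟨m, hm, h⟩
    · have hnb : Mpl151Nb (f.1 + n * d.1, f.2 + n * d.2) (f.1 + (n + 1 : ℕ) * d.1, f.2 + (n + 1 : ℕ) * d.2) := by
        unfold Mpl151Nb
        rcases hd with rfl | rfl | rfl | rfl <;> dsimp only <;> push_cast <;> omega
      by_cases hin : (f.1 + (n + 1 : ℕ) * d.1, f.2 + (n + 1 : ℕ) * d.2) ∈ D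
      · exact Or.inl ⟨hin, (hval _ _ h1 hnb).trans h2⟩
      · exact Or.inr ⟨n, Nat.lt_succ_self n, h1, h2, _, hnb, hin⟩
    · exact Or.inr ⟨m, Nat.lt_succ_of_lt hm, h⟩

theorem mpl151_nb_co (e : (ℤ × ℤ) × Bool) : Mpl151Nb e.1 (rswCo e) := by
  obtain ⟨⟨x, y⟩, c⟩ := e
  cases c <;> simp [Mpl151Nb, rswCo]

theorem mpl151_box_nb {z f g : ℤ × ℤ} {n : ℕ} (hf : f ∈ rswBox z n) (h : Mpl151Nb f g) : g ∈ rswBox z (n + 1) := by
  rw [mpl151_mem_box] at hf ⊢
  unfold Mpl151Nb at h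
  push_cast
  omega

/-- a straight walk leaves a finite set -/
theorem mpl151_esc (D : Finset (ℤ × ℤ)) (w : ℤ × ℤ) {d : ℤ × ℤ} (hd : d = (1, 0) ∨ d = (-1, 0) ∨ d = (0, 1) ∨ d = (0, -1)) :
    ∃ n : ℕ, (w.1 + n * d.1, w.2 + n * d.2) ∉ D := by
  refine ⟨D.sup (fun f => f.1.natAbs + f.2.natAbs) + w.1.natAbs + w.2.natAbs + 1, fun hc => ?_⟩
  have h := Finset.le_sup (f := fun f : ℤ × ℤ => f.1.natAbs + f.2.natAbs) hc
  generalize D.sup (fun f => f.1.natAbs + f.2.natAbs) = N at h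
  rcases hd with rfl | rfl | rfl | rfl <;> dsimp only at h <;> omega

/-- **(DET)** [statement and proof of 11, 21:12Z].  `D` is cut off by good edges of colour `a`, its exterior is star connected, `z` and `w` are strictly inside `D` and no isolated part of `D` separates
them; `D` does not contain `rswBox z r1` and `w` lies off `rswBox z r2`.  Then the good edges of the OTHER colour do not separate `rswBox z r1` from `F \ rswBox z r2`. -/
theorem mpl151_det {F D : Finset (ℤ × ℤ)} {a : Bool} {ω : RswCfg} {z w : ℤ × ℤ} {r1 r2 : ℕ}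
    (hext : At92hExt D) (hcut : RswCut D a ω) (hz : z ∈ rsxIn D) (hw : w ∈ rsxIn D) (hconn : Rsf164Conn D z w)
    (h1 : 1 ≤ r1) (h12 : r1 ≤ r2) (hr1 : ¬ rswBox z r1 ⊆ D) (hF : rswBox z (r2 + 1) ⊆ F) (hwout : w ∉ rswBox z r2) :
    ¬ RswSep F (!a) ω (rswBox z r1) (F \ rswBox z r2) := by
  classical
  intro hsep
  -- the faces reached from the small box
  obtain ⟨U, hU⟩ : ∃ U : Finset (ℤ × ℤ), U = F.filter (fun g => ∃ f ∈ rswBox z r1, Relation.ReflTransGen (RswStep F (!a) ω) f g) :=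
    ⟨_, rfl⟩
  have hU1 : rswBox z r1 ⊆ U := fun f hf => by
    rw [hU]
    exact mem_filter.2 ⟨hF (mpl151_box_mono z (by omega) hf), f, hf, Relation.ReflTransGen.refl⟩
  have hU2 : U ⊆ rswBox z r2 := by
    intro g hg
    rw [hU] at hg
    obtain ⟨hgF, f, hf, hr⟩ := mem_filter.1 hg
    by_contra hc
    exact hsep f hf g (mem_sdiff.2 ⟨hgF, hc⟩) hr
  have hUcut : RswCut U (!a) ω := by
    intro e he
    by_contra hgood
    rcases he with ⟨c1, c2⟩ | ⟨c1, c2⟩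
    · have hF2 : rswCo e ∈ F := hF (mpl151_box_nb (hU2 c1) (mpl151_nb_co e))
      rw [hU] at c1 c2
      obtain ⟨hF1, f, hf, hr⟩ := mem_filter.1 c1
      exact c2 (mem_filter.2 ⟨hF2, f, hf, hr.tail ⟨hF1, hF2, e, Or.inl ⟨rfl, rfl⟩, hgood⟩⟩)
    · have hF2 : e.1 ∈ F := hF (mpl151_box_nb (hU2 c2) (mpl151_nb_symm (mpl151_nb_co e)))
      rw [hU] at c1 c2
      obtain ⟨hF1, f, hf, hr⟩ := mem_filter.1 c2
      exact c1 (mem_filter.2 ⟨hF2, f, hf, hr.tail ⟨hF1, hF2, e, Or.inr ⟨rfl, rfl⟩, hgood⟩⟩)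
  -- the two rims have no common vertex
  have hdich : ∀ v, ¬ (v ∈ cornersOf D ∧ v ∉ rskCore D) ∨ ¬ (v ∈ cornersOf U ∧ v ∉ rskCore U) := by
    intro v
    by_contra hc
    rw [not_or, not_not, not_not] at hc
    have c1 := rsk_cut_rim hcut hc.1.1 hc.1.2
    have c2 := rsk_cut_rim hUcut hc.2.1 hc.2.2
    cases a <;> simp_all
  obtain ⟨ψ, hψ⟩ := mpl151_pot hdich
  have S1 : ∀ f g, f ∉ D → Mpl151Nb f g → ψ g = ψ f := by
    intro f g hf hnb
    have := hψ f g hnb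
    rw [rsx_ind_neg hf, mul_zero] at this
    linarith
  obtain ⟨val, hval⟩ : ∃ val : ℤ × ℤ → ℝ, ∀ f, val f = ψ f - rsxInd (f ∈ U) := ⟨_, fun _ => rfl⟩
  have S2 : ∀ f g, f ∈ D → Mpl151Nb f g → val g = val f := by
    intro f g hf hnb
    have := hψ f g hnb
    rw [rsx_ind_pos hf, mul_one] at this
    rw [hval, hval]
    linarith
  obtain ⟨g0, hg0B, hg0D⟩ := Finset.not_subset.1 hr1
  -- `ψ` is constant off `D`
  have hconst : ∀ g, g ∉ D → ψ g = ψ g0 := by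
    have := hext {f | f ∉ D ∧ ψ f = ψ g0} (fun f hf => hf.1) ⟨g0, hg0D, rfl⟩ (by
      rintro ⟨fx, fy⟩ ⟨hfD, hfψ⟩ ⟨gx, gy⟩ hgD ⟨a1, a2⟩
      refine ⟨hgD, ?_⟩
      simp only [abs_le] at a1 a2
      have e1 : ψ (gx, fy) = ψ (fx, fy) := by
        by_cases hx : gx = fx
        · rw [hx]
        · exact S1 _ _ hfD (by unfold Mpl151Nb; dsimp only; omega)
      have e2 : ψ (gx, fy) = ψ (gx, gy) := by
        by_cases hy : gy = fy
        · rw [hy]
        · exact S1 _ _ hgD (by unfold Mpl151Nb; dsimp only; omega)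
      rw [← e2, e1, hfψ])
    exact fun g hg => (this g hg).2
  have hexit : ∀ f g, f ∈ D → val f = val z → Mpl151Nb f g → g ∉ D → rsxInd (f ∈ U) = ψ g0 - val z := by
    intro f g hf hv hnb hg
    have e1 : ψ f = ψ g := S1 g f hg (mpl151_nb_symm hnb)
    have e2 := hconst g hg
    rw [hval f] at hv
    linarith
  have zD : z ∈ D := (rsx_mem_in.1 hz).1
  rw [mpl151_mem_box] at hg0B
  -- (ii) an exit in the small box
  have hin : (1 : ℝ) = ψ g0 - val z := by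
    obtain ⟨s, n, hs, hn⟩ : ∃ (s : ℤ) (n : ℕ), (s = 1 ∨ s = -1) ∧ g0.1 = z.1 + n * s := by
      rcases le_total z.1 g0.1 with h | h
      · exact ⟨1, (g0.1 - z.1).toNat, Or.inl rfl, by omega⟩
      · exact ⟨-1, (z.1 - g0.1).toNat, Or.inr rfl, by omega⟩
    obtain ⟨s', n', hs', hn'⟩ : ∃ (s : ℤ) (n : ℕ), (s = 1 ∨ s = -1) ∧ g0.2 = z.2 + n * s := by
      rcases le_total z.2 g0.2 with h | h
      · exact ⟨1, (g0.2 - z.2).toNat, Or.inl rfl, by omega⟩
      · exact ⟨-1, (z.2 - g0.2).toNat, Or.inr rfl, by omega⟩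
    have hd : ((s, 0) : ℤ × ℤ) = (1, 0) ∨ ((s, 0) : ℤ × ℤ) = (-1, 0) ∨ ((s, 0) : ℤ × ℤ) = (0, 1) ∨ ((s, 0) : ℤ × ℤ) = (0, -1) := by
      rcases hs with rfl | rfl <;> simp
    have hd' : ((0, s') : ℤ × ℤ) = (1, 0) ∨ ((0, s') : ℤ × ℤ) = (-1, 0) ∨ ((0, s') : ℤ × ℤ) = (0, 1) ∨ ((0, s') : ℤ × ℤ) = (0, -1) := by
      rcases hs' with rfl | rfl <;> simp
    rcases mpl151_line S2 zD hd n with ⟨a1, a2⟩ | ⟨m, hm, a1, a2, g, hnb, hg⟩
    · rcases mpl151_line S2 a1 hd' n' with ⟨b1, _⟩ | ⟨m, hm, b1, b2, g, hnb, hg⟩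
      · exfalso
        apply hg0D
        have : g0 = (z.1 + n * s + n' * 0, z.2 + n * 0 + n' * s') := by
          ext
          · dsimp only; omega
          · dsimp only; omega
        rw [this]
        exact b1
      · rw [← hexit _ g b1 (b2.trans a2) hnb hg, rsx_ind_pos]
        apply hU1
        rw [mpl151_mem_box]
        dsimp only
        rcases hs' with rfl | rfl <;> omega
    · rw [← hexit _ g a1 a2 hnb hg, rsx_ind_pos]
      apply hU1
      rw [mpl151_mem_box]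
      dsimp only
      rcases hs with rfl | rfl <;> omega
  -- (i) an exit off the large box
  have hout : (0 : ℝ) = ψ g0 - val z := by
    obtain ⟨w1, w2, w3, w4⟩ := rsx_mem_in.1 hw
    have hCiso : RsxIsol D (D.filter (fun f => val f = val z)) := by
      intro e he
      obtain ⟨c1, c2⟩ := rsk_mem_int.1 he
      have := S2 e.1 (rswCo e) c1 (mpl151_nb_co e)
      simp only [mem_filter, c1, c2, true_and, this]
    have hwC := hconn _ (filter_subset _ _) hCiso (rsz_face_corner (mem_filter.2 ⟨zD, rfl⟩))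
    rw [rsk_mem_corners] at hwC
    have hvw : val w = val z := by
      rcases hwC with h | h | h | h
      · exact (mem_filter.1 h).2
      · exact (S2 _ w w2 (by unfold Mpl151Nb; dsimp only; omega)).trans (mem_filter.1 h).2
      · exact (S2 _ w w3 (by unfold Mpl151Nb; dsimp only; omega)).trans (mem_filter.1 h).2
      · have e1 := S2 (w.1 - 1, w.2 - 1) (w.1, w.2 - 1) w4 (by unfold Mpl151Nb; dsimp only; omega)
        have e2 := S2 (w.1, w.2 - 1) w w3 (by unfold Mpl151Nb; dsimp only; omega)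
        exact e2.trans (e1.trans (mem_filter.1 h).2)
    rw [mpl151_mem_box] at hwout
    obtain ⟨d, hd, hoff⟩ : ∃ d : ℤ × ℤ, (d = (1, 0) ∨ d = (-1, 0) ∨ d = (0, 1) ∨ d = (0, -1)) ∧
        ∀ m : ℕ, (w.1 + m * d.1, w.2 + m * d.2) ∉ rswBox z r2 := by
      by_cases c1 : w.1 < z.1 - r2
      · exact ⟨(-1, 0), by simp, fun m hm => by rw [mpl151_mem_box] at hm; dsimp only at hm; omega⟩
      by_cases c2 : z.1 + r2 ≤ w.1
      · exact ⟨(1, 0), by simp, fun m hm => by rw [mpl151_mem_box] at hm; dsimp only at hm; omega⟩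
      by_cases c3 : w.2 < z.2 - r2
      · exact ⟨(0, -1), by simp, fun m hm => by rw [mpl151_mem_box] at hm; dsimp only at hm; omega⟩
      · exact ⟨(0, 1), by simp, fun m hm => by rw [mpl151_mem_box] at hm; dsimp only at hm; omega⟩
    obtain ⟨n, hn⟩ := mpl151_esc D w hd
    rcases mpl151_line S2 w1 hd n with ⟨a1, _⟩ | ⟨m, _, a1, a2, g, hnb, hg⟩
    · exact absurd a1 hn
    · rw [← hexit _ g a1 (a2.trans hvw) hnb hg, rsx_ind_neg]
      exact fun hc => hoff m (hU2 hc)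
  linarith

theorem mpl151_det_eqns_cite : True := by
  have := @Mpl151Nb.eq_1
  trivial

end Claimed.Agent.R292
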