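import Claimed.Agent.R292.Rsw.Cmp291
import Claimed.Agent.R292.Rsw.Base122
import Claimed.Agent.R292.Model.Euler141
import Claimed.Agent.R292.Model.Kw41

/-!
# Row 292 (S0540), unit RSW, CmpInst291 : THE INSTANCE OF `prop:comparison` FOR `rswE`      (owner helper291; prefix `cmi291_`, defs `cmi291*`, `Cmi291*`)

Block R3 of the plan of 122.  `Cmp291` (any finite multigraph) + `Euler141` (eq. (3.5) over `ZMod 2`) are applied to
`V = Option {inner corners}` (`none` = the contracted polygon), `V' = F`, `ι = rswInt F`.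
-/

set_option autoImplicit false
set_option linter.unusedSectionVars false
set_option linter.unusedVariables false
set_option linter.unusedSimpArgs false

namespace Claimed.Agent.R292

open Finset
open Claims Claims.C0468
open Claimed.Agent.R291

/-! ## 1. generic: the `(s, W)` part of the edge factor (3.1) against `cmp291AT` -/

section Gen

variable {V ι : Type*} [Fintype V] [DecidableEq V] [Fintype ι] [DecidableEq ι]

/-- the `(s, W)` part of the edge factor (3.1) -/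
noncomputable def cmi291Base (p q : ι → V) (t : ℝ) (s : V → Bool) (W : Finset ι) (i : ι) : ℝ :=
  if i ∈ W then (if s (p i) = s (q i) then t else 0) else (if s (p i) = s (q i) then 1 - t else t)

theorem cmi291_base_AT (p q : ι → V) {t : ℝ} (ht : t ≠ 0) (s : V → Bool) (W : Finset ι) :
    (∏ i, cmi291Base p q t s W i) * 2 ^ W.card * (iszN Bool p q W : ℝ)
      = t ^ Fintype.card ι * cmp291AT p q ((1 - t) / t) s W := by
  unfold cmp291AT
  by_cases hm : ∀ i ∈ W, s (p i) = s (q i)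
  · rw [if_pos hm]
    have h2 : (2 : ℝ) ^ W.card = ∏ i, (if i ∈ W then (2:ℝ) else 1) := by
      rw [Finset.prod_ite_mem, Finset.univ_inter, Finset.prod_const]
    have ht' : t ^ Fintype.card ι = ∏ _i : ι, t := by rw [Finset.prod_const, Finset.card_univ]
    have key : (∏ i, cmi291Base p q t s W i) * ∏ i, (if i ∈ W then (2:ℝ) else 1)
        = (∏ _i : ι, t) * ∏ i, (if i ∈ W then 2 else if s (p i) = s (q i) then (1 - t) / t else 1) := by
      rw [← Finset.prod_mul_distrib, ← Finset.prod_mul_distrib]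
      refine Finset.prod_congr rfl fun i _ => ?_
      unfold cmi291Base
      by_cases hi : i ∈ W
      · rw [if_pos hi, if_pos hi, if_pos hi, if_pos (hm i hi)]
      · rw [if_neg hi, if_neg hi, if_neg hi]
        split_ifs
        · field_simp
        · ring
    rw [h2, ht', key]
    ring
  · rw [if_neg hm, mul_zero]
    push Not at hm
    obtain ⟨i, hi, hne⟩ := hm
    rw [Finset.prod_eq_zero (Finset.mem_univ i), zero_mul, zero_mul]
    unfold cmi291Base
    rw [if_pos hi, if_neg hne]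

/-- reindexing of a sum over a powerset by the finsets of the subtype -/
theorem cmi291_sum_powerset {α : Type*} [DecidableEq α] (A : Finset α) (h : Finset α → ℝ) :
    ∑ O ∈ A.powerset, h O = ∑ W : Finset ↥A, h (W.map (Function.Embedding.subtype _)) := by
  refine Finset.sum_nbij' (fun O => O.subtype (· ∈ A)) (fun W => W.map (Function.Embedding.subtype _))
    ?_ ?_ ?_ ?_ ?_
  · intro O _
    exact Finset.mem_univ _
  · intro W _
    rw [Finset.mem_powerset]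
    exact Finset.map_subtype_subset W
  · intro O hO
    exact Finset.subtype_map_of_mem (Finset.mem_powerset.1 hO)
  · intro W _
    ext i
    simp
  · intro O hO
    rw [Finset.subtype_map_of_mem (Finset.mem_powerset.1 hO)]

end Gen

/-! ## 2. the instance graph -/

section Inst

/-- the inner corners: all four faces around them are in `F` -/
noncomputable def cmi291Inn (F : Finset (ℤ × ℤ)) : Finset (ℤ × ℤ) :=
  open Classical in (cornersOf F).filter (fun v => ¬ OnPolygon F v)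

theorem cmi291_mem_inn {F : Finset (ℤ × ℤ)} {v : ℤ × ℤ} :
    v ∈ cmi291Inn F ↔ v ∈ cornersOf F ∧ ¬ OnPolygon F v := by
  classical
  unfold cmi291Inn
  rw [Finset.mem_filter]

/-- class of a vertex after contraction of the polygon -/
noncomputable def cmi291Cls (F : Finset (ℤ × ℤ)) (v : ℤ × ℤ) : Option ↥(cmi291Inn F) :=
  if h : v ∈ cmi291Inn F then some ⟨v, h⟩ else none

theorem cmi291_cls_inn {F : Finset (ℤ × ℤ)} (v : ↥(cmi291Inn F)) : cmi291Cls F v.1 = some v := by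
  unfold cmi291Cls
  rw [dif_pos v.2]

theorem cmi291_cls_out {F : Finset (ℤ × ℤ)} {v : ℤ × ℤ} (h : v ∉ cmi291Inn F) : cmi291Cls F v = none := by
  unfold cmi291Cls
  rw [dif_neg h]

/-- primal endpoints -/
noncomputable def cmi291P (F : Finset (ℤ × ℤ)) (i : ↥(rswInt F)) : Option ↥(cmi291Inn F) := cmi291Cls F i.1.1

noncomputable def cmi291Q (F : Finset (ℤ × ℤ)) (i : ↥(rswInt F)) : Option ↥(cmi291Inn F) := cmi291Cls F (rswEnd i.1)

/-- dual endpoints -/
def cmi291P' (F : Finset (ℤ × ℤ)) (i : ↥(rswInt F)) : ↥F := ⟨i.1.1, (rsz_mem_int.1 i.2).1⟩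

def cmi291Q' (F : Finset (ℤ × ℤ)) (i : ↥(rswInt F)) : ↥F := ⟨rswCo i.1, (rsz_mem_int.1 i.2).2⟩

/-- the set of plus vertices of a generic spin configuration -/
noncomputable def cmi291S (F : Finset (ℤ × ℤ)) (s : Option ↥(cmi291Inn F) → Bool) : Finset (ℤ × ℤ) :=
  (cornersOf F).filter (fun v => s (cmi291Cls F v) = true)

theorem cmi291_mem_S {F : Finset (ℤ × ℤ)} {s : Option ↥(cmi291Inn F) → Bool} {v : ℤ × ℤ} :
    v ∈ cmi291S F s ↔ v ∈ cornersOf F ∧ s (cmi291Cls F v) = true := by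
  unfold cmi291S
  rw [Finset.mem_filter]

/-- the generic spin configuration of a set of plus vertices -/
def cmi291Sp (F : Finset (ℤ × ℤ)) (b : Bool) (S : Finset (ℤ × ℤ)) : Option ↥(cmi291Inn F) → Bool
  | none => b
  | some v => decide (v.1 ∈ S)

/-- the open edges -/
def cmi291O (F : Finset (ℤ × ℤ)) (W : Finset ↥(rswInt F)) : Finset ((ℤ × ℤ) × Bool) :=
  W.map (Function.Embedding.subtype _)

theorem cmi291_mem_O {F : Finset (ℤ × ℤ)} {W : Finset ↥(rswInt F)} (i : ↥(rswInt F)) :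
    i.1 ∈ cmi291O F W ↔ i ∈ W := by
  unfold cmi291O
  simp

theorem cmi291_bc_S (F : Finset (ℤ × ℤ)) (s : Option ↥(cmi291Inn F) → Bool) (D : Finset (ℤ × ℤ))
    (O : Finset ((ℤ × ℤ) × Bool)) : RswBc F (s none) ⟨cmi291S F s, D, O⟩ := by
  intro v hv hp
  show v ∈ cmi291S F s ↔ _
  rw [cmi291_mem_S, cmi291_cls_out (fun h => (cmi291_mem_inn.1 h).2 hp)]
  exact ⟨fun h => h.2, fun h => ⟨hv, h⟩⟩

theorem cmi291_S_Sp {F : Finset (ℤ × ℤ)} {b : Bool} {S : Finset (ℤ × ℤ)} (hS : S ⊆ cornersOf F)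
    (hbc : ∀ v ∈ cornersOf F, OnPolygon F v → (v ∈ S ↔ b = true)) : cmi291S F (cmi291Sp F b S) = S := by
  ext v
  rw [cmi291_mem_S]
  by_cases hv : v ∈ cmi291Inn F
  · have : cmi291Cls F v = some ⟨v, hv⟩ := cmi291_cls_inn ⟨v, hv⟩
    rw [this]
    show v ∈ cornersOf F ∧ decide (v ∈ S) = true ↔ _
    rw [decide_eq_true_iff]
    exact ⟨fun h => h.2, fun h => ⟨hS h, h⟩⟩
  · rw [cmi291_cls_out hv]
    show v ∈ cornersOf F ∧ b = true ↔ _
    constructor
    · rintro ⟨h1, h2⟩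
      have hp : OnPolygon F v := by
        by_contra hp
        exact hv (cmi291_mem_inn.2 ⟨h1, hp⟩)
      exact (hbc v h1 hp).2 h2
    · intro h
      have h1 := hS h
      have hp : OnPolygon F v := by
        by_contra hp
        exact hv (cmi291_mem_inn.2 ⟨h1, hp⟩)
      exact ⟨h1, (hbc v h1 hp).1 h⟩

theorem cmi291_Sp_S {F : Finset (ℤ × ℤ)} (s : Option ↥(cmi291Inn F) → Bool) :
    cmi291Sp F (s none) (cmi291S F s) = s := by
  funext x
  cases x with
  | none => rfl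
  | some v =>
    show decide (v.1 ∈ cmi291S F s) = s (some v)
    have hv : v.1 ∈ cornersOf F := (cmi291_mem_inn.1 v.2).1
    have e : v.1 ∈ cmi291S F s ↔ s (some v) = true := by
      rw [cmi291_mem_S, cmi291_cls_inn v]
      exact ⟨fun h => h.2, fun h => ⟨hv, h⟩⟩
    cases h : s (some v)
    · rw [decide_eq_false_iff_not, e, h]
      exact Bool.false_ne_true
    · rw [decide_eq_true_iff, e, h]

/-- reindexing of the sum over `S` -/
theorem cmi291_sum_S (F : Finset (ℤ × ℤ)) (b : Bool) (h : Finset (ℤ × ℤ) → ℝ)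
    (h0 : ∀ S, ¬ (∀ v ∈ cornersOf F, OnPolygon F v → (v ∈ S ↔ b = true)) → h S = 0) :
    ∑ S ∈ (cornersOf F).powerset, h S
      = ∑ s : Option ↥(cmi291Inn F) → Bool, (if s none = b then h (cmi291S F s) else 0) := by
  classical
  rw [← Finset.sum_filter_of_ne (s := (cornersOf F).powerset)
    (p := fun S => ∀ v ∈ cornersOf F, OnPolygon F v → (v ∈ S ↔ b = true))
    (fun S _ hne => by by_contra hc; exact hne (h0 S hc))]
  rw [← Finset.sum_filter]
  refine Finset.sum_nbij' (cmi291Sp F b) (cmi291S F) ?_ ?_ ?_ ?_ ?_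
  · intro S _
    rw [Finset.mem_filter]
    exact ⟨Finset.mem_univ _, rfl⟩
  · intro s hs
    rw [Finset.mem_filter] at hs
    rw [Finset.mem_filter, Finset.mem_powerset]
    refine ⟨Finset.filter_subset _ _, ?_⟩
    have := cmi291_bc_S F s ∅ ∅
    rw [hs.2] at this
    exact this
  · intro S hS
    rw [Finset.mem_filter, Finset.mem_powerset] at hS
    exact cmi291_S_Sp hS.1 hS.2
  · intro s hs
    rw [Finset.mem_filter] at hs
    rw [← hs.2]
    exact cmi291_Sp_S s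
  · intro S hS
    rw [Finset.mem_filter, Finset.mem_powerset] at hS
    rw [cmi291_S_Sp hS.1 hS.2]

/-! ## 3. the sum over the face spins -/

/-- number of face colourings which are constant across the closed edges -/
noncomputable def cmi291Cnt (F : Finset (ℤ × ℤ)) (O : Finset ((ℤ × ℤ) × Bool)) : ℕ :=
  open Classical in
  (F.powerset.filter (fun D => ∀ e ∈ rswInt F, e ∉ O → (e.1 ∈ D ↔ rswCo e ∈ D))).card

/-- the `(S, O)` part of `rswFac` -/
noncomputable def cmi291CB (t : ℝ) (S : Finset (ℤ × ℤ)) (O : Finset ((ℤ × ℤ) × Bool))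
    (e : (ℤ × ℤ) × Bool) : ℝ :=
  if e ∈ O then (if (e.1 ∈ S ↔ rswEnd e ∈ S) then t else 0)
  else (if (e.1 ∈ S ↔ rswEnd e ∈ S) then 1 - t else t)

theorem cmi291_fac (t : ℝ) (S D : Finset (ℤ × ℤ)) (O : Finset ((ℤ × ℤ) × Bool)) (e : (ℤ × ℤ) × Bool) :
    rswFac t ⟨S, D, O⟩ e
      = open Classical in
        cmi291CB t S O e * (if (e ∉ O → (e.1 ∈ D ↔ rswCo e ∈ D)) then 1 else 0) := by
  classical
  unfold rswFac cmi291CB
  by_cases h1 : e ∈ O
  · simp only [h1, if_true, not_true_eq_false, false_imp_iff, mul_one]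
  · by_cases h2 : (e.1 ∈ D ↔ rswCo e ∈ D)
    · simp only [h1, if_false, h2, if_true, not_false_eq_true, true_imp_iff, mul_one]
    · simp only [h1, if_false, h2, not_false_eq_true, true_imp_iff, mul_zero]

theorem cmi291_sum_D (t : ℝ) (F : Finset (ℤ × ℤ)) (b : Bool) (S : Finset (ℤ × ℤ))
    (O : Finset ((ℤ × ℤ) × Bool)) (hbc : RswBc F b ⟨S, ∅, O⟩) (X : RswCfg → ℝ)
    (hX : ∀ D, X ⟨S, D, O⟩ = X ⟨S, ∅, O⟩) :
    ∑ D ∈ F.powerset, rswWt t F b ⟨S, D, O⟩ * X ⟨S, D, O⟩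
      = (∏ e ∈ rswInt F, cmi291CB t S O e) * (cmi291Cnt F O : ℝ) * X ⟨S, ∅, O⟩ := by
  classical
  have hw : ∀ D, rswWt t F b ⟨S, D, O⟩ = (∏ e ∈ rswInt F, cmi291CB t S O e)
      * (if ∀ e ∈ rswInt F, e ∉ O → (e.1 ∈ D ↔ rswCo e ∈ D) then 1 else 0) := by
    intro D
    have hbc' : RswBc F b ⟨S, D, O⟩ := hbc
    rw [rsz_wt_of_bc hbc']
    simp_rw [cmi291_fac]
    rw [Finset.prod_mul_distrib, Finset.prod_ite_zero, Finset.prod_const_one]
  simp_rw [hw, hX]
  rw [← Finset.sum_mul, ← Finset.mul_sum, Finset.sum_boole]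
  unfold cmi291Cnt
  congr!

/-- the count of face colourings in the vocabulary of `IsingZ` -/
theorem cmi291_cnt_eq (F : Finset (ℤ × ℤ)) (W : Finset ↥(rswInt F)) :
    cmi291Cnt F (cmi291O F W) = iszN Bool (cmi291P' F) (cmi291Q' F) (univ \ W) := by
  classical
  unfold cmi291Cnt iszN
  refine Finset.card_nbij' (fun D => fun f : ↥F => decide (f.1 ∈ D))
    (fun σ => (univ.filter (fun f : ↥F => σ f = true)).map (Function.Embedding.subtype _)) ?_ ?_ ?_ ?_
  · intro D hD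
    simp only [Finset.coe_filter, Set.mem_ofPred_eq, Finset.mem_powerset, Finset.mem_univ, true_and] at hD ⊢
    intro i hi
    have hi' : i ∉ W := (Finset.mem_sdiff.1 hi).2
    have := hD.2 i.1 i.2 (fun h => hi' ((cmi291_mem_O i).1 h))
    exact decide_eq_decide.2 this
  · intro σ hσ
    simp only [Finset.coe_filter, Set.mem_ofPred_eq, Finset.mem_powerset, Finset.mem_univ, true_and] at hσ ⊢
    refine ⟨Finset.map_subtype_subset _, fun e he hO => ?_⟩
    have hi : (⟨e, he⟩ : ↥(rswInt F)) ∈ univ \ W :=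
      Finset.mem_sdiff.2 ⟨Finset.mem_univ _, fun h => hO ((cmi291_mem_O ⟨e, he⟩).2 h)⟩
    have h1 := hσ ⟨e, he⟩ hi
    have m1 : ∀ (f : ℤ × ℤ) (hf : f ∈ F),
        f ∈ (univ.filter (fun f : ↥F => σ f = true)).map (Function.Embedding.subtype _) ↔ σ ⟨f, hf⟩ = true := by
      intro f hf
      simp [hf]
    rw [m1 e.1 (rsz_mem_int.1 he).1, m1 (rswCo e) (rsz_mem_int.1 he).2]
    have h2 : σ ⟨e.1, (rsz_mem_int.1 he).1⟩ = σ ⟨rswCo e, (rsz_mem_int.1 he).2⟩ := h1
    rw [h2]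
  · intro D hD
    simp only [Finset.coe_filter, Set.mem_ofPred_eq, Finset.mem_powerset] at hD
    ext f
    simp only [Finset.mem_map, Finset.mem_filter, Finset.mem_univ, true_and, decide_eq_true_eq,
      Function.Embedding.coe_subtype, Subtype.exists, exists_and_left, exists_prop, exists_eq_right_right]
    exact ⟨fun h => h.1, fun h => ⟨h, hD.1 h⟩⟩
  · intro σ _
    funext f
    have : f.1 ∈ (univ.filter (fun f : ↥F => σ f = true)).map (Function.Embedding.subtype _) ↔ σ f = true := by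
      simp
    cases h : σ f
    · rw [decide_eq_false_iff_not, this, h]
      exact Bool.false_ne_true
    · rw [decide_eq_true_iff, this, h]

theorem cmi291_mono_iff (F : Finset (ℤ × ℤ)) (s : Option ↥(cmi291Inn F) → Bool) (i : ↥(rswInt F)) :
    (i.1.1 ∈ cmi291S F s ↔ rswEnd i.1 ∈ cmi291S F s) ↔ s (cmi291P F i) = s (cmi291Q F i) := by
  have h1 : i.1.1 ∈ cornersOf F := rsz_face_corner (rsz_mem_int.1 i.2).1
  have h2 : rswEnd i.1 ∈ cornersOf F := rsz_end_corner (rsz_mem_int.1 i.2).1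
  rw [cmi291_mem_S, cmi291_mem_S]
  unfold cmi291P cmi291Q
  simp only [h1, h2, true_and]
  exact Bool.eq_iff_iff.symm

theorem cmi291_prod_CB (t : ℝ) (F : Finset (ℤ × ℤ)) (s : Option ↥(cmi291Inn F) → Bool)
    (W : Finset ↥(rswInt F)) :
    ∏ e ∈ rswInt F, cmi291CB t (cmi291S F s) (cmi291O F W) e
      = ∏ i, cmi291Base (cmi291P F) (cmi291Q F) t s W i := by
  rw [← Finset.prod_coe_sort]
  refine Finset.prod_congr rfl fun i _ => ?_
  unfold cmi291CB cmi291Base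
  by_cases h1 : i ∈ W
  · rw [if_pos ((cmi291_mem_O i).2 h1), if_pos h1]
    by_cases h2 : s (cmi291P F i) = s (cmi291Q F i)
    · rw [if_pos ((cmi291_mono_iff F s i).2 h2), if_pos h2]
    · rw [if_neg (fun h => h2 ((cmi291_mono_iff F s i).1 h)), if_neg h2]
  · rw [if_neg (fun h => h1 ((cmi291_mem_O i).1 h)), if_neg h1]
    by_cases h2 : s (cmi291P F i) = s (cmi291Q F i)
    · rw [if_pos ((cmi291_mono_iff F s i).2 h2), if_pos h2]
    · rw [if_neg (fun h => h2 ((cmi291_mono_iff F s i).1 h)), if_neg h2]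

/-- **the flat problem in generic variables** (observables which do not read the face spins) -/
theorem cmi291_sum_eq (t : ℝ) (F : Finset (ℤ × ℤ)) (b : Bool) (X : RswCfg → ℝ)
    (hX : ∀ S D O, X ⟨S, D, O⟩ = X ⟨S, ∅, O⟩) :
    rswSum t F b X = ∑ s : Option ↥(cmi291Inn F) → Bool, ∑ W : Finset ↥(rswInt F),
      (if s none = b then 1 else 0)
        * ((∏ i, cmi291Base (cmi291P F) (cmi291Q F) t s W i)
          * (iszN Bool (cmi291P' F) (cmi291Q' F) (univ \ W) : ℝ))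
        * X ⟨cmi291S F s, ∅, cmi291O F W⟩ := by
  unfold rswSum
  rw [cmi291_sum_S F b]
  · refine Finset.sum_congr rfl fun s _ => ?_
    by_cases hs : s none = b
    · rw [if_pos hs, Finset.sum_comm, cmi291_sum_powerset]
      refine Finset.sum_congr rfl fun W _ => ?_
      have hbc : RswBc F b ⟨cmi291S F s, ∅, cmi291O F W⟩ := hs ▸ cmi291_bc_S F s ∅ _
      have := cmi291_sum_D t F b (cmi291S F s) (cmi291O F W) hbc X (fun D => hX _ D _)
      rw [if_pos hs, one_mul, ← cmi291_prod_CB, ← cmi291_cnt_eq]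
      exact this
    · rw [if_neg hs]
      symm
      refine Finset.sum_eq_zero fun W _ => ?_
      rw [if_neg hs, zero_mul, zero_mul]
  · intro S hS
    refine Finset.sum_eq_zero fun D _ => Finset.sum_eq_zero fun O _ => ?_
    have : ¬ RswBc F b ⟨S, D, O⟩ := hS
    rw [rsz_wt_eq_zero this, zero_mul]

/-! ## 4. Euler's relation and the passage to `cmp291AT` -/

/-- eq. (3.5) for the instance graph (from `mdl141e_duality_bool`, see Sec. 6) -/
def Cmi291Dual (F : Finset (ℤ × ℤ)) : Prop :=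
  ∀ W : Finset ↥(rswInt F),
    iszN Bool (cmi291P F) (cmi291Q F) W * 2 ^ W.card * iszN Bool (cmi291P' F) (cmi291Q' F) univ
      = 2 ^ Fintype.card (Option ↥(cmi291Inn F)) * iszN Bool (cmi291P' F) (cmi291Q' F) (univ \ W)

/-- the vertex factor: boundary colour `b` and a factor `Ψ` of the set of plus vertices -/
noncomputable def cmi291Phi (F : Finset (ℤ × ℤ)) (b : Bool) (Ψ : Finset (ℤ × ℤ) → ℝ)
    (s : Option ↥(cmi291Inn F) → Bool) : ℝ :=
  (if s none = b then 1 else 0) * Ψ (cmi291S F s)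

/-- the constant of the dictionary -/
noncomputable def cmi291K (t : ℝ) (F : Finset (ℤ × ℤ)) : ℝ :=
  (iszN Bool (cmi291P' F) (cmi291Q' F) univ : ℝ) * t ^ Fintype.card ↥(rswInt F)

theorem cmi291_K_pos {t : ℝ} (ht : 0 < t) (F : Finset (ℤ × ℤ)) : 0 < cmi291K t F := by
  unfold cmi291K
  refine mul_pos ?_ (pow_pos ht _)
  have : 0 < iszN Bool (cmi291P' F) (cmi291Q' F) univ := by
    unfold iszN
    refine Finset.card_pos.2 ⟨fun _ => true, ?_⟩
    rw [Finset.mem_filter]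
    exact ⟨Finset.mem_univ _, fun _ _ => rfl⟩
  exact_mod_cast this

theorem cmi291_sum_AT {t : ℝ} (ht : t ≠ 0) {F : Finset (ℤ × ℤ)} (hF : Cmi291Dual F) (b : Bool)
    (Ψ : Finset (ℤ × ℤ) → ℝ) (X : RswCfg → ℝ) (hX : ∀ S D O, X ⟨S, D, O⟩ = X ⟨S, ∅, O⟩) :
    (2 : ℝ) ^ Fintype.card (Option ↥(cmi291Inn F)) * rswSum t F b (fun ω => Ψ ω.S * X ω)
      = cmi291K t F * ∑ s : Option ↥(cmi291Inn F) → Bool, ∑ W : Finset ↥(rswInt F),
          cmi291Phi F b Ψ s * cmp291AT (cmi291P F) (cmi291Q F) ((1 - t) / t) s W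
            * X ⟨cmi291S F s, ∅, cmi291O F W⟩ := by
  rw [cmi291_sum_eq t F b (fun ω => Ψ ω.S * X ω) (fun S D O => by simp only; rw [hX S D O]),
    Finset.mul_sum, Finset.mul_sum]
  refine Finset.sum_congr rfl fun s _ => ?_
  rw [Finset.mul_sum, Finset.mul_sum]
  refine Finset.sum_congr rfl fun W _ => ?_
  have h1 := cmi291_base_AT (cmi291P F) (cmi291Q F) ht s W
  have h2 : (iszN Bool (cmi291P F) (cmi291Q F) W : ℝ) * 2 ^ W.card
        * (iszN Bool (cmi291P' F) (cmi291Q' F) univ : ℝ)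
      = 2 ^ Fintype.card (Option ↥(cmi291Inn F)) * (iszN Bool (cmi291P' F) (cmi291Q' F) (univ \ W) : ℝ) := by
    exact_mod_cast hF W
  unfold cmi291Phi cmi291K
  simp only
  linear_combination
    (-((if s none = b then (1:ℝ) else 0) * (Ψ (cmi291S F s) * X ⟨cmi291S F s, ∅, cmi291O F W⟩)
        * ∏ i, cmi291Base (cmi291P F) (cmi291Q F) t s W i)) * h2
    + ((if s none = b then (1:ℝ) else 0) * (Ψ (cmi291S F s) * X ⟨cmi291S F s, ∅, cmi291O F W⟩)
        * (iszN Bool (cmi291P' F) (cmi291Q' F) univ : ℝ)) * h1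

/-! ## 5. the order `(S, O ∩ plus, - O ∩ minus)`, association and comparison for the flat problems -/

/-- the order (3.4) on configurations (the face spins are not read) -/
def Cmi291Le (ω ω' : RswCfg) : Prop :=
  ω.S ⊆ ω'.S ∧ (∀ e ∈ ω.O, e.1 ∈ ω.S → rswEnd e ∈ ω.S → e ∈ ω'.O) ∧
    (∀ e ∈ ω'.O, e.1 ∉ ω'.S → rswEnd e ∉ ω'.S → e ∈ ω.O)

/-- increasing observable -/
def Cmi291Inc (X : RswCfg → ℝ) : Prop := ∀ ω ω', Cmi291Le ω ω' → X ω ≤ X ω'

/-- increasing event -/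
def Cmi291IncP (L : RswCfg → Prop) : Prop := ∀ ω ω', Cmi291Le ω ω' → L ω → L ω'

theorem cmi291_le_refl_D (S D D' : Finset (ℤ × ℤ)) (O : Finset ((ℤ × ℤ) × Bool)) :
    Cmi291Le ⟨S, D, O⟩ ⟨S, D', O⟩ :=
  ⟨Finset.Subset.refl _, fun _ h _ _ => h, fun _ h _ _ => h⟩

theorem Cmi291Inc.noD {X : RswCfg → ℝ} (hX : Cmi291Inc X) (S D : Finset (ℤ × ℤ))
    (O : Finset ((ℤ × ℤ) × Bool)) : X ⟨S, D, O⟩ = X ⟨S, ∅, O⟩ :=
  le_antisymm (hX _ _ (cmi291_le_refl_D S D ∅ O)) (hX _ _ (cmi291_le_refl_D S ∅ D O))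

theorem cmi291_S_mono {F : Finset (ℤ × ℤ)} {s s' : Option ↥(cmi291Inn F) → Bool} (h : s ≤ s') :
    cmi291S F s ⊆ cmi291S F s' := by
  intro v hv
  rw [cmi291_mem_S] at hv ⊢
  exact ⟨hv.1, le_antisymm le_top (hv.2 ▸ h _)⟩

theorem cmi291_S_inf {F : Finset (ℤ × ℤ)} (s s' : Option ↥(cmi291Inn F) → Bool) :
    cmi291S F (s ⊓ s') = cmi291S F s ∩ cmi291S F s' := by
  ext v
  rw [Finset.mem_inter, cmi291_mem_S, cmi291_mem_S, cmi291_mem_S, Pi.inf_apply]
  cases s (cmi291Cls F v) <;> cases s' (cmi291Cls F v) <;> simp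

theorem cmi291_S_sup {F : Finset (ℤ × ℤ)} (s s' : Option ↥(cmi291Inn F) → Bool) :
    cmi291S F (s ⊔ s') = cmi291S F s ∪ cmi291S F s' := by
  ext v
  rw [Finset.mem_union, cmi291_mem_S, cmi291_mem_S, cmi291_mem_S, Pi.sup_apply]
  cases s (cmi291Cls F v) <;> cases s' (cmi291Cls F v) <;> simp

/-- an increasing observable is increasing in the generic order -/
theorem cmi291_inc_gen {F : Finset (ℤ × ℤ)} {X : RswCfg → ℝ} (hX : Cmi291Inc X) :
    cmp291Inc (cmi291P F) (cmi291Q F) (fun s W => X ⟨cmi291S F s, ∅, cmi291O F W⟩) := by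
  intro s s' W W' hs h1 h2
  refine hX _ _ ⟨cmi291_S_mono hs, ?_, ?_⟩
  · intro e he ha hb
    obtain ⟨i, hi, rfl⟩ := Finset.mem_map.1 he
    have ha' := (cmi291_mem_S.1 ha).2
    have hb' := (cmi291_mem_S.1 hb).2
    have : i ∈ W ∩ cmp291Ep (cmi291P F) (cmi291Q F) s :=
      Finset.mem_inter.2 ⟨hi, (cmp291_mem_Ep _ _ _ _).2 ⟨ha', hb'⟩⟩
    exact (cmi291_mem_O i).2 (Finset.mem_inter.1 (h1 this)).1
  · intro e he ha hb
    obtain ⟨i, hi, rfl⟩ := Finset.mem_map.1 he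
    have c1 : i.1.1 ∈ cornersOf F := rsz_face_corner (rsz_mem_int.1 i.2).1
    have c2 : rswEnd i.1 ∈ cornersOf F := rsz_end_corner (rsz_mem_int.1 i.2).1
    have ha' : s' (cmi291P F i) = false := by
      by_contra hc
      exact ha (cmi291_mem_S.2 ⟨c1, Bool.eq_true_of_not_eq_false hc⟩)
    have hb' : s' (cmi291Q F i) = false := by
      by_contra hc
      exact hb (cmi291_mem_S.2 ⟨c2, Bool.eq_true_of_not_eq_false hc⟩)
    have : i ∈ W' ∩ cmp291Em (cmi291P F) (cmi291Q F) s' :=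
      Finset.mem_inter.2 ⟨hi, (cmp291_mem_Em _ _ _ _).2 ⟨ha', hb'⟩⟩
    exact (cmi291_mem_O i).2 (Finset.mem_inter.1 (h2 this)).1

theorem cmi291_Phi_nonneg {F : Finset (ℤ × ℤ)} (b : Bool) {Ψ : Finset (ℤ × ℤ) → ℝ} (h : ∀ S, 0 ≤ Ψ S)
    (s : Option ↥(cmi291Inn F) → Bool) : 0 ≤ cmi291Phi F b Ψ s := by
  unfold cmi291Phi
  refine mul_nonneg ?_ (h _)
  split_ifs
  · exact zero_le_one
  · exact le_rfl

theorem cmi291_Phi_holley {F : Finset (ℤ × ℤ)} {b₁ b₂ : Bool} (hb : b₁ ≤ b₂) {Ψ₁ Ψ₂ : Finset (ℤ × ℤ) → ℝ}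
    (h1 : ∀ S, 0 ≤ Ψ₁ S) (h2 : ∀ S, 0 ≤ Ψ₂ S)
    (h : ∀ S S', Ψ₁ S * Ψ₂ S' ≤ Ψ₁ (S ∩ S') * Ψ₂ (S ∪ S')) (s s' : Option ↥(cmi291Inn F) → Bool) :
    cmi291Phi F b₁ Ψ₁ s * cmi291Phi F b₂ Ψ₂ s'
      ≤ cmi291Phi F b₁ Ψ₁ (s ⊓ s') * cmi291Phi F b₂ Ψ₂ (s ⊔ s') := by
  unfold cmi291Phi
  rw [cmi291_S_inf, cmi291_S_sup]
  by_cases e1 : s none = b₁
  · by_cases e2 : s' none = b₂
    · have e3 : (s ⊓ s') none = b₁ := by
        rw [Pi.inf_apply, e1, e2]; exact inf_eq_left.2 hb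
      have e4 : (s ⊔ s') none = b₂ := by
        rw [Pi.sup_apply, e1, e2]; exact sup_eq_right.2 hb
      rw [if_pos e1, if_pos e2, if_pos e3, if_pos e4]
      simpa only [one_mul] using h _ _
    · rw [if_neg e2, zero_mul, mul_zero]
      refine mul_nonneg (mul_nonneg ?_ (h1 _)) (mul_nonneg ?_ (h2 _)) <;> split_ifs <;> norm_num
  · rw [if_neg e1, zero_mul, zero_mul]
    refine mul_nonneg (mul_nonneg ?_ (h1 _)) (mul_nonneg ?_ (h2 _)) <;> split_ifs <;> norm_num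

theorem cmi291_r_nonneg {t : ℝ} (h0 : 0 < t) (h1 : t ≤ 1) : 0 ≤ (1 - t) / t :=
  div_nonneg (by linarith) h0.le

/-- **comparison for the flat problems** (unnormalised): raise the boundary colour and the vertex factor -/
theorem cmi291_holley {t : ℝ} (h0 : 0 < t) (h1 : t ≤ 1) {F : Finset (ℤ × ℤ)} (hF : Cmi291Dual F)
    {b₁ b₂ : Bool} (hb : b₁ ≤ b₂) {Ψ₁ Ψ₂ : Finset (ℤ × ℤ) → ℝ} (hΨ1 : ∀ S, 0 ≤ Ψ₁ S) (hΨ2 : ∀ S, 0 ≤ Ψ₂ S)
    (hΨ : ∀ S S', Ψ₁ S * Ψ₂ S' ≤ Ψ₁ (S ∩ S') * Ψ₂ (S ∪ S')) {X : RswCfg → ℝ} (hX : Cmi291Inc X) :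
    rswSum t F b₁ (fun ω => Ψ₁ ω.S * X ω) * rswSum t F b₂ (fun ω => Ψ₂ ω.S)
      ≤ rswSum t F b₁ (fun ω => Ψ₁ ω.S) * rswSum t F b₂ (fun ω => Ψ₂ ω.S * X ω) := by
  have key := cmp291_AT_holley (cmi291P F) (cmi291Q F) (cmi291_r_nonneg h0 h1)
    (cmi291_Phi_nonneg (F := F) b₁ hΨ1) (cmi291_Phi_nonneg (F := F) b₂ hΨ2)
    (cmi291_Phi_holley hb hΨ1 hΨ2 hΨ) (cmi291_inc_gen (F := F) hX)
  have a1 := cmi291_sum_AT h0.ne' hF b₁ Ψ₁ X hX.noD
  have a2 := cmi291_sum_AT h0.ne' hF b₂ Ψ₂ X hX.noD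
  have a3 := cmi291_sum_AT h0.ne' hF b₁ Ψ₁ (fun _ => 1) (fun _ _ _ => rfl)
  have a4 := cmi291_sum_AT h0.ne' hF b₂ Ψ₂ (fun _ => 1) (fun _ _ _ => rfl)
  simp only [mul_one] at a3 a4
  have hK := cmi291_K_pos h0 F
  have hc : (0 : ℝ) < (2 : ℝ) ^ Fintype.card (Option ↥(cmi291Inn F)) := by positivity
  refine le_of_mul_le_mul_left ?_ (mul_pos hc hc)
  calc (2 : ℝ) ^ Fintype.card (Option ↥(cmi291Inn F)) * (2 : ℝ) ^ Fintype.card (Option ↥(cmi291Inn F))
        * (rswSum t F b₁ (fun ω => Ψ₁ ω.S * X ω) * rswSum t F b₂ (fun ω => Ψ₂ ω.S))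
      = ((2 : ℝ) ^ Fintype.card (Option ↥(cmi291Inn F)) * rswSum t F b₁ (fun ω => Ψ₁ ω.S * X ω))
        * ((2 : ℝ) ^ Fintype.card (Option ↥(cmi291Inn F)) * rswSum t F b₂ (fun ω => Ψ₂ ω.S)) := by ring
    _ ≤ ((2 : ℝ) ^ Fintype.card (Option ↥(cmi291Inn F)) * rswSum t F b₁ (fun ω => Ψ₁ ω.S))
        * ((2 : ℝ) ^ Fintype.card (Option ↥(cmi291Inn F)) * rswSum t F b₂ (fun ω => Ψ₂ ω.S * X ω)) := by
        rw [a1, a2, a3, a4]
        have := mul_le_mul_of_nonneg_left key (mul_pos hK hK).le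
        nlinarith [this]
    _ = _ := by ring

/-- **association for the flat problems** (unnormalised, with a vertex factor) -/
theorem cmi291_fkg_sum {t : ℝ} (h0 : 0 < t) (h1 : t ≤ 1) {F : Finset (ℤ × ℤ)} (hF : Cmi291Dual F)
    (b : Bool) {Ψ : Finset (ℤ × ℤ) → ℝ} (hΨ0 : ∀ S, 0 ≤ Ψ S)
    (hΨ : ∀ S S', Ψ S * Ψ S' ≤ Ψ (S ∩ S') * Ψ (S ∪ S')) {X Y : RswCfg → ℝ} (hX : Cmi291Inc X)
    (hY : Cmi291Inc Y) :
    rswSum t F b (fun ω => Ψ ω.S * X ω) * rswSum t F b (fun ω => Ψ ω.S * Y ω)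
      ≤ rswSum t F b (fun ω => Ψ ω.S) * rswSum t F b (fun ω => Ψ ω.S * (X ω * Y ω)) := by
  have key := cmp291_AT_fkg (cmi291P F) (cmi291Q F) (cmi291_r_nonneg h0 h1)
    (cmi291_Phi_nonneg (F := F) b hΨ0) (cmi291_Phi_holley le_rfl hΨ0 hΨ0 hΨ)
    (cmi291_inc_gen (F := F) hX) (cmi291_inc_gen (F := F) hY)
  have a1 := cmi291_sum_AT h0.ne' hF b Ψ X hX.noD
  have a2 := cmi291_sum_AT h0.ne' hF b Ψ Y hY.noD
  have a3 := cmi291_sum_AT h0.ne' hF b Ψ (fun _ => 1) (fun _ _ _ => rfl)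
  have a4 := cmi291_sum_AT h0.ne' hF b Ψ (fun ω => X ω * Y ω)
    (fun S D O => by rw [hX.noD S D O, hY.noD S D O])
  simp only [mul_one] at a3
  have hK := cmi291_K_pos h0 F
  have hc : (0 : ℝ) < (2 : ℝ) ^ Fintype.card (Option ↥(cmi291Inn F)) := by positivity
  refine le_of_mul_le_mul_left ?_ (mul_pos hc hc)
  calc (2 : ℝ) ^ Fintype.card (Option ↥(cmi291Inn F)) * (2 : ℝ) ^ Fintype.card (Option ↥(cmi291Inn F))
        * (rswSum t F b (fun ω => Ψ ω.S * X ω) * rswSum t F b (fun ω => Ψ ω.S * Y ω))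
      = ((2 : ℝ) ^ Fintype.card (Option ↥(cmi291Inn F)) * rswSum t F b (fun ω => Ψ ω.S * X ω))
        * ((2 : ℝ) ^ Fintype.card (Option ↥(cmi291Inn F)) * rswSum t F b (fun ω => Ψ ω.S * Y ω)) := by ring
    _ ≤ ((2 : ℝ) ^ Fintype.card (Option ↥(cmi291Inn F)) * rswSum t F b (fun ω => Ψ ω.S))
        * ((2 : ℝ) ^ Fintype.card (Option ↥(cmi291Inn F))
          * rswSum t F b (fun ω => Ψ ω.S * (X ω * Y ω))) := by
        rw [a1, a2, a3, a4]
        have := mul_le_mul_of_nonneg_left key (mul_pos hK hK).le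
        nlinarith [this]
    _ = _ := by ring

/-! ## 6. normalised forms -/

/-- **FKG for `rswE`** -/
theorem cmi291_fkg {t : ℝ} (h0 : 0 < t) (h1 : t ≤ 1) {F : Finset (ℤ × ℤ)} (hF : Cmi291Dual F) (b : Bool)
    {X Y : RswCfg → ℝ} (hX : Cmi291Inc X) (hY : Cmi291Inc Y) :
    rswE t F b X * rswE t F b Y ≤ rswE t F b (fun ω => X ω * Y ω) := by
  have key := cmi291_fkg_sum h0 h1 hF b (Ψ := fun _ => 1) (fun _ => zero_le_one) (fun _ _ => le_rfl) hX hY
  simp only [one_mul] at key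
  have hZ := rsz_Z_pos h0 h1 F b
  unfold rswE
  rw [div_mul_div_comm, div_le_div_iff₀ (mul_pos hZ hZ) hZ]
  nlinarith [key, hZ]

/-- **monotonicity in the boundary colour** -/
theorem cmi291_mono_b {t : ℝ} (h0 : 0 < t) (h1 : t ≤ 1) {F : Finset (ℤ × ℤ)} (hF : Cmi291Dual F)
    {X : RswCfg → ℝ} (hX : Cmi291Inc X) : rswE t F false X ≤ rswE t F true X := by
  have key := cmi291_holley h0 h1 hF (b₁ := false) (b₂ := true) (Bool.false_le _)
    (Ψ₁ := fun _ => 1) (Ψ₂ := fun _ => 1) (fun _ => zero_le_one) (fun _ => zero_le_one)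
    (fun _ _ => le_rfl) hX
  simp only [one_mul] at key
  unfold rswE
  rw [div_le_div_iff₀ (rsz_Z_pos h0 h1 F false) (rsz_Z_pos h0 h1 F true),
    mul_comm (rswSum t F true X)]
  exact key

theorem Cmi291Inc.neg_anti {X : RswCfg → ℝ} (hX : ∀ ω ω', Cmi291Le ω ω' → X ω' ≤ X ω) :
    Cmi291Inc (fun ω => - X ω) := fun ω ω' h => neg_le_neg (hX ω ω' h)

open Classical in
theorem Cmi291IncP.ind {L : RswCfg → Prop} (hL : Cmi291IncP L) :
    Cmi291Inc (fun ω => if L ω then (1 : ℝ) else 0) := by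
  intro ω ω' h
  show (if L ω then (1 : ℝ) else 0) ≤ (if L ω' then (1 : ℝ) else 0)
  by_cases h1 : L ω
  · rw [if_pos h1, if_pos (hL ω ω' h h1)]
  · rw [if_neg h1]
    split_ifs
    · exact zero_le_one
    · exact le_rfl

/-- **FKG for increasing events** -/
theorem cmi291_fkg_P {t : ℝ} (h0 : 0 < t) (h1 : t ≤ 1) {F : Finset (ℤ × ℤ)} (hF : Cmi291Dual F) (b : Bool)
    {L L' : RswCfg → Prop} (hL : Cmi291IncP L) (hL' : Cmi291IncP L') :
    rswP t F b L * rswP t F b L' ≤ rswP t F b (fun ω => L ω ∧ L' ω) := by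
  classical
  rw [rsz_P_def, rsz_P_def, rsz_P_def]
  refine (cmi291_fkg h0 h1 hF b hL.ind hL'.ind).trans (le_of_eq ?_)
  congr 1
  funext ω
  by_cases a : L ω <;> by_cases a' : L' ω <;> simp [a, a']

/-- monotonicity in the boundary colour, events -/
theorem cmi291_mono_b_P {t : ℝ} (h0 : 0 < t) (h1 : t ≤ 1) {F : Finset (ℤ × ℤ)} (hF : Cmi291Dual F)
    {L : RswCfg → Prop} (hL : Cmi291IncP L) : rswP t F false L ≤ rswP t F true L := by
  classical
  rw [rsz_P_def, rsz_P_def]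
  exact cmi291_mono_b h0 h1 hF hL.ind

/-- a good plus edge stays good -/
theorem cmi291_good_true {ω ω' : RswCfg} (h : Cmi291Le ω ω') {e : (ℤ × ℤ) × Bool} (hg : RswGood true ω e) :
    RswGood true ω' e := by
  obtain ⟨g1, g2, g3⟩ := hg
  have a1 : e.1 ∈ ω.S := g2.2 rfl
  have a2 : rswEnd e ∈ ω.S := g3.2 rfl
  exact ⟨h.2.1 e g1 a1 a2, ⟨fun _ => rfl, fun _ => h.1 a1⟩, ⟨fun _ => rfl, fun _ => h.1 a2⟩⟩

/-- a good minus edge of the upper configuration is good in the lower one -/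
theorem cmi291_good_false {ω ω' : RswCfg} (h : Cmi291Le ω ω') {e : (ℤ × ℤ) × Bool} (hg : RswGood false ω' e) :
    RswGood false ω e := by
  obtain ⟨g1, g2, g3⟩ := hg
  have a1 : e.1 ∉ ω'.S := fun hh => Bool.false_ne_true (g2.1 hh)
  have a2 : rswEnd e ∉ ω'.S := fun hh => Bool.false_ne_true (g3.1 hh)
  refine ⟨h.2.2 e g1 a1 a2, ⟨fun hh => (a1 (h.1 hh)).elim, fun hh => (Bool.false_ne_true hh).elim⟩,
    ⟨fun hh => (a2 (h.1 hh)).elim, fun hh => (Bool.false_ne_true hh).elim⟩⟩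

/-- separation by plus circuits is an increasing event -/
theorem cmi291_sep_true_inc (F A B : Finset (ℤ × ℤ)) : Cmi291IncP (fun ω => RswSep F true ω A B) := by
  intro ω ω' h hs f hf g hg hr
  refine hs f hf g hg (Relation.ReflTransGen.mono ?_ f g hr)
  rintro x y ⟨hx, hy, e, he, hn⟩
  exact ⟨hx, hy, e, he, fun hgood => hn (cmi291_good_true h hgood)⟩

/-- separation by minus circuits is a decreasing event -/
theorem cmi291_sep_false_dec (F A B : Finset (ℤ × ℤ)) {ω ω' : RswCfg} (h : Cmi291Le ω ω')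
    (hs : RswSep F false ω' A B) : RswSep F false ω A B := by
  intro f hf g hg hr
  refine hs f hf g hg (Relation.ReflTransGen.mono ?_ f g hr)
  rintro x y ⟨hx, hy, e, he, hn⟩
  exact ⟨hx, hy, e, he, fun hgood => hn (cmi291_good_false h hgood)⟩

/-! ## 7. Euler's relation for a Jordan set of faces: `Kw41` (exactness) + `Euler141` (linear algebra) -/

theorem cmi291_cls_eq_some {F : Finset (ℤ × ℤ)} (w : ℤ × ℤ) (v : ↥(cmi291Inn F)) :
    cmi291Cls F w = some v ↔ w = v.1 := by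
  constructor
  · intro h
    unfold cmi291Cls at h
    by_cases hw : w ∈ cmi291Inn F
    · rw [dif_pos hw] at h
      have := Option.some.inj h
      rw [← this]
    · rw [dif_neg hw] at h
      exact (Option.some_ne_none _ h.symm).elim
  · rintro rfl
    exact cmi291_cls_inn v

/-- the edge set of a vector mod 2 -/
noncomputable def cmi291Eta (F : Finset (ℤ × ℤ)) (y : ↥(rswInt F) → ZMod 2) : Finset ((ℤ × ℤ) × Bool) :=
  (univ.filter (fun i => y i = 1)).map (Function.Embedding.subtype _)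

theorem cmi291_mem_eta {F : Finset (ℤ × ℤ)} {y : ↥(rswInt F) → ZMod 2} (i : ↥(rswInt F)) :
    i.1 ∈ cmi291Eta F y ↔ y i = 1 := by
  unfold cmi291Eta
  simp

theorem cmi291_zmod2_cases : ∀ a : ZMod 2, a = 0 ∨ a = 1 := by decide

/-- degree at an inner corner = pairing with the coboundary of the indicator -/
theorem cmi291_pair_single (F : Finset (ℤ × ℤ)) (y : ↥(rswInt F) → ZMod 2) (v : ↥(cmi291Inn F)) :
    ∑ i, y i * mdl141e_d (cmi291P F) (cmi291Q F) (Pi.single (some v) 1) i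
      = mdl41Bd (mdl41Ch (cmi291Eta F y)) v.1 := by
  classical
  rw [mdl41_bd_ch, Finset.card_filter, Nat.cast_sum]
  unfold cmi291Eta
  rw [Finset.sum_map, Finset.sum_filter]
  refine Finset.sum_congr rfl fun i _ => ?_
  show y i * mdl141e_d (cmi291P F) (cmi291Q F) (Pi.single (some v) 1) i
    = if y i = 1 then (((if i.1.1 = v.1 ∨ rswEnd i.1 = v.1 then 1 else 0 : ℕ)) : ZMod 2) else 0
  unfold mdl141e_d cmi291P cmi291Q
  have e1 : (Pi.single (some v) (1 : ZMod 2) : Option ↥(cmi291Inn F) → ZMod 2) (cmi291Cls F i.1.1)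
      = if i.1.1 = v.1 then 1 else 0 := by
    rw [Pi.single_apply]
    simp only [cmi291_cls_eq_some]
  have e2 : (Pi.single (some v) (1 : ZMod 2) : Option ↥(cmi291Inn F) → ZMod 2) (cmi291Cls F (rswEnd i.1))
      = if rswEnd i.1 = v.1 then 1 else 0 := by
    rw [Pi.single_apply]
    simp only [cmi291_cls_eq_some]
  rw [e1, e2]
  have hne := mdl41_end_ne i.1
  by_cases a : i.1.1 = v.1
  · have b : rswEnd i.1 ≠ v.1 := fun b => hne (a.trans b.symm)
    rcases cmi291_zmod2_cases (y i) with hy | hy <;> simp [hy, a, b]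
  · by_cases b : rswEnd i.1 = v.1
    · rcases cmi291_zmod2_cases (y i) with hy | hy <;> simp [hy, a, b]
    · rcases cmi291_zmod2_cases (y i) with hy | hy <;> simp [hy, a, b]

theorem cmi291_inn_of_not_poly {F : Finset (ℤ × ℤ)} {v : ℤ × ℤ} (h : ¬ OnPolygon F v) :
    v ∈ cmi291Inn F := by
  have h' := h
  unfold OnPolygon at h'
  rw [not_not] at h'
  exact cmi291_mem_inn.2 ⟨rsz_face_corner h'.1, h⟩

/-- orthogonal to all coboundaries ⟹ even -/
theorem cmi291_even_of_perp (F : Finset (ℤ × ℤ)) (y : ↥(rswInt F) → ZMod 2)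
    (h : ∀ ρ, ∑ i, y i * mdl141e_d (cmi291P F) (cmi291Q F) ρ i = 0) : Mdl41Even F (cmi291Eta F y) := by
  intro v hv
  have := cmi291_pair_single F y ⟨v, cmi291_inn_of_not_poly hv⟩
  rw [← this]
  exact h _

theorem cmi291_zmod2_b : ∀ (a : ZMod 2) (P Q : Bool), (a = 1 ↔ ¬ (P = true ↔ Q = true)) →
    a = (if P = true then 1 else 0) + (if Q = true then 1 else 0) := by decide

/-- exactness: `hex` of `mdl141e_duality_bool` -/
theorem cmi291_hex {F : Finset (ℤ × ℤ)} (hF : Mdl41Conn F) (y : ↥(rswInt F) → ZMod 2)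
    (h : ∀ ρ, ∑ i, y i * mdl141e_d (cmi291P F) (cmi291Q F) ρ i = 0) :
    ∃ d : ↥F → ZMod 2, ∀ i, y i = mdl141e_d (cmi291P' F) (cmi291Q' F) d i := by
  classical
  obtain ⟨D, hD, hDe⟩ := mdl41_exists_D hF (cmi291_even_of_perp F y h)
  refine ⟨fun f => if f.1 ∈ D then 1 else 0, fun i => ?_⟩
  have h1 := hDe i.1 i.2
  rw [cmi291_mem_eta] at h1
  unfold Mdl41Dis at h1
  have := cmi291_zmod2_b (y i) (decide (i.1.1 ∈ D)) (decide (rswCo i.1 ∈ D))
    (by simpa only [decide_eq_true_eq] using h1)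
  simp only [decide_eq_true_eq] at this
  exact this

theorem cmi291_pair_expand (F : Finset (ℤ × ℤ)) (y : ↥(rswInt F) → ZMod 2)
    (ρ : Option ↥(cmi291Inn F) → ZMod 2) :
    ∑ i, y i * mdl141e_d (cmi291P F) (cmi291Q F) ρ i
      = ∑ x, ρ x * ∑ i, y i * mdl141e_d (cmi291P F) (cmi291Q F) (Pi.single x 1) i := by
  classical
  simp_rw [Finset.mul_sum]
  rw [Finset.sum_comm]
  refine Finset.sum_congr rfl fun i _ => ?_
  unfold mdl141e_d
  have e : ∀ x, ρ x * (y i * ((Pi.single x 1 : Option ↥(cmi291Inn F) → ZMod 2) (cmi291P F i)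
        + (Pi.single x 1 : Option ↥(cmi291Inn F) → ZMod 2) (cmi291Q F i)))
      = y i * ((if cmi291P F i = x then ρ x else 0) + (if cmi291Q F i = x then ρ x else 0)) := by
    intro x
    simp only [Pi.single_apply]
    split_ifs <;> ring
  simp_rw [e]
  rw [← Finset.mul_sum, Finset.sum_add_distrib, Finset.sum_ite_eq, Finset.sum_ite_eq]
  simp

theorem cmi291_pair_total (F : Finset (ℤ × ℤ)) (y : ↥(rswInt F) → ZMod 2) :
    ∑ x, ∑ i, y i * mdl141e_d (cmi291P F) (cmi291Q F) (Pi.single x 1) i = 0 := by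
  have := cmi291_pair_expand F y (fun _ => 1)
  simp only [one_mul] at this
  rw [← this]
  refine Finset.sum_eq_zero fun i _ => ?_
  unfold mdl141e_d
  rw [show (1 : ZMod 2) + 1 = 0 from by decide, mul_zero]

/-- even ⟹ orthogonal to all coboundaries of the contracted graph -/
theorem cmi291_perp_of_even (F : Finset (ℤ × ℤ)) (y : ↥(rswInt F) → ZMod 2)
    (h : Mdl41Even F (cmi291Eta F y)) (ρ : Option ↥(cmi291Inn F) → ZMod 2) :
    ∑ i, y i * mdl141e_d (cmi291P F) (cmi291Q F) ρ i = 0 := by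
  have hs : ∀ v : ↥(cmi291Inn F),
      ∑ i, y i * mdl141e_d (cmi291P F) (cmi291Q F) (Pi.single (some v) 1) i = 0 := fun v => by
    rw [cmi291_pair_single]
    exact h v.1 (cmi291_mem_inn.1 v.2).2
  have hn : ∑ i, y i * mdl141e_d (cmi291P F) (cmi291Q F) (Pi.single none 1) i = 0 := by
    have := cmi291_pair_total F y
    rw [Fintype.sum_option, Finset.sum_eq_zero (fun v _ => hs v), add_zero] at this
    exact this
  rw [cmi291_pair_expand, Fintype.sum_option, hn, mul_zero, zero_add]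
  exact Finset.sum_eq_zero fun v _ => by rw [hs v, mul_zero]

/-- orthogonality: `hperp` of `mdl141e_duality_bool` -/
theorem cmi291_hperp (F : Finset (ℤ × ℤ)) (d : ↥F → ZMod 2) (ρ : Option ↥(cmi291Inn F) → ZMod 2) :
    ∑ i, mdl141e_d (cmi291P' F) (cmi291Q' F) d i * mdl141e_d (cmi291P F) (cmi291Q F) ρ i = 0 := by
  classical
  refine cmi291_perp_of_even F (fun i => mdl141e_d (cmi291P' F) (cmi291Q' F) d i) ?_ ρ
  set D : Finset (ℤ × ℤ) := (univ.filter (fun f : ↥F => d f = 1)).map (Function.Embedding.subtype _)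
    with hDdef
  have mD : ∀ (f : ℤ × ℤ) (hf : f ∈ F), f ∈ D ↔ d ⟨f, hf⟩ = 1 := by
    intro f hf
    simp [hDdef, hf]
  have key : ∀ i : ↥(rswInt F), mdl141e_d (cmi291P' F) (cmi291Q' F) d i = 1 ↔ Mdl41Dis D i.1 := by
    intro i
    unfold Mdl41Dis mdl141e_d
    rw [mD i.1.1 (rsz_mem_int.1 i.2).1, mD (rswCo i.1) (rsz_mem_int.1 i.2).2]
    exact mdl41_zmod2 _ _
  have e : cmi291Eta F (fun i => mdl141e_d (cmi291P' F) (cmi291Q' F) d i) = mdl41DisSet F D := by
    ext e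
    rw [mdl41_mem_disSet]
    constructor
    · intro he
      obtain ⟨i, hi, rfl⟩ := Finset.mem_map.1 he
      exact ⟨i.2, (key i).1 (Finset.mem_filter.1 hi).2⟩
    · rintro ⟨he, hd⟩
      exact (cmi291_mem_eta (⟨e, he⟩ : ↥(rswInt F))).2 ((key ⟨e, he⟩).2 hd)
  rw [e]
  exact mdl41_even_disSet F D

/-- **Euler's relation (3.5) for the instance graph** -/
theorem cmi291_dual_of_conn {F : Finset (ℤ × ℤ)} (hF : Mdl41Conn F) : Cmi291Dual F := fun W =>
  mdl141e_duality_bool (cmi291P F) (cmi291Q F) (cmi291P' F) (cmi291Q' F) (cmi291_hperp F)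
    (cmi291_hex hF) W

theorem cmi291_dual_of_jordan {F : Finset (ℤ × ℤ)} (hF : RswJordan F) : Cmi291Dual F :=
  cmi291_dual_of_conn (mdl41_conn_of_jordan hF)

/-! ## 8. exits in the vocabulary of `Defs/RSW` -/

/-- **EXIT**: FKG for increasing observables of the flat problem of a Jordan set of faces -/
theorem cmi291_exit_fkg {t : ℝ} (h0 : 0 < t) (h1 : t ≤ 1) {F : Finset (ℤ × ℤ)} (hF : RswJordan F) (b : Bool)
    {X Y : RswCfg → ℝ} (hX : Cmi291Inc X) (hY : Cmi291Inc Y) :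
    rswE t F b X * rswE t F b Y ≤ rswE t F b (fun ω => X ω * Y ω) :=
  cmi291_fkg h0 h1 (cmi291_dual_of_jordan hF) b hX hY

/-- **EXIT**: FKG for increasing events -/
theorem cmi291_exit_fkg_P {t : ℝ} (h0 : 0 < t) (h1 : t ≤ 1) {F : Finset (ℤ × ℤ)} (hF : RswJordan F) (b : Bool)
    {L L' : RswCfg → Prop} (hL : Cmi291IncP L) (hL' : Cmi291IncP L') :
    rswP t F b L * rswP t F b L' ≤ rswP t F b (fun ω => L ω ∧ L' ω) :=
  cmi291_fkg_P h0 h1 (cmi291_dual_of_jordan hF) b hL hL'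

/-- **EXIT**: the plus boundary dominates the minus boundary -/
theorem cmi291_exit_mono_b {t : ℝ} (h0 : 0 < t) (h1 : t ≤ 1) {F : Finset (ℤ × ℤ)} (hF : RswJordan F)
    {X : RswCfg → ℝ} (hX : Cmi291Inc X) : rswE t F false X ≤ rswE t F true X :=
  cmi291_mono_b h0 h1 (cmi291_dual_of_jordan hF) hX

end Inst

/-- the equation and congruence lemmas of the definitions of this file are generated HERE, once (RULES.md, rule 6) -/
theorem cmi291_eqns_cite : True := by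
  have := @cmi291Base.eq_1.{0,0}
  have := @cmi291Inn.eq_1
  have := @cmi291Cls.eq_1
  have := @cmi291P.eq_1
  have := @cmi291Q.eq_1
  have := @cmi291P'.eq_1
  have := @cmi291Q'.eq_1
  have := @cmi291S.eq_1
  have := @cmi291Sp.eq_1
  have := @cmi291Sp.eq_2
  have := @cmi291Sp.eq_def
  have := @cmi291O.eq_1
  have := @cmi291Cnt.eq_1
  have := @cmi291CB.eq_1
  have := @Cmi291Dual.eq_1
  have := @cmi291Phi.eq_1
  have := @cmi291K.eq_1
  have := @Cmi291Le.eq_1
  have := @Cmi291Inc.eq_1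
  have := @Cmi291IncP.eq_1
  have := @cmi291Eta.eq_1
  have := @cmi291Base.congr_simp.{0,0}
  have := @cmi291Inn.congr_simp
  have := @cmi291Cls.congr_simp
  have := @cmi291S.congr_simp
  have := @cmi291Sp.congr_simp
  have := @cmi291O.congr_simp
  have := @cmi291Cnt.congr_simp
  have := @cmi291CB.congr_simp
  have := @cmi291Phi.congr_simp
  have := @cmi291K.congr_simp
  have := @cmi291Eta.congr_simp
  trivial

end Claimed.Agent.R292
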