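import Claimed.Agent.R292.Model.Arm101
import Claimed.Agent.R292.Rsw.Cut91
import Claimed.Agent.R292.Jordan.Arm197
import Claimed.Agent.R292.Jordan.Scale19
import Claimed.Agent.R292.Rsw.BoxJordan219
import Claimed.Agent.R292.Rsw.CmpInst291
import Claimed.Agent.R292.Rsw.Sym211

/-!
# Row 292 (S0540), Rsw/ArmHub219 : `exit_rsw_arm` FROM ONE RECORD      (helper219; prefix `ah219_`, `Ah219`)

TEX 03-spatial, prop:circuits (1)-(2), eq:spatial-attached-arm, for the flat plus problem in a Jordan face set whose polygon crosses the annuli.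

RECORD  `Ah219Circ t p n0` = `mdl1_circ_cond` (seat 1, Model/Circ1) WITH PINS: in a Jordan set `G` which CONTAINS the buffer `Λ_{4n}(z)`, given any exterior data `L`
        of the buffer and given that the edges of an arbitrary finite set `Q` are good of colour `a` ("compatible pins of the requested colour only improve the bound"),
        the good edges of colour `a` separate `Λ_n(z)` from the outside of `Λ_{2n}(z)` with conditional probability at least `p`.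
OUTPUT
* `ah219_cut_P`        the flat law of `F` = the law of a larger `G` given that the polygon edges of `F` are good (from `rsk_cut_comp` of 91)
* `ah219_circB`        `Ah219Circ t p n0 → Arm101CircB t p n0` (the boundary record of 101): NO wall form of the circuit estimate is needed
* `ah219_sepW_of_sep`  plain colour separation inside `F` gives separation by seals (from `ja7_core` of 197)
* **`ah219_arm`**      the statement of `exit_rsw_arm` (Exit/Arch) word for word, from the record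
* **`ah219_arm1`**     (sec. 7) [ARM1] of 292: the BULK arm bound `C (r/R)^α`, ANY finite face set `F ⊇ Λ_R(z)` (no class of domains), any colours `a`, `b`, from `Arm101Circ` (= conclusion of `mdl1_circ_cond`)
* **`ah219_stack`**, **`ah219_circB_any`** (sec. 13, MOM-4 of 164) the arm bound `C ((r+1)/R)^α` and the boundary circuit for ANY finite face set, from `Ah219Circ`; `ah219_circ101`, `ah219_circB_gen`
* **`rt219_ratio`**    (sec. 8-12, order RSW-9/10 of 122) the statement of `exit_rsw_circuit` (ONE unknown ratio `κ`, `n ≥ n0`) `→` ratio `1 : 2`, all `n ≥ 1`, all centres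
-/

set_option autoImplicit false

namespace Claimed.Agent.R292

open Claims Claims.C0468

/-! ## 0. the record -/

/-- **THE RECORD**: the circuit estimate in a buffer inside `G`, given exterior data and pins of the requested colour -/
def Ah219Circ (t p : ℝ) (n0 : ℕ) : Prop :=
  ∀ n : ℕ, n0 ≤ n → ∀ (G : Finset (ℤ × ℤ)) (z : ℤ × ℤ) (b a : Bool) (L : RswCfg → Prop) (Q : Finset ((ℤ × ℤ) × Bool)),
    RswJordan G → rswBox z (4 * n) ⊆ G → MdlExt (rswBox z (4 * n)) L →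
    p * rswP t G b (fun ω => L ω ∧ ∀ e ∈ Q, RswGood a ω e) ≤
      rswP t G b (fun ω => (L ω ∧ ∀ e ∈ Q, RswGood a ω e) ∧ RswSep G a ω (rswBox z n) (G \ rswBox z (2 * n)))

theorem Ah219Circ_eqns_cite (t p : ℝ) (n0 : ℕ) : Ah219Circ t p n0 =
  ∀ n : ℕ, n0 ≤ n → ∀ (G : Finset (ℤ × ℤ)) (z : ℤ × ℤ) (b a : Bool) (L : RswCfg → Prop) (Q : Finset ((ℤ × ℤ) × Bool)),
    RswJordan G → rswBox z (4 * n) ⊆ G → MdlExt (rswBox z (4 * n)) L →
    p * rswP t G b (fun ω => L ω ∧ ∀ e ∈ Q, RswGood a ω e) ≤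
      rswP t G b (fun ω => (L ω ∧ ∀ e ∈ Q, RswGood a ω e) ∧ RswSep G a ω (rswBox z n) (G \ rswBox z (2 * n))) := by
  rw [Ah219Circ]

/-! ## 1. the flat law of `F` inside a larger set -/

/-- a nonnegative observable which is positive at the constant configuration has a positive sum -/
theorem ah219_sum_pos {t : ℝ} (ht0 : 0 < t) (ht1 : t ≤ 1) (G : Finset (ℤ × ℤ)) (b : Bool) {X : RswCfg → ℝ}
    (hX : ∀ ω, 0 ≤ X ω) (hX0 : 0 < X ⟨if b = true then cornersOf G else ∅, ∅, rswInt G⟩) : 0 < rswSum t G b X := by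
  classical
  unfold rswSum
  have hnn : ∀ ω : RswCfg, 0 ≤ rswWt t G b ω * X ω := fun ω => mul_nonneg (rsk_wt_nonneg ht0.le ht1 G b ω) (hX ω)
  refine Finset.sum_pos' (fun S _ => Finset.sum_nonneg (fun D _ => Finset.sum_nonneg
    (fun O _ => hnn _))) ⟨if b = true then cornersOf G else ∅, ?_, ?_⟩
  · rw [Finset.mem_powerset]
    split_ifs
    · exact le_rfl
    · exact Finset.empty_subset _
  refine Finset.sum_pos' (fun D _ => Finset.sum_nonneg (fun O _ => hnn _))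
    ⟨∅, Finset.empty_mem_powerset _, ?_⟩
  refine Finset.sum_pos' (fun O _ => hnn _) ⟨rswInt G, Finset.mem_powerset_self _, ?_⟩
  refine mul_pos ?_ hX0
  have hS : ∀ v ∈ cornersOf G, (v ∈ (if b = true then cornersOf G else ∅) ↔ b = true) := by
    intro v hv
    split_ifs with h
    · simp [h, hv]
    · simp [h]
  have hbc : RswBc G b ⟨if b = true then cornersOf G else ∅, ∅, rswInt G⟩ := fun v hv _ => hS v hv
  unfold rswWt
  rw [if_pos hbc]
  refine Finset.prod_pos (fun e he => ?_)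
  unfold rswFac
  simp only
  rw [if_pos he, if_pos (by rw [hS _ (rsk_int_fst he), hS _ (rsk_int_end he)])]
  exact ht0

theorem ah219_P_eq (t : ℝ) (G : Finset (ℤ × ℤ)) (b : Bool) (L : RswCfg → Prop) [DecidablePred L] :
    rswP t G b L = rswSum t G b (fun ω => if L ω then (1 : ℝ) else 0) / rswSum t G b (fun _ => 1) := by
  unfold rswP rswE
  congr 2
  funext ω
  by_cases h : L ω <;> simp [h]

/-- **the flat law of `F` is the law of `G ⊇ F` given the cut** -/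
theorem ah219_cut_P {t : ℝ} (ht0 : 0 < t) (ht1 : t ≤ 1) {F G : Finset (ℤ × ℤ)} (hFG : F ⊆ G) (a b : Bool) (E : RswCfg → Prop) :
    rswP t G b (fun ω => RswCut F a ω ∧ E (rskIn F ω)) = rswP t F a E * rswP t G b (fun ω => RswCut F a ω) := by
  classical
  have h := rsk_cut_comp ht0 ht1 hFG a b (fun ω => if E ω then 1 else 0) (fun _ => 1)
  have e1 : (fun ω => rskInd F a ω * (if E (rskIn F ω) then (1 : ℝ) else 0) * 1)
      = fun ω => if RswCut F a ω ∧ E (rskIn F ω) then (1 : ℝ) else 0 := by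
    funext ω
    unfold rskInd
    by_cases h1 : RswCut F a ω <;> by_cases h2 : E (rskIn F ω) <;> simp [h1, h2]
  have e2 : (fun ω => rskInd F a ω * 1) = fun ω => if RswCut F a ω then (1 : ℝ) else 0 := by
    funext ω
    unfold rskInd
    by_cases h1 : RswCut F a ω <;> simp [h1]
  rw [e1, e2] at h
  have hP1 := ah219_P_eq t G b (fun ω => RswCut F a ω ∧ E (rskIn F ω))
  have hP2 := ah219_P_eq t G b (fun ω => RswCut F a ω)
  have hP3 : rswP t F a E = rswE t F a (fun ω => if E ω then 1 else 0) := by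
    rw [ah219_P_eq t F a E]
    rfl
  rw [hP1, hP2, hP3, h, mul_div_assoc]

/-- the cut has positive probability as soon as the polygon edges of `F` are interior edges of `G` -/
theorem ah219_cut_pos {t : ℝ} (ht0 : 0 < t) (ht1 : t ≤ 1) {F G : Finset (ℤ × ℤ)} (hG : ∀ e, RskBd F e → e ∈ rswInt G) (b : Bool) :
    0 < rswP t G b (fun ω => RswCut F b ω) := by
  classical
  unfold rswP rswE
  refine div_pos (ah219_sum_pos ht0 ht1 G b (fun ω => by split_ifs <;> norm_num) ?_) (rsk_sum_one_pos ht0 ht1 G b)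
  have hS : ∀ v ∈ cornersOf G, (v ∈ (if b = true then cornersOf G else ∅) ↔ b = true) := by
    intro v hv
    split_ifs with h
    · simp [h, hv]
    · simp [h]
  rw [if_pos]
  · norm_num
  · intro e he
    have hi := hG e he
    exact ⟨hi, hS _ (rsk_int_fst hi), hS _ (rsk_int_end hi)⟩

/-! ## 2. deterministic transfers between `G` and `F` -/

theorem ah219_good_in {F : Finset (ℤ × ℤ)} {a : Bool} {ω : RswCfg} {e : (ℤ × ℤ) × Bool} (he : e ∈ rswInt F)
    (h : RswGood a ω e) : RswGood a (rskIn F ω) e := by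
  obtain ⟨h1, h2, h3⟩ := h
  refine ⟨Finset.mem_inter.2 ⟨h1, he⟩, ?_, ?_⟩
  · show e.1 ∈ ω.S ∩ cornersOf F ↔ a = true
    rw [Finset.mem_inter, ← h2]
    exact ⟨fun h => h.1, fun h => ⟨h, rsk_int_fst he⟩⟩
  · show rswEnd e ∈ ω.S ∩ cornersOf F ↔ a = true
    rw [Finset.mem_inter, ← h3]
    exact ⟨fun h => h.1, fun h => ⟨h, rsk_int_end he⟩⟩

theorem ah219_step_in {F G : Finset (ℤ × ℤ)} (hFG : F ⊆ G) {a : Bool} {ω : RswCfg} {f g : ℤ × ℤ}
    (h : RswStep F a (rskIn F ω) f g) : RswStep G a ω f g := by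
  obtain ⟨hf, hg, e, he, hn⟩ := h
  refine ⟨hFG hf, hFG hg, e, he, fun hgood => hn (ah219_good_in ?_ hgood)⟩
  rw [rsk_mem_int]
  rcases he with ⟨h1, h2⟩ | ⟨h1, h2⟩
  · exact ⟨h1 ▸ hf, h2 ▸ hg⟩
  · exact ⟨h1 ▸ hg, h2 ▸ hf⟩

theorem ah219_sep_in {F G : Finset (ℤ × ℤ)} (hFG : F ⊆ G) {a : Bool} {ω : RswCfg} {A T : Finset (ℤ × ℤ)}
    (h : RswSep G a ω A (G \ T)) : RswSep F a (rskIn F ω) A (F \ T) := by
  intro f hf g hg hr
  refine h f hf g ?_ (Relation.ReflTransGen.mono (fun _ _ => ah219_step_in hFG) _ _ hr)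
  rw [Finset.mem_sdiff] at hg ⊢
  exact ⟨hFG hg.1, hg.2⟩

theorem ah219_ext_in {B : Finset (ℤ × ℤ)} {L : RswCfg → Prop} (hL : MdlExt B L) (F : Finset (ℤ × ℤ)) :
    MdlExt B (fun ω => L (rskIn F ω)) := by
  intro ω ω' hS hO
  refine hL _ _ (fun v hv => ?_) (fun e he => ?_)
  · show v ∈ ω.S ∩ cornersOf F ↔ v ∈ ω'.S ∩ cornersOf F
    rw [Finset.mem_inter, Finset.mem_inter, hS v hv]
  · show e ∈ ω.O ∩ rswInt F ↔ e ∈ ω'.O ∩ rswInt F
    rw [Finset.mem_inter, Finset.mem_inter, hO e he]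

/-- a box which contains `F`, the neighbours of `F` and a given box -/
theorem ah219_big_box (F : Finset (ℤ × ℤ)) (z : ℤ × ℤ) (k : ℕ) :
    ∃ M : ℕ, 1 ≤ M ∧ F ⊆ rswBox z M ∧ rswBox z k ⊆ rswBox z M ∧ ∀ e, RskBd F e → e ∈ rswInt (rswBox z M) := by
  set K : ℕ := F.sup (fun f => (f.1 - z.1).natAbs + (f.2 - z.2).natAbs) with hK
  have hle : ∀ f ∈ F, (f.1 - z.1).natAbs + (f.2 - z.2).natAbs ≤ K := fun f hf =>
    Finset.le_sup (f := fun f : ℤ × ℤ => (f.1 - z.1).natAbs + (f.2 - z.2).natAbs) hf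
  have hnear : ∀ f ∈ F, ∀ g : ℤ × ℤ, (g.1 - f.1).natAbs + (g.2 - f.2).natAbs ≤ 1 → g ∈ rswBox z (K + k + 2) := by
    intro f hf g hg
    have := hle f hf
    rw [ja7_mem_box]
    push_cast
    omega
  refine ⟨K + k + 2, by omega, fun f hf => hnear f hf f (by simp), arm101_box_mono z (by omega), fun e he => ?_⟩
  rw [rsk_mem_int]
  obtain ⟨⟨x, y⟩, s⟩ := e
  rcases he with ⟨h1, -⟩ | ⟨-, h1⟩
  · refine ⟨hnear _ h1 _ (by simp), hnear _ h1 _ ?_⟩
    cases s <;> simp [rswCo]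
  · refine ⟨hnear _ h1 _ ?_, hnear _ h1 _ (by simp)⟩
    cases s <;> simp [rswCo]

/-! ## 3. the boundary record of 101 from the record with pins -/

/-- **no wall form of the circuit estimate is needed** : the flat problem `(F, b)` is the problem of a big Jordan set `G` with the polygon edges of `F` pinned -/
theorem ah219_circB_of {t p : ℝ} {n0 : ℕ} (ht0 : 0 < t) (ht1 : t ≤ 1) (H : Ah219Circ t p n0)
    (hbox : ∀ (z : ℤ × ℤ) (M : ℕ), 1 ≤ M → RswJordan (rswBox z M)) : Arm101CircB t p n0 := by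
  classical
  intro n hn F z b L _ hL
  obtain ⟨M, hM1, hFG, hBG, hbd⟩ := ah219_big_box F z (4 * n)
  set G := rswBox z M with hG
  set Q : Finset ((ℤ × ℤ) × Bool) := (rswInt G).filter (fun e => RskBd F e) with hQ
  have hQcut : ∀ ω : RswCfg, (∀ e ∈ Q, RswGood b ω e) ↔ RswCut F b ω := by
    intro ω
    constructor
    · intro h e he
      exact h e (Finset.mem_filter.2 ⟨hbd e he, he⟩)
    · intro h e he
      exact h e (Finset.mem_filter.1 he).2
  have h1 := H n hn G z b b (fun ω => L (rskIn F ω)) Q (hbox z M hM1) hBG (ah219_ext_in hL F)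
  have c0 := ah219_cut_pos ht0 ht1 hbd b
  have e1 : rswP t G b (fun ω => L (rskIn F ω) ∧ ∀ e ∈ Q, RswGood b ω e) = rswP t F b L * rswP t G b (fun ω => RswCut F b ω) := by
    rw [← ah219_cut_P ht0 ht1 hFG b b L]
    exact arm101_P_congr t G b fun ω => by rw [hQcut ω, and_comm]
  have e2 : rswP t G b (fun ω => (L (rskIn F ω) ∧ ∀ e ∈ Q, RswGood b ω e) ∧ RswSep G b ω (rswBox z n) (G \ rswBox z (2 * n)))
      ≤ rswP t F b (fun ω => L ω ∧ RswSep F b ω (rswBox z n) (F \ rswBox z (2 * n))) * rswP t G b (fun ω => RswCut F b ω) := by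
    rw [← ah219_cut_P ht0 ht1 hFG b b (fun ω => L ω ∧ RswSep F b ω (rswBox z n) (F \ rswBox z (2 * n)))]
    refine arm101_P_mono ht0.le ht1 G b fun ω hω => ?_
    exact ⟨(hQcut ω).1 hω.1.2, hω.1.1, ah219_sep_in hFG hω.2⟩
  rw [e1] at h1
  have h2 := h1.trans e2
  rw [← mul_assoc] at h2
  exact le_of_mul_le_mul_right h2 c0

/-! ## 4. colour separation inside `F` gives separation by seals -/

theorem ah219_sepW_of_sep {F : Finset (ℤ × ℤ)} (hF : JdPoly F) (ω : RswCfg) (z : ℤ × ℤ) {n N : ℕ} (hnN : n ≤ N)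
    (hout : ¬ rswBox z n ⊆ F) (h : RswSep F true ω (rswBox z n) (F \ rswBox z N)) :
    RswSepW F ω (F ∩ rswBox z n) (F \ rswBox z N) := by
  refine ja7_core F hF.coconn ω {f | ∃ a ∈ rswBox z n, Relation.ReflTransGen (RswStep F true ω) a f} z n N
    (fun f hf => ⟨f, hf, Relation.ReflTransGen.refl⟩) ?_ ?_ hout
  · rintro f ⟨a, ha, hr⟩
    by_contra hf
    rcases Relation.ReflTransGen.cases_tail hr with h' | ⟨c, _, hstep⟩
    · exact hf (arm101_box_mono z hnN (h' ▸ ha))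
    · exact h a ha f (Finset.mem_sdiff.2 ⟨hstep.2.1, hf⟩) hr
  · intro e hne h1 h2
    by_contra hg
    apply hne
    constructor
    · rintro ⟨a, ha, hr⟩
      exact ⟨a, ha, hr.tail ⟨h1, h2, e, Or.inl ⟨rfl, rfl⟩, hg⟩⟩
    · rintro ⟨a, ha, hr⟩
      exact ⟨a, ha, hr.tail ⟨h2, h1, e, Or.inr ⟨rfl, rfl⟩, hg⟩⟩

/-! ## 5. the statement of `exit_rsw_arm` -/

theorem ah219_P_true {t : ℝ} (ht0 : 0 < t) (ht1 : t ≤ 1) (F : Finset (ℤ × ℤ)) (b : Bool) : rswP t F b (fun _ => True) = 1 := by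
  unfold rswP rswE
  simp only [if_true]
  exact div_self (rsk_sum_one_pos ht0 ht1 F b).ne'

/-- **`exit_rsw_arm` (Exit/Arch) word for word, from the boundary record of 101** -/
theorem ah219_arm_of_circB {t p : ℝ} {n0 : ℕ} (ht0 : 0 < t) (ht1 : t ≤ 1) (hp : 0 < p) (H : Arm101CircB t p n0) :
    ∃ C α : ℝ, 0 < C ∧ 0 < α ∧ ∀ (F : Finset (ℤ × ℤ)) (z : ℤ × ℤ) (r R : ℕ), RswJordan F → 1 ≤ r → r ≤ R → ¬ rswBox z r ⊆ F →
      rswP t F true (fun ω => ¬ RswSepW F ω (F ∩ rswBox z r) (F \ rswBox z R)) ≤ C * ((r : ℝ) / R) ^ α := by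
  obtain ⟨C, α, hC, hα, h⟩ := arm101_bdy_arm ht0.le ht1 hp H
  refine ⟨C * 2 ^ α, α, by positivity, hα, fun F z r R hF hr hrR hout => ?_⟩
  have h1 := h F z true (fun _ => True) r R (by omega) hF (arm101_ext_const _ _)
  rw [ah219_P_true ht0 ht1, mul_one] at h1
  have h2 : rswP t F true (fun ω => ¬ RswSepW F ω (F ∩ rswBox z r) (F \ rswBox z R))
      ≤ rswP t F true (fun ω => True ∧ ¬ RswSep F true ω (rswBox z r) (F \ rswBox z R)) :=
    arm101_P_mono ht0.le ht1 F true fun ω hω =>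
      ⟨trivial, fun hs => hω (ah219_sepW_of_sep (jd19_poly_of_rsw hF) ω z hrR hout hs)⟩
  have hr' : (1 : ℝ) ≤ r := by exact_mod_cast hr
  have hR' : (0 : ℝ) < R := by
    have : 1 ≤ R := by omega
    exact_mod_cast this
  have h3 : (((r : ℝ) + 1) / R) ^ α ≤ 2 ^ α * ((r : ℝ) / R) ^ α := by
    rw [← Real.mul_rpow (by norm_num) (by positivity)]
    refine Real.rpow_le_rpow (by positivity) ?_ hα.le
    rw [mul_div_assoc', div_le_div_iff_of_pos_right hR']
    linarith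
  calc rswP t F true (fun ω => ¬ RswSepW F ω (F ∩ rswBox z r) (F \ rswBox z R))
      ≤ C * (((r : ℝ) + 1) / R) ^ α := h2.trans h1
    _ ≤ C * (2 ^ α * ((r : ℝ) / R) ^ α) := mul_le_mul_of_nonneg_left h3 hC.le
    _ = C * 2 ^ α * ((r : ℝ) / R) ^ α := by ring

theorem ah219_circB {t p : ℝ} {n0 : ℕ} (ht0 : 0 < t) (ht1 : t ≤ 1) (H : Ah219Circ t p n0) : Arm101CircB t p n0 :=
  ah219_circB_of ht0 ht1 H (fun z _ hM => bj219_box_jordan z hM)

/-- **`exit_rsw_arm` (Exit/Arch) word for word, from the record with pins, aspect `1 : 2 : 4`** -/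
theorem ah219_arm (t : ℝ) (ht1 : 1 / 2 ≤ t) (ht2 : t < 1) {p : ℝ} {n0 : ℕ} (hp : 0 < p) (H : Ah219Circ t p n0) :
    ∃ C α : ℝ, 0 < C ∧ 0 < α ∧ ∀ (F : Finset (ℤ × ℤ)) (z : ℤ × ℤ) (r R : ℕ), RswJordan F → 1 ≤ r → r ≤ R → ¬ rswBox z r ⊆ F →
      rswP t F true (fun ω => ¬ RswSepW F ω (F ∩ rswBox z r) (F \ rswBox z R)) ≤ C * ((r : ℝ) / R) ^ α :=
  ah219_arm_of_circB (by linarith) ht2.le hp (ah219_circB (by linarith) ht2.le H)

/-! ## 6. ANY ASPECT RATIO `κ`: the record in the shape of `exit_rsw_circuit` (ONE ratio `κ`, buffer = the outer box) -/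

/-- **THE RECORD, ratio `κ`**: exterior data of `Λ_{κn}(z) ⊆ G`, pins of colour `a` anywhere; the good edges of colour `a` separate `Λ_n(z)` from the outside of `Λ_{κn}(z)` -/
def Ah219CircK (t p : ℝ) (n0 κ : ℕ) : Prop :=
  ∀ n : ℕ, n0 ≤ n → ∀ (G : Finset (ℤ × ℤ)) (z : ℤ × ℤ) (b a : Bool) (L : RswCfg → Prop) (Q : Finset ((ℤ × ℤ) × Bool)),
    RswJordan G → rswBox z (κ * n) ⊆ G → MdlExt (rswBox z (κ * n)) L →
    p * rswP t G b (fun ω => L ω ∧ ∀ e ∈ Q, RswGood a ω e) ≤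
      rswP t G b (fun ω => (L ω ∧ ∀ e ∈ Q, RswGood a ω e) ∧ RswSep G a ω (rswBox z n) (G \ rswBox z (κ * n)))

theorem Ah219CircK_eqns_cite (t p : ℝ) (n0 κ : ℕ) : Ah219CircK t p n0 κ =
  ∀ n : ℕ, n0 ≤ n → ∀ (G : Finset (ℤ × ℤ)) (z : ℤ × ℤ) (b a : Bool) (L : RswCfg → Prop) (Q : Finset ((ℤ × ℤ) × Bool)),
    RswJordan G → rswBox z (κ * n) ⊆ G → MdlExt (rswBox z (κ * n)) L →
    p * rswP t G b (fun ω => L ω ∧ ∀ e ∈ Q, RswGood a ω e) ≤
      rswP t G b (fun ω => (L ω ∧ ∀ e ∈ Q, RswGood a ω e) ∧ RswSep G a ω (rswBox z n) (G \ rswBox z (κ * n))) := by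
  rw [Ah219CircK]

/-- the record of aspect `1 : 2 : 4` is stronger than the record of ratio `4` -/
theorem ah219_circK_of_circ {t p : ℝ} {n0 : ℕ} (ht0 : 0 ≤ t) (ht1 : t ≤ 1) (H : Ah219Circ t p n0) : Ah219CircK t p n0 4 := by
  intro n hn G z b a L Q hG hB hL
  refine (H n hn G z b a L Q hG hB hL).trans (arm101_P_mono ht0 ht1 G b fun ω hω => ⟨hω.1, ?_⟩)
  exact arm101_sep_mono (Finset.Subset.refl _) (Finset.sdiff_subset_sdiff (Finset.Subset.refl G) (arm101_box_mono z (by omega))) hω.2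

/-- one scale at the boundary, ratio `κ` -/
def Ah219Loc (t p : ℝ) (F : Finset (ℤ × ℤ)) (z : ℤ × ℤ) (b : Bool) (κ n : ℕ) : Prop :=
  ∀ L : RswCfg → Prop, MdlExt (rswBox z (κ * n)) L →
    p * rswP t F b L ≤ rswP t F b fun ω => L ω ∧ RswSep F b ω (rswBox z n) (F \ rswBox z (κ * n))

theorem Ah219Loc_eqns_cite (t p : ℝ) (F : Finset (ℤ × ℤ)) (z : ℤ × ℤ) (b : Bool) (κ n : ℕ) : Ah219Loc t p F z b κ n =
  ∀ L : RswCfg → Prop, MdlExt (rswBox z (κ * n)) L →
    p * rswP t F b L ≤ rswP t F b fun ω => L ω ∧ RswSep F b ω (rswBox z n) (F \ rswBox z (κ * n)) := by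
  rw [Ah219Loc]

/-- **the flat problem `(F, b)`, `F` ANY finite face set, centre `z` ANYWHERE, inherits the circuit estimate of colour `b`** -/
theorem ah219_loc_of_circK {t p : ℝ} {n0 κ : ℕ} (ht0 : 0 < t) (ht1 : t ≤ 1) (H : Ah219CircK t p n0 κ) {n : ℕ} (hn : n0 ≤ n)
    (F : Finset (ℤ × ℤ)) (z : ℤ × ℤ) (b : Bool) : Ah219Loc t p F z b κ n := by
  classical
  intro L hL
  obtain ⟨M, hM1, hFG, hBG, hbd⟩ := ah219_big_box F z (κ * n)
  set G := rswBox z M with hG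
  set Q : Finset ((ℤ × ℤ) × Bool) := (rswInt G).filter (fun e => RskBd F e) with hQ
  have hQcut : ∀ ω : RswCfg, (∀ e ∈ Q, RswGood b ω e) ↔ RswCut F b ω := by
    intro ω
    constructor
    · intro h e he
      exact h e (Finset.mem_filter.2 ⟨hbd e he, he⟩)
    · intro h e he
      exact h e (Finset.mem_filter.1 he).2
  have h1 := H n hn G z b b (fun ω => L (rskIn F ω)) Q (bj219_box_jordan z hM1) hBG (ah219_ext_in hL F)
  have c0 := ah219_cut_pos ht0 ht1 hbd b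
  have e1 : rswP t G b (fun ω => L (rskIn F ω) ∧ ∀ e ∈ Q, RswGood b ω e) = rswP t F b L * rswP t G b (fun ω => RswCut F b ω) := by
    rw [← ah219_cut_P ht0 ht1 hFG b b L]
    exact arm101_P_congr t G b fun ω => by rw [hQcut ω, and_comm]
  have e2 : rswP t G b (fun ω => (L (rskIn F ω) ∧ ∀ e ∈ Q, RswGood b ω e) ∧ RswSep G b ω (rswBox z n) (G \ rswBox z (κ * n)))
      ≤ rswP t F b (fun ω => L ω ∧ RswSep F b ω (rswBox z n) (F \ rswBox z (κ * n))) * rswP t G b (fun ω => RswCut F b ω) := by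
    rw [← ah219_cut_P ht0 ht1 hFG b b (fun ω => L ω ∧ RswSep F b ω (rswBox z n) (F \ rswBox z (κ * n)))]
    refine arm101_P_mono ht0.le ht1 G b fun ω hω => ?_
    exact ⟨(hQcut ω).1 hω.1.2, hω.1.1, ah219_sep_in hFG hω.2⟩
  rw [e1] at h1
  have h2 := h1.trans e2
  rw [← mul_assoc] at h2
  exact le_of_mul_le_mul_right h2 c0

theorem ah219_loc_mono {t p p' : ℝ} (h0 : 0 ≤ t) (h1 : t ≤ 1) (hp : p' ≤ p) {F : Finset (ℤ × ℤ)} {z : ℤ × ℤ} {b : Bool}
    {κ n : ℕ} (H : Ah219Loc t p F z b κ n) : Ah219Loc t p' F z b κ n :=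
  fun L hL => le_trans (mul_le_mul_of_nonneg_right hp (arm101_P_nonneg h0 h1 F b L)) (H L hL)

theorem ah219_loc_one {t p : ℝ} {F : Finset (ℤ × ℤ)} {z : ℤ × ℤ} {b : Bool} {κ n : ℕ}
    (H : Ah219Loc t p F z b κ n) {L : RswCfg → Prop} (hL : MdlExt (rswBox z (κ * n)) L) :
    rswP t F b (fun ω => L ω ∧ ¬ RswSep F b ω (rswBox z n) (F \ rswBox z (κ * n))) ≤ (1 - p) * rswP t F b L := by
  have h1 := H L hL
  have h2 := arm101_P_split t F b L fun ω => RswSep F b ω (rswBox z n) (F \ rswBox z (κ * n))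
  linarith

/-- all `m` circuits fail: `≤ (1 - p) ^ m` -/
theorem ah219_loc_scales {t p : ℝ} (hp : p ≤ 1) {F : Finset (ℤ × ℤ)} (z : ℤ × ℤ) (b : Bool) (κ : ℕ) (hκ : 1 ≤ κ) (m : ℕ) :
    ∀ (n : ℕ → ℕ) (L : RswCfg → Prop), (∀ i, κ * n i ≤ n (i + 1)) →
      (∀ i < m, Ah219Loc t p F z b κ (n i)) → (∀ i < m, MdlExt (rswBox z (κ * n i)) L) →
      rswP t F b (fun ω => L ω ∧ ∀ i < m, ¬ RswSep F b ω (rswBox z (n i)) (F \ rswBox z (κ * n i)))
        ≤ (1 - p) ^ m * rswP t F b L := by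
  induction m with
  | zero =>
    intro n L _ _ _
    rw [pow_zero, one_mul]
    exact le_of_eq (arm101_P_congr t F b fun ω => by simp)
  | succ m ih =>
    intro n L hsep H hL
    have hmono : Monotone n := monotone_nat_of_le_succ fun i => by
      have h1 := hsep i
      have h2 : 1 * n i ≤ κ * n i := Nat.mul_le_mul_right _ hκ
      omega
    set L' : RswCfg → Prop := fun ω => L ω ∧
      ∀ i < m, ¬ RswSep F b ω (rswBox z (n (i + 1))) (F \ rswBox z (κ * n (i + 1))) with hL'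
    have ihm := ih (fun i => n (i + 1)) L (fun i => hsep _)
      (fun i hi => H (i + 1) (by omega)) (fun i hi => hL (i + 1) (by omega))
    have hext : MdlExt (rswBox z (κ * n 0)) L' :=
      arm101_ext_and (hL 0 (by omega))
        (arm101_ext_forall fun i => arm101_ext_forall fun _ => arm101_ext_not
          (arm101_sep_ext (arm101_box_mono z (le_trans (hsep 0) (hmono (by omega)))) F _ _))
    have h1' := ah219_loc_one (H 0 (by omega)) hext
    have e : rswP t F b (fun ω => L ω ∧ ∀ i < m + 1, ¬ RswSep F b ω (rswBox z (n i)) (F \ rswBox z (κ * n i)))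
        = rswP t F b (fun ω => L' ω ∧ ¬ RswSep F b ω (rswBox z (n 0)) (F \ rswBox z (κ * n 0))) := by
      refine arm101_P_congr t F b fun ω => ?_
      constructor
      · rintro ⟨hl, h⟩
        exact ⟨⟨hl, fun i hi => h (i + 1) (by omega)⟩, h 0 (by omega)⟩
      · rintro ⟨⟨hl, h⟩, h0'⟩
        refine ⟨hl, fun i hi => ?_⟩
        cases i with
        | zero => exact h0'
        | succ i => exact h i (by omega)
    rw [e, pow_succ, mul_comm ((1 - p) ^ m), mul_assoc]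
    exact le_trans h1' (mul_le_mul_of_nonneg_left ihm (by linarith))

/-- the arm bound, logarithmic form, from the scales `κ ^ i * r` -/
theorem ah219_loc_arm_log {t p : ℝ} (h0 : 0 ≤ t) (h1 : t ≤ 1) (hp : p ≤ 1)
    {F : Finset (ℤ × ℤ)} (z : ℤ × ℤ) (b : Bool) {κ : ℕ} (hκ : 2 ≤ κ) {L : RswCfg → Prop} {r R : ℕ}
    (H : ∀ n, r ≤ n → κ * n ≤ R → Ah219Loc t p F z b κ n) (hL : MdlExt (rswBox z R) L) :
    rswP t F b (fun ω => L ω ∧ ¬ RswSep F b ω (rswBox z r) (F \ rswBox z R))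
      ≤ (1 - p) ^ Nat.log κ (R / r) * rswP t F b L := by
  set m := Nat.log κ (R / r) with hm
  have hscale : ∀ i < m, κ * (κ ^ i * r) ≤ R := by
    intro i hi
    have hne : R / r ≠ 0 := by
      intro h0'
      rw [h0', Nat.log_zero_right] at hm
      omega
    have h4 : κ ^ m ≤ R / r := Nat.pow_log_le_self κ hne
    have h5 : κ ^ (i + 1) ≤ κ ^ m := Nat.pow_le_pow_right (by omega) hi
    calc κ * (κ ^ i * r) = κ ^ (i + 1) * r := by ring
      _ ≤ (R / r) * r := Nat.mul_le_mul_right r (le_trans h5 h4)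
      _ ≤ R := Nat.div_mul_le_self R r
  have hpos : ∀ i : ℕ, 0 < κ ^ i := fun i => Nat.pow_pos (by omega)
  have hs := ah219_loc_scales hp z b κ (by omega) m (fun i => κ ^ i * r) L
    (fun i => le_of_eq (by ring))
    (fun i hi => H _ (Nat.le_mul_of_pos_left r (hpos i)) (hscale i hi))
    (fun i hi => arm101_ext_mono (arm101_box_mono z (hscale i hi)) hL)
  refine le_trans (arm101_P_mono h0 h1 F b fun ω hω => ⟨hω.1, fun i hi hsep => hω.2 ?_⟩) hs
  refine arm101_sep_mono (arm101_box_mono z (Nat.le_mul_of_pos_left r (hpos i))) ?_ hsep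
  exact Finset.sdiff_subset_sdiff (Finset.Subset.refl F) (arm101_box_mono z (hscale i hi))

/-- arithmetic: from the number of scales to a power of `r / R` -/
theorem ah219_pow_le {q : ℝ} (hq0 : 0 < q) (hq1 : q < 1) {κ : ℕ} (hκ : 2 ≤ κ) {r R : ℕ} (hr : 1 ≤ r) (hR : 1 ≤ R) :
    q ^ Nat.log κ (R / r) ≤ q⁻¹ * ((r : ℝ) / R) ^ (-Real.log q / Real.log κ) := by
  set m := Nat.log κ (R / r) with hm
  set α : ℝ := -Real.log q / Real.log κ with hα
  have hκ1 : (1 : ℝ) < κ := by exact_mod_cast (by omega : 1 < κ)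
  have hκ0 : (0 : ℝ) < κ := by linarith
  have hlogκ : 0 < Real.log κ := Real.log_pos hκ1
  have hα0 : 0 < α := div_pos (neg_pos.2 (Real.log_neg hq0 hq1)) hlogκ
  have hr' : (0 : ℝ) < r := by exact_mod_cast hr
  have hR' : (0 : ℝ) < R := by exact_mod_cast hR
  have h1 : R / r < κ ^ (m + 1) := Nat.lt_pow_succ_log_self (by omega) _
  have h2 : R < κ ^ (m + 1) * r := by
    have h3 : R < r * (R / r + 1) := Nat.lt_mul_div_succ R (by omega)
    calc R < r * (R / r + 1) := h3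
      _ ≤ r * κ ^ (m + 1) := Nat.mul_le_mul_left r h1
      _ = κ ^ (m + 1) * r := by ring
  have h2' : (R : ℝ) / r ≤ (κ : ℝ) ^ (m + 1) := by
    rw [div_le_iff₀ hr']
    exact_mod_cast h2.le
  have hκα : (κ : ℝ) ^ α = q⁻¹ := by
    rw [Real.rpow_def_of_pos hκ0, hα, mul_div_assoc', mul_comm, mul_div_assoc, div_self hlogκ.ne', mul_one,
      Real.exp_neg, Real.exp_log hq0]
  have h5 : ((R : ℝ) / r) ^ α ≤ (q⁻¹) ^ (m + 1) := by
    calc ((R : ℝ) / r) ^ α ≤ ((κ : ℝ) ^ (m + 1)) ^ α := Real.rpow_le_rpow (by positivity) h2' hα0.le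
      _ = ((κ : ℝ) ^ α) ^ (m + 1) := by
        rw [← Real.rpow_natCast, ← Real.rpow_natCast, ← Real.rpow_mul hκ0.le, ← Real.rpow_mul hκ0.le, mul_comm]
      _ = (q⁻¹) ^ (m + 1) := by rw [hκα]
  have h6 : ((r : ℝ) / R) ^ α = (((R : ℝ) / r) ^ α)⁻¹ := by
    rw [← Real.inv_rpow (by positivity), inv_div]
  have h7 : 0 < ((R : ℝ) / r) ^ α := Real.rpow_pos_of_pos (by positivity) _
  rw [h6]
  have h8 : ((q⁻¹) ^ (m + 1))⁻¹ ≤ (((R : ℝ) / r) ^ α)⁻¹ := inv_anti₀ h7 h5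
  have h9 : ((q⁻¹) ^ (m + 1))⁻¹ = q ^ (m + 1) := by rw [inv_pow, inv_inv]
  rw [h9] at h8
  calc q ^ m = q⁻¹ * q ^ (m + 1) := by rw [pow_succ]; field_simp
    _ ≤ q⁻¹ * (((R : ℝ) / r) ^ α)⁻¹ := mul_le_mul_of_nonneg_left h8 (by positivity)

/-- **`exit_rsw_arm` (Exit/Arch) word for word, from the record of ANY ratio `κ ≥ 2`** -/
theorem ah219_arm_K (t : ℝ) (ht1 : 1 / 2 ≤ t) (ht2 : t < 1) {p : ℝ} {n0 κ : ℕ} (hκ : 2 ≤ κ) (hp0 : 0 < p) (H : Ah219CircK t p n0 κ) :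
    ∃ C α : ℝ, 0 < C ∧ 0 < α ∧ ∀ (F : Finset (ℤ × ℤ)) (z : ℤ × ℤ) (r R : ℕ), RswJordan F → 1 ≤ r → r ≤ R → ¬ rswBox z r ⊆ F →
      rswP t F true (fun ω => ¬ RswSepW F ω (F ∩ rswBox z r) (F \ rswBox z R)) ≤ C * ((r : ℝ) / R) ^ α := by
  have h0 : 0 < t := by linarith
  have h1 : t ≤ 1 := ht2.le
  set p' : ℝ := min p (1 / 2) with hp'
  have hp'0 : 0 < p' := lt_min hp0 (by norm_num)
  have hp'1 : p' ≤ 1 / 2 := min_le_right _ _
  set q : ℝ := 1 - p' with hq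
  have hq0 : 0 < q := by linarith
  have hq1 : q < 1 := by linarith
  have hκ1 : (1 : ℝ) < κ := by exact_mod_cast (by omega : 1 < κ)
  set α : ℝ := -Real.log q / Real.log κ with hα
  have hα0 : 0 < α := div_pos (neg_pos.2 (Real.log_neg hq0 hq1)) (Real.log_pos hκ1)
  refine ⟨q⁻¹ * ((n0 : ℝ) + 1) ^ α, α, by positivity, hα0, fun F z r R hF hr hrR hout => ?_⟩
  set r' : ℕ := (n0 + 1) * r with hr'
  have hr'n : n0 ≤ r' := by
    have : (n0 + 1) * 1 ≤ (n0 + 1) * r := Nat.mul_le_mul_left _ hr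
    omega
  have hr'r : r ≤ r' := by
    have : 1 * r ≤ (n0 + 1) * r := Nat.mul_le_mul_right _ (by omega)
    omega
  have hr'1 : 1 ≤ r' := by omega
  have hR : 1 ≤ R := by omega
  have s0 : rswP t F true (fun ω => ¬ RswSepW F ω (F ∩ rswBox z r) (F \ rswBox z R))
      ≤ rswP t F true (fun ω => True ∧ ¬ RswSep F true ω (rswBox z r') (F \ rswBox z R)) :=
    arm101_P_mono h0.le h1 F true fun ω hω =>
      ⟨trivial, fun hs => hω (ah219_sepW_of_sep (jd19_poly_of_rsw hF) ω z hrR hout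
        (arm101_sep_mono (arm101_box_mono z hr'r) (Finset.Subset.refl _) hs))⟩
  have s2 := ah219_loc_arm_log (p := p') h0.le h1 (by linarith) z true hκ (r := r') (R := R) (F := F) (L := fun _ => True)
    (fun n hn _ => ah219_loc_mono h0.le h1 (min_le_left _ _) (ah219_loc_of_circK h0 h1 H (le_trans hr'n hn) F z true))
    (arm101_ext_const _ _)
  rw [ah219_P_true h0 h1, mul_one] at s2
  have s3 := ah219_pow_le hq0 hq1 hκ hr'1 hR
  have s4 : ((r' : ℝ) / R) ^ α = ((n0 : ℝ) + 1) ^ α * ((r : ℝ) / R) ^ α := by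
    rw [← Real.mul_rpow (by positivity) (by positivity), hr']
    push_cast
    rw [mul_div_assoc]
  calc rswP t F true (fun ω => ¬ RswSepW F ω (F ∩ rswBox z r) (F \ rswBox z R))
      ≤ q ^ Nat.log κ (R / r') := le_trans s0 s2
    _ ≤ q⁻¹ * ((r' : ℝ) / R) ^ α := s3
    _ = q⁻¹ * ((n0 : ℝ) + 1) ^ α * ((r : ℝ) / R) ^ α := by rw [s4]; ring

/-! ## 7. [ARM1] (292): the bulk arm bound for ANY finite face set, any colours -/

/-- the cut of `F` is exterior data of every buffer inside `F` -/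
theorem ah219_cut_ext {F B : Finset (ℤ × ℤ)} (hB : B ⊆ F) (b : Bool) : MdlExt B (fun ω => RswCut F b ω) := by
  intro ω ω' hS hO
  have key : ∀ e, RskBd F e → (RswGood b ω e ↔ RswGood b ω' e) := fun e he =>
    arm101_good_congr hS hO b (fun hi => rsk_bd_not_int he (rsk_int_mono hB hi))
  exact ⟨fun h e he => (key e he).1 (h e he), fun h e he => (key e he).2 (h e he)⟩

/-- **[ARM1]**: `F` is ANY finite set of faces which contains `Λ_R(z)`; `a` the colour of the circuits, `b` the colour of the boundary.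
PROOF: the flat problem `(F, b)` = the problem of a big box given the cut of `F`, which is exterior data of `Λ_R(z)`; `arm101_arm` in the big box. -/
theorem ah219_arm1 {t p : ℝ} {n0 : ℕ} (ht0 : 0 < t) (ht1 : t ≤ 1) (hp : 0 < p) (H : Arm101Circ t p n0) :
    ∃ C α : ℝ, 0 < C ∧ 0 < α ∧ ∀ (F : Finset (ℤ × ℤ)) (z : ℤ × ℤ) (r R : ℕ) (a b : Bool), 1 ≤ r → r ≤ R → rswBox z R ⊆ F →
      rswP t F b (fun ω => ¬ RswSep F a ω (rswBox z r) (F \ rswBox z R)) ≤ C * ((r : ℝ) / R) ^ α := by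
  obtain ⟨C, α, hC, hα, h⟩ := arm101_arm ht0.le ht1 hp H
  refine ⟨C * 2 ^ α, α, by positivity, hα, fun F z r R a b hr hrR hB => ?_⟩
  obtain ⟨M, hM1, hFG, hBG, hbd⟩ := ah219_big_box F z R
  set G := rswBox z M with hG
  have c0 := ah219_cut_pos ht0 ht1 hbd b
  have h1 := h G z b a (fun ω => RswCut F b ω) r R (by omega) (bj219_box_jordan z hM1) hBG (ah219_cut_ext hB b)
  have e1 := ah219_cut_P ht0 ht1 hFG b b (fun ω => ¬ RswSep F a ω (rswBox z r) (F \ rswBox z R))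
  have e2 : rswP t G b (fun ω => RswCut F b ω ∧ ¬ RswSep F a (rskIn F ω) (rswBox z r) (F \ rswBox z R))
      ≤ rswP t G b (fun ω => RswCut F b ω ∧ ¬ RswSep G a ω (rswBox z r) (G \ rswBox z R)) :=
    arm101_P_mono ht0.le ht1 G b fun ω hω => ⟨hω.1, fun hs => hω.2 (ah219_sep_in hFG hs)⟩
  rw [e1] at e2
  have h3 := le_of_mul_le_mul_right (e2.trans h1) c0
  have hr' : (1 : ℝ) ≤ r := by exact_mod_cast hr
  have hR' : (0 : ℝ) < R := by
    have : 1 ≤ R := by omega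
    exact_mod_cast this
  have h4 : (((r : ℝ) + 1) / R) ^ α ≤ 2 ^ α * ((r : ℝ) / R) ^ α := by
    rw [← Real.mul_rpow (by norm_num) (by positivity)]
    refine Real.rpow_le_rpow (by positivity) ?_ hα.le
    rw [mul_div_assoc', div_le_div_iff_of_pos_right hR']
    linarith
  calc rswP t F b (fun ω => ¬ RswSep F a ω (rswBox z r) (F \ rswBox z R))
      ≤ C * (((r : ℝ) + 1) / R) ^ α := h3
    _ ≤ C * (2 ^ α * ((r : ℝ) / R) ^ α) := mul_le_mul_of_nonneg_left h4 hC.le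
    _ = C * 2 ^ α * ((r : ℝ) / R) ^ α := by ring

/-!
# RATIO (order RSW-9/10 of 122; prefix `rt219_`, `Rt219`): FROM ONE UNKNOWN ASPECT RATIO `κ` TO THE RATIO `1 : 2`, ALL `n ≥ 1`, ALL CENTRES

`exit_rsw_circuit` (Exit/RSW, weak form v2) gives ONE ratio `κ ≥ 2` and `n ≥ n0`: a minus circuit in `Λ_{κn} \ Λ_n` under the plus flat law of `Λ_{κn}`.
**`rt219_ratio`** : (the statement of `exit_rsw_circuit` at `t`) `→ ∃ p > 0, ∀ n ≥ 1, ∀ z, p ≤ P⁺_{Λ_{2n}(z)} (RswSep (Λ_{2n}(z)) false ω (Λ_n(z)) (layer))`.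
PROOF.  `m = ⌊n / (κ+2)⌋`; the boxes `Λ_m(x)`, `x ∈ z + m ℤ²`, `|x - z| ≤ n + m`, cover `Λ_n(z)`; their fat boxes `Λ_{κm+1}(x)` lie in `Λ_{2n}(z)`; there are at most `(4κ+9)²` of them.
* deterministic (`rt219_chain`): if every small fat annulus is blocked, a dual path from `f ∈ Λ_n(z)`, `f ∈ Λ_m(x)`, cannot reach the layer of `Λ_{κm}(x)`, hence never leaves `Λ_{κm}(x)`, which misses the layer of `Λ_{2n}(z)`.
* positive association of decreasing events (`rt219_fkg_dec`, `rt219_fkg_family`; from `cmi291_exit_fkg` of 291).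
* domain monotonicity (`rt219_mono`): exact cut (`ah219_cut_P`, from `rsk_cut_comp` of 91) + association of the (increasing) cut with the (decreasing) separation.
* translations (`rsy_circuit_T` of 211).
* small `n`: one configuration of positive weight (`rt219_pos`): plus on the polygon, minus inside, all minus-minus edges open.
-/

/-! ## 8. association of decreasing events -/

/-- decreasing event (order (3.4) of 291) -/
def Rt219Dec (L : RswCfg → Prop) : Prop := ∀ ω ω', Cmi291Le ω ω' → L ω' → L ω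

theorem Rt219Dec_eqns_cite (L : RswCfg → Prop) : Rt219Dec L = ∀ ω ω', Cmi291Le ω ω' → L ω' → L ω := by rw [Rt219Dec]

open Classical in
theorem rt219_dec_ind {L : RswCfg → Prop} (hL : Rt219Dec L) : Cmi291Inc (fun ω => (-1 : ℝ) * (if L ω then 1 else 0)) := by
  intro ω ω' h
  show (-1 : ℝ) * (if L ω then 1 else 0) ≤ (-1 : ℝ) * (if L ω' then 1 else 0)
  by_cases h1 : L ω'
  · rw [if_pos h1, if_pos (hL ω ω' h h1)]
  · rw [if_neg h1]
    split_ifs <;> norm_num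

theorem rt219_E_ind (t : ℝ) (F : Finset (ℤ × ℤ)) (b : Bool) (L : RswCfg → Prop) [DecidablePred L] :
    rswE t F b (fun ω => if L ω then (1 : ℝ) else 0) = rswP t F b L := by
  rw [rsz_P_def]
  congr 1
  funext ω
  by_cases h : L ω <;> simp [h]

theorem rt219_fkg_dec {t : ℝ} (h0 : 0 < t) (h1 : t ≤ 1) {F : Finset (ℤ × ℤ)} (hF : RswJordan F) (b : Bool)
    {L L' : RswCfg → Prop} (hL : Rt219Dec L) (hL' : Rt219Dec L') :
    rswP t F b L * rswP t F b L' ≤ rswP t F b (fun ω => L ω ∧ L' ω) := by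
  classical
  have key := cmi291_exit_fkg h0 h1 hF b (rt219_dec_ind hL) (rt219_dec_ind hL')
  rw [rsz_E_smul, rsz_E_smul] at key
  have e : (fun ω => (-1 : ℝ) * (if L ω then 1 else 0) * ((-1 : ℝ) * (if L' ω then 1 else 0)))
      = fun ω => if L ω ∧ L' ω then (1 : ℝ) else 0 := by
    funext ω
    by_cases a : L ω <;> by_cases a' : L' ω <;> simp [a, a']
  rw [e, rt219_E_ind, rt219_E_ind, rt219_E_ind t F b (fun ω => L ω ∧ L' ω)] at key
  nlinarith [key]

/-- an increasing and a decreasing event are negatively correlated -/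
theorem rt219_fkg_mixed {t : ℝ} (h0 : 0 < t) (h1 : t ≤ 1) {F : Finset (ℤ × ℤ)} (hF : RswJordan F) (b : Bool)
    {C L : RswCfg → Prop} (hC : Cmi291IncP C) (hL : Rt219Dec L) :
    rswP t F b (fun ω => C ω ∧ L ω) ≤ rswP t F b C * rswP t F b L := by
  classical
  have key := cmi291_exit_fkg h0 h1 hF b hC.ind (rt219_dec_ind hL)
  rw [rsz_E_smul] at key
  have e : (fun ω => (if C ω then (1 : ℝ) else 0) * ((-1 : ℝ) * (if L ω then 1 else 0)))
      = fun ω => (-1 : ℝ) * (if C ω ∧ L ω then (1 : ℝ) else 0) := by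
    funext ω
    by_cases a : C ω <;> by_cases a' : L ω <;> simp [a, a']
  rw [e, rsz_E_smul, rt219_E_ind, rt219_E_ind, rt219_E_ind t F b (fun ω => C ω ∧ L ω)] at key
  nlinarith [key]

theorem rt219_dec_and {L L' : RswCfg → Prop} (hL : Rt219Dec L) (hL' : Rt219Dec L') : Rt219Dec (fun ω => L ω ∧ L' ω) :=
  fun ω ω' h hh => ⟨hL ω ω' h hh.1, hL' ω ω' h hh.2⟩

theorem rt219_dec_forall {ι : Type*} (I : Finset ι) {L : ι → RswCfg → Prop} (hL : ∀ i ∈ I, Rt219Dec (L i)) :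
    Rt219Dec (fun ω => ∀ i ∈ I, L i ω) := fun ω ω' h hh i hi => hL i hi ω ω' h (hh i hi)

/-- **association of a finite family of decreasing events** -/
theorem rt219_fkg_family {t : ℝ} (h0 : 0 < t) (h1 : t ≤ 1) {F : Finset (ℤ × ℤ)} (hF : RswJordan F) (b : Bool)
    {ι : Type*} (I : Finset ι) {L : ι → RswCfg → Prop} (hL : ∀ i ∈ I, Rt219Dec (L i)) :
    ∏ i ∈ I, rswP t F b (L i) ≤ rswP t F b (fun ω => ∀ i ∈ I, L i ω) := by
  classical
  induction I using Finset.induction_on with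
  | empty =>
    rw [Finset.prod_empty]
    refine le_of_eq ?_
    rw [← rsz_P_true h0 h1 F b]
    exact arm101_P_congr t F b fun ω => by simp
  | insert i I hi ih =>
    rw [Finset.prod_insert hi]
    have hI : ∀ j ∈ I, Rt219Dec (L j) := fun j hj => hL j (Finset.mem_insert_of_mem hj)
    have h2 := rt219_fkg_dec h0 h1 hF b (hL i (Finset.mem_insert_self i I)) (rt219_dec_forall I hI)
    refine le_trans (mul_le_mul_of_nonneg_left (ih hI) (rsz_P_nonneg h0.le h1 F b _)) (h2.trans (le_of_eq ?_))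
    exact arm101_P_congr t F b fun ω => by simp

theorem rt219_sep_dec (F A B : Finset (ℤ × ℤ)) : Rt219Dec (fun ω => RswSep F false ω A B) :=
  fun _ _ h hs => cmi291_sep_false_dec F A B h hs

theorem rt219_cut_inc (F : Finset (ℤ × ℤ)) : Cmi291IncP (fun ω => RswCut F true ω) :=
  fun _ _ h hc e he => cmi291_good_true h (hc e he)

/-! ## 9. domain monotonicity -/

theorem rt219_good_of_in {F : Finset (ℤ × ℤ)} {a : Bool} {ω : RswCfg} {e : (ℤ × ℤ) × Bool} (he : e ∈ rswInt F)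
    (h : RswGood a (rskIn F ω) e) : RswGood a ω e := by
  obtain ⟨h1, h2, h3⟩ := h
  refine ⟨(Finset.mem_inter.1 h1).1, ?_, ?_⟩
  · rw [← h2]
    show e.1 ∈ ω.S ↔ e.1 ∈ ω.S ∩ cornersOf F
    rw [Finset.mem_inter]
    exact ⟨fun h => ⟨h, rsk_int_fst he⟩, fun h => h.1⟩
  · rw [← h3]
    show rswEnd e ∈ ω.S ↔ rswEnd e ∈ ω.S ∩ cornersOf F
    rw [Finset.mem_inter]
    exact ⟨fun h => ⟨h, rsk_int_end he⟩, fun h => h.1⟩

theorem rt219_sep_of_in {F : Finset (ℤ × ℤ)} {a : Bool} {ω : RswCfg} {A B : Finset (ℤ × ℤ)}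
    (h : RswSep F a (rskIn F ω) A B) : RswSep F a ω A B := by
  intro f hf g hg hr
  refine h f hf g hg (Relation.ReflTransGen.mono ?_ _ _ hr)
  rintro x y ⟨hx, hy, e, he, hn⟩
  refine ⟨hx, hy, e, he, fun hgood => hn (rt219_good_of_in ?_ hgood)⟩
  rw [rsk_mem_int]
  rcases he with ⟨h1, h2⟩ | ⟨h1, h2⟩
  · exact ⟨h1 ▸ hx, h2 ▸ hy⟩
  · exact ⟨h1 ▸ hy, h2 ▸ hx⟩

/-- **domain monotonicity**: a minus separation inside `F'` is at least as likely under the plus flat law of a larger Jordan set -/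
theorem rt219_mono {t : ℝ} (h0 : 0 < t) (h1 : t ≤ 1) {F' F : Finset (ℤ × ℤ)} (hF : RswJordan F) (hsub : F' ⊆ F)
    (hbd : ∀ e, RskBd F' e → e ∈ rswInt F) (A B : Finset (ℤ × ℤ)) :
    rswP t F' true (fun ω => RswSep F' false ω A B) ≤ rswP t F true (fun ω => RswSep F' false ω A B) := by
  have c0 := ah219_cut_pos h0 h1 hbd true
  have e1 := ah219_cut_P h0 h1 hsub true true (fun ω => RswSep F' false ω A B)
  have e2 : rswP t F true (fun ω => RswCut F' true ω ∧ RswSep F' false (rskIn F' ω) A B)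
      ≤ rswP t F true (fun ω => RswCut F' true ω ∧ RswSep F' false ω A B) :=
    arm101_P_mono h0.le h1 F true fun ω hω => ⟨hω.1, rt219_sep_of_in hω.2⟩
  have e3 := rt219_fkg_mixed h0 h1 hF true (rt219_cut_inc F') (rt219_sep_dec F' A B)
  rw [e1] at e2
  have e4 := e2.trans e3
  rw [mul_comm (rswP t F true fun ω => RswCut F' true ω)] at e4
  exact le_of_mul_le_mul_right e4 c0

/-! ## 10. the deterministic part -/

/-- a dual path of `F` which starts in `F'` stays in `F'` or reaches the layer of `F'` inside `F'` -/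
theorem rt219_escape {F' F : Finset (ℤ × ℤ)} {a : Bool} {ω : RswCfg} {f g : ℤ × ℤ} (hf : f ∈ F')
    (hr : Relation.ReflTransGen (RswStep F a ω) f g) :
    (g ∈ F' ∧ Relation.ReflTransGen (RswStep F' a ω) f g) ∨ ∃ h ∈ rswLayer F', Relation.ReflTransGen (RswStep F' a ω) f h := by
  induction hr with
  | refl => exact Or.inl ⟨hf, Relation.ReflTransGen.refl⟩
  | @tail y x _ hstep ih =>
    rcases ih with ⟨hy, hp⟩ | h
    · obtain ⟨_, _, e, he, hn⟩ := hstep
      by_cases hx : x ∈ F'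
      · exact Or.inl ⟨hx, hp.tail ⟨hy, hx, e, he, hn⟩⟩
      · refine Or.inr ⟨y, ?_, hp⟩
        by_contra hl
        exact hx (ja7_nbr_of_not_layer hy hl he)
    · exact Or.inr h

/-- a box whose enlargement by one lies in `F` misses the layer of `F` -/
theorem rt219_off_layer {F : Finset (ℤ × ℤ)} {x : ℤ × ℤ} {k : ℕ} (h : rswBox x (k + 1) ⊆ F) {g : ℤ × ℤ} (hg : g ∈ rswBox x k) :
    g ∉ rswLayer F := by
  intro hl
  obtain ⟨_, v, hv, hp⟩ := (rsy_mem_layer F g).1 hl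
  obtain ⟨f', hf', hn⟩ := (rsy_onPolygon_iff F v).1 hp
  apply hn
  apply h
  rw [ja7_mem_box] at hg ⊢
  obtain ⟨a1, a2⟩ := hv
  obtain ⟨b1, b2⟩ := hf'
  push_cast
  omega

/-- the polygon edges of a box are interior edges of every set which contains the box enlarged by one -/
theorem rt219_bd_int {F : Finset (ℤ × ℤ)} {x : ℤ × ℤ} {k : ℕ} (h : rswBox x (k + 1) ⊆ F) (e : (ℤ × ℤ) × Bool)
    (he : RskBd (rswBox x k) e) : e ∈ rswInt F := by
  rw [rsk_mem_int]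
  obtain ⟨⟨u, v⟩, s⟩ := e
  have key : ∀ g g' : ℤ × ℤ, g ∈ rswBox x k → (g'.1 - g.1).natAbs + (g'.2 - g.2).natAbs ≤ 1 → g' ∈ F := by
    intro g g' hg hd
    apply h
    rw [ja7_mem_box] at hg ⊢
    push_cast
    omega
  rcases he with ⟨h1, -⟩ | ⟨-, h1⟩
  · refine ⟨key _ _ h1 (by simp), key _ _ h1 ?_⟩
    cases s <;> simp [rswCo]
  · refine ⟨key _ _ h1 ?_, key _ _ h1 (by simp)⟩
    cases s <;> simp [rswCo]

/-- **the chain of small fat annuli blocks the thin annulus** -/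
theorem rt219_chain {F A : Finset (ℤ × ℤ)} {ω : RswCfg} {ι : Type*} (I : Finset ι) (x : ι → ℤ × ℤ) (m k : ℕ)
    (hcov : ∀ f ∈ A, ∃ i ∈ I, f ∈ rswBox (x i) m) (hmk : m ≤ k) (hin : ∀ i ∈ I, rswBox (x i) (k + 1) ⊆ F)
    (h : ∀ i ∈ I, RswSep (rswBox (x i) k) false ω (rswBox (x i) m) (rswLayer (rswBox (x i) k))) :
    RswSep F false ω A (rswLayer F) := by
  intro f hf g hg hr
  obtain ⟨i, hi, hfi⟩ := hcov f hf
  rcases rt219_escape (F' := rswBox (x i) k) (arm101_box_mono (x i) hmk hfi) hr with ⟨hg', _⟩ | ⟨y, hy, hp⟩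
  · exact rt219_off_layer (hin i hi) hg' hg
  · exact h i hi f hfi y hy hp

/-- the grid point under a face -/
theorem rt219_grid {z f : ℤ × ℤ} {n m J : ℕ} (hm : 1 ≤ m) (hJ : n ≤ m * J) (hf : f ∈ rswBox z n) :
    ∃ i j : ℤ, (-(J : ℤ) ≤ i ∧ i ≤ J) ∧ (-(J : ℤ) ≤ j ∧ j ≤ J) ∧
      (-((n : ℤ) + m) ≤ m * i ∧ (m : ℤ) * i ≤ n + m) ∧ (-((n : ℤ) + m) ≤ m * j ∧ (m : ℤ) * j ≤ n + m) ∧
      f ∈ rswBox (z.1 + m * i, z.2 + m * j) m := by
  have hm' : (0 : ℤ) < m := by exact_mod_cast hm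
  have hJ' : (n : ℤ) ≤ m * J := by exact_mod_cast hJ
  rw [ja7_mem_box] at hf
  have one : ∀ d : ℤ, -(n : ℤ) ≤ d → d < n → ∃ i : ℤ, (-(J : ℤ) ≤ i ∧ i ≤ J) ∧ (-((n : ℤ) + m) ≤ m * i ∧ (m : ℤ) * i ≤ n + m) ∧
      (m : ℤ) * i ≤ d ∧ d < m * i + m := by
    intro d d1 d2
    have e1 := Int.mul_ediv_add_emod d m
    have e2 := Int.emod_nonneg d hm'.ne'
    have e3 := Int.emod_lt_of_pos d hm'
    refine ⟨d / m, ⟨?_, ?_⟩, ⟨by omega, by omega⟩, by omega, by omega⟩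
    · have : (m : ℤ) * (-(J : ℤ) - 1) < m * (d / m) := by
        have : (m : ℤ) * (-(J : ℤ) - 1) = -(m * J) - m := by ring
        omega
      have := lt_of_mul_lt_mul_left this hm'.le
      omega
    · have : (m : ℤ) * (d / m) < m * J := by omega
      exact (lt_of_mul_lt_mul_left this hm'.le).le
  obtain ⟨i, i1, i2, i3, i4⟩ := one (f.1 - z.1) (by omega) (by omega)
  obtain ⟨j, j1, j2, j3, j4⟩ := one (f.2 - z.2) (by omega) (by omega)
  refine ⟨i, j, i1, j1, i2, j2, ?_⟩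
  rw [ja7_mem_box]
  simp only
  omega

/-! ## 11. small boxes: one configuration of positive weight -/

theorem rt219_sum_pos {t : ℝ} (h0 : 0 ≤ t) (h1 : t ≤ 1) (F : Finset (ℤ × ℤ)) (b : Bool) {X : RswCfg → ℝ} (hX : ∀ ω, 0 ≤ X ω)
    (ω0 : RswCfg) (hS : ω0.S ⊆ cornersOf F) (hD : ω0.D ⊆ F) (hO : ω0.O ⊆ rswInt F) (hw : 0 < rswWt t F b ω0) (hX0 : 0 < X ω0) :
    0 < rswSum t F b X := by
  unfold rswSum
  have hnn : ∀ ω : RswCfg, 0 ≤ rswWt t F b ω * X ω := fun ω => mul_nonneg (rsk_wt_nonneg h0 h1 F b ω) (hX ω)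
  refine Finset.sum_pos' (fun S _ => Finset.sum_nonneg fun D _ => Finset.sum_nonneg fun O _ => hnn _)
    ⟨ω0.S, Finset.mem_powerset.2 hS, ?_⟩
  refine Finset.sum_pos' (fun D _ => Finset.sum_nonneg fun O _ => hnn _) ⟨ω0.D, Finset.mem_powerset.2 hD, ?_⟩
  refine Finset.sum_pos' (fun O _ => hnn _) ⟨ω0.O, Finset.mem_powerset.2 hO, ?_⟩
  exact mul_pos hw hX0

open Classical in
/-- plus on the polygon, minus inside, all minus-minus edges open, all faces minus -/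
noncomputable def rt219Cfg (F : Finset (ℤ × ℤ)) : RswCfg :=
  ⟨(cornersOf F).filter (fun v => OnPolygon F v), ∅,
    (rswInt F).filter (fun e => ¬ OnPolygon F e.1 ∧ ¬ OnPolygon F (rswEnd e))⟩

theorem rt219_cfg_S {F : Finset (ℤ × ℤ)} {v : ℤ × ℤ} : v ∈ (rt219Cfg F).S ↔ v ∈ cornersOf F ∧ OnPolygon F v := by
  unfold rt219Cfg
  simp only [Finset.mem_filter]

theorem rt219_cfg_O {F : Finset (ℤ × ℤ)} {e : (ℤ × ℤ) × Bool} :
    e ∈ (rt219Cfg F).O ↔ e ∈ rswInt F ∧ ¬ OnPolygon F e.1 ∧ ¬ OnPolygon F (rswEnd e) := by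
  unfold rt219Cfg
  simp only [Finset.mem_filter]

theorem rt219_cfg_D (F : Finset (ℤ × ℤ)) : (rt219Cfg F).D = ∅ := by
  unfold rt219Cfg
  rfl

theorem rt219_cfg_wt {t : ℝ} (h0 : 0 < t) (h1 : t < 1) (F : Finset (ℤ × ℤ)) : 0 < rswWt t F true (rt219Cfg F) := by
  have hbc : RswBc F true (rt219Cfg F) := fun v hv hp => ⟨fun _ => rfl, fun _ => rt219_cfg_S.2 ⟨hv, hp⟩⟩
  unfold rswWt
  rw [if_pos hbc]
  refine Finset.prod_pos fun e _ => ?_
  unfold rswFac
  by_cases hO : e ∈ (rt219Cfg F).O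
  · rw [if_pos hO]
    obtain ⟨_, a1, a2⟩ := rt219_cfg_O.1 hO
    have b1 : e.1 ∉ (rt219Cfg F).S := fun h => a1 (rt219_cfg_S.1 h).2
    have b2 : rswEnd e ∉ (rt219Cfg F).S := fun h => a2 (rt219_cfg_S.1 h).2
    rw [if_pos ⟨fun h => absurd h b1, fun h => absurd h b2⟩]
    exact h0
  · rw [if_neg hO, rt219_cfg_D, if_pos (by simp)]
    split_ifs
    · linarith
    · exact h0

/-- the two ends of an edge are corners of each of its two faces -/
theorem rt219_ends_inc {e : (ℤ × ℤ) × Bool} {f : ℤ × ℤ} (h : f = e.1 ∨ f = rswCo e) : RsyInc e.1 f ∧ RsyInc (rswEnd e) f := by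
  obtain ⟨⟨u, v⟩, s⟩ := e
  unfold RsyInc
  cases s <;> rcases h with rfl | rfl <;> simp [rswEnd, rswCo]

theorem rt219_cfg_sep (F : Finset (ℤ × ℤ)) {A : Finset (ℤ × ℤ)} (hA : ∀ f ∈ A, f ∉ rswLayer F) :
    RswSep F false (rt219Cfg F) A (rswLayer F) := by
  intro f hf g hg hr
  rcases Relation.ReflTransGen.cases_head hr with h | ⟨c, hstep, _⟩
  · exact hA f hf (h ▸ hg)
  · obtain ⟨hfF, hcF, e, he, hn⟩ := hstep
    apply hn
    have hface : f = e.1 ∨ f = rswCo e := by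
      rcases he with ⟨h1, _⟩ | ⟨_, h1⟩
      · exact Or.inl h1
      · exact Or.inr h1
    obtain ⟨i1, i2⟩ := rt219_ends_inc hface
    have hno : ∀ v, RsyInc v f → ¬ OnPolygon F v := fun v hv hp => hA f hf ((rsy_mem_layer F f).2 ⟨hfF, v, hv, hp⟩)
    have hint : e ∈ rswInt F := by
      rw [rsk_mem_int]
      rcases he with ⟨h1, h2⟩ | ⟨h1, h2⟩
      · exact ⟨h1 ▸ hfF, h2 ▸ hcF⟩
      · exact ⟨h1 ▸ hcF, h2 ▸ hfF⟩
    refine ⟨rt219_cfg_O.2 ⟨hint, hno _ i1, hno _ i2⟩, ?_, ?_⟩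
    · exact ⟨fun h => absurd (rt219_cfg_S.1 h).2 (hno _ i1), fun h => absurd h (by simp)⟩
    · exact ⟨fun h => absurd (rt219_cfg_S.1 h).2 (hno _ i2), fun h => absurd h (by simp)⟩

/-- **positivity**: the minus separation of a set off the layer has positive probability under the plus flat law -/
theorem rt219_pos {t : ℝ} (h0 : 0 < t) (h1 : t < 1) (F : Finset (ℤ × ℤ)) {A : Finset (ℤ × ℤ)} (hA : ∀ f ∈ A, f ∉ rswLayer F) :
    0 < rswP t F true (fun ω => RswSep F false ω A (rswLayer F)) := by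
  classical
  rw [ah219_P_eq]
  refine div_pos (rt219_sum_pos h0.le h1.le F true (fun ω => by split_ifs <;> norm_num) (rt219Cfg F) ?_ ?_ ?_
    (rt219_cfg_wt h0 h1 F) ?_) (rsk_sum_one_pos h0 h1.le F true)
  · intro v hv
    exact (rt219_cfg_S.1 hv).1
  · rw [rt219_cfg_D]
    exact Finset.empty_subset _
  · intro e he
    exact (rt219_cfg_O.1 he).1
  · rw [if_pos (rt219_cfg_sep F hA)]
    exact one_pos

theorem rt219_small {q : ℕ → ℝ} (hq : ∀ n, 1 ≤ n → 0 < q n) (N : ℕ) : ∃ p : ℝ, 0 < p ∧ ∀ n, 1 ≤ n → n < N → p ≤ q n := by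
  induction N with
  | zero => exact ⟨1, one_pos, fun n _ h => absurd h (Nat.not_lt_zero n)⟩
  | succ N ih =>
    obtain ⟨p, hp, h⟩ := ih
    by_cases hN : 1 ≤ N
    · refine ⟨min p (q N), lt_min hp (hq N hN), fun n h1 h2 => ?_⟩
      rcases Nat.lt_succ_iff_lt_or_eq.1 h2 with h3 | rfl
      · exact (min_le_left _ _).trans (h n h1 h3)
      · exact min_le_right _ _
    · exact ⟨p, hp, fun n h1 h2 => h n h1 (by omega)⟩

/-! ## 12. assembly -/

/-- the index set of the grid: depends on `κ` only -/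
noncomputable def rt219Idx (κ : ℕ) : Finset (ℤ × ℤ) :=
  Finset.Icc (-((2 * κ + 4 : ℕ) : ℤ)) ((2 * κ + 4 : ℕ) : ℤ) ×ˢ Finset.Icc (-((2 * κ + 4 : ℕ) : ℤ)) ((2 * κ + 4 : ℕ) : ℤ)

theorem rt219Idx_eqns_cite (κ : ℕ) : rt219Idx κ =
    Finset.Icc (-((2 * κ + 4 : ℕ) : ℤ)) ((2 * κ + 4 : ℕ) : ℤ) ×ˢ Finset.Icc (-((2 * κ + 4 : ℕ) : ℤ)) ((2 * κ + 4 : ℕ) : ℤ) := by
  rw [rt219Idx]

/-- **large boxes** -/
theorem rt219_large {t : ℝ} (h0 : 0 < t) (h1 : t ≤ 1) {κ n0 : ℕ} {p0 : ℝ} (hκ : 2 ≤ κ) (hp0 : 0 < p0) (hp1 : p0 ≤ 1)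
    (hc : ∀ m : ℕ, n0 ≤ m → p0 ≤ rswP t (rswBox 0 (κ * m)) true
      (fun ω => RswSep (rswBox 0 (κ * m)) false ω (rswBox 0 m) (rswLayer (rswBox 0 (κ * m)))))
    {n : ℕ} (hn : (κ + 2) * (n0 + 1) ≤ n) (z : ℤ × ℤ) :
    p0 ^ (rt219Idx κ).card ≤ rswP t (rswBox z (2 * n)) true
      (fun ω => RswSep (rswBox z (2 * n)) false ω (rswBox z n) (rswLayer (rswBox z (2 * n)))) := by
  classical
  set m : ℕ := n / (κ + 2) with hm
  have hκ2 : 0 < κ + 2 := by omega
  have hm0 : n0 + 1 ≤ m := (Nat.le_div_iff_mul_le hκ2).2 (by rw [mul_comm]; exact hn)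
  have hm1 : 1 ≤ m := by omega
  have hmn : (κ + 2) * m ≤ n := Nat.mul_div_le n (κ + 2)
  have hnm : n < (κ + 2) * (m + 1) := Nat.lt_mul_div_succ n hκ2
  set k : ℕ := κ * m with hk
  have hk2 : k + 2 * m ≤ n := by
    have : (κ + 2) * m = k + 2 * m := by rw [hk]; ring
    omega
  have hJ : n ≤ m * (2 * κ + 4) := by
    have e1 : (κ + 2) * (m + 1) = k + 2 * m + (κ + 2) := by rw [hk]; ring
    have e2 : m * (2 * κ + 4) = 2 * k + 4 * m := by rw [hk]; ring
    have e3 : κ ≤ k := by rw [hk]; exact Nat.le_mul_of_pos_right κ hm1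
    omega
  have hmk : m ≤ k := by rw [hk]; exact Nat.le_mul_of_pos_left m (by omega)
  set F : Finset (ℤ × ℤ) := rswBox z (2 * n) with hF
  have hFJ : RswJordan F := bj219_box_jordan z (by omega)
  set I : Finset (ℤ × ℤ) := (rt219Idx κ).filter (fun ij =>
    (-((n : ℤ) + m) ≤ m * ij.1 ∧ (m : ℤ) * ij.1 ≤ n + m) ∧ (-((n : ℤ) + m) ≤ m * ij.2 ∧ (m : ℤ) * ij.2 ≤ n + m)) with hI
  set x : ℤ × ℤ → ℤ × ℤ := fun ij => (z.1 + m * ij.1, z.2 + m * ij.2) with hx
  have hin : ∀ ij ∈ I, rswBox (x ij) (k + 1) ⊆ F := by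
    intro ij hij f hf
    obtain ⟨_, ⟨a1, a2⟩, a3, a4⟩ := Finset.mem_filter.1 hij
    rw [hF, ja7_mem_box]
    rw [ja7_mem_box] at hf
    simp only [hx] at hf
    push_cast at hf ⊢
    omega
  have hcov : ∀ f ∈ rswBox z n, ∃ ij ∈ I, f ∈ rswBox (x ij) m := by
    intro f hf
    obtain ⟨i, j, i1, j1, i2, j2, hfx⟩ := rt219_grid hm1 hJ hf
    refine ⟨(i, j), Finset.mem_filter.2 ⟨?_, i2, j2⟩, hfx⟩
    unfold rt219Idx
    rw [Finset.mem_product, Finset.mem_Icc, Finset.mem_Icc]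
    exact ⟨i1, j1⟩
  have hone : ∀ ij ∈ I, p0 ≤ rswP t F true
      (fun ω => RswSep (rswBox (x ij) k) false ω (rswBox (x ij) m) (rswLayer (rswBox (x ij) k))) := by
    intro ij hij
    have s1 := hc m (by omega)
    rw [← rsy_circuit_T t (x ij) (κ * m) m true false] at s1
    refine s1.trans (rt219_mono h0 h1 hFJ ((arm101_box_mono (x ij) (Nat.le_succ k)).trans (hin ij hij))
      (rt219_bd_int (hin ij hij)) _ _)
  have s1 : p0 ^ (rt219Idx κ).card ≤ p0 ^ I.card :=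
    pow_le_pow_of_le_one hp0.le hp1 (Finset.card_filter_le _ _)
  have s2 : p0 ^ I.card ≤ ∏ ij ∈ I, rswP t F true
      (fun ω => RswSep (rswBox (x ij) k) false ω (rswBox (x ij) m) (rswLayer (rswBox (x ij) k))) := by
    rw [← Finset.prod_const]
    exact Finset.prod_le_prod (fun _ _ => hp0.le) hone
  have s3 := rt219_fkg_family h0 h1 hFJ true I
    (L := fun ij ω => RswSep (rswBox (x ij) k) false ω (rswBox (x ij) m) (rswLayer (rswBox (x ij) k)))
    (fun ij _ => rt219_sep_dec _ _ _)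
  have s4 : rswP t F true (fun ω => ∀ ij ∈ I, RswSep (rswBox (x ij) k) false ω (rswBox (x ij) m) (rswLayer (rswBox (x ij) k)))
      ≤ rswP t F true (fun ω => RswSep F false ω (rswBox z n) (rswLayer F)) :=
    arm101_P_mono h0.le h1 F true fun ω hω => rt219_chain I x m k hcov hmk hin hω
  exact s1.trans (s2.trans (s3.trans s4))

/-- **FROM ONE UNKNOWN RATIO TO THE RATIO `1 : 2`, ALL `n ≥ 1`, ALL CENTRES** (hypothesis = the statement of `exit_rsw_circuit` at `t`) -/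
theorem rt219_ratio (t : ℝ) (ht1 : 1 / 2 ≤ t) (ht2 : t < 1)
    (H : ∃ (κ n0 : ℕ) (p : ℝ), 2 ≤ κ ∧ 0 < p ∧ ∀ n : ℕ, n0 ≤ n →
      p ≤ rswP t (rswBox 0 (κ * n)) true
        (fun ω => RswSep (rswBox 0 (κ * n)) false ω (rswBox 0 n) (rswLayer (rswBox 0 (κ * n))))) :
    ∃ p : ℝ, 0 < p ∧ ∀ n : ℕ, 1 ≤ n → ∀ z : ℤ × ℤ,
      p ≤ rswP t (rswBox z (2 * n)) true
        (fun ω => RswSep (rswBox z (2 * n)) false ω (rswBox z n) (rswLayer (rswBox z (2 * n)))) := by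
  have h0 : 0 < t := by linarith
  obtain ⟨κ, n0, p0, hκ, hp0, hc⟩ := H
  have hq : ∀ n : ℕ, 1 ≤ n → 0 < rswP t (rswBox 0 (2 * n)) true
      (fun ω => RswSep (rswBox 0 (2 * n)) false ω (rswBox 0 n) (rswLayer (rswBox 0 (2 * n)))) := fun n hn =>
    rt219_pos h0 ht2 _ fun f hf => rt219_off_layer (arm101_box_mono 0 (by omega)) hf
  obtain ⟨p2, hp2, hsmall⟩ := rt219_small hq ((κ + 2) * (n0 + 1))
  have hp1 : 0 < min p0 1 := lt_min hp0 one_pos
  refine ⟨min ((min p0 1) ^ (rt219Idx κ).card) p2, lt_min (pow_pos hp1 _) hp2, fun n hn z => ?_⟩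
  by_cases hN : (κ + 2) * (n0 + 1) ≤ n
  · exact (min_le_left _ _).trans (rt219_large h0 ht2.le hκ hp1 (min_le_right _ _)
      (fun m hm => (min_le_left _ _).trans (hc m hm)) hN z)
  · rw [rsy_circuit_T t z (2 * n) n true false]
    exact (min_le_right _ _).trans (hsmall n hn (by omega))

/-! ## 13. the two records of MOM-4 (164) for ANY finite face set, from `Ah219Circ` -/

/-- no pins: the record of 101 -/
theorem ah219_circ101 {t p : ℝ} {n0 : ℕ} (H : Ah219Circ t p n0) : Arm101Circ t p n0 := by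
  intro n hn F z b a L hF hB hL
  have h := H n hn F z b a L ∅ hF hB hL
  have e1 : rswP t F b (fun ω => L ω ∧ ∀ e ∈ (∅ : Finset ((ℤ × ℤ) × Bool)), RswGood a ω e) = rswP t F b L :=
    arm101_P_congr t F b fun ω => ⟨fun h => h.1, fun h => ⟨h, fun e he => absurd he (Finset.notMem_empty e)⟩⟩
  have e2 : rswP t F b (fun ω => (L ω ∧ ∀ e ∈ (∅ : Finset ((ℤ × ℤ) × Bool)), RswGood a ω e) ∧
        RswSep F a ω (rswBox z n) (F \ rswBox z (2 * n)))
      = rswP t F b (fun ω => L ω ∧ RswSep F a ω (rswBox z n) (F \ rswBox z (2 * n))) :=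
    arm101_P_congr t F b fun ω =>
      ⟨fun h => ⟨h.1.1, h.2⟩, fun h => ⟨⟨h.1, fun e he => absurd he (Finset.notMem_empty e)⟩, h.2⟩⟩
  rw [e1, e2] at h
  exact h

/-- **STACK FOR ANY `F`** (`msh11_stack` of MOM-4, word for word) -/
theorem ah219_stack {t p : ℝ} {n0 : ℕ} (ht0 : 0 < t) (ht1 : t ≤ 1) (hp : 0 < p) (H : Ah219Circ t p n0) :
    ∃ C α : ℝ, 0 < C ∧ 0 < α ∧ ∀ (F : Finset (ℤ × ℤ)) (z : ℤ × ℤ) (b a : Bool) (r R : ℕ), 1 ≤ R → rswBox z R ⊆ F →
      rswP t F b (fun ω => ¬ RswSep F a ω (rswBox z r) (F \ rswBox z R)) ≤ C * (((r : ℝ) + 1) / R) ^ α := by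
  obtain ⟨C, α, hC, hα, h⟩ := arm101_arm ht0.le ht1 hp (ah219_circ101 H)
  refine ⟨C, α, hC, hα, fun F z b a r R hR hB => ?_⟩
  obtain ⟨M, hM1, hFG, hBG, hbd⟩ := ah219_big_box F z R
  set G := rswBox z M with hG
  have c0 := ah219_cut_pos ht0 ht1 hbd b
  have h1 := h G z b a (fun ω => RswCut F b ω) r R hR (bj219_box_jordan z hM1) hBG (ah219_cut_ext hB b)
  have e1 := ah219_cut_P ht0 ht1 hFG b b (fun ω => ¬ RswSep F a ω (rswBox z r) (F \ rswBox z R))
  have e2 : rswP t G b (fun ω => RswCut F b ω ∧ ¬ RswSep F a (rskIn F ω) (rswBox z r) (F \ rswBox z R))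
      ≤ rswP t G b (fun ω => RswCut F b ω ∧ ¬ RswSep G a ω (rswBox z r) (G \ rswBox z R)) :=
    arm101_P_mono ht0.le ht1 G b fun ω hω => ⟨hω.1, fun hs => hω.2 (ah219_sep_in hFG hs)⟩
  rw [e1] at e2
  exact le_of_mul_le_mul_right (e2.trans h1) c0

/-- the boundary record of 101 for ANY finite `F` (the proof of `ah219_circB_of`: `RswJordan F` is never used) -/
theorem ah219_circB_gen {t p : ℝ} {n0 : ℕ} (ht0 : 0 < t) (ht1 : t ≤ 1) (H : Ah219Circ t p n0) (n : ℕ) (hn : n0 ≤ n)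
    (F : Finset (ℤ × ℤ)) (z : ℤ × ℤ) (b : Bool) (L : RswCfg → Prop) (hL : MdlExt (rswBox z (4 * n)) L) :
    p * rswP t F b L ≤ rswP t F b fun ω => L ω ∧ RswSep F b ω (rswBox z n) (F \ rswBox z (2 * n)) := by
  classical
  obtain ⟨M, hM1, hFG, hBG, hbd⟩ := ah219_big_box F z (4 * n)
  set G := rswBox z M with hG
  set Q : Finset ((ℤ × ℤ) × Bool) := (rswInt G).filter (fun e => RskBd F e) with hQ
  have hQcut : ∀ ω : RswCfg, (∀ e ∈ Q, RswGood b ω e) ↔ RswCut F b ω := by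
    intro ω
    constructor
    · intro h e he
      exact h e (Finset.mem_filter.2 ⟨hbd e he, he⟩)
    · intro h e he
      exact h e (Finset.mem_filter.1 he).2
  have h1 := H n hn G z b b (fun ω => L (rskIn F ω)) Q (bj219_box_jordan z hM1) hBG (ah219_ext_in hL F)
  have c0 := ah219_cut_pos ht0 ht1 hbd b
  have e1 : rswP t G b (fun ω => L (rskIn F ω) ∧ ∀ e ∈ Q, RswGood b ω e) = rswP t F b L * rswP t G b (fun ω => RswCut F b ω) := by
    rw [← ah219_cut_P ht0 ht1 hFG b b L]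
    exact arm101_P_congr t G b fun ω => by rw [hQcut ω, and_comm]
  have e2 : rswP t G b (fun ω => (L (rskIn F ω) ∧ ∀ e ∈ Q, RswGood b ω e) ∧ RswSep G b ω (rswBox z n) (G \ rswBox z (2 * n)))
      ≤ rswP t F b (fun ω => L ω ∧ RswSep F b ω (rswBox z n) (F \ rswBox z (2 * n))) * rswP t G b (fun ω => RswCut F b ω) := by
    rw [← ah219_cut_P ht0 ht1 hFG b b (fun ω => L ω ∧ RswSep F b ω (rswBox z n) (F \ rswBox z (2 * n)))]
    refine arm101_P_mono ht0.le ht1 G b fun ω hω => ?_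
    exact ⟨(hQcut ω).1 hω.1.2, hω.1.1, ah219_sep_in hFG hω.2⟩
  rw [e1] at h1
  have h2 := h1.trans e2
  rw [← mul_assoc] at h2
  exact le_of_mul_le_mul_right h2 c0

/-- **CIRC-B FOR ANY `F`** (`ao225_circB` of MOM-4, word for word) -/
theorem ah219_circB_any {t p : ℝ} {n0 : ℕ} (ht0 : 0 < t) (ht1 : t ≤ 1) (H : Ah219Circ t p n0) (n : ℕ) (hn : n0 ≤ n)
    (F : Finset (ℤ × ℤ)) (c : ℤ × ℤ) (b : Bool) :
    p ≤ rswP t F b (fun ω => RswSep F b ω (rswBox c n) (F \ rswBox c (2 * n))) := by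
  have h := ah219_circB_gen ht0 ht1 H n hn F c b (fun _ => True) (fun _ _ _ _ => Iff.rfl)
  rw [ah219_P_true ht0 ht1 F b, mul_one] at h
  refine h.trans (le_of_eq ?_)
  exact arm101_P_congr t F b fun ω => ⟨fun h => h.2, fun h => ⟨trivial, h⟩⟩

end Claimed.Agent.R292
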