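import Claimed.Agent.R292.Rsw.Arch107
import Claimed.Agent.R292.Rsw.CutHt91

/-!
# Row 292 (S0540), Rsw/ArmObs225 : THE TWO PROBABILISTIC RECORDS OF UNIT MOM      (unit RSW, head helper122; chief MOM helper164; pen helper225; prefix `rao225_` / `Rao225`)

Class of domains: `At92hExt F` (R292/Height: the exterior faces are star connected), NOT `RswJordan`: the chambers of the exploration of 107 are of this class.

* `Rao225Stack t` (= `Rsf164Stack` of MOM-2, word for word): `rswBox z r2 ⊆ F`, `1 ≤ r1 ≤ r2`, EVERY colour `a`, both boundary colours `b`: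
      `P_F^b (¬ RswSep F a ω Λ_{r1} (F \ Λ_{r2})) ≤ C (r1 / r2) ^ α`.
* `Rao225Obs t` (= `Rsf164Obs` of MOM-2, word for word): `r0 ≤ r`, `¬ rswBox z (6 r) ⊆ F`:
      `P_F^b (Λ_r ⊆ F ∧ RswSep F (!b) ω Λ_r (rswLayer F)) ≤ 1 - κ`.

**`rao225_stack`** : `Arm101Circ t p n0 → Rao225Stack t`                       (no positive association; holds for EVERY finite `F`)
**`rao225_obs`**   : `Arm101Circ t p n0 → Rsa107Fkg t → Rao225Obs t`           (the two records of `rsa107_arm`, nothing else)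

ROUTE = exact completion (TEX 03-spatial l.330-345; 91's `rsk_cut_comp`): `F⁺` a large box, `P_F^b (L) P_{F⁺}^b (cut) = P_{F⁺}^b (cut ∧ L ∘ rskIn F)`.
STACK: the cut is exterior data of `Λ_{r2} ⊆ F`, a dual path of `F` is a dual path of `F⁺`: `arm101_arm` with `L := cut`.
OBS: a FIXED net of `61 ^ 2` bulk circuits of colour `b` of radius `n = r / 3` in `F⁺`; they and the cut are increasing in the colour `b`: probability `≥ p ^ (61 ^ 2)` given the cut.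
Deterministic half (`rao225_det`): if every face of `F ∩ Λ_{6r}` has its `b`-cluster (dual paths which cross no good edge of colour `b`) in a box of radius `< r`, then the good
edges of colour `!b` do not separate `Λ_r` from the layer.  Proof with 292's plane potential `at92h_plane`: `A` = faces reached from `Λ_r` (colour `!b`), `f1 ∈ A`, `f2 ∉ A` the last exit
on the way to an exterior face `g0`, `K` = the `b`-cluster of `f1`; the pair `s = ∓1` (colour `b` / not), `d = -1` on `A ∩ K`, `+1` elsewhere, is closed, so it has a height `Hf`;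
`Hf` goes UP by one from `f1` to `f2` and stays constant up to `g0`; it goes DOWN by one along `A` from `f1` to `Λ_r` and then straight up (or down) to an exterior face; the exterior is
star connected, so `Hf` is constant there: contradiction.
-/

set_option autoImplicit false

namespace Claimed.Agent.R292

open Claims Claims.C0468 Finset

/-- (OBS) of MOM-2 -/
def Rao225Obs (t : ℝ) : Prop :=
  ∃ (κ : ℝ) (r0 : ℕ), 0 < κ ∧ ∀ (F : Finset (ℤ × ℤ)) (b : Bool) (z : ℤ × ℤ) (r : ℕ), At92hExt F → r0 ≤ r → ¬ rswBox z (6 * r) ⊆ F →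
    rswP t F b (fun ω => rswBox z r ⊆ F ∧ RswSep F (!b) ω (rswBox z r) (rswLayer F)) ≤ 1 - κ

/-- (STACK) of MOM-2 -/
def Rao225Stack (t : ℝ) : Prop :=
  ∃ C α : ℝ, 0 < C ∧ 0 < α ∧ ∀ (F : Finset (ℤ × ℤ)) (b a : Bool) (z : ℤ × ℤ) (r1 r2 : ℕ), At92hExt F → 1 ≤ r1 → r1 ≤ r2 → rswBox z r2 ⊆ F →
    rswP t F b (fun ω => ¬ RswSep F a ω (rswBox z r1) (F \ rswBox z r2)) ≤ C * ((r1 : ℝ) / r2) ^ α

theorem rao225_eqns_cite : True := by
  have := @Rao225Obs.eq_1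
  have := @Rao225Stack.eq_1
  trivial

/-! ## 1. Exact completion -/

theorem rao225_good_in {F : Finset (ℤ × ℤ)} {a : Bool} {ω : RswCfg} {e : (ℤ × ℤ) × Bool} (h1 : e.1 ∈ F) (h2 : rswCo e ∈ F)
    (hg : RswGood a ω e) : RswGood a (rskIn F ω) e := by
  obtain ⟨g1, g2, g3⟩ := hg
  have c1 : e.1 ∈ cornersOf F := rsx_end_corner1 (Or.inl h1)
  have c2 : rswEnd e ∈ cornersOf F := rsx_end_corner2 (Or.inl h1)
  refine ⟨Finset.mem_inter.2 ⟨g1, rsx_mem_int.2 ⟨h1, h2⟩⟩, ?_, ?_⟩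
  · rw [← g2]; exact ⟨fun h => (Finset.mem_inter.1 h).1, fun h => Finset.mem_inter.2 ⟨h, c1⟩⟩
  · rw [← g3]; exact ⟨fun h => (Finset.mem_inter.1 h).1, fun h => Finset.mem_inter.2 ⟨h, c2⟩⟩

/-- a separation in `F⁺` is a separation in `F` for the configuration read inside `F` -/
theorem rao225_sep_in {F Fp : Finset (ℤ × ℤ)} (hsub : F ⊆ Fp) {a : Bool} {ω : RswCfg} {A A' B B' : Finset (ℤ × ℤ)}
    (hA : A ⊆ A') (hB : B ⊆ B') (h : RswSep Fp a ω A' B') : RswSep F a (rskIn F ω) A B := by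
  intro f hf g hg hr
  refine h f (hA hf) g (hB hg) ?_
  refine Relation.ReflTransGen.mono (r := RswStep F a (rskIn F ω)) (p := RswStep Fp a ω) (fun x y hs => ?_) _ _ hr
  obtain ⟨h1, h2, e, he, hgd⟩ := hs
  refine ⟨hsub h1, hsub h2, e, he, fun hh => hgd ?_⟩
  rcases he with ⟨rfl, rfl⟩ | ⟨rfl, rfl⟩
  · exact rao225_good_in h1 h2 hh
  · exact rao225_good_in h2 h1 hh

/-- the cut along the polygon of `F` is exterior data of every buffer inside `F` -/
theorem rao225_cut_ext {B F : Finset (ℤ × ℤ)} (hB : B ⊆ F) (b : Bool) : MdlExt B (RswCut F b) := by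
  intro ω ω' hS hO
  unfold RswCut
  refine forall_congr' fun e => imp_congr_right fun he => ?_
  exact arm101_good_congr hS hO b (fun h => rsk_bd_not_int he (rsx_int_mono hB h))

theorem rao225_cst_cut {F Fp : Finset (ℤ × ℤ)} {b : Bool} (h : ∀ e, RskBd F e → e.1 ∈ Fp ∧ rswCo e ∈ Fp) :
    RswCut F b (rsxCst Fp b) := by
  intro e he
  have hh := h e he
  exact ⟨rsx_mem_int.2 hh, rsx_cst_S (rsx_end_corner1 (Or.inl hh.1)), rsx_cst_S (rsx_end_corner2 (Or.inl hh.1))⟩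

theorem rao225_cut_pos {t : ℝ} (h0 : 0 < t) (h1 : t ≤ 1) {F Fp : Finset (ℤ × ℤ)} (b : Bool)
    (h : ∀ e, RskBd F e → e.1 ∈ Fp ∧ rswCo e ∈ Fp) : 0 < rswP t Fp b (RswCut F b) := by
  rw [rsx_P_eq, rsx_E_eq]
  refine div_pos ?_ (rsx_Z_pos h0 h1 Fp b)
  rw [rsx_sum_eq]
  refine Finset.sum_pos' (fun ω _ => mul_nonneg (rsx_wt_nonneg h0.le h1 Fp b ω) (rsx_ind_nonneg _)) ⟨_, rsa107_cst_mem Fp b, ?_⟩
  rw [rsx_ind_pos (rao225_cst_cut h), mul_one]
  exact rsa107_cst_pos h0 Fp b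

/-- **exact completion**, events -/
theorem rao225_compl {t : ℝ} (h0 : 0 < t) (h1 : t ≤ 1) {F Fp : Finset (ℤ × ℤ)} (hsub : F ⊆ Fp) (b b' : Bool) (L : RswCfg → Prop) :
    rswP t Fp b' (fun ω => RswCut F b ω ∧ L (rskIn F ω)) = rswP t F b L * rswP t Fp b' (RswCut F b) := by
  have e1 := rsk_cut_comp h0 h1 hsub b b' (fun ω => rsxInd (L ω)) (fun _ => 1)
  rw [rsx_P_eq, rsx_P_eq, rsx_P_eq, rsx_E_eq t Fp, rsx_E_eq t Fp, mul_div_assoc']
  congr 1
  have e2 : rswSum t Fp b' (fun ω => rsxInd (RswCut F b ω ∧ L (rskIn F ω)))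
      = rswSum t Fp b' (fun ω => rskInd F b ω * rsxInd (L (rskIn F ω)) * 1) :=
    rsx_sum_congr t Fp b' fun ω => by
      rw [rsa107_ind_eq]
      by_cases hc : RswCut F b ω <;> by_cases hl : L (rskIn F ω)
      · rw [rsx_ind_pos hc, rsx_ind_pos hl, rsx_ind_pos ⟨hc, hl⟩]; norm_num
      · rw [rsx_ind_pos hc, rsx_ind_neg hl, rsx_ind_neg (fun h => hl h.2)]; norm_num
      · rw [rsx_ind_neg hc, rsx_ind_neg (fun h => hc h.1)]; norm_num
      · rw [rsx_ind_neg hc, rsx_ind_neg (fun h => hc h.1)]; norm_num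
  have e3 : rswSum t Fp b' (fun ω => rskInd F b ω * 1) = rswSum t Fp b' (fun ω => rsxInd (RswCut F b ω)) :=
    rsx_sum_congr t Fp b' fun ω => by rw [rsa107_ind_eq, mul_one]
  rw [e2, e1, e3]

/-- a large box around `F` -/
theorem rao225_big (F : Finset (ℤ × ℤ)) (z : ℤ × ℤ) (R : ℕ) :
    ∃ M : ℕ, 1 ≤ M ∧ R ≤ M ∧ F ⊆ rswBox z M ∧ ∀ e, RskBd F e → e.1 ∈ rswBox z M ∧ rswCo e ∈ rswBox z M := by
  obtain ⟨M0, hM0⟩ := rsa107_in_box F z
  refine ⟨M0 + 1 + R, by omega, by omega, hM0.trans (ja7_box_mono z (by omega)), fun e he => ?_⟩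
  have h1 : e.1 ∈ rswBox z M0 ∨ rswCo e ∈ rswBox z M0 := by
    rcases he with he | he
    · exact Or.inl (hM0 he.1)
    · exact Or.inr (hM0 he.2)
  have h2 := rsa107_edge_box h1
  exact ⟨ja7_box_mono z (by omega) h2.1, ja7_box_mono z (by omega) h2.2⟩

/-! ## 2. STACK -/

theorem rao225_stack {t : ℝ} (h0 : 0 < t) (h1 : t ≤ 1) {p : ℝ} {n0 : ℕ} (hp : 0 < p) (H : Arm101Circ t p n0) : Rao225Stack t := by
  obtain ⟨C0, α, hC0, hα, harm⟩ := arm101_arm h0.le h1 hp H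
  refine ⟨C0 * (2 : ℝ) ^ α, α, by positivity, hα, fun F b a z r1 r2 _ hr1 hr12 hbox => ?_⟩
  obtain ⟨M, hM1, hMR, hsub, hnb⟩ := rao225_big F z r2
  set Fp := rswBox z M with hFp
  have hJ : RswJordan Fp := rsa107_box_jordan z hM1
  have hcut := rao225_cut_pos h0 h1 b hnb
  have e1 := rao225_compl h0 h1 hsub b b (fun ω => ¬ RswSep F a ω (rswBox z r1) (F \ rswBox z r2))
  have e2 : rswP t Fp b (fun ω => RswCut F b ω ∧ ¬ RswSep F a (rskIn F ω) (rswBox z r1) (F \ rswBox z r2))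
      ≤ rswP t Fp b (fun ω => RswCut F b ω ∧ ¬ RswSep Fp a ω (rswBox z r1) (Fp \ rswBox z r2)) :=
    arm101_P_mono h0.le h1 Fp b fun ω hω =>
      ⟨hω.1, fun hs => hω.2 (rao225_sep_in hsub (Subset.refl _) (sdiff_subset_sdiff hsub (Subset.refl _)) hs)⟩
  have e3 := harm Fp z b a (RswCut F b) r1 r2 (hr1.trans hr12) hJ (ja7_box_mono z hMR) (rao225_cut_ext hbox b)
  have hr1' : (1 : ℝ) ≤ r1 := by exact_mod_cast hr1
  have hr2' : (0 : ℝ) < r2 := by exact_mod_cast (hr1.trans hr12)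
  have e4 : (((r1 : ℝ) + 1) / r2) ^ α ≤ (2 : ℝ) ^ α * ((r1 : ℝ) / r2) ^ α := by
    rw [← Real.mul_rpow (by norm_num) (by positivity)]
    refine Real.rpow_le_rpow (by positivity) ?_ hα.le
    rw [mul_div_assoc']
    exact div_le_div_of_nonneg_right (by linarith) hr2'.le
  have e5 : rswP t F b (fun ω => ¬ RswSep F a ω (rswBox z r1) (F \ rswBox z r2)) * rswP t Fp b (RswCut F b)
      ≤ (C0 * (((r1 : ℝ) + 1) / r2) ^ α) * rswP t Fp b (RswCut F b) := by
    rw [← e1]; exact e2.trans e3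
  have e6 := le_of_mul_le_mul_right e5 hcut
  calc rswP t F b (fun ω => ¬ RswSep F a ω (rswBox z r1) (F \ rswBox z r2))
      ≤ C0 * (((r1 : ℝ) + 1) / r2) ^ α := e6
    _ ≤ C0 * ((2 : ℝ) ^ α * ((r1 : ℝ) / r2) ^ α) := mul_le_mul_of_nonneg_left e4 hC0.le
    _ = C0 * (2 : ℝ) ^ α * ((r1 : ℝ) / r2) ^ α := by ring


/-! ## 3. The deterministic half -/

theorem rao225_adj_cor {f g : ℤ × ℤ} (h : at92hAdj f g) : ∃ v, at92hCor f v ∧ at92hCor g v := by
  obtain ⟨a1, a2⟩ := h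
  rw [abs_le] at a1 a2
  refine ⟨(max f.1 g.1, max f.2 g.2), ⟨?_, ?_⟩, ⟨?_, ?_⟩⟩ <;> simp only <;> omega

theorem rao225_adj_of_edge {f g : ℤ × ℤ} (h : RsxAdj f g) : at92hAdj f g := by
  obtain ⟨⟨⟨x, y⟩, c⟩, h1⟩ := h
  cases c <;> rcases h1 with ⟨rfl, rfl⟩ | ⟨rfl, rfl⟩ <;> constructor <;> simp [rswCo]

/-- two faces with a common corner and the same `d` have the same height -/
theorem rao225_H_eq {s d : ℤ × ℤ → ℤ} {Hv Hf : ℤ × ℤ → ℝ}
    (hH : ∀ f v : ℤ × ℤ, at92hCor f v → Hf f - Hv v = ((s v : ℝ) * (d f : ℝ)) / 2)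
    {f g : ℤ × ℤ} (hadj : at92hAdj f g) (hd : d f = d g) : Hf f = Hf g := by
  obtain ⟨v, h1, h2⟩ := rao225_adj_cor hadj
  have e1 := hH f v h1
  have e2 := hH g v h2
  rw [hd] at e1
  linarith

/-- the height across an edge -/
theorem rao225_H_edge {s d : ℤ × ℤ → ℤ} {Hv Hf : ℤ × ℤ → ℝ}
    (hH : ∀ f v : ℤ × ℤ, at92hCor f v → Hf f - Hv v = ((s v : ℝ) * (d f : ℝ)) / 2) (e : (ℤ × ℤ) × Bool) :
    Hf e.1 - Hf (rswCo e) = (s e.1 : ℝ) * ((d e.1 : ℝ) - d (rswCo e)) / 2 := by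
  have c1 : at92hCor e.1 e.1 := ⟨Or.inl rfl, Or.inl rfl⟩
  have c2 : at92hCor (rswCo e) e.1 := by
    obtain ⟨v, c⟩ := e
    cases c <;> simp [rswCo, at92hCor]
  have e1 := hH _ _ c1
  have e2 := hH _ _ c2
  calc Hf e.1 - Hf (rswCo e) = (Hf e.1 - Hv e.1) - (Hf (rswCo e) - Hv e.1) := by ring
    _ = (s e.1 : ℝ) * ((d e.1 : ℝ) - d (rswCo e)) / 2 := by rw [e1, e2]; ring

/-- the last exit from `A` on the way from `z` to `g0` -/
theorem rao225_exit (A : ℤ × ℤ → Prop) (z : ℤ × ℤ) (N : ℕ) (hz : A z) :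
    ∀ (k : ℕ) (g0 : ℤ × ℤ), (g0.1 - z.1).natAbs + (g0.2 - z.2).natAbs = k → g0 ∈ rswBox z N → ¬ A g0 →
      ∃ f1 f2, A f1 ∧ ¬ A f2 ∧ f1 ∈ rswBox z N ∧ RsxAdj f1 f2 ∧
        Relation.ReflTransGen (fun x y => ¬ A x ∧ ¬ A y ∧ at92hAdj x y) f2 g0 := by
  intro k
  induction k with
  | zero =>
    intro g0 hk _ hA
    exfalso
    apply hA
    have : g0 = z := Prod.ext (by omega) (by omega)
    rw [this]; exact hz
  | succ k ih =>
    intro g0 hk hb hA
    obtain ⟨g', hadj, hb', hk'⟩ : ∃ g', RsxAdj g' g0 ∧ g' ∈ rswBox z N ∧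
        (g'.1 - z.1).natAbs + (g'.2 - z.2).natAbs = k := by
      rw [ja7_mem_box] at hb
      rcases lt_trichotomy g0.1 z.1 with h | h | h
      · refine ⟨(g0.1 + 1, g0.2), ⟨((g0.1 + 1, g0.2), true), Or.inl ⟨rfl, ?_⟩⟩, ?_, ?_⟩
        · rw [rsx_co_true]; exact Prod.ext (by simp) (by simp)
        · rw [ja7_mem_box]; simp only; omega
        · simp only; omega
      · rcases lt_trichotomy g0.2 z.2 with h' | h' | h'
        · refine ⟨(g0.1, g0.2 + 1), ⟨((g0.1, g0.2 + 1), false), Or.inl ⟨rfl, ?_⟩⟩, ?_, ?_⟩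
          · rw [rsx_co_false]; exact Prod.ext (by simp) (by simp)
          · rw [ja7_mem_box]; simp only; omega
          · simp only; omega
        · exfalso; omega
        · refine ⟨(g0.1, g0.2 - 1), ⟨(g0, false), Or.inr ⟨rfl, rfl⟩⟩, ?_, ?_⟩
          · rw [ja7_mem_box]; simp only; omega
          · simp only; omega
      · refine ⟨(g0.1 - 1, g0.2), ⟨(g0, true), Or.inr ⟨rfl, rfl⟩⟩, ?_, ?_⟩
        · rw [ja7_mem_box]; simp only; omega
        · simp only; omega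
    by_cases hA' : A g'
    · exact ⟨g', g0, hA', hA, hb', hadj, Relation.ReflTransGen.refl⟩
    · obtain ⟨f1, f2, a1, a2, a3, a4, a5⟩ := ih g' hk' hb' hA'
      exact ⟨f1, f2, a1, a2, a3, a4, a5.tail ⟨hA', hA, rao225_adj_of_edge hadj⟩⟩

theorem rao225_col {P : Prop} {b : Bool} (h : P ↔ (!b) = true) : ¬ (P ↔ b = true) := by
  cases b <;> simp_all

/-- **the deterministic half of (OBS)** -/
theorem rao225_det {F : Finset (ℤ × ℤ)} (hext : At92hExt F) {b : Bool} {ω : RswCfg} {z : ℤ × ℤ} {r N : ℕ} (hr : 1 ≤ r)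
    (hbox : rswBox z r ⊆ F) (hN : ¬ rswBox z N ⊆ F)
    (h1 : RswSep F (!b) ω (rswBox z r) (rswLayer F))
    (h2 : ∀ f ∈ F, f ∈ rswBox z N → ∃ (c : ℤ × ℤ) (m : ℕ), m < r ∧
      ∀ g, Relation.ReflTransGen (RswStep F b ω) f g → g ∈ rswBox c m) : False := by
  classical
  obtain ⟨g0, hg0N, hg0F⟩ := Finset.not_subset.1 hN
  have hr' : (1 : ℤ) ≤ r := by exact_mod_cast hr
  obtain ⟨A, hAdef⟩ : ∃ A : ℤ × ℤ → Prop, ∀ g, A g ↔ ∃ f ∈ rswBox z r, Relation.ReflTransGen (RswStep F (!b) ω) f g :=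
    ⟨_, fun _ => Iff.rfl⟩
  have hAF : ∀ g, A g → g ∈ F := fun g hg => by
    obtain ⟨f, hf, hp⟩ := (hAdef g).1 hg
    exact rsx_reach_mem (hbox hf) hp
  have hAL : ∀ g, A g → g ∉ rswLayer F := fun g hg hl => by
    obtain ⟨f, hf, hp⟩ := (hAdef g).1 hg
    exact h1 f hf g hl hp
  have hAs : ∀ g g', A g → RswStep F (!b) ω g g' → A g' := fun g g' hg hs => by
    obtain ⟨f, hf, hp⟩ := (hAdef g).1 hg
    exact (hAdef g').2 ⟨f, hf, hp.tail hs⟩
  have hAb : ∀ g ∈ rswBox z r, A g := fun g hg => (hAdef g).2 ⟨g, hg, Relation.ReflTransGen.refl⟩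
  have hz : A z := hAb z (by rw [ja7_mem_box]; omega)
  obtain ⟨f1, f2, hf1A, hf2A, hf1N, hadj, hconn⟩ := rao225_exit A z N hz _ g0 rfl hg0N (fun h => hg0F (hAF g0 h))
  obtain ⟨c, m, hmr, hKc⟩ := h2 f1 (hAF f1 hf1A) hf1N
  obtain ⟨K, hKdef⟩ : ∃ K : ℤ × ℤ → Prop, ∀ g, K g ↔ Relation.ReflTransGen (RswStep F b ω) f1 g := ⟨_, fun _ => Iff.rfl⟩
  have hKF : ∀ g, K g → g ∈ F := fun g hg => rsx_reach_mem (hAF f1 hf1A) ((hKdef g).1 hg)
  have hKs : ∀ g g', K g → RswStep F b ω g g' → K g' := fun g g' hg hs => (hKdef g').2 (((hKdef g).1 hg).tail hs)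
  have hK1 : K f1 := (hKdef f1).2 Relation.ReflTransGen.refl
  have hKb : ∀ g, K g → g ∈ rswBox c m := fun g hg => hKc g ((hKdef g).1 hg)
  obtain ⟨s, hsdef⟩ : ∃ s : ℤ × ℤ → ℤ, ∀ v, s v = if (v ∈ ω.S ↔ b = true) then -1 else 1 := ⟨_, fun _ => rfl⟩
  obtain ⟨d, hddef⟩ : ∃ d : ℤ × ℤ → ℤ, ∀ f, d f = if (A f ∧ K f) then -1 else 1 := ⟨_, fun _ => rfl⟩
  have hsb : ∀ e, RswGood b ω e → s e.1 = -1 ∧ s (rswEnd e) = -1 := fun e hg =>
    ⟨by rw [hsdef, if_pos hg.2.1], by rw [hsdef, if_pos hg.2.2]⟩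
  have hsn : ∀ e, RswGood (!b) ω e → s e.1 = 1 ∧ s (rswEnd e) = 1 := fun e hg =>
    ⟨by rw [hsdef, if_neg (rao225_col hg.2.1)], by rw [hsdef, if_neg (rao225_col hg.2.2)]⟩
  have hd1 : ∀ f, A f → K f → d f = -1 := fun f a k => by rw [hddef, if_pos ⟨a, k⟩]
  have hd0 : ∀ f, ¬ (A f ∧ K f) → d f = 1 := fun f h => by rw [hddef, if_neg h]
  -- a neighbour of a face of `A` is in `F`
  have hnb : ∀ (e : (ℤ × ℤ) × Bool) (f f' : ℤ × ℤ), ((f = e.1 ∧ f' = rswCo e) ∨ (f' = e.1 ∧ f = rswCo e)) → A f → f' ∈ F := by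
    intro e f f' hor hf
    by_contra hn
    rcases hor with ⟨q1, q2⟩ | ⟨q1, q2⟩
    · exact hAL f hf (by rw [q1]; exact (rsx_layer_of_edge (F := F) (e := e)).1 (q1 ▸ hAF f hf) (q2 ▸ hn))
    · exact hAL f hf (by rw [q2]; exact (rsx_layer_of_edge (F := F) (e := e)).2 (q2 ▸ hAF f hf) (q1 ▸ hn))
  have hcross : ∀ (e : (ℤ × ℤ) × Bool) (f f' : ℤ × ℤ), ((f = e.1 ∧ f' = rswCo e) ∨ (f' = e.1 ∧ f = rswCo e)) → A f → K f →
      ¬ (A f' ∧ K f') → RswGood (!b) ω e ∨ RswGood b ω e := by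
    intro e f f' hor hf hk hR
    have hF' := hnb e f f' hor hf
    by_cases ha : A f'
    · right
      by_contra hg
      exact hR ⟨ha, hKs f f' hk ⟨hAF f hf, hF', e, hor, hg⟩⟩
    · left
      by_contra hg
      exact ha (hAs f f' hf ⟨hAF f hf, hF', e, hor, hg⟩)
  have hclosed : ∀ e : (ℤ × ℤ) × Bool, (s e.1 - s (rswEnd e)) * (d e.1 - d (rswCo e)) = 0 := by
    intro e
    by_cases r1 : A e.1 ∧ K e.1 <;> by_cases r2 : A (rswCo e) ∧ K (rswCo e)
    · rw [hd1 _ r1.1 r1.2, hd1 _ r2.1 r2.2]; ring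
    · rcases hcross e e.1 (rswCo e) (Or.inl ⟨rfl, rfl⟩) r1.1 r1.2 r2 with hg | hg
      · rw [(hsn e hg).1, (hsn e hg).2]; ring
      · rw [(hsb e hg).1, (hsb e hg).2]; ring
    · rcases hcross e (rswCo e) e.1 (Or.inr ⟨rfl, rfl⟩) r2.1 r2.2 r1 with hg | hg
      · rw [(hsn e hg).1, (hsn e hg).2]; ring
      · rw [(hsb e hg).1, (hsb e hg).2]; ring
    · rw [hd0 _ r1, hd0 _ r2]; ring
  obtain ⟨Hv, Hf, hH⟩ := at92h_plane s d
    (fun x y => by have h := hclosed ((x, y), false); rw [rsx_end_false, rsx_co_false] at h; exact h)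
    (fun x y => by have h := hclosed ((x, y), true); rw [rsx_end_true, rsx_co_true] at h; exact h)
  have hedge := rao225_H_edge hH
  -- (i) up by one from `f1` to `f2`
  have hup : Hf f2 = Hf f1 + 1 := by
    obtain ⟨e, hor⟩ := hadj
    have hF2 := hnb e f1 f2 hor hf1A
    have hgood : RswGood (!b) ω e := by
      by_contra hg
      exact hf2A (hAs f1 f2 hf1A ⟨hAF f1 hf1A, hF2, e, hor, hg⟩)
    have he := hedge e
    rw [(hsn e hgood).1] at he
    rcases hor with ⟨q1, q2⟩ | ⟨q1, q2⟩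
    · rw [← q1, ← q2, hd1 f1 hf1A hK1, hd0 f2 (fun h => hf2A h.1)] at he
      push_cast at he
      linarith
    · rw [← q1, ← q2, hd1 f1 hf1A hK1, hd0 f2 (fun h => hf2A h.1)] at he
      push_cast at he
      linarith
  -- (ii) constant from `f2` to `g0`
  have hconst' : ∀ g, Relation.ReflTransGen (fun x y => ¬ A x ∧ ¬ A y ∧ at92hAdj x y) f2 g → Hf g = Hf f2 := by
    intro g hp
    induction hp with
    | refl => rfl
    | tail _ hxy ih =>
      rw [← ih]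
      exact (rao225_H_eq hH hxy.2.2 (by rw [hd0 _ (fun h => hxy.1 h.1), hd0 _ (fun h => hxy.2.1 h.1)])).symm
  have hconst : Hf g0 = Hf f2 := hconst' g0 hconn
  -- (iii) constant on the exterior
  have hextc : ∀ g, g ∉ F → Hf g = Hf g0 := by
    intro g hg
    have := hext {g | g ∉ F ∧ Hf g = Hf g0} (fun f hf => hf.1) ⟨g0, hg0F, rfl⟩
      (fun f hf g' hg' hadj' => ⟨hg', by
        rw [← hf.2]
        exact (rao225_H_eq hH hadj' (by rw [hd0 _ (fun h => hf.1 (hAF _ h.1)), hd0 _ (fun h => hg' (hAF _ h.1))])).symm⟩) g hg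
    exact this.2
  -- (iv) the invariant
  have hEL : ∀ e : (ℤ × ℤ) × Bool, (K e.1 → A e.1) → (K (rswCo e) → A (rswCo e)) →
      ((Hf e.1 = if K e.1 then Hf f1 else Hf f1 - 1) ↔ (Hf (rswCo e) = if K (rswCo e) then Hf f1 else Hf f1 - 1)) := by
    intro e c1 c2
    have he := hedge e
    by_cases k1 : K e.1 <;> by_cases k2 : K (rswCo e)
    · rw [hd1 _ (c1 k1) k1, hd1 _ (c2 k2) k2, sub_self, mul_zero, zero_div] at he
      rw [if_pos k1, if_pos k2]
      constructor <;> intro h <;> linarith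
    · have hF' := hnb e e.1 (rswCo e) (Or.inl ⟨rfl, rfl⟩) (c1 k1)
      have hg : RswGood b ω e := by
        by_contra hg
        exact k2 (hKs _ _ k1 ⟨hKF _ k1, hF', e, Or.inl ⟨rfl, rfl⟩, hg⟩)
      rw [(hsb e hg).1, hd1 _ (c1 k1) k1, hd0 _ (fun h => k2 h.2)] at he
      push_cast at he
      rw [if_pos k1, if_neg k2]
      constructor <;> intro h <;> linarith
    · have hF' := hnb e (rswCo e) e.1 (Or.inr ⟨rfl, rfl⟩) (c2 k2)
      have hg : RswGood b ω e := by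
        by_contra hg
        exact k1 (hKs _ _ k2 ⟨hKF _ k2, hF', e, Or.inr ⟨rfl, rfl⟩, hg⟩)
      rw [(hsb e hg).1, hd1 _ (c2 k2) k2, hd0 _ (fun h => k1 h.2)] at he
      push_cast at he
      rw [if_neg k1, if_pos k2]
      constructor <;> intro h <;> linarith
    · rw [hd0 _ (fun h => k1 h.2), hd0 _ (fun h => k2 h.2), sub_self, mul_zero, zero_div] at he
      rw [if_neg k1, if_neg k2]
      constructor <;> intro h <;> linarith
  -- (v) back to the box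
  obtain ⟨f0, hf0, hp0⟩ := (hAdef f1).1 hf1A
  have hback : ∀ g, Relation.ReflTransGen (RswStep F (!b) ω) f0 g →
      ((Hf f0 = if K f0 then Hf f1 else Hf f1 - 1) ↔ (Hf g = if K g then Hf f1 else Hf f1 - 1)) := by
    intro g hp
    induction hp with
    | refl => exact Iff.rfl
    | @tail y g hp hs ih =>
      refine ih.trans ?_
      have hy : A y := (hAdef y).2 ⟨f0, hf0, hp⟩
      have hg : A g := (hAdef g).2 ⟨f0, hf0, hp.tail hs⟩
      obtain ⟨_, _, e, hor, _⟩ := hs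
      rcases hor with ⟨q1, q2⟩ | ⟨q1, q2⟩
      · rw [q1, q2]
        exact hEL e (fun _ => q1 ▸ hy) (fun _ => q2 ▸ hg)
      · rw [q1, q2]
        exact (hEL e (fun _ => q1 ▸ hg) (fun _ => q2 ▸ hy)).symm
  have hQ0 : Hf f0 = if K f0 then Hf f1 else Hf f1 - 1 := (hback f1 hp0).2 (by rw [if_pos hK1])
  -- (vi) straight up or down to the exterior
  have hf0b := (ja7_mem_box z r f0).1 hf0
  obtain ⟨M, hM⟩ := rsa107_in_box F z
  have hmr' : (m : ℤ) < r := by exact_mod_cast hmr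
  have hfin : ∀ g, g ∉ F → (Hf g = if K g then Hf f1 else Hf f1 - 1) → False := by
    intro g hg hQ
    rw [if_neg (fun k => hg (hKF g k)), hextc g hg, hconst, hup] at hQ
    linarith
  have hside : c.2 + m < z.2 + r ∨ z.2 - r < c.2 - m := by omega
  rcases hside with hside | hside
  · have hcond : ∀ y, f0.2 ≤ y → K (f0.1, y) → A (f0.1, y) := by
      intro y hy hk
      have h3 := (ja7_mem_box c m _).1 (hKb _ hk)
      apply hAb
      rw [ja7_mem_box]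
      simp only at h3 ⊢
      omega
    have hray : ∀ n : ℕ, Hf (f0.1, f0.2 + n) = if K (f0.1, f0.2 + n) then Hf f1 else Hf f1 - 1 := by
      intro n
      induction n with
      | zero => simpa using hQ0
      | succ n ih =>
        have h4 := hEL ((f0.1, f0.2 + ((n + 1 : ℕ) : ℤ)), false) (hcond _ (by omega))
        rw [rsx_co_false] at h4
        have e5 : f0.2 + ((n + 1 : ℕ) : ℤ) - 1 = f0.2 + n := by push_cast; ring
        simp only [e5] at h4
        exact (h4 (hcond _ (by omega))).2 ih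
    refine hfin (f0.1, f0.2 + ((z.2 + M - f0.2).toNat : ℤ)) (fun hin => ?_) (hray _)
    have h6 := (ja7_mem_box z M _).1 (hM hin)
    simp only at h6
    omega
  · have hcond : ∀ y, y ≤ f0.2 → K (f0.1, y) → A (f0.1, y) := by
      intro y hy hk
      have h3 := (ja7_mem_box c m _).1 (hKb _ hk)
      apply hAb
      rw [ja7_mem_box]
      simp only at h3 ⊢
      omega
    have hray : ∀ n : ℕ, Hf (f0.1, f0.2 - n) = if K (f0.1, f0.2 - n) then Hf f1 else Hf f1 - 1 := by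
      intro n
      induction n with
      | zero => simpa using hQ0
      | succ n ih =>
        have h4 := hEL ((f0.1, f0.2 - (n : ℤ)), false) (hcond _ (by omega))
        rw [rsx_co_false] at h4
        have e5 : f0.2 - (n : ℤ) - 1 = f0.2 - ((n + 1 : ℕ) : ℤ) := by push_cast; ring
        simp only [e5] at h4
        exact (h4 (hcond _ (by omega))).1 ih
    refine hfin (f0.1, f0.2 - ((f0.2 - (z.2 - M) + 1).toNat : ℤ)) (fun hin => ?_) (hray _)
    have h6 := (ja7_mem_box z M _).1 (hM hin)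
    simp only at h6
    omega

/-! ## 4. Positive association over a finite family of increasing events -/

/-- an increasing event in the order (3.4) of colour `a` -/
def Rao225Inc (a : Bool) (L : RswCfg → Prop) : Prop := ∀ ω ω' : RswCfg, MdlLe a ω ω' → L ω → L ω'

theorem rao225_inc_ind {a : Bool} {L : RswCfg → Prop} (h : Rao225Inc a L) : MdlInc a (fun ω => rsxInd (L ω)) :=
  fun ω ω' hle => rsa107_ind_mono (h ω ω' hle)

theorem rao225_inc_cut (F : Finset (ℤ × ℤ)) (b : Bool) : Rao225Inc b (RswCut F b) :=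
  fun _ _ hle h e he => hle.2.1 e (h e he)

theorem rao225_inc_sep (Fp A B : Finset (ℤ × ℤ)) (b : Bool) : Rao225Inc b (fun ω => RswSep Fp b ω A B) := by
  intro ω ω' hle h f hf g hg hr
  refine h f hf g hg ?_
  refine Relation.ReflTransGen.mono (r := RswStep Fp b ω') (p := RswStep Fp b ω) (fun x y hs => ?_) _ _ hr
  obtain ⟨h1, h2, e, he, hgd⟩ := hs
  exact ⟨h1, h2, e, he, fun hh => hgd (hle.2.1 e hh)⟩

theorem rao225_inc_and {a : Bool} {L L' : RswCfg → Prop} (h : Rao225Inc a L) (h' : Rao225Inc a L') :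
    Rao225Inc a (fun ω => L ω ∧ L' ω) :=
  fun ω ω' hle hl => ⟨h ω ω' hle hl.1, h' ω ω' hle hl.2⟩

theorem rao225_inc_all {ι : Type} {a : Bool} (I : Finset ι) {T : ι → RswCfg → Prop} (h : ∀ i, Rao225Inc a (T i)) :
    Rao225Inc a (fun ω => ∀ i ∈ I, T i ω) :=
  fun ω ω' hle hl i hi => h i ω ω' hle (hl i hi)

theorem rao225_fkg2 {t : ℝ} (h0 : 0 < t) (h1 : t ≤ 1) (HF : Rsa107Fkg t) {Fp : Finset (ℤ × ℤ)} (hJ : RswJordan Fp) (b a : Bool)
    {L L' : RswCfg → Prop} (h : Rao225Inc a L) (h' : Rao225Inc a L') :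
    rswP t Fp b L * rswP t Fp b L' ≤ rswP t Fp b (fun ω => L ω ∧ L' ω) := by
  have fk := HF Fp hJ b a _ _ (rao225_inc_ind h) (rao225_inc_ind h')
  have hZ := rsx_Z_pos h0 h1 Fp b
  have e : rswSum t Fp b (fun ω => rsxInd (L ω ∧ L' ω)) = rswSum t Fp b (fun ω => rsxInd (L ω) * rsxInd (L' ω)) :=
    rsx_sum_congr t Fp b fun ω => by
      by_cases hl : L ω <;> by_cases hl' : L' ω
      · rw [rsx_ind_pos hl, rsx_ind_pos hl', rsx_ind_pos ⟨hl, hl'⟩]; norm_num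
      · rw [rsx_ind_neg hl', rsx_ind_neg (fun h => hl' h.2)]; norm_num
      · rw [rsx_ind_neg hl, rsx_ind_neg (fun h => hl h.1)]; norm_num
      · rw [rsx_ind_neg hl, rsx_ind_neg (fun h => hl h.1)]; norm_num
  rw [rsx_P_eq, rsx_P_eq, rsx_P_eq, rsx_E_eq, rsx_E_eq, rsx_E_eq, e, div_mul_div_comm,
    div_le_div_iff₀ (mul_pos hZ hZ) hZ]
  have := mul_le_mul_of_nonneg_right fk hZ.le
  linarith

theorem rao225_fkg_all {t : ℝ} (h0 : 0 < t) (h1 : t ≤ 1) (HF : Rsa107Fkg t) {Fp : Finset (ℤ × ℤ)} (hJ : RswJordan Fp) (b a : Bool)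
    {ι : Type} (I : Finset ι) {L0 : RswCfg → Prop} {T : ι → RswCfg → Prop} (hL0 : Rao225Inc a L0) (hT : ∀ i, Rao225Inc a (T i))
    {p : ℝ} (hp0 : 0 ≤ p) (hTp : ∀ i ∈ I, p ≤ rswP t Fp b (T i)) :
    p ^ I.card * rswP t Fp b L0 ≤ rswP t Fp b (fun ω => L0 ω ∧ ∀ i ∈ I, T i ω) := by
  classical
  induction I using Finset.induction_on with
  | empty =>
    rw [Finset.card_empty, pow_zero, one_mul]
    exact le_of_eq (arm101_P_congr t Fp b fun ω => by simp)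
  | insert i0 s hi ih =>
    have ih' := ih (fun i hi' => hTp i (Finset.mem_insert_of_mem hi'))
    have f2 := rao225_fkg2 h0 h1 HF hJ b a (rao225_inc_and hL0 (rao225_inc_all s hT)) (hT i0)
    have e : rswP t Fp b (fun ω => L0 ω ∧ ∀ i ∈ insert i0 s, T i ω)
        = rswP t Fp b (fun ω => (L0 ω ∧ ∀ i ∈ s, T i ω) ∧ T i0 ω) :=
      arm101_P_congr t Fp b fun ω => by
        simp only [Finset.mem_insert, forall_eq_or_imp]
        tauto
    rw [e, Finset.card_insert_of_notMem hi, pow_succ]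
    have hp1 := hTp i0 (Finset.mem_insert_self _ _)
    calc p ^ s.card * p * rswP t Fp b L0 = (p ^ s.card * rswP t Fp b L0) * p := by ring
      _ ≤ rswP t Fp b (fun ω => L0 ω ∧ ∀ i ∈ s, T i ω) * rswP t Fp b (T i0) :=
          mul_le_mul ih' hp1 hp0 (arm101_P_nonneg h0.le h1 Fp b _)
      _ ≤ _ := f2

theorem rao225_P_true {t : ℝ} (h0 : 0 < t) (h1 : t ≤ 1) (F : Finset (ℤ × ℤ)) (b : Bool) : rswP t F b (fun _ => True) = 1 := by
  rw [rsx_P_eq, rsx_E_eq]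
  have : (fun _ : RswCfg => rsxInd True) = fun _ => (1 : ℝ) := funext fun _ => rsx_ind_pos trivial
  rw [this]
  exact div_self (rsx_Z_pos h0 h1 F b).ne'

theorem rao225_P_not {t : ℝ} (h0 : 0 < t) (h1 : t ≤ 1) (F : Finset (ℤ × ℤ)) (b : Bool) (L : RswCfg → Prop) :
    rswP t F b (fun ω => ¬ L ω) = 1 - rswP t F b L := by
  have h := arm101_P_split t F b (fun _ => True) L
  rw [rao225_P_true h0 h1] at h
  have e1 : rswP t F b (fun ω => True ∧ L ω) = rswP t F b L := arm101_P_congr t F b fun ω => by simp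
  have e2 : rswP t F b (fun ω => True ∧ ¬ L ω) = rswP t F b (fun ω => ¬ L ω) := arm101_P_congr t F b fun ω => by simp
  rw [e1, e2] at h
  linarith

/-! ## 5. The net and (OBS) -/

theorem rao225_I_ex : ∃ I : Finset (ℤ × ℤ), ∀ i : ℤ × ℤ, i ∈ I ↔ (-30 ≤ i.1 ∧ i.1 ≤ 30) ∧ (-30 ≤ i.2 ∧ i.2 ≤ 30) :=
  ⟨Finset.Icc (-30) 30 ×ˢ Finset.Icc (-30) 30, fun i => by rw [Finset.mem_product, Finset.mem_Icc, Finset.mem_Icc]⟩

/-- the index set of the net: `[-30, 30]²` (by choice: the term is never evaluated) -/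
noncomputable def rao225I : Finset (ℤ × ℤ) := Classical.choose rao225_I_ex

theorem rao225_mem_I {i : ℤ × ℤ} : i ∈ rao225I ↔ (-30 ≤ i.1 ∧ i.1 ≤ 30) ∧ (-30 ≤ i.2 ∧ i.2 ≤ 30) :=
  Classical.choose_spec rao225_I_ex i

/-- the centres of the net -/
def rao225Cen (z : ℤ × ℤ) (n : ℕ) (i : ℤ × ℤ) : ℤ × ℤ := (z.1 + n * i.1, z.2 + n * i.2)

theorem rao225_eqns_cite2 : True := by
  have := @Rao225Inc.eq_1
  have := @rao225I.eq_1
  have := @rao225Cen.eq_1
  trivial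

theorem rao225_cover {z f : ℤ × ℤ} {r : ℕ} (hr : 3 ≤ r) (hf : f ∈ rswBox z (6 * r)) :
    ∃ i ∈ rao225I, f ∈ rswBox (rao225Cen z (r / 3) i) (r / 3) := by
  obtain ⟨n, hn⟩ : ∃ n, n = r / 3 := ⟨_, rfl⟩
  rw [← hn]
  have hn1 : 1 ≤ n := by omega
  have hrn : r ≤ 5 * n := by omega
  rw [ja7_mem_box] at hf
  push_cast at hf
  have hn' : (0 : ℤ) < n := by exact_mod_cast hn1
  have hrn' : (r : ℤ) ≤ 5 * n := by exact_mod_cast hrn
  have key : ∀ x : ℤ, -(6 * (r : ℤ)) ≤ x → x < 6 * r →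
      (-30 ≤ x / n ∧ x / n ≤ 30) ∧ ((n : ℤ) * (x / n) ≤ x ∧ x < n * (x / n) + n) := by
    intro x hx1 hx2
    have a1 : (n : ℤ) * (x / n) ≤ x := Int.mul_ediv_self_le hn'.ne'
    have a2 : x < n * (x / n) + n := Int.lt_mul_ediv_self_add hn'
    refine ⟨⟨?_, ?_⟩, a1, a2⟩
    · by_contra hc
      have hc' : x / n ≤ -31 := by omega
      have := mul_le_mul_of_nonneg_left hc' hn'.le
      linarith
    · by_contra hc
      have hc' : 31 ≤ x / n := by omega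
      have := mul_le_mul_of_nonneg_left hc' hn'.le
      linarith
  obtain ⟨⟨b1, b2⟩, b3, b4⟩ := key (f.1 - z.1) (by omega) (by omega)
  obtain ⟨⟨c1, c2⟩, c3, c4⟩ := key (f.2 - z.2) (by omega) (by omega)
  refine ⟨((f.1 - z.1) / n, (f.2 - z.2) / n), ?_, ?_⟩
  · exact rao225_mem_I.2 ⟨⟨b1, b2⟩, c1, c2⟩
  · rw [ja7_mem_box]
    simp only [rao225Cen]
    refine ⟨⟨?_, ?_⟩, ?_, ?_⟩ <;> linarith

theorem rao225_net_box {z : ℤ × ℤ} {n M : ℕ} (hM : 34 * n ≤ M) {i : ℤ × ℤ} (hi : i ∈ rao225I) :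
    rswBox (rao225Cen z n i) (4 * n) ⊆ rswBox z M := by
  intro f hf
  rw [rao225_mem_I] at hi
  rw [ja7_mem_box] at hf ⊢
  simp only [rao225Cen] at hf
  push_cast at hf
  have hM' : 34 * (n : ℤ) ≤ M := by exact_mod_cast hM
  have hn : (0 : ℤ) ≤ n := Int.natCast_nonneg n
  have a1 : (n : ℤ) * i.1 ≤ n * 30 := mul_le_mul_of_nonneg_left hi.1.2 hn
  have a2 : (n : ℤ) * (-30) ≤ n * i.1 := mul_le_mul_of_nonneg_left hi.1.1 hn
  have a3 : (n : ℤ) * i.2 ≤ n * 30 := mul_le_mul_of_nonneg_left hi.2.2 hn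
  have a4 : (n : ℤ) * (-30) ≤ n * i.2 := mul_le_mul_of_nonneg_left hi.2.1 hn
  refine ⟨⟨?_, ?_⟩, ?_, ?_⟩ <;> linarith [hf.1.1, hf.1.2, hf.2.1, hf.2.2]

/-- **(OBS)** from the two records of `rsa107_arm` -/
theorem rao225_obs {t : ℝ} (h0 : 0 < t) (h1 : t ≤ 1) {p : ℝ} {n0 : ℕ} (hp : 0 < p) (H : Arm101Circ t p n0) (HF : Rsa107Fkg t) :
    Rao225Obs t := by
  refine ⟨p ^ rao225I.card, 3 * n0 + 3, pow_pos hp _, fun F b z r hext hr hN => ?_⟩
  obtain ⟨n, hn⟩ : ∃ n, n = r / 3 := ⟨_, rfl⟩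
  have hn0 : n0 ≤ n := by omega
  have h2n : 2 * n < r := by omega
  obtain ⟨M, hM1, hMR, hsub, hnb⟩ := rao225_big F z (34 * n)
  obtain ⟨Fp, hFp⟩ : ∃ Fp, Fp = rswBox z M := ⟨_, rfl⟩
  rw [← hFp] at hsub hnb
  have hJ : RswJordan Fp := hFp ▸ rsa107_box_jordan z hM1
  have hcut := rao225_cut_pos h0 h1 b hnb
  have e1 := rao225_compl h0 h1 hsub b b
    (fun ω => ∀ i ∈ rao225I, RswSep F b ω (F ∩ rswBox (rao225Cen z n i) n) (F \ rswBox (rao225Cen z n i) (2 * n)))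
  have e2 : rswP t Fp b (fun ω => RswCut F b ω ∧
        ∀ i ∈ rao225I, RswSep Fp b ω (rswBox (rao225Cen z n i) n) (Fp \ rswBox (rao225Cen z n i) (2 * n)))
      ≤ rswP t Fp b (fun ω => RswCut F b ω ∧
        ∀ i ∈ rao225I, RswSep F b (rskIn F ω) (F ∩ rswBox (rao225Cen z n i) n) (F \ rswBox (rao225Cen z n i) (2 * n))) :=
    arm101_P_mono h0.le h1 Fp b fun ω hω => ⟨hω.1, fun i hi =>
      rao225_sep_in hsub Finset.inter_subset_right (sdiff_subset_sdiff hsub (Subset.refl _)) (hω.2 i hi)⟩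
  have hTp : ∀ i ∈ rao225I,
      p ≤ rswP t Fp b (fun ω => RswSep Fp b ω (rswBox (rao225Cen z n i) n) (Fp \ rswBox (rao225Cen z n i) (2 * n))) := by
    intro i hi
    have h := H n hn0 Fp (rao225Cen z n i) b b (fun _ => True) hJ (hFp ▸ rao225_net_box hMR hi) (arm101_ext_const _ True)
    rw [rao225_P_true h0 h1, mul_one] at h
    exact h.trans (le_of_eq (arm101_P_congr t Fp b fun ω => by simp))
  have e3 := rao225_fkg_all h0 h1 HF hJ b b rao225I (rao225_inc_cut F b)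
    (T := fun i ω => RswSep Fp b ω (rswBox (rao225Cen z n i) n) (Fp \ rswBox (rao225Cen z n i) (2 * n)))
    (fun i => rao225_inc_sep Fp _ _ b) hp.le hTp
  have e4 : p ^ rao225I.card ≤ rswP t F b
      (fun ω => ∀ i ∈ rao225I, RswSep F b ω (F ∩ rswBox (rao225Cen z n i) n) (F \ rswBox (rao225Cen z n i) (2 * n))) := by
    refine le_of_mul_le_mul_right ?_ hcut
    rw [← e1]
    exact e3.trans e2
  have e5 : rswP t F b (fun ω => rswBox z r ⊆ F ∧ RswSep F (!b) ω (rswBox z r) (rswLayer F))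
      ≤ rswP t F b (fun ω => ¬ ∀ i ∈ rao225I,
          RswSep F b ω (F ∩ rswBox (rao225Cen z n i) n) (F \ rswBox (rao225Cen z n i) (2 * n))) :=
    arm101_P_mono h0.le h1 F b fun ω hω hG => by
      refine rao225_det hext (by omega) hω.1 hN hω.2 (fun f hfF hfN => ?_)
      obtain ⟨i, hi, hfi⟩ := rao225_cover (by omega) hfN
      rw [← hn] at hfi
      refine ⟨rao225Cen z n i, 2 * n, h2n, fun g hp' => ?_⟩
      by_contra hg
      exact hG i hi f (Finset.mem_inter.2 ⟨hfF, hfi⟩) g (Finset.mem_sdiff.2 ⟨rsx_reach_mem hfF hp', hg⟩) hp'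
  rw [rao225_P_not h0 h1] at e5
  linarith

end Claimed.Agent.R292
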