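import Claimed.Agent.R292.Rsw.Dict11
import Claimed.Agent.R292.Model.Dict21

/-!
# Row 292 (S0540), Rsw/DictHt11 : THE `(S, D, O)` MODEL OF `Defs/RSW`  <->  THE SIX-VERTEX HEIGHTS OF `Model/Dict21`      (pen helper11; prefix `rswd11_`)

* `rswd11K F ω`        the six-vertex height `K = 2 H` of a configuration (`mdl21K` of its two spin fields)
* `rswd11_adm_of_wt`   a configuration of nonzero weight has admissible spins (PLUS boundary condition)
* `rswd11_sum_congr`, `rswd11_E_congr`   two observables which agree on the configurations with admissible spins have the same sum / expectation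
* `rswd11_K_ht`, `rswd11_H_K`   on those, `rswd11K F ω` is a six-vertex height and `rswH F ω v = K.1 v / 2`
* **`rswd11_E_ht`**    `rswE t F true (Y ∘ rswd11K F) = (∑_K c^{NC K} Y K) / ∑_K c^{NC K}`, `c = t⁻¹`, sums over `mdl21Hts F`
* `rswd11_E_H`         the same for an observable `Z` of the real height `rswH F ω` restricted to the corners
-/

set_option autoImplicit false

namespace Claimed.Agent.R292

open Claims Claims.C0468

section

variable {F : Finset (ℤ × ℤ)}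

/-- the six-vertex height `K = 2 H` of a configuration -/
noncomputable def rswd11K (F : Finset (ℤ × ℤ)) (ω : RswCfg) : (ℤ × ℤ → ℤ) × (ℤ × ℤ → ℤ) :=
  mdl21K (rswTau F ω) (rswTauD F ω)

/-- a configuration of nonzero weight has admissible spins -/
theorem rswd11_adm_of_wt {t : ℝ} {ω : RswCfg} (h : rswWt t F true ω ≠ 0) :
    IsAdmissibleSpins (rswTau F ω) (rswTauD F ω) := by
  classical
  unfold rswWt at h
  by_cases hb : RswBc F true ω
  · rw [if_pos hb] at h
    have hbc : ∀ v ∈ cornersOf F, OnPolygon F v → atSpin (rswTau F ω) v = 1 := by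
      intro v hv hp
      rw [rswd11_spin ω hv, if_pos ((hb v hv hp).2 rfl)]
    rw [rswd11_adm_iff _ hbc]
    rintro e he ⟨hs, hd⟩
    rw [rswd11_sdis_iff ω he] at hs
    rw [rswd11_ddis_iff ω he] at hd
    refine h (Finset.prod_eq_zero he ?_)
    unfold rswFac
    simp [hs, hd]
  · rw [if_neg hb] at h
    exact absurd rfl h

theorem rswd11_sum_congr (t : ℝ) {X X' : RswCfg → ℝ}
    (h : ∀ ω, IsAdmissibleSpins (rswTau F ω) (rswTauD F ω) → X ω = X' ω) :
    rswSum t F true X = rswSum t F true X' := by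
  unfold rswSum
  refine Finset.sum_congr rfl fun S _ => Finset.sum_congr rfl fun D _ => Finset.sum_congr rfl fun O _ => ?_
  by_cases hw : rswWt t F true ⟨S, D, O⟩ = 0
  · rw [hw, zero_mul, zero_mul]
  · rw [h _ (rswd11_adm_of_wt hw)]

theorem rswd11_E_congr (t : ℝ) {X X' : RswCfg → ℝ}
    (h : ∀ ω, IsAdmissibleSpins (rswTau F ω) (rswTauD F ω) → X ω = X' ω) :
    rswE t F true X = rswE t F true X' := by
  unfold rswE
  rw [rswd11_sum_congr t h]

theorem rswd11_K_ht (hex : Mdl21Ex F) {ω : RswCfg} (ha : IsAdmissibleSpins (rswTau F ω) (rswTauD F ω)) :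
    Mdl21Ht F (rswd11K F ω) := (mdl21_K_spec ha (hex _ _ ha)).1

theorem rswd11_H_K (hex : Mdl21Ex F) {ω : RswCfg} (ha : IsAdmissibleSpins (rswTau F ω) (rswTauD F ω))
    {v : ℤ × ℤ} (hv : v ∈ cornersOf F) : rswH F ω v = ((rswd11K F ω).1 v : ℝ) / 2 :=
  (mdl21_K_spec ha (hex _ _ ha)).2.1 v hv

/-- the weight of the spins in terms of the height -/
theorem rswd11_W_K {t : ℝ} (ht : t ≠ 0) (hex : Mdl21Ex F) {p : at92Cfg F} (hp : p ∈ at92Adm F) :
    at92W t p = t ^ mdl21NE F * (t⁻¹) ^ mdl21NC F (mdl21K p.1 p.2) := by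
  have ha := (at92_mem_adm p).1 hp
  unfold at92W
  rw [mdl21_weight ht ha, mdl21_NCs_eq ha (hex _ _ ha)]

/-- unnormalised form -/
theorem rswd11_sum_ht {t : ℝ} (ht : t ≠ 0) (hex : Mdl21Ex F) (Y : (ℤ × ℤ → ℤ) × (ℤ × ℤ → ℤ) → ℝ) :
    rswSum t F true (fun ω => Y (rswd11K F ω)) =
      t ^ mdl21NE F * ∑ K ∈ mdl21Hts F, (t⁻¹) ^ mdl21NC F K * Y K := by
  have h := rswd11_sum t F (fun p => Y (mdl21K p.1 p.2))
  have e : (fun ω => Y (rswd11K F ω)) =
      fun ω => (fun p : at92Cfg F => Y (mdl21K p.1 p.2)) (rswTau F ω, rswTauD F ω) := rfl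
  rw [e, h, ← mdl21_sum hex, Finset.mul_sum]
  refine Finset.sum_congr rfl fun p hp => ?_
  rw [rswd11_W_K ht hex hp, mul_assoc]

/-- **expectations of functions of the height are six-vertex expectations**, weights `(1, 1, c)`, `c = t⁻¹` -/
theorem rswd11_E_ht {t : ℝ} (ht : t ≠ 0) (hex : Mdl21Ex F) (Y : (ℤ × ℤ → ℤ) × (ℤ × ℤ → ℤ) → ℝ) :
    rswE t F true (fun ω => Y (rswd11K F ω)) =
      (∑ K ∈ mdl21Hts F, (t⁻¹) ^ mdl21NC F K * Y K) / ∑ K ∈ mdl21Hts F, (t⁻¹) ^ mdl21NC F K := by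
  unfold rswE
  have h1 := rswd11_sum_ht ht hex (fun _ => 1)
  simp only [mul_one] at h1
  rw [rswd11_sum_ht ht hex Y, h1, mul_div_mul_left _ _ (pow_ne_zero _ ht)]

/-- the same for an observable of the real height which reads it on the corners only -/
theorem rswd11_E_H {t : ℝ} (ht : t ≠ 0) (hex : Mdl21Ex F) (Z : (ℤ × ℤ → ℝ) → ℝ)
    (hZ : ∀ h h' : ℤ × ℤ → ℝ, (∀ v ∈ cornersOf F, h v = h' v) → Z h = Z h') :
    rswE t F true (fun ω => Z (rswH F ω)) =
      (∑ K ∈ mdl21Hts F, (t⁻¹) ^ mdl21NC F K * Z (fun v => (K.1 v : ℝ) / 2)) /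
        ∑ K ∈ mdl21Hts F, (t⁻¹) ^ mdl21NC F K := by
  rw [← rswd11_E_ht ht hex (fun K => Z (fun v => (K.1 v : ℝ) / 2))]
  exact rswd11_E_congr t fun ω ha => hZ _ _ fun v hv => rswd11_H_K hex ha hv

end

end Claimed.Agent.R292
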