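import Claimed.Agent.R292.Rsw.Cut91
import Claimed.Agent.R292.Rsw.Base122
import Claimed.Agent.R292.Rsw.DictHt11
import Claimed.Agent.R292.Gauss.Flip162
import Claimed.Agent.R291.Mom.Shell

/-!
# Row 292 (S0540), Rsw/MomShell11 : R6a MOM-SHELL = THE RECURSION OF NESTED DOMAINS ON `ℤ²`, COVARIANCE `≤ C (1 + log)`      (pen helper11; prefix `msh11_`, defs `msh*` / `Msh*`)

Port of R291 `Mom/Shell` (model free calculus `Mom/Rc` and `mom_dyadic_sum` IMPORTED).

WARNING (why this is not a copy).  For `c = 1/t > 1` the LEVEL-SET first domain of R291 (hole of the `0`-cluster of the heights) is NOT Markov-flat: a plaquette whose primal edge lies on the inner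
boundary of the hole couples the wall face (`K = e`) with the face inside (weight `c` if `K = e`, `1` if `K = 3e`), whereas the flat problem of Def_0468 gives weight `1` to boundary edges.
The exact renewal is the one of the `(S, D, O)` model (TEX lem:finite-cuts, `rsk_cut_E` of 91):
* `mshOut F ω`   the EXPLORED faces: reachable from `rswLayer F` by `RswStep F false ω` (steps across edges which are not good MINUS edges);
* `mshG F ω`     the UNEXPLORED region `F \ mshOut F ω` (all its components at once: no choice of a component, no topology);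
  every edge of its polygon is a good MINUS edge (`RswCut`), the event `{mshG F ω = G}` reads only off `G`, so inside `G` one sees the flat problem `(G, false)`,
  which the flip of BOTH spin fields (`mshFl`, it keeps the height gradient) turns into `(G, true)`;
* all explored faces have `K = ±1` (a closed edge keeps `d`; an open edge which is not MINUS has `K = 0` at its endpoints), so
  `rswH F ω v = X v + rswH G (mshFl G ω) v` with `X v = rswH F (rskOut G ω) v` read off `G` and `|X v| ≤ 1`      (record `MshHtRec`);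
* the sign of a domain is NOT an independent fair coin as in R291 (it is read off `G`); all cross terms vanish because the mean of a flat problem is `0`;
* different components of `G` decouple by the cluster flip of 162 (`gf162_flip`).
RECORDS (hypotheses of the last theorem, each a `def … : Prop`):  `MshExtRec`, `MshHtRec` (deterministic; First164),  `MshObstr t` (obstruction),  `MshArm t` (arm = stack of circuits of both colours).
-/

set_option autoImplicit false
set_option linter.unusedVariables false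

namespace Claimed.Agent.R292

open Claims Claims.C0468 Claimed.Agent.R291

/-! ## 0. Vocabulary and records -/

/-- what a configuration of nonzero weight of the flat PLUS problem satisfies (`0 < t < 1`) -/
def MshOk (F : Finset (ℤ × ℤ)) (ω : RswCfg) : Prop :=
  RswBc F true ω ∧ ∀ e ∈ rswInt F,
    (e ∈ ω.O → (e.1 ∈ ω.S ↔ rswEnd e ∈ ω.S)) ∧ (e ∉ ω.O → (e.1 ∈ ω.D ↔ rswCo e ∈ ω.D))

/-- the explored faces: reachable from the layer across edges which are not good MINUS edges -/
def mshOut (F : Finset (ℤ × ℤ)) (ω : RswCfg) : Set (ℤ × ℤ) :=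
  {g | ∃ f ∈ rswLayer F, Relation.ReflTransGen (RswStep F false ω) f g}

/-- the unexplored region -/
noncomputable def mshG (F : Finset (ℤ × ℤ)) (ω : RswCfg) : Finset (ℤ × ℤ) :=
  open Classical in F.filter (fun g => g ∉ mshOut F ω)

/-- the configuration inside `G`, both spin fields flipped (the height gradient is kept, MINUS on the polygon becomes PLUS) -/
def mshFl (G : Finset (ℤ × ℤ)) (ω : RswCfg) : RswCfg := rszFlipD G (rszFlipS G (rskIn G ω))

/-- RECORD (deterministic): the unexplored region is hole free -/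
def MshExtRec : Prop := ∀ (F : Finset (ℤ × ℤ)) (ω : RswCfg), At92hExt F → At92hExt (mshG F ω)

/-- RECORD (deterministic): the height splits into a part read off `G`, bounded by `1`, and the height of the flat problem inside `G` -/
def MshHtRec : Prop := ∀ (F : Finset (ℤ × ℤ)) (ω : RswCfg), At92hExt F → MshOk F ω →
  (∀ v ∈ cornersOf F, rswH F ω v = rswH F (rskOut (mshG F ω) ω) v +
      (if v ∈ cornersOf (mshG F ω) then rswH (mshG F ω) (mshFl (mshG F ω) ω) v else 0)) ∧
  ∀ v ∈ cornersOf F, |rswH F (rskOut (mshG F ω) ω) v| ≤ 1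

/-- one step between two faces of `G` which share an edge -/
def MshAdj (G : Finset (ℤ × ℤ)) (f g : ℤ × ℤ) : Prop :=
  f ∈ G ∧ g ∈ G ∧ ∃ e : (ℤ × ℤ) × Bool, (f = e.1 ∧ g = rswCo e) ∨ (g = e.1 ∧ f = rswCo e)

/-- the faces `z`, `w` lie in the same component of `G` -/
def MshConn (G : Finset (ℤ × ℤ)) (z w : ℤ × ℤ) : Prop := z ∈ G ∧ Relation.ReflTransGen (MshAdj G) z w

/-- the arm event: a hole free domain bounded by good edges of ONE colour joins `z` to `w` and does not contain the box of radius `r` -/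
def MshArmEv (F : Finset (ℤ × ℤ)) (z w : ℤ × ℤ) (r : ℕ) (ω : RswCfg) : Prop :=
  ∃ D : Finset (ℤ × ℤ), D ⊆ F ∧ At92hExt D ∧ (∃ a, RswCut D a ω) ∧ MshConn D z w ∧ ¬ rswBox z r ⊆ D

/-- RECORD (port of R291 `exit_dis_obstr`): if the polygon comes close to the box, the box is cut off by good MINUS edges with probability `≤ 1 - κ` -/
def MshObstr (t : ℝ) : Prop :=
  ∃ (κ : ℝ) (r0 : ℕ), 0 < κ ∧ ∀ (F : Finset (ℤ × ℤ)) (z : ℤ × ℤ) (r : ℕ),
    At92hExt F → r0 ≤ r → ¬ rswBox z (5 * r) ⊆ F → rswP t F true (fun ω => rswBox z r ⊆ mshG F ω) ≤ 1 - κ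

/-- RECORD (port of R291 `exit_dis_stack` + `mom_arm_circ`) -/
def MshArm (t : ℝ) : Prop :=
  ∃ (C α : ℝ), 0 < C ∧ 0 < α ∧ ∀ (F : Finset (ℤ × ℤ)) (z w : ℤ × ℤ) (r1 r2 : ℕ),
    At92hExt F → 1 ≤ r1 → r1 ≤ r2 → rswBox z r2 ⊆ F → w ∉ rswBox z r2 →
    rswP t F true (MshArmEv F z w r1) ≤ C * ((r1 : ℝ) / r2) ^ α

/-! ## 1. The exploration -/

theorem msh11_ok_of_wt {t : ℝ} {F : Finset (ℤ × ℤ)} {ω : RswCfg} (h : rswWt t F true ω ≠ 0) : MshOk F ω := by
  classical
  by_cases hb : RswBc F true ω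
  · refine ⟨hb, fun e he => ?_⟩
    rw [rsz_wt_of_bc hb] at h
    have hf : rswFac t ω e ≠ 0 := fun h0 => h (Finset.prod_eq_zero he h0)
    unfold rswFac at hf
    constructor
    · intro hO
      rw [if_pos hO] at hf
      by_contra hc
      rw [if_neg hc] at hf
      exact hf rfl
    · intro hO
      rw [if_neg hO] at hf
      by_contra hc
      rw [if_neg hc] at hf
      exact hf rfl
  · exact absurd (rsz_wt_eq_zero hb) h

theorem msh11_mem_G {F : Finset (ℤ × ℤ)} {ω : RswCfg} {g : ℤ × ℤ} : g ∈ mshG F ω ↔ g ∈ F ∧ g ∉ mshOut F ω := by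
  classical
  unfold mshG
  rw [Finset.mem_filter]

theorem msh11_G_sub (F : Finset (ℤ × ℤ)) (ω : RswCfg) : mshG F ω ⊆ F := fun _ h => (msh11_mem_G.1 h).1

theorem msh11_layer_out {F : Finset (ℤ × ℤ)} (ω : RswCfg) {f : ℤ × ℤ} (h : f ∈ rswLayer F) : f ∈ mshOut F ω :=
  ⟨f, h, Relation.ReflTransGen.refl⟩

theorem msh11_out_step {F : Finset (ℤ × ℤ)} {ω : RswCfg} {f g : ℤ × ℤ} (h : f ∈ mshOut F ω) (hs : RswStep F false ω f g) :
    g ∈ mshOut F ω := by
  obtain ⟨a, ha, hr⟩ := h
  exact ⟨a, ha, hr.tail hs⟩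

/-- a face of `F` one corner of which touches a face off `F` lies in the layer -/
theorem msh11_mem_layer {F : Finset (ℤ × ℤ)} {f g v : ℤ × ℤ} (hf : f ∈ F) (hg : g ∉ F) (h1 : at92hCor f v) (h2 : at92hCor g v) :
    f ∈ rswLayer F := by
  unfold rswLayer
  refine (@Finset.mem_filter _ _ (fun _ => Classical.propDecidable _) _ _).2 ⟨hf, v, ?_, ?_⟩
  · obtain ⟨a, b⟩ := h1
    obtain ⟨v1, v2⟩ := v
    simp only at a b
    simp only [Finset.mem_insert, Finset.mem_singleton]
    rcases a with rfl | rfl <;> rcases b with rfl | rfl <;> simp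
  · obtain ⟨a, b⟩ := h2
    obtain ⟨g1, g2⟩ := g
    obtain ⟨v1, v2⟩ := v
    simp only at a b
    unfold OnPolygon
    rintro ⟨c1, c2, c3, c4⟩
    simp only at c1 c2 c3 c4
    rcases a with rfl | rfl <;> rcases b with rfl | rfl
    · exact hg c1
    · exact hg (by simpa using c3)
    · exact hg (by simpa using c2)
    · exact hg (by simpa using c4)

/-- the first endpoint of an edge is a corner of its two faces -/
theorem msh11_edge_cor (e : (ℤ × ℤ) × Bool) : at92hCor e.1 e.1 ∧ at92hCor (rswCo e) e.1 := by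
  obtain ⟨⟨x, y⟩, b⟩ := e
  unfold at92hCor rswCo
  cases b <;> simp

/-- **every edge of the polygon of the unexplored region is a good MINUS edge** -/
theorem msh11_cut (F : Finset (ℤ × ℤ)) (ω : RswCfg) : RswCut (mshG F ω) false ω := by
  have key : ∀ (e : (ℤ × ℤ) × Bool) (f g : ℤ × ℤ), ((f = e.1 ∧ g = rswCo e) ∨ (g = e.1 ∧ f = rswCo e)) →
      f ∈ mshG F ω → g ∉ mshG F ω → RswGood false ω e := by
    intro e f g hfg hf hg
    obtain ⟨hfF, hfO⟩ := msh11_mem_G.1 hf
    by_contra hgood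
    by_cases hgF : g ∈ F
    · have hgO : g ∈ mshOut F ω := by
        by_contra hc
        exact hg (msh11_mem_G.2 ⟨hgF, hc⟩)
      refine hfO (msh11_out_step hgO ⟨hgF, hfF, e, ?_, hgood⟩)
      rcases hfg with h | h
      · exact Or.inr h
      · exact Or.inl h
    · refine hfO (msh11_layer_out ω ?_)
      obtain ⟨c1, c2⟩ := msh11_edge_cor e
      rcases hfg with ⟨rfl, rfl⟩ | ⟨rfl, rfl⟩
      · exact msh11_mem_layer hfF hgF c1 c2
      · exact msh11_mem_layer hfF hgF c2 c1
  intro e he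
  rcases he with ⟨h1, h2⟩ | ⟨h1, h2⟩
  · exact key e _ _ (Or.inl ⟨rfl, rfl⟩) h1 h2
  · exact key e _ _ (Or.inr ⟨rfl, rfl⟩) h2 h1

/-- the exploration reads the good MINUS edges off the interior edges of the unexplored region only -/
theorem msh11_out_eq {F G : Finset (ℤ × ℤ)} {ω ω' : RswCfg} (hG : mshG F ω = G)
    (h : ∀ e, e ∉ rswInt G → (RswGood false ω e ↔ RswGood false ω' e)) : mshOut F ω' = mshOut F ω := by
  have hstep : ∀ b c, b ∈ mshOut F ω → (RswStep F false ω b c ↔ RswStep F false ω' b c) := by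
    intro b c hb
    have hbG : b ∉ G := by
      rw [← hG]
      exact fun hc => (msh11_mem_G.1 hc).2 hb
    unfold RswStep
    refine and_congr_right fun _ => and_congr_right fun _ => exists_congr fun e => and_congr_right fun he => ?_
    have heG : e ∉ rswInt G := by
      rw [rsk_mem_int]
      rcases he with ⟨rfl, -⟩ | ⟨-, rfl⟩
      · exact fun hc => hbG hc.1
      · exact fun hc => hbG hc.2
    rw [h e heG]
  ext g
  constructor
  · rintro ⟨f, hf, hr⟩
    induction hr with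
    | refl => exact msh11_layer_out ω hf
    | tail _ hs ih => exact msh11_out_step ih ((hstep _ _ ih).2 hs)
  · rintro ⟨f, hf, hr⟩
    have : g ∈ mshOut F ω' ∧ g ∈ mshOut F ω := by
      induction hr with
      | refl => exact ⟨msh11_layer_out ω' hf, msh11_layer_out ω hf⟩
      | tail _ hs ih => exact ⟨msh11_out_step ih.1 ((hstep _ _ ih.2).1 hs), msh11_out_step ih.2 hs⟩
    exact this.1

theorem msh11_G_congr {F : Finset (ℤ × ℤ)} {ω ω' : RswCfg} (h : mshOut F ω' = mshOut F ω) : mshG F ω' = mshG F ω := by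
  ext g
  rw [msh11_mem_G, msh11_mem_G, h]

/-- **the event `{mshG F ω = G}` reads only off `G`** -/
theorem msh11_G_out (F G : Finset (ℤ × ℤ)) (ω : RswCfg) : mshG F (rskOut G ω) = G ↔ mshG F ω = G := by
  constructor
  · intro h
    rw [← h]
    exact msh11_G_congr (msh11_out_eq h fun e he => rsk_good_out he)
  · intro h
    rw [← h]
    refine msh11_G_congr (msh11_out_eq h fun e he => ?_)
    rw [h]
    exact (rsk_good_out he).symm

/-! ## 2. The law of the inside -/

/-- the indicator of `{mshG F ω = G}` -/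
noncomputable def mshI (F G : Finset (ℤ × ℤ)) (ω : RswCfg) : ℝ := open Classical in if mshG F ω = G then 1 else 0

theorem msh11_I_pos {F G : Finset (ℤ × ℤ)} {ω : RswCfg} (h : mshG F ω = G) : mshI F G ω = 1 := by
  unfold mshI; rw [if_pos h]

theorem msh11_I_neg {F G : Finset (ℤ × ℤ)} {ω : RswCfg} (h : mshG F ω ≠ G) : mshI F G ω = 0 := by
  unfold mshI; rw [if_neg h]

theorem msh11_I_nonneg (F G : Finset (ℤ × ℤ)) (ω : RswCfg) : 0 ≤ mshI F G ω := by
  unfold mshI; split_ifs <;> norm_num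

theorem msh11_I_outside (F G : Finset (ℤ × ℤ)) : RskOutside G (mshI F G) := by
  intro ω
  by_cases h : mshG F ω = G
  · rw [msh11_I_pos h, msh11_I_pos ((msh11_G_out F G ω).2 h)]
  · rw [msh11_I_neg h, msh11_I_neg (fun hc => h ((msh11_G_out F G ω).1 hc))]

theorem msh11_I_cut (F G : Finset (ℤ × ℤ)) (ω : RswCfg) : rskInd G false ω * mshI F G ω = mshI F G ω := by
  by_cases h : mshG F ω = G
  · have hc : RswCut G false ω := h ▸ msh11_cut F ω
    unfold rskInd
    rw [if_pos hc, one_mul]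
  · rw [msh11_I_neg h, mul_zero]

theorem msh11_part (F : Finset (ℤ × ℤ)) (ω : RswCfg) : ∑ G ∈ F.powerset, mshI F G ω = 1 := by
  classical
  rw [Finset.sum_eq_single (mshG F ω)]
  · exact msh11_I_pos rfl
  · intro G _ hG
    exact msh11_I_neg hG.symm
  · intro h
    exact absurd (Finset.mem_powerset.2 (msh11_G_sub F ω)) h

theorem msh11_E_part (t : ℝ) (F : Finset (ℤ × ℤ)) (X : RswCfg → ℝ) :
    rswE t F true X = ∑ G ∈ F.powerset, rswE t F true (fun ω => mshI F G ω * X ω) := by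
  rw [← rsz_E_fsum]
  congr 1
  funext ω
  rw [← Finset.sum_mul, msh11_part, one_mul]

theorem msh11_in_in (G : Finset (ℤ × ℤ)) (ω : RswCfg) : rskIn G (rskIn G ω) = rskIn G ω := by
  unfold rskIn
  simp only [Finset.inter_assoc, Finset.inter_self]

theorem msh11_in_self {G : Finset (ℤ × ℤ)} {ω : RswCfg} (h1 : ω.S ⊆ cornersOf G) (h2 : ω.D ⊆ G) (h3 : ω.O ⊆ rswInt G) :
    rskIn G ω = ω := by
  unfold rskIn
  rw [Finset.inter_eq_left.2 h1, Finset.inter_eq_left.2 h2, Finset.inter_eq_left.2 h3]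

/-- the flat MINUS problem seen through the flip of both spin fields is the flat PLUS problem -/
theorem msh11_E_fl (t : ℝ) (G : Finset (ℤ × ℤ)) (Z : RswCfg → ℝ) :
    rswE t G false (fun ω => Z (mshFl G ω)) = rswE t G true Z := by
  have e1 : rswE t G false (fun ω => Z (mshFl G ω)) = rswE t G false (fun ω => Z (rszFlipD G (rszFlipS G ω))) := by
    refine rsz_E_congr t G false fun ω h1 h2 h3 _ => ?_
    unfold mshFl
    rw [msh11_in_self h1 h2 h3]
  rw [e1, rsz_flipS_E t G false (fun ω => Z (rszFlipD G ω))]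
  exact rsz_flipD_E t G true Z

/-- **THE LAW OF THE INSIDE** (TEX lem:finite-cuts (2) on the exploration) -/
theorem msh11_law {t : ℝ} (ht0 : 0 < t) (ht1 : t ≤ 1) {F G : Finset (ℤ × ℤ)} (hG : G ⊆ F) (Z : RswCfg → ℝ) {Y : RswCfg → ℝ}
    (hY : RskOutside G Y) :
    rswE t F true (fun ω => mshI F G ω * Z (mshFl G ω) * Y ω) = rswE t G true Z * rswE t F true (fun ω => mshI F G ω * Y ω) := by
  have hX : RskInside G (fun ω => Z (mshFl G ω)) := by
    intro ω
    show Z (mshFl G (rskIn G ω)) = Z (mshFl G ω)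
    unfold mshFl
    rw [msh11_in_in]
  have hY' : RskOutside G (fun ω => mshI F G ω * Y ω) := by
    intro ω
    show mshI F G (rskOut G ω) * Y (rskOut G ω) = mshI F G ω * Y ω
    rw [msh11_I_outside F G ω, hY ω]
  have h := rsk_cut_E ht0 ht1 hG false true hX hY'
  rw [msh11_E_fl] at h
  have e1 : (fun ω => rskInd G false ω * Z (mshFl G ω) * (mshI F G ω * Y ω)) = fun ω => mshI F G ω * Z (mshFl G ω) * Y ω := by
    funext ω
    have := msh11_I_cut F G ω
    calc rskInd G false ω * Z (mshFl G ω) * (mshI F G ω * Y ω) = (rskInd G false ω * mshI F G ω) * Z (mshFl G ω) * Y ω := by ring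
      _ = _ := by rw [this]
  have e2 : (fun ω => rskInd G false ω * (mshI F G ω * Y ω)) = fun ω => mshI F G ω * Y ω := by
    funext ω
    rw [← mul_assoc, msh11_I_cut]
  rw [e1, e2] at h
  exact h

/-- probability that the unexplored region is `G` -/
noncomputable def mshP (t : ℝ) (F G : Finset (ℤ × ℤ)) : ℝ := rswE t F true (mshI F G)

theorem msh11_P_nonneg {t : ℝ} (ht0 : 0 ≤ t) (ht1 : t ≤ 1) (F G : Finset (ℤ × ℤ)) : 0 ≤ mshP t F G :=
  rsz_E_nonneg ht0 ht1 F true (msh11_I_nonneg F G)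

theorem msh11_P_sum {t : ℝ} (ht0 : 0 < t) (ht1 : t ≤ 1) (F : Finset (ℤ × ℤ)) : ∑ G ∈ F.powerset, mshP t F G = 1 := by
  have h := msh11_E_part t F (fun _ => 1)
  simp only [mul_one] at h
  rw [rsz_E_const ht0 ht1] at h
  exact h.symm

/-- a region of positive probability is realised -/
theorem msh11_P_ex {t : ℝ} {F G : Finset (ℤ × ℤ)} (h : mshP t F G ≠ 0) : ∃ ω, mshG F ω = G := by
  by_contra hc
  push Not at hc
  apply h
  unfold mshP
  have e : mshI F G = fun ω => 0 * mshI F G ω := by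
    funext ω
    rw [msh11_I_neg (hc ω), mul_zero]
  rw [e, rsz_E_smul, zero_mul]

/-- the law with `Y = 1` -/
theorem msh11_law_one {t : ℝ} (ht0 : 0 < t) (ht1 : t ≤ 1) {F G : Finset (ℤ × ℤ)} (hG : G ⊆ F) (Z : RswCfg → ℝ) :
    rswE t F true (fun ω => mshI F G ω * Z (mshFl G ω)) = mshP t F G * rswE t G true Z := by
  have h := msh11_law ht0 ht1 hG Z (Y := fun _ => 1) (fun _ => rfl)
  simp only [mul_one] at h
  rw [h, mul_comm]
  rfl

/-! ## 3. The covariance: one step -/

/-- the covariance of the flat PLUS problem on `F` -/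
noncomputable def mshC (t : ℝ) (z w : ℤ × ℤ) (F : Finset (ℤ × ℤ)) : ℝ := rswE t F true (fun ω => rswH F ω z * rswH F ω w)

open Classical in
/-- the covariance, guarded (the frozen height is not specified off the corners) -/
noncomputable def mshCt (t : ℝ) (z w : ℤ × ℤ) (G : Finset (ℤ × ℤ)) : ℝ :=
  if z ∈ cornersOf G ∧ w ∈ cornersOf G then mshC t z w G else 0

theorem msh11_E_zero (t : ℝ) (F : Finset (ℤ × ℤ)) (b : Bool) : rswE t F b (fun _ => 0) = 0 := by
  have := rsz_E_smul t F b 0 (fun _ => 0)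
  simp only [mul_zero, zero_mul] at this
  exact this

/-- the height of a configuration of nonzero weight -/
theorem msh11_spec {t : ℝ} {G : Finset (ℤ × ℤ)} (hG : At92hExt G) {ω : RswCfg} (hw : rswWt t G true ω ≠ 0) :
    ∃ Hf, IsATHeight (rswTau G ω) (rswTauD G ω) (rswH G ω) Hf :=
  at92h_spec (at92h_exists hG (rswd11_adm_of_wt hw))

theorem msh11_corner_single {f v : ℤ × ℤ} (h : v ∈ mdl21Cor f) : v ∈ cornersOf {f} :=
  (mdl21_mem_corners {f} v).2 ⟨f, Finset.mem_singleton_self f, h⟩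

/-- the mean of a flat problem vanishes -/
theorem msh11_mean (t : ℝ) {G : Finset (ℤ × ℤ)} (hG : At92hExt G) {v : ℤ × ℤ} (hv : v ∈ cornersOf G) :
    rswE t G true (fun ω => rswH G ω v) = 0 := by
  classical
  obtain ⟨f, hf, hvf⟩ := (mdl21_mem_corners G v).1 hv
  have h := gf162_flip hG t {f} ∅ (fun h => h v) (fun _ => 1) (Finset.singleton_subset_iff.2 hf) (Finset.empty_subset _)
    (fun h h' hh => hh v (msh11_corner_single hvf)) (fun _ _ _ => rfl)
  rw [← h]
  congr 1
  funext ω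
  have hs : GaussSep0 G ω {f} ∅ := fun _ _ g hg => absurd hg (Finset.notMem_empty g)
  rw [if_pos hs, mul_one]

theorem msh11_conn_mem {G : Finset (ℤ × ℤ)} {z w : ℤ × ℤ} (h : MshConn G z w) : z ∈ G ∧ w ∈ G := by
  refine ⟨h.1, ?_⟩
  rcases Relation.ReflTransGen.cases_tail h.2 with e | ⟨c, _, hc⟩
  · rw [e]; exact h.1
  · exact hc.2.1

theorem msh11_conn_mono {G F : Finset (ℤ × ℤ)} (hGF : G ⊆ F) {z w : ℤ × ℤ} (h : MshConn G z w) : MshConn F z w :=
  ⟨hGF h.1, Relation.ReflTransGen.mono (fun _ _ hs => ⟨hGF hs.1, hGF hs.2.1, hs.2.2⟩) _ _ h.2⟩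

/-- two faces in different components are uncorrelated (cluster flip of 162) -/
theorem msh11_C_sep (t : ℝ) {G : Finset (ℤ × ℤ)} (hG : At92hExt G) {z w : ℤ × ℤ} (hz : z ∈ G) (hw : w ∈ G)
    (h : ¬ MshConn G z w) : mshC t z w G = 0 := by
  classical
  have h1 := gf162_flip hG t {z} {w} (fun h => h z) (fun h => h w) (Finset.singleton_subset_iff.2 hz)
    (Finset.singleton_subset_iff.2 hw)
    (fun h h' hh => hh z (rsz_face_corner (Finset.mem_singleton_self z)))
    (fun h h' hh => hh w (rsz_face_corner (Finset.mem_singleton_self w)))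
  rw [← h1]
  unfold mshC
  congr 1
  funext ω
  rw [if_pos]
  intro f hf g hg hr
  rw [Finset.mem_singleton] at hf hg
  subst hf hg
  exact h ⟨hz, Relation.ReflTransGen.mono (fun _ _ hs => ⟨hs.1, hs.2.1, by
    obtain ⟨e, he, _⟩ := hs.2.2
    exact ⟨e, he⟩⟩) _ _ hr⟩

/-- a corner which is not a face of `G` lies on the polygon -/
theorem msh11_pol_of_not_mem {G : Finset (ℤ × ℤ)} {z : ℤ × ℤ} (hz : z ∉ G) : OnPolygon G z := fun h => hz h.1

theorem msh11_Ct_zero (t : ℝ) {G : Finset (ℤ × ℤ)} (hG : At92hExt G) {z w : ℤ × ℤ} (h : ¬ MshConn G z w) : mshCt t z w G = 0 := by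
  classical
  unfold mshCt
  by_cases hc : z ∈ cornersOf G ∧ w ∈ cornersOf G
  · rw [if_pos hc]
    by_cases hz : z ∈ G
    · by_cases hw : w ∈ G
      · exact msh11_C_sep t hG hz hw h
      · unfold mshC
        rw [← msh11_E_zero t G true]
        refine rsz_E_congr t G true fun ω _ _ _ hwt => ?_
        obtain ⟨Hf, hH⟩ := msh11_spec hG hwt
        rw [hH.1 w hc.2 (msh11_pol_of_not_mem hw), mul_zero]
    · unfold mshC
      rw [← msh11_E_zero t G true]
      refine rsz_E_congr t G true fun ω _ _ _ hwt => ?_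
      obtain ⟨Hf, hH⟩ := msh11_spec hG hwt
      rw [hH.1 z hc.1 (msh11_pol_of_not_mem hz), zero_mul]
  · rw [if_neg hc]

theorem msh11_Ct_conn (t : ℝ) {G : Finset (ℤ × ℤ)} {z w : ℤ × ℤ} (h : MshConn G z w) : mshCt t z w G = mshC t z w G := by
  obtain ⟨hz, hw⟩ := msh11_conn_mem h
  unfold mshCt
  rw [if_pos ⟨rsz_face_corner hz, rsz_face_corner hw⟩]

theorem msh11_out_out (G : Finset (ℤ × ℤ)) (ω : RswCfg) : rskOut G (rskOut G ω) = rskOut G ω := by
  unfold rskOut
  simp only [sdiff_idem]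

/-- the part of the height which is read off `G` -/
noncomputable def mshX (F G : Finset (ℤ × ℤ)) (v : ℤ × ℤ) (ω : RswCfg) : ℝ := rswH F (rskOut G ω) v

theorem msh11_X_outside (F G : Finset (ℤ × ℤ)) (v : ℤ × ℤ) : RskOutside G (mshX F G v) := by
  intro ω
  unfold mshX
  rw [msh11_out_out]

open Classical in
/-- the height of the inside, guarded -/
noncomputable def mshA (G : Finset (ℤ × ℤ)) (v : ℤ × ℤ) (η : RswCfg) : ℝ := if v ∈ cornersOf G then rswH G η v else 0

theorem msh11_A_mean (t : ℝ) {G : Finset (ℤ × ℤ)} (hG : At92hExt G) (v : ℤ × ℤ) : rswE t G true (mshA G v) = 0 := by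
  by_cases hv : v ∈ cornersOf G
  · have e : mshA G v = fun η => rswH G η v := by
      funext η
      unfold mshA
      rw [if_pos hv]
    rw [e]
    exact msh11_mean t hG hv
  · have e : mshA G v = fun _ => 0 := by
      funext η
      unfold mshA
      rw [if_neg hv]
    rw [e]
    exact msh11_E_zero t G true

theorem msh11_AA (t : ℝ) (G : Finset (ℤ × ℤ)) (z w : ℤ × ℤ) :
    rswE t G true (fun η => mshA G z η * mshA G w η) = mshCt t z w G := by
  unfold mshCt
  by_cases hc : z ∈ cornersOf G ∧ w ∈ cornersOf G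
  · rw [if_pos hc]
    unfold mshC mshA
    simp only [if_pos hc.1, if_pos hc.2]
  · rw [if_neg hc, ← msh11_E_zero t G true]
    congr 1
    funext η
    unfold mshA
    by_cases hz : z ∈ cornersOf G
    · rw [if_neg (fun hw => hc ⟨hz, hw⟩), mul_zero]
    · rw [if_neg hz, zero_mul]

/-- **one step of the covariance**, for one value `G` of the unexplored region -/
theorem msh11_C_step {t : ℝ} (ht0 : 0 < t) (ht1 : t ≤ 1) (hExt : MshExtRec) (hHt : MshHtRec) {F : Finset (ℤ × ℤ)} (hF : At92hExt F)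
    {z w : ℤ × ℤ} (hz : z ∈ cornersOf F) (hw : w ∈ cornersOf F) {G : Finset (ℤ × ℤ)} (hG : G ⊆ F) :
    rswE t F true (fun ω => mshI F G ω * (rswH F ω z * rswH F ω w)) =
      rswE t F true (fun ω => mshI F G ω * (mshX F G z ω * mshX F G w ω)) + mshP t F G * mshCt t z w G := by
  by_cases hex : ∃ ω, mshG F ω = G
  · obtain ⟨ω0, h0⟩ := hex
    have hGe : At92hExt G := h0 ▸ hExt F ω0 hF
    obtain ⟨T1, hT1⟩ : ∃ T : RswCfg → ℝ, T = fun ω => mshI F G ω * (mshX F G z ω * mshX F G w ω) := ⟨_, rfl⟩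
    obtain ⟨T2, hT2⟩ : ∃ T : RswCfg → ℝ, T = fun ω => mshI F G ω * mshA G z (mshFl G ω) * mshX F G w ω := ⟨_, rfl⟩
    obtain ⟨T3, hT3⟩ : ∃ T : RswCfg → ℝ, T = fun ω => mshI F G ω * mshA G w (mshFl G ω) * mshX F G z ω := ⟨_, rfl⟩
    obtain ⟨T4, hT4⟩ : ∃ T : RswCfg → ℝ, T = fun ω => mshI F G ω * (mshA G z (mshFl G ω) * mshA G w (mshFl G ω)) := ⟨_, rfl⟩
    have e1 : rswE t F true (fun ω => mshI F G ω * (rswH F ω z * rswH F ω w)) =
        rswE t F true (fun ω => (T1 ω + T2 ω) + (T3 ω + T4 ω)) := by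
      refine rsz_E_congr t F true fun ω _ _ _ hwt => ?_
      rw [hT1, hT2, hT3, hT4]
      by_cases h : mshG F ω = G
      · obtain ⟨hs, -⟩ := hHt F ω hF (msh11_ok_of_wt hwt)
        rw [hs z hz, hs w hw, h]
        unfold mshX mshA
        ring
      · simp only [msh11_I_neg h, zero_mul, add_zero]
    rw [e1, rsz_E_add t F true (fun ω => T1 ω + T2 ω) (fun ω => T3 ω + T4 ω), rsz_E_add t F true T1 T2,
      rsz_E_add t F true T3 T4]
    have e2 : rswE t F true T2 = 0 := by
      rw [hT2, msh11_law ht0 ht1 hG (mshA G z) (msh11_X_outside F G w), msh11_A_mean t hGe, zero_mul]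
    have e3 : rswE t F true T3 = 0 := by
      rw [hT3, msh11_law ht0 ht1 hG (mshA G w) (msh11_X_outside F G z), msh11_A_mean t hGe, zero_mul]
    have e4 : rswE t F true T4 = mshP t F G * mshCt t z w G := by
      rw [hT4, msh11_law_one ht0 ht1 hG (fun η => mshA G z η * mshA G w η), msh11_AA]
    rw [e2, e3, e4, hT1]
    ring
  · push Not at hex
    have hP : mshP t F G = 0 := by
      by_contra hc
      obtain ⟨ω, hω⟩ := msh11_P_ex hc
      exact hex ω hω
    rw [hP, zero_mul, add_zero]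
    congr 1
    funext ω
    rw [msh11_I_neg (hex ω), zero_mul, zero_mul]

/-- the boundary parts contribute at most `1` in all -/
theorem msh11_XX_le {t : ℝ} (ht0 : 0 < t) (ht1 : t ≤ 1) (hHt : MshHtRec) {F : Finset (ℤ × ℤ)} (hF : At92hExt F)
    {z w : ℤ × ℤ} (hz : z ∈ cornersOf F) (hw : w ∈ cornersOf F) {σ : ℝ} (hσ : |σ| ≤ 1) :
    ∑ G ∈ F.powerset, σ * rswE t F true (fun ω => mshI F G ω * (mshX F G z ω * mshX F G w ω)) ≤ 1 := by
  rw [← msh11_P_sum ht0 ht1 F]
  refine Finset.sum_le_sum fun G _ => ?_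
  rw [← rsz_E_smul]
  refine rsz_E_mono' ht0.le ht1 F true fun ω _ _ _ hwt => ?_
  by_cases h : mshG F ω = G
  · obtain ⟨-, hb⟩ := hHt F ω hF (msh11_ok_of_wt hwt)
    rw [msh11_I_pos h, one_mul]
    have b1 := hb z hz
    have b2 := hb w hw
    rw [h] at b1 b2
    unfold mshX
    have h3 : |σ * (rswH F (rskOut G ω) z * rswH F (rskOut G ω) w)| ≤ 1 := by
      rw [abs_mul, abs_mul]
      have := mul_le_one₀ b1 (abs_nonneg _) b2
      exact mul_le_one₀ hσ (mul_nonneg (abs_nonneg _) (abs_nonneg _)) this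
    exact (le_abs_self _).trans h3
  · rw [msh11_I_neg h, zero_mul, mul_zero]

/-- **recursion for the covariance** (`σ = ± 1`) -/
theorem msh11_C_rec {t : ℝ} (ht0 : 0 < t) (ht1 : t ≤ 1) (hExt : MshExtRec) (hHt : MshHtRec) {F : Finset (ℤ × ℤ)} (hF : At92hExt F)
    {z w : ℤ × ℤ} (hz : z ∈ cornersOf F) (hw : w ∈ cornersOf F) {σ : ℝ} (hσ : |σ| ≤ 1) :
    σ * mshC t z w F ≤ 1 + ∑ G ∈ F.powerset, mshP t F G * (σ * mshCt t z w G) := by
  unfold mshC
  rw [msh11_E_part, Finset.mul_sum]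
  have h1 : ∀ G ∈ F.powerset, σ * rswE t F true (fun ω => mshI F G ω * (rswH F ω z * rswH F ω w)) =
      σ * rswE t F true (fun ω => mshI F G ω * (mshX F G z ω * mshX F G w ω)) + mshP t F G * (σ * mshCt t z w G) := by
    intro G hG
    rw [msh11_C_step ht0 ht1 hExt hHt hF hz hw (Finset.mem_powerset.1 hG)]
    ring
  rw [Finset.sum_congr rfl h1, Finset.sum_add_distrib]
  exact add_le_add (msh11_XX_le ht0 ht1 hHt hF hz hw hσ) le_rfl

/-! ## 4. Radius and kernel -/

/-- distance from `z` to the complement of `D` -/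
noncomputable def mshRad (z : ℤ × ℤ) (D : Finset (ℤ × ℤ)) : ℕ := sInf {n | ¬ rswBox z n ⊆ D}

theorem msh11_mem_box {z u : ℤ × ℤ} {n : ℕ} :
    u ∈ rswBox z n ↔ (z.1 - n ≤ u.1 ∧ u.1 < z.1 + n) ∧ (z.2 - n ≤ u.2 ∧ u.2 < z.2 + n) := by
  unfold rswBox
  rw [Finset.mem_product, Finset.mem_Ico, Finset.mem_Ico]

theorem msh11_box_mono (z : ℤ × ℤ) {r R : ℕ} (h : r ≤ R) : rswBox z r ⊆ rswBox z R := by
  intro u hu
  rw [msh11_mem_box] at hu ⊢
  have : (r : ℤ) ≤ R := by exact_mod_cast h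
  omega

theorem msh11_box_esc (z : ℤ × ℤ) (D : Finset (ℤ × ℤ)) : ∃ n : ℕ, ¬ rswBox z n ⊆ D := by
  by_contra hcon
  push Not at hcon
  have hinj : Function.Injective (fun n : ℕ => ((z.1 + n, z.2) : ℤ × ℤ)) := by
    intro a b hab
    have := congrArg Prod.fst hab
    simpa using this
  have hsub : Set.range (fun n : ℕ => ((z.1 + n, z.2) : ℤ × ℤ)) ⊆ (D : Set (ℤ × ℤ)) := by
    rintro _ ⟨n, rfl⟩
    refine hcon (n + 1) ?_
    rw [msh11_mem_box]
    push_cast
    omega
  exact Set.infinite_range_of_injective hinj (D.finite_toSet.subset hsub)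

theorem msh11_rad_le {z : ℤ × ℤ} {D : Finset (ℤ × ℤ)} {n : ℕ} : mshRad z D ≤ n ↔ ¬ rswBox z n ⊆ D := by
  constructor
  · intro h hsub
    have hm : mshRad z D ∈ {n | ¬ rswBox z n ⊆ D} := Nat.sInf_mem (msh11_box_esc z D)
    exact hm ((msh11_box_mono z h).trans hsub)
  · intro h
    exact Nat.sInf_le h

theorem msh11_lt_rad {z : ℤ × ℤ} {D : Finset (ℤ × ℤ)} {n : ℕ} : n + 1 ≤ mshRad z D ↔ rswBox z n ⊆ D := by
  rw [Nat.succ_le_iff, ← not_le, msh11_rad_le, not_not]

theorem msh11_rad_mono (z : ℤ × ℤ) {D F : Finset (ℤ × ℤ)} (h : D ⊆ F) : mshRad z D ≤ mshRad z F := by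
  rw [msh11_rad_le]
  intro h1
  exact (msh11_rad_le.1 le_rfl) (h1.trans h)

/-- **the radius drops at every step** -/
theorem msh11_rad_lt {F : Finset (ℤ × ℤ)} {ω : RswCfg} {z : ℤ × ℤ} (hz : z ∈ mshG F ω) :
    mshRad z (mshG F ω) < mshRad z F := by
  obtain ⟨hzF, hzO⟩ := msh11_mem_G.1 hz
  obtain ⟨n, hn⟩ : ∃ n, n = mshRad z F := ⟨_, rfl⟩
  have h1 : ¬ rswBox z n ⊆ F := msh11_rad_le.1 hn.ge
  obtain ⟨g, hg, hgF⟩ := Finset.not_subset.1 h1
  rw [msh11_mem_box] at hg
  rw [← hn]
  rcases Nat.lt_or_ge n 2 with hn2 | hn2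
  · -- the vertex `z` is on the polygon
    exfalso
    have hn1 : (n : ℤ) ≤ 1 := by exact_mod_cast (by omega : n ≤ 1)
    refine hzO (msh11_layer_out ω (msh11_mem_layer (v := z) hzF hgF ⟨Or.inl rfl, Or.inl rfl⟩ ⟨?_, ?_⟩))
    · omega
    · omega
  · obtain ⟨m, rfl⟩ : ∃ m, n = m + 1 := ⟨n - 1, by omega⟩
    rw [Nat.lt_succ_iff, msh11_rad_le]
    intro hsub
    have hm : (1 : ℤ) ≤ m := by exact_mod_cast (by omega : 1 ≤ m)
    push_cast at hg
    obtain ⟨f, hf⟩ : ∃ f : ℤ × ℤ, f = (max (z.1 - m) (min g.1 (z.1 + m - 1)), max (z.2 - m) (min g.2 (z.2 + m - 1))) := ⟨_, rfl⟩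
    have hf1 : f.1 = max (z.1 - m) (min g.1 (z.1 + m - 1)) := by rw [hf]
    have hf2 : f.2 = max (z.2 - m) (min g.2 (z.2 + m - 1)) := by rw [hf]
    have hfb : f ∈ rswBox z m := by
      rw [msh11_mem_box]
      omega
    have hadj : at92hAdj f g := by
      unfold at92hAdj
      rw [abs_le, abs_le]
      omega
    obtain ⟨v, c1, c2⟩ := at92h_common_corner hadj
    have hfG := hsub hfb
    obtain ⟨hfF, hfO⟩ := msh11_mem_G.1 hfG
    exact hfO (msh11_layer_out ω (msh11_mem_layer hfF hgF c1 c2))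

open Classical in
/-- the kernel of the marked face `z`: states = sets of faces, one step = the unexplored region (as long as it contains `z`) -/
noncomputable def mshKer (t : ℝ) (z : ℤ × ℤ) : MomKer (Finset (ℤ × ℤ)) where
  ch := fun F => F.powerset.filter (fun G => z ∈ G ∧ mshP t F G ≠ 0)
  p := mshP t
  nx := id
  sz := mshRad z
  rad := mshRad z
  good := At92hExt

theorem msh11_mem_ch {t : ℝ} {z : ℤ × ℤ} {F G : Finset (ℤ × ℤ)} : G ∈ (mshKer t z).ch F ↔ G ⊆ F ∧ z ∈ G ∧ mshP t F G ≠ 0 := by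
  classical
  simp [mshKer]

/-- sums over all subsets = sums over the kernel, for summands which vanish when `z ∉ G` -/
theorem msh11_ker_sum (t : ℝ) (z : ℤ × ℤ) (F : Finset (ℤ × ℤ)) (a : Finset (ℤ × ℤ) → ℝ) (ha : ∀ G, z ∉ G → a G = 0) :
    ∑ G ∈ F.powerset, mshP t F G * a G = ∑ G ∈ (mshKer t z).ch F, (mshKer t z).p F G * a G := by
  classical
  show _ = ∑ G ∈ F.powerset.filter (fun G => z ∈ G ∧ mshP t F G ≠ 0), mshP t F G * a G
  rw [Finset.sum_filter]
  refine Finset.sum_congr rfl fun G _ => ?_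
  by_cases h : z ∈ G ∧ mshP t F G ≠ 0
  · rw [if_pos h]
  · rw [if_neg h]
    by_cases hz : z ∈ G
    · have : mshP t F G = 0 := by
        by_contra hc
        exact h ⟨hz, hc⟩
      rw [this, zero_mul]
    · rw [ha G hz, mul_zero]

theorem msh11_ker_ok {t : ℝ} (ht0 : 0 < t) (ht1 : t ≤ 1) (hExt : MshExtRec) (z : ℤ × ℤ) : (mshKer t z).Ok where
  p_nn := fun F G => msh11_P_nonneg ht0.le ht1 F G
  p_sum := fun F => by
    classical
    rw [← msh11_P_sum ht0 ht1 F]
    exact Finset.sum_le_sum_of_subset_of_nonneg (Finset.filter_subset _ _) fun G _ _ => msh11_P_nonneg ht0.le ht1 F G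
  sz_lt := fun F G hG => by
    obtain ⟨_, hz, hP⟩ := msh11_mem_ch.1 hG
    obtain ⟨ω, rfl⟩ := msh11_P_ex hP
    exact msh11_rad_lt hz
  rad_ch := fun F G hG => msh11_rad_mono z (msh11_mem_ch.1 hG).1
  rad_nx := fun D => le_rfl
  good_nx := fun F hF G hG => by
    obtain ⟨_, _, hP⟩ := msh11_mem_ch.1 hG
    obtain ⟨ω, rfl⟩ := msh11_P_ex hP
    exact hExt F ω hF

open Classical in
/-- **(C1)** the covariance of a flat problem is at most `1 +` the expected number of steps at which `z` and `w` are still in one component -/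
theorem msh11_cov_le_S {t : ℝ} (ht0 : 0 < t) (ht1 : t ≤ 1) (hExt : MshExtRec) (hHt : MshHtRec) (z w : ℤ × ℤ) {σ : ℝ} (hσ : |σ| ≤ 1)
    (F : Finset (ℤ × ℤ)) (hF : At92hExt F) (hzw : MshConn F z w) :
    σ * mshC t z w F ≤ 1 + momS (mshKer t z) (fun G => if MshConn G z w then 1 else 0) (mshRad z F) F := by
  have hok := msh11_ker_ok ht0 ht1 hExt z
  have key := mom_rc_sub hok (χ := fun G => if MshConn G z w then (1 : ℝ) else 0)
    (c := fun G => if MshConn G z w then σ * mshC t z w G - 1 else 0) ?_ (mshRad z F) F hF le_rfl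
  · simp only [if_pos hzw] at key
    linarith
  · intro G hG
    have hGe : At92hExt G := hG
    by_cases hc : MshConn G z w
    · simp only [if_pos hc]
      obtain ⟨hz, hw⟩ := msh11_conn_mem hc
      have h1 := msh11_C_rec ht0 ht1 hExt hHt hGe (rsz_face_corner hz) (rsz_face_corner hw) hσ
      show σ * mshC t z w G - 1 ≤ ∑ D ∈ (mshKer t z).ch G, (mshKer t z).p G D * ((if MshConn D z w then (1 : ℝ) else 0) +
        (if MshConn D z w then σ * mshC t z w D - 1 else 0))
      rw [← msh11_ker_sum t z G (fun D => (if MshConn D z w then (1 : ℝ) else 0) +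
        (if MshConn D z w then σ * mshC t z w D - 1 else 0)) (fun D hD => by
          rw [if_neg (fun h => hD h.1), if_neg (fun h => hD h.1), add_zero])]
      have h2 : ∀ D ∈ G.powerset, mshP t G D * (σ * mshCt t z w D) = mshP t G D * ((if MshConn D z w then (1 : ℝ) else 0) +
          (if MshConn D z w then σ * mshC t z w D - 1 else 0)) := by
        intro D _
        by_cases hP : mshP t G D = 0
        · rw [hP, zero_mul, zero_mul]
        · obtain ⟨ω, rfl⟩ := msh11_P_ex hP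
          have hDe := hExt G ω hGe
          by_cases hD : MshConn (mshG G ω) z w
          · rw [if_pos hD, if_pos hD, msh11_Ct_conn t hD]
            ring
          · rw [if_neg hD, if_neg hD, msh11_Ct_zero t hDe hD]
            ring
      rw [Finset.sum_congr rfl h2] at h1
      linarith
    · simp only [if_neg hc]
      refine Finset.sum_nonneg fun D hD => ?_
      have hDG := (msh11_mem_ch.1 hD).1
      have hD' : ¬ MshConn ((mshKer t z).nx D) z w := fun h => hc (msh11_conn_mono hDG h)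
      have hD'' : ¬ MshConn D z w := hD'
      rw [if_neg hD', if_neg hD'', add_zero, mul_zero]

/-! ## 5. THE MODEL-FREE SHELL  (R291 `Mom/Shell` §5-§8 with the model stripped off; any kernel) -/

section Abs

variable {α : Type} {K : MomKer α}

theorem msh11_H_le_one (hK : K.Ok) (χ : α → Prop) : ∀ (n : ℕ) (F : α), momH K χ n F ≤ 1
  | 0, _ => by rw [mom_rc_H_zero]; exact zero_le_one
  | n + 1, F => by
    classical
    rw [mom_rc_H_succ]
    refine mom_rc_avg hK F _ zero_le_one fun D _ => ?_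
    split_ifs
    · exact le_rfl
    · exact msh11_H_le_one hK χ n _

theorem msh11_H_mono (hK : K.Ok) {χ χ' : α → Prop} (h : ∀ D, χ D → χ' D) : ∀ (n : ℕ) (F : α), momH K χ n F ≤ momH K χ' n F
  | 0, _ => by rw [mom_rc_H_zero, mom_rc_H_zero]
  | n + 1, F => by
    classical
    rw [mom_rc_H_succ, mom_rc_H_succ]
    refine Finset.sum_le_sum fun D _ => mul_le_mul_of_nonneg_left ?_ (hK.p_nn F D)
    by_cases h1 : χ D
    · rw [if_pos h1, if_pos (h D h1)]
    · rw [if_neg h1]
      by_cases h2 : χ' D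
      · rw [if_pos h2]
        exact msh11_H_le_one hK χ n _
      · rw [if_neg h2]
        exact msh11_H_mono hK h n _

open Classical in
/-- small scales: the radius drops at every step -/
theorem msh11_abs_small (hK : K.Ok) (hpot : ∀ F, ∀ D ∈ K.ch F, K.rad D < K.rad F) (R n : ℕ) (F : α) :
    momS K (fun D => if K.rad D ≤ R then 1 else 0) n F ≤ (R : ℝ) + 1 := by
  have h := mom_rc_pot hK (χ := fun D => K.rad D ≤ R) (fun F => min (K.rad F) (R + 1)) ?_ ?_ n F
  · have e : (fun D => if K.rad D ≤ R then (1 : ℝ) else 0) = (fun D => @ite ℝ (K.rad D ≤ R) (Classical.propDecidable _) 1 0) := by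
      funext D; congr
    rw [e]
    refine h.trans ?_
    have : min (K.rad F) (R + 1) ≤ R + 1 := min_le_right _ _
    exact_mod_cast this
  · intro F D hD
    have h1 := hpot F D hD
    have h2 := hK.rad_nx D
    exact min_le_min (by omega) le_rfl
  · intro F D hD hχ
    have h1 := hpot F D hD
    have h2 := hK.rad_nx D
    have h3 : K.rad D ≤ R := hχ
    have h4 : min (K.rad (K.nx D)) (R + 1) ≤ K.rad (K.nx D) := min_le_left _ _
    exact le_min (by omega) (by omega)

open Classical in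
/-- one shell -/
theorem msh11_abs_shell (hK : K.Ok) {κ : ℝ} (hκ : 0 < κ) {r0 : ℕ}
    (hobs : ∀ s r, K.good s → r0 ≤ r → K.rad s ≤ 2 * r → momQ K r 1 s ≤ 1 - κ) (d n : ℕ) (F : α) (hF : K.good F) (hd : r0 ≤ d) :
    momS K (fun D => if momShell K d D then 1 else 0) n F ≤ 1 + 1 / κ := by
  have h := mom_rc_shell hK d 1 (ρ := 1 - κ) (by linarith) (fun G hG hR => hobs G d hG hd hR) n F hF
  have e : (1 : ℝ) - (1 - κ) = κ := by ring
  rw [e] at h
  exact_mod_cast h

open Classical in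
/-- pointwise cover of `χ` by the small scales, the dyadic shells `j0 ≤ j < J`, and the large scales -/
theorem msh11_abs_cover (K : MomKer α) (χ : α → Prop) (j0 J : ℕ) (D : α) :
    (if χ D then (1 : ℝ) else 0) ≤ (if K.rad D ≤ 2 ^ j0 then 1 else 0) +
      (∑ j ∈ Finset.range J, if j0 ≤ j ∧ (χ D ∧ momShell K (2 ^ j) D) then (1 : ℝ) else 0) + (if 2 ^ J ≤ K.rad D then 1 else 0) := by
  have hs : 0 ≤ ∑ j ∈ Finset.range J, if j0 ≤ j ∧ (χ D ∧ momShell K (2 ^ j) D) then (1 : ℝ) else 0 :=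
    Finset.sum_nonneg fun j _ => by split_ifs <;> norm_num
  have t1 : (0 : ℝ) ≤ if K.rad D ≤ 2 ^ j0 then 1 else 0 := by split_ifs <;> norm_num
  have t3 : (0 : ℝ) ≤ if 2 ^ J ≤ K.rad D then 1 else 0 := by split_ifs <;> norm_num
  by_cases hw : χ D
  · rw [if_pos hw]
    by_cases h1 : K.rad D ≤ 2 ^ j0
    · rw [if_pos h1]; linarith
    · by_cases h3 : 2 ^ J ≤ K.rad D
      · rw [if_pos h3]; linarith
      · rw [not_le] at h1 h3
        have hR : K.rad D ≠ 0 := by
          have : 0 < 2 ^ j0 := by positivity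
          omega
        obtain ⟨j, hj⟩ : ∃ j, j = Nat.log 2 (K.rad D) := ⟨_, rfl⟩
        have b1 : 2 ^ j ≤ K.rad D := by rw [hj]; exact Nat.pow_log_le_self 2 hR
        have b2 : K.rad D < 2 ^ (j + 1) := by rw [hj]; exact Nat.lt_pow_succ_log_self (by norm_num) _
        have b3 : j0 ≤ j := by
          by_contra hc
          have : 2 ^ (j + 1) ≤ 2 ^ j0 := Nat.pow_le_pow_right (by norm_num) (by omega)
          omega
        have b4 : j < J := by
          by_contra hc
          have : 2 ^ J ≤ 2 ^ j := Nat.pow_le_pow_right (by norm_num) (by omega)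
          omega
        have hcom : j0 ≤ j ∧ (χ D ∧ momShell K (2 ^ j) D) := ⟨b3, hw, b1, by
          show K.rad D < 2 * 2 ^ j
          rw [pow_succ] at b2; omega⟩
        have := Finset.single_le_sum (f := fun j => if j0 ≤ j ∧ (χ D ∧ momShell K (2 ^ j) D) then (1 : ℝ) else 0)
          (fun i _ => by split_ifs <;> norm_num) (Finset.mem_range.2 b4)
        simp only [if_pos hcom] at this
        linarith
  · rw [if_neg hw]; linarith

end Abs

open Classical in
/-- **THE MODEL-FREE SHELL THEOREM.**   The constant depends on `κ, r0, C, al` only. -/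
theorem msh11_abs (κ : ℝ) (r0 : ℕ) (C al : ℝ) (hκ : 0 < κ) (hC : 0 < C) (hal : 0 < al) :
    ∃ C' : ℝ, 0 < C' ∧ ∀ (α : Type) (K : MomKer α), K.Ok → ∀ (χ : α → Prop) (ρ N : ℕ) (s : α) (n : ℕ),
      (∀ s r, K.good s → r0 ≤ r → K.rad s ≤ 2 * r → momQ K r 1 s ≤ 1 - κ) →
      (∀ F, ∀ D ∈ K.ch F, K.rad D < K.rad F) →
      (∀ r1 : ℕ, 1 ≤ r1 → r1 ≤ ρ → momH K (fun D => χ D ∧ K.rad D ≤ r1) n s ≤ C * ((r1 : ℝ) / ρ) ^ al) →
      K.good s → K.rad s ≤ N → 1 ≤ N → ρ ≤ N →
      momS K (fun D => if χ D then 1 else 0) n s ≤ C' * (1 + Real.log ((N : ℝ) / max 1 (ρ : ℝ))) := by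
  have hlog2 : 0 < Real.log 2 := Real.log_pos one_lt_two
  have hr1 : (1 / 2 : ℝ) ^ al < 1 := Real.rpow_lt_one (by norm_num) (by norm_num) hal
  have h1r : 0 < 1 - (1 / 2 : ℝ) ^ al := by linarith
  obtain ⟨K0, hK0⟩ : ∃ K0 : ℝ, K0 = 1 + 1 / κ := ⟨_, rfl⟩
  have hK0p : 0 < K0 := by rw [hK0]; positivity
  obtain ⟨KK, hKK⟩ : ∃ KK : ℝ, KK = 1 + K0 := ⟨_, rfl⟩
  have hKKp : 0 < KK := by rw [hKK]; positivity
  obtain ⟨j0, hj0⟩ : ∃ j0 : ℕ, j0 = r0 := ⟨_, rfl⟩
  obtain ⟨A, hA⟩ : ∃ A : ℝ, A = ((2 ^ j0 : ℕ) : ℝ) + 1 + KK * (C / (1 - (1 / 2) ^ al) + 3) := ⟨_, rfl⟩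
  have hA0 : 0 ≤ A := by rw [hA]; positivity
  refine ⟨A + KK / Real.log 2 + 1, by positivity, ?_⟩
  intro α K hK χ ρ N s n hobs hpot harm hs hN hN1 hρN
  obtain ⟨b, hb⟩ : ∃ b, b = max 1 ρ := ⟨_, rfl⟩
  have hb1 : 1 ≤ b := by rw [hb]; exact le_max_left _ _
  have hbn : b ≤ N := by rw [hb]; exact max_le hN1 hρN
  have hbc : (max 1 (ρ : ℝ)) = (b : ℝ) := by rw [hb]; push_cast; rfl
  rw [hbc]
  obtain ⟨J, hJ⟩ : ∃ J, J = Nat.log 2 N + 1 := ⟨_, rfl⟩
  have hJ1 : 2 ^ J ≤ 2 * N := by
    rw [hJ, pow_succ]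
    have := Nat.pow_log_le_self 2 (show N ≠ 0 by omega)
    omega
  have hJ2 : N < 2 ^ J := by rw [hJ]; exact Nat.lt_pow_succ_log_self (by norm_num) N
  -- one shell
  have hi : ∀ (j : ℕ), j0 ≤ j → ∀ (n : ℕ) (G : α), K.good G →
      momS K (fun D => if χ D ∧ momShell K (2 ^ j) D then 1 else 0) n G ≤ K0 := by
    intro j hj n G hG
    have hd : r0 ≤ 2 ^ j := by
      rw [← hj0]
      exact hj.trans (Nat.lt_two_pow_self).le
    rw [hK0]
    refine le_trans (mom_rc_S_mono hK (fun D => ?_) n G) (msh11_abs_shell hK hκ hobs (2 ^ j) n G hG hd)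
    by_cases hc : χ D ∧ momShell K (2 ^ j) D
    · rw [if_pos hc, if_pos hc.2]
    · rw [if_neg hc]; split_ifs <;> norm_num
  -- the cover
  have s1 : momS K (fun D => if χ D then 1 else 0) n s ≤
      momS K (fun D => if K.rad D ≤ 2 ^ j0 then 1 else 0) n s +
      ∑ j ∈ Finset.range J, momS K (fun D => if j0 ≤ j ∧ (χ D ∧ momShell K (2 ^ j) D) then (1 : ℝ) else 0) n s +
      momS K (fun D => if 2 ^ J ≤ K.rad D then 1 else 0) n s := by
    rw [← mom_rc_S_sum, ← mom_rc_S_add, ← mom_rc_S_add]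
    exact mom_rc_S_mono hK (fun D => msh11_abs_cover K χ j0 J D) n s
  have s2 : momS K (fun D => if K.rad D ≤ 2 ^ j0 then 1 else 0) n s ≤ ((2 ^ j0 : ℕ) : ℝ) + 1 :=
    msh11_abs_small hK hpot (2 ^ j0) n s
  have s3 : momS K (fun D => if 2 ^ J ≤ K.rad D then 1 else 0) n s = 0 := by
    refine mom_rc_S_vanish hK (R := N) (fun D hD => ?_) n s hN
    rw [if_neg (by omega)]
  have hz : ∀ j, j < j0 → momS K (fun D => if j0 ≤ j ∧ (χ D ∧ momShell K (2 ^ j) D) then (1 : ℝ) else 0) n s = 0 := by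
    intro j hj
    have e : (fun D => if j0 ≤ j ∧ (χ D ∧ momShell K (2 ^ j) D) then (1 : ℝ) else 0) = fun _ => 0 := by
      funext D
      rw [if_neg (fun h => by omega)]
    rw [e, mom_rc_S_const_zero]
  have he : ∀ j, j0 ≤ j → momS K (fun D => if j0 ≤ j ∧ (χ D ∧ momShell K (2 ^ j) D) then (1 : ℝ) else 0) n s
      = momS K (fun D => if χ D ∧ momShell K (2 ^ j) D then 1 else 0) n s := by
    intro j hj
    congr 1
    funext D
    simp only [hj, true_and]
  have s4 := mom_dyadic_sum hKKp.le hC.le hal b N J hb1 hbn hJ1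
    (fun j => momS K (fun D => if j0 ≤ j ∧ (χ D ∧ momShell K (2 ^ j) D) then (1 : ℝ) else 0) n s) ?_ ?_
  · have hL0 : 0 ≤ Real.log ((N : ℝ) / b) := by
      have hb0 : (0 : ℝ) < b := by exact_mod_cast hb1
      exact Real.log_nonneg ((one_le_div hb0).2 (by exact_mod_cast hbn))
    have e1 : KK * (C / (1 - (1 / 2) ^ al) + 3 + Real.log ((N : ℝ) / b) / Real.log 2)
        = KK * (C / (1 - (1 / 2) ^ al) + 3) + KK / Real.log 2 * Real.log ((N : ℝ) / b) := by ring
    have hKl : 0 ≤ KK / Real.log 2 := by positivity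
    have e2 : momS K (fun D => if χ D then 1 else 0) n s ≤ A + KK / Real.log 2 * Real.log ((N : ℝ) / b) := by
      rw [hA]; linarith
    nlinarith [mul_nonneg hA0 hL0, mul_nonneg hKl hL0]
  · intro j
    rcases lt_or_ge j j0 with hj | hj
    · show momS _ _ _ _ ≤ KK
      rw [hz j hj]; exact hKKp.le
    · show momS _ _ _ _ ≤ KK
      rw [he j hj, hKK]
      linarith [hi j hj n s hs]
  · intro j hjb
    show momS _ _ _ _ ≤ _
    rcases lt_or_ge j j0 with hj | hj
    · rw [hz j hj]; positivity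
    · have h2j : 2 ≤ 2 ^ (j + 1) := by
        have : 1 ≤ 2 ^ j := Nat.one_le_two_pow
        rw [pow_succ]; omega
      have hbd : b = ρ := by
        rw [hb] at hjb ⊢
        rcases le_total 1 ρ with h | h
        · exact max_eq_right h
        · rw [max_eq_left h] at hjb; omega
      rw [he j hj]
      have edec : (fun D => if χ D ∧ momShell K (2 ^ j) D then (1 : ℝ) else 0) =
          (fun D => @ite ℝ (χ D ∧ momShell K (2 ^ j) D) (Classical.propDecidable _) 1 0) := by
        funext D; congr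
      have hSH := mom_rc_S_le_H hK (χ := fun D => χ D ∧ momShell K (2 ^ j) D) (B := K0)
        (fun n G hG => by rw [← edec]; exact hi j hj n G hG) n s hs
      rw [← edec] at hSH
      have hmono : momH K (fun D => χ D ∧ momShell K (2 ^ j) D) n s ≤ momH K (fun D => χ D ∧ K.rad D ≤ 2 ^ (j + 1)) n s := by
        refine msh11_H_mono hK (fun D hD => ⟨hD.1, ?_⟩) n s
        have : K.rad D < 2 * 2 ^ j := hD.2.2
        rw [pow_succ]; omega
      have ha := harm (2 ^ (j + 1)) Nat.one_le_two_pow (by rw [← hbd]; exact hjb)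
      rw [← hbd] at ha
      push_cast at ha
      calc momS K (fun D => if χ D ∧ momShell K (2 ^ j) D then 1 else 0) n s
          ≤ (1 + K0) * momH K (fun D => χ D ∧ momShell K (2 ^ j) D) n s := hSH
        _ ≤ (1 + K0) * (C * ((2 : ℝ) ^ (j + 1) / b) ^ al) := mul_le_mul_of_nonneg_left (hmono.trans ha) (by linarith)
        _ = KK * (C * ((2 : ℝ) ^ (j + 1) / b) ^ al) := by rw [hKK]

end Claimed.Agent.R292
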