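import Claimed.Agent.R292.Defs.RSW
import Claimed.Agent.R292.Api

/-!
# Row 292 (S0540), Rsw/Dict11 : THE LINK BETWEEN THE `(S, D, O)` MODEL OF `Defs/RSW` AND THE FROZEN `atExpect`      (pen helper11; prefix `rswd11_`)

* `rswd11_sum_O`     the sum over the open edges `O` of the edge factors is the product of `1, t, t, 0`
* `rswd11_weight`    boundary condition PLUS + that product = `1[IsAdmissibleSpins] * t ^ atDisagreements`
* `rswd11_sum`       `rswSum t F true (Y ∘ (rswTau, rswTauD)) = ∑ p ∈ at92Adm F, at92W t p * Y p`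
* **`rswd11_expect`**  `atExpect t δ F φ ψ = rswE t F true (fun ω => ψ (δ ^ 2 * ∑ v ∈ cornersOf F, rswH F ω v * φ (δ v)))`
-/

set_option autoImplicit false

namespace Claimed.Agent.R292

open Claims Claims.C0468

section

variable {F : Finset (ℤ × ℤ)}

/-! ### spins read off a configuration -/

theorem rswd11_spin (ω : RswCfg) {w : ℤ × ℤ} (hw : w ∈ cornersOf F) :
    atSpin (rswTau F ω) w = if w ∈ ω.S then 1 else -1 := by
  unfold atSpin rswTau
  rw [dif_pos hw]
  by_cases h : w ∈ ω.S <;> simp [h]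

theorem rswd11_dual (ω : RswCfg) {f : ℤ × ℤ} (hf : f ∈ F) :
    atDual (rswTauD F ω) f = if f ∈ ω.D then 1 else -1 := by
  unfold atDual rswTauD
  rw [dif_pos hf]
  by_cases h : f ∈ ω.D <;> simp [h]

theorem rswd11_mem_int (e : (ℤ × ℤ) × Bool) : e ∈ rswInt F ↔ e.1 ∈ F ∧ rswCo e ∈ F := by
  unfold rswInt
  simp [Finset.mem_filter, Finset.mem_product]

theorem rswd11_face_corner {f : ℤ × ℤ} (hf : f ∈ F) : f ∈ cornersOf F := by
  unfold cornersOf
  exact Finset.mem_biUnion.2 ⟨f, hf, by simp⟩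

theorem rswd11_end_corner {e : (ℤ × ℤ) × Bool} (hf : e.1 ∈ F) : rswEnd e ∈ cornersOf F := by
  unfold cornersOf
  refine Finset.mem_biUnion.2 ⟨e.1, hf, ?_⟩
  unfold rswEnd
  cases e.2 <;> simp

/-- the primal spins disagree along `e` -/
def rswd11SDis (τ : cornersOf F → Bool) (e : (ℤ × ℤ) × Bool) : Prop :=
  atSpin τ e.1 ≠ atSpin τ (rswEnd e)

/-- the dual spins disagree across `e` -/
def rswd11DDis (τd : F → Bool) (e : (ℤ × ℤ) × Bool) : Prop :=
  atDual τd e.1 ≠ atDual τd (rswCo e)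

theorem rswd11_sdis_iff (ω : RswCfg) {e : (ℤ × ℤ) × Bool} (he : e ∈ rswInt F) :
    rswd11SDis (rswTau F ω) e ↔ ¬ (e.1 ∈ ω.S ↔ rswEnd e ∈ ω.S) := by
  have h1 := (rswd11_mem_int e).1 he
  unfold rswd11SDis
  rw [rswd11_spin ω (rswd11_face_corner h1.1), rswd11_spin ω (rswd11_end_corner h1.1)]
  by_cases a : e.1 ∈ ω.S <;> by_cases b : rswEnd e ∈ ω.S <;> simp [a, b]

theorem rswd11_ddis_iff (ω : RswCfg) {e : (ℤ × ℤ) × Bool} (he : e ∈ rswInt F) :
    rswd11DDis (rswTauD F ω) e ↔ ¬ (e.1 ∈ ω.D ↔ rswCo e ∈ ω.D) := by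
  have h1 := (rswd11_mem_int e).1 he
  unfold rswd11DDis
  rw [rswd11_dual ω h1.1, rswd11_dual ω h1.2]
  by_cases a : e.1 ∈ ω.D <;> by_cases b : rswCo e ∈ ω.D <;> simp [a, b]

open Classical in
/-- the factor of an interior edge after the sum over its state: `1, t, t, 0` -/
noncomputable def rswd11H (t : ℝ) (τ : cornersOf F → Bool) (τd : F → Bool) (e : (ℤ × ℤ) × Bool) : ℝ :=
  if ¬ (rswd11SDis τ e ∧ rswd11DDis τd e) then
    t ^ ((if rswd11SDis τ e then 1 else 0) + (if rswd11DDis τd e then 1 else 0)) else 0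

/-! ### the sum over the open edges -/

theorem rswd11_sum_O (t : ℝ) (S D : Finset (ℤ × ℤ)) :
    ∑ O ∈ (rswInt F).powerset, ∏ e ∈ rswInt F, rswFac t ⟨S, D, O⟩ e =
      ∏ e ∈ rswInt F, rswd11H t (rswTau F ⟨S, D, ∅⟩) (rswTauD F ⟨S, D, ∅⟩) e := by
  classical
  set f : (ℤ × ℤ) × Bool → ℝ := fun e => if (e.1 ∈ S ↔ rswEnd e ∈ S) then t else 0 with hf
  set g : (ℤ × ℤ) × Bool → ℝ := fun e =>
    if (e.1 ∈ D ↔ rswCo e ∈ D) then (if (e.1 ∈ S ↔ rswEnd e ∈ S) then 1 - t else t) else 0 with hg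
  have h1 : ∀ O ∈ (rswInt F).powerset, ∏ e ∈ rswInt F, rswFac t ⟨S, D, O⟩ e =
      (∏ e ∈ O, f e) * ∏ e ∈ rswInt F \ O, g e := by
    intro O hO
    have hO' : O ⊆ rswInt F := Finset.mem_powerset.1 hO
    have : ∀ e, rswFac t ⟨S, D, O⟩ e = if e ∈ O then f e else g e := by
      intro e
      unfold rswFac
      simp only [hf, hg]
    simp only [this]
    rw [Finset.prod_ite, Finset.filter_mem_eq_inter, Finset.inter_eq_right.2 hO',
      Finset.filter_notMem_eq_sdiff]
  rw [Finset.sum_congr rfl h1, ← Finset.prod_add]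
  refine Finset.prod_congr rfl fun e he => ?_
  have hs := rswd11_sdis_iff (F := F) ⟨S, D, ∅⟩ he
  have hd := rswd11_ddis_iff (F := F) ⟨S, D, ∅⟩ he
  unfold rswd11H
  simp only [hs, hd, hf, hg]
  by_cases a : (e.1 ∈ S ↔ rswEnd e ∈ S) <;> by_cases b : (e.1 ∈ D ↔ rswCo e ∈ D) <;> simp [a, b]

/-! ### the weight -/

theorem rswd11_spin_one {τ : cornersOf F → Bool}
    (hbc : ∀ v ∈ cornersOf F, OnPolygon F v → atSpin τ v = 1) {w : ℤ × ℤ} (hw : OnPolygon F w) :
    atSpin τ w = 1 := by
  by_cases h : w ∈ cornersOf F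
  · exact hbc w h hw
  · unfold atSpin
    rw [dif_neg h]

theorem rswd11_K1 {τ : cornersOf F → Bool}
    (hbc : ∀ v ∈ cornersOf F, OnPolygon F v → atSpin τ v = 1) {v : ℤ × ℤ}
    (h : ¬ (v ∈ F ∧ (v.1, v.2 - 1) ∈ F)) : atSpin τ v = atSpin τ (v.1 + 1, v.2) := by
  rw [rswd11_spin_one hbc (w := v), rswd11_spin_one hbc (w := (v.1 + 1, v.2))]
  · unfold OnPolygon
    rintro ⟨-, a, -, c⟩
    simp only [add_sub_cancel_right] at a c
    exact h ⟨a, c⟩
  · unfold OnPolygon
    rintro ⟨a, -, c, -⟩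
    exact h ⟨a, c⟩

theorem rswd11_K2 {τ : cornersOf F → Bool}
    (hbc : ∀ v ∈ cornersOf F, OnPolygon F v → atSpin τ v = 1) {v : ℤ × ℤ}
    (h : ¬ (v ∈ F ∧ (v.1 - 1, v.2) ∈ F)) : atSpin τ v = atSpin τ (v.1, v.2 + 1) := by
  rw [rswd11_spin_one hbc (w := v), rswd11_spin_one hbc (w := (v.1, v.2 + 1))]
  · unfold OnPolygon
    rintro ⟨-, -, a, c⟩
    simp only [add_sub_cancel_right] at a c
    exact h ⟨a, c⟩
  · unfold OnPolygon
    rintro ⟨a, c, -, -⟩
    exact h ⟨a, c⟩

open Classical in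
/-- the number of disagreements of an interior edge -/
noncomputable def rswd11G (τ : cornersOf F → Bool) (τd : F → Bool) (e : (ℤ × ℤ) × Bool) : ℕ :=
  (if rswd11SDis τ e then 1 else 0) + (if rswd11DDis τd e then 1 else 0)

theorem rswd11_sum_int (G : (ℤ × ℤ) × Bool → ℕ) :
    ∑ e ∈ rswInt F, G e = ∑ v ∈ F, ((if (v.1 - 1, v.2) ∈ F then G (v, true) else 0) +
      (if (v.1, v.2 - 1) ∈ F then G (v, false) else 0)) := by
  unfold rswInt
  rw [Finset.sum_filter, Finset.sum_product]
  refine Finset.sum_congr rfl fun v _ => ?_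
  rw [Fintype.sum_bool]
  simp [rswCo]

theorem rswd11_count {τ : cornersOf F → Bool} (τd : F → Bool)
    (hbc : ∀ v ∈ cornersOf F, OnPolygon F v → atSpin τ v = 1) :
    atDisagreements τ τd = ∑ e ∈ rswInt F, rswd11G τ τd e := by
  classical
  rw [rswd11_sum_int]
  have hsub : F ⊆ cornersOf F := fun f hf => rswd11_face_corner hf
  have hre : ∀ g : ℤ × ℤ → ℕ, ∑ v ∈ F, g v = ∑ v ∈ cornersOf F, if v ∈ F then g v else 0 := by
    intro g
    rw [Finset.sum_ite_mem, Finset.inter_eq_right.2 hsub]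
  rw [hre]
  unfold atDisagreements
  refine Finset.sum_congr rfl fun v _ => ?_
  have k1 := rswd11_K1 hbc (v := v)
  have k2 := rswd11_K2 hbc (v := v)
  unfold rswd11G rswd11SDis rswd11DDis
  simp only [rswEnd, rswCo, Bool.false_eq_true, if_false, if_true]
  by_cases hv : v ∈ F
  · by_cases h1 : (v.1, v.2 - 1) ∈ F
    · by_cases h2 : (v.1 - 1, v.2) ∈ F
      · simp only [hv, h1, h2, true_and, true_or, if_true]
        ring
      · have k2' := (k2 (fun h => h2 h.2)).symm
        simp only [hv, h1, h2, true_and, true_or, if_true, and_false, false_and, if_false, k2',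
          ne_eq, not_true_eq_false]
        ring
    · have k1' := (k1 (fun h => h1 h.2)).symm
      by_cases h2 : (v.1 - 1, v.2) ∈ F
      · simp only [hv, h1, h2, true_and, true_or, if_true, and_false, false_and, if_false, k1',
          ne_eq, not_true_eq_false]
        ring
      · have k2' := (k2 (fun h => h2 h.2)).symm
        simp only [hv, h1, h2, true_or, if_true, and_false, false_and, if_false, k1', k2',
          ne_eq, not_true_eq_false]
  · have k1' := (k1 (fun h => hv h.1)).symm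
    have k2' := (k2 (fun h => hv h.1)).symm
    simp only [hv, false_and, if_false, k1', k2', ne_eq, not_true_eq_false, and_false]

theorem rswd11_adm_iff {τ : cornersOf F → Bool} (τd : F → Bool)
    (hbc : ∀ v ∈ cornersOf F, OnPolygon F v → atSpin τ v = 1) :
    IsAdmissibleSpins τ τd ↔ ∀ e ∈ rswInt F, ¬ (rswd11SDis τ e ∧ rswd11DDis τd e) := by
  unfold IsAdmissibleSpins rswd11SDis rswd11DDis
  constructor
  · rintro ⟨-, h⟩ ⟨v, b⟩ he ⟨hs, hd⟩
    have hm := (rswd11_mem_int _).1 he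
    have hv : v ∈ F := hm.1
    have h' := h v (rswd11_face_corner hv)
    cases b with
    | false =>
      have h1 := h'.1 ⟨hv, by simpa [rswCo] using hm.2⟩
      rcases mul_eq_zero.1 h1 with h2 | h2
      · exact hs (by simpa [rswEnd] using sub_eq_zero.1 h2)
      · exact hd (by simpa [rswCo] using sub_eq_zero.1 h2)
    | true =>
      have h1 := h'.2 ⟨hv, by simpa [rswCo] using hm.2⟩
      rcases mul_eq_zero.1 h1 with h2 | h2
      · exact hs (by simpa [rswEnd] using sub_eq_zero.1 h2)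
      · exact hd (by simpa [rswCo] using sub_eq_zero.1 h2)
  · intro h
    refine ⟨hbc, fun v _ => ⟨fun hv => ?_, fun hv => ?_⟩⟩
    · have h1 := h (v, false) ((rswd11_mem_int _).2 ⟨hv.1, by simpa [rswCo] using hv.2⟩)
      simp only [rswEnd, rswCo, Bool.false_eq_true, if_false] at h1
      by_cases hs : atSpin τ v = atSpin τ (v.1 + 1, v.2)
      · rw [hs, sub_self, zero_mul]
      · have hd : atDual τd v = atDual τd (v.1, v.2 - 1) := by
          by_contra hd
          exact h1 ⟨hs, hd⟩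
        rw [hd, sub_self, mul_zero]
    · have h1 := h (v, true) ((rswd11_mem_int _).2 ⟨hv.1, by simpa [rswCo] using hv.2⟩)
      simp only [rswEnd, rswCo, if_true] at h1
      by_cases hs : atSpin τ v = atSpin τ (v.1, v.2 + 1)
      · rw [hs, sub_self, zero_mul]
      · have hd : atDual τd v = atDual τd (v.1 - 1, v.2) := by
          by_contra hd
          exact h1 ⟨hs, hd⟩
        rw [hd, sub_self, mul_zero]

open Classical in
/-- boundary condition PLUS and the product of the factors `1, t, t, 0` = the frozen weight -/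
theorem rswd11_weight (t : ℝ) (τ : cornersOf F → Bool) (τd : F → Bool) :
    (if (∀ v ∈ cornersOf F, OnPolygon F v → atSpin τ v = 1) then
        ∏ e ∈ rswInt F, rswd11H t τ τd e else 0) =
      if IsAdmissibleSpins τ τd then t ^ atDisagreements τ τd else 0 := by
  by_cases hbc : ∀ v ∈ cornersOf F, OnPolygon F v → atSpin τ v = 1
  · rw [if_pos hbc]
    unfold rswd11H
    rw [Finset.prod_ite_zero, Finset.prod_pow_eq_pow_sum, rswd11_count τd hbc]
    unfold rswd11G
    by_cases hadm : IsAdmissibleSpins τ τd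
    · rw [if_pos hadm, if_pos ((rswd11_adm_iff τd hbc).1 hadm)]
    · rw [if_neg hadm, if_neg (fun h => hadm ((rswd11_adm_iff τd hbc).2 h))]
  · rw [if_neg hbc, if_neg (fun h => hbc h.1)]

/-! ### powersets and Boolean functions -/

theorem rswd11_sum_powerset {α : Type*} [DecidableEq α] (A : Finset α) (g : (A → Bool) → ℝ) :
    ∑ S ∈ A.powerset, g (fun v => decide (v.1 ∈ S)) = ∑ τ : A → Bool, g τ := by
  classical
  refine Finset.sum_bij' (fun S _ => fun v : A => decide (v.1 ∈ S))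
    (fun τ _ => A.filter (fun v => ∃ h : v ∈ A, τ ⟨v, h⟩ = true)) ?_ ?_ ?_ ?_ ?_
  · intro S _; exact Finset.mem_univ _
  · intro τ _; exact Finset.mem_powerset.2 (Finset.filter_subset _ _)
  · intro S hS
    have hS' := Finset.mem_powerset.1 hS
    ext v
    simp only [Finset.mem_filter, decide_eq_true_eq, exists_prop]
    exact ⟨fun h => h.2.2, fun h => ⟨hS' h, hS' h, h⟩⟩
  · intro τ _
    funext v
    simp only [Finset.mem_filter]
    by_cases h : τ v = true
    · rw [h, decide_eq_true_eq]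
      exact ⟨v.2, v.2, h⟩
    · rw [Bool.not_eq_true] at h
      rw [h, decide_eq_false_iff_not]
      rintro ⟨-, hv, h2⟩
      have h3 : τ v = true := h2
      rw [h] at h3
      exact Bool.false_ne_true h3
  · intro S _; rfl

/-- **the `(S, D)` marginal of the flat PLUS problem is the frozen Ashkin-Teller weight** -/
theorem rswd11_sum (t : ℝ) (F : Finset (ℤ × ℤ)) (Y : at92Cfg F → ℝ) :
    rswSum t F true (fun ω => Y (rswTau F ω, rswTauD F ω)) = ∑ p ∈ at92Adm F, at92W t p * Y p := by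
  classical
  unfold rswSum
  have h1 : ∀ S D : Finset (ℤ × ℤ), ∑ O ∈ (rswInt F).powerset,
      rswWt t F true ⟨S, D, O⟩ * Y (rswTau F ⟨S, D, O⟩, rswTauD F ⟨S, D, O⟩) =
      (if IsAdmissibleSpins (fun v : cornersOf F => decide (v.1 ∈ S)) (fun f : F => decide (f.1 ∈ D))
        then t ^ atDisagreements (fun v : cornersOf F => decide (v.1 ∈ S))
          (fun f : F => decide (f.1 ∈ D)) else 0) *
        Y (fun v : cornersOf F => decide (v.1 ∈ S), fun f : F => decide (f.1 ∈ D)) := by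
    intro S D
    rw [← rswd11_weight]
    have e1 : ∀ O, rswTau F ⟨S, D, O⟩ = fun v : cornersOf F => decide (v.1 ∈ S) := fun _ => rfl
    have e2 : ∀ O, rswTauD F ⟨S, D, O⟩ = fun f : F => decide (f.1 ∈ D) := fun _ => rfl
    simp only [e1, e2]
    rw [← Finset.sum_mul]
    congr 1
    have hbc : ∀ O, RswBc F true ⟨S, D, O⟩ ↔
        ∀ v ∈ cornersOf F, OnPolygon F v → atSpin (fun v : cornersOf F => decide (v.1 ∈ S)) v = 1 := by
      intro O
      unfold RswBc
      refine forall_congr' fun v => forall_congr' fun hv => forall_congr' fun _ => ?_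
      have := rswd11_spin (F := F) ⟨S, D, O⟩ hv
      rw [e1] at this
      rw [this]
      by_cases h : v ∈ S <;> simp [h]
    unfold rswWt
    simp only [hbc]
    by_cases hb : ∀ v ∈ cornersOf F, OnPolygon F v →
        atSpin (fun v : cornersOf F => decide (v.1 ∈ S)) v = 1
    · simp only [if_pos hb]
      exact rswd11_sum_O t S D
    · simp only [if_neg hb, Finset.sum_const_zero]
  simp only [h1]
  have h2 := rswd11_sum_powerset (cornersOf F) (fun τ => ∑ D ∈ F.powerset,
    (if IsAdmissibleSpins τ (fun f : F => decide (f.1 ∈ D))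
        then t ^ atDisagreements τ (fun f : F => decide (f.1 ∈ D)) else 0) *
        Y (τ, fun f : F => decide (f.1 ∈ D)))
  rw [h2]
  have h3 : ∀ τ : cornersOf F → Bool, ∑ D ∈ F.powerset,
    (if IsAdmissibleSpins τ (fun f : F => decide (f.1 ∈ D))
        then t ^ atDisagreements τ (fun f : F => decide (f.1 ∈ D)) else 0) *
        Y (τ, fun f : F => decide (f.1 ∈ D)) = ∑ τd : F → Bool,
      (if IsAdmissibleSpins τ τd then t ^ atDisagreements τ τd else 0) * Y (τ, τd) := fun τ =>
    rswd11_sum_powerset F (fun τd =>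
      (if IsAdmissibleSpins τ τd then t ^ atDisagreements τ τd else 0) * Y (τ, τd))
  simp only [h3]
  unfold at92Adm at92W
  rw [Finset.sum_filter, ← Finset.univ_product_univ, Finset.sum_product]
  refine Finset.sum_congr rfl fun τ _ => Finset.sum_congr rfl fun τd _ => ?_
  by_cases h : IsAdmissibleSpins τ τd <;> simp [h]

/-- expectations of functions of the two spin fields -/
theorem rswd11_E (t : ℝ) (F : Finset (ℤ × ℤ)) (Y : at92Cfg F → ℝ) :
    rswE t F true (fun ω => Y (rswTau F ω, rswTauD F ω)) =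
      (∑ p ∈ at92Adm F, at92W t p * Y p) / ∑ p ∈ at92Adm F, at92W t p := by
  unfold rswE
  rw [rswd11_sum t F Y]
  have h := rswd11_sum t F (fun _ => 1)
  simp only [mul_one] at h
  rw [h]

/-- **the frozen expectation is an expectation of the `(S, D, O)` model** -/
theorem rswd11_expect (t δ : ℝ) (F : Finset (ℤ × ℤ)) (φ : ℝ × ℝ → ℝ) (ψ : ℝ → ℝ) :
    atExpect t δ F φ ψ = rswE t F true
      (fun ω => ψ (δ ^ 2 * ∑ v ∈ cornersOf F, rswH F ω v * φ (δ * v.1, δ * v.2))) := by
  rw [at92_expect_eq]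
  exact (rswd11_E t F (fun p => ψ (at92X δ φ p))).symm

end

end Claimed.Agent.R292
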