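import Claimed.Agent.R292.Defs.MODEL
import Claimed.Agent.R291.Tool.MidAmp
import Claimed.Agent.R292.Model.DictM21
import Claimed.Agent.R292.Rsw.Dict11
import Claimed.Agent.R292.Rsw.Base122

/-!
# Row 292 (S0540), Rsw/MidSv151 : THE MIDPOINT INEQUALITY AND THE AMPLIFICATION FOR SIX-VERTEX HEIGHTS AT `c ≥ 1`      (owner helper151; prefix `msv151_` / `Msv151`)

Unit RSW (head 122), blocks R6a-R6c (MOM).  The amplification "central mass ⟹ all moments" of R291 (`Tool/MidAmp`: `MdpAmp`, `mdp_amp_one`, `mdp_amp_mom_div`; Klartag-Lehec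
midpoint inequality `mid_ineq_any`) needs `W s * W t ≤ W (midL s t) * W (midU s t)` on a carrier closed under the floor / ceiling midpoints.  The floor / ceiling midpoints of two
six-vertex heights `K` (steps `± 1`) are NOT heights.  They are in the coordinates `K u = 2 * x u + mdlRef u`:

* `msv151X`, `msv151K`           the change of coordinates;  `msv151_K_X`, `msv151_X_K`
* `msv151_ht_of_adm`             every admissible height of `Defs/MODEL` with a global boundary height is a global height (steps and parity)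
* `msv151_step`, `msv151_plaq`   integers: a step stays a step;  the number of type-c plaquettes does not decrease: both `c` ⟹ both `c`, exactly one `c` ⟹ exactly one `c`
* **`msv151_mid`**               closure of `mdlCfg A b` and `mdlWt c Q s * mdlWt c Q t ≤ mdlWt c Q L * mdlWt c Q U`, `1 ≤ c`, ANY `Q`, `A`
* **`msv151_amp`**               `c0 ≤ P(|Y| ≤ M)`, `∑ |w| ≤ M` ⟹ `E |Y| ^ p ≤ mdpC 1 c0 p * M ^ p` for `Y = ∑ w u * K u`, under `mdlEQ c Q A b`
* `msv151_tail`                  the same, exponential tail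

PART 2 (§7) = TOOLS OF THE BLOCK R6c MOM-PLANE (prefix `mpl151_`), in the vocabulary of `Defs/RSW`, ON THE CLASS OF DOMAINS `At92hExt` (exterior star connected; contains the Jordan sets, the boxes and the chambers of a stopped cut):
* `mpl151_dict`                  `rswE t F true (g (rswArr w (rswH F ·))) = mdlFz t⁻¹ F (g (msv151Y ..))` for EVERY `g`, `supp w ⊆ cornersOf F` (from `rswd11_expect` of 11 and `mdl21m_dict_ex` of 21, `δ = 1`, `φ = w ∘ floor`)
* `mpl151_cheb`                  Chebyshev for `rswE`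
* **`mpl151_amp_rsw`**           central mass ⟹ all moments for `rswE t F true`, `Y = rswArr w (rswH F ·)`
The block itself (stopped cut, `exit_rsw_mom_plane`, `exit_rsw_mom_smear`) is in `Rsw/CutStop151.lean`.
-/

set_option autoImplicit false

namespace Claimed.Agent.R292

open Finset Claimed.Agent.R291 Claims Claims.C0468

/-! ## 1. The coordinates -/

/-- `x = (K - par) / 2` -/
def msv151X (h : MdlS → ℤ) : MdlS → ℤ := fun u => (h u - mdlRef u) / 2

/-- `K = 2 x + par` -/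
def msv151K (x : MdlS → ℤ) : MdlS → ℤ := fun u => 2 * x u + mdlRef u

theorem msv151_eqns_cite : True := by
  have := @msv151X.eq_1
  have := @msv151K.eq_1
  trivial

theorem msv151_ref_cases (u : MdlS) : mdlRef u = 0 ∨ mdlRef u = 1 := by
  unfold mdlRef; omega

theorem msv151_ref_dir (u : MdlS) {d : MdlS} (hd : d ∈ mdlDirs) : mdlRef (u + d) = 1 - mdlRef u := by
  unfold mdlDirs at hd
  simp only [mem_insert, mem_singleton] at hd
  unfold mdlRef
  rcases hd with rfl | rfl | rfl | rfl <;> simp only [Prod.fst_add, Prod.snd_add] <;> omega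

theorem msv151_X_K (x : MdlS → ℤ) : msv151X (msv151K x) = x := by
  funext u
  show (2 * x u + mdlRef u - mdlRef u) / 2 = x u
  omega

theorem msv151_K_X {h : MdlS → ℤ} (hp : ∀ u : MdlS, (h u - (u.1 + u.2)) % 2 = 0) : msv151K (msv151X h) = h := by
  funext u
  have := hp u
  show 2 * ((h u - mdlRef u) / 2) + mdlRef u = h u
  unfold mdlRef
  omega

/-! ## 2. Admissible heights are global heights -/

theorem msv151_neg_dir {d : MdlS} (hd : d ∈ mdlDirs) : -d ∈ mdlDirs := by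
  unfold mdlDirs at hd ⊢
  simp only [mem_insert, mem_singleton] at hd ⊢
  rcases hd with rfl | rfl | rfl | rfl <;> simp

/-- steps `± 1` on every edge -/
theorem msv151_step_of_adm {A : Finset MdlS} {b h : MdlS → ℤ} (hb : MdlHt b) (hh : MdlAdm A b h) (u : MdlS) {d : MdlS}
    (hd : d ∈ mdlDirs) : |h (u + d) - h u| = 1 := by
  by_cases hu : u ∈ A
  · exact hh.2 u hu d hd
  · by_cases hv : u + d ∈ A
    · have := hh.2 (u + d) hv (-d) (msv151_neg_dir hd)
      rw [add_neg_cancel_right] at this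
      rw [abs_sub_comm]; exact this
    · rw [hh.1 u hu, hh.1 _ hv]; exact hb.1 u d hd

/-- parity along a horizontal ray which leaves `A` -/
theorem msv151_par_ray {A : Finset MdlS} {b h : MdlS → ℤ} (hb : MdlHt b) (hh : MdlAdm A b h) :
    ∀ (n : ℕ) (u : MdlS), u + ((n : ℤ), 0) ∉ A → (h u - (u.1 + u.2)) % 2 = 0 := by
  intro n
  induction n with
  | zero =>
    intro u hu
    have e : u + (((0 : ℕ) : ℤ), (0 : ℤ)) = u := by ext <;> simp
    rw [e] at hu
    rw [hh.1 u hu]; exact hb.2 u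
  | succ n ih =>
    intro u hu
    have e : u + (1, 0) + ((n : ℤ), (0 : ℤ)) = u + (((n + 1 : ℕ) : ℤ), (0 : ℤ)) := by
      ext
      · simp; ring
      · simp
    have h1 := ih (u + (1, 0)) (by rw [e]; exact hu)
    have h2 := msv151_step_of_adm hb hh u (d := (1, 0)) (by unfold mdlDirs; simp)
    rcases (abs_eq (zero_le_one)).1 h2 with h3 | h3 <;> simp only [Prod.fst_add, Prod.snd_add] at h1 <;> omega

theorem msv151_par_of_adm {A : Finset MdlS} {b h : MdlS → ℤ} (hb : MdlHt b) (hh : MdlAdm A b h) (u : MdlS) :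
    (h u - (u.1 + u.2)) % 2 = 0 := by
  -- a point of the ray outside the finite set `A`
  obtain ⟨n, hn⟩ : ∃ n : ℕ, u + ((n : ℤ), (0 : ℤ)) ∉ A := by
    by_contra hcon
    have hcon : ∀ n : ℕ, u + ((n : ℤ), (0 : ℤ)) ∈ A := fun n => by
      by_contra hn
      exact hcon ⟨n, hn⟩
    have hinj : Function.Injective fun n : ℕ => u + ((n : ℤ), (0 : ℤ)) := by
      intro n m hnm
      have := congrArg Prod.fst hnm
      simp only [Prod.fst_add] at this
      omega
    exact Set.infinite_range_of_injective hinj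
      (A.finite_toSet.subset (by rintro _ ⟨n, rfl⟩; exact hcon n))
  exact msv151_par_ray hb hh n u hn

theorem msv151_ht_of_adm {A : Finset MdlS} {b h : MdlS → ℤ} (hb : MdlHt b) (hh : MdlAdm A b h) : MdlHt h :=
  ⟨fun u _ hd => msv151_step_of_adm hb hh u hd, msv151_par_of_adm hb hh⟩

theorem msv151_adm_of_mem {A : Finset MdlS} {b h : MdlS → ℤ} (hh : h ∈ mdlCfg A b) : MdlAdm A b h := by
  unfold mdlCfg at hh
  split_ifs at hh with hf
  · exact hf.mem_toFinset.1 hh
  · exact absurd hh (notMem_empty _)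

theorem msv151_mem_of_adm {A : Finset MdlS} {b g h : MdlS → ℤ} (hg : g ∈ mdlCfg A b) (hh : MdlAdm A b h) : h ∈ mdlCfg A b := by
  unfold mdlCfg at hg ⊢
  split_ifs at hg ⊢ with hf
  · exact hf.mem_toFinset.2 hh
  · exact absurd hg (notMem_empty _)

/-! ## 3. Integers -/

/-- a step stays a step (`r` = parity of the first site) -/
theorem msv151_step (r a b a' b' : ℤ)
    (h : (2 * b + (1 - r)) - (2 * a + r) = 1 ∨ (2 * b + (1 - r)) - (2 * a + r) = -1)
    (h' : (2 * b' + (1 - r)) - (2 * a' + r) = 1 ∨ (2 * b' + (1 - r)) - (2 * a' + r) = -1) :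
    ((2 * ((b + b') / 2) + (1 - r)) - (2 * ((a + a') / 2) + r) = 1 ∨ (2 * ((b + b') / 2) + (1 - r)) - (2 * ((a + a') / 2) + r) = -1) ∧
    ((2 * ((b + b' + 1) / 2) + (1 - r)) - (2 * ((a + a' + 1) / 2) + r) = 1 ∨
      (2 * ((b + b' + 1) / 2) + (1 - r)) - (2 * ((a + a' + 1) / 2) + r) = -1) := by
  omega

/-- **the midpoint condition of one plaquette** in the coordinates `x`: sites `u v` of parity `r`, sites `f g` of parity `1 - r` -/
theorem msv151_plaq (r u f v g u' f' v' g' : ℤ)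
    (h1 : (2 * f + (1 - r)) - (2 * u + r) = 1 ∨ (2 * f + (1 - r)) - (2 * u + r) = -1)
    (h2 : (2 * f + (1 - r)) - (2 * v + r) = 1 ∨ (2 * f + (1 - r)) - (2 * v + r) = -1)
    (h3 : (2 * g + (1 - r)) - (2 * v + r) = 1 ∨ (2 * g + (1 - r)) - (2 * v + r) = -1)
    (h4 : (2 * g + (1 - r)) - (2 * u + r) = 1 ∨ (2 * g + (1 - r)) - (2 * u + r) = -1)
    (h1' : (2 * f' + (1 - r)) - (2 * u' + r) = 1 ∨ (2 * f' + (1 - r)) - (2 * u' + r) = -1)
    (h2' : (2 * f' + (1 - r)) - (2 * v' + r) = 1 ∨ (2 * f' + (1 - r)) - (2 * v' + r) = -1)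
    (h3' : (2 * g' + (1 - r)) - (2 * v' + r) = 1 ∨ (2 * g' + (1 - r)) - (2 * v' + r) = -1)
    (h4' : (2 * g' + (1 - r)) - (2 * u' + r) = 1 ∨ (2 * g' + (1 - r)) - (2 * u' + r) = -1) :
    (if u = v ∧ f = g then 1 else 0) + (if u' = v' ∧ f' = g' then (1 : ℕ) else 0)
      ≤ (if (u + u') / 2 = (v + v') / 2 ∧ (f + f') / 2 = (g + g') / 2 then 1 else 0)
        + (if (u + u' + 1) / 2 = (v + v' + 1) / 2 ∧ (f + f' + 1) / 2 = (g + g' + 1) / 2 then 1 else 0) := by
  split_ifs <;> omega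

/-! ## 4. The midpoint inequality -/

/-- lower midpoint of two heights -/
def msv151L (s t : MdlS → ℤ) : MdlS → ℤ := msv151K (midL (msv151X s) (msv151X t))

/-- upper midpoint of two heights -/
def msv151U (s t : MdlS → ℤ) : MdlS → ℤ := msv151K (midU (msv151X s) (msv151X t))

theorem msv151_eqns_cite2 : True := by
  have := @msv151L.eq_1
  have := @msv151U.eq_1
  trivial

theorem msv151_val {h : MdlS → ℤ} (hh : MdlHt h) (u : MdlS) : h u = 2 * msv151X h u + mdlRef u :=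
  (congrFun (msv151_K_X hh.2) u).symm

theorem msv151_L_apply (s t : MdlS → ℤ) (u : MdlS) : msv151L s t u = 2 * ((msv151X s u + msv151X t u) / 2) + mdlRef u := rfl

theorem msv151_U_apply (s t : MdlS → ℤ) (u : MdlS) : msv151U s t u = 2 * ((msv151X s u + msv151X t u + 1) / 2) + mdlRef u := rfl

theorem msv151_stepx {h : MdlS → ℤ} (hh : MdlHt h) (u : MdlS) {d : MdlS} (hd : d ∈ mdlDirs) :
    (2 * msv151X h (u + d) + (1 - mdlRef u)) - (2 * msv151X h u + mdlRef u) = 1 ∨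
      (2 * msv151X h (u + d) + (1 - mdlRef u)) - (2 * msv151X h u + mdlRef u) = -1 := by
  have h1 := hh.1 u d hd
  rw [msv151_val hh u, msv151_val hh (u + d), msv151_ref_dir u hd] at h1
  exact (abs_eq (zero_le_one)).1 h1

/-- the midpoints of two global heights are global heights -/
theorem msv151_ht_mid {s t : MdlS → ℤ} (hs : MdlHt s) (ht : MdlHt t) : MdlHt (msv151L s t) ∧ MdlHt (msv151U s t) := by
  refine ⟨⟨fun u d hd => ?_, fun u => ?_⟩, ⟨fun u d hd => ?_, fun u => ?_⟩⟩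
  · rw [msv151_L_apply, msv151_L_apply, msv151_ref_dir u hd]
    exact (abs_eq (zero_le_one)).2 (msv151_step _ _ _ _ _ (msv151_stepx hs u hd) (msv151_stepx ht u hd)).1
  · rw [msv151_L_apply]; unfold mdlRef; omega
  · rw [msv151_U_apply, msv151_U_apply, msv151_ref_dir u hd]
    exact (abs_eq (zero_le_one)).2 (msv151_step _ _ _ _ _ (msv151_stepx hs u hd) (msv151_stepx ht u hd)).2
  · rw [msv151_U_apply]; unfold mdlRef; omega

/-- the midpoints of two admissible heights are admissible -/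
theorem msv151_adm_mid {A : Finset MdlS} {b s t : MdlS → ℤ} (hb : MdlHt b) (hs : MdlAdm A b s) (ht : MdlAdm A b t) :
    MdlAdm A b (msv151L s t) ∧ MdlAdm A b (msv151U s t) := by
  have hs' := msv151_ht_of_adm hb hs
  have ht' := msv151_ht_of_adm hb ht
  obtain ⟨h1, h2⟩ := msv151_ht_mid hs' ht'
  refine ⟨⟨fun u hu => ?_, fun u _ d hd => h1.1 u d hd⟩, ⟨fun u hu => ?_, fun u _ d hd => h2.1 u d hd⟩⟩
  · have e1 := msv151_val hs' u
    have e2 := msv151_val ht' u
    rw [hs.1 u hu] at e1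
    rw [ht.1 u hu] at e2
    rw [msv151_L_apply]; omega
  · have e1 := msv151_val hs' u
    have e2 := msv151_val ht' u
    rw [hs.1 u hu] at e1
    rw [ht.1 u hu] at e2
    rw [msv151_U_apply]; omega

theorem msv151_ref_diag (p : MdlS) : mdlRef (p + (1, 1)) = mdlRef p := by
  unfold mdlRef; simp only [Prod.fst_add, Prod.snd_add]; omega

theorem msv151_ref_anti (p : MdlS) : mdlRef (p + (1, 0)) = mdlRef (p + (0, 1)) := by
  unfold mdlRef; simp only [Prod.fst_add, Prod.snd_add]; omega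

/-- type `c` in the coordinates `x` -/
theorem msv151_C_iff (x : MdlS → ℤ) (p : MdlS) :
    MdlC (msv151K x) p ↔ x p = x (p + (1, 1)) ∧ x (p + (1, 0)) = x (p + (0, 1)) := by
  unfold MdlC MdlD1 MdlD2
  show (2 * x p + mdlRef p = 2 * x (p + (1, 1)) + mdlRef (p + (1, 1)) ∧
    2 * x (p + (1, 0)) + mdlRef (p + (1, 0)) = 2 * x (p + (0, 1)) + mdlRef (p + (0, 1))) ↔ _
  rw [msv151_ref_diag, msv151_ref_anti]
  constructor
  · rintro ⟨h1, h2⟩; constructor <;> omega
  · rintro ⟨h1, h2⟩; constructor <;> omega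

theorem msv151_C_iff' {h : MdlS → ℤ} (hh : MdlHt h) (p : MdlS) :
    MdlC h p ↔ msv151X h p = msv151X h (p + (1, 1)) ∧ msv151X h (p + (1, 0)) = msv151X h (p + (0, 1)) := by
  rw [← msv151_C_iff, msv151_K_X hh.2]

/-- the four sides of a plaquette in the coordinates `x` -/
theorem msv151_sides {h : MdlS → ℤ} (hh : MdlHt h) (p : MdlS) :
    ((2 * msv151X h (p + (1, 0)) + (1 - mdlRef p)) - (2 * msv151X h p + mdlRef p) = 1 ∨
      (2 * msv151X h (p + (1, 0)) + (1 - mdlRef p)) - (2 * msv151X h p + mdlRef p) = -1) ∧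
    ((2 * msv151X h (p + (1, 0)) + (1 - mdlRef p)) - (2 * msv151X h (p + (1, 1)) + mdlRef p) = 1 ∨
      (2 * msv151X h (p + (1, 0)) + (1 - mdlRef p)) - (2 * msv151X h (p + (1, 1)) + mdlRef p) = -1) ∧
    ((2 * msv151X h (p + (0, 1)) + (1 - mdlRef p)) - (2 * msv151X h (p + (1, 1)) + mdlRef p) = 1 ∨
      (2 * msv151X h (p + (0, 1)) + (1 - mdlRef p)) - (2 * msv151X h (p + (1, 1)) + mdlRef p) = -1) ∧
    ((2 * msv151X h (p + (0, 1)) + (1 - mdlRef p)) - (2 * msv151X h p + mdlRef p) = 1 ∨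
      (2 * msv151X h (p + (0, 1)) + (1 - mdlRef p)) - (2 * msv151X h p + mdlRef p) = -1) := by
  have d1 : ((1, 0) : MdlS) ∈ mdlDirs := by unfold mdlDirs; simp
  have d2 : ((0, 1) : MdlS) ∈ mdlDirs := by unfold mdlDirs; simp
  have d3 : ((0, -1) : MdlS) ∈ mdlDirs := by unfold mdlDirs; simp
  have d4 : ((-1, 0) : MdlS) ∈ mdlDirs := by unfold mdlDirs; simp
  have e3 : p + (1, 1) + (0, -1) = p + (1, 0) := by ext <;> simp [add_assoc]
  have e4 : p + (1, 1) + (-1, 0) = p + (0, 1) := by ext <;> simp [add_assoc]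
  have h2 := msv151_stepx hh (p + (1, 1)) d3
  have h3 := msv151_stepx hh (p + (1, 1)) d4
  rw [e3, msv151_ref_diag] at h2
  rw [e4, msv151_ref_diag] at h3
  exact ⟨msv151_stepx hh p d1, h2, h3, msv151_stepx hh p d2⟩

/-- the number of type-c plaquettes does not decrease under the midpoints -/
theorem msv151_N_mid (Q : Finset MdlS) {s t : MdlS → ℤ} (hs : MdlHt s) (ht : MdlHt t) :
    mdlN Q s + mdlN Q t ≤ mdlN Q (msv151L s t) + mdlN Q (msv151U s t) := by
  classical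
  unfold mdlN
  rw [card_filter, card_filter, card_filter, card_filter, ← sum_add_distrib, ← sum_add_distrib]
  refine sum_le_sum fun p _ => ?_
  obtain ⟨a1, a2, a3, a4⟩ := msv151_sides hs p
  obtain ⟨b1, b2, b3, b4⟩ := msv151_sides ht p
  have key := msv151_plaq _ _ _ _ _ _ _ _ _ a1 a2 a3 a4 b1 b2 b3 b4
  have cL : MdlC (msv151L s t) p ↔ _ := msv151_C_iff (midL (msv151X s) (msv151X t)) p
  have cU : MdlC (msv151U s t) p ↔ _ := msv151_C_iff (midU (msv151X s) (msv151X t)) p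
  rw [if_congr (msv151_C_iff' hs p) rfl rfl, if_congr (msv151_C_iff' ht p) rfl rfl,
    if_congr cL rfl rfl, if_congr cU rfl rfl]
  exact key

/-- **THE MIDPOINT INEQUALITY OF THE SIX-VERTEX HEIGHTS**, `1 ≤ c` -/
theorem msv151_wt_mid {c : ℝ} (hc : 1 ≤ c) (Q : Finset MdlS) {s t : MdlS → ℤ} (hs : MdlHt s) (ht : MdlHt t) :
    mdlWt c Q s * mdlWt c Q t ≤ mdlWt c Q (msv151L s t) * mdlWt c Q (msv151U s t) := by
  unfold mdlWt
  rw [← pow_add, ← pow_add]
  exact pow_le_pow_right₀ hc (msv151_N_mid Q hs ht)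

/-- closure of the configurations and the midpoint inequality -/
theorem msv151_mid {c : ℝ} (hc : 1 ≤ c) (Q A : Finset MdlS) {b : MdlS → ℤ} (hb : MdlHt b) {s t : MdlS → ℤ}
    (hs : s ∈ mdlCfg A b) (ht : t ∈ mdlCfg A b) :
    msv151L s t ∈ mdlCfg A b ∧ msv151U s t ∈ mdlCfg A b ∧
      mdlWt c Q s * mdlWt c Q t ≤ mdlWt c Q (msv151L s t) * mdlWt c Q (msv151U s t) := by
  have hs' := msv151_adm_of_mem hs
  have ht' := msv151_adm_of_mem ht
  obtain ⟨h1, h2⟩ := msv151_adm_mid hb hs' ht'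
  exact ⟨msv151_mem_of_adm hs h1, msv151_mem_of_adm hs h2,
    msv151_wt_mid hc Q (msv151_ht_of_adm hb hs') (msv151_ht_of_adm hb ht')⟩

/-! ## 5. Rounding of a linear statistic -/

/-- the statistic `∑ w u * K u` -/
noncomputable def msv151Y (S : Finset MdlS) (w : MdlS → ℝ) (h : MdlS → ℤ) : ℝ := ∑ u ∈ S, w u * (h u : ℝ)

theorem msv151_eqns_cite3 : True := by
  have := @msv151Y.eq_1
  trivial

theorem msv151_round_L (S : Finset MdlS) (w : MdlS → ℝ) {s t : MdlS → ℤ} (hs : MdlHt s) (ht : MdlHt t) :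
    |msv151Y S w (msv151L s t) - (msv151Y S w s + msv151Y S w t) / 2| ≤ ∑ u ∈ S, |w u| := by
  have e : msv151Y S w (msv151L s t) - (msv151Y S w s + msv151Y S w t) / 2
      = ∑ u ∈ S, w u * ((msv151L s t u : ℝ) - ((s u : ℝ) + t u) / 2) := by
    unfold msv151Y
    rw [← sum_add_distrib, sum_div, ← sum_sub_distrib]
    exact sum_congr rfl fun u _ => by ring
  rw [e]
  refine (abs_sum_le_sum_abs _ _).trans (sum_le_sum fun u _ => ?_)
  rw [abs_mul]
  have h1 : 2 * msv151L s t u - (s u + t u) = 0 ∨ 2 * msv151L s t u - (s u + t u) = -2 := by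
    have e1 := msv151_val hs u
    have e2 := msv151_val ht u
    rw [msv151_L_apply]; omega
  have h2 : |(msv151L s t u : ℝ) - ((s u : ℝ) + t u) / 2| ≤ 1 := by
    rcases h1 with h1 | h1
    · have : (2 * (msv151L s t u : ℝ) - ((s u : ℝ) + t u)) = 0 := by exact_mod_cast h1
      rw [abs_le]; constructor <;> linarith
    · have : (2 * (msv151L s t u : ℝ) - ((s u : ℝ) + t u)) = -2 := by exact_mod_cast h1
      rw [abs_le]; constructor <;> linarith
  calc |w u| * |(msv151L s t u : ℝ) - ((s u : ℝ) + t u) / 2| ≤ |w u| * 1 := mul_le_mul_of_nonneg_left h2 (abs_nonneg _)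
    _ = |w u| := mul_one _

theorem msv151_round_U (S : Finset MdlS) (w : MdlS → ℝ) {s t : MdlS → ℤ} (hs : MdlHt s) (ht : MdlHt t) :
    |msv151Y S w (msv151U s t) - (msv151Y S w s + msv151Y S w t) / 2| ≤ ∑ u ∈ S, |w u| := by
  have e : msv151Y S w (msv151U s t) - (msv151Y S w s + msv151Y S w t) / 2
      = ∑ u ∈ S, w u * ((msv151U s t u : ℝ) - ((s u : ℝ) + t u) / 2) := by
    unfold msv151Y
    rw [← sum_add_distrib, sum_div, ← sum_sub_distrib]
    exact sum_congr rfl fun u _ => by ring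
  rw [e]
  refine (abs_sum_le_sum_abs _ _).trans (sum_le_sum fun u _ => ?_)
  rw [abs_mul]
  have h1 : 2 * msv151U s t u - (s u + t u) = 0 ∨ 2 * msv151U s t u - (s u + t u) = 2 := by
    have e1 := msv151_val hs u
    have e2 := msv151_val ht u
    rw [msv151_U_apply]; omega
  have h2 : |(msv151U s t u : ℝ) - ((s u : ℝ) + t u) / 2| ≤ 1 := by
    rcases h1 with h1 | h1
    · have : (2 * (msv151U s t u : ℝ) - ((s u : ℝ) + t u)) = 0 := by exact_mod_cast h1
      rw [abs_le]; constructor <;> linarith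
    · have : (2 * (msv151U s t u : ℝ) - ((s u : ℝ) + t u)) = 2 := by exact_mod_cast h1
      rw [abs_le]; constructor <;> linarith
  calc |w u| * |(msv151U s t u : ℝ) - ((s u : ℝ) + t u) / 2| ≤ |w u| * 1 := mul_le_mul_of_nonneg_left h2 (abs_nonneg _)
    _ = |w u| := mul_one _

/-! ## 6. The amplification -/

open Classical in
/-- sums over the configurations in the coordinates `x` -/
theorem msv151_sum_x (A : Finset MdlS) {b : MdlS → ℤ} (hb : MdlHt b) (f : (MdlS → ℤ) → ℝ) :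
    ∑ x ∈ (mdlCfg A b).image msv151X, f (msv151K x) = ∑ h ∈ mdlCfg A b, f h := by
  have hKX : ∀ h ∈ mdlCfg A b, msv151K (msv151X h) = h := fun h hh =>
    msv151_K_X (msv151_ht_of_adm hb (msv151_adm_of_mem hh)).2
  rw [sum_image]
  · exact sum_congr rfl fun h hh => by rw [hKX h hh]
  · intro h hh g hg e
    have e' : msv151X h = msv151X g := e
    rw [← hKX h hh, ← hKX g hg, e']

open Classical in
/-- the hypotheses of the amplification lemma of R291 hold for the six-vertex heights -/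
theorem msv151_mdpAmp {c : ℝ} (hc : 1 ≤ c) (Q A : Finset MdlS) {b : MdlS → ℤ} (hb : MdlHt b) (S : Finset MdlS) (w : MdlS → ℝ)
    {c0 M : ℝ} (hM : 0 < M) (hc0 : 0 < c0) (hA : ∑ u ∈ S, |w u| ≤ M)
    (hcen : c0 * ∑ h ∈ mdlCfg A b, mdlWt c Q h ≤ ∑ h ∈ mdlCfg A b with |msv151Y S w h| ≤ M, mdlWt c Q h) :
    MdpAmp ((mdlCfg A b).image msv151X) (fun x => mdlWt c Q (msv151K x)) (fun x => msv151Y S w (msv151K x)) (fun _ => ()) 1 c0 M := by
  have hc0' : (0 : ℝ) ≤ c := by linarith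
  have hKX : ∀ h ∈ mdlCfg A b, msv151K (msv151X h) = h := fun h hh =>
    msv151_K_X (msv151_ht_of_adm hb (msv151_adm_of_mem hh)).2
  refine mdp_amp_one (fun x _ => pow_nonneg hc0' _) hM hc0 ?_ ?_ ?_
  · intro x hx y hy _ _
    obtain ⟨s, hs, rfl⟩ := mem_image.1 hx
    obtain ⟨t, ht, rfl⟩ := mem_image.1 hy
    obtain ⟨m1, m2, m3⟩ := msv151_mid hc Q A hb hs ht
    refine ⟨mem_image.2 ⟨_, m1, msv151_X_K _⟩, mem_image.2 ⟨_, m2, msv151_X_K _⟩, ?_⟩
    simp only [hKX s hs, hKX t ht]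
    exact m3
  · intro x hx y hy _ _
    obtain ⟨s, hs, rfl⟩ := mem_image.1 hx
    obtain ⟨t, ht, rfl⟩ := mem_image.1 hy
    have hs' := msv151_ht_of_adm hb (msv151_adm_of_mem hs)
    have ht' := msv151_ht_of_adm hb (msv151_adm_of_mem ht)
    simp only [hKX s hs, hKX t ht]
    exact ⟨(msv151_round_L S w hs' ht').trans hA, (msv151_round_U S w hs' ht').trans hA⟩
  · rw [msv151_sum_x A hb (fun h => mdlWt c Q h), sum_filter,
      msv151_sum_x A hb (fun h => if |msv151Y S w h| ≤ M then mdlWt c Q h else 0), ← sum_filter]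
    exact hcen

open Classical in
/-- **CENTRAL MASS ⟹ ALL MOMENTS** for the six-vertex heights, `1 ≤ c`: any weighted plaquettes, any free set, any global boundary height -/
theorem msv151_amp {c : ℝ} (hc : 1 ≤ c) (Q A : Finset MdlS) {b : MdlS → ℤ} (hb : MdlHt b) (S : Finset MdlS) (w : MdlS → ℝ)
    {c0 M : ℝ} (hM : 0 < M) (hc0 : 0 < c0) (hA : ∑ u ∈ S, |w u| ≤ M)
    (hcen : c0 ≤ mdlEQ c Q A b (fun h => if |msv151Y S w h| ≤ M then 1 else 0)) (p : ℕ) :
    mdlEQ c Q A b (fun h => |msv151Y S w h| ^ p) ≤ mdpC 1 c0 p * M ^ p := by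
  have hC := mdpC_pos 1 c0 p
  have hcp : (0 : ℝ) ≤ c := by linarith
  have hZ0 : 0 ≤ mdlZQ c Q A b := sum_nonneg fun h _ => pow_nonneg hcp _
  rcases hZ0.eq_or_lt with hZ | hZ
  · unfold mdlEQ; rw [← hZ, div_zero]; positivity
  have hcen' : c0 * ∑ h ∈ mdlCfg A b, mdlWt c Q h ≤ ∑ h ∈ mdlCfg A b with |msv151Y S w h| ≤ M, mdlWt c Q h := by
    unfold mdlEQ at hcen
    rw [le_div_iff₀ hZ] at hcen
    refine hcen.trans (le_of_eq ?_)
    rw [sum_filter]
    refine sum_congr rfl fun h _ => ?_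
    beta_reduce
    by_cases h1 : |msv151Y S w h| ≤ M
    · rw [if_pos h1, if_pos h1, mul_one]
    · rw [if_neg h1, if_neg h1, mul_zero]
  have := mdp_amp_mom_div (msv151_mdpAmp hc Q A hb S w hM hc0 hA hcen') p
  rw [msv151_sum_x A hb (fun h => |msv151Y S w h| ^ p * mdlWt c Q h), msv151_sum_x A hb (fun h => mdlWt c Q h)] at this
  unfold mdlEQ mdlZQ
  calc (∑ h ∈ mdlCfg A b, mdlWt c Q h * |msv151Y S w h| ^ p) / ∑ h ∈ mdlCfg A b, mdlWt c Q h
      = (∑ h ∈ mdlCfg A b, |msv151Y S w h| ^ p * mdlWt c Q h) / ∑ h ∈ mdlCfg A b, mdlWt c Q h := by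
        congr 1; exact sum_congr rfl fun h _ => mul_comm _ _
    _ ≤ _ := this

open Classical in
/-- the same, exponential tail -/
theorem msv151_tail {c : ℝ} (hc : 1 ≤ c) (Q A : Finset MdlS) {b : MdlS → ℤ} (hb : MdlHt b) (S : Finset MdlS) (w : MdlS → ℝ)
    {c0 M : ℝ} (hM : 0 < M) (hc0 : 0 < c0) (hA : ∑ u ∈ S, |w u| ≤ M)
    (hcen : c0 ≤ mdlEQ c Q A b (fun h => if |msv151Y S w h| ≤ M then 1 else 0)) {r : ℝ} (hr : 0 ≤ r) :
    mdlEQ c Q A b (fun h => if r * M ≤ |msv151Y S w h| then 1 else 0) ≤ 4 * Real.exp (-(mdpRate 1 c0 * r)) := by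
  have hcp : (0 : ℝ) ≤ c := by linarith
  have hZ0 : 0 ≤ mdlZQ c Q A b := sum_nonneg fun h _ => pow_nonneg hcp _
  rcases hZ0.eq_or_lt with hZ | hZ
  · unfold mdlEQ; rw [← hZ, div_zero]; positivity
  have hcen' : c0 * ∑ h ∈ mdlCfg A b, mdlWt c Q h ≤ ∑ h ∈ mdlCfg A b with |msv151Y S w h| ≤ M, mdlWt c Q h := by
    unfold mdlEQ at hcen
    rw [le_div_iff₀ hZ] at hcen
    refine hcen.trans (le_of_eq ?_)
    rw [sum_filter]
    refine sum_congr rfl fun h _ => ?_
    beta_reduce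
    by_cases h1 : |msv151Y S w h| ≤ M
    · rw [if_pos h1, if_pos h1, mul_one]
    · rw [if_neg h1, if_neg h1, mul_zero]
  have := mdp_amp_tail (msv151_mdpAmp hc Q A hb S w hM hc0 hA hcen') hr
  rw [sum_filter, msv151_sum_x A hb (fun h => if r * M ≤ |msv151Y S w h| then mdlWt c Q h else 0),
    msv151_sum_x A hb (fun h => mdlWt c Q h)] at this
  unfold mdlEQ
  rw [div_le_iff₀ hZ]
  refine le_trans (le_of_eq ?_) this
  refine sum_congr rfl fun h _ => ?_
  beta_reduce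
  by_cases h1 : r * M ≤ |msv151Y S w h|
  · rw [if_pos h1, if_pos h1, mul_one]
  · rw [if_neg h1, if_neg h1, mul_zero]

/-! ## 7. R6c MOM-PLANE: tools -/

theorem mpl151_ref_ht : MdlHt mdlRef := by
  refine ⟨fun u d hd => ?_, fun u => ?_⟩
  · rw [msv151_ref_dir u hd]
    rcases msv151_ref_cases u with h | h <;> rw [h] <;> norm_num
  · unfold mdlRef; omega

theorem mpl151_box_mono (z : ℤ × ℤ) {n m : ℕ} (h : n ≤ m) : rswBox z n ⊆ rswBox z m := by
  intro v hv
  unfold rswBox at hv ⊢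
  simp only [mem_product, mem_Ico] at hv ⊢
  have : (n : ℤ) ≤ m := by exact_mod_cast h
  refine ⟨⟨?_, ?_⟩, ⟨?_, ?_⟩⟩ <;> omega

theorem mpl151_box_not_sub (z : ℤ × ℤ) (r : ℕ) : ¬ rswBox z (r + 1) ⊆ rswBox z r := by
  intro hc
  have h1 : (z.1 + r, z.2) ∈ rswBox z (r + 1) := by
    unfold rswBox
    simp only [mem_product, mem_Ico]
    push_cast
    refine ⟨⟨?_, ?_⟩, ⟨?_, ?_⟩⟩ <;> omega
  have h2 := hc h1
  unfold rswBox at h2
  simp only [mem_product, mem_Ico] at h2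
  omega

/-- **the dictionary for a statistic of the heights**: `(S, D, O)` model = six-vertex law of `Defs/MODEL` -/
theorem mpl151_dict {t : ℝ} (ht : 0 < t) {F : Finset (ℤ × ℤ)} (hF : At92hExt F) (w : (ℤ × ℤ) →₀ ℝ)
    (hw : w.support ⊆ cornersOf F) (g : ℝ → ℝ) :
    rswE t F true (fun ω => g (rswArr w (rswH F ω))) =
      mdlFz t⁻¹ F (fun h => g (msv151Y (w.support.image mdlV) (fun u => w (mdl21mU u) / 2) h)) := by
  set φ : ℝ × ℝ → ℝ := fun z => w (⌊z.1⌋, ⌊z.2⌋) with hφ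
  have hφv : ∀ v : ℤ × ℤ, φ (1 * (v.1 : ℝ), 1 * (v.2 : ℝ)) = w v := by
    intro v
    simp [hφ]
  have h1 := rswd11_expect t 1 F φ g
  have h2 := mdl21m_dict_ex (mdl21_ex_of_ext hF) ht.ne' 1 φ g
  rw [h1] at h2
  have e1 : ∀ ω, (1 : ℝ) ^ 2 * ∑ v ∈ cornersOf F, rswH F ω v * φ (1 * (v.1 : ℝ), 1 * (v.2 : ℝ)) = rswArr w (rswH F ω) := by
    intro ω
    unfold rswArr Finsupp.sum
    rw [one_pow, one_mul]
    symm
    refine (sum_subset hw fun v _ hv => ?_).trans (sum_congr rfl fun v _ => ?_)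
    · beta_reduce; rw [Finsupp.notMem_support_iff.1 hv, zero_mul]
    · beta_reduce; rw [hφv, mul_comm]
  have e2 : ∀ h : MdlS → ℤ, mdlSm 1 F φ h = msv151Y (w.support.image mdlV) (fun u => w (mdl21mU u) / 2) h := by
    intro h
    unfold mdlSm msv151Y
    rw [one_pow, one_mul, sum_image (fun a _ b _ hab => by
      have := congrArg mdl21mU hab
      rwa [mdl21m_U_V, mdl21m_U_V] at this)]
    symm
    refine (sum_subset hw fun v _ hv => ?_).trans (sum_congr rfl fun v _ => ?_)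
    · beta_reduce; rw [mdl21m_U_V, Finsupp.notMem_support_iff.1 hv]; ring
    · beta_reduce; rw [hφv, mdl21m_U_V]; ring
  simp only [e1, e2] at h2
  exact h2

open Classical in
/-- Chebyshev: second moment `≤ V`, `2 V ≤ M^2` ⟹ central mass `≥ 1/2` -/
theorem mpl151_cheb {t : ℝ} (h0 : 0 < t) (h1 : t ≤ 1) (F : Finset (ℤ × ℤ)) (b : Bool) (Y : RswCfg → ℝ) {V M : ℝ} (hM : 0 < M)
    (h2 : rswE t F b (fun ω => |Y ω| ^ 2) ≤ V) (hV : 2 * V ≤ M ^ 2) :
    1 / 2 ≤ rswE t F b (fun ω => if |Y ω| ≤ M then 1 else 0) := by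
  have hM2 : 0 < M ^ 2 := by positivity
  have hpt : ∀ ω, 1 - (1 / M ^ 2) * |Y ω| ^ 2 ≤ if |Y ω| ≤ M then (1 : ℝ) else 0 := by
    intro ω
    by_cases h : |Y ω| ≤ M
    · rw [if_pos h]
      have : 0 ≤ (1 / M ^ 2) * |Y ω| ^ 2 := by positivity
      linarith
    · rw [if_neg h]
      have h3 : M ^ 2 ≤ |Y ω| ^ 2 := pow_le_pow_left₀ hM.le (not_le.1 h).le 2
      have h4 : 1 ≤ (1 / M ^ 2) * |Y ω| ^ 2 := by
        rw [one_div, inv_mul_eq_div, le_div_iff₀ hM2]; linarith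
      linarith
  have h3 := rsz_E_mono h0.le h1 F b hpt
  rw [rsz_E_sub, rsz_E_const h0 h1, rsz_E_smul] at h3
  have h4 : (1 / M ^ 2) * rswE t F b (fun ω => |Y ω| ^ 2) ≤ 1 / 2 := by
    rw [one_div, inv_mul_eq_div, div_le_iff₀ hM2]; linarith
  linarith

open Classical in
/-- **CENTRAL MASS ⟹ ALL MOMENTS in the vocabulary of `Defs/RSW`** (flat PLUS problem of a set of faces of the class `At92hExt`, `0 < t ≤ 1`) -/
theorem mpl151_amp_rsw {t : ℝ} (ht0 : 0 < t) (ht1 : t ≤ 1) {F : Finset (ℤ × ℤ)} (hF : At92hExt F) (w : (ℤ × ℤ) →₀ ℝ)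
    (hsupp : w.support ⊆ cornersOf F) {c0 M : ℝ} (hM : 0 < M) (hc0 : 0 < c0) (hl1 : ∑ v ∈ w.support, |w v| ≤ 2 * M)
    (hcen : c0 ≤ rswE t F true (fun ω => if |rswArr w (rswH F ω)| ≤ M then 1 else 0)) (p : ℕ) :
    rswE t F true (fun ω => |rswArr w (rswH F ω)| ^ p) ≤ mdpC 1 c0 p * M ^ p := by
  have hc : (1 : ℝ) ≤ t⁻¹ := (one_le_inv₀ ht0).2 ht1
  obtain ⟨g, hg⟩ : ∃ g : ℝ → ℝ, ∀ y, g y = if |y| ≤ M then (1 : ℝ) else 0 := ⟨_, fun _ => rfl⟩
  have hcen' : c0 ≤ rswE t F true (fun ω => g (rswArr w (rswH F ω))) := by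
    simp only [hg]; exact hcen
  rw [mpl151_dict ht0 hF w hsupp g] at hcen'
  simp only [hg] at hcen'
  rw [mpl151_dict ht0 hF w hsupp (fun y => |y| ^ p)]
  have hl1' : ∑ u ∈ w.support.image mdlV, |(fun u => w (mdl21mU u) / 2) u| ≤ M := by
    rw [sum_image (fun a _ b _ hab => by
      have := congrArg mdl21mU hab
      rwa [mdl21m_U_V, mdl21m_U_V] at this)]
    have e : ∀ v ∈ w.support, |(fun u => w (mdl21mU u) / 2) (mdlV v)| = |w v| / 2 := by
      intro v _
      beta_reduce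
      rw [mdl21m_U_V, abs_div, abs_two]
    rw [sum_congr rfl e, ← sum_div]
    linarith
  exact msv151_amp hc (mdlQ F) (mdlDom F) mpl151_ref_ht (w.support.image mdlV) (fun u => w (mdl21mU u) / 2) hM hc0 hl1' hcen' p

end Claimed.Agent.R292
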