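import Claimed.Agent.R292.Rsw.Base122
import Claimed.Agent.R292.Rsw.DictHt11
import Claimed.Agent.R292.Rsw.MidSv151
import Claimed.Agent.R292.Model.DictM21
import Claimed.Agent.R291.Mom.Smear

/-!
# Row 292 (S0540), Rsw/MomSmear131 : BLOCK R6b MOM-SMEAR      (pen helper131; chief of MOM helper164; head of RSW helper122; prefix `msm131_`, `Msm131`)

Port of R291 `Mom/Smear` §B-§F to the flat laws `rswE t F true` of `Defs/RSW` on `ℤ²` (§A of R291 and `Tool/MidAmp` are model free: imported).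
`exit_rsw_mom_smear` (verbatim: `msm131_exit`) FROM TWO RECORDS:
* `Msm131Cov t`   (block R6a MOM-SHELL, pens 11 + 164; port of R291 `exit_mom_cov`): `|E[H(z) H(w)]| ≤ C (1 + log (n / max 1 |z - w|))`, sup norm, when `rswBox z (|z - w| + 1) ⊆ F`, `rswBox z n ⊄ F`;
* `Msm131Amp t`   (midpoint amplification, pen 151, `Rsw/MidSv151`): `supp w ⊆ cornersOf F`, central mass `1/2` in `{|Y| ≤ M}`, `∑ |w| ≤ M` ⟹ `E |Y|^p ≤ mdpC 1 (1/2) p * M^p`.
Chain: covariance ⟹ (`mom_sm_second`, layer cake, count `9 r²`) second moment ⟹ Chebyshev ⟹ amplification.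
§5 BRIDGE (free to cite): `msm131_bex : RswJordan F → Mdl21Ex F`; **`msm131_bE`**: `rswE t F true (Z ∘ rswH F) = mdlFz t⁻¹ F (fun h => Z (fun v => h (mdlV v) / 2))` for `Z` reading the corners of `F`; `msm131_bP` (events); `msm131_bFz`.
§7 E-VERSIONS on the class `At92hExt F` (chambers): `Msm131CovE`, `msm131_cov_of_E`, `msm131_ampX` / `msm131_zeroX` (one domain with `Mdl21Ex F`), **`msm131_exit_covE`**.
§6 **`msm131_amp : 0 < t → t ≤ 1 → Msm131Amp t`** (the second record is a THEOREM: `msv151_amp` through the bridge), **`msm131_exit_cov`** = `exit_rsw_mom_smear` from `Msm131Cov t` ALONE.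
-/

set_option autoImplicit false

namespace Claimed.Agent.R292

open Claims Claims.C0468 Claimed.Agent.R291 Finset

/-! ## 0. the records -/

/-- sup norm distance on `ℤ²` -/
def msm131Dist (z w : ℤ × ℤ) : ℕ := max (z.1 - w.1).natAbs (z.2 - w.2).natAbs

/-- RECORD of block R6a (MOM-SHELL): logarithmic covariance bound of the flat problem -/
def Msm131Cov (t : ℝ) : Prop :=
  ∃ C : ℝ, 0 < C ∧ ∀ (F : Finset (ℤ × ℤ)) (z w : ℤ × ℤ) (n : ℕ),
    RswJordan F → rswBox z (msm131Dist z w + 1) ⊆ F → ¬ rswBox z n ⊆ F →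
    |rswE t F true (fun ω => rswH F ω z * rswH F ω w)| ≤ C * (1 + Real.log ((n : ℝ) / max 1 (msm131Dist z w : ℝ)))

/-- RECORD of the midpoint amplification: central mass ⟹ all moments -/
def Msm131Amp (t : ℝ) : Prop :=
  ∀ (F : Finset (ℤ × ℤ)) (w : (ℤ × ℤ) →₀ ℝ) (M : ℝ), RswJordan F → w.support ⊆ cornersOf F → 0 < M → ∑ u ∈ w.support, |w u| ≤ M →
    1 / 2 ≤ rswP t F true (fun ω => |rswArr w (rswH F ω)| ≤ M) →
    ∀ p : ℕ, rswE t F true (fun ω => |rswArr w (rswH F ω)| ^ p) ≤ mdpC 1 (1 / 2) p * M ^ p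

/-! ## 1. the lattice -/

theorem msm131_mem_box {z u : ℤ × ℤ} {n : ℕ} :
    u ∈ rswBox z n ↔ z.1 - n ≤ u.1 ∧ u.1 < z.1 + n ∧ z.2 - n ≤ u.2 ∧ u.2 < z.2 + n := by
  unfold rswBox
  rw [Finset.mem_product, Finset.mem_Ico, Finset.mem_Ico]
  tauto

theorem msm131_box_mono (z : ℤ × ℤ) {m n : ℕ} (h : m ≤ n) : rswBox z m ⊆ rswBox z n := by
  intro u hu
  rw [msm131_mem_box] at hu ⊢
  omega

theorem msm131_box_sub {z z' : ℤ × ℤ} {m n : ℕ} (h : m + msm131Dist z z' ≤ n) : rswBox z m ⊆ rswBox z' n := by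
  intro u hu
  rw [msm131_mem_box] at hu ⊢
  unfold msm131Dist at h
  omega

theorem msm131_dist_comm (z w : ℤ × ℤ) : msm131Dist z w = msm131Dist w z := by
  unfold msm131Dist
  omega

theorem msm131_dist_of_mem {z0 z : ℤ × ℤ} {a : ℕ} (h : z ∈ rswBox z0 a) : msm131Dist z z0 ≤ a := by
  rw [msm131_mem_box] at h
  unfold msm131Dist
  omega

theorem msm131_dist_of_mem2 {z0 z i : ℤ × ℤ} {a : ℕ} (h : z ∈ rswBox z0 a) (h' : i ∈ rswBox z0 a) : msm131Dist z i + 1 ≤ 2 * a := by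
  rw [msm131_mem_box] at h h'
  unfold msm131Dist
  omega

/-- closed sup norm ball -/
noncomputable def msm131Ball (z : ℤ × ℤ) (r : ℕ) : Finset (ℤ × ℤ) :=
  Finset.Icc (z.1 - r) (z.1 + r) ×ˢ Finset.Icc (z.2 - r) (z.2 + r)

theorem msm131_ball_card (z : ℤ × ℤ) (r : ℕ) : (msm131Ball z r).card = (2 * r + 1) ^ 2 := by
  unfold msm131Ball
  rw [Finset.card_product, Int.card_Icc, Int.card_Icc, sq]
  congr 1 <;> omega

theorem msm131_mem_ball {z u : ℤ × ℤ} {r : ℕ} : u ∈ msm131Ball z r ↔ msm131Dist z u ≤ r := by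
  unfold msm131Ball msm131Dist
  rw [Finset.mem_product, Finset.mem_Icc, Finset.mem_Icc]
  omega

/-- the count hypothesis of the layer cake, sup norm, `Cb = 9` -/
theorem msm131_count (S : Finset (ℤ × ℤ)) (z : ℤ × ℤ) {r : ℝ} (hr : 1 ≤ r) :
    ((S.filter fun i => max 1 (msm131Dist z i : ℝ) ≤ r).card : ℝ) ≤ 9 * r ^ 2 := by
  have h1 : (S.filter fun i => max 1 (msm131Dist z i : ℝ) ≤ r) ⊆ msm131Ball z ⌊r⌋₊ := by
    intro i hi
    have := (Finset.mem_filter.1 hi).2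
    rw [msm131_mem_ball]
    exact Nat.le_floor ((le_max_right _ _).trans this)
  have h2 := (Finset.card_le_card h1).trans (msm131_ball_card z ⌊r⌋₊).le
  have h3 : ((⌊r⌋₊ : ℕ) : ℝ) ≤ r := Nat.floor_le (by linarith)
  calc ((S.filter fun i => max 1 (msm131Dist z i : ℝ) ≤ r).card : ℝ) ≤ (((2 * ⌊r⌋₊ + 1) ^ 2 : ℕ) : ℝ) := by exact_mod_cast h2
    _ = (2 * (⌊r⌋₊ : ℝ) + 1) ^ 2 := by push_cast; ring
    _ ≤ (3 * r) ^ 2 := pow_le_pow_left₀ (by positivity) (by linarith) 2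
    _ = 9 * r ^ 2 := by ring

/-! ## 2. second moment and Chebyshev for `rswE` -/

theorem msm131_arr_eq (w : (ℤ × ℤ) →₀ ℝ) (h : ℤ × ℤ → ℝ) : rswArr w h = ∑ v ∈ w.support, w v * h v := rfl

/-- the second moment of a linear statistic is the quadratic form of the covariance kernel -/
theorem msm131_E_sq (t : ℝ) (F : Finset (ℤ × ℤ)) (b : Bool) (w : (ℤ × ℤ) →₀ ℝ) :
    rswE t F b (fun ω => (rswArr w (rswH F ω)) ^ 2) =
      ∑ z ∈ w.support, ∑ i ∈ w.support, w z * w i * rswE t F b (fun ω => rswH F ω z * rswH F ω i) := by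
  have e : (fun ω : RswCfg => (rswArr w (rswH F ω)) ^ 2) =
      fun ω => ∑ z ∈ w.support, ∑ i ∈ w.support, (w z * w i) * (rswH F ω z * rswH F ω i) := by
    funext ω
    rw [msm131_arr_eq, sq, Finset.sum_mul_sum]
    exact Finset.sum_congr rfl fun z _ => Finset.sum_congr rfl fun i _ => by ring
  rw [e, rsz_E_fsum]
  refine Finset.sum_congr rfl fun z _ => ?_
  rw [rsz_E_fsum]
  exact Finset.sum_congr rfl fun i _ => rsz_E_smul t F b _ _

/-- Chebyshev: central mass `1/2` -/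
theorem msm131_cheb {t : ℝ} (h0 : 0 < t) (h1 : t ≤ 1) (F : Finset (ℤ × ℤ)) (b : Bool) (Y : RswCfg → ℝ) {V M : ℝ} (hM : 0 < M)
    (h2 : rswE t F b (fun ω => Y ω ^ 2) ≤ V) (hV : 2 * V ≤ M ^ 2) : 1 / 2 ≤ rswP t F b (fun ω => |Y ω| ≤ M) := by
  classical
  have hc := rsz_P_compl h0 h1 F b (fun ω => |Y ω| ≤ M)
  have h3 : rswP t F b (fun ω => ¬ |Y ω| ≤ M) ≤ rswE t F b (fun ω => (1 / M ^ 2) * Y ω ^ 2) := by
    rw [rsz_P_def]
    refine rsz_E_mono h0.le h1 F b fun ω => ?_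
    have hM2 : 0 < M ^ 2 := by positivity
    by_cases hY : |Y ω| ≤ M
    · rw [if_neg (not_not.2 hY)]
      positivity
    · rw [if_pos hY, one_div, inv_mul_eq_div, le_div_iff₀ hM2, one_mul, ← sq_abs (Y ω)]
      exact pow_le_pow_left₀ hM.le (not_le.1 hY).le 2
  rw [rsz_E_smul] at h3
  have hM2 : 0 < M ^ 2 := by positivity
  have h4 : 1 / M ^ 2 * rswE t F b (fun ω => Y ω ^ 2) ≤ 1 / 2 := by
    rw [one_div, inv_mul_eq_div, div_le_iff₀ hM2]
    linarith
  linarith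

/-! ## 3. the covariance bound on the box of the smearing -/

theorem msm131_cov_box {t C0 : ℝ} (hC0 : 0 < C0)
    (H : ∀ (F : Finset (ℤ × ℤ)) (z w : ℤ × ℤ) (n : ℕ),
      RswJordan F → rswBox z (msm131Dist z w + 1) ⊆ F → ¬ rswBox z n ⊆ F →
      |rswE t F true (fun ω => rswH F ω z * rswH F ω w)| ≤ C0 * (1 + Real.log ((n : ℝ) / max 1 (msm131Dist z w : ℝ))))
    {F : Finset (ℤ × ℤ)} {z0 : ℤ × ℤ} {a n : ℕ} (hJ : RswJordan F) (ha : 1 ≤ a) (hbox : rswBox z0 (3 * a) ⊆ F)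
    (hn : ¬ rswBox z0 n ⊆ F) :
    3 * a < n ∧ ∀ z ∈ rswBox z0 a, ∀ i ∈ rswBox z0 a,
      |rswE t F true (fun ω => rswH F ω z * rswH F ω i)| ≤ 2 * C0 * (1 + Real.log ((n : ℝ) / max 1 (msm131Dist z i : ℝ))) := by
  have hn3 : 3 * a < n := by
    by_contra hc
    exact hn ((msm131_box_mono z0 (not_lt.1 hc)).trans hbox)
  refine ⟨hn3, fun z hz i hi => ?_⟩
  have hzi := msm131_dist_of_mem2 hz hi
  have hz0 := msm131_dist_of_mem hz
  have h2 := H F z i (n + a) hJ ((msm131_box_sub (by omega)).trans hbox)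
    (fun hc => hn ((msm131_box_sub (by rw [msm131_dist_comm z0 z]; omega)).trans hc))
  refine h2.trans ?_
  set bb : ℝ := max 1 (msm131Dist z i : ℝ) with hbb
  have hbb1 : 1 ≤ bb := le_max_left _ _
  have hbb0 : 0 < bb := by linarith
  have hnR : (0:ℝ) < n := by exact_mod_cast (by omega : 0 < n)
  have hbn : bb ≤ n := by
    refine max_le (by exact_mod_cast (by omega : 1 ≤ n)) ?_
    exact_mod_cast (by omega : msm131Dist z i ≤ n)
  have hl : 0 ≤ Real.log ((n : ℝ) / bb) := Real.log_nonneg ((one_le_div hbb0).2 hbn)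
  have h3 : Real.log (((n + a : ℕ) : ℝ) / bb) ≤ 1 + Real.log ((n : ℝ) / bb) := by
    have e1 : ((n + a : ℕ) : ℝ) / bb ≤ 2 * ((n : ℝ) / bb) := by
      rw [← mul_div_assoc]
      refine div_le_div_of_nonneg_right ?_ hbb0.le
      have : ((n + a : ℕ) : ℝ) ≤ ((2 * n : ℕ) : ℝ) := by exact_mod_cast (by omega : n + a ≤ 2 * n)
      push_cast at this ⊢; linarith
    have e2 : Real.log (2 * ((n : ℝ) / bb)) = Real.log 2 + Real.log ((n : ℝ) / bb) :=
      Real.log_mul (by norm_num) (by positivity)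
    have e3 : Real.log 2 ≤ 1 := by have := Real.log_two_lt_d9; linarith
    have e4 : Real.log (((n + a : ℕ) : ℝ) / bb) ≤ Real.log (2 * ((n : ℝ) / bb)) :=
      Real.log_le_log (by positivity) e1
    linarith
  nlinarith

/-! ## 4. the smearing bound -/

/-- Prop. 3.6 of R291 on `ℤ²`, flat law, from the covariance bound on the box of the smearing -/
theorem msm131_zero {t : ℝ} (h0 : 0 < t) (h1 : t ≤ 1) (hamp : Msm131Amp t) {C1 : ℝ} (hC1 : 0 ≤ C1) {F : Finset (ℤ × ℤ)}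
    (hJ : RswJordan F) {z0 : ℤ × ℤ} {a : ℕ} {n Aw : ℝ} {w : (ℤ × ℤ) →₀ ℝ} (ha : 1 ≤ a) (hAw : 0 < Aw) (hw : RswSm z0 a Aw w)
    (hin : rswBox z0 a ⊆ F) (han : (a : ℝ) ≤ n)
    (hcov : ∀ z ∈ rswBox z0 a, ∀ i ∈ rswBox z0 a,
      |rswE t F true (fun ω => rswH F ω z * rswH F ω i)| ≤ C1 * (1 + Real.log (n / max 1 (msm131Dist z i : ℝ)))) (p : ℕ) :
    rswE t F true (fun ω => |rswArr w (rswH F ω)| ^ p) ≤ mdpC 1 (1 / 2) p * momM C1 Aw (Real.log (n / a)) ^ p := by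
  have ha1 : (1 : ℝ) ≤ a := by exact_mod_cast ha
  have ha0 : (0 : ℝ) < a := by linarith
  have hL : 0 ≤ Real.log (n / a) := Real.log_nonneg ((one_le_div ha0).2 han)
  set L := Real.log (n / a) with hLdef
  have h2 : rswE t F true (fun ω => (rswArr w (rswH F ω)) ^ 2) ≤ C1 * (1 + 9) * Aw ^ 2 * (1 + L) := by
    rw [msm131_E_sq]
    exact (le_abs_self _).trans (mom_sm_second w.support w (fun z i => max 1 (msm131Dist z i : ℝ))
      (fun z i => rswE t F true (fun ω => rswH F ω z * rswH F ω i)) ha1 han hAw.le hC1 (by norm_num) (fun z _ i _ => le_max_left _ _)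
      hw.l1 (fun i _ => by rw [le_div_iff₀ (by positivity)]; exact hw.sup i) (fun z _ r hr => msm131_count _ z hr)
      (fun z hz i hi => hcov z (hw.supp hz) i (hw.supp hi)))
  have hs1 : 1 ≤ Real.sqrt (20 * C1 + 1) := by
    rw [Real.one_le_sqrt]; linarith
  have hs2 : Real.sqrt (20 * C1 + 1) ^ 2 = 20 * C1 + 1 := Real.sq_sqrt (by linarith)
  have hs3 : Real.sqrt L ^ 2 = L := Real.sq_sqrt hL
  have hs4 : 0 ≤ Real.sqrt L := Real.sqrt_nonneg _
  have hM : 0 < momM C1 Aw L := by unfold momM; positivity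
  refine hamp F w _ hJ (fun u hu => rsz_face_corner (hin (hw.supp hu))) hM ?_ (msm131_cheb h0 h1 F true _ hM h2 ?_) p
  · have : Aw * 1 * 1 ≤ momM C1 Aw L := by
      unfold momM
      exact mul_le_mul (mul_le_mul_of_nonneg_left hs1 hAw.le) (by linarith) (by norm_num) (by positivity)
    have h3 := hw.l1
    linarith
  · unfold momM
    rw [mul_pow, mul_pow, hs2]
    have h4 : 1 + L ≤ (1 + Real.sqrt L) ^ 2 := by nlinarith
    have h5 : 0 ≤ Aw ^ 2 * (20 * C1 + 1) := by positivity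
    calc 2 * (C1 * (1 + 9) * Aw ^ 2 * (1 + L)) ≤ Aw ^ 2 * (20 * C1 + 1) * (1 + L) := by
          have : 0 ≤ Aw ^ 2 * (1 + L) := by positivity
          nlinarith
      _ ≤ _ := mul_le_mul_of_nonneg_left h4 h5

/-- **`exit_rsw_mom_smear` from the two records** (verbatim the statement of `Exit/RSW.lean`) -/
theorem msm131_exit (t : ℝ) (ht1 : 1 / 2 ≤ t) (ht2 : t < 1) (hcov : Msm131Cov t) (hamp : Msm131Amp t) (p : ℕ) :
    ∃ C : ℝ, 0 < C ∧ ∀ (F : Finset (ℤ × ℤ)) (z0 : ℤ × ℤ) (a n : ℕ) (A : ℝ) (w : (ℤ × ℤ) →₀ ℝ),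
      RswJordan F → 1 ≤ a → rswBox z0 (3 * a) ⊆ F → ¬ rswBox z0 n ⊆ F → RswSm z0 a A w →
      rswE t F true (fun ω => |rswArr w (rswH F ω)| ^ p) ≤
        (C * A * (1 + Real.sqrt (Real.log ((n : ℝ) / a)))) ^ p := by
  have h0 : 0 < t := by linarith
  obtain ⟨C0, hC0, H⟩ := hcov
  set m : ℝ := max 1 (mdpC 1 (1 / 2) p) with hm
  have hm1 : 1 ≤ m := le_max_left _ _
  set s : ℝ := Real.sqrt (20 * (2 * C0) + 1) with hs
  have hs1 : 1 ≤ s := by rw [hs, Real.one_le_sqrt]; linarith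
  refine ⟨m * s, by positivity, fun F z0 a n A w hJ ha hbox hn hw => ?_⟩
  rcases Nat.eq_zero_or_pos p with rfl | hp
  · simp only [pow_zero]; exact (rsz_E_const h0 ht2.le F true 1).le
  obtain ⟨hn3, hcv⟩ := msm131_cov_box hC0 H hJ ha hbox hn
  have hA0 : 0 ≤ A := (Finset.sum_nonneg fun u _ => abs_nonneg (w u)).trans hw.l1
  set L := Real.log ((n : ℝ) / a) with hL
  have hsq : 0 ≤ Real.sqrt L := Real.sqrt_nonneg _
  rcases hA0.eq_or_lt with hA | hA
  · -- `A = 0`: the statistic vanishes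
    have hw0 : w = 0 := by
      ext u
      have h1 := hw.sup u
      rw [← hA] at h1
      have h2 : (0:ℝ) < (a : ℝ) ^ 2 := by positivity
      have h3 : |w u| ≤ 0 := by
        by_contra hc
        have := mul_pos (not_le.1 hc) h2
        linarith
      simpa using abs_nonpos_iff.1 h3
    have : (fun ω : RswCfg => |rswArr w (rswH F ω)| ^ p) = fun _ => 0 := by
      funext ω
      rw [hw0]
      simp [rswArr, hp.ne']
    rw [this, rsz_E_const h0 ht2.le F true 0]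
    positivity
  have han : (a : ℝ) ≤ n := by exact_mod_cast (by omega : a ≤ n)
  have key := msm131_zero h0 ht2.le hamp (by positivity : (0:ℝ) ≤ 2 * C0) hJ ha hA hw
    ((msm131_box_mono z0 (by omega)).trans hbox) han hcv p
  refine key.trans ?_
  have e2 : mdpC 1 (1 / 2) p ≤ m ^ p := (le_max_right _ _).trans (le_self_pow₀ hm1 hp.ne')
  have e3 : momM (2 * C0) A L = s * A * (1 + Real.sqrt L) := by unfold momM; ring
  rw [e3]
  calc mdpC 1 (1 / 2) p * (s * A * (1 + Real.sqrt L)) ^ p ≤ m ^ p * (s * A * (1 + Real.sqrt L)) ^ p :=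
        mul_le_mul_of_nonneg_right e2 (by positivity)
    _ = (m * s * A * (1 + Real.sqrt L)) ^ p := by rw [← mul_pow]; congr 1; ring

/-! ## 5. the flat law `rswE t F true` of `Defs/RSW` is the frozen height law `mdlFz t⁻¹ F` of `Defs/MODEL` -/

theorem msm131_bex {F : Finset (ℤ × ℤ)} (hJ : RswJordan F) : Mdl21Ex F := by
  obtain ⟨γ, h1, -, h3⟩ := hJ
  have hc : IsPreconnected (frontier (faceRegionSq 1 F)) := by
    rw [← h3]
    exact isPreconnected_range h1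
  exact mdl21_ex_of_ext fun S a b c => at92h_ext_conn one_pos F hc S a b c

/-- the frozen height law as a sum over the heights of `Dict21` -/
theorem msm131_bFz {F : Finset (ℤ × ℤ)} (hex : Mdl21Ex F) (c : ℝ) (G : (MdlS → ℤ) → ℝ) :
    mdlFz c F G = (∑ K ∈ mdl21Hts F, c ^ mdl21NC F K * G (mdl21mH F K)) / ∑ K ∈ mdl21Hts F, c ^ mdl21NC F K := by
  unfold mdlFz mdlEQ mdlZQ mdlWt
  rw [mdl21m_sum hex, mdl21m_sum hex]
  simp only [mdl21m_N]

/-- **the bridge** -/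
theorem msm131_bE {t : ℝ} (ht : t ≠ 0) {F : Finset (ℤ × ℤ)} (hex : Mdl21Ex F) (Z : (ℤ × ℤ → ℝ) → ℝ)
    (hZ : ∀ h h' : ℤ × ℤ → ℝ, (∀ v ∈ cornersOf F, h v = h' v) → Z h = Z h') :
    rswE t F true (fun ω => Z (rswH F ω)) = mdlFz t⁻¹ F (fun h => Z (fun v => (h (mdlV v) : ℝ) / 2)) := by
  rw [rswd11_E_H ht hex Z hZ, msm131_bFz hex]
  simp only [mdl21m_H_V]

open Classical in
theorem msm131_bP {t : ℝ} (ht : t ≠ 0) {F : Finset (ℤ × ℤ)} (hex : Mdl21Ex F) (L : (ℤ × ℤ → ℝ) → Prop)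
    (hL : ∀ h h' : ℤ × ℤ → ℝ, (∀ v ∈ cornersOf F, h v = h' v) → (L h ↔ L h')) :
    rswP t F true (fun ω => L (rswH F ω)) = mdlFz t⁻¹ F (fun h => if L (fun v => (h (mdlV v) : ℝ) / 2) then 1 else 0) := by
  rw [rsz_P_def]
  exact msm131_bE ht hex (fun h => if L h then 1 else 0) fun h h' hh => by simp only [hL h h' hh]

/-- the statistic reads the corners of `F` only -/
theorem msm131_barr_loc {F : Finset (ℤ × ℤ)} {w : (ℤ × ℤ) →₀ ℝ} (hw : w.support ⊆ cornersOf F) {h h' : ℤ × ℤ → ℝ}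
    (hh : ∀ v ∈ cornersOf F, h v = h' v) : rswArr w h = rswArr w h' := by
  rw [msm131_arr_eq, msm131_arr_eq]
  exact Finset.sum_congr rfl fun v hv => by rw [hh v (hw hv)]


/-! ## 6. the record `Msm131Amp` is a theorem (`msv151_amp` of helper151 through the bridge) -/

theorem msm131_ref_ht : MdlHt mdlRef := by
  refine ⟨fun u d hd => ?_, fun u => ?_⟩
  · rw [msv151_ref_dir u hd]
    rcases msv151_ref_cases u with h | h <;> rw [h] <;> norm_num
  · unfold mdlRef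
    omega

/-- the weights in the coordinates of `Defs/MODEL` -/
noncomputable def msm131W (w : (ℤ × ℤ) →₀ ℝ) : MdlS → ℝ := fun u => w (mdl21mU u) / 2

open Classical in
theorem msm131_Y (w : (ℤ × ℤ) →₀ ℝ) (h : MdlS → ℤ) :
    msv151Y (w.support.image mdlV) (msm131W w) h = rswArr w (fun v => (h (mdlV v) : ℝ) / 2) := by
  unfold msv151Y msm131W
  rw [Finset.sum_image (fun a _ b _ e => mdl21m_V_inj e), msm131_arr_eq]
  refine Finset.sum_congr rfl fun v _ => ?_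
  rw [mdl21m_U_V]
  ring

open Classical in
theorem msm131_W_sum (w : (ℤ × ℤ) →₀ ℝ) :
    ∑ u ∈ w.support.image mdlV, |msm131W w u| = (∑ v ∈ w.support, |w v|) / 2 := by
  unfold msm131W
  rw [Finset.sum_image (fun a _ b _ e => mdl21m_V_inj e), Finset.sum_div]
  refine Finset.sum_congr rfl fun v _ => ?_
  rw [mdl21m_U_V, abs_div, abs_two]

/-- **the amplification record holds** -/
theorem msm131_amp {t : ℝ} (h0 : 0 < t) (h1 : t ≤ 1) : Msm131Amp t := by
  classical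
  intro F w M hJ hw hM hsum hcen p
  have hex := msm131_bex hJ
  have hc : 1 ≤ t⁻¹ := (one_le_inv₀ h0).2 h1
  have hloc : ∀ h h' : ℤ × ℤ → ℝ, (∀ v ∈ cornersOf F, h v = h' v) → rswArr w h = rswArr w h' :=
    fun h h' hh => msm131_barr_loc hw hh
  have e1 := msm131_bE h0.ne' hex (fun h => |rswArr w h| ^ p) (fun h h' hh => by simp only [hloc h h' hh])
  have e2 := msm131_bP h0.ne' hex (fun h => |rswArr w h| ≤ M) (fun h h' hh => by simp only [hloc h h' hh])
  rw [e1]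
  rw [e2] at hcen
  simp only [← msm131_Y] at hcen ⊢
  have hs0 : 0 ≤ ∑ v ∈ w.support, |w v| := Finset.sum_nonneg fun v _ => abs_nonneg _
  exact msv151_amp hc (mdlQ F) (mdlDom F) msm131_ref_ht _ _ hM (by norm_num)
    (by rw [msm131_W_sum]; linarith) hcen p

/-- **`exit_rsw_mom_smear` from the covariance record alone** -/
theorem msm131_exit_cov (t : ℝ) (ht1 : 1 / 2 ≤ t) (ht2 : t < 1) (hcov : Msm131Cov t) (p : ℕ) :
    ∃ C : ℝ, 0 < C ∧ ∀ (F : Finset (ℤ × ℤ)) (z0 : ℤ × ℤ) (a n : ℕ) (A : ℝ) (w : (ℤ × ℤ) →₀ ℝ),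
      RswJordan F → 1 ≤ a → rswBox z0 (3 * a) ⊆ F → ¬ rswBox z0 n ⊆ F → RswSm z0 a A w →
      rswE t F true (fun ω => |rswArr w (rswH F ω)| ^ p) ≤
        (C * A * (1 + Real.sqrt (Real.log ((n : ℝ) / a)))) ^ p :=
  msm131_exit t ht1 ht2 hcov (msm131_amp (by linarith) ht2.le) p

/-! ## 7. the E-versions: the class `At92hExt F` (chambers of a stopped cut) in place of `RswJordan F`      (request of helper151) -/

theorem msm131_ext_of_jordan {F : Finset (ℤ × ℤ)} (hJ : RswJordan F) : At92hExt F := by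
  obtain ⟨γ, h1, -, h3⟩ := hJ
  intro S a b c
  refine at92h_ext_conn one_pos F ?_ S a b c
  rw [← h3]
  exact isPreconnected_range h1

/-- RECORD of block R6a on the class `At92hExt` -/
def Msm131CovE (t : ℝ) : Prop :=
  ∃ C : ℝ, 0 < C ∧ ∀ (F : Finset (ℤ × ℤ)) (z w : ℤ × ℤ) (n : ℕ),
    At92hExt F → rswBox z (msm131Dist z w + 1) ⊆ F → ¬ rswBox z n ⊆ F →
    |rswE t F true (fun ω => rswH F ω z * rswH F ω w)| ≤ C * (1 + Real.log ((n : ℝ) / max 1 (msm131Dist z w : ℝ)))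

theorem msm131_cov_of_E {t : ℝ} (h : Msm131CovE t) : Msm131Cov t := by
  obtain ⟨C, hC, H⟩ := h
  exact ⟨C, hC, fun F z w n hJ => H F z w n (msm131_ext_of_jordan hJ)⟩

/-- the amplification for one domain where the heights exist -/
theorem msm131_ampX {t : ℝ} (h0 : 0 < t) (h1 : t ≤ 1) {F : Finset (ℤ × ℤ)} (hex : Mdl21Ex F) (w : (ℤ × ℤ) →₀ ℝ) (M : ℝ)
    (hw : w.support ⊆ cornersOf F) (hM : 0 < M) (hsum : ∑ u ∈ w.support, |w u| ≤ M)
    (hcen : 1 / 2 ≤ rswP t F true (fun ω => |rswArr w (rswH F ω)| ≤ M)) (p : ℕ) :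
    rswE t F true (fun ω => |rswArr w (rswH F ω)| ^ p) ≤ mdpC 1 (1 / 2) p * M ^ p := by
  classical
  have hc : 1 ≤ t⁻¹ := (one_le_inv₀ h0).2 h1
  have hloc : ∀ h h' : ℤ × ℤ → ℝ, (∀ v ∈ cornersOf F, h v = h' v) → rswArr w h = rswArr w h' :=
    fun h h' hh => msm131_barr_loc hw hh
  have e1 := msm131_bE h0.ne' hex (fun h => |rswArr w h| ^ p) (fun h h' hh => by simp only [hloc h h' hh])
  have e2 := msm131_bP h0.ne' hex (fun h => |rswArr w h| ≤ M) (fun h h' hh => by simp only [hloc h h' hh])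
  rw [e1]
  rw [e2] at hcen
  simp only [← msm131_Y] at hcen ⊢
  have hs0 : 0 ≤ ∑ v ∈ w.support, |w v| := Finset.sum_nonneg fun v _ => abs_nonneg _
  exact msv151_amp hc (mdlQ F) (mdlDom F) msm131_ref_ht _ _ hM (by norm_num)
    (by rw [msm131_W_sum]; linarith) hcen p

/-- the covariance bound on the box of the smearing, class `At92hExt` -/
theorem msm131_cov_boxE {t C0 : ℝ} (hC0 : 0 < C0)
    (H : ∀ (F : Finset (ℤ × ℤ)) (z w : ℤ × ℤ) (n : ℕ),
      At92hExt F → rswBox z (msm131Dist z w + 1) ⊆ F → ¬ rswBox z n ⊆ F →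
      |rswE t F true (fun ω => rswH F ω z * rswH F ω w)| ≤ C0 * (1 + Real.log ((n : ℝ) / max 1 (msm131Dist z w : ℝ))))
    {F : Finset (ℤ × ℤ)} {z0 : ℤ × ℤ} {a n : ℕ} (hJ : At92hExt F) (ha : 1 ≤ a) (hbox : rswBox z0 (3 * a) ⊆ F)
    (hn : ¬ rswBox z0 n ⊆ F) :
    3 * a < n ∧ ∀ z ∈ rswBox z0 a, ∀ i ∈ rswBox z0 a,
      |rswE t F true (fun ω => rswH F ω z * rswH F ω i)| ≤ 2 * C0 * (1 + Real.log ((n : ℝ) / max 1 (msm131Dist z i : ℝ))) := by
  have hn3 : 3 * a < n := by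
    by_contra hc
    exact hn ((msm131_box_mono z0 (not_lt.1 hc)).trans hbox)
  refine ⟨hn3, fun z hz i hi => ?_⟩
  have hzi := msm131_dist_of_mem2 hz hi
  have hz0 := msm131_dist_of_mem hz
  have h2 := H F z i (n + a) hJ ((msm131_box_sub (by omega)).trans hbox)
    (fun hc => hn ((msm131_box_sub (by rw [msm131_dist_comm z0 z]; omega)).trans hc))
  refine h2.trans ?_
  set bb : ℝ := max 1 (msm131Dist z i : ℝ) with hbb
  have hbb1 : 1 ≤ bb := le_max_left _ _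
  have hbb0 : 0 < bb := by linarith
  have hnR : (0:ℝ) < n := by exact_mod_cast (by omega : 0 < n)
  have hbn : bb ≤ n := by
    refine max_le (by exact_mod_cast (by omega : 1 ≤ n)) ?_
    exact_mod_cast (by omega : msm131Dist z i ≤ n)
  have hl : 0 ≤ Real.log ((n : ℝ) / bb) := Real.log_nonneg ((one_le_div hbb0).2 hbn)
  have h3 : Real.log (((n + a : ℕ) : ℝ) / bb) ≤ 1 + Real.log ((n : ℝ) / bb) := by
    have e1 : ((n + a : ℕ) : ℝ) / bb ≤ 2 * ((n : ℝ) / bb) := by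
      rw [← mul_div_assoc]
      refine div_le_div_of_nonneg_right ?_ hbb0.le
      have : ((n + a : ℕ) : ℝ) ≤ ((2 * n : ℕ) : ℝ) := by exact_mod_cast (by omega : n + a ≤ 2 * n)
      push_cast at this ⊢; linarith
    have e2 : Real.log (2 * ((n : ℝ) / bb)) = Real.log 2 + Real.log ((n : ℝ) / bb) :=
      Real.log_mul (by norm_num) (by positivity)
    have e3 : Real.log 2 ≤ 1 := by have := Real.log_two_lt_d9; linarith
    have e4 : Real.log (((n + a : ℕ) : ℝ) / bb) ≤ Real.log (2 * ((n : ℝ) / bb)) :=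
      Real.log_le_log (by positivity) e1
    linarith
  nlinarith

/-- the smearing bound for one domain where the heights exist -/
theorem msm131_zeroX {t : ℝ} (h0 : 0 < t) (h1 : t ≤ 1) {C1 : ℝ} (hC1 : 0 ≤ C1) {F : Finset (ℤ × ℤ)}
    (hex : Mdl21Ex F) {z0 : ℤ × ℤ} {a : ℕ} {n Aw : ℝ} {w : (ℤ × ℤ) →₀ ℝ} (ha : 1 ≤ a) (hAw : 0 < Aw) (hw : RswSm z0 a Aw w)
    (hin : rswBox z0 a ⊆ F) (han : (a : ℝ) ≤ n)
    (hcov : ∀ z ∈ rswBox z0 a, ∀ i ∈ rswBox z0 a,
      |rswE t F true (fun ω => rswH F ω z * rswH F ω i)| ≤ C1 * (1 + Real.log (n / max 1 (msm131Dist z i : ℝ)))) (p : ℕ) :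
    rswE t F true (fun ω => |rswArr w (rswH F ω)| ^ p) ≤ mdpC 1 (1 / 2) p * momM C1 Aw (Real.log (n / a)) ^ p := by
  have ha1 : (1 : ℝ) ≤ a := by exact_mod_cast ha
  have ha0 : (0 : ℝ) < a := by linarith
  have hL : 0 ≤ Real.log (n / a) := Real.log_nonneg ((one_le_div ha0).2 han)
  set L := Real.log (n / a) with hLdef
  have h2 : rswE t F true (fun ω => (rswArr w (rswH F ω)) ^ 2) ≤ C1 * (1 + 9) * Aw ^ 2 * (1 + L) := by
    rw [msm131_E_sq]
    exact (le_abs_self _).trans (mom_sm_second w.support w (fun z i => max 1 (msm131Dist z i : ℝ))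
      (fun z i => rswE t F true (fun ω => rswH F ω z * rswH F ω i)) ha1 han hAw.le hC1 (by norm_num) (fun z _ i _ => le_max_left _ _)
      hw.l1 (fun i _ => by rw [le_div_iff₀ (by positivity)]; exact hw.sup i) (fun z _ r hr => msm131_count _ z hr)
      (fun z hz i hi => hcov z (hw.supp hz) i (hw.supp hi)))
  have hs1 : 1 ≤ Real.sqrt (20 * C1 + 1) := by
    rw [Real.one_le_sqrt]; linarith
  have hs2 : Real.sqrt (20 * C1 + 1) ^ 2 = 20 * C1 + 1 := Real.sq_sqrt (by linarith)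
  have hs3 : Real.sqrt L ^ 2 = L := Real.sq_sqrt hL
  have hs4 : 0 ≤ Real.sqrt L := Real.sqrt_nonneg _
  have hM : 0 < momM C1 Aw L := by unfold momM; positivity
  refine msm131_ampX h0 h1 hex w _ (fun u hu => rsz_face_corner (hin (hw.supp hu))) hM ?_ (msm131_cheb h0 h1 F true _ hM h2 ?_) p
  · have : Aw * 1 * 1 ≤ momM C1 Aw L := by
      unfold momM
      exact mul_le_mul (mul_le_mul_of_nonneg_left hs1 hAw.le) (by linarith) (by norm_num) (by positivity)
    have h3 := hw.l1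
    linarith
  · unfold momM
    rw [mul_pow, mul_pow, hs2]
    have h4 : 1 + L ≤ (1 + Real.sqrt L) ^ 2 := by nlinarith
    have h5 : 0 ≤ Aw ^ 2 * (20 * C1 + 1) := by positivity
    calc 2 * (C1 * (1 + 9) * Aw ^ 2 * (1 + L)) ≤ Aw ^ 2 * (20 * C1 + 1) * (1 + L) := by
          have : 0 ≤ Aw ^ 2 * (1 + L) := by positivity
          nlinarith
      _ ≤ _ := mul_le_mul_of_nonneg_left h4 h5

/-- **the smearing bound on the class `At92hExt`, every `p`, from the covariance record on that class** -/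
theorem msm131_exit_covE (t : ℝ) (ht1 : 1 / 2 ≤ t) (ht2 : t < 1) (hcov : Msm131CovE t) (p : ℕ) :
    ∃ C : ℝ, 0 < C ∧ ∀ (F : Finset (ℤ × ℤ)) (z0 : ℤ × ℤ) (a n : ℕ) (A : ℝ) (w : (ℤ × ℤ) →₀ ℝ),
      At92hExt F → 1 ≤ a → rswBox z0 (3 * a) ⊆ F → ¬ rswBox z0 n ⊆ F → RswSm z0 a A w →
      rswE t F true (fun ω => |rswArr w (rswH F ω)| ^ p) ≤
        (C * A * (1 + Real.sqrt (Real.log ((n : ℝ) / a)))) ^ p := by
  have h0 : 0 < t := by linarith
  obtain ⟨C0, hC0, H⟩ := hcov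
  set m : ℝ := max 1 (mdpC 1 (1 / 2) p) with hm
  have hm1 : 1 ≤ m := le_max_left _ _
  set s : ℝ := Real.sqrt (20 * (2 * C0) + 1) with hs
  have hs1 : 1 ≤ s := by rw [hs, Real.one_le_sqrt]; linarith
  refine ⟨m * s, by positivity, fun F z0 a n A w hJ ha hbox hn hw => ?_⟩
  rcases Nat.eq_zero_or_pos p with rfl | hp
  · simp only [pow_zero]; exact (rsz_E_const h0 ht2.le F true 1).le
  obtain ⟨hn3, hcv⟩ := msm131_cov_boxE hC0 H hJ ha hbox hn
  have hA0 : 0 ≤ A := (Finset.sum_nonneg fun u _ => abs_nonneg (w u)).trans hw.l1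
  set L := Real.log ((n : ℝ) / a) with hL
  have hsq : 0 ≤ Real.sqrt L := Real.sqrt_nonneg _
  rcases hA0.eq_or_lt with hA | hA
  · have hw0 : w = 0 := by
      ext u
      have h1 := hw.sup u
      rw [← hA] at h1
      have h2 : (0:ℝ) < (a : ℝ) ^ 2 := by positivity
      have h3 : |w u| ≤ 0 := by
        by_contra hc
        have := mul_pos (not_le.1 hc) h2
        linarith
      simpa using abs_nonpos_iff.1 h3
    have : (fun ω : RswCfg => |rswArr w (rswH F ω)| ^ p) = fun _ => 0 := by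
      funext ω
      rw [hw0]
      simp [rswArr, hp.ne']
    rw [this, rsz_E_const h0 ht2.le F true 0]
    positivity
  have han : (a : ℝ) ≤ n := by exact_mod_cast (by omega : a ≤ n)
  have key := msm131_zeroX h0 ht2.le (by positivity : (0:ℝ) ≤ 2 * C0) (mdl21_ex_of_ext hJ) ha hA hw
    ((msm131_box_mono z0 (by omega)).trans hbox) han hcv p
  refine key.trans ?_
  have e2 : mdpC 1 (1 / 2) p ≤ m ^ p := (le_max_right _ _).trans (le_self_pow₀ hm1 hp.ne')
  have e3 : momM (2 * C0) A L = s * A * (1 + Real.sqrt L) := by unfold momM; ring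
  rw [e3]
  calc mdpC 1 (1 / 2) p * (s * A * (1 + Real.sqrt L)) ^ p ≤ m ^ p * (s * A * (1 + Real.sqrt L)) ^ p :=
        mul_le_mul_of_nonneg_right e2 (by positivity)
    _ = (m * s * A * (1 + Real.sqrt L)) ^ p := by rw [← mul_pow]; congr 1; ring

end Claimed.Agent.R292
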