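import Claimed.Agent.R292.Rsw.First164
import Claimed.Agent.R292.Rsw.MomShell11
import Claimed.Agent.R292.Rsw.MomSmear131
import Claimed.Agent.R292.Rsw.ArmObs225
import Claimed.Agent.R292.Rsw.ArmHub219
import Claimed.Agent.R292.Model.Circ1

/-!
# Row 292 (S0540), Rsw/MomArm11 : R6a MOM-SHELL, THE ARMS ON THE KERNEL OF 164 AND THE COVARIANCE BOUND      (pen helper11; prefix `mar11_`, defs `Mar11*`)

Above `Rsw/First164` (chain of outermost opposite `W` circuits, kernel `rsf164Ker`, `rsf164_cov_le`) and `Rsw/MomShell11` (`msh11_abs`, the model-free shell theorem).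
* §1 `mar11_markov`      domain Markov property at the unexplored part for ANY observable of the inside
* §2 `Mar11Arm F Φ ω`    a hole free domain with the property `Φ` bounded by good edges of one colour;  `mar11_super` (super-solution), **`mar11_H_le_arm`**: hitting probability `≤` probability of the arm event
* §3 `mar11_topo` (two sets of faces whose rims share no vertex; Poincare lemma `at92h_poincare`, no Jordan curve), **`mar11_det`** (DET): a chamber with a cut of colour `a` joining `z` to `w`, not containing `Λ_{r1}(z)`, `w` off `Λ_{r2}(z)`, forbids the separation of `Λ_{r1}` from `F \ Λ_{r2}` by the other colour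
* §4 `mar11_pot` (K-POT: the radius drops strictly), `mar11_obs` (K-OBS from the obstacle record), `mar11_arm` (K-ARM from the stack record: `mar11_H_le_arm` + `mar11_det`)
* §5 **`mar11_covE`** : `Rao225Obs t → Rao225Stack t → Msm131CovE t` (`msh11_abs` + `rsf164_cov_le`); `mar11_covE_of_ah` : `Ah219Circ t p n0 → Rao225Obs t → Msm131CovE t`
* §6 **`mar11_exit`** : `Msm131CovE t` from the statement of `exit_rsw_circuit` alone (`mdl1_exit_circ_rsw`, `cmp291_exit_cmp`, `rao225_obs`, `rao225_stack`): no sorry in the closure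
-/

set_option autoImplicit false
set_option linter.unusedVariables false

namespace Claimed.Agent.R292

open Claims Claims.C0468 Claimed.Agent.R291

/-! ## 1. Markov -/

/-- **domain Markov property at the unexplored part**, any observable of the inside -/
theorem mar11_markov {t : ℝ} (ht0 : 0 < t) (ht1 : t ≤ 1) {F D : Finset (ℤ × ℤ)} (hD : D ⊆ F) (b : Bool) (X : RswCfg → ℝ) :
    rswE t F b (fun ω => rsxInd (rsf164D F b ω = D) * X (rskIn D ω)) =
      rswP t F b (fun ω => rsf164D F b ω = D) * rswE t D (!b) X := by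
  have hX : RskInside D (fun ω => X (rskIn D ω)) := by
    intro ω
    show X (rskIn D (rskIn D ω)) = X (rskIn D ω)
    rw [msh11_in_in]
  have h := rsk_cut_E ht0 ht1 hD (!b) b hX (rsf164_D_outside hD b)
  have e1 : ∀ ω, rskInd D (!b) ω * rsxInd (rsf164D F b ω = D) = rsxInd (rsf164D F b ω = D) := by
    intro ω
    by_cases hh : rsf164D F b ω = D
    · have hc : RswCut D (!b) ω := by rw [← hh]; exact rsf164_D_cut F b ω
      unfold rskInd
      rw [if_pos hc, one_mul]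
    · rw [rsx_ind_neg hh, mul_zero]
  have e2 : (fun ω => rskInd D (!b) ω * X (rskIn D ω) * rsxInd (rsf164D F b ω = D))
      = fun ω => rsxInd (rsf164D F b ω = D) * X (rskIn D ω) := by
    funext ω
    rw [mul_right_comm, e1]
  have e3 : (fun ω => rskInd D (!b) ω * rsxInd (rsf164D F b ω = D)) = fun ω => rsxInd (rsf164D F b ω = D) := funext e1
  rw [e2, e3] at h
  have e4 : rswE t D (!b) (fun ω => X (rskIn D ω)) = rswE t D (!b) X :=
    rsz_E_congr t D (!b) fun ω h1 h2 h3 _ => by rw [msh11_in_self h1 h2 h3]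
  rw [h, e4, rsx_P_eq, mul_comm]

/-! ## 2. The arm event and the hitting probability -/

/-- a hole free domain with the property `Φ` bounded by good edges of ONE colour -/
def Mar11Arm (F : Finset (ℤ × ℤ)) (Φ : Finset (ℤ × ℤ) → Prop) (ω : RswCfg) : Prop :=
  ∃ D : Finset (ℤ × ℤ), D ⊆ F ∧ At92hExt D ∧ (∃ a, RswCut D a ω) ∧ Φ D

theorem mar11_good_in {G : Finset (ℤ × ℤ)} {a : Bool} {ω : RswCfg} {e : (ℤ × ℤ) × Bool} (h : RswGood a (rskIn G ω) e) :
    RswGood a ω e := by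
  obtain ⟨h1, h2, h3⟩ := h
  simp only [rskIn, Finset.mem_inter] at h1 h2 h3
  have c1 := rsk_int_fst h1.2
  have c2 := rsk_int_end h1.2
  exact ⟨h1.1, ⟨fun h => h2.1 ⟨h, c1⟩, fun h => (h2.2 h).1⟩, ⟨fun h => h3.1 ⟨h, c2⟩, fun h => (h3.2 h).1⟩⟩

theorem mar11_arm_in {G F : Finset (ℤ × ℤ)} (hGF : G ⊆ F) {Φ : Finset (ℤ × ℤ) → Prop} {ω : RswCfg}
    (h : Mar11Arm G Φ (rskIn G ω)) : Mar11Arm F Φ ω := by
  obtain ⟨D, h1, h2, ⟨a, h3⟩, h4⟩ := h
  exact ⟨D, h1.trans hGF, h2, ⟨a, fun e he => mar11_good_in (h3 e he)⟩, h4⟩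

open Classical in
/-- **the probability of the arm event is a super-solution of the hitting recursion** -/
theorem mar11_super {t : ℝ} (ht0 : 0 < t) (ht1 : t ≤ 1) (z : ℤ × ℤ) (Φ : Finset (ℤ × ℤ) → Prop) (s : Finset (ℤ × ℤ) × Bool)
    (hs : At92hExt s.1) :
    ∑ s' ∈ (rsf164Ker t z).ch s, (rsf164Ker t z).p s s' *
        (if Φ s'.1 then 1 else rswP t ((rsf164Ker t z).nx s').1 ((rsf164Ker t z).nx s').2 (Mar11Arm ((rsf164Ker t z).nx s').1 Φ)) ≤
      rswP t s.1 s.2 (Mar11Arm s.1 Φ) := by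
  obtain ⟨F, b⟩ := s
  have hF : At92hExt F := hs
  show ∑ s' ∈ (rsf164Ker t z).ch (F, b), (rsf164Ker t z).p (F, b) s' *
        (fun s' : Finset (ℤ × ℤ) × Bool => if Φ s'.1 then 1 else rswP t s'.1 s'.2 (Mar11Arm s'.1 Φ)) s' ≤ rswP t F b (Mar11Arm F Φ)
  rw [rsf164_ker_sum]
  simp only
  -- the observable of the inside
  obtain ⟨X, hX⟩ : ∃ X : Finset (ℤ × ℤ) → RswCfg → ℝ, X = fun D η => if Φ D then 1 else rsxInd (Mar11Arm D Φ η) := ⟨_, rfl⟩
  have hXE : ∀ D, rswE t D (!b) (X D) = if Φ D then 1 else rswP t D (!b) (Mar11Arm D Φ) := by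
    intro D
    rw [hX]
    by_cases h : Φ D
    · simp only [if_pos h]
      exact rsz_E_const ht0 ht1 D (!b) 1
    · simp only [if_neg h]
      rfl
  have h1 : ∀ D ∈ F.powerset, rsf164P t (F, b) (D, !b) *
      (if z ∈ rsxIn D then (if Φ D then 1 else rswP t D (!b) (Mar11Arm D Φ)) else 0) ≤
      rswE t F b (fun ω => rsxInd (rsf164D F b ω = D) * X D (rskIn D ω)) := by
    intro D hD
    rw [mar11_markov ht0 ht1 (Finset.mem_powerset.1 hD) b (X D), hXE]
    refine mul_le_mul_of_nonneg_left ?_ (rsf164_P_nonneg ht0 ht1 (F, b) (D, !b))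
    have h0 : (0 : ℝ) ≤ if Φ D then 1 else rswP t D (!b) (Mar11Arm D Φ) := by
      split_ifs
      · exact zero_le_one
      · exact rsz_P_nonneg ht0.le ht1 _ _ _
    split_ifs <;> first | exact le_rfl | exact zero_le_one | exact rsz_P_nonneg ht0.le ht1 _ _ _
  refine (Finset.sum_le_sum h1).trans ?_
  rw [← rsz_E_fsum, rsx_P_eq]
  refine rsz_E_mono ht0.le ht1 F b fun ω => ?_
  rw [← rsf164_ind_sum F b ω (fun D => X D (rskIn D ω)), hX]
  by_cases h : Φ (rsf164D F b ω)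
  · simp only [if_pos h]
    rw [rsx_ind_pos]
    exact ⟨rsf164D F b ω, rsf164_D_sub F b ω, rsf164_D_ext hF b ω, ⟨!b, rsf164_D_cut F b ω⟩, h⟩
  · simp only [if_neg h]
    by_cases h2 : Mar11Arm (rsf164D F b ω) Φ (rskIn (rsf164D F b ω) ω)
    · rw [rsx_ind_pos h2, rsx_ind_pos (mar11_arm_in (rsf164_D_sub F b ω) h2)]
    · rw [rsx_ind_neg h2]
      exact rsx_ind_nonneg _

/-- **hitting implies the arm event** -/
theorem mar11_H_le_arm {t : ℝ} (ht0 : 0 < t) (ht1 : t ≤ 1) (z : ℤ × ℤ) (Φ : Finset (ℤ × ℤ) → Prop) (n : ℕ)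
    (s : Finset (ℤ × ℤ) × Bool) (hs : At92hExt s.1) :
    momH (rsf164Ker t z) (fun s' => Φ s'.1) n s ≤ rswP t s.1 s.2 (Mar11Arm s.1 Φ) :=
  mom_rc_H_le (rsf164_ker_ok ht0 ht1 z) (χ := fun s' => Φ s'.1) (e := fun s => rswP t s.1 s.2 (Mar11Arm s.1 Φ))
    (fun s hs => mar11_super ht0 ht1 z Φ s hs) (fun s _ => rsz_P_nonneg ht0.le ht1 _ _ _) n s hs

/-! ## 3. The deterministic half: two domains with rims of opposite colours -/

/-- nearest neighbour faces -/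
def Mar11Adj (p q : ℤ × ℤ) : Prop :=
  q = (p.1 + 1, p.2) ∨ q = (p.1 - 1, p.2) ∨ q = (p.1, p.2 + 1) ∨ q = (p.1, p.2 - 1)

/-- **the potential**: if at every vertex the four faces agree on `u` or agree on `d`, the form `(u q - u p) d p` is exact -/
theorem mar11_potential (u d : ℤ × ℤ → ℝ)
    (hV : ∀ x y : ℤ, (u (x, y) = u (x + 1, y) ∧ u (x, y) = u (x, y + 1) ∧ u (x, y) = u (x + 1, y + 1)) ∨
      (d (x, y) = d (x + 1, y) ∧ d (x, y) = d (x, y + 1) ∧ d (x, y) = d (x + 1, y + 1))) :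
    ∃ ψ : ℤ × ℤ → ℝ, ∀ p q, Mar11Adj p q → ψ q - ψ p = (u q - u p) * d p ∧ ψ q - ψ p = (u q - u p) * d q := by
  obtain ⟨H, hx, hy⟩ := at92h_poincare (fun a b => (u (a + 1, b) - u (a, b)) * d (a, b))
    (fun a b => (u (a, b + 1) - u (a, b)) * d (a, b)) (by
      intro a b
      rcases hV a b with ⟨h1, h2, h3⟩ | ⟨h1, h2, h3⟩
      · simp only [← h1, ← h2, ← h3]; ring
      · simp only [← h1, ← h2]; ring)
  have kx : ∀ a b : ℤ, (u (a + 1, b) - u (a, b)) * d (a, b) = (u (a + 1, b) - u (a, b)) * d (a + 1, b) := by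
    intro a b
    rcases hV a b with ⟨h1, -, -⟩ | ⟨h1, -, -⟩
    · rw [← h1]; ring
    · rw [← h1]
  have ky : ∀ a b : ℤ, (u (a, b + 1) - u (a, b)) * d (a, b) = (u (a, b + 1) - u (a, b)) * d (a, b + 1) := by
    intro a b
    rcases hV a b with ⟨-, h1, -⟩ | ⟨-, h1, -⟩
    · rw [← h1]; ring
    · rw [← h1]
  refine ⟨fun f => H f.1 f.2, ?_⟩
  rintro ⟨a, b⟩ q hq
  simp only [Mar11Adj] at hq
  rcases hq with rfl | rfl | rfl | rfl
  · have e := hx a b
    have k := kx a b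
    simp only at e ⊢
    constructor <;> linarith
  · have e := hx (a - 1) b
    have k := kx (a - 1) b
    simp only [sub_add_cancel] at e k ⊢
    constructor <;> linarith
  · have e := hy a b
    have k := ky a b
    simp only at e ⊢
    constructor <;> linarith
  · have e := hy a (b - 1)
    have k := ky a (b - 1)
    simp only [sub_add_cancel] at e k ⊢
    constructor <;> linarith

/-- discrete intermediate value -/
theorem mar11_ivt (Q : ℕ → Prop) : ∀ n : ℕ, Q 0 → ¬ Q n → ∃ i, i < n ∧ Q i ∧ ¬ Q (i + 1)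
  | 0, h0, h1 => absurd h0 h1
  | n + 1, h0, h1 => by
    by_cases hn : Q n
    · exact ⟨n, Nat.lt_succ_self n, hn, h1⟩
    · obtain ⟨i, hi, h⟩ := mar11_ivt Q n h0 hn
      exact ⟨i, hi.trans (Nat.lt_succ_self n), h⟩

theorem mar11_adj_symm {p q : ℤ × ℤ} (h : Mar11Adj p q) : Mar11Adj q p := by
  obtain ⟨a, b⟩ := p
  simp only [Mar11Adj] at h ⊢
  rcases h with rfl | rfl | rfl | rfl <;> simp

/-- **two sets of faces whose rims have no common vertex**: on the part `C` of `D` which hangs together with `z`, the faces which touch the complement of `D`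
are all in `U` or all off `U`      (`D` hole free; Poincare lemma, no Jordan curve) -/
theorem mar11_topo {U D : Finset (ℤ × ℤ)} (hext : At92hExt D)
    (hV : ∀ v : ℤ × ℤ, (v ∉ cornersOf U ∨ v ∈ rskCore U) ∨ (v ∉ cornersOf D ∨ v ∈ rskCore D)) {z : ℤ × ℤ} (hz : z ∈ D) :
    ∃ C : Finset (ℤ × ℤ), C ⊆ D ∧ z ∈ C ∧ (∀ p ∈ C, ∀ q ∈ D, Mar11Adj p q → q ∈ C) ∧
      ∀ p ∈ C, ∀ p' ∈ C, ∀ q, q ∉ D → ∀ q', q' ∉ D → Mar11Adj p q → Mar11Adj p' q' → (p ∈ U ↔ p' ∈ U) := by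
  classical
  obtain ⟨u, hu⟩ : ∃ u : ℤ × ℤ → ℝ, u = fun f => if f ∈ U then 1 else 0 := ⟨_, rfl⟩
  obtain ⟨d, hd⟩ : ∃ d : ℤ × ℤ → ℝ, d = fun f => if f ∈ D then 1 else 0 := ⟨_, rfl⟩
  have hind : ∀ (A : Finset (ℤ × ℤ)) (x y : ℤ), (((x + 1, y + 1) : ℤ × ℤ) ∉ cornersOf A ∨ ((x + 1, y + 1) : ℤ × ℤ) ∈ rskCore A) →
      ((if ((x, y) : ℤ × ℤ) ∈ A then (1 : ℝ) else 0) = (if ((x + 1, y) : ℤ × ℤ) ∈ A then (1 : ℝ) else 0) ∧
       (if ((x, y) : ℤ × ℤ) ∈ A then (1 : ℝ) else 0) = (if ((x, y + 1) : ℤ × ℤ) ∈ A then (1 : ℝ) else 0) ∧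
       (if ((x, y) : ℤ × ℤ) ∈ A then (1 : ℝ) else 0) = (if ((x + 1, y + 1) : ℤ × ℤ) ∈ A then (1 : ℝ) else 0)) := by
    intro A x y h
    rcases h with h | h
    · rw [rsk_mem_corners] at h
      simp only [add_sub_cancel_right, not_or] at h
      obtain ⟨h1, h2, h3, h4⟩ := h
      simp only [if_neg h1, if_neg h2, if_neg h3, if_neg h4, and_self]
    · rw [rsk_mem_core] at h
      simp only [add_sub_cancel_right] at h
      obtain ⟨h1, h2, h3, h4⟩ := h
      simp only [if_pos h1, if_pos h2, if_pos h3, if_pos h4, and_self]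
  obtain ⟨ψ, hψ⟩ := mar11_potential u d (by
    intro x y
    rcases hV (x + 1, y + 1) with h | h
    · left; rw [hu]; exact hind U x y h
    · right; rw [hd]; exact hind D x y h)
  have d1 : ∀ f, f ∈ D → d f = 1 := fun f hf => by rw [hd]; exact if_pos hf
  have d0 : ∀ f, f ∉ D → d f = 0 := fun f hf => by rw [hd]; exact if_neg hf
  -- across an edge with a face off `D` the potential does not move
  have hN : ∀ p q, Mar11Adj p q → (p ∉ D ∨ q ∉ D) → ψ q = ψ p := by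
    intro p q hpq h
    obtain ⟨e1, e2⟩ := hψ p q hpq
    rcases h with h | h
    · rw [d0 p h, mul_zero] at e1; linarith
    · rw [d0 q h, mul_zero] at e2; linarith
  -- the potential is constant off `D`
  have hconst : ∀ q, q ∉ D → ∀ q', q' ∉ D → ψ q' = ψ q := by
    intro q hq q' hq'
    have := hext {f | f ∉ D ∧ ψ f = ψ q} (fun f hf => hf.1) ⟨q, hq, rfl⟩ (by
      rintro ⟨f1, f2⟩ ⟨hf, hfe⟩ ⟨g1, g2⟩ hg ⟨a1, a2⟩
      simp only at a1 a2
      rw [abs_le] at a1 a2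
      refine ⟨hg, ?_⟩
      have s1 : ψ (g1, f2) = ψ (f1, f2) := by
        have : g1 = f1 ∨ g1 = f1 + 1 ∨ g1 = f1 - 1 := by omega
        rcases this with rfl | rfl | rfl
        · rfl
        · exact hN _ _ (Or.inl rfl) (Or.inl hf)
        · exact hN _ _ (Or.inr (Or.inl rfl)) (Or.inl hf)
      have s2 : ψ (g1, g2) = ψ (g1, f2) := by
        have : g2 = f2 ∨ g2 = f2 + 1 ∨ g2 = f2 - 1 := by omega
        rcases this with rfl | rfl | rfl
        · rfl
        · exact hN _ _ (Or.inr (Or.inr (Or.inl rfl))) (Or.inr hg)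
        · exact hN _ _ (Or.inr (Or.inr (Or.inr rfl))) (Or.inr hg)
      rw [s2, s1, hfe]) q' hq'
    exact this.2
  refine ⟨D.filter (fun f => ψ f - u f = ψ z - u z), Finset.filter_subset _ _, Finset.mem_filter.2 ⟨hz, rfl⟩, ?_, ?_⟩
  · intro p hp q hq hpq
    obtain ⟨hpD, hpe⟩ := Finset.mem_filter.1 hp
    refine Finset.mem_filter.2 ⟨hq, ?_⟩
    have e1 := (hψ p q hpq).1
    rw [d1 p hpD, mul_one] at e1
    linarith
  · intro p hp p' hp' q hq q' hq' hpq hpq'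
    obtain ⟨hpD, hpe⟩ := Finset.mem_filter.1 hp
    obtain ⟨hpD', hpe'⟩ := Finset.mem_filter.1 hp'
    have e1 := hN p q hpq (Or.inr hq)
    have e2 := hN p' q' hpq' (Or.inr hq')
    have e3 := hconst q hq q' hq'
    have e4 : u p = u p' := by linarith
    rw [hu] at e4
    simp only at e4
    by_cases h1 : p ∈ U <;> by_cases h2 : p' ∈ U
    · exact iff_of_true h1 h2
    · rw [if_pos h1, if_neg h2] at e4; norm_num at e4
    · rw [if_neg h1, if_pos h2] at e4; norm_num at e4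
    · exact iff_of_false h1 h2

theorem mar11_bdd (D : Finset (ℤ × ℤ)) : ∃ M : ℕ, ∀ f ∈ D, f.1.natAbs + f.2.natAbs ≤ M :=
  ⟨D.sup (fun f => f.1.natAbs + f.2.natAbs), fun _ hf => Finset.le_sup (f := fun f : ℤ × ℤ => f.1.natAbs + f.2.natAbs) hf⟩

/-- a straight walk which starts in `C` and ends off `C` -/
theorem mar11_walk (C : Finset (ℤ × ℤ)) (p : ℤ × ℤ) (dx dy : ℤ) (n : ℕ) (h0 : p ∈ C) (hn : (p.1 + n * dx, p.2 + n * dy) ∉ C) :
    ∃ i : ℕ, i < n ∧ (p.1 + i * dx, p.2 + i * dy) ∈ C ∧ (p.1 + i * dx + dx, p.2 + i * dy + dy) ∉ C := by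
  obtain ⟨i, hi, h1, h2⟩ := mar11_ivt (fun i : ℕ => (p.1 + i * dx, p.2 + i * dy) ∈ C) n (by simpa using h0) hn
  refine ⟨i, hi, h1, ?_⟩
  have e : (p.1 + ((i + 1 : ℕ) : ℤ) * dx, p.2 + ((i + 1 : ℕ) : ℤ) * dy) = (p.1 + i * dx + dx, p.2 + i * dy + dy) := by
    push_cast
    refine Prod.ext ?_ ?_ <;> simp only <;> ring
  rwa [e] at h2

/-- **(DET)**: a chamber `D` with a cut of colour `a` which hangs together from `z` to `w`, does not contain `Λ_{r1}(z)`, while `w` is off `Λ_{r2}(z)`: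
the good edges of the OTHER colour do not separate `Λ_{r1}` from the complement of `Λ_{r2}` -/
theorem mar11_det {F D : Finset (ℤ × ℤ)} {a : Bool} {ω : RswCfg} {z w : ℤ × ℤ} {r1 r2 : ℕ}
    (hext : At92hExt D) (hcut : RswCut D a ω) (hz : z ∈ rsxIn D) (hw : w ∈ rsxIn D) (hconn : Rsf164Conn D z w)
    (h12 : r1 ≤ r2) (hr1 : ¬ rswBox z r1 ⊆ D) (hF : rswBox z (r2 + 1) ⊆ F) (hwr : w ∉ rswBox z r2) :
    ¬ RswSep F (!a) ω (rswBox z r1) (F \ rswBox z r2) := by
  classical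
  intro hsep
  obtain ⟨U, hU⟩ : ∃ U : Finset (ℤ × ℤ), U = F.filter (fun f => ∃ g ∈ rswBox z r1, Relation.ReflTransGen (RswStep F (!a) ω) g f) := ⟨_, rfl⟩
  have hU1 : rswBox z r1 ⊆ U := fun f hf => by
    rw [hU]
    exact Finset.mem_filter.2 ⟨hF (rsf164_box_mono z (by omega) hf), f, hf, Relation.ReflTransGen.refl⟩
  have hU2 : U ⊆ rswBox z r2 := fun f hf => by
    rw [hU] at hf
    obtain ⟨hfF, g, hg, hr⟩ := Finset.mem_filter.1 hf
    by_contra hcon
    exact hsep g hg f (Finset.mem_sdiff.2 ⟨hfF, hcon⟩) hr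
  -- neighbours of `U` are in `F`
  have hnb : ∀ p q, p ∈ U → Mar11Adj p q → q ∈ F := by
    intro p q hp hpq
    have := hU2 hp
    refine hF ?_
    rw [rsf164_mem_box] at this ⊢
    obtain ⟨p1, p2⟩ := p
    simp only [Mar11Adj] at hpq
    simp only at this
    push_cast
    rcases hpq with rfl | rfl | rfl | rfl <;> simp only <;> omega
  have hco : ∀ e : (ℤ × ℤ) × Bool, Mar11Adj e.1 (rswCo e) := by
    rintro ⟨⟨x, y⟩, b⟩
    cases b
    · exact Or.inr (Or.inr (Or.inr rfl))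
    · exact Or.inr (Or.inl rfl)
  have hcutU : RswCut U (!a) ω := by
    intro e he
    by_contra hg
    rcases he with ⟨h1, h2⟩ | ⟨h1, h2⟩
    · have hq : rswCo e ∈ F := hnb _ _ h1 (hco e)
      apply h2
      rw [hU] at h1 ⊢
      obtain ⟨hfF, g, hgb, hr⟩ := Finset.mem_filter.1 h1
      exact Finset.mem_filter.2 ⟨hq, g, hgb, hr.tail ⟨hfF, hq, e, Or.inl ⟨rfl, rfl⟩, hg⟩⟩
    · have hq : e.1 ∈ F := hnb _ _ h2 (mar11_adj_symm (hco e))
      apply h1
      rw [hU] at h2 ⊢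
      obtain ⟨hfF, g, hgb, hr⟩ := Finset.mem_filter.1 h2
      exact Finset.mem_filter.2 ⟨hq, g, hgb, hr.tail ⟨hfF, hq, e, Or.inr ⟨rfl, rfl⟩, hg⟩⟩
  have hV : ∀ v : ℤ × ℤ, (v ∉ cornersOf U ∨ v ∈ rskCore U) ∨ (v ∉ cornersOf D ∨ v ∈ rskCore D) := by
    intro v
    by_contra hcon
    push Not at hcon
    obtain ⟨⟨c1, c2⟩, c3, c4⟩ := hcon
    have e1 := rsk_cut_rim hcutU c1 c2
    have e2 := rsk_cut_rim hcut c3 c4
    cases a <;> simp_all
  have hzD := rsx_mem_in.1 hz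
  have hwD := rsx_mem_in.1 hw
  obtain ⟨C, hCD, hzC, hcl, hag⟩ := mar11_topo hext hV hzD.1
  have hisol : RsxIsol D C := by
    intro e he
    obtain ⟨k1, k2⟩ := rsx_mem_int.1 he
    exact ⟨fun h => hcl _ h _ k2 (hco e), fun h => hcl _ h _ k1 (mar11_adj_symm (hco e))⟩
  have hwc : w ∈ cornersOf C := hconn C hCD hisol (rsk_mem_corners.2 (Or.inl hzC))
  have hwC : w ∈ C := by
    rw [rsk_mem_corners] at hwc
    rcases hwc with h | h | h | h
    · exact h
    · exact hcl _ h _ hwD.1 (Or.inl (by simp))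
    · exact hcl _ h _ hwD.1 (Or.inr (Or.inr (Or.inl (by simp))))
    · have := hcl _ h _ hwD.2.1 (Or.inr (Or.inr (Or.inl (by simp))))
      exact hcl _ this _ hwD.1 (Or.inl (by simp))
  have exit : ∀ (p : ℤ × ℤ) (dx dy : ℤ) (n : ℕ), Mar11Adj (0, 0) (dx, dy) → p ∈ C → (p.1 + n * dx, p.2 + n * dy) ∉ C →
      ∃ i : ℕ, i < n ∧ (p.1 + i * dx, p.2 + i * dy) ∈ C ∧ ∃ q, q ∉ D ∧ Mar11Adj (p.1 + i * dx, p.2 + i * dy) q := by
    intro p dx dy n hd h0 hn
    obtain ⟨i, hi, k1, k2⟩ := mar11_walk C p dx dy n h0 hn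
    have hadj : Mar11Adj (p.1 + i * dx, p.2 + i * dy) (p.1 + i * dx + dx, p.2 + i * dy + dy) := by
      simp only [Mar11Adj, Prod.mk.injEq] at hd ⊢
      rcases hd with ⟨rfl, rfl⟩ | ⟨rfl, rfl⟩ | ⟨rfl, rfl⟩ | ⟨rfl, rfl⟩ <;> simp <;> ring_nf
    exact ⟨i, hi, k1, _, fun h => k2 (hcl _ k1 _ h hadj), hadj⟩
  have sgn : ∀ x y : ℤ, ∃ (s : ℤ) (n : ℕ), (s = 1 ∨ s = -1) ∧ y = x + n * s := by
    intro x y
    rcases Int.natAbs_eq (y - x) with h | h
    · exact ⟨1, (y - x).natAbs, Or.inl rfl, by omega⟩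
    · exact ⟨-1, (y - x).natAbs, Or.inr rfl, by omega⟩
  -- walk 1: inside the small box, from the face `z` to a face off `D`
  have W1 : ∃ p ∈ C, p ∈ rswBox z r1 ∧ ∃ q, q ∉ D ∧ Mar11Adj p q := by
    obtain ⟨g, hg, hgD⟩ := Finset.not_subset.1 hr1
    rw [rsf164_mem_box] at hg
    by_cases hc : (g.1, z.2) ∈ C
    · obtain ⟨s, n, hs, hn⟩ := sgn z.2 g.2
      obtain ⟨i, hi, k1, q, hq, hadj⟩ := exit (g.1, z.2) 0 s n
        (by rcases hs with rfl | rfl
            · exact Or.inr (Or.inr (Or.inl (by simp)))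
            · exact Or.inr (Or.inr (Or.inr (by simp)))) hc
        (by simp only [mul_zero, add_zero]; rw [← hn]; exact fun h => hgD (hCD h))
      refine ⟨_, k1, ?_, q, hq, hadj⟩
      rw [rsf164_mem_box]
      simp only [mul_zero, add_zero]
      rcases hs with rfl | rfl <;> omega
    · obtain ⟨s, n, hs, hn⟩ := sgn z.1 g.1
      obtain ⟨i, hi, k1, q, hq, hadj⟩ := exit z s 0 n
        (by rcases hs with rfl | rfl
            · exact Or.inl (by simp)
            · exact Or.inr (Or.inl (by simp))) hzC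
        (by simp only [mul_zero, add_zero]; rw [← hn]; exact hc)
      refine ⟨_, k1, ?_, q, hq, hadj⟩
      rw [rsf164_mem_box]
      simp only [mul_zero, add_zero]
      rcases hs with rfl | rfl <;> omega
  -- walk 2: from the face `w` straight away from `z`
  obtain ⟨M, hM⟩ := mar11_bdd D
  have W2 : ∃ p ∈ C, p ∉ rswBox z r2 ∧ ∃ q, q ∉ D ∧ Mar11Adj p q := by
    rw [rsf164_mem_box] at hwr
    have hdir : w.1 < z.1 - r2 ∨ z.1 + r2 ≤ w.1 ∨ w.2 < z.2 - r2 ∨ z.2 + r2 ≤ w.2 := by omega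
    rcases hdir with h | h | h | h
    · obtain ⟨i, hi, k1, q, hq, hadj⟩ := exit w (-1) 0 (M + w.1.natAbs + 1) (Or.inr (Or.inl (by simp))) hwC
        (fun hh => by have := hM _ (hCD hh); simp only at this; omega)
      refine ⟨_, k1, ?_, q, hq, hadj⟩
      rw [rsf164_mem_box]
      simp only [mul_zero, add_zero]
      omega
    · obtain ⟨i, hi, k1, q, hq, hadj⟩ := exit w 1 0 (M + w.1.natAbs + 1) (Or.inl (by simp)) hwC
        (fun hh => by have := hM _ (hCD hh); simp only at this; omega)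
      refine ⟨_, k1, ?_, q, hq, hadj⟩
      rw [rsf164_mem_box]
      simp only [mul_zero, add_zero]
      omega
    · obtain ⟨i, hi, k1, q, hq, hadj⟩ := exit w 0 (-1) (M + w.2.natAbs + 1) (Or.inr (Or.inr (Or.inr (by simp)))) hwC
        (fun hh => by have := hM _ (hCD hh); simp only at this; omega)
      refine ⟨_, k1, ?_, q, hq, hadj⟩
      rw [rsf164_mem_box]
      simp only [mul_zero, add_zero]
      omega
    · obtain ⟨i, hi, k1, q, hq, hadj⟩ := exit w 0 1 (M + w.2.natAbs + 1) (Or.inr (Or.inr (Or.inl (by simp)))) hwC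
        (fun hh => by have := hM _ (hCD hh); simp only at this; omega)
      refine ⟨_, k1, ?_, q, hq, hadj⟩
      rw [rsf164_mem_box]
      simp only [mul_zero, add_zero]
      omega
  obtain ⟨p, hpC, hpB, q, hq, hpq⟩ := W1
  obtain ⟨p', hpC', hpB', q', hq', hpq'⟩ := W2
  exact hpB' (hU2 ((hag p hpC p' hpC' q hq q' hq' hpq hpq').1 (hU1 hpB)))

/-! ## 4. The three hypotheses of the shell theorem on the kernel of 164 -/

/-- **(K-POT)**, deterministic: a part of `F` which avoids the layer and contains the face `z` has a smaller radius -/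
theorem mar11_rad_lt {F D : Finset (ℤ × ℤ)} {z : ℤ × ℤ} (hlay : ∀ f ∈ rswLayer F, f ∉ D) (hDF : D ⊆ F) (hz : z ∈ D) :
    rsf164Rad z D < rsf164Rad z F := by
  obtain ⟨n, hn⟩ : ∃ n, n = rsf164Rad z F := ⟨_, rfl⟩
  have h1 : ¬ rswBox z n ⊆ F := rsf164_rad_le.1 hn.ge
  obtain ⟨g, hg, hgF⟩ := Finset.not_subset.1 h1
  rw [rsf164_mem_box] at hg
  rw [← hn]
  rcases Nat.lt_or_ge n 2 with hn2 | hn2
  · exfalso
    have hn1 : (n : ℤ) ≤ 1 := by exact_mod_cast (by omega : n ≤ 1)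
    refine hlay z (msh11_mem_layer (v := z) (hDF hz) hgF ⟨Or.inl rfl, Or.inl rfl⟩ ⟨?_, ?_⟩) hz
    · omega
    · omega
  · obtain ⟨m, rfl⟩ : ∃ m, n = m + 1 := ⟨n - 1, by omega⟩
    rw [Nat.lt_succ_iff, rsf164_rad_le]
    intro hsub
    have hm : (1 : ℤ) ≤ m := by exact_mod_cast (by omega : 1 ≤ m)
    push_cast at hg
    obtain ⟨f, hf⟩ : ∃ f : ℤ × ℤ, f = (max (z.1 - m) (min g.1 (z.1 + m - 1)), max (z.2 - m) (min g.2 (z.2 + m - 1))) := ⟨_, rfl⟩
    have hf1 : f.1 = max (z.1 - m) (min g.1 (z.1 + m - 1)) := by rw [hf]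
    have hf2 : f.2 = max (z.2 - m) (min g.2 (z.2 + m - 1)) := by rw [hf]
    have hfb : f ∈ rswBox z m := by
      rw [rsf164_mem_box]
      omega
    have hadj : at92hAdj f g := by
      unfold at92hAdj
      rw [abs_le, abs_le]
      omega
    obtain ⟨v, c1, c2⟩ := at92h_common_corner hadj
    have hfD := hsub hfb
    exact hlay f (msh11_mem_layer (hDF hfD) hgF c1 c2) hfD

/-- **(K-POT)** on the kernel -/
theorem mar11_pot (t : ℝ) (z : ℤ × ℤ) (s : Finset (ℤ × ℤ) × Bool) (s' : Finset (ℤ × ℤ) × Bool) (hs' : s' ∈ (rsf164Ker t z).ch s) :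
    (rsf164Ker t z).rad s' < (rsf164Ker t z).rad s := by
  obtain ⟨h1, _, h3, h4⟩ := rsf164_mem_ch.1 hs'
  obtain ⟨ω, _, hD⟩ := rsf164_P_ne h3
  show rsf164Rad z s'.1 < rsf164Rad z s.1
  refine mar11_rad_lt (fun f hf hfD => ?_) h1 (rsx_mem_in.1 h4).1
  rw [← hD] at hfD
  exact (Finset.mem_sdiff.1 hfD).2 (rsx_layer_sub_out s.1 (!s.2) ω hf)

theorem mar11_step_symm {F : Finset (ℤ × ℤ)} {a : Bool} {ω : RswCfg} {f g : ℤ × ℤ} (h : RswStep F a ω f g) : RswStep F a ω g f := by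
  obtain ⟨h1, h2, e, he, hg⟩ := h
  exact ⟨h2, h1, e, he.symm, hg⟩

theorem mar11_reach_symm {F : Finset (ℤ × ℤ)} {a : Bool} {ω : RswCfg} {f g : ℤ × ℤ}
    (h : Relation.ReflTransGen (RswStep F a ω) f g) : Relation.ReflTransGen (RswStep F a ω) g f := by
  induction h with
  | refl => exact Relation.ReflTransGen.refl
  | tail _ h2 ih => exact Relation.ReflTransGen.head (mar11_step_symm h2) ih

open Classical in
/-- **(K-OBS)** on the kernel, from the obstacle record -/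
theorem mar11_obs {t κ : ℝ} {r0 : ℕ} (ht0 : 0 < t) (ht1 : t ≤ 1)
    (H : ∀ (F : Finset (ℤ × ℤ)) (b : Bool) (z : ℤ × ℤ) (r : ℕ), At92hExt F → r0 ≤ r → ¬ rswBox z (6 * r) ⊆ F →
      rswP t F b (fun ω => rswBox z r ⊆ F ∧ RswSep F (!b) ω (rswBox z r) (rswLayer F)) ≤ 1 - κ)
    (z : ℤ × ℤ) (s : Finset (ℤ × ℤ) × Bool) (r : ℕ) (hs : At92hExt s.1) (hr : r0 + 2 ≤ r) (hrad : (rsf164Ker t z).rad s ≤ 2 * r) :
    momQ (rsf164Ker t z) r 1 s ≤ 1 - κ := by
  obtain ⟨F, b⟩ := s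
  have hF : At92hExt F := hs
  have hrad' : ¬ rswBox z (2 * r) ⊆ F := rsf164_rad_le.1 hrad
  obtain ⟨m, rfl⟩ : ∃ m, r = m + 1 := ⟨r - 1, by omega⟩
  refine le_trans ?_ (H F b z m hF (by omega) (fun h => hrad' ((rsf164_box_mono z (by omega)).trans h)))
  rw [mom_rc_Q_succ]
  simp only [mom_rc_Q_zero]
  show ∑ s' ∈ (rsf164Ker t z).ch (F, b), (rsf164Ker t z).p (F, b) s' *
        (fun s' : Finset (ℤ × ℤ) × Bool => if m + 1 ≤ rsf164Rad z s'.1 then (1 : ℝ) else 0) s' ≤ _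
  rw [rsf164_ker_sum]
  simp only
  have h1 : ∀ D ∈ F.powerset, rsf164P t (F, b) (D, !b) * (if z ∈ rsxIn D then (if m + 1 ≤ rsf164Rad z D then (1 : ℝ) else 0) else 0) ≤
      rswE t F b (fun ω => rsxInd (rsf164D F b ω = D) * (if m + 1 ≤ rsf164Rad z D then (1 : ℝ) else 0)) := by
    intro D hD
    have e : (fun ω => rsxInd (rsf164D F b ω = D) * (if m + 1 ≤ rsf164Rad z D then (1 : ℝ) else 0))
        = fun ω => (if m + 1 ≤ rsf164Rad z D then (1 : ℝ) else 0) * rsxInd (rsf164D F b ω = D) := by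
      funext ω; rw [mul_comm]
    rw [e, rsz_E_smul, mul_comm]
    refine mul_le_mul_of_nonneg_right ?_ (rsf164_P_nonneg ht0 ht1 (F, b) (D, !b))
    split_ifs <;> norm_num
  refine (Finset.sum_le_sum h1).trans ?_
  rw [← rsz_E_fsum, rsx_P_eq]
  refine rsz_E_mono ht0.le ht1 F b fun ω => ?_
  rw [← rsf164_ind_sum F b ω (fun D => if m + 1 ≤ rsf164Rad z D then (1 : ℝ) else 0)]
  by_cases h : m + 1 ≤ rsf164Rad z (rsf164D F b ω)
  · rw [if_pos h, rsx_ind_pos]
    have hsub : rswBox z m ⊆ rsf164D F b ω := rsf164_lt_rad.1 h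
    refine ⟨hsub.trans (rsf164_D_sub F b ω), fun f hf g hg hr => ?_⟩
    exact (Finset.mem_sdiff.1 (hsub hf)).2 (rsx_mem_out.2 ⟨(Finset.mem_sdiff.1 (hsub hf)).1, g, hg, mar11_reach_symm hr⟩)
  · rw [if_neg h]
    exact rsx_ind_nonneg _

open Classical in
/-- the hitting probability reads the predicate on the children only -/
theorem mar11_H_congr {α : Type} (K : MomKer α) {χ χ' : α → Prop} (h : ∀ F, ∀ D ∈ K.ch F, (χ D ↔ χ' D)) :
    ∀ (n : ℕ) (F : α), momH K χ n F = momH K χ' n F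
  | 0, _ => by rw [mom_rc_H_zero, mom_rc_H_zero]
  | n + 1, F => by
    rw [mom_rc_H_succ, mom_rc_H_succ]
    refine Finset.sum_congr rfl fun D hD => ?_
    rw [mar11_H_congr K h n (K.nx D)]
    by_cases hc : χ D
    · rw [if_pos hc, if_pos ((h F D hD).1 hc)]
    · rw [if_neg hc, if_neg (fun h' => hc ((h F D hD).2 h'))]

/-- **(K-ARM)** on the kernel, from the stack record -/
theorem mar11_arm {t C al : ℝ} (ht0 : 0 < t) (ht1 : t ≤ 1)
    (H : ∀ (F : Finset (ℤ × ℤ)) (b a : Bool) (z : ℤ × ℤ) (r1 r2 : ℕ), At92hExt F → 1 ≤ r1 → r1 ≤ r2 → rswBox z r2 ⊆ F →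
      rswP t F b (fun ω => ¬ RswSep F a ω (rswBox z r1) (F \ rswBox z r2)) ≤ C * ((r1 : ℝ) / r2) ^ al)
    (z w : ℤ × ℤ) (s : Finset (ℤ × ℤ) × Bool) (n ρ : ℕ) (hs : At92hExt s.1) (hF : rswBox z (ρ + 1) ⊆ s.1) (hw : w ∉ rswBox z ρ)
    (r1 : ℕ) (h1 : 1 ≤ r1) (h2 : r1 ≤ ρ) :
    momH (rsf164Ker t z) (fun D => Rsf164Chi z w D ∧ (rsf164Ker t z).rad D ≤ r1) n s ≤ 2 * C * ((r1 : ℝ) / ρ) ^ al := by
  obtain ⟨Φ, hΦ⟩ : ∃ Φ : Finset (ℤ × ℤ) → Prop, Φ = fun D => z ∈ rsxIn D ∧ w ∈ rsxIn D ∧ Rsf164Conn D z w ∧ ¬ rswBox z r1 ⊆ D := ⟨_, rfl⟩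
  have e : momH (rsf164Ker t z) (fun D => Rsf164Chi z w D ∧ (rsf164Ker t z).rad D ≤ r1) n s
      = momH (rsf164Ker t z) (fun s' => Φ s'.1) n s := by
    refine mar11_H_congr _ (fun F D hD => ?_) n s
    have hz := (rsf164_mem_ch.1 hD).2.2.2
    rw [hΦ]
    constructor
    · rintro ⟨⟨a1, a2⟩, a3⟩
      exact ⟨hz, a1, a2, rsf164_rad_le.1 a3⟩
    · rintro ⟨_, a1, a2, a3⟩
      exact ⟨⟨a1, a2⟩, rsf164_rad_le.2 a3⟩
  rw [e]
  refine (mar11_H_le_arm ht0 ht1 z Φ n s hs).trans ?_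
  have hsub : rswBox z ρ ⊆ s.1 := (rsf164_box_mono z (by omega)).trans hF
  have k1 := H s.1 s.2 true z r1 ρ hs h1 h2 hsub
  have k2 := H s.1 s.2 false z r1 ρ hs h1 h2 hsub
  refine (rsz_P_mono ht0.le ht1 s.1 s.2 (L' := fun ω => (¬ RswSep s.1 true ω (rswBox z r1) (s.1 \ rswBox z ρ)) ∨
    (¬ RswSep s.1 false ω (rswBox z r1) (s.1 \ rswBox z ρ))) ?_).trans ((rsz_P_union ht0.le ht1 s.1 s.2 _ _).trans (by linarith))
  rintro ω ⟨D, _, hext, ⟨a, hcut⟩, hD⟩
  rw [hΦ] at hD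
  obtain ⟨a1, a2, a3, a4⟩ := hD
  have := mar11_det hext hcut a1 a2 a3 h2 a4 hF hw
  cases a
  · exact Or.inl this
  · exact Or.inr this

/-! ## 5. The glue -/

/-- **THE COVARIANCE BOUND OF BLOCK R6a (`Msm131CovE`) FROM THE TWO PROBABILISTIC RECORDS** -/
theorem mar11_covE {t : ℝ} (ht0 : 0 < t) (ht1 : t ≤ 1) (HO : Rao225Obs t) (HS : Rao225Stack t) : Msm131CovE t := by
  classical
  obtain ⟨κ, r0, hκ, HO⟩ := HO
  obtain ⟨C, al, hC, hal, HS⟩ := HS
  obtain ⟨C', hC', HA⟩ := msh11_abs κ (r0 + 2) (2 * C) al hκ (by positivity) hal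
  refine ⟨1 + 2 * C', by positivity, ?_⟩
  intro F z w n hF hbox hn
  obtain ⟨d, hd⟩ : ∃ d, d = msm131Dist z w := ⟨_, rfl⟩
  rw [← hd] at hbox ⊢
  have hnd : d + 2 ≤ n := by
    by_contra hcon
    exact hn ((rsf164_box_mono z (by omega)).trans hbox)
  have hz : z ∈ rsxIn F := rsf164_in_iff_box.2 ((rsf164_box_mono z (by omega)).trans hbox)
  have hw : w ∈ rsxIn F := rsf164_in_iff_box.2 ((msm131_box_sub (by rw [msm131_dist_comm, ← hd]; omega)).trans hbox)
  have hwb : w ∉ rswBox z (d - 1) := by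
    rw [rsf164_mem_box]
    unfold msm131Dist at hd
    omega
  have h1 := rsf164_cov_le ht0 ht1 z w F.card (F, true) hF hz hw le_rfl
  have h2 := HA _ (rsf164Ker t z) (rsf164_ker_ok ht0 ht1 z) (Rsf164Chi z w) (d - 1) n (F, true) F.card
    (fun s r hs hr hrad => mar11_obs ht0 ht1 HO z s r hs hr hrad)
    (fun s s' hs' => mar11_pot t z s s' hs')
    (fun r1 a1 a2 => mar11_arm ht0 ht1 HS z w (F, true) F.card (d - 1) hF ((rsf164_box_mono z (by omega)).trans hbox) hwb r1 a1 a2)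
    hF (rsf164_rad_le.2 hn) (by omega) (by omega)
  have h3 : |rswE t F true (fun ω => rswH F ω z * rswH F ω w)| ≤ 1 + C' * (1 + Real.log ((n : ℝ) / max 1 ((d - 1 : ℕ) : ℝ))) :=
    h1.trans (by linarith)
  refine h3.trans ?_
  obtain ⟨A, hA⟩ : ∃ A : ℕ, A = max 1 d := ⟨_, rfl⟩
  obtain ⟨B, hB⟩ : ∃ B : ℕ, B = max 1 (d - 1) := ⟨_, rfl⟩
  have eA : max 1 (d : ℝ) = (A : ℝ) := by rw [hA]; push_cast; rfl
  have eB : max 1 ((d - 1 : ℕ) : ℝ) = (B : ℝ) := by rw [hB, Nat.cast_max, Nat.cast_one]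
  rw [eA, eB]
  have hA1 : (1 : ℝ) ≤ A := by exact_mod_cast (by omega : 1 ≤ A)
  have hB1 : (1 : ℝ) ≤ B := by exact_mod_cast (by omega : 1 ≤ B)
  have hAB : (A : ℝ) ≤ 2 * B := by exact_mod_cast (by omega : A ≤ 2 * B)
  have hAn : (A : ℝ) ≤ n := by exact_mod_cast (by omega : A ≤ n)
  have hn0 : (0 : ℝ) < n := by linarith
  have hL : 0 ≤ Real.log ((n : ℝ) / A) := Real.log_nonneg (by rw [le_div_iff₀ (by linarith)]; linarith)
  have hq : (n : ℝ) / B ≤ 2 * ((n : ℝ) / A) := by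
    rw [div_le_iff₀ (by linarith), mul_assoc, div_mul_eq_mul_div, mul_div_assoc', le_div_iff₀ (by linarith)]
    nlinarith
  have hL' : Real.log ((n : ℝ) / B) ≤ Real.log 2 + Real.log ((n : ℝ) / A) := by
    rw [← Real.log_mul (by norm_num) (by positivity)]
    exact Real.log_le_log (by positivity) hq
  have hl2 : Real.log 2 ≤ 1 := by
    have := Real.log_two_lt_d9
    linarith
  nlinarith [mul_nonneg hC'.le hL, mul_le_mul_of_nonneg_left hL' hC'.le, mul_le_mul_of_nonneg_left hl2 hC'.le]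

/-- the record of 101 is the record of 219 without pins -/
theorem mar11_circ_of_ah {t p : ℝ} {n0 : ℕ} (H : Ah219Circ t p n0) : Arm101Circ t p n0 := by
  intro n hn F z b a L hF hB hL
  have := H n hn F z b a L ∅ hF hB hL
  simpa using this

/-- (STACK) from the record of 219 -/
theorem mar11_stack_of_ah {t p : ℝ} {n0 : ℕ} (ht0 : 0 < t) (ht1 : t ≤ 1) (hp : 0 < p) (H : Ah219Circ t p n0) : Rao225Stack t :=
  rao225_stack ht0 ht1 hp (mar11_circ_of_ah H)

/-- the covariance bound from the record of 219 and the obstacle record -/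
theorem mar11_covE_of_ah {t p : ℝ} {n0 : ℕ} (ht0 : 0 < t) (ht1 : t ≤ 1) (hp : 0 < p) (H : Ah219Circ t p n0) (HO : Rao225Obs t) :
    Msm131CovE t :=
  mar11_covE ht0 ht1 HO (mar11_stack_of_ah ht0 ht1 hp H)

/-! ## 6. The wire: `exit_msm_covE` from the statement of `exit_rsw_circuit` -/

/-- the record `Rsa107Fkg` = `cmp291_exit_cmp` (291, PROVED) at the empty prescription -/
theorem mar11_fkg (t : ℝ) (ht1 : 1 / 2 ≤ t) (ht2 : t < 1) : Rsa107Fkg t := by
  intro F hF b a X Y hX hY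
  have hok : (⟨∅, ∅, ∅, ∅⟩ : MdlPin).Ok := by
    intro e he
    simp at he
  have hold : ∀ ω, (⟨∅, ∅, ∅, ∅⟩ : MdlPin).Holds ω := fun ω =>
    ⟨Finset.empty_subset _, fun v hv => absurd hv (Finset.notMem_empty v), Finset.empty_subset _,
      fun e he => absurd he (Finset.notMem_empty e)⟩
  have h := cmp291_exit_cmp t ht1 ht2 F hF b a ⟨∅, ∅, ∅, ∅⟩ hok X Y hX hY
  simpa only [mdlSumK, hold, if_true] using h

/-- **`Msm131CovE t` FROM THE STATEMENT OF `exit_rsw_circuit` ALONE** (no sorry in the closure) -/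
theorem mar11_exit (t : ℝ) (ht1 : 1 / 2 ≤ t) (ht2 : t < 1)
    (hc : ∃ (κ n0 : ℕ) (p : ℝ), 2 ≤ κ ∧ 0 < p ∧ ∀ n : ℕ, n0 ≤ n →
      p ≤ rswP t (rswBox 0 (κ * n)) true
        (fun ω => RswSep (rswBox 0 (κ * n)) false ω (rswBox 0 n) (rswLayer (rswBox 0 (κ * n))))) : Msm131CovE t := by
  obtain ⟨κ, n0, p, hκ, hp, h⟩ := hc
  obtain ⟨p', hp', n0', H⟩ := mdl1_exit_circ_rsw t ht1 ht2
    ⟨κ, n0, p, hκ, hp, fun n hn x a => cs101_of_record (h n hn) x a⟩ 0
  have HC : Arm101Circ t p' n0' := by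
    intro n hn F z b a L hJ hsub hL
    have h34 : rswBox z ((0 + 3) * n) ⊆ rswBox z (4 * n) := mdl1_box_mono z (by omega)
    have := H n hn F z b a L hJ (h34.trans hsub) (mdl1_ext_mono (Finset.sdiff_subset.trans h34) hL)
    simpa using this
  have ht0 : 0 < t := by linarith
  exact mar11_covE ht0 ht2.le (rao225_obs ht0 ht2.le hp' HC (mar11_fkg t ht1 ht2)) (rao225_stack ht0 ht2.le hp' HC)

end Claimed.Agent.R292
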