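import Claimed.Agent.R292.Rsw.Plane171
import Claimed.Agent.R292.Rsw.Base31
import Claimed.Agent.R292.Rsw.Cut91
import Claimed.Agent.R292.Rsw.Expl107
import Claimed.Agent.R292.Defs.MODEL
import Claimed.Agent.R292.Rsw.CoreTop121

/-!
# Row 292 (S0540), Rsw/PlaneIn31 : THE RECORD `RspIn` OF `Rsw/Plane171` FOR `Dom = RswJordan`      (pen helper31; prefix `rpi31_`, `Rpi31`, `rpi31`)      0 sorry

Consumes: `Rpi31S0 t` = the statement of `exit_mdl_cmp` (S0: FKG in the order (3.4) under Ok pins; pen 291), `rsk_cut` (91), `rsx_swap_E` + exploration (107).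
* `rpi31Clean` : erase the open edges which are not monochromatic (same law); bridges `RspInc` (171) and `MdlInc true` (191)
* **`rpi31_dn`**  : `E_{F',-} A ≤ E_{F,b} A`      (FKG without pins against the decreasing event "minus cut of `F'`" + cut + positivity)
* **`rpi31_up`**  : `E_{F,b} (A Y) ≤ E_{F'',+} A * E_{F,b} Y`, `Y ≥ 0` exterior data of `F'`, `F''` deep in `F'` (one layer of buffer)
                    (complete exterior patterns = Ok pins; FKG under the pins against the increasing event "plus cut of `F''`" + cut + finite energy)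
* **`rpi31_in`**  : the record `RspIn t p κ n0 RswJordan` (v2 of 171) from (S0) + Jordan boxes (205 / 79) + the circuit estimate
* **`rpi31_mono`** : the contract `RcMono t` ((T2) for `U`) of `Rsw/CoreTop121`;  `rpi31_up1`
* **`rpi31_plane`** : the statement of `exit_rsw_plane` VERBATIM from (S0) + Jordan boxes + the statement of `exit_rsw_circuit`
-/

set_option autoImplicit false

namespace Claimed.Agent.R292

open Claims Claims.C0468

/-- (S0) = the statement of `exit_mdl_cmp` -/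
def Rpi31S0 (t : ℝ) : Prop :=
  ∀ F : Finset (ℤ × ℤ), RswJordan F → ∀ (b a : Bool) (K : MdlPin), K.Ok → ∀ X Y : RswCfg → ℝ, MdlInc a X → MdlInc a Y →
    mdlSumK t F b K X * mdlSumK t F b K Y ≤ mdlSumK t F b K (fun _ => 1) * mdlSumK t F b K fun ω => X ω * Y ω

/-! ## 1. geometry -/

theorem rpi31_mem_inn {F : Finset (ℤ × ℤ)} {v : ℤ × ℤ} : v ∈ rspInn F ↔ ¬ OnPolygon F v := by
  unfold rspInn
  classical
  rw [Finset.mem_filter]
  exact ⟨fun h => h.2, fun h => ⟨rsx_in_sub_corners F (rsx_in_iff.2 h), h⟩⟩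

theorem rpi31_inn_eq (F : Finset (ℤ × ℤ)) : rspInn F = rsxIn F := by
  ext v; rw [rpi31_mem_inn, rsx_in_iff]

theorem rpi31_core_eq (F : Finset (ℤ × ℤ)) : rskCore F = rsxIn F := by
  ext v; rw [rsk_core_iff, rsx_in_iff]

/-- an edge which is not interior to `F'` has no endpoint strictly inside `F'` -/
theorem rpi31_ends_out {F' : Finset (ℤ × ℤ)} {e : (ℤ × ℤ) × Bool} (he : e ∉ rswInt F') :
    e.1 ∉ rsxIn F' ∧ rswEnd e ∉ rsxIn F' :=
  ⟨fun h => he (rsx_mem_int.2 (rsx_in_faces1 h)), fun h => he (rsx_mem_int.2 (rsx_in_faces2 h))⟩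

/-- the endpoints of an edge of the polygon of `F'` are corners of `F'` -/
theorem rpi31_bd_corners {F' : Finset (ℤ × ℤ)} {e : (ℤ × ℤ) × Bool} (h : RskBd F' e) :
    e.1 ∈ cornersOf F' ∧ rswEnd e ∈ cornersOf F' := by
  have h' : e.1 ∈ F' ∨ rswCo e ∈ F' := by
    rcases h with h | h
    · exact Or.inl h.1
    · exact Or.inr h.2
  exact ⟨rsx_end_corner1 h', rsx_end_corner2 h'⟩

/-! ## 2. erasing the open edges which are not monochromatic -/

/-- erase the open edges which are not monochromatic -/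
noncomputable def rpi31Clean (ω : RswCfg) : RswCfg :=
  ⟨ω.S, ω.D, @Finset.filter _ (fun e => (e.1 ∈ ω.S ↔ rswEnd e ∈ ω.S)) (fun _ => Classical.propDecidable _) ω.O⟩

theorem rpi31_mem_clean {ω : RswCfg} {e : (ℤ × ℤ) × Bool} :
    e ∈ (rpi31Clean ω).O ↔ e ∈ ω.O ∧ (e.1 ∈ ω.S ↔ rswEnd e ∈ ω.S) :=
  @Finset.mem_filter _ _ (fun _ => Classical.propDecidable _) _ _

theorem rpi31_clean_le {ω ω' : RswCfg} (h : MdlLe true ω ω') : RspLe (rpi31Clean ω) (rpi31Clean ω') := by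
  obtain ⟨h1, h2, h3⟩ := h
  refine ⟨fun v hv => ?_, fun e he hs => ?_, fun e he hs => ?_⟩
  · have hv' : v ∈ ω.S := hv
    have := h1 v (by simpa using hv')
    simp only [iff_true] at this
    exact this
  · rw [rpi31_mem_clean] at he ⊢
    have hs' : e.1 ∈ ω.S := hs
    have hg : RswGood true ω e := ⟨he.1, by simpa using hs', by simpa using he.2.1 hs'⟩
    obtain ⟨g1, g2, g3⟩ := h2 e hg
    exact ⟨g1, by simp only [iff_true] at g2 g3; exact ⟨fun _ => g3, fun _ => g2⟩⟩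
  · rw [rpi31_mem_clean] at he ⊢
    have hs' : e.1 ∉ ω'.S := hs
    have hg : RswGood (!true) ω' e :=
      ⟨he.1, by simpa using hs', by simpa using fun h => hs' (he.2.2 h)⟩
    obtain ⟨g1, g2, g3⟩ := h3 e hg
    simp only [Bool.not_true, Bool.false_eq_true, iff_false] at g2 g3
    exact ⟨g1, ⟨fun h => (g2 h).elim, fun h => (g3 h).elim⟩⟩

theorem rpi31_clean_eq {t : ℝ} {F : Finset (ℤ × ℤ)} {b : Bool} {ω : RswCfg} (hin : RsbIn F ω) (hw : rswWt t F b ω ≠ 0) :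
    rpi31Clean ω = ω := by
  obtain ⟨S, D, O⟩ := ω
  have : (rpi31Clean ⟨S, D, O⟩).O = O := by
    ext e
    rw [rpi31_mem_clean]
    exact ⟨fun h => h.1, fun h => ⟨h, ((rsb_wt_ne_zero hw).2 e (hin.2.2 h)).2.1 h⟩⟩
  unfold rpi31Clean at this ⊢
  simp only at this ⊢
  rw [this]

theorem rpi31_inc {A : RswCfg → ℝ} (hA : RspInc A) : MdlInc true (fun ω => A (rpi31Clean ω)) :=
  fun _ _ h => hA _ _ (rpi31_clean_le h)

theorem rpi31_inside {F' : Finset (ℤ × ℤ)} {A : RswCfg → ℝ} (hA : RspLoc (cornersOf F') ∅ (rswInt F') A) :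
    RskInside F' (fun ω => A (rpi31Clean ω)) := by
  intro ω
  refine hA _ _ ?_ ?_ ?_
  · ext v
    simp only [rpi31Clean, rskIn, Finset.mem_inter]
    tauto
  · simp
  · ext e
    simp only [Finset.mem_inter, rpi31_mem_clean]
    constructor
    · rintro ⟨⟨h1, h2⟩, h3⟩
      have c1 := rsb_int_fst_corner h3
      have c2 := rsb_int_end_corner h3
      simp only [rskIn, Finset.mem_inter, c1, c2, and_true] at h1 h2
      exact ⟨⟨h1.1, h2⟩, h3⟩
    · rintro ⟨⟨h1, h2⟩, h3⟩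
      have c1 := rsb_int_fst_corner h3
      have c2 := rsb_int_end_corner h3
      simp only [rskIn, Finset.mem_inter, c1, c2, and_true]
      exact ⟨⟨⟨h1, h3⟩, h2⟩, h3⟩

/-! ## 3. positivity -/

theorem rpi31_wt_pos {t : ℝ} (h0 : 0 < t) (h1 : t < 1) {F : Finset (ℤ × ℤ)} {b : Bool} {S : Finset (ℤ × ℤ)}
    {O : Finset ((ℤ × ℤ) × Bool)} (hbc : RswBc F b ⟨S, ∅, O⟩)
    (hm : ∀ e ∈ rswInt F, e ∈ O → (e.1 ∈ S ↔ rswEnd e ∈ S)) : 0 < rswWt t F b ⟨S, ∅, O⟩ := by
  unfold rswWt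
  rw [if_pos hbc]
  refine Finset.prod_pos fun e he => ?_
  unfold rswFac
  by_cases ho : e ∈ O
  · rw [if_pos ho, if_pos (hm e he ho)]; exact h0
  · rw [if_neg ho, if_pos (by simp)]
    split_ifs
    · linarith
    · exact h0

theorem rpi31_sum_pos {t : ℝ} (h0 : 0 < t) (h1 : t ≤ 1) {F : Finset (ℤ × ℤ)} {b : Bool} {X : RswCfg → ℝ}
    (hX : ∀ ω, 0 ≤ X ω) {ω : RswCfg} (hin : RsbIn F ω) (hw : 0 < rswWt t F b ω) (hx : 0 < X ω) : 0 < rswSum t F b X := by
  rw [rsb_sum_eq]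
  refine Finset.sum_pos' (fun p _ => mul_nonneg (rsb_wt_nonneg h0.le h1 F b _) (hX _))
    ⟨(ω.S, ω.D, ω.O), rsb_mem_all.2 hin, mul_pos hw hx⟩

/-- a nonnegative sum which vanishes kills every weighted sum carried by it -/
theorem rpi31_sum_zero {t : ℝ} (h0 : 0 ≤ t) (h1 : t ≤ 1) {F : Finset (ℤ × ℤ)} {b : Bool} {I : RswCfg → ℝ}
    (hI : ∀ ω, 0 ≤ I ω) (hz : rswSum t F b I = 0) (X : RswCfg → ℝ) : rswSum t F b (fun ω => I ω * X ω) = 0 := by
  rw [rsb_sum_eq] at hz ⊢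
  have := (Finset.sum_eq_zero_iff_of_nonneg (fun p _ => mul_nonneg (rsb_wt_nonneg h0 h1 F b _) (hI _))).1 hz
  refine Finset.sum_eq_zero fun p hp => ?_
  rw [← mul_assoc, this p hp, zero_mul]

/-! ## 4. `dn` -/

/-- no pin -/
def rpi31NoPin : MdlPin := ⟨∅, ∅, ∅, ∅⟩

theorem rpi31_noPin_ok : rpi31NoPin.Ok := by
  intro e he
  simp [rpi31NoPin] at he

theorem rpi31_noPin_sum (t : ℝ) (F : Finset (ℤ × ℤ)) (b : Bool) (X : RswCfg → ℝ) :
    mdlSumK t F b rpi31NoPin X = rswSum t F b X := by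
  unfold mdlSumK
  congr 1
  funext ω
  rw [if_pos]
  exact ⟨Finset.empty_subset _, by simp [rpi31NoPin], Finset.empty_subset _, by simp [rpi31NoPin]⟩

theorem rpi31_ind_nonneg (F' : Finset (ℤ × ℤ)) (a : Bool) (ω : RswCfg) : 0 ≤ rskInd F' a ω := by
  unfold rskInd; split_ifs <;> norm_num

theorem rpi31_ind_pos {F' : Finset (ℤ × ℤ)} {a : Bool} {ω : RswCfg} (h : RswCut F' a ω) : rskInd F' a ω = 1 := by
  unfold rskInd; rw [if_pos h]

theorem rpi31_ind_neg {F' : Finset (ℤ × ℤ)} {a : Bool} {ω : RswCfg} (h : ¬ RswCut F' a ω) : rskInd F' a ω = 0 := by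
  unfold rskInd; rw [if_neg h]

theorem rpi31_ind_inc (F' : Finset (ℤ × ℤ)) : MdlInc true (rskInd F' true) := by
  intro ω ω' h
  by_cases hc : RswCut F' true ω
  · have hc' : RswCut F' true ω' := fun e he => h.2.1 e (hc e he)
    rw [rpi31_ind_pos hc, rpi31_ind_pos hc']
  · rw [rpi31_ind_neg hc]; exact rpi31_ind_nonneg _ _ _

theorem rpi31_ind_dec (F' : Finset (ℤ × ℤ)) : MdlInc true (fun ω => 1 - rskInd F' false ω) := by
  intro ω ω' h
  show 1 - rskInd F' false ω ≤ 1 - rskInd F' false ω'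
  by_cases hc : RswCut F' false ω'
  · have hc' : RswCut F' false ω := fun e he => h.2.2 e (hc e he)
    rw [rpi31_ind_pos hc, rpi31_ind_pos hc']
  · rw [rpi31_ind_neg hc]
    have := rpi31_ind_nonneg F' false ω
    linarith

/-- the minus cut of a deep `F'` has positive weight -/
theorem rpi31_cut_pos_minus {t : ℝ} (h0 : 0 < t) (h1 : t < 1) {F' F : Finset (ℤ × ℤ)} (hdeep : RspDeep F' F) (b : Bool) :
    0 < rswSum t F b (rskInd F' false) := by
  classical
  obtain ⟨S, hS⟩ : ∃ S : Finset (ℤ × ℤ), S = if b = true then cornersOf F \ cornersOf F' else ∅ := ⟨_, rfl⟩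
  obtain ⟨O, hO⟩ : ∃ O : Finset ((ℤ × ℤ) × Bool), O = (rswInt F).filter (fun e => (e.1 ∈ S ↔ rswEnd e ∈ S)) := ⟨_, rfl⟩
  have hSsub : S ⊆ cornersOf F := by
    rw [hS]; split_ifs
    · exact Finset.sdiff_subset
    · exact Finset.empty_subset _
  have hSF' : ∀ v ∈ cornersOf F', v ∉ S := by
    intro v hv
    rw [hS]; split_ifs
    · simp [hv]
    · simp
  have hin : RsbIn F ⟨S, ∅, O⟩ := ⟨hSsub, Finset.empty_subset _, by rw [hO]; exact Finset.filter_subset _ _⟩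
  have hbc : RswBc F b ⟨S, ∅, O⟩ := by
    intro v hv hp
    show v ∈ S ↔ b = true
    rw [hS]
    by_cases hb : b = true
    · rw [if_pos hb]
      simp only [Finset.mem_sdiff, hv, true_and, hb, iff_true]
      exact fun h => hdeep v h hp
    · rw [if_neg hb]; simp [hb]
  have hw : 0 < rswWt t F b ⟨S, ∅, O⟩ := rpi31_wt_pos h0 h1 hbc fun e _ he => by
    rw [hO, Finset.mem_filter] at he; exact he.2
  have hcut : RswCut F' false ⟨S, ∅, O⟩ := by
    intro e he
    obtain ⟨c1, c2⟩ := rpi31_bd_corners he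
    have n1 := hSF' _ c1
    have n2 := hSF' _ c2
    refine ⟨?_, by simpa using n1, by simpa using n2⟩
    show e ∈ O
    rw [hO, Finset.mem_filter]
    exact ⟨rsx_mem_int.2 (rsx_in_faces1 (rsx_in_iff.2 (hdeep _ c1))), ⟨fun h => (n1 h).elim, fun h => (n2 h).elim⟩⟩
  exact rpi31_sum_pos h0 h1.le (rpi31_ind_nonneg F' false) hin hw (by rw [rpi31_ind_pos hcut]; norm_num)

/-- **`dn`**: the law inside `F'` dominates the minus flat law of `F'` -/
theorem rpi31_dn {t : ℝ} (h0 : 0 < t) (h1 : t < 1) (hS0 : Rpi31S0 t) {F' F : Finset (ℤ × ℤ)} (b : Bool) {A : RswCfg → ℝ}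
    (hF : RswJordan F) (hsub : F' ⊆ F) (hdeep : RspDeep F' F) (hA : RspInc A)
    (hloc : RspLoc (cornersOf F') ∅ (rswInt F') A) : rswE t F' false A ≤ rswE t F b A := by
  have eF : rswE t F b (fun ω => A (rpi31Clean ω)) = rswE t F b A :=
    rsb_E_congr fun ω hin hw => by rw [rpi31_clean_eq hin hw]
  have eF' : rswE t F' false (fun ω => A (rpi31Clean ω)) = rswE t F' false A :=
    rsb_E_congr fun ω hin hw => by rw [rpi31_clean_eq hin hw]
  rw [← eF, ← eF']
  have fkg := hS0 F hF b true rpi31NoPin rpi31_noPin_ok _ _ (rpi31_inc hA) (rpi31_ind_dec F')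
  simp only [rpi31_noPin_sum] at fkg
  have cut := rsk_cut h0 h1.le hsub false b (rpi31_inside hloc) (rsk_outside_const F' 1)
  simp only [mul_one] at cut
  have hZ := rsb_Z_pos h0 h1.le F b
  have hI := rpi31_cut_pos_minus h0 h1 hdeep b
  have e1 : rswSum t F b (fun ω => 1 - rskInd F' false ω) = rswSum t F b (fun _ => 1) - rswSum t F b (rskInd F' false) :=
    rsb_sum_sub t F b _ _
  have e2 : rswSum t F b (fun ω => A (rpi31Clean ω) * (1 - rskInd F' false ω)) =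
      rswSum t F b (fun ω => A (rpi31Clean ω)) - rswSum t F b (fun ω => rskInd F' false ω * A (rpi31Clean ω)) := by
    rw [← rsb_sum_sub]
    congr 1
    funext ω
    ring
  rw [e1, e2, cut] at fkg
  have e3 : rswE t F b (fun ω => A (rpi31Clean ω)) = rswSum t F b (fun ω => A (rpi31Clean ω)) / rswSum t F b (fun _ => 1) := rfl
  rw [e3, le_div_iff₀ hZ]
  have key : (rswE t F' false (fun ω => A (rpi31Clean ω)) * rswSum t F b (fun _ => 1)) * rswSum t F b (rskInd F' false)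
      ≤ rswSum t F b (fun ω => A (rpi31Clean ω)) * rswSum t F b (rskInd F' false) := by
    have : (fun ω => rskInd F' false ω) = rskInd F' false := rfl
    rw [this] at fkg
    nlinarith [fkg]
  exact le_of_mul_le_mul_right key hI

/-! ## 5. `up` -/

/-- the pins of a complete exterior pattern `P = (plus spins, open edges)` of `F'` in `F` -/
def rpi31Pat (F F' : Finset (ℤ × ℤ)) (P : Finset (ℤ × ℤ) × Finset ((ℤ × ℤ) × Bool)) : MdlPin :=
  ⟨P.1, (cornersOf F \ rsxIn F') \ P.1, P.2, (rswInt F \ rswInt F') \ P.2⟩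

/-- all complete exterior patterns -/
def rpi31Pats (F F' : Finset (ℤ × ℤ)) : Finset (Finset (ℤ × ℤ) × Finset ((ℤ × ℤ) × Bool)) :=
  (cornersOf F \ rsxIn F').powerset ×ˢ (rswInt F \ rswInt F').powerset

theorem rpi31_mem_pats {F F' : Finset (ℤ × ℤ)} {P : Finset (ℤ × ℤ) × Finset ((ℤ × ℤ) × Bool)} :
    P ∈ rpi31Pats F F' ↔ P.1 ⊆ cornersOf F \ rsxIn F' ∧ P.2 ⊆ rswInt F \ rswInt F' := by
  unfold rpi31Pats
  rw [Finset.mem_product, Finset.mem_powerset, Finset.mem_powerset]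

theorem rpi31_pat_ok {F F' : Finset (ℤ × ℤ)} {P : Finset (ℤ × ℤ) × Finset ((ℤ × ℤ) × Bool)} (hP : P ∈ rpi31Pats F F') :
    (rpi31Pat F F' P).Ok := by
  rw [rpi31_mem_pats] at hP
  intro e he
  have he' : e ∈ rswInt F \ rswInt F' := by
    simp only [rpi31Pat, Finset.mem_union, Finset.mem_sdiff] at he
    rcases he with he | he
    · exact hP.2 he
    · exact Finset.mem_sdiff.2 he.1
  obtain ⟨i1, i2⟩ := Finset.mem_sdiff.1 he'
  obtain ⟨o1, o2⟩ := rpi31_ends_out i2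
  have c1 := rsb_int_fst_corner i1
  have c2 := rsb_int_end_corner i1
  simp only [rpi31Pat, Finset.mem_union, Finset.mem_sdiff]
  constructor
  · by_cases h : e.1 ∈ P.1
    · exact Or.inl h
    · exact Or.inr ⟨⟨c1, o1⟩, h⟩
  · by_cases h : rswEnd e ∈ P.1
    · exact Or.inl h
    · exact Or.inr ⟨⟨c2, o2⟩, h⟩

theorem rpi31_holds_iff {F F' : Finset (ℤ × ℤ)} {P : Finset (ℤ × ℤ) × Finset ((ℤ × ℤ) × Bool)} (hP : P ∈ rpi31Pats F F')
    {ω : RswCfg} (hin : RsbIn F ω) :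
    (rpi31Pat F F' P).Holds ω ↔ ω.S \ rsxIn F' = P.1 ∧ ω.O \ rswInt F' = P.2 := by
  rw [rpi31_mem_pats] at hP
  unfold MdlPin.Holds
  simp only [rpi31Pat]
  constructor
  · rintro ⟨a1, a2, a3, a4⟩
    constructor
    · ext v
      rw [Finset.mem_sdiff]
      constructor
      · rintro ⟨h1, h2⟩
        by_contra h3
        exact a2 v (Finset.mem_sdiff.2 ⟨Finset.mem_sdiff.2 ⟨hin.1 h1, h2⟩, h3⟩) h1
      · intro h
        exact ⟨a1 h, (Finset.mem_sdiff.1 (hP.1 h)).2⟩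
    · ext e
      rw [Finset.mem_sdiff]
      constructor
      · rintro ⟨h1, h2⟩
        by_contra h3
        exact a4 e (Finset.mem_sdiff.2 ⟨Finset.mem_sdiff.2 ⟨hin.2.2 h1, h2⟩, h3⟩) h1
      · intro h
        exact ⟨a3 h, (Finset.mem_sdiff.1 (hP.2 h)).2⟩
  · rintro ⟨a1, a2⟩
    refine ⟨?_, ?_, ?_, ?_⟩
    · rw [← a1]; exact Finset.sdiff_subset
    · intro v hv h
      obtain ⟨h1, h2⟩ := Finset.mem_sdiff.1 hv
      exact h2 (by rw [← a1]; exact Finset.mem_sdiff.2 ⟨h, (Finset.mem_sdiff.1 h1).2⟩)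
    · rw [← a2]; exact Finset.sdiff_subset
    · intro e he h
      obtain ⟨h1, h2⟩ := Finset.mem_sdiff.1 he
      exact h2 (by rw [← a2]; exact Finset.mem_sdiff.2 ⟨h, (Finset.mem_sdiff.1 h1).2⟩)

/-- **decomposition over the complete exterior patterns** -/
theorem rpi31_split (t : ℝ) (F F' : Finset (ℤ × ℤ)) (b : Bool) (G : RswCfg → ℝ) :
    rswSum t F b G = ∑ P ∈ rpi31Pats F F', mdlSumK t F b (rpi31Pat F F' P) G := by
  classical
  unfold mdlSumK
  rw [← rsb_sum_finset_sum]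
  refine rsb_sum_congr fun ω hin _ => ?_
  have hP0 : (ω.S \ rsxIn F', ω.O \ rswInt F') ∈ rpi31Pats F F' :=
    rpi31_mem_pats.2 ⟨Finset.sdiff_subset_sdiff hin.1 (Finset.Subset.refl _), Finset.sdiff_subset_sdiff hin.2.2 (Finset.Subset.refl _)⟩
  rw [Finset.sum_eq_single (ω.S \ rsxIn F', ω.O \ rswInt F')]
  · rw [if_pos ((rpi31_holds_iff hP0 hin).2 ⟨rfl, rfl⟩)]
  · intro P hP hne
    rw [if_neg]
    intro h
    obtain ⟨a1, a2⟩ := (rpi31_holds_iff hP hin).1 h
    exact hne (Prod.ext a1.symm a2.symm)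
  · intro h; exact absurd hP0 h

/-- the indicator of a pin set -/
noncomputable def rpi31IK (K : MdlPin) (ω : RswCfg) : ℝ := open Classical in if K.Holds ω then 1 else 0

theorem rpi31_IK_nonneg (K : MdlPin) (ω : RswCfg) : 0 ≤ rpi31IK K ω := by
  unfold rpi31IK; split_ifs <;> norm_num

theorem rpi31_sumK_eq (t : ℝ) (F : Finset (ℤ × ℤ)) (b : Bool) (K : MdlPin) (X : RswCfg → ℝ) :
    mdlSumK t F b K X = rswSum t F b (fun ω => rpi31IK K ω * X ω) := by
  unfold mdlSumK rpi31IK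
  congr 1
  funext ω
  by_cases h : K.Holds ω
  · rw [if_pos h, if_pos h, one_mul]
  · rw [if_neg h, if_neg h, zero_mul]

/-- the pins of an exterior pattern of `F'` do not read the strict inside of `F'' ⊆ F'` -/
theorem rpi31_IK_outside {F F' F'' : Finset (ℤ × ℤ)} (h2 : F'' ⊆ F') {P : Finset (ℤ × ℤ) × Finset ((ℤ × ℤ) × Bool)}
    (hP : P ∈ rpi31Pats F F') : RskOutside F'' (rpi31IK (rpi31Pat F F' P)) := by
  rw [rpi31_mem_pats] at hP
  intro ω
  have hv : ∀ v, v ∉ rsxIn F' → (v ∈ (rskOut F'' ω).S ↔ v ∈ ω.S) := by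
    intro v hv
    refine rsk_out_S ?_
    rw [rpi31_core_eq]
    exact fun h => hv (rsx_in_mono h2 h)
  have he : ∀ e, e ∉ rswInt F' → (e ∈ (rskOut F'' ω).O ↔ e ∈ ω.O) := by
    intro e he
    exact rsk_out_O fun h => he (rsx_int_mono h2 h)
  have : (rpi31Pat F F' P).Holds (rskOut F'' ω) ↔ (rpi31Pat F F' P).Holds ω := by
    unfold MdlPin.Holds
    simp only [rpi31Pat]
    refine and_congr ?_ (and_congr ?_ (and_congr ?_ ?_))
    · exact ⟨fun h v hvP => (hv v (Finset.mem_sdiff.1 (hP.1 hvP)).2).1 (h hvP),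
        fun h v hvP => (hv v (Finset.mem_sdiff.1 (hP.1 hvP)).2).2 (h hvP)⟩
    · refine forall_congr' fun v => forall_congr' fun hvm => ?_
      rw [hv v (Finset.mem_sdiff.1 (Finset.mem_sdiff.1 hvm).1).2]
    · exact ⟨fun h e heP => (he e (Finset.mem_sdiff.1 (hP.2 heP)).2).1 (h heP),
        fun h e heP => (he e (Finset.mem_sdiff.1 (hP.2 heP)).2).2 (h heP)⟩
    · refine forall_congr' fun e => forall_congr' fun hem => ?_
      rw [he e (Finset.mem_sdiff.1 (Finset.mem_sdiff.1 hem).1).2]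
  unfold rpi31IK
  by_cases h : (rpi31Pat F F' P).Holds ω
  · rw [if_pos h, if_pos (this.2 h)]
  · rw [if_neg h, if_neg (fun h' => h (this.1 h'))]

/-- **finite energy**: a feasible exterior pattern of `F'` is compatible with the plus cut of a deep `F''` -/
theorem rpi31_energy {t : ℝ} (h0 : 0 < t) (h1 : t < 1) {F'' F' F : Finset (ℤ × ℤ)} (hsub : F' ⊆ F) (hdeep : RspDeep F'' F')
    (b : Bool) {P : Finset (ℤ × ℤ) × Finset ((ℤ × ℤ) × Bool)} (hP : P ∈ rpi31Pats F F') {ω : RswCfg} (hin : RsbIn F ω)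
    (hw : rswWt t F b ω ≠ 0) (hH : (rpi31Pat F F' P).Holds ω) :
    ∃ ω', RsbIn F ω' ∧ 0 < rswWt t F b ω' ∧ (rpi31Pat F F' P).Holds ω' ∧ RswCut F'' true ω' := by
  classical
  obtain ⟨S, hS⟩ : ∃ S : Finset (ℤ × ℤ), S = ω.S ∪ rsxIn F' := ⟨_, rfl⟩
  obtain ⟨O, hO⟩ : ∃ O : Finset ((ℤ × ℤ) × Bool),
      O = (ω.O \ rswInt F') ∪ (rswInt F').filter (fun e => e.1 ∈ S ∧ rswEnd e ∈ S) := ⟨_, rfl⟩
  have hSout : ∀ v, v ∉ rsxIn F' → (v ∈ S ↔ v ∈ ω.S) := by
    intro v hv; rw [hS, Finset.mem_union]; exact ⟨fun h => h.resolve_right hv, Or.inl⟩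
  have hin' : RsbIn F ⟨S, ∅, O⟩ := by
    refine ⟨?_, Finset.empty_subset _, ?_⟩
    · show S ⊆ cornersOf F
      rw [hS]
      exact Finset.union_subset hin.1 ((rsx_in_sub_corners F').trans (rsx_corners_mono hsub))
    · show O ⊆ rswInt F
      rw [hO]
      exact Finset.union_subset (Finset.sdiff_subset.trans hin.2.2) ((Finset.filter_subset _ _).trans (rsx_int_mono hsub))
  obtain ⟨wbc, wfac⟩ := rsb_wt_ne_zero hw
  have hbc : RswBc F b ⟨S, ∅, O⟩ := by
    intro v hv hp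
    show v ∈ S ↔ b = true
    rw [hSout v (fun h => (rsx_in_iff.1 (rsx_in_mono hsub h)) hp)]
    exact wbc v hv hp
  have hpos : 0 < rswWt t F b ⟨S, ∅, O⟩ := by
    refine rpi31_wt_pos h0 h1 hbc fun e he heO => ?_
    rw [hO, Finset.mem_union] at heO
    rcases heO with h | h
    · obtain ⟨a1, a2⟩ := Finset.mem_sdiff.1 h
      obtain ⟨o1, o2⟩ := rpi31_ends_out a2
      rw [hSout _ o1, hSout _ o2]
      exact (wfac e he).2.1 a1
    · obtain ⟨_, a1, a2⟩ := Finset.mem_filter.1 h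
      exact ⟨fun _ => a2, fun _ => a1⟩
  refine ⟨⟨S, ∅, O⟩, hin', hpos, ?_, ?_⟩
  · obtain ⟨a1, a2⟩ := (rpi31_holds_iff hP hin).1 hH
    refine (rpi31_holds_iff hP hin').2 ⟨?_, ?_⟩
    · show S \ rsxIn F' = P.1
      rw [← a1, hS, Finset.union_sdiff_right]
    · show O \ rswInt F' = P.2
      rw [← a2, hO]
      ext e
      simp only [Finset.mem_sdiff, Finset.mem_union, Finset.mem_filter]
      tauto
  · intro e he
    obtain ⟨c1, c2⟩ := rpi31_bd_corners he
    have i1 : e.1 ∈ rsxIn F' := rsx_in_iff.2 (hdeep _ c1)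
    have i2 : rswEnd e ∈ rsxIn F' := rsx_in_iff.2 (hdeep _ c2)
    have s1 : e.1 ∈ S := by rw [hS]; exact Finset.mem_union_right _ i1
    have s2 : rswEnd e ∈ S := by rw [hS]; exact Finset.mem_union_right _ i2
    refine ⟨?_, by simpa using s1, by simpa using s2⟩
    show e ∈ O
    rw [hO]
    exact Finset.mem_union_right _ (Finset.mem_filter.2 ⟨rsx_mem_int.2 (rsx_in_faces1 i1), s1, s2⟩)

/-- one exterior pattern -/
theorem rpi31_pat_up {t : ℝ} (h0 : 0 < t) (h1 : t < 1) (hS0 : Rpi31S0 t) {F'' F' F : Finset (ℤ × ℤ)} (b : Bool)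
    {A : RswCfg → ℝ} (hF : RswJordan F) (hsub : F' ⊆ F) (h2 : F'' ⊆ F') (hdeep : RspDeep F'' F') (hA : RspInc A)
    (hloc : RspLoc (cornersOf F'') ∅ (rswInt F'') A) {P : Finset (ℤ × ℤ) × Finset ((ℤ × ℤ) × Bool)} (hP : P ∈ rpi31Pats F F') :
    mdlSumK t F b (rpi31Pat F F' P) (fun ω => A (rpi31Clean ω)) ≤
      rswE t F'' true (fun ω => A (rpi31Clean ω)) * mdlSumK t F b (rpi31Pat F F' P) (fun _ => 1) := by
  have fkg := hS0 F hF b true _ (rpi31_pat_ok hP) _ _ (rpi31_inc hA) (rpi31_ind_inc F'')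
  have cut := rsk_cut h0 h1.le (h2.trans hsub) true b (rpi31_inside hloc) (rpi31_IK_outside h2 hP)
  have e1 : mdlSumK t F b (rpi31Pat F F' P) (fun ω => A (rpi31Clean ω) * rskInd F'' true ω) =
      rswSum t F b (fun ω => rskInd F'' true ω * A (rpi31Clean ω) * rpi31IK (rpi31Pat F F' P) ω) := by
    rw [rpi31_sumK_eq]; congr 1; funext ω; ring
  have e2 : mdlSumK t F b (rpi31Pat F F' P) (rskInd F'' true) =
      rswSum t F b (fun ω => rskInd F'' true ω * rpi31IK (rpi31Pat F F' P) ω) := by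
    rw [rpi31_sumK_eq]; congr 1; funext ω; ring
  rw [e1, cut, ← e2] at fkg
  have hi0 : 0 ≤ mdlSumK t F b (rpi31Pat F F' P) (rskInd F'' true) := by
    rw [rpi31_sumK_eq]
    exact rsb_sum_nonneg h0.le h1.le fun ω _ _ => mul_nonneg (rpi31_IK_nonneg _ _) (rpi31_ind_nonneg _ _ _)
  rcases hi0.eq_or_lt with hi | hi
  · -- the pattern is infeasible
    have hz : rswSum t F b (rpi31IK (rpi31Pat F F' P)) = 0 := by
      by_contra hne
      rw [rsb_sum_eq] at hne
      obtain ⟨p, hp, hpne⟩ := Finset.exists_ne_zero_of_sum_ne_zero hne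
      have hw : rswWt t F b (rsbMk p) ≠ 0 := left_ne_zero_of_mul hpne
      have hH : (rpi31Pat F F' P).Holds (rsbMk p) := by
        by_contra hh
        apply right_ne_zero_of_mul hpne
        unfold rpi31IK; rw [if_neg hh]
      obtain ⟨ω', i1, i2, i3, i4⟩ := rpi31_energy h0 h1 hsub hdeep b hP (rsb_mem_all.1 hp) hw hH
      have : 0 < mdlSumK t F b (rpi31Pat F F' P) (rskInd F'' true) := by
        rw [rpi31_sumK_eq]
        refine rpi31_sum_pos h0 h1.le (fun ω => mul_nonneg (rpi31_IK_nonneg _ _) (rpi31_ind_nonneg _ _ _)) i1 i2 ?_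
        rw [rpi31_ind_pos i4]
        unfold rpi31IK; rw [if_pos i3]; norm_num
      linarith
    rw [rpi31_sumK_eq, rpi31_sumK_eq, rpi31_sum_zero h0.le h1.le (rpi31_IK_nonneg _) hz,
      rpi31_sum_zero h0.le h1.le (rpi31_IK_nonneg _) hz, mul_zero]
  · refine le_of_mul_le_mul_right ?_ hi
    calc _ ≤ _ := fkg
      _ = _ := by ring

/-- **`up`**: given any exterior data of `F'`, the law inside a deep `F'' ⊆ F'` is dominated by the plus flat law of `F''` -/
theorem rpi31_up {t : ℝ} (h0 : 0 < t) (h1 : t < 1) (hS0 : Rpi31S0 t) {F'' F' F : Finset (ℤ × ℤ)} (b : Bool)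
    {A Y : RswCfg → ℝ} (hF : RswJordan F) (hsub : F' ⊆ F) (h2 : F'' ⊆ F') (hdeep : RspDeep F'' F') (hA : RspInc A)
    (hloc : RspLoc (cornersOf F'') ∅ (rswInt F'') A) (hY : RspOff (rspInn F') (rswInt F') Y) (hY0 : ∀ ω, 0 ≤ Y ω) :
    rswE t F b (fun ω => A ω * Y ω) ≤ rswE t F'' true A * rswE t F b Y := by
  have eF : rswE t F b (fun ω => A (rpi31Clean ω) * Y ω) = rswE t F b (fun ω => A ω * Y ω) :=
    rsb_E_congr fun ω hin hw => by rw [rpi31_clean_eq hin hw]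
  have eF' : rswE t F'' true (fun ω => A (rpi31Clean ω)) = rswE t F'' true A :=
    rsb_E_congr fun ω hin hw => by rw [rpi31_clean_eq hin hw]
  rw [← eF, ← eF']
  have hZ := rsb_Z_pos h0 h1.le F b
  have key : rswSum t F b (fun ω => A (rpi31Clean ω) * Y ω) ≤
      rswE t F'' true (fun ω => A (rpi31Clean ω)) * rswSum t F b Y := by
    rw [rpi31_split t F F' b, rpi31_split t F F' b Y, Finset.mul_sum]
    refine Finset.sum_le_sum fun P hP => ?_
    have hy : ∀ ω, RsbIn F ω → (rpi31Pat F F' P).Holds ω → Y ω = Y ⟨P.1, ∅, P.2⟩ := by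
      intro ω hin hH
      obtain ⟨a1, a2⟩ := (rpi31_holds_iff hP hin).1 hH
      obtain ⟨p1, p2⟩ := rpi31_mem_pats.1 hP
      refine hY _ _ ?_ ?_
      · rw [rpi31_inn_eq, a1]
        show P.1 = P.1 \ rsxIn F'
        rw [Finset.sdiff_eq_self_iff_disjoint.2]
        exact Finset.disjoint_left.2 fun v hv => (Finset.mem_sdiff.1 (p1 hv)).2
      · rw [a2]
        show P.2 = P.2 \ rswInt F'
        rw [Finset.sdiff_eq_self_iff_disjoint.2]
        exact Finset.disjoint_left.2 fun v hv => (Finset.mem_sdiff.1 (p2 hv)).2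
    have c1 : mdlSumK t F b (rpi31Pat F F' P) (fun ω => A (rpi31Clean ω) * Y ω) =
        mdlSumK t F b (rpi31Pat F F' P) (fun ω => A (rpi31Clean ω)) * Y ⟨P.1, ∅, P.2⟩ := by
      rw [rpi31_sumK_eq, rpi31_sumK_eq, ← rsb_sum_mul_const]
      refine rsb_sum_congr fun ω hin _ => ?_
      by_cases hH : (rpi31Pat F F' P).Holds ω
      · rw [hy ω hin hH]; ring
      · unfold rpi31IK; rw [if_neg hH]; ring
    have c2 : mdlSumK t F b (rpi31Pat F F' P) Y =
        mdlSumK t F b (rpi31Pat F F' P) (fun _ => 1) * Y ⟨P.1, ∅, P.2⟩ := by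
      rw [rpi31_sumK_eq, rpi31_sumK_eq, ← rsb_sum_mul_const]
      refine rsb_sum_congr fun ω hin _ => ?_
      by_cases hH : (rpi31Pat F F' P).Holds ω
      · rw [hy ω hin hH]; ring
      · unfold rpi31IK; rw [if_neg hH]; ring
    rw [c1, c2, ← mul_assoc]
    exact mul_le_mul_of_nonneg_right (rpi31_pat_up h0 h1 hS0 b hF hsub h2 hdeep hA hloc hP) (hY0 _)
  unfold rswE at key ⊢
  rw [← mul_div_assoc]
  exact div_le_div_of_nonneg_right key hZ.le

/-! ## 6. the record, and `exit_rsw_plane` -/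

/-- **THE RECORD `RspIn` FOR `Dom = RswJordan`** from (S0), the Jordan boxes and the circuit estimate -/
theorem rpi31_in {t : ℝ} (h0 : 0 < t) (h1 : t < 1) (hS0 : Rpi31S0 t) (hbox : ∀ n : ℕ, 1 ≤ n → RswJordan (rswBox 0 n))
    {κ n0 : ℕ} {p : ℝ} (hk : 2 ≤ κ) (hp : 0 < p)
    (hc : ∀ n : ℕ, n0 ≤ n → p ≤ rswP t (rswBox 0 (κ * n)) true
      (fun ω => RswSep (rswBox 0 (κ * n)) false ω (rswBox 0 n) (rswLayer (rswBox 0 (κ * n))))) :
    RspIn t p κ n0 RswJordan where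
  p0 := hp
  k2 := hk
  box := hbox
  up := fun _ _ _ b _ _ hF hsub h2 hdeep hA hloc hY hY0 => rpi31_up h0 h1 hS0 b hF hsub h2 hdeep hA hloc hY hY0
  dn := fun _ _ b _ hF hsub hdeep hA hloc => rpi31_dn h0 h1 hS0 b hF hsub hdeep hA hloc
  circ := hc

/-- **`exit_rsw_plane` VERBATIM** from (S0) = `exit_mdl_cmp`, the Jordan boxes and `exit_rsw_circuit` -/
theorem rpi31_plane {t : ℝ} (ht1 : 1 / 2 ≤ t) (ht2 : t < 1) (hS0 : Rpi31S0 t)
    (hbox : ∀ n : ℕ, 1 ≤ n → RswJordan (rswBox 0 n))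
    (hcirc : ∃ (κ n0 : ℕ) (p : ℝ), 2 ≤ κ ∧ 0 < p ∧ ∀ n : ℕ, n0 ≤ n →
      p ≤ rswP t (rswBox 0 (κ * n)) true
        (fun ω => RswSep (rswBox 0 (κ * n)) false ω (rswBox 0 n) (rswLayer (rswBox 0 (κ * n)))))
    (R : Finset (ℤ × ℤ)) (R' : Finset ((ℤ × ℤ) × Bool)) (X : RswCfg → ℝ) (hX : RswLoc R R' X) :
    ∃ ℓ : ℝ, ∀ ε : ℝ, 0 < ε → ∃ n0 : ℕ, ∀ (F : Finset (ℤ × ℤ)) (b : Bool),
      RswJordan F → rswBox 0 n0 ⊆ F → |rswE t F b X - ℓ| < ε := by
  obtain ⟨κ, n0, p, hk, hp, hc⟩ := hcirc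
  exact rsp171_exit ht1 ht2 (rpi31_in (by linarith) ht2 hS0 hbox hk hp hc) R R' X hX

/-- the equation lemmas of the definitions of this file are generated HERE (RULES.md, rule 6) -/
theorem rpi31_eqns_cite : True := by
  have := @Rpi31S0.eq_1
  have := @rpi31Clean.eq_1
  have := @rpi31NoPin.eq_1
  have := @rpi31Pat.eq_1
  have := @rpi31Pats.eq_1
  have := @rpi31IK.eq_1
  trivial

/-! ## 7. (T2) for `U` : the contract `RcMono` of `Rsw/CoreTop121` -/

/-- domination by the plus flat law of a deep subdomain (no exterior data) -/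
theorem rpi31_up1 {t : ℝ} (h0 : 0 < t) (h1 : t < 1) (hS0 : Rpi31S0 t) {F' F : Finset (ℤ × ℤ)} (b : Bool) {A : RswCfg → ℝ}
    (hF : RswJordan F) (hsub : F' ⊆ F) (hdeep : RspDeep F' F) (hA : RspInc A)
    (hloc : RspLoc (cornersOf F') ∅ (rswInt F') A) : rswE t F b A ≤ rswE t F' true A := by
  have := rpi31_up h0 h1 hS0 b (Y := fun _ => 1) hF (Finset.Subset.refl F) hsub hdeep hA hloc (fun _ _ _ _ => rfl)
    (fun _ => zero_le_one)
  simp only [mul_one] at this
  rwa [rsb_E_one h0 h1.le, mul_one] at this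

/-- **(T2) for `U`** : `U(n, M)` is nondecreasing in the outer radius -/
theorem rpi31_mono {t : ℝ} (h0 : 0 < t) (h1 : t < 1) (hS0 : Rpi31S0 t) (hbox : ∀ n : ℕ, 1 ≤ n → RswJordan (rswBox 0 n)) :
    RcMono t := by
  intro n M M' hnM hMM'
  rcases hMM'.eq_or_lt with rfl | hlt
  · exact le_rfl
  have e : ∀ m k : ℕ, rswP t (rswBox 0 k) true (rspSep n m) =
      1 - rswE t (rswBox 0 k) true (rspI (fun ω => ¬ rspSep n m ω)) := by
    intro m k
    have := rsb_P_compl h0 h1.le (rswBox 0 k) true (rspSep n m)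
    have e2 : rswP t (rswBox 0 k) true (fun ω => ¬ rspSep n m ω) = rswE t (rswBox 0 k) true (rspI (fun ω => ¬ rspSep n m ω)) := rfl
    rw [e2] at this
    linarith
  have s1 : rswP t (rswBox 0 M') true (rspSep n M) ≤ rswP t (rswBox 0 M') true (rspSep n M') :=
    rsb_P_mono h0 h1.le fun ω _ _ h => by
      by_contra hc
      exact rsp171_arm_nest le_rfl hnM.le hMM' hc h
  have s2 : rswP t (rswBox 0 M) true (rspSep n M) ≤ rswP t (rswBox 0 M') true (rspSep n M) := by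
    rw [e, e]
    have := rpi31_up1 h0 h1 hS0 true (hbox M' (by omega)) (rsp171_box_mono hMM')
      (rsp171_box_deep' hlt (Finset.Subset.refl _)) (rsp171_arm_inc n M) (rsp171_arm_loc n M)
    linarith
  exact s2.trans s1

end Claimed.Agent.R292
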