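import Claimed.Agent.R292.Rsw.CoreTop121
import Claimed.Agent.R292.Rsw.Expl107

/-!
# Row 292 (S0540), Rsw/RenDefs12 : THE INTERFACES OF A5 (RENORMALISATION) ON `ℤ²`      (helper12, head of A5; prefix `rnz` / `Rnz`)

Port of R291 `Defs/Ren.lean` to the vocabulary of `Defs/RSW` + `Rsw/CoreTop121`.   ONLY DELIVERABLE OF A5 = `RcRec t`.

DICTIONARY (binding for 109, 189, 12).
| R291 | here |
|---|---|
| domain `D : Finset TV` (sites), system `clInn x D`, layer `amLay D` | `F : Finset (ℤ × ℤ)` = a set of FACES, flat problem `(F, s)`, `rswLayer F`; the pinned spins are the corners `OnPolygon F` |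
| `amP x s D (K.Holds _) L` | `rswPK t F s K L` |
| `ClLegal (clInn x D) K`, `K.Eq = ∅`, `K.In _ b`; `RnHist K b` | `K.Legal b`  (`b ⊆ F` faces: pins in `cornersOf b`, observed edges in `rswInt b`, an observed edge has its two spins pinned); `rnz_legal_mono` |
| `RnFeas x s D K` | `K.Feas t F s` |
| `ClSep (clInn x D) s ∅ ω A B` (sites) | `RswSep F s ω A B` (`A B` sets of FACES; dual paths crossing edges which are not good of colour `s`) |
| `rnBx u r` | `rswBox u r` (faces `[u - r, u + r)²`) |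
| `ClMonoP (clInn x b) X`, `ClLocP b (latCellsIn b) X` | `RswInc X`, `RnzLoc b X` (reads `S` on `cornersOf b`, `O` on `rswInt b`, never `D`) |
COLOURS ARE THOSE OF R291 inside A5 (minus boundary condition, increasing events, PLUS circuits); `rcU` of CoreTop121 has the flipped colours: `RnzFlipU` (global flip of `S`, `rsb_flipS_P` of Base31)
is the first line of the assembly.

BLOCKS.   B5 `RnzCyl... ⟹ RnzHP` (12, `Rsw/RenHP12`);   B2 `RnzHP ⟹ RnzPush1` (109);   B6 `⟹ RnzCor` (189);   B3 `RnzHP + RnzCor ⟹ RnzSep2` (189);   B4 `RnzPush1 + RnzSep2 ⟹ RcRec` (109).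
-/

set_option autoImplicit false

namespace Claimed.Agent.R292

open Claims Claims.C0468

/-! ### locality -/

/-- `X` reads the primal spins on the corners of `b` and the `W` edges inside `b` only -/
def RnzLoc (b : Finset (ℤ × ℤ)) (X : RswCfg → Prop) : Prop :=
  ∀ ω ω' : RswCfg, ω.S ∩ cornersOf b = ω'.S ∩ cornersOf b → ω.O ∩ rswInt b = ω'.O ∩ rswInt b → (X ω ↔ X ω')

/-! ### (HP) -/

/-- **(HP)** in the direction `l` (normal coordinate of a face), transverse coordinate `τ`, sign `s`: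
ANY finite `F ⊆ {c ≤ l}` of transverse extent `≤ C H`, ANY legal history `K` inside `{c + H ≤ l}`, feasible:   `P^s_F(K)[ Sep^s_F( {l ≤ c + H/10}, {c + H/5 ≤ l} ) ] ≥ δ(C)` -/
def RnzHPd (t : ℝ) (s : Bool) (l τ : ℤ × ℤ → ℤ) : Prop :=
  ∀ C : ℕ, ∃ δ : ℝ, 0 < δ ∧ ∃ H₀ : ℕ, ∀ (H : ℕ) (c : ℤ) (F : Finset (ℤ × ℤ)) (K : RswCon), H₀ ≤ H →
    (∀ f ∈ F, c ≤ l f) → (∀ f ∈ F, ∀ g ∈ F, τ f - τ g ≤ C * H) →
    K.Legal (F.filter (fun f => c + H ≤ l f)) → K.Feas t F s →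
    δ ≤ rswPK t F s K (fun ω => RswSep F s ω
      (F.filter (fun f => l f ≤ c + (H / 10 : ℕ))) (F.filter (fun f => c + (H / 5 : ℕ) ≤ l f)))

/-- **(HP)**: four directions, two signs -/
def RnzHP (t : ℝ) : Prop :=
  ∀ s : Bool, RnzHPd t s (fun f => f.2) (fun f => f.1) ∧ RnzHPd t s (fun f => -f.2) (fun f => f.1) ∧
    RnzHPd t s (fun f => f.1) (fun f => f.2) ∧ RnzHPd t s (fun f => -f.1) (fun f => f.2)

/-! ### outputs of B2 -/

/-- **the value of a region**: for EVERY domain `b ⊆ F ⊆ Fm` (feasible):   `P^s_F(K)[ Sep^s_F(F \ G, A) ] ≥ p`      (`b` = obstacles, `G` = goal region, `A` = protected set) -/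
def RnzVal (t : ℝ) (s : Bool) (K : RswCon) (b G A Fm : Finset (ℤ × ℤ)) (p : ℝ) : Prop :=
  ∀ F : Finset (ℤ × ℤ), b ⊆ F → F ⊆ Fm → K.Feas t F s →
    p ≤ rswPK t F s K (fun ω => RswSep F s ω (F \ G) A)

/-- **(PUSH1)** = (SEP) for one box = (FAV) (take `K = rswFree`, `s = true`) -/
def RnzPush1 (t : ℝ) : Prop :=
  ∀ C0 : ℕ, ∃ c : ℝ, 0 < c ∧ ∃ R0 : ℕ, ∀ (s : Bool) (R : ℕ) (u : ℤ × ℤ) (K : RswCon), R0 ≤ R → K.Legal (rswBox u R) →
    RnzVal t s K (rswBox u R) (rswBox u (2 * R)) (rswBox u R) (rswBox u (C0 * R)) c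

/-! ### interface of B4: the local event, the output of B3 -/

/-- THE LOCAL CIRCUIT EVENT: plus good edges separate, INSIDE `Box(u, 3r)`, the layer of `Box(u, 3r)` from `Box(u, r)` (increasing, local in `Box(u, 3r)`) -/
def RnzX (u : ℤ × ℤ) (r : ℕ) (ω : RswCfg) : Prop :=
  RswSep (rswBox u (3 * r)) true ω (rswLayer (rswBox u (3 * r))) (rswBox u r)

/-- **(SEP2)**: two ALIGNED boxes `Box((∓g,0), r)`, `g ≥ κ r`, minus boundary conditions on ANY `F` with `Box(0,4g) ⊆ F ⊆ Box(0,C₀ r)`, `X₁, X₂` ANY increasing events local in the two boxes -/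
def RnzSep2 (t : ℝ) : Prop :=
  ∃ κ : ℕ, 1 ≤ κ ∧ ∀ C₀ : ℕ, ∃ c : ℝ, 0 < c ∧ ∃ r₀ : ℕ, ∀ (r g : ℕ) (F : Finset (ℤ × ℤ)) (X₁ X₂ : RswCfg → Prop), r₀ ≤ r → κ * r ≤ g →
    rswBox 0 (4 * g) ⊆ F → F ⊆ rswBox 0 (C₀ * r) →
    RswInc X₁ → RnzLoc (rswBox (-(g : ℤ), 0) r) X₁ → RswInc X₂ → RnzLoc (rswBox ((g : ℤ), 0) r) X₂ →
    c * rswP t F false (fun ω => X₁ ω ∧ X₂ ω) ≤
      rswP t (rswBox (-(g : ℤ), 0) (2 * g)) false X₁ * rswP t (rswBox ((g : ℤ), 0) (2 * g)) false X₂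

/-! ### interface of B6: the corridor -/

/-- **(COR)**, corridor of the sign `s`, lengthwise coordinate `l`, transverse coordinate `τ`:
ANY finite `F ⊆ {c ≤ τ ≤ c + r}`, ANY legal history `K` inside `{l ≤ p} ∪ {p + 6 r ≤ l}`, feasible:   `P^s_F(K)[ Sep^s_F( {l ≤ p}, {p + 6 r ≤ l} ) ] ≥ δ` -/
def RnzCord (t : ℝ) (s : Bool) (l τ : ℤ × ℤ → ℤ) : Prop :=
  ∃ δ : ℝ, 0 < δ ∧ ∃ r₀ : ℕ, ∀ (r : ℕ) (p c : ℤ) (F : Finset (ℤ × ℤ)) (K : RswCon), r₀ ≤ r →
    (∀ f ∈ F, c ≤ τ f ∧ τ f ≤ c + r) → K.Legal (F.filter (fun f => l f ≤ p ∨ p + 6 * r ≤ l f)) → K.Feas t F s →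
    δ ≤ rswPK t F s K (fun ω => RswSep F s ω
      (F.filter (fun f => l f ≤ p)) (F.filter (fun f => p + 6 * r ≤ l f)))

/-- **(COR)**: two orientations, two signs -/
def RnzCor (t : ℝ) : Prop :=
  ∀ s : Bool, RnzCord t s (fun f => f.1) (fun f => f.2) ∧ RnzCord t s (fun f => f.2) (fun f => f.1)

/-- `U` in the colours of A5 -/
def RnzFlipU (t : ℝ) : Prop :=
  ∀ n M : ℕ, rcU t n M = rswP t (rswBox 0 M) false (fun ω => RswSep (rswBox 0 M) true ω (rswBox 0 n) (rswLayer (rswBox 0 M)))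

/-- the equation lemmas of the definitions of this file are generated HERE -/
theorem rnz_defs_eqns_cite : True := by
  have := @RnzLoc.eq_1
  have := @RnzHPd.eq_1
  have := @RnzHP.eq_1
  have := @RnzVal.eq_1
  have := @RnzPush1.eq_1
  have := @RnzX.eq_1
  have := @RnzSep2.eq_1
  have := @RnzCord.eq_1
  have := @RnzCor.eq_1
  have := @RnzFlipU.eq_1
  trivial

/-! ### first API (deterministic) -/

theorem rnz_corners_mono {b F : Finset (ℤ × ℤ)} (h : b ⊆ F) : cornersOf b ⊆ cornersOf F := by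
  unfold cornersOf
  exact Finset.biUnion_subset_biUnion_of_subset_left _ h

theorem rnz_int_mono {b F : Finset (ℤ × ℤ)} (h : b ⊆ F) : rswInt b ⊆ rswInt F := by
  intro e he
  unfold rswInt at he ⊢
  rw [Finset.mem_filter, Finset.mem_product] at he ⊢
  exact ⟨⟨h he.1.1, he.1.2⟩, h he.2⟩

/-- a history legal in a smaller set of faces is legal in a larger one -/
theorem rnz_legal_mono {K : RswCon} {b F : Finset (ℤ × ℤ)} (h : b ⊆ F) (hK : K.Legal b) : K.Legal F :=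
  ⟨hK.sp.trans (rnz_corners_mono h), hK.sm.trans (rnz_corners_mono h), hK.ed.trans (rnz_int_mono h), hK.full⟩

theorem rnz_free_legal (F : Finset (ℤ × ℤ)) : rswFree.Legal F :=
  ⟨by simp [rswFree], by simp [rswFree], by simp [rswFree], fun e he => by simp [rswFree] at he⟩

theorem rnz_free_holds (ω : RswCfg) : rswFree.Holds ω := by
  simp [RswCon.Holds, rswFree]

/-- the law conditioned on the empty history is the flat law -/
theorem rnz_PK_free (t : ℝ) (F : Finset (ℤ × ℤ)) (b : Bool) (L : RswCfg → Prop) : rswPK t F b rswFree L = rswP t F b L := by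
  classical
  unfold rswPK rswP rswE
  congr 1
  · congr 1
    funext ω
    by_cases h : L ω
    · rw [if_pos ⟨rnz_free_holds ω, h⟩, if_pos h]
    · rw [if_neg (fun h' => h h'.2), if_neg h]
  · congr 1
    funext ω
    rw [if_pos (rnz_free_holds ω)]

/-- a smaller domain has fewer dual paths -/
theorem rnz_sep_dom {F F' : Finset (ℤ × ℤ)} (h : F ⊆ F') (a : Bool) (ω : RswCfg) (A B : Finset (ℤ × ℤ))
    (hs : RswSep F' a ω A B) : RswSep F a ω A B := by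
  intro f hf g hg hp
  refine hs f hf g hg (Relation.ReflTransGen.mono ?_ _ _ hp)
  rintro x y ⟨hx, hy, e, he, hne⟩
  exact ⟨h hx, h hy, e, he, hne⟩

theorem rnz_sep_mono {F : Finset (ℤ × ℤ)} (a : Bool) (ω : RswCfg) {A A' B B' : Finset (ℤ × ℤ)} (hA : A ⊆ A') (hB : B ⊆ B')
    (hs : RswSep F a ω A' B') : RswSep F a ω A B :=
  fun f hf g hg => hs f (hA hf) g (hB hg)

theorem rnz_step_symm {F : Finset (ℤ × ℤ)} {a : Bool} {ω : RswCfg} {f g : ℤ × ℤ} (h : RswStep F a ω f g) : RswStep F a ω g f := by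
  obtain ⟨hf, hg, e, he, hne⟩ := h
  exact ⟨hg, hf, e, he.symm, hne⟩

theorem rnz_sep_symm {F : Finset (ℤ × ℤ)} (a : Bool) (ω : RswCfg) (A B : Finset (ℤ × ℤ)) (hs : RswSep F a ω A B) : RswSep F a ω B A := by
  intro f hf g hg hp
  refine hs g hg f hf ?_
  have : Relation.ReflTransGen (Function.swap (RswStep F a ω)) g f := Relation.reflTransGen_swap.2 hp
  exact Relation.ReflTransGen.mono (fun x y hxy => rnz_step_symm hxy) _ _ this

theorem rnz_sep_union {F : Finset (ℤ × ℤ)} (a : Bool) (ω : RswCfg) (A B B' : Finset (ℤ × ℤ)) (h : RswSep F a ω A B) (h' : RswSep F a ω A B') :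
    RswSep F a ω A (B ∪ B') := by
  intro f hf g hg
  rcases Finset.mem_union.1 hg with hg | hg
  · exact h f hf g hg
  · exact h' f hf g hg

/-- `Sep^+` is increasing -/
theorem rnz_sep_inc (F A B : Finset (ℤ × ℤ)) : RswInc (fun ω => RswSep F true ω A B) := by
  intro ω ω' hle hs f hf g hg hp
  refine hs f hf g hg (Relation.ReflTransGen.mono ?_ _ _ hp)
  rintro x y ⟨hx, hy, e, he, hne⟩
  exact ⟨hx, hy, e, he, fun hgood => hne (hle.2.1 e hgood)⟩

/-- `Sep^-` is decreasing -/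
theorem rnz_sep_dec (F A B : Finset (ℤ × ℤ)) {ω ω' : RswCfg} (hle : RswLe ω ω') (hs : RswSep F false ω' A B) : RswSep F false ω A B := by
  intro f hf g hg hp
  refine hs f hf g hg (Relation.ReflTransGen.mono ?_ _ _ hp)
  rintro x y ⟨hx, hy, e, he, hne⟩
  exact ⟨hx, hy, e, he, fun hgood => hne (hle.2.2 e hgood)⟩

theorem rnz_X_inc (u : ℤ × ℤ) (r : ℕ) : RswInc (RnzX u r) := rnz_sep_inc _ _ _

/-! ## THE KIT (block B1; port of R291 `Ann/RenAbs.lean`, which is over `ClSys V Y` with ONE `sv` for both spins and cannot be imported)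

Everything is written UNNORMALISED, so that no feasibility hypothesis is ever needed:
* `rnzN t F s K X`, `rnzZ t F s K`   the sums of the law `P^s_F( . | K)`;   `rswPK t F s K L = rnzN (1_L) / rnzZ` (`rnz_PK_eq`)
* `RnzGe t F s K L p`   :   `p * Z ≤ N(1_L)`;      `RnzAll t s Z F L p`  :   `RnzGe` for EVERY history `K` legal in `Z`
* `RnzT s X Z' F ω`     :   `RswSep F s ω (X ∩ F) Z'`   THE TARGET FAMILY
* `rnzInv F s ω N`      :   the faces of `F` invaded from `N` (search of sign `s`);      `rnzJ F N T` the possible values on `Sep(N, T)`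
* `rnz_search`, `rnz_dec`   search of sign `s` in the law `P^{s'}_F( . | K)`, `K` off the invaded set: the law off `J` is `P^s_{F \ J}( . | K)`  (needs `s' = s` or the layer inside the invaded set)
* `rnz_step` CHAIN LEMMA,   `rnz_lower` LOWER BOUND
-/

/-! ### 1. vocabulary -/

/-- unnormalised expectation under `P^s_F( . | K)` -/
noncomputable def rnzN (t : ℝ) (F : Finset (ℤ × ℤ)) (s : Bool) (K : RswCon) (X : RswCfg → ℝ) : ℝ :=
  rswSum t F s (fun ω => rsxInd (K.Holds ω) * X ω)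

/-- partition function of `P^s_F( . | K)` -/
noncomputable def rnzZ (t : ℝ) (F : Finset (ℤ × ℤ)) (s : Bool) (K : RswCon) : ℝ := rnzN t F s K (fun _ => 1)

/-- `P^s_F(L | K) ≥ p`, unnormalised (true if `K` is infeasible) -/
def RnzGe (t : ℝ) (F : Finset (ℤ × ℤ)) (s : Bool) (K : RswCon) (L : RswCfg → Prop) (p : ℝ) : Prop :=
  p * rnzZ t F s K ≤ rnzN t F s K (fun ω => rsxInd (L ω))

/-- `P^s_F(L | K) ≥ p` for every history `K` legal in `Z` -/
def RnzAll (t : ℝ) (s : Bool) (Z F : Finset (ℤ × ℤ)) (L : RswCfg → Prop) (p : ℝ) : Prop :=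
  ∀ K : RswCon, K.Legal Z → RnzGe t F s K L p

/-- the target family -/
def RnzT (s : Bool) (X Z' F : Finset (ℤ × ℤ)) (ω : RswCfg) : Prop := RswSep F s ω (X ∩ F) Z'

/-- the faces of `F` invaded from `N` -/
noncomputable def rnzInv (F : Finset (ℤ × ℤ)) (s : Bool) (ω : RswCfg) (N : Finset (ℤ × ℤ)) : Finset (ℤ × ℤ) :=
  @Finset.filter _ (fun g => ∃ f ∈ N, Relation.ReflTransGen (RswStep F s ω) f g) (fun _ => Classical.propDecidable _) F

/-- the possible invaded sets on the event `Sep(N, T)` -/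
def rnzJ (F N T : Finset (ℤ × ℤ)) : Finset (Finset (ℤ × ℤ)) := F.powerset.filter (fun J => N ⊆ J ∧ Disjoint J T)

/-- `X` reads the flat problem of `F'` only (ALL the corners of `F'`, the faces of `F'`, the interior edges of `F'`) -/
def RnzIn (F' : Finset (ℤ × ℤ)) (X : RswCfg → ℝ) : Prop :=
  ∀ ω ω' : RswCfg, ω.S ∩ cornersOf F' = ω'.S ∩ cornersOf F' → ω.D ∩ F' = ω'.D ∩ F' → ω.O ∩ rswInt F' = ω'.O ∩ rswInt F' → X ω = X ω'

/-- the configuration with the colour `s` written on the polygon of `F'` -/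
noncomputable def rnzNorm (F' : Finset (ℤ × ℤ)) (s : Bool) (ω : RswCfg) : RswCfg :=
  ⟨(ω.S ∩ rsxIn F') ∪ (if s = true then cornersOf F' \ rsxIn F' else ∅), ω.D, ω.O⟩

theorem rnz_kit_eqns_cite : True := by
  have := @rnzN.eq_1
  have := @rnzZ.eq_1
  have := @RnzGe.eq_1
  have := @RnzAll.eq_1
  have := @RnzT.eq_1
  have := @rnzInv.eq_1
  have := @rnzJ.eq_1
  have := @RnzIn.eq_1
  have := @rnzNorm.eq_1
  trivial

/-! ### 2. calculus of the sums -/

theorem rnz_N_nonneg {t : ℝ} (h0 : 0 ≤ t) (h1 : t ≤ 1) (F : Finset (ℤ × ℤ)) (s : Bool) (K : RswCon) {X : RswCfg → ℝ} (hX : ∀ ω, 0 ≤ X ω) :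
    0 ≤ rnzN t F s K X :=
  rsx_sum_nonneg h0 h1 F s fun ω => mul_nonneg (rsx_ind_nonneg _) (hX ω)

theorem rnz_Z_nonneg {t : ℝ} (h0 : 0 ≤ t) (h1 : t ≤ 1) (F : Finset (ℤ × ℤ)) (s : Bool) (K : RswCon) : 0 ≤ rnzZ t F s K :=
  rnz_N_nonneg h0 h1 F s K fun _ => zero_le_one

theorem rnz_N_mono {t : ℝ} (h0 : 0 ≤ t) (h1 : t ≤ 1) (F : Finset (ℤ × ℤ)) (s : Bool) (K : RswCon) {X Y : RswCfg → ℝ} (h : ∀ ω, X ω ≤ Y ω) :
    rnzN t F s K X ≤ rnzN t F s K Y :=
  rsx_sum_mono h0 h1 F s fun ω => mul_le_mul_of_nonneg_left (h ω) (rsx_ind_nonneg _)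

theorem rnz_N_sum {ι : Type} (t : ℝ) (F : Finset (ℤ × ℤ)) (s : Bool) (K : RswCon) (T : Finset ι) (X : ι → RswCfg → ℝ) :
    rnzN t F s K (fun ω => ∑ i ∈ T, X i ω) = ∑ i ∈ T, rnzN t F s K (X i) := by
  unfold rnzN
  rw [← rsx_sum_finsum]
  exact rsx_sum_congr t F s fun ω => Finset.mul_sum _ _ _

theorem rnz_ind_and (p q : Prop) : rsxInd (p ∧ q) = rsxInd p * rsxInd q := by
  by_cases hp : p
  · by_cases hq : q
    · rw [rsx_ind_pos hp, rsx_ind_pos hq, rsx_ind_pos ⟨hp, hq⟩, one_mul]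
    · rw [rsx_ind_neg hq, rsx_ind_neg (fun h => hq h.2), mul_zero]
  · rw [rsx_ind_neg hp, rsx_ind_neg (fun h => hp h.1), zero_mul]

theorem rnz_ind_mono {p q : Prop} (h : p → q) : rsxInd p ≤ rsxInd q := by
  by_cases hp : p
  · rw [rsx_ind_pos hp, rsx_ind_pos (h hp)]
  · rw [rsx_ind_neg hp]; exact rsx_ind_nonneg _

theorem rnz_PK_eq (t : ℝ) (F : Finset (ℤ × ℤ)) (s : Bool) (K : RswCon) (L : RswCfg → Prop) :
    rswPK t F s K L = rnzN t F s K (fun ω => rsxInd (L ω)) / rnzZ t F s K := by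
  classical
  unfold rswPK rnzZ rnzN
  congr 1
  · refine rsx_sum_congr t F s fun ω => ?_
    show (if K.Holds ω ∧ L ω then (1 : ℝ) else 0) = rsxInd (K.Holds ω) * rsxInd (L ω)
    by_cases hK : K.Holds ω
    · by_cases hL : L ω
      · rw [if_pos ⟨hK, hL⟩, rsx_ind_pos hK, rsx_ind_pos hL, one_mul]
      · rw [if_neg (fun h => hL h.2), rsx_ind_neg hL, mul_zero]
    · rw [if_neg (fun h => hK h.1), rsx_ind_neg hK, zero_mul]
  · refine rsx_sum_congr t F s fun ω => ?_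
    by_cases hK : K.Holds ω
    · rw [if_pos hK, rsx_ind_pos hK, one_mul]
    · rw [if_neg hK, rsx_ind_neg hK, zero_mul]

theorem rnz_feas_iff (t : ℝ) (F : Finset (ℤ × ℤ)) (s : Bool) (K : RswCon) : K.Feas t F s ↔ 0 < rnzZ t F s K := by
  have e1 : K.Feas t F s ↔ 0 < rswSum t F s (fun ω => rsxInd (K.Holds ω)) := Iff.rfl
  rw [e1]
  unfold rnzZ rnzN
  rw [rsx_sum_congr t F s fun ω => (mul_one (rsxInd (K.Holds ω))).symm]

theorem rnz_ge_iff {t : ℝ} {F : Finset (ℤ × ℤ)} {s : Bool} {K : RswCon} (hK : K.Feas t F s) (L : RswCfg → Prop) (p : ℝ) :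
    RnzGe t F s K L p ↔ p ≤ rswPK t F s K L := by
  rw [rnz_PK_eq, le_div_iff₀ ((rnz_feas_iff t F s K).1 hK)]
  rfl

theorem rnz_ge_of_infeas {t : ℝ} (h0 : 0 ≤ t) (h1 : t ≤ 1) {F : Finset (ℤ × ℤ)} {s : Bool} {K : RswCon} (hK : ¬ K.Feas t F s) (L : RswCfg → Prop) (p : ℝ) :
    RnzGe t F s K L p := by
  have hz : rnzZ t F s K = 0 := le_antisymm (not_lt.1 fun h => hK ((rnz_feas_iff t F s K).2 h)) (rnz_Z_nonneg h0 h1 F s K)
  unfold RnzGe
  rw [hz, mul_zero]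
  exact rnz_N_nonneg h0 h1 F s K fun ω => rsx_ind_nonneg _

theorem rnz_ge_mono {t : ℝ} (h0 : 0 ≤ t) (h1 : t ≤ 1) (F : Finset (ℤ × ℤ)) (s : Bool) (K : RswCon) {L L' : RswCfg → Prop} {p p' : ℝ}
    (hL : ∀ ω, L ω → L' ω) (hp : p' ≤ p) (h : RnzGe t F s K L p) : RnzGe t F s K L' p' := by
  unfold RnzGe at h ⊢
  exact (mul_le_mul_of_nonneg_right hp (rnz_Z_nonneg h0 h1 F s K)).trans
    (h.trans (rnz_N_mono h0 h1 F s K fun ω => rnz_ind_mono (hL ω)))

theorem rnz_all_mono {t : ℝ} (h0 : 0 ≤ t) (h1 : t ≤ 1) (s : Bool) {Z Z' : Finset (ℤ × ℤ)} (F : Finset (ℤ × ℤ)) {L L' : RswCfg → Prop} {p p' : ℝ}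
    (hZ : Z' ⊆ Z) (hL : ∀ ω, L ω → L' ω) (hp : p' ≤ p) (h : RnzAll t s Z F L p) : RnzAll t s Z' F L' p' :=
  fun K hK => rnz_ge_mono h0 h1 F s K hL hp (h K (rnz_legal_mono hZ hK))

theorem rnz_all_one (t : ℝ) (s : Bool) (Z F : Finset (ℤ × ℤ)) (L : RswCfg → Prop) (hL : ∀ ω, L ω) : RnzAll t s Z F L 1 := by
  intro K _
  unfold RnzGe rnzZ
  rw [one_mul]
  exact le_of_eq (congrArg _ (funext fun ω => (rsx_ind_pos (hL ω)).symm))

/-! ### 3. locality of the histories, normalisation on the polygon -/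

theorem rnz_inter_mem {α : Type} [DecidableEq α] {a b T : Finset α} (h : a ∩ T = b ∩ T) {v : α} (hv : v ∈ T) : v ∈ a ↔ v ∈ b := by
  have h1 : v ∈ a ∩ T ↔ v ∈ b ∩ T := by rw [h]
  simpa [Finset.mem_inter, hv] using h1

theorem rnz_good_congr {F' : Finset (ℤ × ℤ)} {ω ω' : RswCfg} (hS : ω.S ∩ cornersOf F' = ω'.S ∩ cornersOf F')
    (hO : ω.O ∩ rswInt F' = ω'.O ∩ rswInt F') (a : Bool) {e : (ℤ × ℤ) × Bool} (he : e ∈ rswInt F') : RswGood a ω e ↔ RswGood a ω' e := by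
  have he' := rsx_mem_int.1 he
  rw [rsx_good_iff, rsx_good_iff, rnz_inter_mem hO he, rnz_inter_mem hS (rsx_end_corner1 (Or.inl he'.1)),
    rnz_inter_mem hS (rsx_end_corner2 (Or.inl he'.1))]

theorem rnz_holds_congr {K : RswCon} {F' : Finset (ℤ × ℤ)} (hK : K.Legal F') {ω ω' : RswCfg} (hS : ω.S ∩ cornersOf F' = ω'.S ∩ cornersOf F')
    (hO : ω.O ∩ rswInt F' = ω'.O ∩ rswInt F') (h : K.Holds ω) : K.Holds ω' := by
  obtain ⟨a1, a2, a3, a4, a5⟩ := h
  have hGp : ∀ e ∈ K.Gp, e ∈ rswInt F' := fun e he => hK.ed (Finset.mem_union_left _ (Finset.mem_union_left _ he))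
  have hGm : ∀ e ∈ K.Gm, e ∈ rswInt F' := fun e he => hK.ed (Finset.mem_union_left _ (Finset.mem_union_right _ he))
  have hCl : ∀ e ∈ K.Cl, e ∈ rswInt F' := fun e he => hK.ed (Finset.mem_union_right _ he)
  refine ⟨fun v hv => (rnz_inter_mem hS (hK.sp hv)).1 (a1 hv), fun v hv h' => a2 v hv ((rnz_inter_mem hS (hK.sm hv)).2 h'),
    fun e he => (rnz_good_congr hS hO true (hGp e he)).1 (a3 e he), fun e he => (rnz_good_congr hS hO false (hGm e he)).1 (a4 e he),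
    fun e he h' => a5 e he ((rnz_inter_mem hO (hCl e he)).2 h')⟩

theorem rnz_holds_in {K : RswCon} {F' : Finset (ℤ × ℤ)} (hK : K.Legal F') : RnzIn F' (fun ω => rsxInd (K.Holds ω)) :=
  fun _ _ hS _ hO => rsx_ind_congr ⟨rnz_holds_congr hK hS hO, rnz_holds_congr hK hS.symm hO.symm⟩

theorem rnz_in_mul {F' : Finset (ℤ × ℤ)} {X Y : RswCfg → ℝ} (hX : RnzIn F' X) (hY : RnzIn F' Y) : RnzIn F' (fun ω => X ω * Y ω) :=
  fun ω ω' hS hD hO => by
    show X ω * Y ω = X ω' * Y ω'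
    rw [hX ω ω' hS hD hO, hY ω ω' hS hD hO]

theorem rnz_in_const (F' : Finset (ℤ × ℤ)) (c : ℝ) : RnzIn F' (fun _ => c) := fun _ _ _ _ _ => rfl

theorem rnz_norm_in {F' : Finset (ℤ × ℤ)} (s : Bool) {X : RswCfg → ℝ} (hX : RnzIn F' X) : RsxLocIn F' (fun ω => X (rnzNorm F' s ω)) := by
  intro ω ω' hS hD hO
  refine hX _ _ ?_ hD hO
  unfold rnzNorm
  simp only
  rw [hS]

theorem rnz_norm_bc {F' : Finset (ℤ × ℤ)} {s : Bool} {X : RswCfg → ℝ} (hX : RnzIn F' X) {ω : RswCfg} (hb : RswBc F' s ω) :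
    X (rnzNorm F' s ω) = X ω := by
  refine hX _ _ ?_ rfl rfl
  ext v
  unfold rnzNorm
  simp only [Finset.mem_inter, Finset.mem_union]
  constructor
  · rintro ⟨h | h, hv⟩
    · exact ⟨h.1, hv⟩
    · by_cases hs : s = true
      · rw [if_pos hs, Finset.mem_sdiff] at h
        exact ⟨(hb v hv (by_contra fun hh => h.2 (rsx_in_iff.2 hh))).2 hs, hv⟩
      · rw [if_neg hs] at h
        exact absurd h (Finset.notMem_empty v)
  · rintro ⟨h, hv⟩
    refine ⟨?_, hv⟩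
    by_cases hi : v ∈ rsxIn F'
    · exact Or.inl ⟨h, hi⟩
    · right
      have hs : s = true := (hb v hv (by_contra fun hh => hi (rsx_in_iff.2 hh))).1 h
      rw [if_pos hs, Finset.mem_sdiff]
      exact ⟨hv, hi⟩

/-! ### 4. the invaded set -/

theorem rnz_mem_inv {F : Finset (ℤ × ℤ)} {s : Bool} {ω : RswCfg} {N : Finset (ℤ × ℤ)} {g : ℤ × ℤ} :
    g ∈ rnzInv F s ω N ↔ g ∈ F ∧ ∃ f ∈ N, Relation.ReflTransGen (RswStep F s ω) f g := by
  unfold rnzInv
  exact @Finset.mem_filter _ _ (fun _ => Classical.propDecidable _) _ _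

theorem rnz_inv_sub (F : Finset (ℤ × ℤ)) (s : Bool) (ω : RswCfg) (N : Finset (ℤ × ℤ)) : rnzInv F s ω N ⊆ F := fun _ hg => (rnz_mem_inv.1 hg).1

theorem rnz_sub_inv {F N : Finset (ℤ × ℤ)} (hN : N ⊆ F) (s : Bool) (ω : RswCfg) : N ⊆ rnzInv F s ω N := fun f hf =>
  rnz_mem_inv.2 ⟨hN hf, f, hf, Relation.ReflTransGen.refl⟩

theorem rnz_inv_step {F : Finset (ℤ × ℤ)} {s : Bool} {ω : RswCfg} {N : Finset (ℤ × ℤ)} {f g : ℤ × ℤ} (hf : f ∈ rnzInv F s ω N)
    (h : RswStep F s ω f g) : g ∈ rnzInv F s ω N := by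
  obtain ⟨_, f0, hf0, hr⟩ := rnz_mem_inv.1 hf
  exact rnz_mem_inv.2 ⟨h.2.1, f0, hf0, hr.tail h⟩

theorem rnz_inv_reach {F : Finset (ℤ × ℤ)} {s : Bool} {ω : RswCfg} {N : Finset (ℤ × ℤ)} {f g : ℤ × ℤ} (hf : f ∈ rnzInv F s ω N)
    (h : Relation.ReflTransGen (RswStep F s ω) f g) : g ∈ rnzInv F s ω N := by
  induction h with
  | refl => exact hf
  | tail _ hs ih => exact rnz_inv_step ih hs

theorem rnz_mem_J {F N T J : Finset (ℤ × ℤ)} : J ∈ rnzJ F N T ↔ J ⊆ F ∧ N ⊆ J ∧ Disjoint J T := by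
  unfold rnzJ
  rw [Finset.mem_filter, Finset.mem_powerset]

theorem rnz_sub_sdiff {F J T : Finset (ℤ × ℤ)} (hT : T ⊆ F) (hd : Disjoint J T) : T ⊆ F \ J :=
  fun v hv => Finset.mem_sdiff.2 ⟨hT hv, fun h => Finset.disjoint_left.1 hd h hv⟩

/-- `Sep(N, T)` is an event of the invaded set -/
theorem rnz_inv_mem {F N T : Finset (ℤ × ℤ)} (hN : N ⊆ F) (hT : T ⊆ F) (s : Bool) (ω : RswCfg) :
    RswSep F s ω N T ↔ rnzInv F s ω N ∈ rnzJ F N T := by
  rw [rnz_mem_J]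
  constructor
  · intro h
    refine ⟨rnz_inv_sub F s ω N, rnz_sub_inv hN s ω, ?_⟩
    rw [Finset.disjoint_left]
    intro v hv hvT
    obtain ⟨_, u, hu, hr⟩ := rnz_mem_inv.1 hv
    exact h u hu v hvT hr
  · rintro ⟨_, _, hd⟩ u hu v hv hr
    exact Finset.disjoint_left.1 hd (rnz_mem_inv.2 ⟨hT hv, u, hu, hr⟩) hv

theorem rnz_sum_I {F N T : Finset (ℤ × ℤ)} (hN : N ⊆ F) (hT : T ⊆ F) (s : Bool) (Φ : Finset (ℤ × ℤ) → RswCfg → ℝ) (ω : RswCfg) :
    rsxInd (RswSep F s ω N T) * Φ (rnzInv F s ω N) ω = ∑ J ∈ rnzJ F N T, rsxInd (rnzInv F s ω N = J) * Φ J ω := by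
  by_cases h : RswSep F s ω N T
  · rw [rsx_ind_pos h, one_mul, Finset.sum_eq_single (rnzInv F s ω N)]
    · rw [rsx_ind_pos rfl, one_mul]
    · intro J _ hne
      rw [rsx_ind_neg (Ne.symm hne), zero_mul]
    · intro hn
      exact absurd ((rnz_inv_mem hN hT s ω).1 h) hn
  · rw [rsx_ind_neg h, zero_mul]
    symm
    refine Finset.sum_eq_zero fun J hJ => ?_
    rw [rsx_ind_neg, zero_mul]
    intro e
    exact h ((rnz_inv_mem hN hT s ω).2 (e ▸ hJ))

/-- the invaded set is determined by the status of the edges which touch it -/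
theorem rnz_inv_congr {F : Finset (ℤ × ℤ)} {s : Bool} {ω ω' : RswCfg} {N : Finset (ℤ × ℤ)}
    (h : ∀ e : (ℤ × ℤ) × Bool, (e.1 ∈ rnzInv F s ω N ∨ rswCo e ∈ rnzInv F s ω N) → (RswGood s ω e ↔ RswGood s ω' e)) :
    rnzInv F s ω' N = rnzInv F s ω N := by
  ext g
  constructor
  · intro hg
    obtain ⟨hgF, f, hf, hr⟩ := rnz_mem_inv.1 hg
    clear hg
    induction hr with
    | refl => exact rnz_mem_inv.2 ⟨hgF, f, hf, Relation.ReflTransGen.refl⟩
    | @tail g1 g2 hr1 hs ih =>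
      obtain ⟨h1, h2, e, he, hgd⟩ := hs
      have ih' := ih h1
      refine rnz_inv_step ih' ⟨h1, h2, e, he, fun hh => hgd ((h e ?_).1 hh)⟩
      rcases he with ⟨rfl, _⟩ | ⟨_, rfl⟩
      · exact Or.inl ih'
      · exact Or.inr ih'
  · intro hg
    obtain ⟨hgF, f, hf, hr⟩ := rnz_mem_inv.1 hg
    refine rnz_mem_inv.2 ⟨hgF, f, hf, ?_⟩
    clear hg
    induction hr with
    | refl => exact Relation.ReflTransGen.refl
    | @tail g1 g2 hr1 hs ih =>
      obtain ⟨h1, h2, e, he, hgd⟩ := hs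
      have h1o : g1 ∈ rnzInv F s ω N := rnz_mem_inv.2 ⟨h1, f, hf, hr1⟩
      refine (ih h1).tail ⟨h1, h2, e, he, fun hh => hgd ((h e ?_).2 hh)⟩
      rcases he with ⟨rfl, _⟩ | ⟨_, rfl⟩
      · exact Or.inl h1o
      · exact Or.inr h1o

theorem rnz_inv_loc1 {F J : Finset (ℤ × ℤ)} {s : Bool} {ω ω' : RswCfg} {N : Finset (ℤ × ℤ)}
    (hS : ω.S \ rsxIn (F \ J) = ω'.S \ rsxIn (F \ J)) (hO : ω.O \ rswInt (F \ J) = ω'.O \ rswInt (F \ J))
    (h : rnzInv F s ω N = J) : rnzInv F s ω' N = J := by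
  rw [← h]
  refine rnz_inv_congr fun e he => ?_
  rw [h] at he
  have hn : ¬ (e.1 ∈ F \ J ∧ rswCo e ∈ F \ J) := by
    rintro ⟨h1, h2⟩
    rcases he with he | he
    · exact (Finset.mem_sdiff.1 h1).2 he
    · exact (Finset.mem_sdiff.1 h2).2 he
  rw [rsx_good_iff, rsx_good_iff, rsx_sdiff_mem hO (fun hh => hn (rsx_mem_int.1 hh)),
    rsx_sdiff_mem hS (fun hh => hn (rsx_in_faces1 hh)), rsx_sdiff_mem hS (fun hh => hn (rsx_in_faces2 hh))]

/-- the event `{Inv = J}` does not read the strict inside of `F \ J` -/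
theorem rnz_inv_loc (F J N : Finset (ℤ × ℤ)) (s : Bool) : RsxLocOut (F \ J) (fun ω => rsxInd (rnzInv F s ω N = J)) := by
  intro ω ω' hS _ hO
  exact rsx_ind_congr ⟨rnz_inv_loc1 hS hO, rnz_inv_loc1 hS.symm hO.symm⟩

/-- an edge of `F` between the invaded set and the rest is good -/
theorem rnz_cross_good {F : Finset (ℤ × ℤ)} {s : Bool} {ω : RswCfg} {N : Finset (ℤ × ℤ)} {e : (ℤ × ℤ) × Bool}
    (h : (e.1 ∈ F \ rnzInv F s ω N ∧ rswCo e ∈ rnzInv F s ω N) ∨ (rswCo e ∈ F \ rnzInv F s ω N ∧ e.1 ∈ rnzInv F s ω N)) :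
    RswGood s ω e := by
  by_contra hg
  rcases h with ⟨h1, h2⟩ | ⟨h1, h2⟩
  · obtain ⟨h1F, h1o⟩ := Finset.mem_sdiff.1 h1
    exact h1o (rnz_inv_step h2 ⟨rnz_inv_sub F s ω N h2, h1F, e, Or.inr ⟨rfl, rfl⟩, hg⟩)
  · obtain ⟨h1F, h1o⟩ := Finset.mem_sdiff.1 h1
    exact h1o (rnz_inv_step h2 ⟨rnz_inv_sub F s ω N h2, h1F, e, Or.inl ⟨rfl, rfl⟩, hg⟩)

/-- **the part which is not invaded is sealed by a cut** -/
theorem rnz_inv_cut {F : Finset (ℤ × ℤ)} {s' s : Bool} {ω : RswCfg} {N : Finset (ℤ × ℤ)} (hb : RswBc F s' ω)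
    (hs : s' = s ∨ rswLayer F ⊆ rnzInv F s ω N) : RsxCut F (F \ rnzInv F s ω N) s ω := by
  set J := rnzInv F s ω N with hJ
  have hsub : F \ J ⊆ F := Finset.sdiff_subset
  refine ⟨fun v hv hp => ?_, fun e he he' hx => ?_⟩
  · obtain ⟨e, hcr, hve⟩ := rsx_vertex_cross hv hp
    -- the face of `e` in `F \ J` and the other one
    have key : ∀ f g : ℤ × ℤ, ((f = e.1 ∧ g = rswCo e) ∨ (g = e.1 ∧ f = rswCo e)) → f ∈ F \ J → g ∉ F \ J → (v ∈ ω.S ↔ s = true) := by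
      intro f g hfg hf hg
      by_cases hgF : g ∈ F
      · have hgJ : g ∈ J := by
          by_contra hh; exact hg (Finset.mem_sdiff.2 ⟨hgF, hh⟩)
        have hgood : RswGood s ω e := by
          apply rnz_cross_good (F := F) (N := N)
          rcases hfg with ⟨rfl, rfl⟩ | ⟨rfl, rfl⟩
          · exact Or.inl ⟨hf, hgJ⟩
          · exact Or.inr ⟨hf, hgJ⟩
        rcases hve with rfl | rfl
        · exact hgood.2.1
        · exact hgood.2.2
      · have hfF := (Finset.mem_sdiff.1 hf).1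
        have hlay : f ∈ rswLayer F := by
          rcases hfg with ⟨rfl, rfl⟩ | ⟨rfl, rfl⟩
          · exact rsx_layer_of_edge.1 hfF hgF
          · exact rsx_layer_of_edge.2 hfF hgF
        rcases hs with rfl | hs
        · have hpF : OnPolygon F v := by
            by_contra hh
            have hin := rsx_in_iff.2 hh
            have : e.1 ∈ F ∧ rswCo e ∈ F := by
              rcases hve with rfl | rfl
              · exact rsx_in_faces1 hin
              · exact rsx_in_faces2 hin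
            rcases hfg with ⟨rfl, rfl⟩ | ⟨rfl, rfl⟩
            · exact hgF this.2
            · exact hgF this.1
          exact hb v (rnz_corners_mono hsub hv) hpF
        · exact absurd (hs hlay) (Finset.mem_sdiff.1 hf).2
    rcases hcr with ⟨h1, h2⟩ | ⟨h1, h2⟩
    · exact key e.1 (rswCo e) (Or.inl ⟨rfl, rfl⟩) h1 h2
    · exact key (rswCo e) e.1 (Or.inr ⟨rfl, rfl⟩) h1 h2
  · have heF := rsx_mem_int.1 he
    have hn : ¬ (e.1 ∈ F \ J ∧ rswCo e ∈ F \ J) := fun hh => he' (rsx_mem_int.2 hh)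
    refine (rnz_cross_good (F := F) (s := s) (ω := ω) (N := N) (e := e) ?_).1
    rcases hx with hx | hx
    · refine Or.inl ⟨hx, ?_⟩
      by_contra hh
      exact hn ⟨hx, Finset.mem_sdiff.2 ⟨heF.2, hh⟩⟩
    · refine Or.inr ⟨hx, ?_⟩
      by_contra hh
      exact hn ⟨Finset.mem_sdiff.2 ⟨heF.1, hh⟩, hx⟩

/-! ### 5. search -/

theorem rnz_out_mul {F' : Finset (ℤ × ℤ)} {X Y : RswCfg → ℝ} (hX : RsxLocOut F' X) (hY : RsxLocOut F' Y) : RsxLocOut F' (fun ω => X ω * Y ω) :=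
  fun ω ω' hS hD hO => by
    show X ω * Y ω = X ω' * Y ω'
    rw [hX ω ω' hS hD hO, hY ω ω' hS hD hO]

/-- one half of the search: the sum over `F` factorises through the flat problem of `F \ J` -/
theorem rnz_search_half (t : ℝ) (s' s : Bool) (F : Finset (ℤ × ℤ)) (K : RswCon) (N J : Finset (ℤ × ℤ))
    (hK : K.Legal (F \ J)) (hs : s' = s ∨ rswLayer F ⊆ J) (G X : RswCfg → ℝ) (hG : RsxLocOut (F \ J) G) (hX : RnzIn (F \ J) X) :
    rnzN t F s' K (fun ω => rsxInd (rnzInv F s ω N = J) * (G ω * X ω)) * rswSum t (F \ J) s (fun _ => 1)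
      = rswSum t F s' (fun ω => rsxInd (RsxCut F (F \ J) s ω) * (rsxInd (rnzInv F s ω N = J) * G ω)) * rnzN t (F \ J) s K X := by
  have hY : RnzIn (F \ J) (fun ω => rsxInd (K.Holds ω) * X ω) := rnz_in_mul (rnz_holds_in hK) hX
  have hnb : ∀ ω, RswBc (F \ J) s ω →
      rsxInd (K.Holds (rnzNorm (F \ J) s ω)) * X (rnzNorm (F \ J) s ω) = rsxInd (K.Holds ω) * X ω := fun ω hb => rnz_norm_bc hY hb
  have e1 : rnzN t F s' K (fun ω => rsxInd (rnzInv F s ω N = J) * (G ω * X ω))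
      = rswSum t F s' (fun ω => rsxInd (RsxCut F (F \ J) s ω) * (rsxInd (K.Holds (rnzNorm (F \ J) s ω)) * X (rnzNorm (F \ J) s ω))
          * (rsxInd (rnzInv F s ω N = J) * G ω)) := by
    unfold rnzN
    refine rsx_sum_congr_bc t F s' fun ω hb => ?_
    show rsxInd (K.Holds ω) * (rsxInd (rnzInv F s ω N = J) * (G ω * X ω)) = _
    by_cases hI : rnzInv F s ω N = J
    · have hcut : RsxCut F (F \ J) s ω := by
        have := rnz_inv_cut (N := N) hb (hs.imp id (fun h => by rw [hI]; exact h))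
        rwa [hI] at this
      rw [rsx_ind_pos hcut, hnb ω hcut.1, rsx_ind_pos hI]
      ring
    · rw [rsx_ind_neg hI]
      ring
  have e2 : rswSum t (F \ J) s (fun ω => rsxInd (K.Holds (rnzNorm (F \ J) s ω)) * X (rnzNorm (F \ J) s ω)) = rnzN t (F \ J) s K X := by
    unfold rnzN
    exact rsx_sum_congr_bc t (F \ J) s fun ω hb => hnb ω hb
  rw [e1, ← e2]
  exact rsx_swap t Finset.sdiff_subset s s' (rnz_norm_in s hY) (rnz_out_mul (rnz_inv_loc F J N s) hG)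

/-- **SEARCH** of sign `s` in the law `P^{s'}_F( . | K)`, cross multiplied -/
theorem rnz_search {t : ℝ} (h0 : 0 < t) (h1 : t ≤ 1) (s' s : Bool) (F : Finset (ℤ × ℤ)) (K : RswCon) (N J : Finset (ℤ × ℤ))
    (hK : K.Legal (F \ J)) (hs : s' = s ∨ rswLayer F ⊆ J) (G X : RswCfg → ℝ) (hG : RsxLocOut (F \ J) G) (hX : RnzIn (F \ J) X) :
    rnzN t F s' K (fun ω => rsxInd (rnzInv F s ω N = J) * (G ω * X ω)) * rnzZ t (F \ J) s K
      = rnzN t F s' K (fun ω => rsxInd (rnzInv F s ω N = J) * G ω) * rnzN t (F \ J) s K X := by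
  have a1 := rnz_search_half t s' s F K N J hK hs G X hG hX
  have a2 := rnz_search_half t s' s F K N J hK hs G (fun _ => 1) hG (rnz_in_const _ 1)
  simp only [mul_one] at a2
  have hz := rsx_Z_pos h0 h1 (F \ J) s
  have e : rnzN t (F \ J) s K (fun _ => 1) = rnzZ t (F \ J) s K := rfl
  rw [e] at a2
  apply mul_right_cancel₀ hz.ne'
  calc _ = (rnzN t F s' K (fun ω => rsxInd (rnzInv F s ω N = J) * (G ω * X ω)) * rswSum t (F \ J) s (fun _ => 1)) * rnzZ t (F \ J) s K := by ring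
    _ = (rnzN t F s' K (fun ω => rsxInd (rnzInv F s ω N = J) * G ω) * rswSum t (F \ J) s (fun _ => 1)) * rnzN t (F \ J) s K X := by
        rw [a1, a2]; ring
    _ = _ := by ring

/-- an invaded set whose complement is infeasible has probability zero -/
theorem rnz_search_zero {t : ℝ} (h0 : 0 < t) (h1 : t ≤ 1) (s' s : Bool) (F : Finset (ℤ × ℤ)) (K : RswCon) (N J : Finset (ℤ × ℤ))
    (hK : K.Legal (F \ J)) (hs : s' = s ∨ rswLayer F ⊆ J) (hz : rnzZ t (F \ J) s K = 0) :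
    rnzN t F s' K (fun ω => rsxInd (rnzInv F s ω N = J)) = 0 := by
  have a2 := rnz_search_half t s' s F K N J hK hs (fun _ => 1) (fun _ => 1) (fun _ _ _ _ _ => rfl) (rnz_in_const _ 1)
  simp only [mul_one] at a2
  have e : rnzN t (F \ J) s K (fun _ => 1) = rnzZ t (F \ J) s K := rfl
  rw [e, hz, mul_zero] at a2
  exact (mul_eq_zero.1 a2).resolve_right (rsx_Z_pos h0 h1 (F \ J) s).ne'

/-- one term of the decomposition, lower bound -/
theorem rnz_term_ge {t : ℝ} (h0 : 0 < t) (h1 : t ≤ 1) (s' s : Bool) (F : Finset (ℤ × ℤ)) (K : RswCon) (N J : Finset (ℤ × ℤ))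
    (hK : K.Legal (F \ J)) (hs : s' = s ∨ rswLayer F ⊆ J) (L : RswCfg → Prop) (hL : RnzIn (F \ J) (fun ω => rsxInd (L ω))) (c : ℝ)
    (h : RnzGe t (F \ J) s K L c) :
    c * rnzN t F s' K (fun ω => rsxInd (rnzInv F s ω N = J)) ≤ rnzN t F s' K (fun ω => rsxInd (rnzInv F s ω N = J) * rsxInd (L ω)) := by
  rcases (rnz_Z_nonneg h0.le h1 (F \ J) s K).eq_or_lt with hz | hz
  · rw [rnz_search_zero h0 h1 s' s F K N J hK hs hz.symm, mul_zero]
    exact rnz_N_nonneg h0.le h1 F s' K fun ω => mul_nonneg (rsx_ind_nonneg _) (rsx_ind_nonneg _)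
  · have key := rnz_search h0 h1 s' s F K N J hK hs (fun _ => 1) (fun ω => rsxInd (L ω)) (fun _ _ _ _ _ => rfl) hL
    simp only [one_mul, mul_one] at key
    have hn := rnz_N_nonneg h0.le h1 F s' K (X := fun ω => rsxInd (rnzInv F s ω N = J)) fun ω => rsx_ind_nonneg _
    unfold RnzGe at h
    have h2 := mul_le_mul_of_nonneg_left h hn
    rw [← key] at h2
    have h3 : (c * rnzN t F s' K (fun ω => rsxInd (rnzInv F s ω N = J))) * rnzZ t (F \ J) s K
        ≤ rnzN t F s' K (fun ω => rsxInd (rnzInv F s ω N = J) * rsxInd (L ω)) * rnzZ t (F \ J) s K := by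
      calc _ = rnzN t F s' K (fun ω => rsxInd (rnzInv F s ω N = J)) * (c * rnzZ t (F \ J) s K) := by ring
        _ ≤ _ := h2
    exact le_of_mul_le_mul_right h3 hz

/-! ### 6. the chain lemmas -/

/-- `Sep` computed in `F'` reads the flat problem of `F'` only -/
theorem rnz_sep_in (F' : Finset (ℤ × ℤ)) (a : Bool) (A B : Finset (ℤ × ℤ)) : RnzIn F' (fun ω => rsxInd (RswSep F' a ω A B)) := by
  have key : ∀ ω ω' : RswCfg, ω.S ∩ cornersOf F' = ω'.S ∩ cornersOf F' → ω.O ∩ rswInt F' = ω'.O ∩ rswInt F' →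
      RswSep F' a ω A B → RswSep F' a ω' A B := by
    intro ω ω' hS hO h f hf g hg hp
    refine h f hf g hg (Relation.ReflTransGen.mono ?_ _ _ hp)
    rintro x y ⟨hx, hy, e, he, hne⟩
    refine ⟨hx, hy, e, he, fun hgood => hne ((rnz_good_congr hS hO a ?_).1 hgood)⟩
    rcases he with ⟨rfl, rfl⟩ | ⟨rfl, rfl⟩
    · exact rsx_mem_int.2 ⟨hx, hy⟩
    · exact rsx_mem_int.2 ⟨hy, hx⟩
  exact fun ω ω' hS _ hO => rsx_ind_congr ⟨key ω ω' hS hO, key ω' ω hS.symm hO.symm⟩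

/-- deterministic: on `{Inv = J}` the target in `F \ J` implies the target in `F` -/
theorem rnz_T_glue (s : Bool) (X Z' F N J : Finset (ℤ × ℤ)) (ω : RswCfg) (hJ : rnzInv F s ω N = J)
    (hd : Disjoint J Z') (h : RnzT s X Z' (F \ J) ω) : RnzT s X Z' F ω := by
  have hfw : ∀ a b, RswStep F s ω a b → a ∈ J → b ∈ J := by
    intro a b hab ha
    rw [← hJ] at ha ⊢
    exact rnz_inv_step ha hab
  intro u hu v hv hp
  have huX := (Finset.mem_inter.1 hu).1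
  have huF := (Finset.mem_inter.1 hu).2
  by_cases huJ : u ∈ J
  · have : ∀ w, Relation.ReflTransGen (RswStep F s ω) u w → w ∈ J := by
      intro w hw
      induction hw with
      | refl => exact huJ
      | tail _ hbc ih => exact hfw _ _ hbc ih
    exact Finset.disjoint_left.1 hd (this v hp) hv
  · have key : ∀ w, Relation.ReflTransGen (RswStep F s ω) u w → (w ∉ J ∧ Relation.ReflTransGen (RswStep (F \ J) s ω) u w) := by
      intro w hw
      induction hw with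
      | refl => exact ⟨huJ, Relation.ReflTransGen.refl⟩
      | @tail b c _ hbc ih =>
        have hc : c ∉ J := fun hcJ => ih.1 (hfw c b (rnz_step_symm hbc) hcJ)
        obtain ⟨hb, hcF, e, he, hne⟩ := hbc
        exact ⟨hc, ih.2.tail ⟨Finset.mem_sdiff.2 ⟨hb, ih.1⟩, Finset.mem_sdiff.2 ⟨hcF, hc⟩, e, he, hne⟩⟩
    exact h u (Finset.mem_inter.2 ⟨huX, Finset.mem_sdiff.2 ⟨huF, huJ⟩⟩) v hv (key v hp).2

theorem rnz_sum_sep (t : ℝ) (s' s : Bool) (F : Finset (ℤ × ℤ)) (K : RswCon) {N T : Finset (ℤ × ℤ)} (hN : N ⊆ F) (hT : T ⊆ F) :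
    rnzN t F s' K (fun ω => rsxInd (RswSep F s ω N T)) = ∑ J ∈ rnzJ F N T, rnzN t F s' K (fun ω => rsxInd (rnzInv F s ω N = J)) := by
  rw [← rnz_N_sum]
  congr 1
  funext ω
  have := rnz_sum_I hN hT s (fun _ _ => 1) ω
  simpa using this

/-- **CHAIN LEMMA** -/
theorem rnz_step {t : ℝ} (h0 : 0 < t) (h1 : t ≤ 1) (s : Bool) (Z Z' X F N T : Finset (ℤ × ℤ)) (hZ : Z ⊆ Z') (hZ' : Z' ⊆ T) (hN : N ⊆ F) (hT : T ⊆ F)
    (c₁ c₂ : ℝ) (hc : 0 ≤ c₂) (a1 : RnzAll t s Z F (fun ω => RswSep F s ω N T) c₁)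
    (a2 : ∀ J, N ⊆ J → J ⊆ F → Disjoint J T → RnzAll t s Z (F \ J) (RnzT s X Z' (F \ J)) c₂) :
    RnzAll t s Z F (RnzT s X Z' F) (c₁ * c₂) := by
  intro K hK
  have hsum := rnz_sum_sep t s s F K hN hT
  have hlow : ∑ J ∈ rnzJ F N T, rnzN t F s K (fun ω => rsxInd (rnzInv F s ω N = J) * rsxInd (RnzT s X Z' (F \ J) ω))
      ≤ rnzN t F s K (fun ω => rsxInd (RnzT s X Z' F ω)) := by
    rw [← rnz_N_sum]
    refine rnz_N_mono h0.le h1 F s K fun ω => ?_
    rw [← rnz_sum_I hN hT s (fun J ω => rsxInd (RnzT s X Z' (F \ J) ω)) ω]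
    by_cases h : RswSep F s ω N T
    · rw [rsx_ind_pos h, one_mul]
      refine rnz_ind_mono fun h' => ?_
      have hd := (rnz_mem_J.1 ((rnz_inv_mem hN hT s ω).1 h)).2.2
      exact rnz_T_glue s X Z' F N _ ω rfl (Finset.disjoint_of_subset_right hZ' hd) h'
    · rw [rsx_ind_neg h, zero_mul]
      exact rsx_ind_nonneg _
  have hterm : ∑ J ∈ rnzJ F N T, c₂ * rnzN t F s K (fun ω => rsxInd (rnzInv F s ω N = J))
      ≤ ∑ J ∈ rnzJ F N T, rnzN t F s K (fun ω => rsxInd (rnzInv F s ω N = J) * rsxInd (RnzT s X Z' (F \ J) ω)) := by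
    refine Finset.sum_le_sum fun J hJ => ?_
    obtain ⟨hJF, hNJ, hd⟩ := rnz_mem_J.1 hJ
    exact rnz_term_ge h0 h1 s s F K N J (rnz_legal_mono ((hZ.trans hZ').trans (rnz_sub_sdiff hT hd)) hK) (Or.inl rfl) _
      (rnz_sep_in _ _ _ _) c₂ (a2 J hNJ hJF hd K hK)
  have a1' := a1 K hK
  unfold RnzGe at a1' ⊢
  rw [← Finset.mul_sum, ← hsum] at hterm
  have := mul_le_mul_of_nonneg_left a1' hc
  nlinarith

/-- **LOWER BOUND**:  `p ≤ P^s_{F \ J}(A)` for every possible `J`   ⟹   `p P^{s'}_F(Sep_s(N, T)) ≤ P^{s'}_F(A)`      (`A J` = the event read in `F \ J`, which implies `A'` on `{Inv = J}`) -/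
theorem rnz_lower {t : ℝ} (h0 : 0 < t) (h1 : t ≤ 1) (s' s : Bool) (F N T : Finset (ℤ × ℤ)) (hN : N ⊆ F) (hT : T ⊆ F)
    (hs : s' = s ∨ rswLayer F ⊆ N) (K : RswCon) (hK : K.Legal T) (A : Finset (ℤ × ℤ) → RswCfg → Prop) (A' : RswCfg → Prop) (p : ℝ)
    (hA : ∀ J ∈ rnzJ F N T, RnzIn (F \ J) (fun ω => rsxInd (A J ω)))
    (hAA : ∀ ω, RswSep F s ω N T → A (rnzInv F s ω N) ω → A' ω)
    (h : ∀ J ∈ rnzJ F N T, RnzGe t (F \ J) s K (A J) p) :
    p * rnzN t F s' K (fun ω => rsxInd (RswSep F s ω N T)) ≤ rnzN t F s' K (fun ω => rsxInd (A' ω)) := by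
  have hlow : ∑ J ∈ rnzJ F N T, rnzN t F s' K (fun ω => rsxInd (rnzInv F s ω N = J) * rsxInd (A J ω))
      ≤ rnzN t F s' K (fun ω => rsxInd (A' ω)) := by
    rw [← rnz_N_sum]
    refine rnz_N_mono h0.le h1 F s' K fun ω => ?_
    rw [← rnz_sum_I hN hT s (fun J ω => rsxInd (A J ω)) ω]
    by_cases hh : RswSep F s ω N T
    · rw [rsx_ind_pos hh, one_mul]
      exact rnz_ind_mono (hAA ω hh)
    · rw [rsx_ind_neg hh, zero_mul]
      exact rsx_ind_nonneg _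
  have hterm : ∑ J ∈ rnzJ F N T, p * rnzN t F s' K (fun ω => rsxInd (rnzInv F s ω N = J))
      ≤ ∑ J ∈ rnzJ F N T, rnzN t F s' K (fun ω => rsxInd (rnzInv F s ω N = J) * rsxInd (A J ω)) := by
    refine Finset.sum_le_sum fun J hJ => ?_
    obtain ⟨hJF, hNJ, hd⟩ := rnz_mem_J.1 hJ
    exact rnz_term_ge h0 h1 s' s F K N J (rnz_legal_mono (rnz_sub_sdiff hT hd) hK) (hs.imp id fun hh => hh.trans hNJ) _
      (hA J hJ) p (h J hJ)
  rw [← Finset.mul_sum, ← rnz_sum_sep t s' s F K hN hT] at hterm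
  exact hterm.trans hlow

end Claimed.Agent.R292
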