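import Claimed.Agent.R292.Rsw.RenDefs12
import Claimed.Agent.R292.Rsw.Expl107
import Claimed.Agent.R292.Rsw.Sym211

/-!
# Row 292 (S0540), Rsw/RenTop109 : R8 CORE, BLOCK A5 = RENORMALISATION, B4 (REC) + B2 (PUSH1)      (pen helper109; prefix `rrt109_` / `Rrt109`)      0 sorry

Port of R291 `Ann/RenTop` + `Ann/RenPush` to `ℤ²`.   INTERFACES = `Rsw/RenDefs12` (helper12, head of A5); colours of R291 inside A5 (minus boundary condition, increasing events, PLUS circuits).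
ONE tool is consumed as a `Prop`: `Rrt109Fkg t` = (T1) FKG of a flat law for two increasing events (order `RswLe`)      (producer R3: binding of `cmp291_fkg` / kit of 12).

## B4 (sec. 0-6)
* `rrt109_flipU : RnzFlipU t`      (global flip)
* `rrt109_fkg_neg` (increasing x decreasing), **`rrt109_dom : Rrt109Fkg t → Rrt109Dom t`** = (T2) domain monotonicity under the minus flat law (the minus cut is a decreasing event + `rsx_swap_E`)
* deterministic: `rrt109_box_sub`, `rrt109_corners_box`, `rrt109_layer_box`, `rrt109_sep_loc`, `rrt109_loc_up`, `rrt109_reach_sub`, `rrt109_sub_sep` (R291 `ann_sub_sep`)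
* `rrt109_fav` (FAV), `rrt109_step1` (search of sign plus from the layer = `rsx_lower` of Expl107, (FAV) twice, FKG), `rrt109_to_U` (T2, `rrt109_sub_sep`, translation `rsy_circuit_T`)
* **`rrt109_rec' : Rrt109Fkg t → RnzPush1 t → RnzSep2 t → RcRec t`**      **(REC)**
* **`rrt109_mono : Rrt109Fkg t → RcMono t`**      (contract (T2) for `U` of CoreTop121)
## B2 (sec. 7-10)
* `rrt109Inv F a ω O` = faces found from ANY start set `O`; `rrt109_sep_iff`, `rrt109_inv_loc`, `rrt109_inv_cut` (SAME SIGN: the rest is sealed)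
* `rrt109_swap` (swap for an event which may read the polygon of `F'`), **`rrt109_search`** = (T3*) same sign search (R291 `rnp_search`)
* `rrt109_holds_loc`, `rrt109_PK_eq`, `rrt109_feas_iff`, `rrt109_glue` (DET2), **`rrt109_step`** = the chain lemma (R291 `rnp_step`)
* `rrt109_val_anti`, `rrt109_val_end`, `rrt109_push`, `rrt109_dir`, `rrt109_box` (four sides), **`rrt109_push1 : RnzHP t → RnzPush1 t`**, **`rrt109_tube`** (rectangle `rrt109Bx`, any aspect; consumer B3)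
* `rrt109_rec_hp : Rrt109Fkg t → RnzHP t → RnzSep2 t → RcRec t`
-/

set_option autoImplicit false

namespace Claimed.Agent.R292

open Claims Claims.C0468

/-! ## 0. the two tools -/

/-- **(T1)** FKG of a flat law, for increasing events      (R291 `am_pl_fkg`) -/
def Rrt109Fkg (t : ℝ) : Prop :=
  ∀ (F : Finset (ℤ × ℤ)) (b : Bool) (L₁ L₂ : RswCfg → Prop), RswInc L₁ → RswInc L₂ →
    rswP t F b L₁ * rswP t F b L₂ ≤ rswP t F b (fun ω => L₁ ω ∧ L₂ ω)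

/-- **(T2)** domain monotonicity under the minus flat law: a closer minus polygon makes an increasing event less likely      (R291 `am_pl_dom_minus`) -/
def Rrt109Dom (t : ℝ) : Prop :=
  ∀ (F F' : Finset (ℤ × ℤ)) (L : RswCfg → Prop), F ⊆ F' → RswInc L → RnzLoc F L → rswP t F false L ≤ rswP t F' false L

/-- the equation lemmas of the definitions of this file are generated HERE (RULES.md, rule 6) -/
theorem rrt109_defs_eqns_cite : True := by
  have := @Rrt109Fkg.eq_1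
  have := @Rrt109Dom.eq_1
  trivial

/-- `U` in the colours of A5 -/
theorem rrt109_flipU (t : ℝ) : RnzFlipU t := fun n M =>
  rsb_P_sep_flip t (rswBox 0 M) true false (rswBox 0 n) (rswLayer (rswBox 0 M))

/-! ## 1. geometry of boxes -/

theorem rrt109_box_sub {u v : ℤ × ℤ} {r r' : ℕ} (h1 : |u.1 - v.1| + r ≤ r') (h2 : |u.2 - v.2| + r ≤ r') :
    rswBox u r ⊆ rswBox v r' := by
  intro w hw
  rw [rsy_mem_box] at hw ⊢
  have a1 := abs_le.1 (le_refl |u.1 - v.1|)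
  have a2 := abs_le.1 (le_refl |u.2 - v.2|)
  omega

theorem rrt109_box_mono (u : ℤ × ℤ) {r r' : ℕ} (h : r ≤ r') : rswBox u r ⊆ rswBox u r' :=
  rrt109_box_sub (by simpa using h) (by simpa using h)

/-- the corners of a box are strictly inside a box which is larger by one -/
theorem rrt109_corners_box {u v : ℤ × ℤ} {r r' : ℕ} (h1 : |u.1 - v.1| + r + 1 ≤ r') (h2 : |u.2 - v.2| + r + 1 ≤ r') :
    cornersOf (rswBox u r) ⊆ rsxIn (rswBox v r') := by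
  intro w hw
  rw [rsx_mem_corners] at hw
  rw [rsx_mem_in]
  simp only [rsy_mem_box] at hw ⊢
  have a1 := abs_le.1 (le_refl |u.1 - v.1|)
  have a2 := abs_le.1 (le_refl |u.2 - v.2|)
  omega

/-- the layer of a box is its outermost ring -/
theorem rrt109_layer_box {u f : ℤ × ℤ} {m k : ℕ} (hk : k + 1 ≤ m) (hf : f ∈ rswLayer (rswBox u m)) : f ∉ rswBox u k := by
  obtain ⟨_, v, hv, hp⟩ := rsx_mem_layer.1 hf
  intro hfk
  apply rsx_onPoly.1 hp
  simp only [Finset.mem_insert, Finset.mem_singleton] at hv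
  rw [rsy_mem_box] at hfk
  simp only [rsy_mem_box]
  rcases hv with rfl | rfl | rfl | rfl <;> omega

/-! ## 2. deterministic lemmas on separations -/

theorem rrt109_mem_of_inter {α : Type} [DecidableEq α] {a b T : Finset α} (h : a ∩ T = b ∩ T) {v : α} (hv : v ∈ T) : v ∈ a ↔ v ∈ b := by
  have h1 : v ∈ a ∩ T ↔ v ∈ b ∩ T := by rw [h]
  simp only [Finset.mem_inter, hv, and_true] at h1
  exact h1

theorem rrt109_good_congr {F : Finset (ℤ × ℤ)} {a : Bool} {ω ω' : RswCfg} (hS : ω.S ∩ cornersOf F = ω'.S ∩ cornersOf F)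
    (hO : ω.O ∩ rswInt F = ω'.O ∩ rswInt F) {e : (ℤ × ℤ) × Bool} (he : e ∈ rswInt F) : RswGood a ω e ↔ RswGood a ω' e := by
  have hf := rsx_mem_int.1 he
  rw [rsx_good_iff, rsx_good_iff, rrt109_mem_of_inter hO he, rrt109_mem_of_inter hS (rsx_end_corner1 (Or.inl hf.1)),
    rrt109_mem_of_inter hS (rsx_end_corner2 (Or.inl hf.1))]

theorem rrt109_step_int {F : Finset (ℤ × ℤ)} {f g : ℤ × ℤ} (hf : f ∈ F) (hg : g ∈ F) {e : (ℤ × ℤ) × Bool}
    (he : (f = e.1 ∧ g = rswCo e) ∨ (g = e.1 ∧ f = rswCo e)) : e ∈ rswInt F := by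
  rw [rsx_mem_int]
  rcases he with ⟨rfl, rfl⟩ | ⟨rfl, rfl⟩
  · exact ⟨hf, hg⟩
  · exact ⟨hg, hf⟩

/-- locality of a separation event -/
theorem rrt109_sep_loc (F A B : Finset (ℤ × ℤ)) (a : Bool) : RnzLoc F (fun ω => RswSep F a ω A B) := by
  have key : ∀ ω ω' : RswCfg, ω.S ∩ cornersOf F = ω'.S ∩ cornersOf F → ω.O ∩ rswInt F = ω'.O ∩ rswInt F →
      ∀ f g, RswStep F a ω f g → RswStep F a ω' f g := by
    rintro ω ω' hS hO f g ⟨hf, hg, e, he, hne⟩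
    exact ⟨hf, hg, e, he, fun h => hne ((rrt109_good_congr hS hO (rrt109_step_int hf hg he)).2 h)⟩
  intro ω ω' hS hO
  constructor
  · intro h f hf g hg hr
    exact h f hf g hg (Relation.ReflTransGen.mono (key ω' ω hS.symm hO.symm) _ _ hr)
  · intro h f hf g hg hr
    exact h f hf g hg (Relation.ReflTransGen.mono (key ω ω' hS hO) _ _ hr)

theorem rrt109_loc_up {b F : Finset (ℤ × ℤ)} (h : b ⊆ F) {L : RswCfg → Prop} (hL : RnzLoc b L) : RnzLoc F L :=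
  fun ω ω' hS hO => hL ω ω' (rsx_inter_mono hS (rsx_corners_mono h)) (rsx_inter_mono hO (rsx_int_mono h))

theorem rrt109_loc_and {b : Finset (ℤ × ℤ)} {L₁ L₂ : RswCfg → Prop} (h₁ : RnzLoc b L₁) (h₂ : RnzLoc b L₂) :
    RnzLoc b (fun ω => L₁ ω ∧ L₂ ω) := fun ω ω' hS hO => and_congr (h₁ ω ω' hS hO) (h₂ ω ω' hS hO)

theorem rrt109_inc_and {L₁ L₂ : RswCfg → Prop} (h₁ : RswInc L₁) (h₂ : RswInc L₂) : RswInc (fun ω => L₁ ω ∧ L₂ ω) :=
  fun ω ω' hle h => ⟨h₁ ω ω' hle h.1, h₂ ω ω' hle h.2⟩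

/-- an event local in `b` is read strictly inside `A` as soon as the corners of `b` are strictly inside `A` -/
theorem rrt109_locIn {b A : Finset (ℤ × ℤ)} (h1 : cornersOf b ⊆ rsxIn A) (h2 : b ⊆ A) {L : RswCfg → Prop} (hL : RnzLoc b L) :
    RsxLocIn A (fun ω => rsxInd (L ω)) :=
  fun ω ω' hS _ hO => rsx_ind_congr (hL ω ω' (rsx_inter_mono hS h1) (rsx_inter_mono hO (rsx_int_mono h2)))

theorem rrt109_X_loc (u : ℤ × ℤ) (r : ℕ) : RnzLoc (rswBox u (3 * r)) (RnzX u r) := rrt109_sep_loc _ _ _ _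

/-- a dual path of `F` which starts in `b ⊆ F` stays in `b` or meets the layer of `b` -/
theorem rrt109_reach_sub {b F : Finset (ℤ × ℤ)} {a : Bool} {ω : RswCfg} {f w : ℤ × ℤ} (hf : f ∈ b)
    (h : Relation.ReflTransGen (RswStep F a ω) f w) :
    (w ∈ b ∧ Relation.ReflTransGen (RswStep b a ω) f w) ∨ ∃ x ∈ rswLayer b, Relation.ReflTransGen (RswStep b a ω) f x := by
  induction h with
  | refl => exact Or.inl ⟨hf, Relation.ReflTransGen.refl⟩
  | @tail w w' _ hs ih =>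
    rcases ih with ⟨hw, hr⟩ | hx
    · by_cases hw' : w' ∈ b
      · obtain ⟨_, _, e, he, hne⟩ := hs
        exact Or.inl ⟨hw', hr.tail ⟨hw, hw', e, he, hne⟩⟩
      · refine Or.inr ⟨w, ?_, hr⟩
        obtain ⟨_, _, e, he, _⟩ := hs
        rcases he with ⟨rfl, rfl⟩ | ⟨rfl, rfl⟩
        · exact rsx_layer_of_edge.1 hw hw'
        · exact rsx_layer_of_edge.2 hw hw'
    · exact Or.inr hx

/-- the layer of `F` inside `b ⊆ F` is in the layer of `b` -/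
theorem rrt109_layer_sub {b F : Finset (ℤ × ℤ)} (h : b ⊆ F) {f : ℤ × ℤ} (hf : f ∈ rswLayer F) (hb : f ∈ b) : f ∈ rswLayer b := by
  obtain ⟨_, v, hv, hp⟩ := rsx_mem_layer.1 hf
  refine rsx_mem_layer.2 ⟨hb, v, hv, ?_⟩
  rw [rsx_onPoly] at hp ⊢
  exact fun hh => hp ⟨h hh.1, h hh.2.1, h hh.2.2.1, h hh.2.2.2⟩

/-- a local circuit is a circuit of every larger domain      (R291 `ann_sub_sep`) -/
theorem rrt109_sub_sep {b F A : Finset (ℤ × ℤ)} (h : b ⊆ F) (hA : A ⊆ b) (a : Bool) (ω : RswCfg)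
    (hs : RswSep b a ω (rswLayer b) A) : RswSep F a ω A (rswLayer F) := by
  have hs' := rnz_sep_symm a ω _ _ hs
  intro f hf g hg hr
  rcases rrt109_reach_sub (hA hf) hr with ⟨hgb, hr'⟩ | ⟨x, hx, hr'⟩
  · exact hs' f hf g (rrt109_layer_sub h hg hgb) hr'
  · exact hs' f hf x hx hr'

/-! ## 3. (FAV) -/

theorem rrt109_free_feas {t : ℝ} (h0 : 0 < t) (h1 : t ≤ 1) (F : Finset (ℤ × ℤ)) (s : Bool) : rswFree.Feas t F s := by
  classical
  unfold RswCon.Feas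
  have e : (fun ω : RswCfg => if rswFree.Holds ω then (1 : ℝ) else 0) = fun _ => 1 := by
    funext ω; rw [if_pos (rnz_free_holds ω)]
  have h := rsx_Z_pos h0 h1 F s
  rw [← e] at h
  convert h

/-- **(FAV)** from (PUSH1) -/
theorem rrt109_fav {t : ℝ} (h0 : 0 < t) (h1 : t ≤ 1) (hP : RnzPush1 t) (C₀ : ℕ) :
    ∃ c : ℝ, 0 < c ∧ ∃ r₀ : ℕ, ∀ (r : ℕ) (u : ℤ × ℤ) (D : Finset (ℤ × ℤ)), r₀ ≤ r → rswBox u (3 * r) ⊆ D → D ⊆ rswBox u (C₀ * r) →
      c ≤ rswP t D true (RnzX u r) := by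
  obtain ⟨c, hc, R₀, h⟩ := hP C₀
  refine ⟨c, hc, max R₀ 1, fun r u D hr hD1 hD2 => ?_⟩
  have hr1 : R₀ ≤ r := le_trans (le_max_left _ _) hr
  have hr2 : 1 ≤ r := le_trans (le_max_right _ _) hr
  have h3 := h true r u rswFree hr1 (rnz_free_legal _) D ((rrt109_box_mono u (by omega)).trans hD1) hD2 (rrt109_free_feas h0 h1 D true)
  rw [rnz_PK_free] at h3
  refine h3.trans (rsb_P_mono h0 h1 fun ω _ _ hω => ?_)
  refine rnz_sep_dom hD1 true ω _ _ (rnz_sep_mono true ω (fun f hf => ?_) subset_rfl hω)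
  exact Finset.mem_sdiff.2 ⟨hD1 (rsx_layer_sub _ hf), rrt109_layer_box (by omega) hf⟩

/-! ## 4. Step 1 and Step 3 -/

/-- `U` in the colours of A5 -/
noncomputable def rrt109U (t : ℝ) (n M : ℕ) : ℝ :=
  rswP t (rswBox 0 M) false (fun ω => RswSep (rswBox 0 M) true ω (rswBox 0 n) (rswLayer (rswBox 0 M)))

theorem rrt109_U_eq (t : ℝ) (n M : ℕ) : rcU t n M = rrt109U t n M := rrt109_flipU t n M

/-- **STEP 1**: `c_F² U(N, M) ≤ P^-_{Box M}[X₁ ∩ X₂]` for two boxes well inside `Box N` -/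
theorem rrt109_step1 {t : ℝ} (h0 : 0 < t) (h1 : t ≤ 1) (hF : Rrt109Fkg t) (n N M : ℕ) (hNM : N ≤ M) (z₁ z₂ : ℤ × ℤ) (cF : ℝ) (hcF : 0 ≤ cF)
    (h₁ : rswBox z₁ (3 * n) ⊆ rswBox 0 N) (h₂ : rswBox z₂ (3 * n) ⊆ rswBox 0 N)
    (k₁ : cornersOf (rswBox z₁ (3 * n)) ⊆ rsxIn (rswBox 0 N)) (k₂ : cornersOf (rswBox z₂ (3 * n)) ⊆ rsxIn (rswBox 0 N))
    (f₁ : ∀ I, rswBox z₁ (3 * n) ⊆ I → I ⊆ rswBox 0 M → cF ≤ rswP t I true (RnzX z₁ n))
    (f₂ : ∀ I, rswBox z₂ (3 * n) ⊆ I → I ⊆ rswBox 0 M → cF ≤ rswP t I true (RnzX z₂ n)) :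
    cF ^ 2 * rrt109U t N M ≤ rswP t (rswBox 0 M) false (fun ω => RnzX z₁ n ω ∧ RnzX z₂ n ω) := by
  have hA : rswBox 0 N ⊆ rswBox 0 M := rrt109_box_mono 0 hNM
  have hloc : RsxLocIn (rswBox 0 N) (fun ω => rsxInd (RnzX z₁ n ω ∧ RnzX z₂ n ω)) := by
    intro ω ω' hS hD hO
    have e1 := rrt109_X_loc z₁ n ω ω' (rsx_inter_mono hS k₁) (rsx_inter_mono hO (rsx_int_mono h₁))
    have e2 := rrt109_X_loc z₂ n ω ω' (rsx_inter_mono hS k₂) (rsx_inter_mono hO (rsx_int_mono h₂))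
    exact rsx_ind_congr (and_congr e1 e2)
  have h := rsx_lower h0 h1 hA true false hloc (fun ω => rsx_ind_nonneg _) (cF ^ 2) (fun G hG => ?_)
  · rw [mul_comm]
    rw [rsx_P_eq t (rswBox 0 M) false (fun ω => RnzX z₁ n ω ∧ RnzX z₂ n ω)]
    exact h
  · have hAI : rswBox 0 N ⊆ rswBox 0 M \ G := rsx_sub_sdiff hA hG
    have hID : rswBox 0 M \ G ⊆ rswBox 0 M := Finset.sdiff_subset
    have g₁ := f₁ _ (h₁.trans hAI) hID
    have g₂ := f₂ _ (h₂.trans hAI) hID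
    have hf := hF (rswBox 0 M \ G) true (RnzX z₁ n) (RnzX z₂ n) (rnz_X_inc z₁ n) (rnz_X_inc z₂ n)
    rw [← rsx_P_eq]
    refine le_trans ?_ hf
    rw [pow_two]
    exact mul_le_mul g₁ g₂ hcF (hcF.trans g₁)

/-- **STEP 3**: back to `U` -/
theorem rrt109_to_U {t : ℝ} (h0 : 0 < t) (h1 : t ≤ 1) (hD : Rrt109Dom t) (z : ℤ × ℤ) (n g M : ℕ) (k1 : 3 * n ≤ 2 * g) (k2 : 2 * g ≤ M) :
    rswP t (rswBox z (2 * g)) false (RnzX z n) ≤ rrt109U t n M := by
  have hb : rswBox z (3 * n) ⊆ rswBox z (2 * g) := rrt109_box_mono z k1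
  have hB : rswBox z (2 * g) ⊆ rswBox z M := rrt109_box_mono z k2
  have hd := hD (rswBox z (2 * g)) (rswBox z M) (RnzX z n) hB (rnz_X_inc z n) (rrt109_loc_up hb (rrt109_X_loc z n))
  have hm : rswP t (rswBox z M) false (RnzX z n) ≤ rswP t (rswBox z M) false
      (fun ω => RswSep (rswBox z M) true ω (rswBox z n) (rswLayer (rswBox z M))) :=
    rsb_P_mono h0 h1 fun ω _ _ hω => rrt109_sub_sep (hb.trans hB) (rrt109_box_mono z (by omega)) true ω hω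
  exact (hd.trans hm).trans (rsy_circuit_T t z M n false true).le

/-! ## 5. (REC) -/

/-- **(REC)** from (T1), (T2), (PUSH1) and (SEP2) -/
theorem rrt109_rec (t : ℝ) (h0 : 0 < t) (h1 : t ≤ 1) (hF : Rrt109Fkg t) (hD : Rrt109Dom t) (hP : RnzPush1 t) (hS : RnzSep2 t) :
    RcRec t := by
  obtain ⟨κ, hκ, hS⟩ := hS
  refine ⟨6 * κ, fun K hK => ?_⟩
  obtain ⟨ρ, hρ⟩ : ∃ ρ : ℕ, ρ = 3 * κ + 4 := ⟨_, rfl⟩
  obtain ⟨c₂, hc₂, r₂, hS⟩ := hS (K * ρ ^ 2)
  obtain ⟨cF, hcF, rF, hFav⟩ := rrt109_fav h0 h1 hP (2 * K * ρ ^ 2 + 3 * κ)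
  refine ⟨ρ, 1 / (cF ^ 2 * c₂), max (max rF r₂) 1, by omega, by positivity, fun n N hn k1 k2 => ?_⟩
  have hnF : rF ≤ n := le_trans (le_trans (le_max_left _ _) (le_max_left _ _)) hn
  have hn2 : r₂ ≤ n := le_trans (le_trans (le_max_right _ _) (le_max_left _ _)) hn
  have hn1 : 1 ≤ n := le_trans (le_max_right _ _) hn
  obtain ⟨g, hg⟩ : ∃ g : ℕ, g = 3 * κ * n := ⟨_, rfl⟩
  rw [rrt109_U_eq, rrt109_U_eq]
  -- arithmetic
  have hA1 : g + 3 * n + 1 ≤ N := by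
    calc g + 3 * n + 1 ≤ g + 4 * n := by omega
      _ = ρ * n := by rw [hg, hρ]; ring
      _ ≤ N := k1
  have hnN : n ≤ N := by omega
  have hA2 : 4 * g ≤ 2 * K * N := by
    calc 4 * g = 2 * ((6 * κ) * n) := by rw [hg]; ring
      _ ≤ 2 * (K * N) := Nat.mul_le_mul_left 2 (Nat.mul_le_mul hK hnN)
      _ = 2 * K * N := by ring
  have hKN : K * N ≤ K * (ρ ^ 2 * n) := Nat.mul_le_mul_left K k2
  have hA3 : 2 * K * N ≤ K * ρ ^ 2 * (3 * n) := by
    calc 2 * K * N = 2 * (K * N) := by ring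
      _ ≤ 2 * (K * (ρ ^ 2 * n)) := Nat.mul_le_mul_left 2 hKN
      _ ≤ 3 * (K * (ρ ^ 2 * n)) := Nat.mul_le_mul_right _ (by norm_num)
      _ = K * ρ ^ 2 * (3 * n) := by ring
  have hκn : n ≤ κ * n := Nat.le_mul_of_pos_left n hκ
  have hA4 : 3 * n ≤ 2 * g := by
    rw [hg]
    calc 3 * n ≤ 6 * (κ * n) := by omega
      _ = 2 * (3 * κ * n) := by ring
  have hA5 : 2 * g ≤ 2 * K * n := by
    calc 2 * g = (6 * κ) * n := by rw [hg]; ring
      _ ≤ K * n := Nat.mul_le_mul_right n hK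
      _ ≤ 2 * (K * n) := by omega
      _ = 2 * K * n := by ring
  have hA6 : 2 * K * N + g ≤ (2 * K * ρ ^ 2 + 3 * κ) * n := by
    calc 2 * K * N + g = 2 * (K * N) + 3 * κ * n := by rw [hg]; ring
      _ ≤ 2 * (K * (ρ ^ 2 * n)) + 3 * κ * n := Nat.add_le_add_right (Nat.mul_le_mul_left 2 hKN) _
      _ = (2 * K * ρ ^ 2 + 3 * κ) * n := by ring
  have hA7 : κ * (3 * n) ≤ g := by rw [hg]; exact le_of_eq (by ring)
  have hNM : N ≤ 2 * K * N := by
    have : 1 ≤ 2 * K := by omega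
    calc N = 1 * N := (one_mul N).symm
      _ ≤ 2 * K * N := Nat.mul_le_mul_right N this
  -- geometry
  have hin : ∀ z : ℤ × ℤ, |z.1| = g → z.2 = 0 → rswBox z (3 * n) ⊆ rswBox 0 N := by
    intro z hz1 hz2
    refine rrt109_box_sub ?_ ?_
    · simp only [Prod.fst_zero, sub_zero, hz1]; push_cast; omega
    · simp only [Prod.snd_zero, sub_zero, hz2, abs_zero]; push_cast; omega
  have hcor : ∀ z : ℤ × ℤ, |z.1| = g → z.2 = 0 → cornersOf (rswBox z (3 * n)) ⊆ rsxIn (rswBox 0 N) := by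
    intro z hz1 hz2
    refine rrt109_corners_box ?_ ?_
    · simp only [Prod.fst_zero, sub_zero, hz1]; push_cast; omega
    · simp only [Prod.snd_zero, sub_zero, hz2, abs_zero]; push_cast; omega
  have hout : ∀ z : ℤ × ℤ, |z.1| = g → z.2 = 0 → rswBox 0 (2 * K * N) ⊆ rswBox z ((2 * K * ρ ^ 2 + 3 * κ) * n) := by
    intro z hz1 hz2
    have h6 : ((2 * K * N + g : ℕ) : ℤ) ≤ (((2 * K * ρ ^ 2 + 3 * κ) * n : ℕ) : ℤ) := by exact_mod_cast hA6
    refine rrt109_box_sub ?_ ?_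
    · simp only [Prod.fst_zero, zero_sub, abs_neg, hz1]
      push_cast at h6 ⊢; omega
    · simp only [Prod.snd_zero, zero_sub, abs_neg, hz2, abs_zero]
      push_cast at h6 ⊢; omega
  have hz₁ : |((-(g : ℤ), 0) : ℤ × ℤ).1| = g := by simp
  have hz₂ : |(((g : ℤ), 0) : ℤ × ℤ).1| = g := by simp
  -- Step 1
  have s1 := rrt109_step1 h0 h1 hF n N (2 * K * N) hNM (-(g : ℤ), 0) ((g : ℤ), 0) cF hcF.le (hin _ hz₁ rfl) (hin _ hz₂ rfl)
    (hcor _ hz₁ rfl) (hcor _ hz₂ rfl)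
    (fun I a b => hFav n _ I hnF a (b.trans (hout _ hz₁ rfl))) (fun I a b => hFav n _ I hnF a (b.trans (hout _ hz₂ rfl)))
  -- Step 2
  have s2 := hS (3 * n) g (rswBox 0 (2 * K * N)) (RnzX (-(g : ℤ), 0) n) (RnzX ((g : ℤ), 0) n) (by omega) hA7
    (rrt109_box_mono 0 hA2) (rrt109_box_mono 0 hA3)
    (rnz_X_inc _ n) (rrt109_X_loc _ n) (rnz_X_inc _ n) (rrt109_X_loc _ n)
  -- Step 3
  have s3 := rrt109_to_U h0 h1 hD (-(g : ℤ), 0) n g (2 * K * n) hA4 hA5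
  have s4 := rrt109_to_U h0 h1 hD ((g : ℤ), 0) n g (2 * K * n) hA4 hA5
  have p3 : 0 ≤ rswP t (rswBox (-(g : ℤ), 0) (2 * g)) false (RnzX (-(g : ℤ), 0) n) := rsb_P_nonneg h0 h1 _ _ _
  have p4 : 0 ≤ rswP t (rswBox ((g : ℤ), 0) (2 * g)) false (RnzX ((g : ℤ), 0) n) := rsb_P_nonneg h0 h1 _ _ _
  have s5 := mul_le_mul s3 s4 p4 (p3.trans s3)
  have s6 : c₂ * (cF ^ 2 * rrt109U t N (2 * K * N)) ≤ rrt109U t n (2 * K * n) * rrt109U t n (2 * K * n) :=
    (mul_le_mul_of_nonneg_left s1 hc₂.le).trans (s2.trans s5)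
  rw [div_mul_eq_mul_div, one_mul, le_div_iff₀ (by positivity)]
  nlinarith [s6]

/-! ## 6. (T2) from (T1) and the swap -/

theorem rrt109_cst_mem (F : Finset (ℤ × ℤ)) (b : Bool) : rsxCst F b ∈ rsxCfgs F := by
  rw [rsx_mem_cfgs]
  refine ⟨?_, Finset.empty_subset _, Finset.Subset.refl _⟩
  unfold rsxCst
  cases b <;> simp

theorem rrt109_cst_wt_pos {t : ℝ} (h0 : 0 < t) (F : Finset (ℤ × ℤ)) (b : Bool) : 0 < rswWt t F b (rsxCst F b) := by
  have hbc : RswBc F b (rsxCst F b) := fun v hv _ => rsx_cst_S hv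
  rw [rsx_wt_eq, rsx_ind_pos hbc, one_mul]
  refine Finset.prod_pos fun e he => ?_
  have he' := rsx_mem_int.1 he
  have e1 : e.1 ∈ (rsxCst F b).S ↔ rswEnd e ∈ (rsxCst F b).S := by
    rw [rsx_cst_S (rsx_end_corner1 (Or.inl he'.1)), rsx_cst_S (rsx_end_corner2 (Or.inl he'.1))]
  rw [rsx_fac_eq]
  unfold rsxFacP
  rw [if_pos (show e ∈ (rsxCst F b).O from he), if_pos e1]
  exact h0

theorem rrt109_sum_pos {t : ℝ} (h0 : 0 < t) (h1 : t ≤ 1) (F : Finset (ℤ × ℤ)) (b : Bool) {X : RswCfg → ℝ} (hX : ∀ ω, 0 ≤ X ω)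
    (hc : 0 < X (rsxCst F b)) : 0 < rswSum t F b X := by
  rw [rsx_sum_eq]
  exact Finset.sum_pos' (fun ω _ => mul_nonneg (rsx_wt_nonneg h0.le h1 F b ω) (hX ω))
    ⟨_, rrt109_cst_mem F b, mul_pos (rrt109_cst_wt_pos h0 F b) hc⟩

/-- the two endpoints of an edge of `F'` with exactly one face in `F` are corners of `F` on its polygon -/
theorem rrt109_cross_poly {F : Finset (ℤ × ℤ)} {e : (ℤ × ℤ) × Bool} (h1 : e ∉ rswInt F) (h2 : e.1 ∈ F ∨ rswCo e ∈ F) :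
    (e.1 ∈ cornersOf F ∧ OnPolygon F e.1) ∧ (rswEnd e ∈ cornersOf F ∧ OnPolygon F (rswEnd e)) := by
  refine ⟨⟨rsx_end_corner1 h2, ?_⟩, ⟨rsx_end_corner2 h2, ?_⟩⟩
  · by_contra hp
    exact h1 (rsx_mem_int.2 (rsx_in_faces1 (rsx_in_iff.2 hp)))
  · by_contra hp
    exact h1 (rsx_mem_int.2 (rsx_in_faces2 (rsx_in_iff.2 hp)))

/-- the minus cut is a decreasing event -/
theorem rrt109_cut_dec (F' F : Finset (ℤ × ℤ)) : RswInc (fun ω => ¬ RsxCut F' F false ω) := by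
  intro ω ω' hle hn hc
  apply hn
  obtain ⟨hb, ho⟩ := hc
  have hm : ∀ v ∈ cornersOf F, OnPolygon F v → v ∉ ω'.S := fun v hv hp hS => by
    have := (hb v hv hp).1 hS
    exact Bool.false_ne_true this
  refine ⟨fun v hv hp => ⟨fun hS => absurd (hle.1 hS) (hm v hv hp), fun h => absurd h Bool.false_ne_true⟩, fun e he he' hx => ?_⟩
  obtain ⟨⟨c1, p1⟩, ⟨c2, p2⟩⟩ := rrt109_cross_poly he' hx
  have hg : RswGood false ω' e :=
    ⟨ho e he he' hx, ⟨fun hS => absurd hS (hm _ c1 p1), fun h => absurd h Bool.false_ne_true⟩,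
      ⟨fun hS => absurd hS (hm _ c2 p2), fun h => absurd h Bool.false_ne_true⟩⟩
  exact (hle.2.2 e hg).1

/-- FKG for an increasing event and a decreasing event -/
theorem rrt109_fkg_neg {t : ℝ} (h0 : 0 < t) (h1 : t ≤ 1) (hF : Rrt109Fkg t) (F : Finset (ℤ × ℤ)) (b : Bool) (L C : RswCfg → Prop)
    (hL : RswInc L) (hC : RswInc (fun ω => ¬ C ω)) :
    rswP t F b (fun ω => L ω ∧ C ω) ≤ rswP t F b L * rswP t F b C := by
  have h := hF F b L (fun ω => ¬ C ω) hL hC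
  rw [rsb_P_compl h0 h1] at h
  have h2 := rsb_P_or_add_and t F b (fun ω => L ω ∧ C ω) (fun ω => L ω ∧ ¬ C ω)
  have e1 : rswP t F b (fun ω => (L ω ∧ C ω) ∨ (L ω ∧ ¬ C ω)) = rswP t F b L :=
    rsb_P_congr fun ω _ _ => by by_cases hc : C ω <;> simp [hc]
  have e2 : rswP t F b (fun ω => (L ω ∧ C ω) ∧ (L ω ∧ ¬ C ω)) = 0 := by
    rw [← rsb_P_false t F b]
    exact rsb_P_congr fun ω _ _ => ⟨fun hh => hh.2.2 hh.1.2, fun hh => hh.elim⟩
  rw [e1, e2] at h2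
  nlinarith

/-- **(T2)** from (T1): the minus flat law of `F ⊆ F'` is the minus flat law of `F'` conditioned on the (decreasing) cut -/
theorem rrt109_dom {t : ℝ} (h0 : 0 < t) (h1 : t ≤ 1) (hF : Rrt109Fkg t) : Rrt109Dom t := by
  intro F F' L hFF' hL hloc
  set X : RswCfg → ℝ := fun ω => rsxInd (L ⟨ω.S ∩ rsxIn F, ω.D, ω.O⟩) with hX
  have hXloc : RsxLocIn F X := by
    intro ω ω' hS _ hO
    refine rsx_ind_congr (hloc _ _ ?_ hO)
    show ω.S ∩ rsxIn F ∩ cornersOf F = ω'.S ∩ rsxIn F ∩ cornersOf F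
    rw [hS]
  have hXbc : ∀ ω, RswBc F false ω → X ω = rsxInd (L ω) := by
    intro ω hb
    refine rsx_ind_congr (hloc _ _ ?_ rfl)
    show ω.S ∩ rsxIn F ∩ cornersOf F = ω.S ∩ cornersOf F
    ext v
    simp only [Finset.mem_inter]
    constructor
    · rintro ⟨⟨a, _⟩, c⟩; exact ⟨a, c⟩
    · rintro ⟨a, c⟩
      refine ⟨⟨a, ?_⟩, c⟩
      by_contra hin
      exact Bool.false_ne_true ((hb v c (fun hh => hin (rsx_mem_in.2 hh))).1 a)
  have hs := rsx_swap_E h0 h1 hFF' false false hXloc (Y := fun _ => 1) (fun _ _ _ _ _ => rfl)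
  have e1 : rswSum t F' false (fun ω => rsxInd (RsxCut F' F false ω) * X ω * 1) =
      rswSum t F' false (fun ω => rsxInd (L ω ∧ RsxCut F' F false ω)) := by
    refine rsx_sum_congr t F' false fun ω => ?_
    by_cases hc : RsxCut F' F false ω
    · rw [hXbc ω hc.1, rsx_ind_pos hc, one_mul, mul_one]
      exact rsx_ind_congr ⟨fun h => ⟨h, hc⟩, fun h => h.1⟩
    · rw [rsx_ind_neg hc, rsx_ind_neg (fun h => hc h.2)]; ring
  have e2 : rswSum t F' false (fun ω => rsxInd (RsxCut F' F false ω) * 1) = rswSum t F' false (fun ω => rsxInd (RsxCut F' F false ω)) :=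
    rsx_sum_congr t F' false fun ω => mul_one _
  have e3 : rswE t F false X = rswP t F false L := by
    rw [rsx_P_eq, rsx_E_eq, rsx_E_eq, rsx_sum_congr_bc t F false hXbc]
  rw [e1, e2, e3] at hs
  have hZ := rsx_Z_pos h0 h1 F' false
  have hC : 0 < rswP t F' false (fun ω => RsxCut F' F false ω) := by
    rw [rsx_P_eq, rsx_E_eq]
    refine div_pos (rrt109_sum_pos h0 h1 F' false (fun ω => rsx_ind_nonneg _) ?_) hZ
    rw [rsx_ind_pos]
    · exact one_pos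
    · exact ⟨fun v hv _ => rsx_cst_S (rsx_corners_mono hFF' hv), fun e he _ _ => he⟩
  have hprod : rswP t F' false (fun ω => L ω ∧ RsxCut F' F false ω) =
      rswP t F' false (fun ω => RsxCut F' F false ω) * rswP t F false L := by
    rw [rsx_P_eq, rsx_E_eq, hs, rsx_P_eq t F' false (fun ω => RsxCut F' F false ω), rsx_E_eq t F' false]
    ring
  have hfk := rrt109_fkg_neg h0 h1 hF F' false L (fun ω => RsxCut F' F false ω) hL (rrt109_cut_dec F' F)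
  rw [hprod, mul_comm] at hfk
  exact le_of_mul_le_mul_right hfk hC

/-- **(REC)** from (T1), (PUSH1) and (SEP2) -/
theorem rrt109_rec' (t : ℝ) (h0 : 0 < t) (h1 : t ≤ 1) (hF : Rrt109Fkg t) (hP : RnzPush1 t) (hS : RnzSep2 t) : RcRec t :=
  rrt109_rec t h0 h1 hF (rrt109_dom h0 h1 hF) hP hS

/-- **(T2) for `U`** (`RcMono` of CoreTop121) from (T1) -/
theorem rrt109_mono {t : ℝ} (h0 : 0 < t) (h1 : t ≤ 1) (hF : Rrt109Fkg t) : RcMono t := by
  intro n M M' hnM hMM'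
  rw [rrt109_U_eq, rrt109_U_eq]
  have hB : rswBox 0 M ⊆ rswBox 0 M' := rrt109_box_mono 0 hMM'
  have hd := rrt109_dom h0 h1 hF (rswBox 0 M) (rswBox 0 M') (fun ω => RswSep (rswBox 0 M) true ω (rswBox 0 n) (rswLayer (rswBox 0 M))) hB
    (rnz_sep_inc _ _ _) (rrt109_sep_loc _ _ _ _)
  refine hd.trans (rsb_P_mono h0 h1 fun ω _ _ hω => ?_)
  exact rrt109_sub_sep hB (rrt109_box_mono 0 hnM.le) true ω (rnz_sep_symm true ω _ _ hω)

/-! # B2 : THE PUSHING ENGINE      (port of R291 `Ann/RenPush`)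

## 7. exploration from any start set -/

/-- the faces of `F` reached from `O` by dual steps across edges which are not good of colour `a` -/
noncomputable def rrt109Inv (F : Finset (ℤ × ℤ)) (a : Bool) (ω : RswCfg) (O : Finset (ℤ × ℤ)) : Finset (ℤ × ℤ) :=
  @Finset.filter _ (fun g => ∃ f ∈ O, Relation.ReflTransGen (RswStep F a ω) f g) (fun _ => Classical.propDecidable _) F

theorem rrt109_mem_inv {F : Finset (ℤ × ℤ)} {a : Bool} {ω : RswCfg} {O : Finset (ℤ × ℤ)} {g : ℤ × ℤ} :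
    g ∈ rrt109Inv F a ω O ↔ g ∈ F ∧ ∃ f ∈ O, Relation.ReflTransGen (RswStep F a ω) f g := by
  unfold rrt109Inv
  exact @Finset.mem_filter _ _ (fun _ => Classical.propDecidable _) _ _

theorem rrt109_inv_sub (F : Finset (ℤ × ℤ)) (a : Bool) (ω : RswCfg) (O : Finset (ℤ × ℤ)) : rrt109Inv F a ω O ⊆ F :=
  fun _ hg => (rrt109_mem_inv.1 hg).1

theorem rrt109_sub_inv {F O : Finset (ℤ × ℤ)} (hO : O ⊆ F) (a : Bool) (ω : RswCfg) : O ⊆ rrt109Inv F a ω O := fun f hf =>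
  rrt109_mem_inv.2 ⟨hO hf, f, hf, Relation.ReflTransGen.refl⟩

theorem rrt109_inv_step {F : Finset (ℤ × ℤ)} {a : Bool} {ω : RswCfg} {O : Finset (ℤ × ℤ)} {f g : ℤ × ℤ} (hf : f ∈ rrt109Inv F a ω O)
    (h : RswStep F a ω f g) : g ∈ rrt109Inv F a ω O := by
  obtain ⟨_, f0, hf0, hr⟩ := rrt109_mem_inv.1 hf
  exact rrt109_mem_inv.2 ⟨h.2.1, f0, hf0, hr.tail h⟩

theorem rrt109_inv_reach {F : Finset (ℤ × ℤ)} {a : Bool} {ω : RswCfg} {O : Finset (ℤ × ℤ)} {f g : ℤ × ℤ} (hf : f ∈ rrt109Inv F a ω O)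
    (h : Relation.ReflTransGen (RswStep F a ω) f g) : g ∈ rrt109Inv F a ω O := by
  induction h with
  | refl => exact hf
  | tail _ hs ih => exact rrt109_inv_step ih hs

/-- separation = the found set misses the target -/
theorem rrt109_sep_iff {F : Finset (ℤ × ℤ)} {a : Bool} {ω : RswCfg} {O Z : Finset (ℤ × ℤ)} (hZ : Z ⊆ F) :
    RswSep F a ω O Z ↔ Disjoint (rrt109Inv F a ω O) Z := by
  rw [rsx_sep_def, Finset.disjoint_left]
  constructor
  · intro h g hg hgZ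
    obtain ⟨_, f, hf, hr⟩ := rrt109_mem_inv.1 hg
    exact h f hf g hgZ hr
  · intro h f hf g hg hr
    exact h (rrt109_mem_inv.2 ⟨hZ hg, f, hf, hr⟩) hg

/-- the found set is determined by the status of the edges which touch it -/
theorem rrt109_inv_congr {F : Finset (ℤ × ℤ)} {a : Bool} {ω ω' : RswCfg} {O : Finset (ℤ × ℤ)} (hO : O ⊆ F)
    (h : ∀ e : (ℤ × ℤ) × Bool, (e.1 ∈ rrt109Inv F a ω O ∨ rswCo e ∈ rrt109Inv F a ω O) → (RswGood a ω e ↔ RswGood a ω' e)) :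
    rrt109Inv F a ω' O = rrt109Inv F a ω O := by
  ext g
  constructor
  · intro hg
    obtain ⟨-, f, hf, hr⟩ := rrt109_mem_inv.1 hg
    clear hg
    induction hr with
    | refl => exact rrt109_sub_inv hO a ω hf
    | @tail g1 g2 hr1 hs ih =>
      obtain ⟨h1, h2, e, he, hgd⟩ := hs
      refine rrt109_inv_step ih ⟨h1, h2, e, he, fun hh => hgd ((h e ?_).1 hh)⟩
      rcases he with ⟨rfl, _⟩ | ⟨_, rfl⟩
      · exact Or.inl ih
      · exact Or.inr ih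
  · intro hg
    obtain ⟨hgF, f, hf, hr⟩ := rrt109_mem_inv.1 hg
    refine rrt109_mem_inv.2 ⟨hgF, f, hf, ?_⟩
    clear hg hgF
    induction hr with
    | refl => exact Relation.ReflTransGen.refl
    | @tail g1 g2 hr1 hs ih =>
      have h1o : g1 ∈ rrt109Inv F a ω O := rrt109_inv_reach (rrt109_sub_inv hO a ω hf) hr1
      obtain ⟨h1, h2, e, he, hgd⟩ := hs
      refine ih.tail ⟨h1, h2, e, he, fun hh => hgd ((h e ?_).2 hh)⟩
      rcases he with ⟨rfl, _⟩ | ⟨_, rfl⟩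
      · exact Or.inl h1o
      · exact Or.inr h1o

theorem rrt109_inv_loc1 {F J O : Finset (ℤ × ℤ)} (hO : O ⊆ F) {a : Bool} {ω ω' : RswCfg}
    (hS : ω.S \ rsxIn (F \ J) = ω'.S \ rsxIn (F \ J)) (hW : ω.O \ rswInt (F \ J) = ω'.O \ rswInt (F \ J))
    (h : rrt109Inv F a ω O = J) : rrt109Inv F a ω' O = J := by
  rw [← h]
  refine rrt109_inv_congr hO fun e he => ?_
  rw [h] at he
  have hn : ¬ (e.1 ∈ F \ J ∧ rswCo e ∈ F \ J) := by
    rintro ⟨h1, h2⟩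
    rcases he with he | he
    · exact (Finset.mem_sdiff.1 h1).2 he
    · exact (Finset.mem_sdiff.1 h2).2 he
  rw [rsx_good_iff, rsx_good_iff, rsx_sdiff_mem hW (fun hh => hn (rsx_mem_int.1 hh)),
    rsx_sdiff_mem hS (fun hh => hn (rsx_in_faces1 hh)), rsx_sdiff_mem hS (fun hh => hn (rsx_in_faces2 hh))]

/-- the event `{Inv = J}` does not read the strict inside of `F \ J` -/
theorem rrt109_inv_loc {F O : Finset (ℤ × ℤ)} (hO : O ⊆ F) (J : Finset (ℤ × ℤ)) (a : Bool) :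
    RsxLocOut (F \ J) (fun ω => rsxInd (rrt109Inv F a ω O = J)) := by
  intro ω ω' hS _ hW
  exact rsx_ind_congr ⟨rrt109_inv_loc1 hO hS hW, rrt109_inv_loc1 hO hS.symm hW.symm⟩

/-- an edge of `F` between the rest and the found set is good -/
theorem rrt109_cross_good {F : Finset (ℤ × ℤ)} {a : Bool} {ω : RswCfg} {O : Finset (ℤ × ℤ)} {e : (ℤ × ℤ) × Bool} (he : e ∈ rswInt F)
    (h : ¬ (e.1 ∈ F \ rrt109Inv F a ω O ∧ rswCo e ∈ F \ rrt109Inv F a ω O))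
    (hx : e.1 ∈ F \ rrt109Inv F a ω O ∨ rswCo e ∈ F \ rrt109Inv F a ω O) : RswGood a ω e := by
  obtain ⟨h1F, h2F⟩ := rsx_mem_int.1 he
  by_contra hg
  rcases hx with hx | hx
  · have ho : rswCo e ∈ rrt109Inv F a ω O := by
      by_contra hh; exact h ⟨hx, Finset.mem_sdiff.2 ⟨h2F, hh⟩⟩
    exact (Finset.mem_sdiff.1 hx).2 (rrt109_inv_step ho ⟨h2F, h1F, e, Or.inr ⟨rfl, rfl⟩, hg⟩)
  · have ho : e.1 ∈ rrt109Inv F a ω O := by
      by_contra hh; exact h ⟨Finset.mem_sdiff.2 ⟨h1F, hh⟩, hx⟩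
    exact (Finset.mem_sdiff.1 hx).2 (rrt109_inv_step ho ⟨h1F, h2F, e, Or.inl ⟨rfl, rfl⟩, hg⟩)

/-- **SAME SIGN: the rest is sealed by a cut** (its polygon = good edges + a part of the polygon of `F`) -/
theorem rrt109_inv_cut {F : Finset (ℤ × ℤ)} {a : Bool} {ω : RswCfg} (hb : RswBc F a ω) (O : Finset (ℤ × ℤ)) :
    RsxCut F (F \ rrt109Inv F a ω O) a ω := by
  refine ⟨fun v hv hp => ?_, fun e he he' hx => (rrt109_cross_good he (fun hh => he' (rsx_mem_int.2 hh)) hx).1⟩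
  obtain ⟨e, he, hev⟩ := rsx_vertex_cross hv hp
  by_cases hint : e ∈ rswInt F
  · have hg : RswGood a ω e := by
      refine rrt109_cross_good (O := O) hint ?_ ?_
      · rcases he with ⟨_, h2⟩ | ⟨_, h2⟩
        · exact fun hh => h2 hh.2
        · exact fun hh => h2 hh.1
      · rcases he with ⟨h1, _⟩ | ⟨h1, _⟩
        · exact Or.inl h1
        · exact Or.inr h1
    rcases hev with rfl | rfl
    · exact hg.2.1
    · exact hg.2.2
  · have hx : e.1 ∈ F ∨ rswCo e ∈ F := by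
      rcases he with ⟨h1, _⟩ | ⟨h1, _⟩
      · exact Or.inl (Finset.mem_sdiff.1 h1).1
      · exact Or.inr (Finset.mem_sdiff.1 h1).1
    obtain ⟨⟨c1, p1⟩, ⟨c2, p2⟩⟩ := rrt109_cross_poly hint hx
    rcases hev with rfl | rfl
    · exact hb _ c1 p1
    · exact hb _ c2 p2

/-! ## 8. the swap for local events, the search -/

/-- the configuration with the polygon of `F'` forced to the colour `a` -/
def rrt109Force (F' : Finset (ℤ × ℤ)) (a : Bool) (ω : RswCfg) : RswCfg :=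
  ⟨(ω.S ∩ rsxIn F') ∪ (if a = true then cornersOf F' \ rsxIn F' else ∅), ω.D, ω.O⟩

theorem rrt109_force_bc {F' : Finset (ℤ × ℤ)} {a : Bool} {ω : RswCfg} (hb : RswBc F' a ω) :
    (rrt109Force F' a ω).S ∩ cornersOf F' = ω.S ∩ cornersOf F' := by
  ext v
  simp only [rrt109Force, Finset.mem_inter, Finset.mem_union]
  constructor
  · rintro ⟨h | h, c⟩
    · exact ⟨h.1, c⟩
    · cases a
      · simp at h
      · simp only [if_true, Finset.mem_sdiff] at h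
        exact ⟨(hb v c (fun hh => h.2 (rsx_mem_in.2 hh))).2 rfl, c⟩
  · rintro ⟨h, c⟩
    refine ⟨?_, c⟩
    by_cases hin : v ∈ rsxIn F'
    · exact Or.inl ⟨h, hin⟩
    · right
      have := (hb v c (fun hh => hin (rsx_mem_in.2 hh))).1 h
      rw [if_pos this]
      exact Finset.mem_sdiff.2 ⟨c, hin⟩

/-- **SWAP for an event local in `F'`** (it may read the polygon of `F'`) -/
theorem rrt109_swap {t : ℝ} (h0 : 0 < t) (h1 : t ≤ 1) {F F' : Finset (ℤ × ℤ)} (h : F' ⊆ F) (a b : Bool) {L : RswCfg → Prop} (hL : RnzLoc F' L)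
    {Y : RswCfg → ℝ} (hY : RsxLocOut F' Y) :
    rswSum t F b (fun ω => rsxInd (RsxCut F F' a ω) * rsxInd (L ω) * Y ω) =
      rswSum t F b (fun ω => rsxInd (RsxCut F F' a ω) * Y ω) * rswP t F' a L := by
  set X : RswCfg → ℝ := fun ω => rsxInd (L (rrt109Force F' a ω)) with hX
  have hXloc : RsxLocIn F' X := by
    intro ω ω' hS _ hO
    refine rsx_ind_congr (hL _ _ ?_ hO)
    show ((ω.S ∩ rsxIn F') ∪ _) ∩ cornersOf F' = ((ω'.S ∩ rsxIn F') ∪ _) ∩ cornersOf F'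
    rw [hS]
  have hXbc : ∀ ω, RswBc F' a ω → X ω = rsxInd (L ω) := fun ω hb => rsx_ind_congr (hL _ _ (rrt109_force_bc hb) rfl)
  have hs := rsx_swap_E h0 h1 h a b hXloc hY
  have e1 : rswSum t F b (fun ω => rsxInd (RsxCut F F' a ω) * X ω * Y ω) =
      rswSum t F b (fun ω => rsxInd (RsxCut F F' a ω) * rsxInd (L ω) * Y ω) := by
    refine rsx_sum_congr t F b fun ω => ?_
    by_cases hc : RsxCut F F' a ω
    · rw [hXbc ω hc.1]
    · rw [rsx_ind_neg hc]; ring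
  have e3 : rswE t F' a X = rswP t F' a L := by
    rw [rsx_P_eq, rsx_E_eq, rsx_E_eq, rsx_sum_congr_bc t F' a hXbc]
  rw [e1, e3] at hs
  exact hs

/-- **(T3\*) SAME SIGN SEARCH** from ANY start set: off the found set `J` the law is the flat law of `F \ J`      (R291 `rnp_search`) -/
theorem rrt109_search {t : ℝ} (h0 : 0 < t) (h1 : t ≤ 1) {F O : Finset (ℤ × ℤ)} (hO : O ⊆ F) (J : Finset (ℤ × ℤ)) (a : Bool)
    {L : RswCfg → Prop} (hL : RnzLoc (F \ J) L) :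
    rswSum t F a (fun ω => rsxInd (rrt109Inv F a ω O = J) * rsxInd (L ω)) =
      rswSum t F a (fun ω => rsxInd (rrt109Inv F a ω O = J)) * rswP t (F \ J) a L := by
  have hs := rrt109_swap h0 h1 (Finset.sdiff_subset : F \ J ⊆ F) a a hL (rrt109_inv_loc hO J a)
  have e1 : rswSum t F a (fun ω => rsxInd (RsxCut F (F \ J) a ω) * rsxInd (L ω) * rsxInd (rrt109Inv F a ω O = J)) =
      rswSum t F a (fun ω => rsxInd (rrt109Inv F a ω O = J) * rsxInd (L ω)) := by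
    refine rsx_sum_congr_bc t F a fun ω hb => ?_
    by_cases hJ : rrt109Inv F a ω O = J
    · have hc : RsxCut F (F \ J) a ω := by rw [← hJ]; exact rrt109_inv_cut hb O
      rw [rsx_ind_pos hc, rsx_ind_pos hJ]; ring
    · rw [rsx_ind_neg hJ]; ring
  have e2 : rswSum t F a (fun ω => rsxInd (RsxCut F (F \ J) a ω) * rsxInd (rrt109Inv F a ω O = J)) =
      rswSum t F a (fun ω => rsxInd (rrt109Inv F a ω O = J)) := by
    refine rsx_sum_congr_bc t F a fun ω hb => ?_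
    by_cases hJ : rrt109Inv F a ω O = J
    · have hc : RsxCut F (F \ J) a ω := by rw [← hJ]; exact rrt109_inv_cut hb O
      rw [rsx_ind_pos hc, rsx_ind_pos hJ]; ring
    · rw [rsx_ind_neg hJ]; ring
  rw [e1, e2] at hs
  exact hs

/-! ## 9. histories, (GLUE), the chain lemma -/

/-- a history inside `b` is an event local in `b` -/
theorem rrt109_holds_loc {K : RswCon} {b : Finset (ℤ × ℤ)} (hK : K.Legal b) : RnzLoc b K.Holds := by
  have key : ∀ ω ω' : RswCfg, ω.S ∩ cornersOf b = ω'.S ∩ cornersOf b → ω.O ∩ rswInt b = ω'.O ∩ rswInt b → K.Holds ω → K.Holds ω' := by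
    rintro ω ω' hS hO ⟨a1, a2, a3, a4, a5⟩
    have hed : ∀ e, e ∈ K.Gp ∨ e ∈ K.Gm ∨ e ∈ K.Cl → e ∈ rswInt b := fun e he => hK.ed (by
      simp only [Finset.mem_union]; tauto)
    refine ⟨fun v hv => (rrt109_mem_of_inter hS (hK.sp hv)).1 (a1 hv), fun v hv hh => a2 v hv ((rrt109_mem_of_inter hS (hK.sm hv)).2 hh),
      fun e he => (rrt109_good_congr hS hO (hed e (Or.inl he))).1 (a3 e he),
      fun e he => (rrt109_good_congr hS hO (hed e (Or.inr (Or.inl he)))).1 (a4 e he),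
      fun e he hh => a5 e he ((rrt109_mem_of_inter hO (hed e (Or.inr (Or.inr he)))).2 hh)⟩
  exact fun ω ω' hS hO => ⟨key ω ω' hS hO, key ω' ω hS.symm hO.symm⟩

theorem rrt109_PK_eq (t : ℝ) (F : Finset (ℤ × ℤ)) (b : Bool) (K : RswCon) (L : RswCfg → Prop) :
    rswPK t F b K L = rswSum t F b (fun ω => rsxInd (K.Holds ω ∧ L ω)) / rswSum t F b (fun ω => rsxInd (K.Holds ω)) := by
  classical
  unfold rswPK
  congr 1
  · refine rsx_sum_congr t F b fun ω => ?_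
    by_cases h : K.Holds ω ∧ L ω
    · rw [if_pos h, rsx_ind_pos h]
    · rw [if_neg h, rsx_ind_neg h]

theorem rrt109_feas_iff (t : ℝ) (F : Finset (ℤ × ℤ)) (b : Bool) (K : RswCon) :
    K.Feas t F b ↔ 0 < rswSum t F b (fun ω => rsxInd (K.Holds ω)) := by
  classical
  unfold RswCon.Feas
  have e : rswSum t F b (fun ω => if K.Holds ω then (1 : ℝ) else 0) = rswSum t F b (fun ω => rsxInd (K.Holds ω)) := by
    refine rsx_sum_congr t F b fun ω => ?_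
    by_cases h : K.Holds ω
    · rw [if_pos h, rsx_ind_pos h]
    · rw [if_neg h, rsx_ind_neg h]
  constructor
  · intro h; rw [← e]; convert h
  · intro h; rw [← e] at h; convert h

/-- (DET2) GLUE: `J` = found set, `J` misses `A`, separation in `D \ J`  ⟹  separation in `D`      (R291 `rnp_glue`) -/
theorem rrt109_glue {D O G A : Finset (ℤ × ℤ)} {s : Bool} {ω : RswCfg} (hJA : Disjoint (rrt109Inv D s ω O) A)
    (h : RswSep (D \ rrt109Inv D s ω O) s ω ((D \ rrt109Inv D s ω O) \ G) A) : RswSep D s ω (D \ G) A := by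
  set J := rrt109Inv D s ω O with hJ
  intro u hu v hv hr
  by_cases huJ : u ∈ J
  · exact Finset.disjoint_left.1 hJA (rrt109_inv_reach huJ hr) hv
  · have key : ∀ w, Relation.ReflTransGen (RswStep D s ω) u w → w ∉ J ∧ Relation.ReflTransGen (RswStep (D \ J) s ω) u w := by
      intro w hw
      induction hw with
      | refl => exact ⟨huJ, Relation.ReflTransGen.refl⟩
      | @tail w w' _ hst ih =>
        have hw' : w' ∉ J := fun hc => ih.1 (rrt109_inv_step hc (rsx_step_symm hst))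
        obtain ⟨a1, a2, e, he, hne⟩ := hst
        exact ⟨hw', ih.2.tail ⟨Finset.mem_sdiff.2 ⟨a1, ih.1⟩, Finset.mem_sdiff.2 ⟨a2, hw'⟩, e, he, hne⟩⟩
    have hu' : u ∈ (D \ J) \ G := by
      rw [Finset.mem_sdiff] at hu ⊢
      exact ⟨Finset.mem_sdiff.2 ⟨hu.1, huJ⟩, hu.2⟩
    exact h u hu' v hv (key v hr).2

/-- **(STEP)** the chain lemma: a separation `Sep(O, Z)` of probability `≥ δ`, then the target event in every possible remaining domain with probability `≥ p`      (R291 `rnp_step`; the history lives in `b ⊆ Z`) -/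
theorem rrt109_step {t : ℝ} (h0 : 0 < t) (h1 : t ≤ 1) (s : Bool) (D O Z G A b : Finset (ℤ × ℤ)) (K : RswCon) (hK : K.Legal b)
    (hO : O ⊆ D) (hZ : Z ⊆ D) (hbZ : b ⊆ Z) (hA : A ⊆ Z) (δ p : ℝ) (hp : 0 ≤ p)
    (hδ : δ ≤ rswPK t D s K (fun ω => RswSep D s ω O Z))
    (hstep : ∀ J, O ⊆ J → J ⊆ D → Disjoint J Z → K.Feas t (D \ J) s →
      p ≤ rswPK t (D \ J) s K (fun ω => RswSep (D \ J) s ω ((D \ J) \ G) A)) :
    δ * p ≤ rswPK t D s K (fun ω => RswSep D s ω (D \ G) A) := by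
  classical
  set T : Finset (Finset (ℤ × ℤ)) := D.powerset.filter (fun J => O ⊆ J ∧ Disjoint J Z) with hT
  have hmemT : ∀ J, J ∈ T ↔ J ⊆ D ∧ O ⊆ J ∧ Disjoint J Z := by
    intro J; rw [hT, Finset.mem_filter, Finset.mem_powerset]
  set LJ : Finset (ℤ × ℤ) → RswCfg → Prop := fun J ω => RswSep (D \ J) s ω ((D \ J) \ G) A with hLJ
  -- one found set
  have hone : ∀ J ∈ T, p * rswSum t D s (fun ω => rsxInd (rrt109Inv D s ω O = J) * rsxInd (K.Holds ω)) ≤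
      rswSum t D s (fun ω => rsxInd (rrt109Inv D s ω O = J) * rsxInd (K.Holds ω ∧ LJ J ω)) := by
    intro J hJ
    obtain ⟨hJD, hOJ, hJZ⟩ := (hmemT J).1 hJ
    have hbJ : b ⊆ D \ J := fun u hu =>
      Finset.mem_sdiff.2 ⟨hZ (hbZ hu), fun huJ => Finset.disjoint_left.1 hJZ huJ (hbZ hu)⟩
    have hKl : RnzLoc (D \ J) K.Holds := rrt109_loc_up hbJ (rrt109_holds_loc hK)
    have hKL : RnzLoc (D \ J) (fun ω => K.Holds ω ∧ LJ J ω) := rrt109_loc_and hKl (rrt109_sep_loc _ _ _ _)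
    rw [rrt109_search h0 h1 hO J s hKl, rrt109_search h0 h1 hO J s hKL]
    have ha : 0 ≤ rswSum t D s (fun ω => rsxInd (rrt109Inv D s ω O = J)) := rsx_sum_nonneg h0.le h1 D s fun ω => rsx_ind_nonneg _
    have hZ' := rsx_Z_pos h0 h1 (D \ J) s
    have hle : p * rswP t (D \ J) s K.Holds ≤ rswP t (D \ J) s (fun ω => K.Holds ω ∧ LJ J ω) := by
      rw [rsx_P_eq, rsx_P_eq, rsx_E_eq, rsx_E_eq, ← mul_div_assoc]
      refine div_le_div_of_nonneg_right ?_ hZ'.le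
      have hn : 0 ≤ rswSum t (D \ J) s (fun ω => rsxInd (K.Holds ω)) := rsx_sum_nonneg h0.le h1 _ s fun ω => rsx_ind_nonneg _
      rcases hn.eq_or_lt with hz | hpos
      · rw [← hz, mul_zero]
        exact rsx_sum_nonneg h0.le h1 _ s fun ω => rsx_ind_nonneg _
      · have := hstep J hOJ hJD hJZ ((rrt109_feas_iff t _ s K).2 hpos)
        rw [rrt109_PK_eq, le_div_iff₀ hpos] at this
        exact this
    calc p * (rswSum t D s (fun ω => rsxInd (rrt109Inv D s ω O = J)) * rswP t (D \ J) s K.Holds)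
        = rswSum t D s (fun ω => rsxInd (rrt109Inv D s ω O = J)) * (p * rswP t (D \ J) s K.Holds) := by ring
      _ ≤ _ := mul_le_mul_of_nonneg_left hle ha
  have hsum := Finset.sum_le_sum hone
  rw [← Finset.mul_sum, ← rsx_sum_finsum, ← rsx_sum_finsum] at hsum
  -- the two sides
  have hL : rswSum t D s (fun ω => rsxInd (K.Holds ω ∧ RswSep D s ω O Z)) ≤
      rswSum t D s (fun ω => ∑ J ∈ T, rsxInd (rrt109Inv D s ω O = J) * rsxInd (K.Holds ω)) := by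
    refine rsx_sum_mono h0.le h1 D s fun ω => ?_
    by_cases hs : K.Holds ω ∧ RswSep D s ω O Z
    · have hm : rrt109Inv D s ω O ∈ T :=
        (hmemT _).2 ⟨rrt109_inv_sub D s ω O, rrt109_sub_inv hO s ω, (rrt109_sep_iff hZ).1 hs.2⟩
      rw [rsx_ind_pos hs]
      refine le_trans ?_ (Finset.single_le_sum (f := fun J => rsxInd (rrt109Inv D s ω O = J) * rsxInd (K.Holds ω))
        (fun J _ => mul_nonneg (rsx_ind_nonneg _) (rsx_ind_nonneg _)) hm)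
      show (1 : ℝ) ≤ rsxInd (rrt109Inv D s ω O = rrt109Inv D s ω O) * rsxInd (K.Holds ω)
      rw [rsx_ind_pos rfl, rsx_ind_pos hs.1, one_mul]
    · rw [rsx_ind_neg hs]
      exact Finset.sum_nonneg fun J _ => mul_nonneg (rsx_ind_nonneg _) (rsx_ind_nonneg _)
  have hR : rswSum t D s (fun ω => ∑ J ∈ T, rsxInd (rrt109Inv D s ω O = J) * rsxInd (K.Holds ω ∧ LJ J ω)) ≤
      rswSum t D s (fun ω => rsxInd (K.Holds ω ∧ RswSep D s ω (D \ G) A)) := by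
    refine rsx_sum_mono h0.le h1 D s fun ω => ?_
    by_cases hm : rrt109Inv D s ω O ∈ T
    · rw [Finset.sum_eq_single (rrt109Inv D s ω O) (fun J _ hne => by rw [rsx_ind_neg (fun hh => hne hh.symm), zero_mul])
        (fun hh => absurd hm hh), rsx_ind_pos rfl, one_mul]
      by_cases hs : K.Holds ω ∧ LJ (rrt109Inv D s ω O) ω
      · rw [rsx_ind_pos hs, rsx_ind_pos]
        exact ⟨hs.1, rrt109_glue (Finset.disjoint_of_subset_right hA ((hmemT _).1 hm).2.2) hs.2⟩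
      · rw [rsx_ind_neg hs]; exact rsx_ind_nonneg _
    · rw [Finset.sum_eq_zero]
      · exact rsx_ind_nonneg _
      · intro J hJ
        rw [rsx_ind_neg (fun hh => hm (by rw [hh]; exact hJ)), zero_mul]
  have hmain : p * rswSum t D s (fun ω => rsxInd (K.Holds ω ∧ RswSep D s ω O Z)) ≤
      rswSum t D s (fun ω => rsxInd (K.Holds ω ∧ RswSep D s ω (D \ G) A)) :=
    (mul_le_mul_of_nonneg_left hL hp).trans (hsum.trans hR)
  rw [rrt109_PK_eq] at hδ ⊢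
  have hn : 0 ≤ rswSum t D s (fun ω => rsxInd (K.Holds ω)) := rsx_sum_nonneg h0.le h1 _ s fun ω => rsx_ind_nonneg _
  rcases hn.eq_or_lt with hz | hpos
  · rw [← hz, div_zero] at hδ ⊢
    exact mul_nonpos_of_nonpos_of_nonneg hδ hp
  · rw [le_div_iff₀ hpos] at hδ ⊢
    calc δ * p * rswSum t D s (fun ω => rsxInd (K.Holds ω)) = p * (δ * rswSum t D s (fun ω => rsxInd (K.Holds ω))) := by ring
      _ ≤ p * rswSum t D s (fun ω => rsxInd (K.Holds ω ∧ RswSep D s ω O Z)) := mul_le_mul_of_nonneg_left hδ hp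
      _ ≤ _ := hmain

/-! ## 10. the value of a region: (END), (PUSH), (DIR), (BOX), (PUSH1), (TUBE) -/

theorem rrt109_val_anti {t : ℝ} {s : Bool} {K : RswCon} {b G A Dm Dm' : Finset (ℤ × ℤ)} {p p' : ℝ} (hD : Dm' ⊆ Dm) (hp : p' ≤ p)
    (h : RnzVal t s K b G A Dm p) : RnzVal t s K b G A Dm' p' :=
  fun D hb hDm hf => hp.trans (h D hb (hDm.trans hD) hf)

/-- (END) a region inside the goal has the value one -/
theorem rrt109_val_end (t : ℝ) (s : Bool) (K : RswCon) (b G A Dm : Finset (ℤ × ℤ)) (h : Dm ⊆ G) : RnzVal t s K b G A Dm 1 := by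
  intro D _ hDm hf
  have h0 : D \ G = ∅ := Finset.sdiff_eq_empty_iff_subset.2 (hDm.trans h)
  have hpos := (rrt109_feas_iff t D s K).1 hf
  rw [rrt109_PK_eq, le_div_iff₀ hpos, one_mul]
  refine le_of_eq (rsx_sum_congr t D s fun ω => rsx_ind_congr ⟨fun hk => ⟨hk, ?_⟩, fun hk => hk.1⟩)
  rw [h0]
  intro u hu
  simp at hu

/-- **(PUSH)** one push in the direction `l` -/
theorem rrt109_push {t : ℝ} (h0 : 0 < t) (h1 : t ≤ 1) (s : Bool) (l τ : ℤ × ℤ → ℤ) (C : ℕ) (δ : ℝ) (H₀ : ℕ)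
    (hHP : ∀ (H : ℕ) (c : ℤ) (F : Finset (ℤ × ℤ)) (K : RswCon), H₀ ≤ H →
      (∀ f ∈ F, c ≤ l f) → (∀ f ∈ F, ∀ g ∈ F, τ f - τ g ≤ C * H) →
      K.Legal (F.filter (fun f => c + H ≤ l f)) → K.Feas t F s →
      δ ≤ rswPK t F s K (fun ω => RswSep F s ω
        (F.filter (fun f => l f ≤ c + (H / 10 : ℕ))) (F.filter (fun f => c + (H / 5 : ℕ) ≤ l f))))
    (H : ℕ) (c : ℤ) (K : RswCon) (b G A Dm : Finset (ℤ × ℤ)) (p : ℝ) (hH : H₀ ≤ H) (hc : ∀ u ∈ Dm, c ≤ l u)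
    (hext : ∀ u ∈ Dm, ∀ v ∈ Dm, τ u - τ v ≤ C * H) (hK : K.Legal b) (hb : ∀ u ∈ b, c + H ≤ l u) (hA : A ⊆ b) (hp : 0 ≤ p)
    (hv : RnzVal t s K b G A (Dm.filter (fun u => c + (H / 10 : ℕ) + 1 ≤ l u)) p) : RnzVal t s K b G A Dm (δ * p) := by
  intro D hbD hDm hf
  have h5 : ((H / 5 : ℕ) : ℤ) ≤ H := by exact_mod_cast Nat.div_le_self H 5
  have hbZ : b ⊆ D.filter (fun u => c + (H / 5 : ℕ) ≤ l u) := fun u hu =>
    Finset.mem_filter.2 ⟨hbD hu, by have := hb u hu; linarith⟩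
  refine rrt109_step h0 h1 s D (D.filter (fun u => l u ≤ c + (H / 10 : ℕ))) (D.filter (fun u => c + (H / 5 : ℕ) ≤ l u)) G A b K hK
    (Finset.filter_subset _ _) (Finset.filter_subset _ _) hbZ (hA.trans hbZ) δ p hp ?_ ?_
  · refine hHP H c D K hH (fun u hu => hc u (hDm hu)) (fun u hu v hv => hext u (hDm hu) v (hDm hv)) ?_ hf
    exact rnz_legal_mono (fun u hu => Finset.mem_filter.2 ⟨hbD hu, hb u hu⟩) hK
  · intro J hOJ hJD hJZ hfJ
    have hbJ : b ⊆ D \ J := fun u hu =>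
      Finset.mem_sdiff.2 ⟨hbD hu, fun huJ => Finset.disjoint_left.1 hJZ huJ (hbZ hu)⟩
    refine hv (D \ J) hbJ (fun u hu => ?_) hfJ
    obtain ⟨huD, huJ⟩ := Finset.mem_sdiff.1 hu
    refine Finset.mem_filter.2 ⟨hDm huD, ?_⟩
    by_contra hlt
    exact huJ (hOJ (Finset.mem_filter.2 ⟨huD, by omega⟩))

/-- **(DIR)** `k` pushes in the direction `l`: from the distance `H ≤ (10/9)^k m` to the distance `m` -/
theorem rrt109_dir {t : ℝ} (h0 : 0 < t) (h1 : t ≤ 1) (s : Bool) (l τ : ℤ × ℤ → ℤ) (hd : RnzHPd t s l τ) (C : ℕ) :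
    ∃ δ : ℝ, 0 < δ ∧ δ ≤ 1 ∧ ∃ m0 : ℕ, ∀ (k m : ℕ) (h : ℤ) (K : RswCon) (b G A D₁ D₂ : Finset (ℤ × ℤ)) (p : ℝ) (H : ℕ), m0 ≤ m → K.Legal b →
      (∀ u ∈ b, h ≤ l u) → A ⊆ b → (∀ u ∈ D₂, ∀ v ∈ D₂, τ u - τ v ≤ C * m) → 0 ≤ p → H * 9 ^ k ≤ m * 10 ^ k →
      (∀ u ∈ D₂, h - H ≤ l u) → (∀ u ∈ D₂, h - m ≤ l u → u ∈ D₁) → RnzVal t s K b G A D₁ p → RnzVal t s K b G A D₂ (δ ^ k * p) := by
  obtain ⟨δ', hδ', H₀, hHP⟩ := hd C
  refine ⟨min δ' 1, lt_min hδ' one_pos, min_le_right _ _, H₀, ?_⟩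
  set δ := min δ' 1 with hδ
  have hδ0 : 0 < δ := lt_min hδ' one_pos
  have hδ1 : δ ≤ 1 := min_le_right _ _
  intro k
  induction k with
  | zero =>
    intro m h K b G A D₁ D₂ p H hm hK hb hA hext hp hH hD₂ hD₁ hv
    simp only [pow_zero, mul_one, one_mul] at hH ⊢
    refine rrt109_val_anti (fun u hu => hD₁ u hu ?_) le_rfl hv
    have := hD₂ u hu
    have hH' : (H : ℤ) ≤ m := by exact_mod_cast hH
    linarith
  | succ k ih =>
    intro m h K b G A D₁ D₂ p H hm hK hb hA hext hp hH hD₂ hD₁ hv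
    by_cases hHm : H ≤ m
    · refine rrt109_val_anti (fun u hu => hD₁ u hu ?_) ?_ hv
      · have := hD₂ u hu
        have hH' : (H : ℤ) ≤ m := by exact_mod_cast hHm
        linarith
      · have : δ ^ (k + 1) ≤ 1 := pow_le_one₀ hδ0.le hδ1
        nlinarith
    · replace hHm := Nat.lt_of_not_le hHm
      -- one push, then the induction hypothesis
      have hH1 : 1 ≤ H := by omega
      set H' : ℕ := H - H / 10 - 1 with hH'
      have e1 : (H' : ℤ) = (H : ℤ) - ((H / 10 : ℕ) : ℤ) - 1 := by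
        have : H / 10 + 1 ≤ H := by omega
        rw [hH']; push_cast [Nat.sub_sub, Nat.cast_sub this]; ring
      have e2 : 10 * H' ≤ 9 * H := by omega
      have hH'k : H' * 9 ^ k ≤ m * 10 ^ k := by
        have h1 : 10 * (H' * 9 ^ k) ≤ 10 * (m * 10 ^ k) := by
          calc 10 * (H' * 9 ^ k) = (10 * H') * 9 ^ k := by ring
            _ ≤ (9 * H) * 9 ^ k := Nat.mul_le_mul_right _ e2
            _ = H * 9 ^ (k + 1) := by ring
            _ ≤ m * 10 ^ (k + 1) := hH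
            _ = 10 * (m * 10 ^ k) := by ring
        omega
      have hmid : RnzVal t s K b G A (D₂.filter (fun u => (h - H) + (H / 10 : ℕ) + 1 ≤ l u)) (δ ^ k * p) := by
        refine ih m h K b G A D₁ _ p H' hm hK hb hA (fun u hu v hv' => hext u (Finset.mem_filter.1 hu).1 v (Finset.mem_filter.1 hv').1) hp hH'k
          (fun u hu => ?_) (fun u hu hu' => hD₁ u (Finset.mem_filter.1 hu).1 hu') hv
        have := (Finset.mem_filter.1 hu).2
        rw [e1]; linarith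
      have hpush := rrt109_push h0 h1 s l τ C δ H₀
        (fun H c D K a1 a2 a3 a4 a5 => (min_le_left _ _).trans (hHP H c D K a1 a2 a3 a4 a5))
        H (h - H) K b G A D₂ (δ ^ k * p) (hm.trans hHm.le) hD₂
        (fun u hu v hv' => (hext u hu v hv').trans (by
          have : (m : ℤ) ≤ H := by exact_mod_cast hHm.le
          have hC : (0 : ℤ) ≤ C := by positivity
          nlinarith)) hK (fun u hu => by have := hb u hu; linarith) hA (by positivity) hmid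
      rw [pow_succ, mul_comm (δ ^ k) δ, mul_assoc]
      exact hpush

/-- the rectangle of faces `[a, b] × [c, d]` -/
noncomputable def rrt109Bx (a b c d : ℤ) : Finset (ℤ × ℤ) := Finset.Icc a b ×ˢ Finset.Icc c d

theorem rrt109_mem_bx {a b c d : ℤ} {u : ℤ × ℤ} : u ∈ rrt109Bx a b c d ↔ (a ≤ u.1 ∧ u.1 ≤ b) ∧ (c ≤ u.2 ∧ u.2 ≤ d) := by
  simp only [rrt109Bx, Finset.mem_product, Finset.mem_Icc]

/-- **(BOX)** = (TUBE): pushes from the four sides.   Obstacles inside the rectangle `[α1,α2] x [β1,β2]`, region inside its `M`-neighbourhood: the value of the region is at least `c` times the value of its part in the `m`-neighbourhood. -/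
theorem rrt109_box {t : ℝ} (h0 : 0 < t) (h1 : t ≤ 1) (hHP : RnzHP t) (C k : ℕ) :
    ∃ c : ℝ, 0 < c ∧ c ≤ 1 ∧ ∃ m0 : ℕ, ∀ (s : Bool) (m M : ℕ) (α1 α2 β1 β2 : ℤ) (K : RswCon) (b G A Dm : Finset (ℤ × ℤ)) (p : ℝ),
      m0 ≤ m → M * 9 ^ k ≤ m * 10 ^ k → α2 - α1 + 2 * M ≤ C * m → β2 - β1 + 2 * M ≤ C * m →
      K.Legal b → b ⊆ rrt109Bx α1 α2 β1 β2 → A ⊆ b → Dm ⊆ rrt109Bx (α1 - M) (α2 + M) (β1 - M) (β2 + M) → 0 ≤ p →
      RnzVal t s K b G A (Dm ∩ rrt109Bx (α1 - m) (α2 + m) (β1 - m) (β2 + m)) p → RnzVal t s K b G A Dm (c * p) := by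
  -- the eight constants
  have hall : ∀ s : Bool, ∃ c : ℝ, 0 < c ∧ c ≤ 1 ∧ ∃ m0 : ℕ, ∀ (m M : ℕ) (α1 α2 β1 β2 : ℤ) (K : RswCon) (b G A Dm : Finset (ℤ × ℤ)) (p : ℝ),
      m0 ≤ m → M * 9 ^ k ≤ m * 10 ^ k → α2 - α1 + 2 * M ≤ C * m → β2 - β1 + 2 * M ≤ C * m →
      K.Legal b → b ⊆ rrt109Bx α1 α2 β1 β2 → A ⊆ b → Dm ⊆ rrt109Bx (α1 - M) (α2 + M) (β1 - M) (β2 + M) → 0 ≤ p →
      RnzVal t s K b G A (Dm ∩ rrt109Bx (α1 - m) (α2 + m) (β1 - m) (β2 + m)) p → RnzVal t s K b G A Dm (c * p) := by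
    intro s
    obtain ⟨hU, hD, hR, hL⟩ := hHP s
    obtain ⟨δ1, p1, q1, m1, f1⟩ := rrt109_dir h0 h1 s _ _ hU C
    obtain ⟨δ2, p2, q2, m2, f2⟩ := rrt109_dir h0 h1 s _ _ hD C
    obtain ⟨δ3, p3, q3, m3, f3⟩ := rrt109_dir h0 h1 s _ _ hR C
    obtain ⟨δ4, p4, q4, m4, f4⟩ := rrt109_dir h0 h1 s _ _ hL C
    refine ⟨δ4 ^ k * (δ3 ^ k * (δ2 ^ k * (δ1 ^ k))), by positivity, ?_, max (max m1 m2) (max m3 m4), ?_⟩
    · have a1 := pow_le_one₀ p1.le q1 (n := k)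
      have a2 := pow_le_one₀ p2.le q2 (n := k)
      have a3 := pow_le_one₀ p3.le q3 (n := k)
      have a4 := pow_le_one₀ p4.le q4 (n := k)
      have b1 : 0 ≤ δ1 ^ k := by positivity
      have b2 : 0 ≤ δ2 ^ k := by positivity
      have b3 : 0 ≤ δ3 ^ k := by positivity
      have b4 : 0 ≤ δ4 ^ k := by positivity
      exact mul_le_one₀ a4 (by positivity) (mul_le_one₀ a3 (by positivity) (mul_le_one₀ a2 b1 a1))
    intro m M α1 α2 β1 β2 K b G A Dm p hm hM hw1 hw2 hK hb hA hDm hp hv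
    have hm1 : m1 ≤ m := le_trans (le_trans (le_max_left _ _) (le_max_left _ _)) hm
    have hm2 : m2 ≤ m := le_trans (le_trans (le_max_right _ _) (le_max_left _ _)) hm
    have hm3 : m3 ≤ m := le_trans (le_trans (le_max_left _ _) (le_max_right _ _)) hm
    have hm4 : m4 ≤ m := le_trans (le_trans (le_max_right _ _) (le_max_right _ _)) hm
    have hbx : ∀ u ∈ b, (α1 ≤ u.1 ∧ u.1 ≤ α2) ∧ (β1 ≤ u.2 ∧ u.2 ≤ β2) := fun u hu => rrt109_mem_bx.1 (hb hu)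
    have hDx : ∀ u ∈ Dm, (α1 - M ≤ u.1 ∧ u.1 ≤ α2 + M) ∧ (β1 - M ≤ u.2 ∧ u.2 ≤ β2 + M) := fun u hu => rrt109_mem_bx.1 (hDm hu)
    -- the intermediate regions
    set D3 := Dm.filter (fun u => -α2 - m ≤ -u.1) with hD3
    set D2 := D3.filter (fun u => α1 - m ≤ u.1) with hD2
    set D1 := D2.filter (fun u => -β2 - m ≤ -u.2) with hD1
    have s3 : D3 ⊆ Dm := Finset.filter_subset _ _
    have s2 : D2 ⊆ Dm := (Finset.filter_subset _ _).trans s3
    have s1 : D1 ⊆ Dm := (Finset.filter_subset _ _).trans s2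
    have extA : ∀ u ∈ Dm, ∀ v ∈ Dm, u.1 - v.1 ≤ C * m := fun u hu v hv' => by
      have := hDx u hu; have := hDx v hv'; linarith
    have extB : ∀ u ∈ Dm, ∀ v ∈ Dm, u.2 - v.2 ≤ C * m := fun u hu v hv' => by
      have := hDx u hu; have := hDx v hv'; linarith
    -- up
    have v1 : RnzVal t s K b G A D1 (δ1 ^ k * p) := by
      refine f1 k m β1 K b G A _ D1 p M hm1 hK (fun u hu => (hbx u hu).2.1) hA (fun u hu v hv' => extA u (s1 hu) v (s1 hv')) hp hM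
        (fun u hu => (hDx u (s1 hu)).2.1) (fun u hu hu' => ?_) hv
      have h1 := (Finset.mem_filter.1 hu).2
      have h2 := (Finset.mem_filter.1 (Finset.mem_filter.1 hu).1).2
      have h3 := (Finset.mem_filter.1 (Finset.mem_filter.1 (Finset.mem_filter.1 hu).1).1).2
      refine Finset.mem_inter.2 ⟨s1 hu, rrt109_mem_bx.2 ⟨⟨h2, by linarith⟩, hu', by linarith⟩⟩
    -- down
    have v2 : RnzVal t s K b G A D2 (δ2 ^ k * (δ1 ^ k * p)) := by
      refine f2 k m (-β2) K b G A D1 D2 _ M hm2 hK (fun u hu => by have := (hbx u hu).2.2; linarith) hA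
        (fun u hu v hv' => extA u (s2 hu) v (s2 hv')) (by positivity) hM
        (fun u hu => by have := (hDx u (s2 hu)).2.2; linarith) (fun u hu hu' => Finset.mem_filter.2 ⟨hu, hu'⟩) v1
    -- right
    have v3 : RnzVal t s K b G A D3 (δ3 ^ k * (δ2 ^ k * (δ1 ^ k * p))) := by
      refine f3 k m α1 K b G A D2 D3 _ M hm3 hK (fun u hu => (hbx u hu).1.1) hA
        (fun u hu v hv' => extB u (s3 hu) v (s3 hv')) (by positivity) hM
        (fun u hu => (hDx u (s3 hu)).1.1) (fun u hu hu' => Finset.mem_filter.2 ⟨hu, hu'⟩) v2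
    -- left
    have v4 : RnzVal t s K b G A Dm (δ4 ^ k * (δ3 ^ k * (δ2 ^ k * (δ1 ^ k * p)))) := by
      refine f4 k m (-α2) K b G A D3 Dm _ M hm4 hK (fun u hu => by have := (hbx u hu).1.2; linarith) hA
        extB (by positivity) hM
        (fun u hu => by have := (hDx u hu).1.2; linarith) (fun u hu hu' => Finset.mem_filter.2 ⟨hu, hu'⟩) v3
    have e : δ4 ^ k * (δ3 ^ k * (δ2 ^ k * δ1 ^ k)) * p = δ4 ^ k * (δ3 ^ k * (δ2 ^ k * (δ1 ^ k * p))) := by ring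
    rw [e]; exact v4
  obtain ⟨c1, a1, b1, n1, g1⟩ := hall true
  obtain ⟨c2, a2, b2, n2, g2⟩ := hall false
  refine ⟨min c1 c2, lt_min a1 a2, (min_le_left _ _).trans b1, max n1 n2, ?_⟩
  intro s m M α1 α2 β1 β2 K b G A Dm p hm hM hw1 hw2 hK hb hA hDm hp hv
  cases s
  · exact rrt109_val_anti (Finset.Subset.refl _) (mul_le_mul_of_nonneg_right (min_le_right _ _) hp)
      (g2 m M α1 α2 β1 β2 K b G A Dm p ((le_max_right _ _).trans hm) hM hw1 hw2 hK hb hA hDm hp hv)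
  · exact rrt109_val_anti (Finset.Subset.refl _) (mul_le_mul_of_nonneg_right (min_le_left _ _) hp)
      (g1 m M α1 α2 β1 β2 K b G A Dm p ((le_max_left _ _).trans hm) hM hw1 hw2 hK hb hA hDm hp hv)

/-- the number of pushes -/
theorem rrt109_pow (C0 : ℕ) : ∃ k : ℕ, C0 * 9 ^ k ≤ 10 ^ k := by
  obtain ⟨k, hk⟩ := pow_unbounded_of_one_lt (C0 : ℝ) (by norm_num : (1 : ℝ) < 10 / 9)
  refine ⟨k, ?_⟩
  rw [div_pow, lt_div_iff₀ (by positivity)] at hk
  exact_mod_cast hk.le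

/-- **(PUSH1)** from (HP) -/
theorem rrt109_push1 {t : ℝ} (h0 : 0 < t) (h1 : t ≤ 1) (hHP : RnzHP t) : RnzPush1 t := by
  intro C0
  obtain ⟨k, hk⟩ := rrt109_pow C0
  obtain ⟨c, hc0, _, m0, h⟩ := rrt109_box h0 h1 hHP (2 + 2 * C0) k
  refine ⟨c, hc0, m0, fun s R u K hR hK => ?_⟩
  have h2 := h s R (C0 * R) (u.1 - R) (u.1 + R - 1) (u.2 - R) (u.2 + R - 1) K (rswBox u R) (rswBox u (2 * R)) (rswBox u R) (rswBox u (C0 * R)) 1 hR
    (by calc C0 * R * 9 ^ k = (C0 * 9 ^ k) * R := by ring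
          _ ≤ 10 ^ k * R := Nat.mul_le_mul_right _ hk
          _ = R * 10 ^ k := by ring)
    (by push_cast; linarith) (by push_cast; linarith) hK
    (fun v hv => by
      rw [rsy_mem_box] at hv
      rw [rrt109_mem_bx]
      omega)
    (Finset.Subset.refl _)
    (fun v hv => by
      rw [rsy_mem_box] at hv
      rw [rrt109_mem_bx]
      have hR0 : (0 : ℤ) ≤ R := by positivity
      push_cast at hv ⊢
      refine ⟨⟨by linarith [hv.1.1], by linarith [hv.1.2]⟩, by linarith [hv.2.1], by linarith [hv.2.2]⟩)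
    zero_le_one
    (rrt109_val_end t s K _ _ _ _ (fun v hv => by
      have hv' := (Finset.mem_inter.1 hv).2
      rw [rrt109_mem_bx] at hv'
      rw [rsy_mem_box]
      push_cast
      omega))
  rwa [mul_one] at h2

/-- **(TUBE)**: a rectangle `T' = [α1,α2] x [β1,β2]` of sides `≤ C0 n` which contains the history, ANY domain `T' ⊆ D ⊆ T' + C0 n`:   `P^s_D(K)[ Sep^s_D(D \ (T' + n), T') ] ≥ c(C0)`      (R291 `rnp_tube`; consumer B3) -/
theorem rrt109_tube {t : ℝ} (h0 : 0 < t) (h1 : t ≤ 1) (hHP : RnzHP t) (C0 : ℕ) :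
    ∃ c : ℝ, 0 < c ∧ ∃ n0 : ℕ, ∀ (s : Bool) (n : ℕ) (α1 α2 β1 β2 : ℤ) (K : RswCon), n0 ≤ n → α2 - α1 ≤ C0 * n → β2 - β1 ≤ C0 * n →
      K.Legal (rrt109Bx α1 α2 β1 β2) →
      RnzVal t s K (rrt109Bx α1 α2 β1 β2) (rrt109Bx (α1 - n) (α2 + n) (β1 - n) (β2 + n)) (rrt109Bx α1 α2 β1 β2)
        (rrt109Bx (α1 - C0 * n) (α2 + C0 * n) (β1 - C0 * n) (β2 + C0 * n)) c := by
  obtain ⟨k, hk⟩ := rrt109_pow C0
  obtain ⟨c, hc0, _, m0, h⟩ := rrt109_box h0 h1 hHP (3 * C0) k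
  refine ⟨c, hc0, m0, fun s n α1 α2 β1 β2 K hn hw1 hw2 hK => ?_⟩
  have h2 := h s n (C0 * n) α1 α2 β1 β2 K (rrt109Bx α1 α2 β1 β2) (rrt109Bx (α1 - n) (α2 + n) (β1 - n) (β2 + n)) (rrt109Bx α1 α2 β1 β2)
    (rrt109Bx (α1 - C0 * n) (α2 + C0 * n) (β1 - C0 * n) (β2 + C0 * n)) 1 hn
    (by calc C0 * n * 9 ^ k = (C0 * 9 ^ k) * n := by ring
          _ ≤ 10 ^ k * n := Nat.mul_le_mul_right _ hk
          _ = n * 10 ^ k := by ring)
    (by push_cast; linarith) (by push_cast; linarith) hK (Finset.Subset.refl _) (Finset.Subset.refl _)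
    (by push_cast; exact Finset.Subset.refl _) zero_le_one
    (rrt109_val_end t s K _ _ _ _ Finset.inter_subset_right)
  rwa [mul_one] at h2

/-- **(REC)** from (T1), (HP) and (SEP2) -/
theorem rrt109_rec_hp (t : ℝ) (h0 : 0 < t) (h1 : t ≤ 1) (hF : Rrt109Fkg t) (hHP : RnzHP t) (hS : RnzSep2 t) : RcRec t :=
  rrt109_rec' t h0 h1 hF (rrt109_push1 h0 h1 hHP) hS

/-- the equation lemmas of the later definitions of this file are generated HERE -/
theorem rrt109_defs_eqns_cite2 : True := by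
  have := @rrt109U.eq_1
  have := @rrt109Inv.eq_1
  have := @rrt109Force.eq_1
  have := @rrt109Bx.eq_1
  trivial

/-! # B6 : THE CORRIDOR      (R291 `Ann/RenCor*`; order A5-2 of helper12)

`rrt109_cor : RnzLSS t → Rrt109Ord t → RnzCor t`.
* `RnzLSS t` = THE CONTRACT WITH A1 (straight short crossing): in an ambient box `Λ = rswBox 0 n` with the PLUS flat law, under the SEA HISTORY of the strip `[a₀, a₀ + 5m] × [y₀, y₀ + m]` (`rrt109Sea`: plus on the rows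
  `≤ y₀` and `≥ y₀ + m`, minus on the rows between, left of the column `a₀` and right of the column `a₀ + 5m`, homogeneous edges open), the plus good edges separate, inside the strip of faces `rrt109Q`, its first column from its last
  column, with probability `≥ c`, uniformly in `m ≥ m₀`, in the position of the strip and in the ambient box.      SEP FORM: no duality is needed in B6 (by J1 the event = the two long sides are joined by plus good edges).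
* `Rrt109Ord t` = (T2h) THE ORDER OF TWO LEGAL HISTORIES of a box (R291 `dis_order`, `ClLe`): contract with R3 (binding of `cmp291_holley`).      FKG under ONE history does not give it (closed edges between plus pins).
* chain:   `P^+_F(K)` = ambient law under `K` + (everything off the strict inside of `F` plus, open) (`rrt109_amb_embed`, from `rrt109_swap`)  ≥  ambient law under the sea history (`Rrt109Ord`)  ≥ `c` (contract);
  deterministic: `rrt109_Q_sep`.      The other sign: global flip (`rrt109_cord_flip`).      The two orientations: the proof is generic in `Rrt109Dir l τ`.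

## 11. contracts -/

/-- order of histories, `K₁` below `K₂`      (R291 `ClLe`) -/
structure Rrt109Le (K₁ K₂ : RswCon) : Prop where
  sp : K₁.Sp ⊆ K₂.Sp
  sm : K₂.Sm ⊆ K₁.Sm
  gp : K₁.Gp ⊆ K₂.Gp
  gm : K₂.Gm ⊆ K₁.Gm
  cl1 : K₁.Cl ⊆ K₂.Cl ∪ K₂.Gp
  cl2 : K₂.Cl ⊆ K₁.Cl ∪ K₁.Gm

/-- **(T2h)** the laws of a box under two legal histories `K₁ ≤ K₂` are ordered      (R291 `dis_order`; unnormalised) -/
def Rrt109Ord (t : ℝ) : Prop :=
  ∀ (n : ℕ) (b : Bool) (K₁ K₂ : RswCon) (L : RswCfg → Prop), K₁.Legal (rswBox 0 n) → K₂.Legal (rswBox 0 n) → Rrt109Le K₁ K₂ → RswInc L →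
    rswSum t (rswBox 0 n) b (fun ω => rsxInd (K₁.Holds ω ∧ L ω)) * rswSum t (rswBox 0 n) b (fun ω => rsxInd (K₂.Holds ω)) ≤
      rswSum t (rswBox 0 n) b (fun ω => rsxInd (K₁.Holds ω)) * rswSum t (rswBox 0 n) b (fun ω => rsxInd (K₂.Holds ω ∧ L ω))

/-- (lengthwise, transverse) coordinates: one of the two orientations -/
def Rrt109Dir (l τ : ℤ × ℤ → ℤ) : Prop :=
  (l = (fun f => f.1) ∧ τ = (fun f => f.2)) ∨ (l = (fun f => f.2) ∧ τ = (fun f => f.1))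

/-- plus pins of the sea -/
noncomputable def rrt109SeaP (Λ : Finset (ℤ × ℤ)) (τ : ℤ × ℤ → ℤ) (y₀ y₁ : ℤ) : Finset (ℤ × ℤ) :=
  (cornersOf Λ).filter (fun v => τ v ≤ y₀ ∨ y₁ ≤ τ v)

/-- minus pins of the sea -/
noncomputable def rrt109SeaM (Λ : Finset (ℤ × ℤ)) (l τ : ℤ × ℤ → ℤ) (a₀ a₁ y₀ y₁ : ℤ) : Finset (ℤ × ℤ) :=
  (rsxIn Λ).filter (fun v => y₀ < τ v ∧ τ v < y₁ ∧ (l v ≤ a₀ ∨ a₁ ≤ l v))

/-- **the sea history** of the strip `[a₀, a₁] × [y₀, y₁]` in the ambient domain `Λ` -/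
noncomputable def rrt109Sea (Λ : Finset (ℤ × ℤ)) (l τ : ℤ × ℤ → ℤ) (a₀ a₁ y₀ y₁ : ℤ) : RswCon :=
  ⟨rrt109SeaP Λ τ y₀ y₁, rrt109SeaM Λ l τ a₀ a₁ y₀ y₁,
    (rswInt Λ).filter (fun e => e.1 ∈ rrt109SeaP Λ τ y₀ y₁ ∧ rswEnd e ∈ rrt109SeaP Λ τ y₀ y₁),
    (rswInt Λ).filter (fun e => e.1 ∈ rrt109SeaM Λ l τ a₀ a₁ y₀ y₁ ∧ rswEnd e ∈ rrt109SeaM Λ l τ a₀ a₁ y₀ y₁), ∅⟩

/-- the faces of the strip -/
noncomputable def rrt109Q (Λ : Finset (ℤ × ℤ)) (l τ : ℤ × ℤ → ℤ) (a₀ a₁ y₀ y₁ : ℤ) : Finset (ℤ × ℤ) :=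
  Λ.filter (fun f => a₀ ≤ l f ∧ l f < a₁ ∧ y₀ ≤ τ f ∧ τ f < y₁)

/-- **THE CONTRACT WITH A1**, one orientation -/
def RnzLSSd (t : ℝ) (l τ : ℤ × ℤ → ℤ) : Prop :=
  ∃ c : ℝ, 0 < c ∧ ∃ m₀ : ℕ, ∀ (m n : ℕ) (a₀ y₀ : ℤ), m₀ ≤ m →
    (∀ f : ℤ × ℤ, a₀ - 2 ≤ l f → l f ≤ a₀ + 5 * m + 1 → y₀ - 2 ≤ τ f → τ f ≤ y₀ + m + 1 → f ∈ rswBox 0 n) →
    c ≤ rswPK t (rswBox 0 n) true (rrt109Sea (rswBox 0 n) l τ a₀ (a₀ + 5 * m) y₀ (y₀ + m))
      (fun ω => RswSep (rrt109Q (rswBox 0 n) l τ a₀ (a₀ + 5 * m) y₀ (y₀ + m)) true ω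
        ((rrt109Q (rswBox 0 n) l τ a₀ (a₀ + 5 * m) y₀ (y₀ + m)).filter (fun f => l f = a₀))
        ((rrt109Q (rswBox 0 n) l τ a₀ (a₀ + 5 * m) y₀ (y₀ + m)).filter (fun f => l f = a₀ + 5 * m - 1)))

/-- **THE CONTRACT WITH A1** (LSS): the two orientations -/
def RnzLSS (t : ℝ) : Prop := RnzLSSd t (fun f => f.1) (fun f => f.2) ∧ RnzLSSd t (fun f => f.2) (fun f => f.1)

/-- the equation lemmas of the definitions of B6 are generated HERE -/
theorem rrt109_defs_eqns_cite3 : True := by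
  have := @Rrt109Ord.eq_1
  have := @Rrt109Dir.eq_1
  have := @rrt109SeaP.eq_1
  have := @rrt109SeaM.eq_1
  have := @rrt109Sea.eq_1
  have := @rrt109Q.eq_1
  have := @RnzLSSd.eq_1
  have := @RnzLSS.eq_1
  trivial

/-! ## 12. geometry -/

theorem rrt109_dir_corner {l τ : ℤ × ℤ → ℤ} (hd : Rrt109Dir l τ) {F : Finset (ℤ × ℤ)} {v : ℤ × ℤ} (hv : v ∈ cornersOf F) :
    ∃ f ∈ F, (l f ≤ l v ∧ l v ≤ l f + 1) ∧ (τ f ≤ τ v ∧ τ v ≤ τ f + 1) := by
  rw [rsx_mem_corners] at hv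
  rcases hd with ⟨rfl, rfl⟩ | ⟨rfl, rfl⟩ <;> rcases hv with h | h | h | h <;> exact ⟨_, h, by dsimp only; omega⟩

theorem rrt109_dir_co {l τ : ℤ × ℤ → ℤ} (hd : Rrt109Dir l τ) (e : (ℤ × ℤ) × Bool) : l e.1 - 1 ≤ l (rswCo e) ∧ l (rswCo e) ≤ l e.1 := by
  obtain ⟨v, b⟩ := e
  rcases hd with ⟨rfl, rfl⟩ | ⟨rfl, rfl⟩ <;> cases b <;> simp only [rsx_co_false, rsx_co_true] <;> omega

/-- a finite set of faces lies well inside a large box -/
theorem rrt109_box_exists (F : Finset (ℤ × ℤ)) (N : ℕ) : ∃ n : ℕ, N ≤ n ∧ ∀ f ∈ F, ∀ g : ℤ × ℤ, |g.1 - f.1| ≤ 2 → |g.2 - f.2| ≤ 2 → g ∈ rswBox 0 n := by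
  refine ⟨F.sup (fun f => f.1.natAbs + f.2.natAbs) + 3 + N, by omega, fun f hf g h1 h2 => ?_⟩
  have h : f.1.natAbs + f.2.natAbs ≤ F.sup (fun f => f.1.natAbs + f.2.natAbs) := Finset.le_sup (f := fun f : ℤ × ℤ => f.1.natAbs + f.2.natAbs) hf
  rw [rsy_mem_box]
  rw [abs_le] at h1 h2
  simp only [Prod.fst_zero, Prod.snd_zero]
  push_cast
  omega

/-! ## 13. the ambient history: `P^+_F(K)` as the law of an ambient domain under a legal history -/

/-- everything off the strict inside of `F` is plus and open -/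
def Rrt109Out (Λ F : Finset (ℤ × ℤ)) (ω : RswCfg) : Prop :=
  (∀ v ∈ cornersOf Λ, v ∉ rsxIn F → v ∈ ω.S) ∧ ∀ e ∈ rswInt Λ, e ∉ rswInt F → e ∈ ω.O

/-- **the ambient history**: `K` + everything off the strict inside of `F` plus and open -/
noncomputable def rrt109Amb (Λ F : Finset (ℤ × ℤ)) (K : RswCon) : RswCon :=
  ⟨K.Sp ∪ (cornersOf Λ \ rsxIn F), K.Sm, K.Gp ∪ (rswInt Λ \ rswInt F), K.Gm, K.Cl⟩

theorem rrt109_defs_eqns_cite4 : True := by
  have := @Rrt109Out.eq_1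
  have := @rrt109Amb.eq_1
  trivial

theorem rrt109_off_int {F : Finset (ℤ × ℤ)} {e : (ℤ × ℤ) × Bool} (he : e ∉ rswInt F) : e.1 ∉ rsxIn F ∧ rswEnd e ∉ rsxIn F :=
  ⟨fun h => he (rsx_mem_int.2 (rsx_in_faces1 h)), fun h => he (rsx_mem_int.2 (rsx_in_faces2 h))⟩

theorem rrt109_amb_legal {Λ F F₀ : Finset (ℤ × ℤ)} (h₀ : F₀ ⊆ Λ) {K : RswCon} (hK : K.Legal F₀) : (rrt109Amb Λ F K).Legal Λ := by
  have hed : ∀ e, e ∈ K.Gp ∨ e ∈ K.Gm ∨ e ∈ K.Cl → e ∈ K.Gp ∪ K.Gm ∪ K.Cl := fun e he => by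
    simp only [Finset.mem_union]; tauto
  refine ⟨?_, ?_, ?_, ?_⟩
  · intro v hv
    rcases Finset.mem_union.1 hv with h | h
    · exact rsx_corners_mono h₀ (hK.sp h)
    · exact (Finset.mem_sdiff.1 h).1
  · exact fun v hv => rsx_corners_mono h₀ (hK.sm hv)
  · intro e he
    simp only [rrt109Amb, Finset.mem_union, Finset.mem_sdiff] at he
    rcases he with ((h | h) | h) | h
    · exact rsx_int_mono h₀ (hK.ed (hed e (Or.inl h)))
    · exact h.1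
    · exact rsx_int_mono h₀ (hK.ed (hed e (Or.inr (Or.inl h))))
    · exact rsx_int_mono h₀ (hK.ed (hed e (Or.inr (Or.inr h))))
  · intro e he
    simp only [rrt109Amb, Finset.mem_union, Finset.mem_sdiff] at he ⊢
    have old : e ∈ K.Gp ∨ e ∈ K.Gm ∨ e ∈ K.Cl → ((e.1 ∈ K.Sp ∨ e.1 ∈ cornersOf Λ ∧ e.1 ∉ rsxIn F) ∨ e.1 ∈ K.Sm) ∧
        ((rswEnd e ∈ K.Sp ∨ rswEnd e ∈ cornersOf Λ ∧ rswEnd e ∉ rsxIn F) ∨ rswEnd e ∈ K.Sm) := by
      intro h
      have := hK.full e (hed e h)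
      simp only [Finset.mem_union] at this
      tauto
    rcases he with ((h | h) | h) | h
    · exact old (Or.inl h)
    · have h2 := rrt109_off_int h.2
      have h3 := rsx_mem_int.1 h.1
      exact ⟨Or.inl (Or.inr ⟨rsx_end_corner1 (Or.inl h3.1), h2.1⟩), Or.inl (Or.inr ⟨rsx_end_corner2 (Or.inl h3.1), h2.2⟩)⟩
    · exact old (Or.inr (Or.inl h))
    · exact old (Or.inr (Or.inr h))

theorem rrt109_amb_holds (Λ F : Finset (ℤ × ℤ)) (K : RswCon) (ω : RswCfg) : (rrt109Amb Λ F K).Holds ω ↔ Rrt109Out Λ F ω ∧ K.Holds ω := by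
  constructor
  · rintro ⟨a1, a2, a3, a4, a5⟩
    refine ⟨⟨fun v hv hn => a1 (Finset.mem_union_right _ (Finset.mem_sdiff.2 ⟨hv, hn⟩)),
      fun e he hn => (a3 e (Finset.mem_union_right _ (Finset.mem_sdiff.2 ⟨he, hn⟩))).1⟩,
      fun v hv => a1 (Finset.mem_union_left _ hv), a2, fun e he => a3 e (Finset.mem_union_left _ he), a4, a5⟩
  · rintro ⟨⟨o1, o2⟩, a1, a2, a3, a4, a5⟩
    refine ⟨?_, a2, ?_, a4, a5⟩
    · intro v hv
      rcases Finset.mem_union.1 hv with h | h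
      · exact a1 h
      · exact o1 v (Finset.mem_sdiff.1 h).1 (Finset.mem_sdiff.1 h).2
    · intro e he
      rcases Finset.mem_union.1 he with h | h
      · exact a3 e h
      · have h' := Finset.mem_sdiff.1 h
        have h2 := rrt109_off_int h'.2
        have h3 := rsx_mem_int.1 h'.1
        exact ⟨o2 e h'.1 h'.2, iff_of_true (o1 _ (rsx_end_corner1 (Or.inl h3.1)) h2.1) rfl,
          iff_of_true (o1 _ (rsx_end_corner2 (Or.inl h3.1)) h2.2) rfl⟩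

theorem rrt109_out_cut {Λ F : Finset (ℤ × ℤ)} (h : F ⊆ Λ) {ω : RswCfg} (ho : Rrt109Out Λ F ω) : RsxCut Λ F true ω :=
  ⟨fun v hv hp => iff_of_true (ho.1 v (rsx_corners_mono h hv) (fun hin => rsx_in_iff.1 hin hp)) rfl, fun e he hn _ => ho.2 e he hn⟩

theorem rrt109_out_loc (Λ F : Finset (ℤ × ℤ)) : RsxLocOut F (fun ω => rsxInd (Rrt109Out Λ F ω)) := by
  have key : ∀ ω ω' : RswCfg, ω.S \ rsxIn F = ω'.S \ rsxIn F → ω.O \ rswInt F = ω'.O \ rswInt F → Rrt109Out Λ F ω → Rrt109Out Λ F ω' :=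
    fun ω ω' hS hO ho => ⟨fun v hv hn => (rsx_sdiff_mem hS hn).1 (ho.1 v hv hn), fun e he hn => (rsx_sdiff_mem hO hn).1 (ho.2 e he hn)⟩
  exact fun ω ω' hS _ hO => rsx_ind_congr ⟨key ω ω' hS hO, key ω' ω hS.symm hO.symm⟩

theorem rrt109_out_cst (Λ F : Finset (ℤ × ℤ)) : Rrt109Out Λ F (rsxCst Λ true) :=
  ⟨fun _ hv _ => (rsx_cst_S hv).2 rfl, fun _ he _ => he⟩

/-- **the embedding** (unnormalised) -/
theorem rrt109_amb_sum {t : ℝ} (h0 : 0 < t) (h1 : t ≤ 1) {Λ F : Finset (ℤ × ℤ)} (h : F ⊆ Λ) (b : Bool) (K : RswCon) {L : RswCfg → Prop}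
    (hL : RnzLoc F (fun ω => K.Holds ω ∧ L ω)) :
    rswSum t Λ b (fun ω => rsxInd ((rrt109Amb Λ F K).Holds ω ∧ L ω)) =
      rswSum t Λ b (fun ω => rsxInd (Rrt109Out Λ F ω)) * rswP t F true (fun ω => K.Holds ω ∧ L ω) := by
  have e1 : ∀ Y : RswCfg → ℝ, rswSum t Λ b (fun ω => rsxInd (Rrt109Out Λ F ω) * Y ω) =
      rswSum t Λ b (fun ω => rsxInd (RsxCut Λ F true ω) * Y ω * rsxInd (Rrt109Out Λ F ω)) := by
    intro Y
    refine rsx_sum_congr t Λ b fun ω => ?_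
    by_cases ho : Rrt109Out Λ F ω
    · rw [rsx_ind_pos ho, rsx_ind_pos (rrt109_out_cut h ho)]; ring
    · rw [rsx_ind_neg ho]; ring
  have e2 : rswSum t Λ b (fun ω => rsxInd ((rrt109Amb Λ F K).Holds ω ∧ L ω)) =
      rswSum t Λ b (fun ω => rsxInd (Rrt109Out Λ F ω) * rsxInd (K.Holds ω ∧ L ω)) := by
    refine rsx_sum_congr t Λ b fun ω => ?_
    rw [rrt109_amb_holds]
    by_cases ho : Rrt109Out Λ F ω
    · rw [rsx_ind_pos ho, one_mul]
      exact rsx_ind_congr (by tauto)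
    · rw [rsx_ind_neg ho, zero_mul]
      exact rsx_ind_neg (by tauto)
  have e3 : rswSum t Λ b (fun ω => rsxInd (Rrt109Out Λ F ω)) =
      rswSum t Λ b (fun ω => rsxInd (RsxCut Λ F true ω) * rsxInd (Rrt109Out Λ F ω)) := by
    refine rsx_sum_congr t Λ b fun ω => ?_
    by_cases ho : Rrt109Out Λ F ω
    · rw [rsx_ind_pos ho, rsx_ind_pos (rrt109_out_cut h ho)]; ring
    · rw [rsx_ind_neg ho]; ring
  rw [e2, e1, e3]
  exact rrt109_swap h0 h1 h true b hL (rrt109_out_loc Λ F)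

theorem rrt109_out_pos {t : ℝ} (h0 : 0 < t) (h1 : t ≤ 1) (Λ F : Finset (ℤ × ℤ)) : 0 < rswSum t Λ true (fun ω => rsxInd (Rrt109Out Λ F ω)) :=
  rrt109_sum_pos h0 h1 Λ true (fun _ => rsx_ind_nonneg _) (by rw [rsx_ind_pos (rrt109_out_cst Λ F)]; exact one_pos)

/-- **the embedding**: the law of `(F, +)` under `K` is the law of `(Λ, +)` under the ambient history -/
theorem rrt109_amb_PK {t : ℝ} (h0 : 0 < t) (h1 : t ≤ 1) {Λ F F₀ : Finset (ℤ × ℤ)} (h : F ⊆ Λ) (h₀ : F₀ ⊆ F) {K : RswCon} (hK : K.Legal F₀)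
    {L : RswCfg → Prop} (hL : RnzLoc F L) : rswPK t Λ true (rrt109Amb Λ F K) L = rswPK t F true K L := by
  have hKl : RnzLoc F K.Holds := rrt109_loc_up h₀ (rrt109_holds_loc hK)
  have hT : RnzLoc F (fun ω => K.Holds ω ∧ True) := rrt109_loc_and hKl (fun _ _ _ _ => Iff.rfl)
  have eT : ∀ (G : Finset (ℤ × ℤ)) (K' : RswCon), rswSum t G true (fun ω => rsxInd (K'.Holds ω)) = rswSum t G true (fun ω => rsxInd (K'.Holds ω ∧ True)) :=
    fun G K' => rsx_sum_congr t G true fun ω => rsx_ind_congr (and_iff_left trivial).symm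
  have hW := rrt109_out_pos h0 h1 Λ F
  have hZ := rsx_Z_pos h0 h1 F true
  rw [rrt109_PK_eq, rrt109_PK_eq, eT Λ, eT F, rrt109_amb_sum h0 h1 h true K (rrt109_loc_and hKl hL), rrt109_amb_sum h0 h1 h true K hT,
    rsx_P_eq, rsx_P_eq, rsx_E_eq, rsx_E_eq]
  rw [mul_div_mul_left _ _ hW.ne', div_div_div_cancel_right₀ hZ.ne']

theorem rrt109_amb_feas {t : ℝ} (h0 : 0 < t) (h1 : t ≤ 1) {Λ F F₀ : Finset (ℤ × ℤ)} (h : F ⊆ Λ) (h₀ : F₀ ⊆ F) {K : RswCon} (hK : K.Legal F₀)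
    (hf : K.Feas t F true) : 0 < rswSum t Λ true (fun ω => rsxInd ((rrt109Amb Λ F K).Holds ω)) := by
  have hKl : RnzLoc F K.Holds := rrt109_loc_up h₀ (rrt109_holds_loc hK)
  have hT : RnzLoc F (fun ω => K.Holds ω ∧ True) := rrt109_loc_and hKl (fun _ _ _ _ => Iff.rfl)
  have eT : ∀ (G : Finset (ℤ × ℤ)) (K' : RswCon), rswSum t G true (fun ω => rsxInd (K'.Holds ω)) = rswSum t G true (fun ω => rsxInd (K'.Holds ω ∧ True)) :=
    fun G K' => rsx_sum_congr t G true fun ω => rsx_ind_congr (and_iff_left trivial).symm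
  rw [rrt109_feas_iff, eT F] at hf
  rw [eT Λ, rrt109_amb_sum h0 h1 h true K hT, rsx_P_eq, rsx_E_eq]
  exact mul_pos (rrt109_out_pos h0 h1 Λ F) (div_pos hf (rsx_Z_pos h0 h1 F true))

/-! ## 14. the sea lies below the ambient history; the deterministic step; (COR) for the plus sign -/

theorem rrt109_sea_legal (Λ : Finset (ℤ × ℤ)) (l τ : ℤ × ℤ → ℤ) (a₀ a₁ y₀ y₁ : ℤ) : (rrt109Sea Λ l τ a₀ a₁ y₀ y₁).Legal Λ := by
  refine ⟨Finset.filter_subset _ _, fun v hv => rsx_in_sub_corners Λ (Finset.mem_filter.1 hv).1, ?_, ?_⟩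
  · intro e he
    simp only [rrt109Sea, Finset.mem_union, Finset.mem_filter, Finset.notMem_empty, or_false] at he
    rcases he with h | h <;> exact h.1
  · intro e he
    simp only [rrt109Sea, Finset.mem_union, Finset.mem_filter, Finset.notMem_empty, or_false] at he ⊢
    rcases he with h | h
    · exact ⟨Or.inl h.2.1, Or.inl h.2.2⟩
    · exact ⟨Or.inr h.2.1, Or.inr h.2.2⟩

theorem rrt109_sea_le {l τ : ℤ × ℤ → ℤ} {Λ F F₀ : Finset (ℤ × ℤ)} {K : RswCon} (hK : K.Legal F₀) {a₀ a₁ y₀ y₁ : ℤ} (h₀ : F₀ ⊆ Λ)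
    (hF : ∀ f ∈ F, y₀ < τ f ∧ τ f < y₁) (hM : cornersOf F₀ ⊆ rrt109SeaM Λ l τ a₀ a₁ y₀ y₁) :
    Rrt109Le (rrt109Sea Λ l τ a₀ a₁ y₀ y₁) (rrt109Amb Λ F K) := by
  have hed : ∀ e, e ∈ K.Gp ∨ e ∈ K.Gm ∨ e ∈ K.Cl → e ∈ K.Gp ∪ K.Gm ∪ K.Cl := fun e he => by
    simp only [Finset.mem_union]; tauto
  have hpin : ∀ v, v ∈ K.Sp ∪ K.Sm → v ∈ rrt109SeaM Λ l τ a₀ a₁ y₀ y₁ := fun v hv => by
    rcases Finset.mem_union.1 hv with h | h
    · exact hM (hK.sp h)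
    · exact hM (hK.sm h)
  have hgm : ∀ e, e ∈ K.Gp ∨ e ∈ K.Gm ∨ e ∈ K.Cl → e ∈ (rrt109Sea Λ l τ a₀ a₁ y₀ y₁).Gm := fun e he =>
    Finset.mem_filter.2 ⟨rsx_int_mono h₀ (hK.ed (hed e he)), hpin _ (hK.full e (hed e he)).1, hpin _ (hK.full e (hed e he)).2⟩
  have hoff : ∀ v, v ∈ rrt109SeaP Λ τ y₀ y₁ → v ∉ F := fun v hv hvF => by
    have h1 := (Finset.mem_filter.1 hv).2
    have h2 := hF v hvF
    omega
  refine ⟨?_, fun v hv => hM (hK.sm hv), ?_, fun e he => hgm e (Or.inr (Or.inl he)), Finset.empty_subset _,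
    fun e he => Finset.mem_union_right _ (hgm e (Or.inr (Or.inr he)))⟩
  · exact fun v hv => Finset.mem_union_right _ (Finset.mem_sdiff.2 ⟨(Finset.mem_filter.1 hv).1, fun hin => hoff v hv (rsx_mem_in.1 hin).1⟩)
  · intro e he
    have he' := Finset.mem_filter.1 he
    exact Finset.mem_union_right _ (Finset.mem_sdiff.2 ⟨he'.1, fun hin => hoff _ he'.2.1 (rsx_mem_int.1 hin).1⟩)

theorem rrt109_hist_sea {l τ : ℤ × ℤ → ℤ} (hd : Rrt109Dir l τ) {Λ F : Finset (ℤ × ℤ)} {p c a₀ a₁ y₀ y₁ q : ℤ}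
    (hΛ : ∀ f ∈ F, ∀ g : ℤ × ℤ, |g.1 - f.1| ≤ 2 → |g.2 - f.2| ≤ 2 → g ∈ Λ) {d : ℤ}
    (hF : ∀ f ∈ F, c ≤ τ f ∧ τ f ≤ d) (hy₀ : y₀ < c) (hy₁ : d + 1 < y₁) (ha₀ : p + 1 ≤ a₀) (ha₁ : a₁ ≤ q) :
    cornersOf (F.filter (fun f => l f ≤ p ∨ q ≤ l f)) ⊆ rrt109SeaM Λ l τ a₀ a₁ y₀ y₁ := by
  intro v hv
  obtain ⟨f, hf, ⟨l1, l2⟩, ⟨t1, t2⟩⟩ := rrt109_dir_corner hd hv
  obtain ⟨hfF, hfl⟩ := Finset.mem_filter.1 hf
  have hτ := hF f hfF
  have hnear : |v.1 - f.1| ≤ 1 ∧ |v.2 - f.2| ≤ 1 ∧ 0 ≤ v.1 - f.1 ∧ 0 ≤ v.2 - f.2 := by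
    rw [abs_le, abs_le]
    rcases hd with ⟨rfl, rfl⟩ | ⟨rfl, rfl⟩ <;> dsimp only at l1 l2 t1 t2 <;> omega
  obtain ⟨n1, n2, n3, n4⟩ := hnear
  rw [abs_le] at n1 n2
  refine Finset.mem_filter.2 ⟨rsx_mem_in.2 ⟨hΛ f hfF _ ?_ ?_, hΛ f hfF _ ?_ ?_, hΛ f hfF _ ?_ ?_, hΛ f hfF _ ?_ ?_⟩, by omega, by omega, by omega⟩ <;>
    rw [abs_le] <;> (try dsimp only) <;> omega

/-- **deterministic**: a cut of the strip `Q` is a cut of every domain inside the strip -/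
theorem rrt109_Q_sep {l τ : ℤ × ℤ → ℤ} (hd : Rrt109Dir l τ) {Λ F : Finset (ℤ × ℤ)} (h : F ⊆ Λ) {a₀ a₁ y₀ y₁ p q : ℤ} (hp : p < a₀) (ha : a₀ < a₁)
    (hq : a₁ ≤ q) (hF : ∀ f ∈ F, y₀ ≤ τ f ∧ τ f < y₁) {ω : RswCfg}
    (hE : RswSep (rrt109Q Λ l τ a₀ a₁ y₀ y₁) true ω ((rrt109Q Λ l τ a₀ a₁ y₀ y₁).filter (fun f => l f = a₀))
      ((rrt109Q Λ l τ a₀ a₁ y₀ y₁).filter (fun f => l f = a₁ - 1))) :
    RswSep F true ω (F.filter (fun f => l f ≤ p)) (F.filter (fun f => q ≤ l f)) := by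
  set Q := rrt109Q Λ l τ a₀ a₁ y₀ y₁ with hQ
  have memQ : ∀ w ∈ F, a₀ ≤ l w → l w < a₁ → w ∈ Q := fun w hw h1 h2 => Finset.mem_filter.2 ⟨h hw, h1, h2, (hF w hw).1, (hF w hw).2⟩
  intro f hf g hg hr
  have hf' := (Finset.mem_filter.1 hf).2
  have hg' := (Finset.mem_filter.1 hg).2
  have key : ∀ w, Relation.ReflTransGen (RswStep F true ω) f w →
      l w < a₀ ∨ (w ∈ Q ∧ ∃ u ∈ Q.filter (fun f => l f = a₀), Relation.ReflTransGen (RswStep Q true ω) u w) := by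
    intro w hw
    induction hw with
    | refl => exact Or.inl (by omega)
    | @tail w w' _ hst ih =>
      obtain ⟨hwF, hw'F, e, he, hne⟩ := hst
      have hl : l w - 1 ≤ l w' ∧ l w' ≤ l w + 1 := by
        have := rrt109_dir_co hd e
        rcases he with ⟨h1, h2⟩ | ⟨h1, h2⟩ <;> rw [h1, h2] <;> omega
      by_cases h1 : l w' < a₀
      · exact Or.inl h1
      right
      rcases ih with ih | ⟨hwQ, u, hu, hur⟩
      · have hw'Q : w' ∈ Q := memQ w' hw'F (by omega) (by omega)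
        exact ⟨hw'Q, w', Finset.mem_filter.2 ⟨hw'Q, by omega⟩, Relation.ReflTransGen.refl⟩
      · by_cases h2 : l w' < a₁
        · have hw'Q := memQ w' hw'F (by omega) h2
          exact ⟨hw'Q, u, hu, hur.tail ⟨hwQ, hw'Q, e, he, hne⟩⟩
        · exfalso
          have h3 : l w < a₁ := (Finset.mem_filter.1 hwQ).2.2.1
          exact hE u hu w (Finset.mem_filter.2 ⟨hwQ, by omega⟩) hur
  rcases key g hr with h1 | ⟨h1, _⟩
  · omega
  · have h3 : l g < a₁ := (Finset.mem_filter.1 h1).2.2.1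
    omega

/-- **(COR) for the plus sign**, one orientation -/
theorem rrt109_cord_plus {t : ℝ} (h0 : 0 < t) (h1 : t ≤ 1) {l τ : ℤ × ℤ → ℤ} (hd : Rrt109Dir l τ) (hLSS : RnzLSSd t l τ) (hO : Rrt109Ord t) :
    RnzCord t true l τ := by
  obtain ⟨c, hc, m₀, hA⟩ := hLSS
  refine ⟨c, hc, max m₀ 16, ?_⟩
  intro r p cc F K hr hF hK hfe
  have hr1 : m₀ ≤ r := le_trans (le_max_left _ _) hr
  have hr2 : 16 ≤ r := le_trans (le_max_right _ _) hr
  obtain ⟨n, -, hn⟩ := rrt109_box_exists (F ∪ ((Finset.Icc (p - 1) (p + 5 * r + 17) ×ˢ Finset.Icc (cc - 3) (cc + r + 3)) ∪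
    (Finset.Icc (cc - 3) (cc + r + 3) ×ˢ Finset.Icc (p - 1) (p + 5 * r + 17)))) 0
  have hFΛ : F ⊆ rswBox 0 n := fun f hf => hn f (Finset.mem_union_left _ hf) f (by simp) (by simp)
  have hnear : ∀ f ∈ F, ∀ g : ℤ × ℤ, |g.1 - f.1| ≤ 2 → |g.2 - f.2| ≤ 2 → g ∈ rswBox 0 n := fun f hf => hn f (Finset.mem_union_left _ hf)
  have hmargin : ∀ f : ℤ × ℤ, (p + 1) - 2 ≤ l f → l f ≤ (p + 1) + 5 * ((r + 3 : ℕ) : ℤ) + 1 → (cc - 1) - 2 ≤ τ f → τ f ≤ (cc - 1) + ((r + 3 : ℕ) : ℤ) + 1 →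
      f ∈ rswBox 0 n := by
    intro f f1 f2 f3 f4
    push_cast at f2 f4
    refine hn f (Finset.mem_union_right _ ?_) f (by simp) (by simp)
    rw [Finset.mem_union, Finset.mem_product, Finset.mem_product, Finset.mem_Icc, Finset.mem_Icc, Finset.mem_Icc, Finset.mem_Icc]
    rcases hd with ⟨rfl, rfl⟩ | ⟨rfl, rfl⟩ <;> dsimp only at f1 f2 f3 f4 <;> omega
  have hcon := hA (r + 3) n (p + 1) (cc - 1) (by omega) hmargin
  have hsub : F.filter (fun f => l f ≤ p ∨ p + 6 * r ≤ l f) ⊆ F := Finset.filter_subset _ _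
  have hle : Rrt109Le (rrt109Sea (rswBox 0 n) l τ (p + 1) ((p + 1) + 5 * ((r + 3 : ℕ) : ℤ)) (cc - 1) ((cc - 1) + ((r + 3 : ℕ) : ℤ)))
      (rrt109Amb (rswBox 0 n) F K) :=
    rrt109_sea_le hK (hsub.trans hFΛ) (fun f hf => by have := hF f hf; push_cast; omega)
      (rrt109_hist_sea hd hnear hF (by omega) (by push_cast; omega) le_rfl (by push_cast; omega))
  have hord := hO n true _ _ _ (rrt109_sea_legal (rswBox 0 n) l τ (p + 1) ((p + 1) + 5 * ((r + 3 : ℕ) : ℤ)) (cc - 1) ((cc - 1) + ((r + 3 : ℕ) : ℤ)))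
    (rrt109_amb_legal (F := F) (hsub.trans hFΛ) hK) hle
    (rnz_sep_inc (rrt109Q (rswBox 0 n) l τ (p + 1) ((p + 1) + 5 * ((r + 3 : ℕ) : ℤ)) (cc - 1) ((cc - 1) + ((r + 3 : ℕ) : ℤ)))
      ((rrt109Q (rswBox 0 n) l τ (p + 1) ((p + 1) + 5 * ((r + 3 : ℕ) : ℤ)) (cc - 1) ((cc - 1) + ((r + 3 : ℕ) : ℤ))).filter (fun f => l f = p + 1))
      ((rrt109Q (rswBox 0 n) l τ (p + 1) ((p + 1) + 5 * ((r + 3 : ℕ) : ℤ)) (cc - 1) ((cc - 1) + ((r + 3 : ℕ) : ℤ))).filter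
        (fun f => l f = (p + 1) + 5 * ((r + 3 : ℕ) : ℤ) - 1)))
  rw [rrt109_PK_eq] at hcon
  have hZ2 := rrt109_amb_feas h0 h1 hFΛ hsub hK hfe
  have hmono := rsx_sum_mono h0.le h1 (rswBox 0 n) true (X := fun ω => rsxInd ((rrt109Amb (rswBox 0 n) F K).Holds ω ∧
      RswSep (rrt109Q (rswBox 0 n) l τ (p + 1) ((p + 1) + 5 * ((r + 3 : ℕ) : ℤ)) (cc - 1) ((cc - 1) + ((r + 3 : ℕ) : ℤ))) true ω
      ((rrt109Q (rswBox 0 n) l τ (p + 1) ((p + 1) + 5 * ((r + 3 : ℕ) : ℤ)) (cc - 1) ((cc - 1) + ((r + 3 : ℕ) : ℤ))).filter (fun f => l f = p + 1))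
      ((rrt109Q (rswBox 0 n) l τ (p + 1) ((p + 1) + 5 * ((r + 3 : ℕ) : ℤ)) (cc - 1) ((cc - 1) + ((r + 3 : ℕ) : ℤ))).filter
        (fun f => l f = (p + 1) + 5 * ((r + 3 : ℕ) : ℤ) - 1))))
    (Y := fun ω => rsxInd ((rrt109Amb (rswBox 0 n) F K).Holds ω ∧ RswSep F true ω (F.filter (fun f => l f ≤ p)) (F.filter (fun f => p + 6 * r ≤ l f))))
    (fun ω => by
      by_cases hh : (rrt109Amb (rswBox 0 n) F K).Holds ω ∧
          RswSep (rrt109Q (rswBox 0 n) l τ (p + 1) ((p + 1) + 5 * ((r + 3 : ℕ) : ℤ)) (cc - 1) ((cc - 1) + ((r + 3 : ℕ) : ℤ))) true ω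
          ((rrt109Q (rswBox 0 n) l τ (p + 1) ((p + 1) + 5 * ((r + 3 : ℕ) : ℤ)) (cc - 1) ((cc - 1) + ((r + 3 : ℕ) : ℤ))).filter (fun f => l f = p + 1))
          ((rrt109Q (rswBox 0 n) l τ (p + 1) ((p + 1) + 5 * ((r + 3 : ℕ) : ℤ)) (cc - 1) ((cc - 1) + ((r + 3 : ℕ) : ℤ))).filter
            (fun f => l f = (p + 1) + 5 * ((r + 3 : ℕ) : ℤ) - 1))
      · rw [rsx_ind_pos hh, rsx_ind_pos ⟨hh.1, rrt109_Q_sep hd hFΛ (by omega) (by push_cast; omega) (by push_cast; omega)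
          (fun f hf => by have := hF f hf; push_cast; omega) hh.2⟩]
      · rw [rsx_ind_neg hh]; exact rsx_ind_nonneg _)
  rw [← rrt109_amb_PK h0 h1 hFΛ hsub hK (rrt109_sep_loc F _ _ true), rrt109_PK_eq, le_div_iff₀ hZ2]
  revert hcon hord hmono hZ2
  generalize rswSum t (rswBox 0 n) true (fun ω => rsxInd ((rrt109Amb (rswBox 0 n) F K).Holds ω)) = Z₂
  generalize rswSum t (rswBox 0 n) true (fun ω => rsxInd ((rrt109Amb (rswBox 0 n) F K).Holds ω ∧ RswSep F true ω (F.filter (fun f => l f ≤ p)) (F.filter (fun f => p + 6 * r ≤ l f)))) = N₃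
  have hZ1nn := rsx_sum_nonneg h0.le h1 (rswBox 0 n) true (X := fun ω => rsxInd ((rrt109Sea (rswBox 0 n) l τ (p + 1) ((p + 1) + 5 * ((r + 3 : ℕ) : ℤ)) (cc - 1) ((cc - 1) + ((r + 3 : ℕ) : ℤ))).Holds ω))
    (fun _ => rsx_ind_nonneg _)
  revert hZ1nn
  generalize rswSum t (rswBox 0 n) true (fun ω => rsxInd ((rrt109Sea (rswBox 0 n) l τ (p + 1) ((p + 1) + 5 * ((r + 3 : ℕ) : ℤ)) (cc - 1) ((cc - 1) + ((r + 3 : ℕ) : ℤ))).Holds ω)) = Z₁
  intro hZ1nn hcon hord hZ2 hmono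
  have hZ1 : 0 < Z₁ := by
    rcases hZ1nn.lt_or_eq with h | h
    · exact h
    · rw [← h, div_zero] at hcon
      exact absurd hcon (not_le.2 hc)
  rw [le_div_iff₀ hZ1] at hcon
  have h3 : Z₁ * (c * Z₂) ≤ Z₁ * N₃ := by
    calc Z₁ * (c * Z₂) = (c * Z₁) * Z₂ := by ring
      _ ≤ _ := mul_le_mul_of_nonneg_right hcon hZ2.le
      _ ≤ _ := hord
      _ ≤ Z₁ * N₃ := mul_le_mul_of_nonneg_left hmono hZ1.le
  exact le_of_mul_le_mul_left h3 hZ1

end Claimed.Agent.R292
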