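import Claimed.Agent.R292.Rsw.Cut91
import Claimed.Agent.R292.Rsw.Base31

/-!
# Row 292, Rsw/Search122 : T3 = THE SEARCH FROM THE LAYER (exploration + exact cut)      (owner helper122; prefix `rs122`; TWIN of Rsw/Expl107 (`rsx_`), on the vocabulary of Cut91)      0 sorry

The tool T3 of the chain of R291 (`{Inv s A = I0}` is a legal history and the law off `I0` is `P^s`), on `ℤ²`, in the words of Defs/RSW + Cut91.

* `rs122Inv F a ω A`    the faces of `F` reached from `A` by dual steps across edges which are NOT good of colour `a`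
* `rs122_sep_iff`       `RswSep F a ω A B ↔ Disjoint (rs122Inv F a ω A) B`
* `rs122_cut`           if `rswLayer F ⊆ A`, the complement `F \ rs122Inv F a ω A` is bounded by good edges: `RswCut`
* `rs122_inv_congr`     the found set is read off the good edges which are not interior edges of its complement
* `rs122_search`        `rswSum t F b (1{Inv = I} * X * Y) = rswE t (F \ I) a X * rswSum t F b (1{Inv = I} * Y)`
* `rs122_total`         `rswSum t F b Z = ∑ I ⊆ F, rswSum t F b (1{Inv = I} * Z)`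
* `rs122_stopped`       STOPPED CUT: `m ≤ rswE t F' a X` for all `B ⊆ F' ⊆ F`  ⟹  `m * P(Sep) ≤ E[1{Sep} X]`
-/

set_option autoImplicit false

namespace Claimed.Agent.R292

open Claims Claims.C0468 Relation

/-- the faces of `F` reached from `A` by dual steps across non-good edges -/
noncomputable def rs122Inv (F : Finset (ℤ × ℤ)) (a : Bool) (ω : RswCfg) (A : Finset (ℤ × ℤ)) : Finset (ℤ × ℤ) :=
  open Classical in F.filter (fun g => ∃ f ∈ A, ReflTransGen (RswStep F a ω) f g)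

theorem rs122_mem {F : Finset (ℤ × ℤ)} {a : Bool} {ω : RswCfg} {A : Finset (ℤ × ℤ)} {g : ℤ × ℤ} :
    g ∈ rs122Inv F a ω A ↔ g ∈ F ∧ ∃ f ∈ A, ReflTransGen (RswStep F a ω) f g := by
  classical
  unfold rs122Inv
  rw [Finset.mem_filter]

theorem rs122_sub (F : Finset (ℤ × ℤ)) (a : Bool) (ω : RswCfg) (A : Finset (ℤ × ℤ)) : rs122Inv F a ω A ⊆ F :=
  fun _ h => (rs122_mem.1 h).1

theorem rs122_seed {F : Finset (ℤ × ℤ)} {a : Bool} {ω : RswCfg} {A : Finset (ℤ × ℤ)} {f : ℤ × ℤ} (hA : f ∈ A) (hF : f ∈ F) :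
    f ∈ rs122Inv F a ω A := rs122_mem.2 ⟨hF, f, hA, ReflTransGen.refl⟩

theorem rs122_closed {F : Finset (ℤ × ℤ)} {a : Bool} {ω : RswCfg} {A : Finset (ℤ × ℤ)} {g g' : ℤ × ℤ}
    (hg : g ∈ rs122Inv F a ω A) (hs : RswStep F a ω g g') : g' ∈ rs122Inv F a ω A := by
  obtain ⟨_, f, hf, hr⟩ := rs122_mem.1 hg
  exact rs122_mem.2 ⟨hs.2.1, f, hf, hr.tail hs⟩

theorem rs122_sep_iff {F : Finset (ℤ × ℤ)} {a : Bool} {ω : RswCfg} {A B : Finset (ℤ × ℤ)} (hB : B ⊆ F) :
    RswSep F a ω A B ↔ Disjoint (rs122Inv F a ω A) B := by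
  rw [Finset.disjoint_left]
  constructor
  · intro h g hg hgB
    obtain ⟨_, f, hf, hr⟩ := rs122_mem.1 hg
    exact h f hf g hgB hr
  · intro h f hf g hg hr
    exact h (rs122_mem.2 ⟨hB hg, f, hf, hr⟩) hg

/-! ### the layer -/

theorem rs122_mem_layer {F : Finset (ℤ × ℤ)} {f : ℤ × ℤ} :
    f ∈ rswLayer F ↔ f ∈ F ∧ ∃ v ∈ ({f, (f.1 + 1, f.2), (f.1, f.2 + 1), (f.1 + 1, f.2 + 1)} : Finset (ℤ × ℤ)), OnPolygon F v := by
  unfold rswLayer
  exact @Finset.mem_filter _ _ (fun _ => Classical.propDecidable _) _ _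

theorem rs122_layer_fst {F : Finset (ℤ × ℤ)} {e : (ℤ × ℤ) × Bool} (h1 : e.1 ∈ F) (h2 : rswCo e ∉ F) : e.1 ∈ rswLayer F := by
  rw [rs122_mem_layer]
  refine ⟨h1, e.1, by simp, ?_⟩
  unfold OnPolygon
  obtain ⟨v, b⟩ := e
  cases b
  · simp only [rswCo] at h2
    intro h
    exact h2 (by simpa using h.2.2.1)
  · simp only [rswCo] at h2
    intro h
    exact h2 (by simpa using h.2.1)

theorem rs122_layer_co {F : Finset (ℤ × ℤ)} {e : (ℤ × ℤ) × Bool} (h1 : e.1 ∉ F) (h2 : rswCo e ∈ F) : rswCo e ∈ rswLayer F := by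
  rw [rs122_mem_layer]
  refine ⟨h2, e.1, ?_, fun h => h1 h.1⟩
  obtain ⟨v, b⟩ := e
  cases b
  · simp [rswCo]
  · simp [rswCo]

/-- the complement of the set found from the layer is bounded by good edges -/
theorem rs122_cut {F : Finset (ℤ × ℤ)} {a : Bool} {ω : RswCfg} {A : Finset (ℤ × ℤ)} (hA : rswLayer F ⊆ A) :
    RswCut (F \ rs122Inv F a ω A) a ω := by
  intro e he
  by_contra hg
  have key : ∀ f g : ℤ × ℤ, ((f = e.1 ∧ g = rswCo e) ∨ (g = e.1 ∧ f = rswCo e)) →
      f ∈ F \ rs122Inv F a ω A → g ∉ F \ rs122Inv F a ω A → g ∈ F → False := by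
    intro f g hfg hf hgn hgF
    rw [Finset.mem_sdiff] at hf hgn
    have hgI : g ∈ rs122Inv F a ω A := by
      by_contra h
      exact hgn ⟨hgF, h⟩
    refine hf.2 (rs122_closed hgI ⟨hgF, hf.1, e, ?_, hg⟩)
    rcases hfg with h | h
    · exact Or.inr ⟨h.1, h.2⟩
    · exact Or.inl ⟨h.1, h.2⟩
  rcases he with ⟨h1, h2⟩ | ⟨h1, h2⟩
  · by_cases hF : rswCo e ∈ F
    · exact key e.1 (rswCo e) (Or.inl ⟨rfl, rfl⟩) h1 h2 hF
    · have h3 := (Finset.mem_sdiff.1 h1)
      exact h3.2 (rs122_seed (hA (rs122_layer_fst h3.1 hF)) h3.1)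
  · by_cases hF : e.1 ∈ F
    · exact key (rswCo e) e.1 (Or.inr ⟨rfl, rfl⟩) h2 h1 hF
    · have h3 := (Finset.mem_sdiff.1 h2)
      exact h3.2 (rs122_seed (hA (rs122_layer_co hF h3.1)) h3.1)

/-! ### the found set is read off its own side -/

theorem rs122_step_congr {F I : Finset (ℤ × ℤ)} {a : Bool} {ω ω' : RswCfg}
    (h : ∀ e, e ∉ rswInt (F \ I) → (RswGood a ω e ↔ RswGood a ω' e)) {g g' : ℤ × ℤ} (hg : g ∈ I)
    (hs : RswStep F a ω g g') : RswStep F a ω' g g' := by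
  obtain ⟨h1, h2, e, he, hn⟩ := hs
  refine ⟨h1, h2, e, he, fun hgood => hn ((h e ?_).2 hgood)⟩
  rw [rsk_mem_int]
  rintro ⟨a1, a2⟩
  rcases he with ⟨rfl, _⟩ | ⟨_, rfl⟩
  · exact (Finset.mem_sdiff.1 a1).2 hg
  · exact (Finset.mem_sdiff.1 a2).2 hg

theorem rs122_inv_le {F : Finset (ℤ × ℤ)} {a : Bool} {ω ω' : RswCfg} {A : Finset (ℤ × ℤ)}
    (h : ∀ e, e ∉ rswInt (F \ rs122Inv F a ω A) → (RswGood a ω e ↔ RswGood a ω' e)) :
    rs122Inv F a ω A ⊆ rs122Inv F a ω' A := by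
  intro g hg
  obtain ⟨hgF, f, hf, hr⟩ := rs122_mem.1 hg
  refine rs122_mem.2 ⟨hgF, f, hf, ?_⟩
  clear hg hgF
  induction hr with
  | refl => exact ReflTransGen.refl
  | tail hr hs ih =>
    rename_i x y
    have hx : x ∈ rs122Inv F a ω A := rs122_mem.2 ⟨hs.1, f, hf, hr⟩
    exact ih.tail (rs122_step_congr h hx hs)

theorem rs122_inv_ge {F : Finset (ℤ × ℤ)} {a : Bool} {ω ω' : RswCfg} {A : Finset (ℤ × ℤ)}
    (h : ∀ e, e ∉ rswInt (F \ rs122Inv F a ω A) → (RswGood a ω e ↔ RswGood a ω' e)) :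
    rs122Inv F a ω' A ⊆ rs122Inv F a ω A := by
  intro g hg
  obtain ⟨hgF, f, hf, hr⟩ := rs122_mem.1 hg
  clear hg
  induction hr with
  | refl => exact rs122_seed hf hgF
  | tail hr hs ih =>
    have hx := ih hs.1
    exact rs122_closed hx (rs122_step_congr (fun e he => (h e he).symm) hx hs)

/-- the found set is read off the good edges which are not interior edges of its complement -/
theorem rs122_inv_congr {F : Finset (ℤ × ℤ)} {a : Bool} {ω ω' : RswCfg} {A : Finset (ℤ × ℤ)}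
    (h : ∀ e, e ∉ rswInt (F \ rs122Inv F a ω A) → (RswGood a ω e ↔ RswGood a ω' e)) :
    rs122Inv F a ω' A = rs122Inv F a ω A :=
  Finset.Subset.antisymm (rs122_inv_ge h) (rs122_inv_le h)

/-- indicator of `{Inv = I}` -/
noncomputable def rs122Ind (F : Finset (ℤ × ℤ)) (a : Bool) (A I : Finset (ℤ × ℤ)) (ω : RswCfg) : ℝ :=
  open Classical in if rs122Inv F a ω A = I then 1 else 0

theorem rs122_ind_outside (F : Finset (ℤ × ℤ)) (a : Bool) (A I : Finset (ℤ × ℤ)) : RskOutside (F \ I) (rs122Ind F a A I) := by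
  classical
  refine rsk_outside_of_good (a := a) fun ω ω' h => ?_
  unfold rs122Ind
  by_cases h1 : rs122Inv F a ω A = I
  · have h2 : rs122Inv F a ω' A = I := by
      rw [rs122_inv_congr (ω := ω) (ω' := ω') (by rw [h1]; exact h), h1]
    rw [if_pos h1, if_pos h2]
  · have h2 : rs122Inv F a ω' A ≠ I := by
      intro h2
      apply h1
      rw [rs122_inv_congr (ω := ω') (ω' := ω) (by rw [h2]; exact fun e he => (h e he).symm), h2]
    rw [if_neg h1, if_neg h2]

theorem rs122_ind_cut {F : Finset (ℤ × ℤ)} {a : Bool} {A : Finset (ℤ × ℤ)} (hA : rswLayer F ⊆ A) (I : Finset (ℤ × ℤ)) (ω : RswCfg) :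
    rskInd (F \ I) a ω * rs122Ind F a A I ω = rs122Ind F a A I ω := by
  classical
  unfold rs122Ind
  by_cases h1 : rs122Inv F a ω A = I
  · rw [if_pos h1]
    unfold rskInd
    rw [if_pos (by rw [← h1]; exact rs122_cut hA), one_mul]
  · rw [if_neg h1, mul_zero]

theorem rs122_outside_mul {F' : Finset (ℤ × ℤ)} {Y Y' : RswCfg → ℝ} (h : RskOutside F' Y) (h' : RskOutside F' Y') :
    RskOutside F' (fun ω => Y ω * Y' ω) := fun ω => by
  show Y _ * Y' _ = _
  rw [h ω, h' ω]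

/-- **T3, THE SEARCH**: given the set found from the layer, the law of the rest is the flat law of colour `a` -/
theorem rs122_search {t : ℝ} (ht0 : 0 < t) (ht1 : t ≤ 1) (F : Finset (ℤ × ℤ)) (a b : Bool) {A : Finset (ℤ × ℤ)} (hA : rswLayer F ⊆ A)
    (I : Finset (ℤ × ℤ)) {X Y : RswCfg → ℝ} (hX : RskInside (F \ I) X) (hY : RskOutside (F \ I) Y) :
    rswSum t F b (fun ω => rs122Ind F a A I ω * X ω * Y ω) =
      rswE t (F \ I) a X * rswSum t F b (fun ω => rs122Ind F a A I ω * Y ω) := by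
  have h := rsk_cut ht0 ht1 (Finset.sdiff_subset (s := F) (t := I)) a b hX
    (rs122_outside_mul (rs122_ind_outside F a A I) hY)
  have e1 : (fun ω => rskInd (F \ I) a ω * X ω * (rs122Ind F a A I ω * Y ω)) = fun ω => rs122Ind F a A I ω * X ω * Y ω := by
    funext ω
    calc rskInd (F \ I) a ω * X ω * (rs122Ind F a A I ω * Y ω)
        = (rskInd (F \ I) a ω * rs122Ind F a A I ω) * X ω * Y ω := by ring
      _ = _ := by rw [rs122_ind_cut hA I ω]
  have e2 : (fun ω => rskInd (F \ I) a ω * (rs122Ind F a A I ω * Y ω)) = fun ω => rs122Ind F a A I ω * Y ω := by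
    funext ω
    rw [← mul_assoc, rs122_ind_cut hA I ω]
  rw [e1, e2] at h
  exact h

/-! ### total probability -/

theorem rs122_ind_sum (F : Finset (ℤ × ℤ)) (a : Bool) (A : Finset (ℤ × ℤ)) (ω : RswCfg) :
    ∑ I ∈ F.powerset, rs122Ind F a A I ω = 1 := by
  classical
  unfold rs122Ind
  rw [Finset.sum_ite_eq]
  rw [if_pos (Finset.mem_powerset.2 (rs122_sub F a ω A))]

/-- total probability over the found set -/
theorem rs122_total (t : ℝ) (F : Finset (ℤ × ℤ)) (a b : Bool) (A : Finset (ℤ × ℤ)) (Z : RswCfg → ℝ) :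
    rswSum t F b Z = ∑ I ∈ F.powerset, rswSum t F b (fun ω => rs122Ind F a A I ω * Z ω) := by
  rw [← rsb_sum_finset_sum]
  congr 1
  funext ω
  rw [← Finset.sum_mul, rs122_ind_sum, one_mul]

theorem rs122_ind_nonneg (F : Finset (ℤ × ℤ)) (a : Bool) (A I : Finset (ℤ × ℤ)) (ω : RswCfg) : 0 ≤ rs122Ind F a A I ω := by
  unfold rs122Ind
  split_ifs <;> norm_num

open Classical in
/-- the indicator of the separation, split over the found set -/
theorem rs122_sep_ind {F : Finset (ℤ × ℤ)} (a : Bool) (A : Finset (ℤ × ℤ)) {B : Finset (ℤ × ℤ)} (hB : B ⊆ F) (ω : RswCfg) :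
    (if RswSep F a ω A B then (1 : ℝ) else 0) = ∑ I ∈ F.powerset.filter (fun I => Disjoint I B), rs122Ind F a A I ω := by
  unfold rs122Ind
  rw [Finset.sum_ite_eq]
  by_cases h : RswSep F a ω A B
  · rw [if_pos h, if_pos]
    exact Finset.mem_filter.2 ⟨Finset.mem_powerset.2 (rs122_sub F a ω A), (rs122_sep_iff hB).1 h⟩
  · rw [if_neg h, if_neg]
    exact fun h' => h ((rs122_sep_iff hB).2 (Finset.mem_filter.1 h').2)

open Classical in
/-- **STOPPED CUT**: if `m ≤ E_{F'}^a X` for every `F'` between `B` and `F` (and `X` reads only inside each of them), then `m * P(Sep) ≤ E[1{Sep} X]` -/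
theorem rs122_stopped {t : ℝ} (ht0 : 0 < t) (ht1 : t ≤ 1) (F : Finset (ℤ × ℤ)) (a b : Bool) {A B : Finset (ℤ × ℤ)} (hA : rswLayer F ⊆ A)
    (hB : B ⊆ F) {X : RswCfg → ℝ} {m : ℝ}
    (hX : ∀ F' : Finset (ℤ × ℤ), B ⊆ F' → F' ⊆ F → RskInside F' X ∧ m ≤ rswE t F' a X) :
    m * rswP t F b (fun ω => RswSep F a ω A B) ≤ rswE t F b (fun ω => (if RswSep F a ω A B then (1 : ℝ) else 0) * X ω) := by
  have hZ := rsb_Z_pos ht0 ht1 F b
  have hone : ∀ F' : Finset (ℤ × ℤ), RskOutside F' (fun _ => (1 : ℝ)) := fun _ _ => rfl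
  have key : ∀ I ∈ F.powerset.filter (fun I => Disjoint I B),
      m * rswSum t F b (fun ω => rs122Ind F a A I ω) ≤ rswSum t F b (fun ω => rs122Ind F a A I ω * X ω) := by
    intro I hI
    obtain ⟨hI1, hI2⟩ := Finset.mem_filter.1 hI
    have hBF : B ⊆ F \ I := fun f hf => Finset.mem_sdiff.2 ⟨hB hf, fun h => Finset.disjoint_left.1 hI2 h hf⟩
    obtain ⟨h1, h2⟩ := hX (F \ I) hBF Finset.sdiff_subset
    have h3 := rs122_search ht0 ht1 F a b hA I h1 (hone _)
    simp only [mul_one] at h3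
    rw [h3]
    exact mul_le_mul_of_nonneg_right h2 (rsb_sum_nonneg ht0.le ht1 fun ω _ _ => rs122_ind_nonneg F a A I ω)
  have e1 : rswSum t F b (fun ω => if RswSep F a ω A B then (1 : ℝ) else 0) =
      ∑ I ∈ F.powerset.filter (fun I => Disjoint I B), rswSum t F b (fun ω => rs122Ind F a A I ω) := by
    rw [← rsb_sum_finset_sum]
    congr 1
    funext ω
    exact rs122_sep_ind a A hB ω
  have e2 : rswSum t F b (fun ω => (if RswSep F a ω A B then (1 : ℝ) else 0) * X ω) =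
      ∑ I ∈ F.powerset.filter (fun I => Disjoint I B), rswSum t F b (fun ω => rs122Ind F a A I ω * X ω) := by
    rw [← rsb_sum_finset_sum]
    congr 1
    funext ω
    rw [rs122_sep_ind a A hB ω, Finset.sum_mul]
  have e3 : rswP t F b (fun ω => RswSep F a ω A B) = rswSum t F b (fun ω => if RswSep F a ω A B then (1 : ℝ) else 0) / rswSum t F b (fun _ => 1) := by
    unfold rswP rswE
    congr 2
  rw [e3]
  unfold rswE
  rw [e1, e2, mul_div_assoc', Finset.mul_sum]
  exact div_le_div_of_nonneg_right (Finset.sum_le_sum key) hZ.le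

/-- the equation lemmas of the definitions of this file are generated HERE (RULES.md, rule 6) -/
theorem rs122_defs_eqns_cite : True := by
  have := @rs122Inv.eq_1
  have := @rs122Ind.eq_1
  trivial

end Claimed.Agent.R292
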