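import Claimed.Agent.R292.Rsw.RenDefs12
import Claimed.Agent.R292.Rsw.Search122
import Claimed.Agent.R292.Rsw.Expl107
import Claimed.Agent.R292.Model.Basic
import Claimed.Agent.R292.Rsw.CmpPin291
import Claimed.Agent.R292.Rsw.BoxJordan219
import Claimed.Agent.R292.Rsw.RenTop109

/-!
# Row 292 (S0540), Rsw/RenSep189 : A5 RENORMALISATION ON `ℤ²`, BLOCK B3 = (SEP2) FOR TWO ALIGNED BOXES      (owner helper189; prefix `rrs189_`, defs `rrs*` / `Rrs*`)

Port of R291 `Ann/RenSep.lean` (264) to the vocabulary of `Defs/RSW` + `Rsw/CoreTop121` + `Rsw/RenDefs12`.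
EXIT `rrs189_sep2 : (tools) → RnzCor t → RnzSep2 t`   (`κ = 25`, the distance `g` is free).
TOOLS, typed here as `Prop`s (producers in brackets):
* `RrsFkg t`    FKG for two separation events of the same colour under a legal history      **PROVED in §8: `rrs189_fkg_of` + `rrs189_S0`** (general forms `rrs189_fkg_gen`, `rrs189_fkg_PK`)
* `RrsBox t`    (BOX) = pushes from the four sides, R291 `rnp_box`      [109, from `RnzHP t`]
* `RrsFinal t`  UPPER BOUND, R291 `rn_finalB`: condition on the full history of `Z`, then search from `N ⊇` layer      **PROVED in §6: `rrs189_final`** (`rrs189_cond` = R291 `rn_condB`)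
* `RrsSplit t`  product law of two domains without a common corner, R291 `rn_split`      **PROVED in §7: `rrs189_split`** (`rrs189_comp` = law of an isolated part)
* `RrsDomM t`   `P^-_F(A) ≤ P^-_F'(A)`, `F ⊆ F'`, `A` increasing, R291 `rn_dom_minus`      **PROVED in §8: `rrs189_domM_of` + `rrs189_S0`** (general form, both colours: `rrs189_dom_gen`)
FINAL EXIT `rrs189_sep2_v3 (1/2 ≤ t) (t < 1) : RrsBox t → RnzCor t → RnzSep2 t`.
§10 COLOUR FLIP of histories (`rrsFlipK`): `rrs189_flip_PK`, `rrs189_flip_feas`, **`rrs189_cord_flip`**, **`rrs189_hpd_flip`**, `rrs189_cor_of_plus`, `rrs189_hp_of_plus` (B5 and B6 need the plus colour only).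
§11 LATTICE SYMMETRIES of histories (`rrsMapK g K`, `g : RsySym` of Sym211): `rrs189_map_PK`, `rrs189_map_feas`, `rrs189_mapK_legal`, `rrs189_hpd_map`, `rrs189_cord_map`, **`rrs189_hp_of_one : RnzHPd t true (·.2) (·.1) → RnzHP t`**, **`rrs189_cor_of_one : RnzCord t true (·.1) (·.2) → RnzCor t`**.
§12 B5, THE PLANAR HALF: `rrs189_sea_cmp` (comparison of `P^+_F(K)` with ANY sea history of an ambient box, from `Rrt109Ord`), `rrsSea`, `rrs189_sea_le`, contract **`RnzHSS t`** (ONE explicit rectangle: plus on three sides, minus on the fourth; numerology of `Rct127CylM`), `rrs189_HQ_sep`, **`rrs189_hpd_plus`**, **`rrs189_hp_of_hss : RnzHSS t → Rrt109Ord t → RnzHP t`**, **`rrs189_rec_top : RnzHSS t → RnzLSS t → Rrt109Ord t → RcRec t`**.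
GEOMETRY (faces).   Boxes `b∓ = Box((∓g, 0), r)`, `Z = b₋ ∪ b₊` (`rrsZ`), tube `= [-g - 2r, g + 2r] x [-2r, 2r]` (`rrsTube`), goal region `G =` tube minus the column `{f.1 = 0}` (`rrsG`).
* (i)   `rrs189_base_val` : every domain `Z ⊆ F ⊆` tube, every history in `Z`: two corridors (`RnzCor`, height `4 r`, windows `[-g + r, -g + 25 r]`, `[g - 25 r, g - r]`) + FKG:  `P^-_F(K)[Sep^-(F \ G, Z)] ≥ δ²`
* (ii)  `rrs189_val`      : (BOX): the same for every `Z ⊆ F ⊆ Box(0, C₀ r)` with a constant `c(C₀)`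
* (iii) `rrs189_half`, `rrs189_sep2` : `RrsFinal` with `N = F \ G`; every `J`: `F \ J = I₁ ∪ I₂` (`f.1 < 0`, `f.1 > 0`, no common corner), `RrsSplit`, `RrsDomM`
-/

set_option autoImplicit false
set_option linter.unusedSectionVars false
set_option linter.unusedVariables false
set_option linter.unusedSimpArgs false

namespace Claimed.Agent.R292

open Claims Claims.C0468 Relation

/-! ## 0. the tools -/

/-- the closed rectangle of faces `[a, b] x [c, d]`      (R291 `amBox`) -/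
noncomputable def rrsRect (a b c d : ℤ) : Finset (ℤ × ℤ) := Finset.Icc a b ×ˢ Finset.Icc c d

/-- FKG for two separation events of the same colour under a legal history      (R291 `rns_pl_fkg`) -/
def RrsFkg (t : ℝ) : Prop :=
  ∀ (s a : Bool) (F b : Finset (ℤ × ℤ)) (K : RswCon) (O₁ A₁ O₂ A₂ : Finset (ℤ × ℤ)), K.Legal b → b ⊆ F → K.Feas t F s →
    rswPK t F s K (fun ω => RswSep F a ω O₁ A₁) * rswPK t F s K (fun ω => RswSep F a ω O₂ A₂) ≤
      rswPK t F s K (fun ω => RswSep F a ω O₁ A₁ ∧ RswSep F a ω O₂ A₂)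

/-- **(BOX)**: pushes from the four sides      (R291 `rnp_box`) -/
def RrsBox (t : ℝ) : Prop :=
  ∀ C k : ℕ, ∃ c : ℝ, 0 < c ∧ c ≤ 1 ∧ ∃ m0 : ℕ, ∀ (s : Bool) (m M : ℕ) (α1 α2 β1 β2 : ℤ) (K : RswCon) (b G A Dm : Finset (ℤ × ℤ)) (p : ℝ),
    m0 ≤ m → M * 9 ^ k ≤ m * 10 ^ k → α2 - α1 + 2 * M ≤ C * m → β2 - β1 + 2 * M ≤ C * m →
    K.Legal b → b ⊆ rrsRect α1 α2 β1 β2 → A ⊆ b → Dm ⊆ rrsRect (α1 - M) (α2 + M) (β1 - M) (β2 + M) → 0 ≤ p →
    RnzVal t s K b G A (Dm ∩ rrsRect (α1 - m) (α2 + m) (β1 - m) (β2 + m)) p → RnzVal t s K b G A Dm (c * p)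

/-- **UPPER BOUND**      (R291 `rn_finalB`, with `T = Z` and the layer inside the start set) -/
def RrsFinal (t : ℝ) : Prop :=
  ∀ (s : Bool) (Z F N : Finset (ℤ × ℤ)) (A : RswCfg → Prop) (c q : ℝ), N ⊆ F → Z ⊆ F → rswLayer F ⊆ N → RnzLoc Z A → 0 ≤ q →
    (∀ K : RswCon, K.Legal Z → K.Feas t F s → c ≤ rswPK t F s K (fun ω => RswSep F s ω N Z)) →
    (∀ J : Finset (ℤ × ℤ), N ⊆ J → J ⊆ F → Disjoint J Z → rswP t (F \ J) s A ≤ q) →
    c * rswP t F s A ≤ q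

/-- **PRODUCT LAW**: two domains without a common corner      (R291 `rn_split`) -/
def RrsSplit (t : ℝ) : Prop :=
  ∀ (s : Bool) (F₁ F₂ : Finset (ℤ × ℤ)) (A₁ A₂ : RswCfg → Prop), Disjoint (cornersOf F₁) (cornersOf F₂) → RnzLoc F₁ A₁ → RnzLoc F₂ A₂ →
    rswP t (F₁ ∪ F₂) s (fun ω => A₁ ω ∧ A₂ ω) = rswP t F₁ s A₁ * rswP t F₂ s A₂

/-- `P^-_F(A) ≤ P^-_F'(A)` for `F ⊆ F'`, `A` increasing, local in `F`      (R291 `rn_dom_minus`) -/
def RrsDomM (t : ℝ) : Prop :=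
  ∀ (F F' : Finset (ℤ × ℤ)) (A : RswCfg → Prop), F ⊆ F' → RswInc A → RnzLoc F A → rswP t F false A ≤ rswP t F' false A

/-! ## 1. small tools -/

theorem rrs189_mem_rect {a b c d : ℤ} {p : ℤ × ℤ} : p ∈ rrsRect a b c d ↔ (a ≤ p.1 ∧ p.1 ≤ b) ∧ c ≤ p.2 ∧ p.2 ≤ d := by
  simp only [rrsRect, Finset.mem_product, Finset.mem_Icc]

theorem rrs189_mem_box {u p : ℤ × ℤ} {r : ℕ} : p ∈ rswBox u r ↔ (u.1 - r ≤ p.1 ∧ p.1 < u.1 + r) ∧ u.2 - r ≤ p.2 ∧ p.2 < u.2 + r := by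
  simp only [rswBox, Finset.mem_product, Finset.mem_Ico]

theorem rrs189_mem_corners {F : Finset (ℤ × ℤ)} {v : ℤ × ℤ} :
    v ∈ cornersOf F ↔ v ∈ F ∨ (v.1 - 1, v.2) ∈ F ∨ (v.1, v.2 - 1) ∈ F ∨ (v.1 - 1, v.2 - 1) ∈ F := by
  unfold cornersOf
  simp only [Finset.mem_biUnion, Finset.mem_insert, Finset.mem_singleton]
  constructor
  · rintro ⟨f, hf, rfl | rfl | rfl | rfl⟩
    · exact Or.inl hf
    · exact Or.inr (Or.inl (by simpa using hf))
    · exact Or.inr (Or.inr (Or.inl (by simpa using hf)))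
    · exact Or.inr (Or.inr (Or.inr (by simpa using hf)))
  · rintro (h | h | h | h)
    · exact ⟨_, h, Or.inl rfl⟩
    · exact ⟨_, h, Or.inr (Or.inl (by simp))⟩
    · exact ⟨_, h, Or.inr (Or.inr (Or.inl (by simp)))⟩
    · exact ⟨_, h, Or.inr (Or.inr (Or.inr (by simp)))⟩

/-- monotonicity of the conditioned probability in the event -/
theorem rrs189_PK_mono {t : ℝ} (h0 : 0 < t) (h1 : t ≤ 1) (F : Finset (ℤ × ℤ)) (s : Bool) (K : RswCon) {L L' : RswCfg → Prop}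
    (h : ∀ ω, L ω → L' ω) : rswPK t F s K L ≤ rswPK t F s K L' := by
  classical
  unfold rswPK
  refine div_le_div_of_nonneg_right (rsb_sum_mono h0.le h1 fun ω _ _ => ?_) (rsb_sum_nonneg h0.le h1 fun ω _ _ => ?_)
  · by_cases hL : K.Holds ω ∧ L ω
    · rw [if_pos hL, if_pos ⟨hL.1, h ω hL.2⟩]
    · rw [if_neg hL]; split_ifs <;> norm_num
  · split_ifs <;> norm_num

theorem rrs189_PK_nonneg {t : ℝ} (h0 : 0 < t) (h1 : t ≤ 1) (F : Finset (ℤ × ℤ)) (s : Bool) (K : RswCon) (L : RswCfg → Prop) :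
    0 ≤ rswPK t F s K L := by
  classical
  unfold rswPK
  refine div_nonneg (rsb_sum_nonneg h0.le h1 fun ω _ _ => ?_) (rsb_sum_nonneg h0.le h1 fun ω _ _ => ?_) <;> split_ifs <;> norm_num

theorem rrs189_loc_mono {b b' : Finset (ℤ × ℤ)} (h : b ⊆ b') {X : RswCfg → Prop} (hX : RnzLoc b X) : RnzLoc b' X := by
  intro ω ω' hS hO
  refine hX ω ω' ?_ ?_
  · have := congrArg (fun T => T ∩ cornersOf b) hS
    simpa only [Finset.inter_assoc, Finset.inter_eq_right.2 (rnz_corners_mono h)] using this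
  · have := congrArg (fun T => T ∩ rswInt b) hO
    simpa only [Finset.inter_assoc, Finset.inter_eq_right.2 (rnz_int_mono h)] using this

theorem rrs189_loc_and {b : Finset (ℤ × ℤ)} {X Y : RswCfg → Prop} (hX : RnzLoc b X) (hY : RnzLoc b Y) : RnzLoc b (fun ω => X ω ∧ Y ω) := by
  intro ω ω' hS hO
  exact and_congr (hX ω ω' hS hO) (hY ω ω' hS hO)

/-! ## 2. the base: two corridors in the tube -/

/-- the two boxes -/
noncomputable def rrsZ (g r : ℕ) : Finset (ℤ × ℤ) := rswBox (-(g : ℤ), 0) r ∪ rswBox ((g : ℤ), 0) r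

/-- the tube -/
noncomputable def rrsTube (g r : ℕ) : Finset (ℤ × ℤ) := rrsRect (-(g : ℤ) - r - r) ((g : ℤ) + r + r) (-(r : ℤ) - r) ((r : ℤ) + r)

/-- the goal region: the tube minus the middle column -/
noncomputable def rrsG (g r : ℕ) : Finset (ℤ × ℤ) := (rrsTube g r).filter (fun p => p.1 ≠ 0)

theorem rrs189_mem_Z {g r : ℕ} {p : ℤ × ℤ} : p ∈ rrsZ g r ↔
    ((-(g : ℤ) - r ≤ p.1 ∧ p.1 < -(g : ℤ) + r) ∨ ((g : ℤ) - r ≤ p.1 ∧ p.1 < (g : ℤ) + r)) ∧ -(r : ℤ) ≤ p.2 ∧ p.2 < r := by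
  unfold rrsZ
  rw [Finset.mem_union, rrs189_mem_box, rrs189_mem_box]
  simp only [zero_sub, zero_add]
  tauto

/-- **(i) BASE**: in every domain inside the tube the two corridors separate the middle column from the two boxes -/
theorem rrs189_base_val {t : ℝ} (h0 : 0 < t) (h1 : t ≤ 1) (hF : RrsFkg t) (hC : RnzCor t) : ∃ δ : ℝ, 0 < δ ∧ ∃ r₀ : ℕ, ∀ (r g : ℕ) (K : RswCon) (F : Finset (ℤ × ℤ)),
    r₀ ≤ r → 25 * r ≤ g → K.Legal (rrsZ g r) → rrsZ g r ⊆ F → F ⊆ rrsTube g r → K.Feas t F false →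
    δ * δ ≤ rswPK t F false K (fun ω => RswSep F false ω (F \ rrsG g r) (rrsZ g r)) := by
  obtain ⟨δ, d0, r₀, h⟩ := (hC false).1
  beta_reduce at h
  refine ⟨δ, d0, r₀, fun r g K F hr hg hK hZ hD hf => ?_⟩
  have hg' : 25 * (r : ℤ) ≤ g := by exact_mod_cast hg
  have hrow : ∀ u ∈ F, -(r : ℤ) - r ≤ u.2 ∧ u.2 ≤ -(r : ℤ) - r + ((4 * r : ℕ) : ℤ) := by
    intro u hu
    have := rrs189_mem_rect.1 (hD hu)
    push_cast
    omega
  have c1 := h (4 * r) (-(g : ℤ) + r) (-(r : ℤ) - r) F K (by omega) hrow (rnz_legal_mono (fun p hp => by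
    have := rrs189_mem_Z.1 hp
    refine Finset.mem_filter.2 ⟨hZ hp, ?_⟩
    push_cast
    omega) hK) hf
  have c2 := h (4 * r) ((g : ℤ) - 25 * r) (-(r : ℤ) - r) F K (by omega) hrow (rnz_legal_mono (fun p hp => by
    have := rrs189_mem_Z.1 hp
    refine Finset.mem_filter.2 ⟨hZ hp, ?_⟩
    push_cast
    omega) hK) hf
  have c3 := hF false false F _ K (F.filter (fun f => f.1 ≤ -(g : ℤ) + r)) (F.filter (fun f => -(g : ℤ) + r + 6 * ((4 * r : ℕ) : ℤ) ≤ f.1))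
    (F.filter (fun f => f.1 ≤ (g : ℤ) - 25 * r)) (F.filter (fun f => (g : ℤ) - 25 * r + 6 * ((4 * r : ℕ) : ℤ) ≤ f.1)) hK hZ hf
  refine (mul_le_mul c1 c2 d0.le (d0.le.trans c1)).trans (c3.trans (rrs189_PK_mono h0 h1 F false K ?_))
  rintro ω ⟨e1, e2⟩ u hu v hv
  obtain ⟨huD, huG⟩ := Finset.mem_sdiff.1 hu
  have hu0 : u.1 = 0 := by
    by_contra hne
    exact huG (Finset.mem_filter.2 ⟨hD huD, hne⟩)
  have hv' := rrs189_mem_Z.1 hv
  rcases hv'.1 with hl | hl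
  · refine rnz_sep_symm false ω _ _ e1 u (Finset.mem_filter.2 ⟨huD, ?_⟩) v (Finset.mem_filter.2 ⟨hZ hv, ?_⟩)
    · push_cast
      omega
    · omega
  · refine e2 u (Finset.mem_filter.2 ⟨huD, ?_⟩) v (Finset.mem_filter.2 ⟨hZ hv, ?_⟩)
    · omega
    · push_cast
      omega

/-! ## 3. the pushes -/

theorem rrs189_pow (C : ℕ) : ∃ k : ℕ, C * 9 ^ k ≤ 10 ^ k := by
  have hb : ∀ k : ℕ, (9 + k) * 9 ^ k ≤ 9 * 10 ^ k := by
    intro k
    induction k with
    | zero => norm_num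
    | succ n ih =>
      have e1 : (9 + (n + 1)) * 9 ^ (n + 1) ≤ 10 * ((9 + n) * 9 ^ n) := by
        rw [pow_succ]
        nlinarith [Nat.zero_le (9 ^ n), Nat.zero_le (n * 9 ^ n)]
      calc (9 + (n + 1)) * 9 ^ (n + 1) ≤ 10 * ((9 + n) * 9 ^ n) := e1
        _ ≤ 10 * (9 * 10 ^ n) := Nat.mul_le_mul_left _ ih
        _ = 9 * 10 ^ (n + 1) := by rw [pow_succ]; ring
  refine ⟨9 * C, ?_⟩
  have h := hb (9 * C)
  have : 9 * (C * 9 ^ (9 * C)) ≤ 9 * 10 ^ (9 * C) := by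
    calc 9 * (C * 9 ^ (9 * C)) = (9 * C) * 9 ^ (9 * C) := by ring
      _ ≤ (9 + 9 * C) * 9 ^ (9 * C) := Nat.mul_le_mul_right _ (by omega)
      _ ≤ _ := h
  omega

/-- **(ii) PUSH**: the value of the box of side `C₀ r` -/
theorem rrs189_val {t : ℝ} (h0 : 0 < t) (h1 : t ≤ 1) (hF : RrsFkg t) (hB : RrsBox t) (hC : RnzCor t) (C₀ : ℕ) : ∃ c : ℝ, 0 < c ∧ ∃ r₀ : ℕ, ∀ (r g : ℕ) (K : RswCon),
    r₀ ≤ r → 25 * r ≤ g → g ≤ C₀ * r → K.Legal (rrsZ g r) → RnzVal t false K (rrsZ g r) (rrsG g r) (rrsZ g r) (rswBox 0 (C₀ * r)) c := by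
  obtain ⟨k, hk⟩ := rrs189_pow C₀
  obtain ⟨δ, d0, r₁, hb⟩ := rrs189_base_val h0 h1 hF hC
  obtain ⟨c, c0, _, m0, hp⟩ := hB (4 * C₀ + 2) k
  refine ⟨c * (δ * δ), by positivity, max r₁ m0, fun r g K hr hg hgC hK => ?_⟩
  have hgC' : (g : ℤ) ≤ C₀ * r := by exact_mod_cast hgC
  refine hp false r (C₀ * r) (-(g : ℤ) - r) ((g : ℤ) + r) (-(r : ℤ)) r K (rrsZ g r) (rrsG g r) (rrsZ g r) (rswBox 0 (C₀ * r)) (δ * δ)
    ((le_max_right _ _).trans hr) ?_ ?_ ?_ hK ?_ (Finset.Subset.refl _) ?_ (by positivity) ?_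
  · calc C₀ * r * 9 ^ k = (C₀ * 9 ^ k) * r := by ring
      _ ≤ 10 ^ k * r := Nat.mul_le_mul_right _ hk
      _ = r * 10 ^ k := by ring
  · push_cast
    nlinarith
  · push_cast
    have : (0 : ℤ) ≤ (C₀ : ℤ) * r := by positivity
    nlinarith
  · intro p hp'
    have := rrs189_mem_Z.1 hp'
    exact rrs189_mem_rect.2 (by omega)
  · intro p hp'
    have := rrs189_mem_box.1 hp'
    simp only [Prod.fst_zero, Prod.snd_zero, zero_sub, zero_add] at this
    refine rrs189_mem_rect.2 ?_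
    push_cast at this ⊢
    have h1 : (0 : ℤ) ≤ g := by positivity
    have h2 : (0 : ℤ) ≤ r := by positivity
    refine ⟨⟨by linarith [this.1.1], by linarith [this.1.2]⟩, by linarith [this.2.1], by linarith [this.2.2]⟩
  · intro F hZD hD hf
    exact hb r g K F ((le_max_left _ _).trans hr) hg hK hZD (fun p hp' => (Finset.mem_inter.1 (hD hp')).2) hf

/-! ## 4. (iii) the last search and the product -/

theorem rrs189_mem_layer {F : Finset (ℤ × ℤ)} {f : ℤ × ℤ} : f ∈ rswLayer F ↔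
    f ∈ F ∧ ∃ v ∈ ({f, (f.1 + 1, f.2), (f.1, f.2 + 1), (f.1 + 1, f.2 + 1)} : Finset (ℤ × ℤ)), OnPolygon F v := by
  unfold rswLayer
  exact @Finset.mem_filter _ _ (fun _ => Classical.propDecidable _) _ _

/-- a face all of whose neighbours (in the sup norm) lie in `F` is not in the layer -/
theorem rrs189_not_layer {F : Finset (ℤ × ℤ)} {f : ℤ × ℤ} (h : ∀ g : ℤ × ℤ, f.1 - 1 ≤ g.1 → g.1 ≤ f.1 + 1 → f.2 - 1 ≤ g.2 → g.2 ≤ f.2 + 1 → g ∈ F) :
    f ∉ rswLayer F := by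
  intro hf
  obtain ⟨_, v, hv, hp⟩ := rrs189_mem_layer.1 hf
  simp only [Finset.mem_insert, Finset.mem_singleton] at hv
  refine hp ⟨h _ ?_ ?_ ?_ ?_, h _ ?_ ?_ ?_ ?_, h _ ?_ ?_ ?_ ?_, h _ ?_ ?_ ?_ ?_⟩ <;>
    rcases hv with rfl | rfl | rfl | rfl <;> simp <;> omega

/-- the law off the invaded set: product of the two halves, each dominated by the law of the big domain -/
theorem rrs189_half {t : ℝ} (h0 : 0 < t) (h1 : t ≤ 1) (hSp : RrsSplit t) (hDm : RrsDomM t) (R Zm Zp Im Ip : Finset (ℤ × ℤ)) (Am Ap : RswCfg → Prop)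
    (hR0 : ∀ p ∈ R, p.1 ≠ 0) (hRm : ∀ p ∈ R, p.1 < 0 → p ∈ Im) (hRp : ∀ p ∈ R, 0 < p.1 → p ∈ Ip)
    (hZm : Zm ⊆ R) (hZp : Zp ⊆ R) (hm : ∀ p ∈ Zm, p.1 < 0) (hp : ∀ p ∈ Zp, 0 < p.1)
    (um : RswInc Am) (up : RswInc Ap) (tm : RnzLoc Zm Am) (tp : RnzLoc Zp Ap) :
    rswP t R false (fun ω => Am ω ∧ Ap ω) ≤ rswP t Im false Am * rswP t Ip false Ap := by
  classical
  have hR : R = R.filter (fun p => p.1 < 0) ∪ R.filter (fun p => 0 < p.1) := by
    ext p
    simp only [Finset.mem_union, Finset.mem_filter]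
    constructor
    · intro h
      rcases lt_or_gt_of_ne (hR0 p h) with h1 | h1
      · exact Or.inl ⟨h, h1⟩
      · exact Or.inr ⟨h, h1⟩
    · rintro (h | h) <;> exact h.1
  have hd : Disjoint (cornersOf (R.filter (fun p => p.1 < 0))) (cornersOf (R.filter (fun p => 0 < p.1))) :=
    Finset.disjoint_left.2 fun v a b => by
      have a' : v.1 ≤ 0 := by
        rcases rrs189_mem_corners.1 a with h | h | h | h <;> have := (Finset.mem_filter.1 h).2 <;> omega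
      have b' : 0 < v.1 := by
        rcases rrs189_mem_corners.1 b with h | h | h | h <;> have := (Finset.mem_filter.1 h).2 <;> omega
      omega
  have l₁ : RnzLoc (R.filter (fun p => p.1 < 0)) Am := rrs189_loc_mono (fun p h => Finset.mem_filter.2 ⟨hZm h, hm p h⟩) tm
  have l₂ : RnzLoc (R.filter (fun p => 0 < p.1)) Ap := rrs189_loc_mono (fun p h => Finset.mem_filter.2 ⟨hZp h, hp p h⟩) tp
  have e := hSp false _ _ Am Ap hd l₁ l₂
  rw [← hR] at e
  rw [e]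
  have d₁ := hDm (R.filter (fun p => p.1 < 0)) Im Am (fun p h => hRm p (Finset.mem_filter.1 h).1 (Finset.mem_filter.1 h).2) um l₁
  have d₂ := hDm (R.filter (fun p => 0 < p.1)) Ip Ap (fun p h => hRp p (Finset.mem_filter.1 h).1 (Finset.mem_filter.1 h).2) up l₂
  exact mul_le_mul d₁ d₂ (rsb_P_nonneg h0 h1 _ _ _) ((rsb_P_nonneg h0 h1 _ _ _).trans d₁)

/-! ## 5. the exit of B3 -/

/-- **(SEP2)** = exit of B3 -/
theorem rrs189_sep2 {t : ℝ} (h0 : 0 < t) (h1 : t ≤ 1) (hF : RrsFkg t) (hB : RrsBox t) (hFin : RrsFinal t) (hSp : RrsSplit t) (hDm : RrsDomM t)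
    (hC : RnzCor t) : RnzSep2 t := by
  refine ⟨25, by norm_num, fun C₀ => ?_⟩
  obtain ⟨c, c0, r₀, hv⟩ := rrs189_val h0 h1 hF hB hC C₀
  refine ⟨c, c0, max r₀ 1, fun r g F X₁ X₂ hr hg hD1 hD2 m₁ l₁ m₂ l₂ => ?_⟩
  have hr1 : (1 : ℤ) ≤ r := by exact_mod_cast (le_max_right _ _).trans hr
  have hg' : 25 * (r : ℤ) ≤ g := by exact_mod_cast hg
  have hgC : g ≤ C₀ * r := by
    have a1 : ((4 * (g : ℤ) - 1, 0) : ℤ × ℤ) ∈ rswBox 0 (4 * g) := rrs189_mem_box.2 (by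
      simp only [Prod.fst_zero, Prod.snd_zero, zero_sub, zero_add]
      push_cast
      omega)
    have a2 := rrs189_mem_box.1 (hD2 (hD1 a1))
    simp only [Prod.fst_zero, Prod.snd_zero, zero_sub, zero_add] at a2
    have a3 : (g : ℤ) ≤ ((C₀ * r : ℕ) : ℤ) := by linarith [a2.1.2]
    exact_mod_cast a3
  have hbig : ∀ p : ℤ × ℤ, -(4 * (g : ℤ)) ≤ p.1 → p.1 < 4 * g → -(4 * (g : ℤ)) ≤ p.2 → p.2 < 4 * g → p ∈ F := fun p a1 a2 a3 a4 =>
    hD1 (rrs189_mem_box.2 (by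
      simp only [Prod.fst_zero, Prod.snd_zero, zero_sub, zero_add]
      push_cast
      omega))
  have hZD : rrsZ g r ⊆ F := fun p hp => by
    have := rrs189_mem_Z.1 hp
    exact hbig p (by omega) (by omega) (by omega) (by omega)
  have hG : ∀ p ∈ F, p ∉ F \ rrsG g r → p ∈ rrsTube g r ∧ p.1 ≠ 0 := by
    intro p hpD hp
    have : p ∈ rrsG g r := by
      by_contra hn
      exact hp (Finset.mem_sdiff.2 ⟨hpD, hn⟩)
    exact Finset.mem_filter.1 this
  have hlay : rswLayer F ⊆ F \ rrsG g r := by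
    intro f hf
    by_contra hn
    have hfF : f ∈ F := (rrs189_mem_layer.1 hf).1
    have := rrs189_mem_rect.1 (hG f hfF hn).1
    exact rrs189_not_layer (fun q a1 a2 a3 a4 => hbig q (by omega) (by omega) (by omega) (by omega)) hf
  refine hFin false (rrsZ g r) F (F \ rrsG g r) (fun ω => X₁ ω ∧ X₂ ω) c _ Finset.sdiff_subset hZD hlay
    (rrs189_loc_and (rrs189_loc_mono Finset.subset_union_left l₁) (rrs189_loc_mono Finset.subset_union_right l₂))
    (mul_nonneg (rsb_P_nonneg h0 h1 _ _ _) (rsb_P_nonneg h0 h1 _ _ _))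
    (fun K hK hf => hv r g K ((le_max_left _ _).trans hr) hg hgC hK F hZD hD2 hf) ?_
  intro J hNJ hJD hJT
  have hnX : ∀ p ∈ F \ J, p ∈ F ∧ p ∉ F \ rrsG g r := by
    intro p hp'
    obtain ⟨a1, a2⟩ := Finset.mem_sdiff.1 hp'
    exact ⟨a1, fun a3 => a2 (hNJ a3)⟩
  have hZs : ∀ p ∈ rrsZ g r, p ∈ F \ J := by
    intro p hp'
    exact Finset.mem_sdiff.2 ⟨hZD hp', fun a3 => Finset.disjoint_left.1 hJT a3 hp'⟩
  refine rrs189_half h0 h1 hSp hDm (F \ J) (rswBox (-(g : ℤ), 0) r) (rswBox ((g : ℤ), 0) r) _ _ X₁ X₂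
    (fun p a1 => (hG p (hnX p a1).1 (hnX p a1).2).2) ?_ ?_
    (fun p a1 => hZs p (Finset.mem_union_left _ a1)) (fun p a1 => hZs p (Finset.mem_union_right _ a1)) ?_ ?_ m₁ m₂ l₁ l₂
  · intro p a1 a2
    have := rrs189_mem_rect.1 (hG p (hnX p a1).1 (hnX p a1).2).1
    refine rrs189_mem_box.2 ?_
    simp only [zero_sub, zero_add]
    push_cast
    omega
  · intro p a1 a2
    have := rrs189_mem_rect.1 (hG p (hnX p a1).1 (hnX p a1).2).1
    refine rrs189_mem_box.2 ?_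
    simp only [zero_sub, zero_add]
    push_cast
    omega
  · intro p hp
    have := rrs189_mem_box.1 hp
    simp only at this
    omega
  · intro p hp
    have := rrs189_mem_box.1 hp
    simp only at this
    omega

/-! ## 6. PROOF OF THE TOOL `RrsFinal` (conditioning on the full history of `Z`, then the search `rs122_search`) -/

/-- the full history of `Z` with plus spins `S₀` and open edges `O₀` -/
def rrsHist (Z S₀ : Finset (ℤ × ℤ)) (O₀ : Finset ((ℤ × ℤ) × Bool)) : RswCon :=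
  ⟨S₀, cornersOf Z \ S₀, O₀.filter (fun e => e.1 ∈ S₀ ∧ rswEnd e ∈ S₀), O₀.filter (fun e => e.1 ∉ S₀ ∧ rswEnd e ∉ S₀), rswInt Z \ O₀⟩

theorem rrs189_hist_legal {Z S₀ : Finset (ℤ × ℤ)} {O₀ : Finset ((ℤ × ℤ) × Bool)} (hS : S₀ ⊆ cornersOf Z) (hO : O₀ ⊆ rswInt Z) :
    (rrsHist Z S₀ O₀).Legal Z := by
  have hed : (rrsHist Z S₀ O₀).Gp ∪ (rrsHist Z S₀ O₀).Gm ∪ (rrsHist Z S₀ O₀).Cl ⊆ rswInt Z := by
    intro e he
    simp only [rrsHist, Finset.mem_union, Finset.mem_filter, Finset.mem_sdiff] at he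
    rcases he with (h | h) | h
    · exact hO h.1
    · exact hO h.1
    · exact h.1
  refine ⟨hS, Finset.sdiff_subset, hed, fun e he => ?_⟩
  have h1 := rsb_int_fst_corner (hed he)
  have h2 := rsb_int_end_corner (hed he)
  simp only [rrsHist, Finset.mem_union, Finset.mem_sdiff]
  constructor
  · by_cases h : e.1 ∈ S₀
    · exact Or.inl h
    · exact Or.inr ⟨h1, h⟩
  · by_cases h : rswEnd e ∈ S₀
    · exact Or.inl h
    · exact Or.inr ⟨h2, h⟩

theorem rrs189_hist_holds {Z S₀ : Finset (ℤ × ℤ)} {O₀ : Finset ((ℤ × ℤ) × Bool)} (hS : S₀ ⊆ cornersOf Z) (hO : O₀ ⊆ rswInt Z)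
    (hc : ∀ e ∈ O₀, (e.1 ∈ S₀ ↔ rswEnd e ∈ S₀)) (ω : RswCfg) :
    (rrsHist Z S₀ O₀).Holds ω ↔ ω.S ∩ cornersOf Z = S₀ ∧ ω.O ∩ rswInt Z = O₀ := by
  constructor
  · rintro ⟨a1, a2, a3, a4, a5⟩
    constructor
    · ext v
      rw [Finset.mem_inter]
      constructor
      · rintro ⟨b1, b2⟩
        by_contra b3
        exact a2 v (Finset.mem_sdiff.2 ⟨b2, b3⟩) b1
      · intro b1
        exact ⟨a1 b1, hS b1⟩
    · ext e
      rw [Finset.mem_inter]
      constructor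
      · rintro ⟨b1, b2⟩
        by_contra b3
        exact a5 e (Finset.mem_sdiff.2 ⟨b2, b3⟩) b1
      · intro b1
        refine ⟨?_, hO b1⟩
        by_cases b2 : e.1 ∈ S₀
        · exact (a3 e (Finset.mem_filter.2 ⟨b1, b2, (hc e b1).1 b2⟩)).1
        · exact (a4 e (Finset.mem_filter.2 ⟨b1, b2, fun b3 => b2 ((hc e b1).2 b3)⟩)).1
  · rintro ⟨a1, a2⟩
    have mS : ∀ v, v ∈ cornersOf Z → (v ∈ ω.S ↔ v ∈ S₀) := fun v hv => by
      rw [← a1, Finset.mem_inter]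
      exact ⟨fun h => ⟨h, hv⟩, fun h => h.1⟩
    have mO : ∀ e, e ∈ O₀ → e ∈ ω.O := fun e he => by
      rw [← a2] at he
      exact (Finset.mem_inter.1 he).1
    refine ⟨fun v hv => (mS v (hS hv)).2 hv, fun v hv => ?_, fun e he => ?_, fun e he => ?_, fun e he => ?_⟩
    · obtain ⟨b1, b2⟩ := Finset.mem_sdiff.1 hv
      exact fun b3 => b2 ((mS v b1).1 b3)
    · obtain ⟨b1, b2, b3⟩ := Finset.mem_filter.1 he
      exact ⟨mO e b1, iff_of_true ((mS _ (hS b2)).2 b2) rfl, iff_of_true ((mS _ (hS b3)).2 b3) rfl⟩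
    · obtain ⟨b1, b2, b3⟩ := Finset.mem_filter.1 he
      refine ⟨mO e b1, iff_of_false (fun b4 => b2 ((mS _ (rsb_int_fst_corner (hO b1))).1 b4)) (by simp),
        iff_of_false (fun b4 => b3 ((mS _ (rsb_int_end_corner (hO b1))).1 b4)) (by simp)⟩
    · obtain ⟨b1, b2⟩ := Finset.mem_sdiff.1 he
      intro b3
      apply b2
      rw [← a2]
      exact Finset.mem_inter.2 ⟨b3, b1⟩

open Classical in
/-- indicator of "the trace of `ω` on `Z` is `p`" -/
noncomputable def rrsTr (Z : Finset (ℤ × ℤ)) (p : Finset (ℤ × ℤ) × Finset ((ℤ × ℤ) × Bool)) (ω : RswCfg) : ℝ :=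
  if ω.S ∩ cornersOf Z = p.1 ∧ ω.O ∩ rswInt Z = p.2 then 1 else 0

theorem rrs189_tr_sum (Z : Finset (ℤ × ℤ)) (ω : RswCfg) :
    ∑ p ∈ (cornersOf Z).powerset ×ˢ (rswInt Z).powerset, rrsTr Z p ω = 1 := by
  classical
  have e : ∀ p : Finset (ℤ × ℤ) × Finset ((ℤ × ℤ) × Bool), rrsTr Z p ω = if (ω.S ∩ cornersOf Z, ω.O ∩ rswInt Z) = p then 1 else 0 := by
    intro p
    unfold rrsTr
    refine if_congr ?_ rfl rfl
    rw [Prod.ext_iff]
  simp only [e]
  rw [Finset.sum_ite_eq, if_pos]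
  exact Finset.mem_product.2 ⟨Finset.mem_powerset.2 Finset.inter_subset_right, Finset.mem_powerset.2 Finset.inter_subset_right⟩

open Classical in
/-- **CONDITIONING** on the full history of `Z`      (R291 `rn_condB`) -/
theorem rrs189_cond {t : ℝ} (h0 : 0 < t) (h1 : t ≤ 1) (s : Bool) (Z F : Finset (ℤ × ℤ)) (hZ : Z ⊆ F) (A L : RswCfg → Prop) (hA : RnzLoc Z A) (c : ℝ)
    (h : ∀ K : RswCon, K.Legal Z → K.Feas t F s → c ≤ rswPK t F s K L) :
    c * rswSum t F s (fun ω => if A ω then 1 else 0) ≤ rswSum t F s (fun ω => if A ω ∧ L ω then 1 else 0) := by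
  have d1 : ∀ X : RswCfg → ℝ, rswSum t F s X = ∑ p ∈ (cornersOf Z).powerset ×ˢ (rswInt Z).powerset, rswSum t F s (fun ω => rrsTr Z p ω * X ω) := by
    intro X
    rw [← rsb_sum_finset_sum]
    congr 1
    funext ω
    rw [← Finset.sum_mul, rrs189_tr_sum, one_mul]
  rw [d1 (fun ω => if A ω then 1 else 0), d1 (fun ω => if A ω ∧ L ω then 1 else 0), Finset.mul_sum]
  refine Finset.sum_le_sum fun p hp => ?_
  obtain ⟨hp1, hp2⟩ := Finset.mem_product.1 hp
  have hS := Finset.mem_powerset.1 hp1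
  have hO := Finset.mem_powerset.1 hp2
  have hAp : ∀ ω, rrsTr Z p ω ≠ 0 → (A ω ↔ A ⟨p.1, ∅, p.2⟩) := by
    intro ω hω
    have : ω.S ∩ cornersOf Z = p.1 ∧ ω.O ∩ rswInt Z = p.2 := by
      by_contra hn
      exact hω (by unfold rrsTr; rw [if_neg hn])
    exact hA ω ⟨p.1, ∅, p.2⟩ (by rw [this.1]; exact (Finset.inter_eq_left.2 hS).symm) (by rw [this.2]; exact (Finset.inter_eq_left.2 hO).symm)
  by_cases hA0 : A ⟨p.1, ∅, p.2⟩
  swap
  · have z1 : (fun ω => rrsTr Z p ω * (if A ω then (1 : ℝ) else 0)) = fun _ => 0 := by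
      funext ω
      by_cases hω : rrsTr Z p ω = 0
      · rw [hω, zero_mul]
      · rw [if_neg (fun a => hA0 ((hAp ω hω).1 a)), mul_zero]
    rw [z1, rsb_sum_zero, mul_zero]
    exact rsb_sum_nonneg h0.le h1 fun ω _ _ => mul_nonneg (by unfold rrsTr; split_ifs <;> norm_num) (by split_ifs <;> norm_num)
  have z1 : (fun ω => rrsTr Z p ω * (if A ω then (1 : ℝ) else 0)) = fun ω => rrsTr Z p ω := by
    funext ω
    by_cases hω : rrsTr Z p ω = 0
    · rw [hω, zero_mul]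
    · rw [if_pos ((hAp ω hω).2 hA0), mul_one]
  have z2 : (fun ω => rrsTr Z p ω * (if A ω ∧ L ω then (1 : ℝ) else 0)) = fun ω => rrsTr Z p ω * (if L ω then (1 : ℝ) else 0) := by
    funext ω
    by_cases hω : rrsTr Z p ω = 0
    · rw [hω, zero_mul, zero_mul]
    · congr 1
      exact if_congr (and_iff_right ((hAp ω hω).2 hA0)) rfl rfl
  rw [z1, z2]
  by_cases hc : ∀ e ∈ p.2, (e.1 ∈ p.1 ↔ rswEnd e ∈ p.1)
  · -- consistent trace: the history
    have hH := rrs189_hist_holds hS hO hc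
    have y1 : (fun ω => rrsTr Z p ω) = fun ω => if (rrsHist Z p.1 p.2).Holds ω then (1 : ℝ) else 0 := by
      funext ω
      unfold rrsTr
      exact if_congr (hH ω).symm rfl rfl
    have y2 : (fun ω => rrsTr Z p ω * (if L ω then (1 : ℝ) else 0)) = fun ω => if (rrsHist Z p.1 p.2).Holds ω ∧ L ω then (1 : ℝ) else 0 := by
      funext ω
      unfold rrsTr
      rw [if_congr (hH ω).symm rfl rfl]
      by_cases a1 : (rrsHist Z p.1 p.2).Holds ω <;> by_cases a2 : L ω <;> simp [a1, a2]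
    rw [y1, y2]
    have hnn : 0 ≤ rswSum t F s (fun ω => if (rrsHist Z p.1 p.2).Holds ω then (1 : ℝ) else 0) :=
      rsb_sum_nonneg h0.le h1 fun ω _ _ => by split_ifs <;> norm_num
    rcases hnn.eq_or_lt with hz | hpos
    · rw [← hz, mul_zero]
      exact rsb_sum_nonneg h0.le h1 fun ω _ _ => by split_ifs <;> norm_num
    · have := h _ (rrs189_hist_legal hS hO) hpos
      unfold rswPK at this
      rwa [le_div_iff₀ hpos] at this
  · -- inconsistent trace: weight zero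
    push Not at hc
    obtain ⟨e, he, hne⟩ := hc
    have hz : ∀ ω, RsbIn F ω → rswWt t F s ω ≠ 0 → rrsTr Z p ω = 0 := by
      intro ω _ hw
      by_contra hω
      have tr : ω.S ∩ cornersOf Z = p.1 ∧ ω.O ∩ rswInt Z = p.2 := by
        by_contra hn
        exact hω (by unfold rrsTr; rw [if_neg hn])
      have heO : e ∈ ω.O := by
        have : e ∈ ω.O ∩ rswInt Z := by rw [tr.2]; exact he
        exact (Finset.mem_inter.1 this).1
      have hiff := ((rsb_wt_ne_zero hw).2 e (rnz_int_mono hZ (hO he))).2.1 heO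
      have m1 : e.1 ∈ ω.S ↔ e.1 ∈ p.1 := by
        rw [← tr.1, Finset.mem_inter]
        exact ⟨fun a => ⟨a, rsb_int_fst_corner (hO he)⟩, fun a => a.1⟩
      have m2 : rswEnd e ∈ ω.S ↔ rswEnd e ∈ p.1 := by
        rw [← tr.1, Finset.mem_inter]
        exact ⟨fun a => ⟨a, rsb_int_end_corner (hO he)⟩, fun a => a.1⟩
      rw [m1, m2] at hiff
      tauto
    rw [rsb_sum_congr (Y := fun _ => 0) hz, rsb_sum_zero, mul_zero]
    exact rsb_sum_nonneg h0.le h1 fun ω _ _ => mul_nonneg (by unfold rrsTr; split_ifs <;> norm_num) (by split_ifs <;> norm_num)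

/-- an event local in `Z` is read inside every `F' ⊇ Z` -/
theorem rrs189_inside {Z F' : Finset (ℤ × ℤ)} (h : Z ⊆ F') {A : RswCfg → Prop} (hA : RnzLoc Z A) :
    RskInside F' (fun ω => open Classical in if A ω then (1 : ℝ) else 0) := by
  classical
  intro ω
  refine if_congr (hA _ _ ?_ ?_) rfl rfl
  · show ω.S ∩ cornersOf F' ∩ cornersOf Z = ω.S ∩ cornersOf Z
    rw [Finset.inter_assoc, Finset.inter_eq_right.2 (rnz_corners_mono h)]
  · show ω.O ∩ rswInt F' ∩ rswInt Z = ω.O ∩ rswInt Z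
    rw [Finset.inter_assoc, Finset.inter_eq_right.2 (rnz_int_mono h)]

/-- **the tool `RrsFinal`** -/
theorem rrs189_final {t : ℝ} (h0 : 0 < t) (h1 : t ≤ 1) : RrsFinal t := by
  classical
  intro s Z F N A c q hN hZ hlay hA hq hK hJ
  have hZpos := rsb_Z_pos h0 h1 F s
  have hc := rrs189_cond h0 h1 s Z F hZ A (fun ω => RswSep F s ω N Z) hA c hK
  -- the search
  have e2 : rswSum t F s (fun ω => if A ω ∧ RswSep F s ω N Z then (1 : ℝ) else 0) =
      ∑ I ∈ F.powerset.filter (fun I => Disjoint I Z), rswSum t F s (fun ω => rs122Ind F s N I ω * (if A ω then (1 : ℝ) else 0)) := by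
    rw [← rsb_sum_finset_sum]
    congr 1
    funext ω
    rw [← Finset.sum_mul, ← rs122_sep_ind s N hZ ω]
    by_cases a1 : A ω <;> by_cases a2 : RswSep F s ω N Z <;> simp [a1, a2]
  have key : ∀ I ∈ F.powerset.filter (fun I => Disjoint I Z),
      rswSum t F s (fun ω => rs122Ind F s N I ω * (if A ω then (1 : ℝ) else 0)) ≤ q * rswSum t F s (fun ω => rs122Ind F s N I ω) := by
    intro I hI
    obtain ⟨hI1, hI2⟩ := Finset.mem_filter.1 hI
    have hIF := Finset.mem_powerset.1 hI1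
    have hZI : Z ⊆ F \ I := fun f hf => Finset.mem_sdiff.2 ⟨hZ hf, fun a => Finset.disjoint_left.1 hI2 a hf⟩
    have h3 := rs122_search h0 h1 F s s hlay I (rrs189_inside hZI hA) (Y := fun _ => (1 : ℝ)) (fun _ => rfl)
    simp only [mul_one] at h3
    rw [h3]
    have hnn : 0 ≤ rswSum t F s (fun ω => rs122Ind F s N I ω) := rsb_sum_nonneg h0.le h1 fun ω _ _ => rs122_ind_nonneg F s N I ω
    by_cases hNI : N ⊆ I
    · exact mul_le_mul_of_nonneg_right (hJ I hNI hIF hI2) hnn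
    · have hz : (fun ω => rs122Ind F s N I ω) = fun _ => 0 := by
        funext ω
        unfold rs122Ind
        rw [if_neg]
        rintro rfl
        exact hNI fun f hf => rs122_seed hf (hN hf)
      rw [hz, rsb_sum_zero, mul_zero, mul_zero]
  have e3 : ∑ I ∈ F.powerset.filter (fun I => Disjoint I Z), rswSum t F s (fun ω => rs122Ind F s N I ω) ≤ rswSum t F s (fun _ => 1) := by
    rw [← rsb_sum_finset_sum]
    refine rsb_sum_mono h0.le h1 fun ω _ _ => ?_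
    rw [← rs122_sep_ind s N hZ ω]
    split_ifs <;> norm_num
  have e4 : rswP t F s A = rswSum t F s (fun ω => if A ω then (1 : ℝ) else 0) / rswSum t F s (fun _ => 1) := by
    unfold rswP rswE
    congr 2
  rw [e4, mul_div_assoc', div_le_iff₀ hZpos]
  calc c * rswSum t F s (fun ω => if A ω then (1 : ℝ) else 0) ≤ _ := hc
    _ = _ := e2
    _ ≤ ∑ I ∈ F.powerset.filter (fun I => Disjoint I Z), q * rswSum t F s (fun ω => rs122Ind F s N I ω) := Finset.sum_le_sum key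
    _ = q * ∑ I ∈ F.powerset.filter (fun I => Disjoint I Z), rswSum t F s (fun ω => rs122Ind F s N I ω) := by rw [Finset.mul_sum]
    _ ≤ q * rswSum t F s (fun _ => 1) := mul_le_mul_of_nonneg_left e3 hq

/-! ## 7. PROOF OF THE TOOL `RrsSplit` (from `rsx_swap_E`, `rsx_comp` of Expl107) -/

/-- the configuration with the spins of the polygon of `F'` replaced by the colour `s` -/
def rrsFix (F' : Finset (ℤ × ℤ)) (s : Bool) (ω : RswCfg) : RswCfg :=
  ⟨(ω.S ∩ rsxIn F') ∪ (if s = true then cornersOf F' \ rsxIn F' else ∅), ω.D, ω.O⟩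

theorem rrs189_fix_S {F' : Finset (ℤ × ℤ)} {s : Bool} {ω : RswCfg} (hb : RswBc F' s ω) :
    (rrsFix F' s ω).S ∩ cornersOf F' = ω.S ∩ cornersOf F' := by
  ext v
  simp only [rrsFix, Finset.mem_inter, Finset.mem_union]
  constructor
  · rintro ⟨h | h, hv⟩
    · exact ⟨h.1, hv⟩
    · by_cases hs : s = true
      · rw [if_pos hs] at h
        obtain ⟨_, h2⟩ := Finset.mem_sdiff.1 h
        exact ⟨(hb v hv (fun hn => h2 (rsx_in_iff.2 (not_not.2 hn)))).2 hs, hv⟩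
      · rw [if_neg hs] at h
        exact absurd h (Finset.notMem_empty v)
  · rintro ⟨h, hv⟩
    refine ⟨?_, hv⟩
    by_cases hin : v ∈ rsxIn F'
    · exact Or.inl ⟨h, hin⟩
    · right
      have hs : s = true := (hb v hv (fun hn => hin (rsx_in_iff.2 (not_not.2 hn)))).1 h
      rw [if_pos hs]
      exact Finset.mem_sdiff.2 ⟨hv, hin⟩

theorem rrs189_fix_iff {F' : Finset (ℤ × ℤ)} {s : Bool} {ω : RswCfg} (hb : RswBc F' s ω) {A : RswCfg → Prop} (hA : RnzLoc F' A) :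
    A (rrsFix F' s ω) ↔ A ω := hA _ _ (rrs189_fix_S hb) rfl

theorem rrs189_fix_locIn (F' : Finset (ℤ × ℤ)) (s : Bool) {A : RswCfg → Prop} (hA : RnzLoc F' A) :
    RsxLocIn F' (fun ω => rsxInd (A (rrsFix F' s ω))) := by
  intro ω ω' hS _ hO
  refine rsx_ind_congr (hA _ _ ?_ hO)
  simp only [rrsFix, hS]

/-- the isolated parts -/
theorem rrs189_isol {F₁ F₂ : Finset (ℤ × ℤ)} (hd : Disjoint (cornersOf F₁) (cornersOf F₂)) : RsxIsol (F₁ ∪ F₂) F₁ := by
  intro e he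
  obtain ⟨a1, a2⟩ := rsx_mem_int.1 he
  constructor
  · intro b1
    rcases Finset.mem_union.1 a2 with b2 | b2
    · exact b2
    · exact absurd (rsx_end_corner1 (F := F₂) (Or.inr b2)) (Finset.disjoint_left.1 hd (rsx_end_corner1 (F := F₁) (Or.inl b1)))
  · intro b1
    rcases Finset.mem_union.1 a1 with b2 | b2
    · exact b2
    · exact absurd (rsx_end_corner1 (F := F₂) (Or.inl b2)) (Finset.disjoint_left.1 hd (rsx_end_corner1 (F := F₁) (Or.inr b1)))

/-- the flat law of an isolated part -/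
theorem rrs189_comp {t : ℝ} (h0 : 0 < t) (h1 : t ≤ 1) {F F₁ : Finset (ℤ × ℤ)} (h : F₁ ⊆ F) (hi : RsxIsol F F₁) (s : Bool) {A : RswCfg → Prop}
    (hA : RnzLoc F₁ A) : rswP t F s A = rswP t F₁ s A := by
  have e1 : rswP t F s A = rswE t F s (fun ω => rsxInd (A (rrsFix F₁ s ω))) := by
    rw [rsx_P_eq, rsx_E_eq, rsx_E_eq]
    congr 1
    exact rsx_sum_congr_bc t F s fun ω hb => rsx_ind_congr (rrs189_fix_iff (rsx_isol_cut h hi hb).1 hA).symm
  have e2 : rswP t F₁ s A = rswE t F₁ s (fun ω => rsxInd (A (rrsFix F₁ s ω))) := by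
    rw [rsx_P_eq, rsx_E_eq, rsx_E_eq]
    congr 1
    exact rsx_sum_congr_bc t F₁ s fun ω hb => rsx_ind_congr (rrs189_fix_iff hb hA).symm
  rw [e1, e2]
  exact rsx_comp h0 h1 h hi s (rrs189_fix_locIn F₁ s hA)

/-- **the tool `RrsSplit`** -/
theorem rrs189_split {t : ℝ} (h0 : 0 < t) (h1 : t ≤ 1) : RrsSplit t := by
  classical
  intro s F₁ F₂ A₁ A₂ hd l₁ l₂
  have hi₁ := rrs189_isol hd
  have hi₂ : RsxIsol (F₁ ∪ F₂) F₂ := by
    have := rrs189_isol hd.symm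
    rwa [Finset.union_comm] at this
  have hY : RsxLocOut F₁ (fun ω => rsxInd (A₂ ω)) := by
    intro ω ω' hS _ hO
    refine rsx_ind_congr (l₂ _ _ ?_ ?_)
    · ext v
      simp only [Finset.mem_inter]
      refine and_congr_left fun hv => ?_
      have hv' : v ∉ rsxIn F₁ := fun a => Finset.disjoint_left.1 hd (rsx_in_sub_corners F₁ a) hv
      exact rsx_sdiff_mem hS hv'
    · ext e
      simp only [Finset.mem_inter]
      refine and_congr_left fun he => ?_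
      have he' : e ∉ rswInt F₁ := fun a =>
        Finset.disjoint_left.1 hd (rsx_end_corner1 (F := F₁) (Or.inl (rsx_mem_int.1 a).1)) (rsx_end_corner1 (F := F₂) (Or.inl (rsx_mem_int.1 he).1))
      exact rsx_sdiff_mem hO he'
  have hs := rsx_swap_E h0 h1 (Finset.subset_union_left (s₁ := F₁) (s₂ := F₂)) s s (rrs189_fix_locIn F₁ s l₁) hY
  have e1 : rswSum t (F₁ ∪ F₂) s (fun ω => rsxInd (RsxCut (F₁ ∪ F₂) F₁ s ω) * rsxInd (A₁ (rrsFix F₁ s ω)) * rsxInd (A₂ ω))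
      = rswSum t (F₁ ∪ F₂) s (fun ω => rsxInd (A₁ ω ∧ A₂ ω)) :=
    rsx_sum_congr_bc t _ s fun ω hb => by
      have hc := rsx_isol_cut Finset.subset_union_left hi₁ hb
      rw [rsx_ind_pos hc, one_mul, rsx_ind_congr (rrs189_fix_iff hc.1 l₁)]
      by_cases a1 : A₁ ω <;> by_cases a2 : A₂ ω <;> simp [rsxInd, a1, a2]
  have e2 : rswSum t (F₁ ∪ F₂) s (fun ω => rsxInd (RsxCut (F₁ ∪ F₂) F₁ s ω) * rsxInd (A₂ ω)) = rswSum t (F₁ ∪ F₂) s (fun ω => rsxInd (A₂ ω)) :=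
    rsx_sum_congr_bc t _ s fun ω hb => by rw [rsx_ind_pos (rsx_isol_cut Finset.subset_union_left hi₁ hb), one_mul]
  rw [e1, e2] at hs
  have e3 : rswE t F₁ s (fun ω => rsxInd (A₁ (rrsFix F₁ s ω))) = rswP t F₁ s A₁ := by
    rw [rsx_P_eq, rsx_E_eq, rsx_E_eq]
    congr 1
    exact rsx_sum_congr_bc t F₁ s fun ω hb => rsx_ind_congr (rrs189_fix_iff hb l₁)
  rw [e3] at hs
  rw [← rrs189_comp h0 h1 Finset.subset_union_right hi₂ s l₂, rsx_P_eq t (F₁ ∪ F₂) s (fun ω => A₁ ω ∧ A₂ ω), rsx_E_eq, hs,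
    rsx_P_eq t (F₁ ∪ F₂) s A₂, rsx_E_eq]
  ring

/-- **(SEP2)**, with the two tools proved in §6, §7 -/
theorem rrs189_sep2_v2 {t : ℝ} (h0 : 0 < t) (h1 : t ≤ 1) (hF : RrsFkg t) (hB : RrsBox t) (hDm : RrsDomM t) (hC : RnzCor t) : RnzSep2 t :=
  rrs189_sep2 h0 h1 hF hB (rrs189_final h0 h1) (rrs189_split h0 h1) hDm hC

/-! ## 8. THE ORDER TOOLS FOR ARBITRARY FINITE `F` FROM (S0) ON THE BOXES

`P^s_F( . | K)` = the law of a big box conditioned on the prescriptions "history `K`" + "the polygon edges of `F` are good of colour `s`" (`rsk_cut` of Cut91), so (S0) = `exit_mdl_cmp` is needed on the (Jordan) boxes only. -/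

/-- (S0) on the boxes -/
def RrsS0 (t : ℝ) : Prop := ∀ (n : ℕ) (b a : Bool) (K : MdlPin), 1 ≤ n → K.Ok → MdlFkgAt t (rswBox 0 n) b a K

/-- the endpoints of a set of edges -/
def rrsEnds (E : Finset ((ℤ × ℤ) × Bool)) : Finset (ℤ × ℤ) := E.image (fun e => e.1) ∪ E.image rswEnd

theorem rrs189_ends_fst {E : Finset ((ℤ × ℤ) × Bool)} {e : (ℤ × ℤ) × Bool} (he : e ∈ E) : e.1 ∈ rrsEnds E :=
  Finset.mem_union_left _ (Finset.mem_image_of_mem _ he)

theorem rrs189_ends_end {E : Finset ((ℤ × ℤ) × Bool)} {e : (ℤ × ℤ) × Bool} (he : e ∈ E) : rswEnd e ∈ rrsEnds E :=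
  Finset.mem_union_right _ (Finset.mem_image_of_mem _ he)

theorem rrs189_mem_ends {E : Finset ((ℤ × ℤ) × Bool)} {v : ℤ × ℤ} (hv : v ∈ rrsEnds E) : ∃ e ∈ E, v = e.1 ∨ v = rswEnd e := by
  rcases Finset.mem_union.1 hv with h | h
  · obtain ⟨e, he, rfl⟩ := Finset.mem_image.1 h
    exact ⟨e, he, Or.inl rfl⟩
  · obtain ⟨e, he, rfl⟩ := Finset.mem_image.1 h
    exact ⟨e, he, Or.inr rfl⟩

/-- the prescriptions "history `K`" + "the edges of `E` are good of colour `s`" -/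
def rrsPin (K : RswCon) (E : Finset ((ℤ × ℤ) × Bool)) (s : Bool) : MdlPin :=
  ⟨K.Sp ∪ rrsEnds K.Gp ∪ (if s = true then rrsEnds E else ∅), K.Sm ∪ rrsEnds K.Gm ∪ (if s = true then ∅ else rrsEnds E), K.Gp ∪ K.Gm ∪ E, K.Cl⟩

theorem rrs189_pin_ok {K : RswCon} {F : Finset (ℤ × ℤ)} (hK : K.Legal F) (E : Finset ((ℤ × ℤ) × Bool)) (s : Bool) : (rrsPin K E s).Ok := by
  intro e he
  simp only [rrsPin, Finset.mem_union] at he ⊢
  rcases he with ((h | h) | h) | h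
  · exact ⟨Or.inl (Or.inl (Or.inr (rrs189_ends_fst h))), Or.inl (Or.inl (Or.inr (rrs189_ends_end h)))⟩
  · exact ⟨Or.inr (Or.inl (Or.inr (rrs189_ends_fst h))), Or.inr (Or.inl (Or.inr (rrs189_ends_end h)))⟩
  · by_cases hs : s = true
    · simp only [if_pos hs]
      exact ⟨Or.inl (Or.inr (rrs189_ends_fst h)), Or.inl (Or.inr (rrs189_ends_end h))⟩
    · simp only [if_neg hs]
      exact ⟨Or.inr (Or.inr (rrs189_ends_fst h)), Or.inr (Or.inr (rrs189_ends_end h))⟩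
  · have := hK.full e (Finset.mem_union_right _ h)
    simp only [Finset.mem_union] at this
    exact ⟨this.1.elim (fun a => Or.inl (Or.inl (Or.inl a))) (fun a => Or.inr (Or.inl (Or.inl a))),
      this.2.elim (fun a => Or.inl (Or.inl (Or.inl a))) (fun a => Or.inr (Or.inl (Or.inl a)))⟩

theorem rrs189_pin_holds (K : RswCon) (E : Finset ((ℤ × ℤ) × Bool)) (s : Bool) (ω : RswCfg) :
    (rrsPin K E s).Holds ω ↔ K.Holds ω ∧ ∀ e ∈ E, RswGood s ω e := by
  constructor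
  · rintro ⟨a1, a2, a3, a4⟩
    have p1 : ∀ v, v ∈ K.Sp ∪ rrsEnds K.Gp ∪ (if s = true then rrsEnds E else ∅) → v ∈ ω.S := fun v hv => a1 hv
    have p2 : ∀ v, v ∈ K.Sm ∪ rrsEnds K.Gm ∪ (if s = true then ∅ else rrsEnds E) → v ∉ ω.S := fun v hv => a2 v hv
    have p3 : ∀ e, e ∈ K.Gp ∪ K.Gm ∪ E → e ∈ ω.O := fun e he => a3 he
    refine ⟨⟨fun v hv => p1 v (Finset.mem_union_left _ (Finset.mem_union_left _ hv)),
      fun v hv => p2 v (Finset.mem_union_left _ (Finset.mem_union_left _ hv)), fun e he => ?_, fun e he => ?_, a4⟩, fun e he => ?_⟩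
    · exact ⟨p3 e (Finset.mem_union_left _ (Finset.mem_union_left _ he)),
        iff_of_true (p1 _ (Finset.mem_union_left _ (Finset.mem_union_right _ (rrs189_ends_fst he)))) rfl,
        iff_of_true (p1 _ (Finset.mem_union_left _ (Finset.mem_union_right _ (rrs189_ends_end he)))) rfl⟩
    · exact ⟨p3 e (Finset.mem_union_left _ (Finset.mem_union_right _ he)),
        iff_of_false (p2 _ (Finset.mem_union_left _ (Finset.mem_union_right _ (rrs189_ends_fst he)))) (by simp),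
        iff_of_false (p2 _ (Finset.mem_union_left _ (Finset.mem_union_right _ (rrs189_ends_end he)))) (by simp)⟩
    · refine ⟨p3 e (Finset.mem_union_right _ he), ?_, ?_⟩
      · by_cases hs : s = true
        · exact iff_of_true (p1 _ (Finset.mem_union_right _ (by rw [if_pos hs]; exact rrs189_ends_fst he))) hs
        · exact iff_of_false (p2 _ (Finset.mem_union_right _ (by rw [if_neg hs]; exact rrs189_ends_fst he))) hs
      · by_cases hs : s = true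
        · exact iff_of_true (p1 _ (Finset.mem_union_right _ (by rw [if_pos hs]; exact rrs189_ends_end he))) hs
        · exact iff_of_false (p2 _ (Finset.mem_union_right _ (by rw [if_neg hs]; exact rrs189_ends_end he))) hs
  · rintro ⟨⟨a1, a2, a3, a4, a5⟩, a6⟩
    refine ⟨fun v hv => ?_, fun v hv => ?_, fun e he => ?_, a5⟩
    · simp only [rrsPin, Finset.mem_union] at hv
      rcases hv with (h | h) | h
      · exact a1 h
      · obtain ⟨e, he, rfl | rfl⟩ := rrs189_mem_ends h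
        · exact (a3 e he).2.1.2 rfl
        · exact (a3 e he).2.2.2 rfl
      · by_cases hs : s = true
        · rw [if_pos hs] at h
          obtain ⟨e, he, rfl | rfl⟩ := rrs189_mem_ends h
          · exact (a6 e he).2.1.2 hs
          · exact (a6 e he).2.2.2 hs
        · rw [if_neg hs] at h
          exact absurd h (Finset.notMem_empty v)
    · simp only [rrsPin, Finset.mem_union] at hv
      rcases hv with (h | h) | h
      · exact a2 v h
      · obtain ⟨e, he, rfl | rfl⟩ := rrs189_mem_ends h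
        · exact fun hc => absurd ((a4 e he).2.1.1 hc) (by simp)
        · exact fun hc => absurd ((a4 e he).2.2.1 hc) (by simp)
      · by_cases hs : s = true
        · rw [if_pos hs] at h
          exact absurd h (Finset.notMem_empty v)
        · rw [if_neg hs] at h
          obtain ⟨e, he, rfl | rfl⟩ := rrs189_mem_ends h
          · exact fun hc => hs ((a6 e he).2.1.1 hc)
          · exact fun hc => hs ((a6 e he).2.2.1 hc)
    · simp only [rrsPin, Finset.mem_union] at he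
      rcases he with (h | h) | h
      · exact (a3 e h).1
      · exact (a4 e h).1
      · exact (a6 e h).1

/-- the polygon edges of `F` -/
def rrsBd (F : Finset (ℤ × ℤ)) : Finset ((ℤ × ℤ) × Bool) := mdlEd F \ rswInt F

theorem rrs189_cut_iff {F : Finset (ℤ × ℤ)} {s : Bool} {ω : RswCfg} : (∀ e ∈ rrsBd F, RswGood s ω e) ↔ RswCut F s ω := by
  unfold RswCut rrsBd
  refine forall_congr' fun e => ?_
  rw [mdl_bd_iff, Finset.mem_sdiff]

open Classical in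
/-- indicator of a history -/
noncomputable def rrsKI (K : RswCon) (ω : RswCfg) : ℝ := if K.Holds ω then 1 else 0

theorem rrs189_KI_nonneg (K : RswCon) (ω : RswCfg) : 0 ≤ rrsKI K ω := by
  unfold rrsKI
  split_ifs <;> norm_num

theorem rrs189_good_in {F : Finset (ℤ × ℤ)} {a : Bool} {ω : RswCfg} {e : (ℤ × ℤ) × Bool} (he : e ∈ rswInt F) :
    RswGood a (rskIn F ω) e ↔ RswGood a ω e := by
  have h1 := rsb_int_fst_corner he
  have h2 := rsb_int_end_corner he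
  unfold RswGood rskIn
  simp only [Finset.mem_inter, he, h1, h2, and_true]

theorem rrs189_holds_in {K : RswCon} {F : Finset (ℤ × ℤ)} (hK : K.Legal F) (ω : RswCfg) : K.Holds (rskIn F ω) ↔ K.Holds ω := by
  have hGp : ∀ e ∈ K.Gp, e ∈ rswInt F := fun e he => hK.ed (Finset.mem_union_left _ (Finset.mem_union_left _ he))
  have hGm : ∀ e ∈ K.Gm, e ∈ rswInt F := fun e he => hK.ed (Finset.mem_union_left _ (Finset.mem_union_right _ he))
  have hCl : ∀ e ∈ K.Cl, e ∈ rswInt F := fun e he => hK.ed (Finset.mem_union_right _ he)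
  unfold RswCon.Holds
  refine and_congr ?_ (and_congr ?_ (and_congr ?_ (and_congr ?_ ?_)))
  · exact ⟨fun h => h.trans Finset.inter_subset_left, fun h => Finset.subset_inter h hK.sp⟩
  · exact forall₂_congr fun v hv => not_congr ⟨fun h => (Finset.mem_inter.1 h).1, fun h => Finset.mem_inter.2 ⟨h, hK.sm hv⟩⟩
  · exact forall₂_congr fun e he => rrs189_good_in (hGp e he)
  · exact forall₂_congr fun e he => rrs189_good_in (hGm e he)
  · exact forall₂_congr fun e he => not_congr ⟨fun h => (Finset.mem_inter.1 h).1, fun h => Finset.mem_inter.2 ⟨h, hCl e he⟩⟩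

theorem rrs189_KI_inside {K : RswCon} {F : Finset (ℤ × ℤ)} (hK : K.Legal F) : RskInside F (rrsKI K) := by
  classical
  intro ω
  unfold rrsKI
  exact if_congr (rrs189_holds_in hK ω) rfl rfl

/-- **EMBEDDING**: the prescriptions "history + cut" in any ambient `Λ ⊇ F` -/
theorem rrs189_embed {t : ℝ} (h0 : 0 < t) (h1 : t ≤ 1) {F Λ : Finset (ℤ × ℤ)} (hF : F ⊆ Λ) (b s : Bool) {K : RswCon} (hK : K.Legal F)
    {X : RswCfg → ℝ} (hX : RskInside F X) :
    mdlSumK t Λ b (rrsPin K (rrsBd F) s) X = rswE t F s (fun ω => rrsKI K ω * X ω) * rswSum t Λ b (rskInd F s) := by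
  classical
  have h := rsk_cut h0 h1 hF s b (rsk_inside_mul (rrs189_KI_inside hK) hX) (rsk_outside_const F 1)
  simp only [mul_one] at h
  rw [← h]
  unfold mdlSumK
  congr 1
  funext ω
  unfold rskInd rrsKI
  by_cases a1 : K.Holds ω <;> by_cases a2 : RswCut F s ω
  · rw [if_pos ((rrs189_pin_holds _ _ _ _).2 ⟨a1, rrs189_cut_iff.2 a2⟩), if_pos a1, if_pos a2]; ring
  · rw [if_neg (fun hc => a2 (rrs189_cut_iff.1 ((rrs189_pin_holds _ _ _ _).1 hc).2)), if_neg a2]; ring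
  · rw [if_neg (fun hc => a1 ((rrs189_pin_holds _ _ _ _).1 hc).1), if_neg a1]; ring
  · rw [if_neg (fun hc => a1 ((rrs189_pin_holds _ _ _ _).1 hc).1), if_neg a1]; ring

/-- a nonnegative observable which is positive at the constant configuration has a positive sum -/
theorem rrs189_sum_pos {t : ℝ} (h0 : 0 < t) (h1 : t ≤ 1) (Λ : Finset (ℤ × ℤ)) (s : Bool) {X : RswCfg → ℝ} (hX : ∀ ω, 0 ≤ X ω)
    (hp : 0 < X (rsbFull Λ s)) : 0 < rswSum t Λ s X := by
  rw [rsb_sum_eq]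
  refine Finset.sum_pos' (fun p _ => mul_nonneg (rsb_wt_nonneg h0.le h1 Λ s _) (hX _))
    ⟨((rsbFull Λ s).S, (rsbFull Λ s).D, (rsbFull Λ s).O), rsb_mem_all.2 (rsb_full_in Λ s), ?_⟩
  have : rsbMk ((rsbFull Λ s).S, (rsbFull Λ s).D, (rsbFull Λ s).O) = rsbFull Λ s := rfl
  rw [this, rsb_full_wt]
  positivity

theorem rrs189_full_good {Λ : Finset (ℤ × ℤ)} {s : Bool} {e : (ℤ × ℤ) × Bool} (he : e ∈ rswInt Λ) : RswGood s (rsbFull Λ s) e := by
  have h1 := rsb_int_fst_corner he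
  have h2 := rsb_int_end_corner he
  refine ⟨he, ?_, ?_⟩ <;> cases s <;> simp [rsbFull, h1, h2]

theorem rrs189_full_cut {F Λ : Finset (ℤ × ℤ)} (hin : ∀ v ∈ cornersOf F, ¬ OnPolygon Λ v) (s : Bool) : RswCut F s (rsbFull Λ s) :=
  fun e he => rrs189_full_good (mdl_ed_int hin (mdl_bd_iff.1 he).1)

/-- every finite set of faces lies well inside a box -/
theorem rrs189_box_exists (F : Finset (ℤ × ℤ)) : ∃ n : ℕ, 1 ≤ n ∧ F ⊆ rswBox 0 n ∧ ∀ v ∈ cornersOf F, ¬ OnPolygon (rswBox 0 n) v := by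
  have hb : ∀ f ∈ F, f.1.natAbs + f.2.natAbs ≤ F.sup (fun f => f.1.natAbs + f.2.natAbs) := fun f hf =>
    Finset.le_sup (f := fun f : ℤ × ℤ => f.1.natAbs + f.2.natAbs) hf
  obtain ⟨N, hN⟩ : ∃ N, N = F.sup (fun f => f.1.natAbs + f.2.natAbs) := ⟨_, rfl⟩
  rw [← hN] at hb
  have hm : ∀ x y : ℤ, -(N : ℤ) - 2 ≤ x → x ≤ N + 1 → -(N : ℤ) - 2 ≤ y → y ≤ N + 1 → (x, y) ∈ rswBox 0 (N + 2) := fun x y a1 a2 a3 a4 =>
    rrs189_mem_box.2 (by
      simp only [Prod.fst_zero, Prod.snd_zero, zero_sub, zero_add]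
      push_cast
      omega)
  have hb' : ∀ x y : ℤ, (x, y) ∈ F → -(N : ℤ) ≤ x ∧ x ≤ N ∧ -(N : ℤ) ≤ y ∧ y ≤ N := by
    intro x y h
    have := hb _ h
    simp only at this
    omega
  refine ⟨N + 2, by omega, fun f hf => ?_, fun v hv => ?_⟩
  · obtain ⟨x, y⟩ := f
    have := hb' x y hf
    exact hm x y (by omega) (by omega) (by omega) (by omega)
  · obtain ⟨x, y⟩ := v
    unfold OnPolygon
    rw [not_not]
    have hv' : -(N : ℤ) ≤ x ∧ x ≤ N + 1 ∧ -(N : ℤ) ≤ y ∧ y ≤ N + 1 := by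
      rcases rrs189_mem_corners.1 hv with h | h | h | h <;> have := hb' _ _ h <;> omega
    exact ⟨hm _ _ (by omega) (by omega) (by omega) (by omega), hm _ _ (by omega) (by omega) (by omega) (by omega),
      hm _ _ (by omega) (by omega) (by omega) (by omega), hm _ _ (by omega) (by omega) (by omega) (by omega)⟩

/-- **FKG UNDER A LEGAL HISTORY, ANY FINITE `F`**, unnormalised -/
theorem rrs189_fkg_gen {t : ℝ} (h0 : 0 < t) (h1 : t ≤ 1) (hS0 : RrsS0 t) (s a : Bool) (F : Finset (ℤ × ℤ)) {K : RswCon} (hK : K.Legal F)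
    {X Y : RswCfg → ℝ} (hX : MdlInc a X) (hY : MdlInc a Y) (iX : RskInside F X) (iY : RskInside F Y) :
    rswSum t F s (fun ω => rrsKI K ω * X ω) * rswSum t F s (fun ω => rrsKI K ω * Y ω) ≤
      rswSum t F s (rrsKI K) * rswSum t F s (fun ω => rrsKI K ω * (X ω * Y ω)) := by
  obtain ⟨n, hn, hF, hin⟩ := rrs189_box_exists F
  have key := hS0 n s a _ hn (rrs189_pin_ok hK (rrsBd F) s) X Y hX hY
  rw [rrs189_embed h0 h1 hF s s hK iX, rrs189_embed h0 h1 hF s s hK iY, rrs189_embed h0 h1 hF s s hK (rsk_inside_const F 1),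
    rrs189_embed h0 h1 hF s s hK (rsk_inside_mul iX iY)] at key
  have hc : 0 < rswSum t (rswBox 0 n) s (rskInd F s) :=
    rrs189_sum_pos h0 h1 _ s (fun ω => by unfold rskInd; split_ifs <;> norm_num) (by
      unfold rskInd
      rw [if_pos (rrs189_full_cut hin s)]
      norm_num)
  have hZ := rsb_Z_pos h0 h1 F s
  simp only [mul_one] at key
  unfold rswE at key
  obtain ⟨c, hcd⟩ : ∃ c, c = rswSum t (rswBox 0 n) s (rskInd F s) := ⟨_, rfl⟩
  obtain ⟨Z, hZd⟩ : ∃ Z, Z = rswSum t F s (fun _ => 1) := ⟨_, rfl⟩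
  rw [← hcd, ← hZd] at key
  rw [← hcd] at hc
  rw [← hZd] at hZ
  have e1 : ∀ p q : ℝ, p / Z * c * (q / Z * c) = (p * q) * (c / Z) ^ 2 := fun p q => by
    field_simp
  rw [e1, e1] at key
  exact le_of_mul_le_mul_right key (by positivity)

/-- **(S0) on the boxes is PROVED** (291 `cmp291_exit_cmp`, 219 `bj219_box_jordan`) -/
theorem rrs189_S0 {t : ℝ} (ht1 : 1 / 2 ≤ t) (ht2 : t < 1) : RrsS0 t :=
  fun n b a K hn hK X Y hX hY => cmp291_exit_cmp t ht1 ht2 _ (bj219_box_jordan 0 hn) b a K hK X Y hX hY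

theorem rrs189_sep_mdl (F : Finset (ℤ × ℤ)) (a : Bool) (O A : Finset (ℤ × ℤ)) {ω ω' : RswCfg} (h : MdlLe a ω ω') (hs : RswSep F a ω O A) :
    RswSep F a ω' O A := by
  intro f hf g hg hp
  refine hs f hf g hg (ReflTransGen.mono ?_ _ _ hp)
  rintro x y ⟨hx, hy, e, he, hne⟩
  exact ⟨hx, hy, e, he, fun hgood => hne (h.2.1 e hgood)⟩

theorem rrs189_step_in (F : Finset (ℤ × ℤ)) (a : Bool) (ω : RswCfg) : RswStep F a (rskIn F ω) = RswStep F a ω := by
  funext x y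
  refine propext ⟨?_, ?_⟩
  · rintro ⟨hx, hy, e, he, hne⟩
    refine ⟨hx, hy, e, he, fun hg => hne ((rrs189_good_in (rsb_mem_int.2 ?_)).2 hg)⟩
    rcases he with ⟨rfl, rfl⟩ | ⟨rfl, rfl⟩
    · exact ⟨hx, hy⟩
    · exact ⟨hy, hx⟩
  · rintro ⟨hx, hy, e, he, hne⟩
    refine ⟨hx, hy, e, he, fun hg => hne ((rrs189_good_in (rsb_mem_int.2 ?_)).1 hg)⟩
    rcases he with ⟨rfl, rfl⟩ | ⟨rfl, rfl⟩
    · exact ⟨hx, hy⟩
    · exact ⟨hy, hx⟩

theorem rrs189_sep_in (F : Finset (ℤ × ℤ)) (a : Bool) (O A : Finset (ℤ × ℤ)) (ω : RswCfg) :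
    RswSep F a (rskIn F ω) O A ↔ RswSep F a ω O A := by
  unfold RswSep
  rw [rrs189_step_in]

/-- FKG for two EVENTS under a legal history, any finite `F`, probability form -/
theorem rrs189_fkg_PK {t : ℝ} (h0 : 0 < t) (h1 : t ≤ 1) (hS0 : RrsS0 t) (s a : Bool) (F : Finset (ℤ × ℤ)) {K : RswCon} (hK : K.Legal F)
    (hf : K.Feas t F s) {L₁ L₂ : RswCfg → Prop} (m₁ : ∀ ω ω', MdlLe a ω ω' → L₁ ω → L₁ ω') (m₂ : ∀ ω ω', MdlLe a ω ω' → L₂ ω → L₂ ω')
    (i₁ : ∀ ω, L₁ (rskIn F ω) ↔ L₁ ω) (i₂ : ∀ ω, L₂ (rskIn F ω) ↔ L₂ ω) :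
    rswPK t F s K L₁ * rswPK t F s K L₂ ≤ rswPK t F s K (fun ω => L₁ ω ∧ L₂ ω) := by
  classical
  have inc : ∀ L : RswCfg → Prop, (∀ ω ω', MdlLe a ω ω' → L ω → L ω') → MdlInc a (fun ω => if L ω then (1 : ℝ) else 0) := by
    intro L m ω ω' hle
    by_cases hL : L ω
    · simp only [if_pos hL, if_pos (m ω ω' hle hL)]; exact le_rfl
    · simp only [if_neg hL]; split_ifs <;> norm_num
  have ins : ∀ L : RswCfg → Prop, (∀ ω, L (rskIn F ω) ↔ L ω) → RskInside F (fun ω => if L ω then (1 : ℝ) else 0) :=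
    fun L i ω => if_congr (i ω) rfl rfl
  have key := rrs189_fkg_gen h0 h1 hS0 s a F hK (inc L₁ m₁) (inc L₂ m₂) (ins L₁ i₁) (ins L₂ i₂)
  have e : ∀ L : RswCfg → Prop, (fun ω => rrsKI K ω * (if L ω then (1 : ℝ) else 0)) = fun ω => if K.Holds ω ∧ L ω then (1 : ℝ) else 0 := by
    intro L
    funext ω
    unfold rrsKI
    by_cases a1 : K.Holds ω <;> by_cases a2 : L ω <;> simp [a1, a2]
  have e12 : (fun ω => rrsKI K ω * ((if L₁ ω then (1 : ℝ) else 0) * (if L₂ ω then (1 : ℝ) else 0))) =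
      fun ω => if K.Holds ω ∧ (L₁ ω ∧ L₂ ω) then (1 : ℝ) else 0 := by
    funext ω
    unfold rrsKI
    by_cases a1 : K.Holds ω <;> by_cases a2 : L₁ ω <;> by_cases a3 : L₂ ω <;> simp [a1, a2, a3]
  have eK : rrsKI K = fun ω => if K.Holds ω then (1 : ℝ) else 0 := rfl
  rw [e L₁, e L₂, e12, eK] at key
  have hf' : 0 < rswSum t F s (fun ω => if K.Holds ω then (1 : ℝ) else 0) := hf
  unfold rswPK
  rw [div_mul_div_comm, div_le_div_iff₀ (mul_pos hf' hf') hf']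
  calc _ ≤ (rswSum t F s (fun ω => if K.Holds ω then (1 : ℝ) else 0) * rswSum t F s (fun ω => if K.Holds ω ∧ (L₁ ω ∧ L₂ ω) then (1 : ℝ) else 0)) *
        rswSum t F s (fun ω => if K.Holds ω then (1 : ℝ) else 0) := mul_le_mul_of_nonneg_right key hf'.le
    _ = _ := by ring_nf

/-- **the tool `RrsFkg`** from (S0) on the boxes -/
theorem rrs189_fkg_of {t : ℝ} (h0 : 0 < t) (h1 : t ≤ 1) (hS0 : RrsS0 t) : RrsFkg t := by
  intro s a F b K O₁ A₁ O₂ A₂ hK hb hf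
  exact rrs189_fkg_PK h0 h1 hS0 s a F (rnz_legal_mono hb hK) hf (fun ω ω' h => rrs189_sep_mdl F a O₁ A₁ h) (fun ω ω' h => rrs189_sep_mdl F a O₂ A₂ h)
    (rrs189_sep_in F a O₁ A₁) (rrs189_sep_in F a O₂ A₂)

theorem rrs189_sumK_free (t : ℝ) (Λ F : Finset (ℤ × ℤ)) (b s : Bool) (G : RswCfg → ℝ) :
    mdlSumK t Λ b (rrsPin rswFree (rrsBd F) s) G = rswSum t Λ b (fun ω => rskInd F s ω * G ω) := by
  classical
  unfold mdlSumK
  congr 1
  funext ω
  unfold rskInd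
  by_cases a2 : RswCut F s ω
  · rw [if_pos ((rrs189_pin_holds _ _ _ _).2 ⟨rnz_free_holds ω, rrs189_cut_iff.2 a2⟩), if_pos a2, one_mul]
  · rw [if_neg (fun hc => a2 (rrs189_cut_iff.1 ((rrs189_pin_holds _ _ _ _).1 hc).2)), if_neg a2, zero_mul]

/-- the cut of a larger set of faces is read off the strict inside of a smaller one -/
theorem rrs189_ind_outside {F F' : Finset (ℤ × ℤ)} (h : F ⊆ F') (a : Bool) : RskOutside F (rskInd F' a) := by
  classical
  refine rsk_outside_of_good (a := a) fun ω ω' hg => ?_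
  unfold rskInd
  refine if_congr ?_ rfl rfl
  unfold RswCut
  exact forall₂_congr fun e he => hg e (fun hi => rsk_bd_not_int he (rsk_int_mono h hi))

/-- **DOMAIN MONOTONICITY**, colour form: `A` favourable to `a` (increasing for `MdlLe a`), boundary colour `!a`: `P^{!a}_F(A) ≤ P^{!a}_{F'}(A)` for `F ⊆ F'` -/
theorem rrs189_dom_gen {t : ℝ} (h0 : 0 < t) (h1 : t ≤ 1) (hS0 : RrsS0 t) (a : Bool) {F F' : Finset (ℤ × ℤ)} (hFF : F ⊆ F') {X : RswCfg → ℝ}
    (hX : MdlInc a X) (iX : RskInside F X) (iX' : RskInside F' X) : rswE t F (!a) X ≤ rswE t F' (!a) X := by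
  classical
  obtain ⟨n, hn, hF', hin'⟩ := rrs189_box_exists F'
  have hin : ∀ v ∈ cornersOf F, ¬ OnPolygon (rswBox 0 n) v := fun v hv => hin' v (rnz_corners_mono hFF hv)
  have hY : MdlInc a (fun ω => 1 - rskInd F (!a) ω) := by
    intro ω ω' hle
    show 1 - rskInd F (!a) ω ≤ 1 - rskInd F (!a) ω'
    unfold rskInd
    by_cases hc' : RswCut F (!a) ω'
    · have hc : RswCut F (!a) ω := fun e he => hle.2.2 e (hc' e he)
      rw [if_pos hc, if_pos hc']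
    · rw [if_neg hc']
      split_ifs <;> norm_num
  have key := hS0 n (!a) a _ hn (rrs189_pin_ok (rnz_free_legal F') (rrsBd F') (!a)) X _ hX hY
  have s1 : (fun ω => X ω * (1 - rskInd F (!a) ω)) = fun ω => X ω - X ω * rskInd F (!a) ω := by
    funext ω; ring
  rw [s1, mdl_sumK_sub, mdl_sumK_sub] at key
  simp only [rrs189_sumK_free] at key
  -- the four sums
  have c1 := rsk_cut h0 h1 hF' (!a) (!a) iX' (rsk_outside_const F' 1)
  have c2 := rsk_cut h0 h1 (hFF.trans hF') (!a) (!a) iX (rrs189_ind_outside hFF (!a))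
  simp only [mul_one] at c1 key
  have r2 : (fun ω => rskInd F' (!a) ω * (X ω * rskInd F (!a) ω)) = fun ω => rskInd F (!a) ω * X ω * rskInd F' (!a) ω := by
    funext ω; ring
  have r3 : (fun ω => rskInd F' (!a) ω * rskInd F (!a) ω) = fun ω => rskInd F (!a) ω * rskInd F' (!a) ω := by
    funext ω; ring
  rw [r2, r3, c1, c2] at key
  have p1 : 0 < rswSum t (rswBox 0 n) (!a) (fun ω => rskInd F' (!a) ω) :=
    rrs189_sum_pos h0 h1 _ _ (fun ω => by unfold rskInd; split_ifs <;> norm_num) (by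
      unfold rskInd
      rw [if_pos (rrs189_full_cut hin' _)]
      norm_num)
  have p2 : 0 < rswSum t (rswBox 0 n) (!a) (fun ω => rskInd F (!a) ω * rskInd F' (!a) ω) :=
    rrs189_sum_pos h0 h1 _ _ (fun ω => mul_nonneg (by unfold rskInd; split_ifs <;> norm_num) (by unfold rskInd; split_ifs <;> norm_num)) (by
      unfold rskInd
      rw [if_pos (rrs189_full_cut hin' _), if_pos (rrs189_full_cut hin _)]
      norm_num)
  obtain ⟨m1, hm1⟩ : ∃ m, m = rswSum t (rswBox 0 n) (!a) (fun ω => rskInd F' (!a) ω) := ⟨_, rfl⟩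
  obtain ⟨m2, hm2⟩ : ∃ m, m = rswSum t (rswBox 0 n) (!a) (fun ω => rskInd F (!a) ω * rskInd F' (!a) ω) := ⟨_, rfl⟩
  rw [← hm1, ← hm2] at key
  rw [← hm1] at p1
  rw [← hm2] at p2
  have : rswE t F (!a) X * (m1 * m2) ≤ rswE t F' (!a) X * (m1 * m2) := by nlinarith
  exact le_of_mul_le_mul_right this (mul_pos p1 p2)

theorem rrs189_le_of_mdl {ω ω' : RswCfg} (h : MdlLe true ω ω') : RswLe ω ω' :=
  ⟨fun v hv => (h.1 v (iff_of_true hv rfl)).2 rfl, h.2.1, h.2.2⟩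

/-- **the tool `RrsDomM`** from (S0) on the boxes -/
theorem rrs189_domM_of {t : ℝ} (h0 : 0 < t) (h1 : t ≤ 1) (hS0 : RrsS0 t) : RrsDomM t := by
  classical
  intro F F' A hFF hA hl
  have hX : MdlInc true (fun ω => if A ω then (1 : ℝ) else 0) := by
    intro ω ω' hle
    by_cases hL : A ω
    · simp only [if_pos hL, if_pos (hA ω ω' (rrs189_le_of_mdl hle) hL)]; exact le_rfl
    · simp only [if_neg hL]; split_ifs <;> norm_num
  have := rrs189_dom_gen h0 h1 hS0 true hFF hX (rrs189_inside (Finset.Subset.refl F) hl) (rrs189_inside hFF hl)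
  exact this

/-- **(SEP2) FROM (BOX) AND (COR) ONLY** (`1/2 ≤ t < 1`): all the soft tools are proved -/
theorem rrs189_sep2_v3 {t : ℝ} (ht1 : 1 / 2 ≤ t) (ht2 : t < 1) (hB : RrsBox t) (hC : RnzCor t) : RnzSep2 t :=
  have h0 : 0 < t := by linarith
  rrs189_sep2_v2 h0 ht2.le (rrs189_fkg_of h0 ht2.le (rrs189_S0 ht1 ht2)) hB (rrs189_domM_of h0 ht2.le (rrs189_S0 ht1 ht2)) hC

/-! ## 9. THE ORDER TOOLS WITHOUT LOCALITY, IN THE VOCABULARY OF THE KIT (`rnzN`, `rnzZ`); THE EXITS WITHOUT HYPOTHESES -/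

/-- real observable, increasing for `RswLe` -/
def RrsMono (X : RswCfg → ℝ) : Prop := ∀ ω ω' : RswCfg, RswLe ω ω' → X ω ≤ X ω'

theorem rrs189_in_in (F : Finset (ℤ × ℤ)) (ω : RswCfg) : rskIn F (rskIn F ω) = rskIn F ω := by
  unfold rskIn
  simp only [Finset.inter_assoc, Finset.inter_self]

theorem rrs189_in_self {F : Finset (ℤ × ℤ)} {ω : RswCfg} (h : RsbIn F ω) : rskIn F ω = ω := by
  obtain ⟨S, D, O⟩ := ω
  obtain ⟨a1, a2, a3⟩ := h
  unfold rskIn
  simp only [Finset.inter_eq_left.2 a1, Finset.inter_eq_left.2 a2, Finset.inter_eq_left.2 a3]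

theorem rrs189_good_in_int {F : Finset (ℤ × ℤ)} {a : Bool} {ω : RswCfg} {e : (ℤ × ℤ) × Bool} (h : RswGood a (rskIn F ω) e) : e ∈ rswInt F :=
  (Finset.mem_inter.1 h.1).2

theorem rrs189_in_le (F : Finset (ℤ × ℤ)) {ω ω' : RswCfg} (h : RswLe ω ω') : RswLe (rskIn F ω) (rskIn F ω') := by
  refine ⟨Finset.inter_subset_inter_right h.1, fun e he => ?_, fun e he => ?_⟩
  · have hi := rrs189_good_in_int he
    exact (rrs189_good_in hi).2 (h.2.1 e ((rrs189_good_in hi).1 he))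
  · have hi := rrs189_good_in_int he
    exact (rrs189_good_in hi).2 (h.2.2 e ((rrs189_good_in hi).1 he))

theorem rrs189_N_in (t : ℝ) (F : Finset (ℤ × ℤ)) (s : Bool) (K : RswCon) (X : RswCfg → ℝ) :
    rnzN t F s K (fun ω => X (rskIn F ω)) = rnzN t F s K X := by
  unfold rnzN
  exact rsb_sum_congr fun ω hω _ => by
    show rsxInd (K.Holds ω) * X (rskIn F ω) = rsxInd (K.Holds ω) * X ω
    rw [rrs189_in_self hω]

/-- **FKG UNDER A LEGAL HISTORY, ANY FINITE `F`, REAL OBSERVABLES INCREASING FOR `RswLe`, NO LOCALITY** -/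
theorem rrs189_fkg_N {t : ℝ} (ht1 : 1 / 2 ≤ t) (ht2 : t < 1) (F : Finset (ℤ × ℤ)) (s : Bool) {K : RswCon} (hK : K.Legal F)
    {X Y : RswCfg → ℝ} (hX : RrsMono X) (hY : RrsMono Y) :
    rnzN t F s K X * rnzN t F s K Y ≤ rnzZ t F s K * rnzN t F s K (fun ω => X ω * Y ω) := by
  have h0 : 0 < t := by linarith
  have inc : ∀ G : RswCfg → ℝ, RrsMono G → MdlInc true (fun ω => G (rskIn F ω)) :=
    fun G hG ω ω' hle => hG _ _ (rrs189_in_le F (rrs189_le_of_mdl hle))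
  have ins : ∀ G : RswCfg → ℝ, RskInside F (fun ω => G (rskIn F ω)) := fun G ω => by
    show G (rskIn F (rskIn F ω)) = G (rskIn F ω)
    rw [rrs189_in_in]
  have key := rrs189_fkg_gen h0 ht2.le (rrs189_S0 ht1 ht2) s true F hK (inc X hX) (inc Y hY) (ins X) (ins Y)
  have e1 := rrs189_N_in t F s K X
  have e2 := rrs189_N_in t F s K Y
  have e3 := rrs189_N_in t F s K (fun ω => X ω * Y ω)
  have eZ : rnzZ t F s K = rswSum t F s (rrsKI K) := by
    unfold rnzZ rnzN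
    exact rsb_sum_congr fun ω _ _ => mul_one _
  rw [← e1, ← e2, ← e3, eZ]
  exact key

/-- increasing x decreasing -/
theorem rrs189_fkg_N_neg {t : ℝ} (ht1 : 1 / 2 ≤ t) (ht2 : t < 1) (F : Finset (ℤ × ℤ)) (s : Bool) {K : RswCon} (hK : K.Legal F)
    {X Y : RswCfg → ℝ} (hX : RrsMono X) (hY : RrsMono (fun ω => -Y ω)) :
    rnzZ t F s K * rnzN t F s K (fun ω => X ω * Y ω) ≤ rnzN t F s K X * rnzN t F s K Y := by
  have key := rrs189_fkg_N ht1 ht2 F s hK hX hY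
  have n1 : ∀ G : RswCfg → ℝ, rnzN t F s K (fun ω => -G ω) = -rnzN t F s K G := by
    intro G
    unfold rnzN
    rw [← rsb_sum_neg]
    exact rsb_sum_congr fun ω _ _ => by ring
  have n2 : (fun ω => X ω * -Y ω) = fun ω => -(X ω * Y ω) := by
    funext ω; ring
  rw [n2, n1, n1] at key
  linarith

/-- FKG for two increasing EVENTS under a legal history, probability form, no locality -/
theorem rrs189_fkg_PK_inc {t : ℝ} (ht1 : 1 / 2 ≤ t) (ht2 : t < 1) (F : Finset (ℤ × ℤ)) (s : Bool) {K : RswCon} (hK : K.Legal F) (hf : K.Feas t F s)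
    {L₁ L₂ : RswCfg → Prop} (m₁ : RswInc L₁) (m₂ : RswInc L₂) :
    rswPK t F s K L₁ * rswPK t F s K L₂ ≤ rswPK t F s K (fun ω => L₁ ω ∧ L₂ ω) := by
  have inc : ∀ L : RswCfg → Prop, RswInc L → RrsMono (fun ω => rsxInd (L ω)) := fun L m ω ω' hle => rnz_ind_mono (m ω ω' hle)
  have key := rrs189_fkg_N ht1 ht2 F s hK (inc L₁ m₁) (inc L₂ m₂)
  have hZ := (rnz_feas_iff t F s K).1 hf
  rw [rnz_PK_eq, rnz_PK_eq, rnz_PK_eq, div_mul_div_comm, div_le_div_iff₀ (mul_pos hZ hZ) hZ]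
  simp only [rnz_ind_and]
  nlinarith

/-- **`RrsFkg t`, NO HYPOTHESIS** -/
theorem rrs189_fkg {t : ℝ} (ht1 : 1 / 2 ≤ t) (ht2 : t < 1) : RrsFkg t :=
  rrs189_fkg_of (by linarith) ht2.le (rrs189_S0 ht1 ht2)

/-- **`RrsDomM t`, NO HYPOTHESIS** -/
theorem rrs189_domM {t : ℝ} (ht1 : 1 / 2 ≤ t) (ht2 : t < 1) : RrsDomM t :=
  rrs189_domM_of (by linarith) ht2.le (rrs189_S0 ht1 ht2)

/-- **`Rrt109Fkg t` (T1 of 109), NO HYPOTHESIS** -/
theorem rrs189_rrt_fkg {t : ℝ} (ht1 : 1 / 2 ≤ t) (ht2 : t < 1) : Rrt109Fkg t := by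
  intro F b L₁ L₂ m₁ m₂
  have h0 : 0 < t := by linarith
  have := rrs189_fkg_PK_inc ht1 ht2 F b (rnz_free_legal F) (rrt109_free_feas h0 ht2.le F b) m₁ m₂
  rwa [rnz_PK_free, rnz_PK_free, rnz_PK_free] at this

/-- **`Rrt109Dom t` (T2 of 109), NO HYPOTHESIS** -/
theorem rrs189_rrt_dom {t : ℝ} (ht1 : 1 / 2 ≤ t) (ht2 : t < 1) : Rrt109Dom t := rrs189_domM ht1 ht2

/-- **`RcMono t` (contract of CoreTop121), NO HYPOTHESIS** -/
theorem rrs189_rcMono {t : ℝ} (ht1 : 1 / 2 ≤ t) (ht2 : t < 1) : RcMono t :=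
  rrt109_mono (by linarith) ht2.le (rrs189_rrt_fkg ht1 ht2)

/-- (BOX) of 109 is `RrsBox` -/
theorem rrs189_box_of_hp {t : ℝ} (h0 : 0 < t) (h1 : t ≤ 1) (hHP : RnzHP t) : RrsBox t := fun C k => rrt109_box h0 h1 hHP C k

/-- **(SEP2) FROM (HP) AND (COR)** -/
theorem rrs189_sep2_hp {t : ℝ} (ht1 : 1 / 2 ≤ t) (ht2 : t < 1) (hHP : RnzHP t) (hC : RnzCor t) : RnzSep2 t :=
  rrs189_sep2_v3 ht1 ht2 (rrs189_box_of_hp (by linarith) ht2.le hHP) hC

/-- **(REC) FROM (HP) AND (COR)**: the whole of A5 but B5 and B6 -/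
theorem rrs189_rec {t : ℝ} (ht1 : 1 / 2 ≤ t) (ht2 : t < 1) (hHP : RnzHP t) (hC : RnzCor t) : RcRec t :=
  rrt109_rec_hp t (by linarith) ht2.le (rrs189_rrt_fkg ht1 ht2) hHP (rrs189_sep2_hp ht1 ht2 hHP hC)

/-! ## 10. THE COLOUR FLIP of histories (cut of B6 with 109; also serves B5) -/

/-- the history with the two colours exchanged -/
def rrsFlipK (K : RswCon) : RswCon := ⟨K.Sm, K.Sp, K.Gm, K.Gp, K.Cl⟩

theorem rrs189_flipK_flipK (K : RswCon) : rrsFlipK (rrsFlipK K) = K := rfl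

theorem rrs189_flipK_legal {K : RswCon} {b : Finset (ℤ × ℤ)} (h : K.Legal b) : (rrsFlipK K).Legal b := by
  refine ⟨h.sm, h.sp, ?_, ?_⟩
  · intro e he
    apply h.ed
    simp only [rrsFlipK, Finset.mem_union] at he ⊢
    tauto
  · intro e he
    have h1 : e ∈ K.Gp ∪ K.Gm ∪ K.Cl := by
      simp only [rrsFlipK, Finset.mem_union] at he ⊢
      tauto
    have h2 := h.full e h1
    simp only [rrsFlipK, Finset.mem_union] at h2 ⊢
    tauto

/-- the flipped configuration satisfies `K` iff the configuration satisfies the flipped history -/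
theorem rrs189_flipK_holds {K : RswCon} {F : Finset (ℤ × ℤ)} (h : K.Legal F) (ω : RswCfg) :
    K.Holds (rsbFlipS F ω) ↔ (rrsFlipK K).Holds ω := by
  have e1 : K.Sp ⊆ (rsbFlipS F ω).S ↔ ∀ v ∈ K.Sp, v ∉ ω.S :=
    ⟨fun H v hv => (rsb_flipS_mem (h.sp hv)).1 (H hv), fun H v hv => (rsb_flipS_mem (h.sp hv)).2 (H v hv)⟩
  have e2 : (∀ v ∈ K.Sm, v ∉ (rsbFlipS F ω).S) ↔ K.Sm ⊆ ω.S :=
    ⟨fun H v hv => by
      by_contra hc
      exact H v hv ((rsb_flipS_mem (h.sm hv)).2 hc), fun H v hv hc => (rsb_flipS_mem (h.sm hv)).1 hc (H hv)⟩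
  have e3 : (∀ e ∈ K.Gp, RswGood true (rsbFlipS F ω) e) ↔ ∀ e ∈ K.Gp, RswGood false ω e :=
    forall_congr' fun e => forall_congr' fun he =>
      rsb_good_flipS (a := false) (h.ed (by simp only [Finset.mem_union]; tauto))
  have e4 : (∀ e ∈ K.Gm, RswGood false (rsbFlipS F ω) e) ↔ ∀ e ∈ K.Gm, RswGood true ω e :=
    forall_congr' fun e => forall_congr' fun he =>
      rsb_good_flipS (a := true) (h.ed (by simp only [Finset.mem_union]; tauto))
  have e5 : (∀ e ∈ K.Cl, e ∉ (rsbFlipS F ω).O) ↔ ∀ e ∈ K.Cl, e ∉ ω.O := Iff.rfl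
  unfold RswCon.Holds
  rw [e1, e2, e3, e4, e5]
  simp only [rrsFlipK]
  tauto

theorem rrs189_flip_sumK (t : ℝ) {K : RswCon} {F : Finset (ℤ × ℤ)} (h : K.Legal F) (s : Bool) (L : RswCfg → Prop) :
    (open Classical in rswSum t F (!s) (fun ω => if K.Holds ω ∧ L ω then (1 : ℝ) else 0)) =
      (open Classical in rswSum t F s (fun ω => if (rrsFlipK K).Holds ω ∧ L (rsbFlipS F ω) then (1 : ℝ) else 0)) := by
  classical
  rw [rsb_sum_flipS]
  refine congrArg _ (funext fun ω => ?_)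
  exact if_congr (and_congr (rrs189_flipK_holds h ω) Iff.rfl) rfl rfl

theorem rrs189_flip_sumK1 (t : ℝ) {K : RswCon} {F : Finset (ℤ × ℤ)} (h : K.Legal F) (s : Bool) :
    (open Classical in rswSum t F (!s) (fun ω => if K.Holds ω then (1 : ℝ) else 0)) =
      (open Classical in rswSum t F s (fun ω => if (rrsFlipK K).Holds ω then (1 : ℝ) else 0)) := by
  classical
  rw [rsb_sum_flipS]
  refine congrArg _ (funext fun ω => ?_)
  exact if_congr (rrs189_flipK_holds h ω) rfl rfl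

/-- feasibility under the flip -/
theorem rrs189_flip_feas {t : ℝ} {K : RswCon} {F : Finset (ℤ × ℤ)} (h : K.Legal F) (s : Bool) :
    K.Feas t F (!s) ↔ (rrsFlipK K).Feas t F s := by
  unfold RswCon.Feas
  rw [rrs189_flip_sumK1 t h s]

/-- **the conditional law under the flip** -/
theorem rrs189_flip_PK (t : ℝ) {K : RswCon} {F : Finset (ℤ × ℤ)} (h : K.Legal F) (s : Bool) (L : RswCfg → Prop) :
    rswPK t F (!s) K L = rswPK t F s (rrsFlipK K) (fun ω => L (rsbFlipS F ω)) := by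
  unfold rswPK
  rw [rrs189_flip_sumK t h s L, rrs189_flip_sumK1 t h s]

/-- separation of the colour of the boundary condition under the flip -/
theorem rrs189_flip_PK_sep (t : ℝ) {K : RswCon} {F : Finset (ℤ × ℤ)} (h : K.Legal F) (s a : Bool) (A B : Finset (ℤ × ℤ)) :
    rswPK t F (!s) K (fun ω => RswSep F (!a) ω A B) = rswPK t F s (rrsFlipK K) (fun ω => RswSep F a ω A B) := by
  rw [rrs189_flip_PK t h s]
  simp only [rsb_sep_flipS]

/-- **(COR) of one colour gives (COR) of the other colour** -/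
theorem rrs189_cord_flip {t : ℝ} {s : Bool} {l τ : ℤ × ℤ → ℤ} (h : RnzCord t s l τ) : RnzCord t (!s) l τ := by
  obtain ⟨δ, hδ, r₀, H⟩ := h
  refine ⟨δ, hδ, r₀, fun r p c F K hr hF hK hKf => ?_⟩
  have hKF : K.Legal F := rnz_legal_mono (Finset.filter_subset _ _) hK
  rw [rrs189_flip_PK_sep t hKF s s]
  exact H r p c F (rrsFlipK K) hr hF (rrs189_flipK_legal hK) ((rrs189_flip_feas hKF s).1 hKf)

/-- **(HP) of one colour gives (HP) of the other colour** -/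
theorem rrs189_hpd_flip {t : ℝ} {s : Bool} {l τ : ℤ × ℤ → ℤ} (h : RnzHPd t s l τ) : RnzHPd t (!s) l τ := by
  intro C
  obtain ⟨δ, hδ, H₀, H⟩ := h C
  refine ⟨δ, hδ, H₀, fun Hh c F K hH hF hw hK hKf => ?_⟩
  have hKF : K.Legal F := rnz_legal_mono (Finset.filter_subset _ _) hK
  rw [rrs189_flip_PK_sep t hKF s s]
  exact H Hh c F (rrsFlipK K) hH hF hw (rrs189_flipK_legal hK) ((rrs189_flip_feas hKF s).1 hKf)

/-- (COR) from the plus colour -/
theorem rrs189_cor_of_plus {t : ℝ} (h1 : RnzCord t true (fun f => f.1) (fun f => f.2))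
    (h2 : RnzCord t true (fun f => f.2) (fun f => f.1)) : RnzCor t := by
  intro s
  cases s
  · exact ⟨rrs189_cord_flip (s := true) h1, rrs189_cord_flip (s := true) h2⟩
  · exact ⟨h1, h2⟩

/-- (HP) from the plus colour -/
theorem rrs189_hp_of_plus {t : ℝ} (h1 : RnzHPd t true (fun f => f.2) (fun f => f.1)) (h2 : RnzHPd t true (fun f => -f.2) (fun f => f.1))
    (h3 : RnzHPd t true (fun f => f.1) (fun f => f.2)) (h4 : RnzHPd t true (fun f => -f.1) (fun f => f.2)) : RnzHP t := by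
  intro s
  cases s
  · exact ⟨rrs189_hpd_flip (s := true) h1, rrs189_hpd_flip (s := true) h2, rrs189_hpd_flip (s := true) h3, rrs189_hpd_flip (s := true) h4⟩
  · exact ⟨h1, h2, h3, h4⟩

/-! ## 11. LATTICE SYMMETRIES of histories: (HP) and (COR) need ONE direction -/

/-- the image of a history under a lattice symmetry -/
def rrsMapK (g : RsySym) (K : RswCon) : RswCon := ⟨g.mV K.Sp, g.mV K.Sm, g.mE K.Gp, g.mE K.Gm, g.mE K.Cl⟩

theorem rrs189_all_mV (g : RsySym) (A : Finset (ℤ × ℤ)) (p : ℤ × ℤ → Prop) : (∀ v ∈ g.mV A, p v) ↔ ∀ v ∈ A, p (g.V v) :=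
  ⟨fun h v hv => h _ ((rsy_mem_mV g A v).2 hv), fun h v hv => by
    have := h _ ((rsy_mem_mV' g A v).1 hv)
    simpa using this⟩

theorem rrs189_all_mE (g : RsySym) (A : Finset ((ℤ × ℤ) × Bool)) (p : (ℤ × ℤ) × Bool → Prop) : (∀ e ∈ g.mE A, p e) ↔ ∀ e ∈ A, p (g.E e) :=
  ⟨fun h e he => h _ ((rsy_mem_mE g A e).2 he), fun h e he => by
    have := h _ ((rsy_mem_mE' g A e).1 he)
    simpa using this⟩

theorem rrs189_all_mF (g : RsySym) (A : Finset (ℤ × ℤ)) (p : ℤ × ℤ → Prop) : (∀ f ∈ g.mF A, p f) ↔ ∀ f ∈ A, p (g.Fc f) :=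
  ⟨fun h f hf => h _ ((rsy_mem_mF g A f).2 hf), fun h f hf => by
    have := h _ ((rsy_mem_mF' g A f).1 hf)
    simpa using this⟩

theorem rrs189_mapK_holds (g : RsySym) (K : RswCon) (ω : RswCfg) : (rrsMapK g K).Holds (g.act ω) ↔ K.Holds ω := by
  unfold RswCon.Holds
  have e1 : (rrsMapK g K).Sp ⊆ (g.act ω).S ↔ K.Sp ⊆ ω.S := rsy_mV_subset g
  have e2 : (∀ v ∈ (rrsMapK g K).Sm, v ∉ (g.act ω).S) ↔ ∀ v ∈ K.Sm, v ∉ ω.S := by
    refine (rrs189_all_mV g K.Sm _).trans (forall_congr' fun v => forall_congr' fun _ => not_congr ?_)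
    exact rsy_mem_mV g ω.S v
  have e3 : (∀ e ∈ (rrsMapK g K).Gp, RswGood true (g.act ω) e) ↔ ∀ e ∈ K.Gp, RswGood true ω e :=
    (rrs189_all_mE g K.Gp _).trans (forall_congr' fun e => forall_congr' fun _ => rsy_good g true ω e)
  have e4 : (∀ e ∈ (rrsMapK g K).Gm, RswGood false (g.act ω) e) ↔ ∀ e ∈ K.Gm, RswGood false ω e :=
    (rrs189_all_mE g K.Gm _).trans (forall_congr' fun e => forall_congr' fun _ => rsy_good g false ω e)
  have e5 : (∀ e ∈ (rrsMapK g K).Cl, e ∉ (g.act ω).O) ↔ ∀ e ∈ K.Cl, e ∉ ω.O :=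
    (rrs189_all_mE g K.Cl _).trans (forall_congr' fun e => forall_congr' fun _ => not_congr (rsy_memO g ω e))
  rw [e1, e2, e3, e4, e5]

theorem rrs189_mapK_legal (g : RsySym) {K : RswCon} {b : Finset (ℤ × ℤ)} (h : K.Legal b) : (rrsMapK g K).Legal (g.mF b) := by
  have hU : (rrsMapK g K).Gp ∪ (rrsMapK g K).Gm ∪ (rrsMapK g K).Cl = g.mE (K.Gp ∪ K.Gm ∪ K.Cl) := by
    simp only [rrsMapK, RsySym.mE, Finset.map_union]
  have hV : (rrsMapK g K).Sp ∪ (rrsMapK g K).Sm = g.mV (K.Sp ∪ K.Sm) := by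
    simp only [rrsMapK, RsySym.mV, Finset.map_union]
  refine ⟨?_, ?_, ?_, ?_⟩
  · rw [rsy_cornersOf]; exact (rsy_mV_subset g).2 h.sp
  · rw [rsy_cornersOf]; exact (rsy_mV_subset g).2 h.sm
  · rw [hU, rsy_int]; exact (rsy_mE_subset g).2 h.ed
  · rw [hU, hV, rrs189_all_mE]
    intro e he
    obtain ⟨h1, h2⟩ := h.full e he
    rcases g.ends e with ⟨k1, k2⟩ | ⟨k1, k2⟩
    · rw [k1, k2]; exact ⟨(rsy_mem_mV g _ _).2 h1, (rsy_mem_mV g _ _).2 h2⟩
    · rw [k1, k2]; exact ⟨(rsy_mem_mV g _ _).2 h2, (rsy_mem_mV g _ _).2 h1⟩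

theorem rrs189_map_feas (g : RsySym) (t : ℝ) (K : RswCon) (F : Finset (ℤ × ℤ)) (s : Bool) :
    (rrsMapK g K).Feas t (g.mF F) s ↔ K.Feas t F s := by
  classical
  unfold RswCon.Feas
  rw [rsy_sum]
  have : (fun ω => if (rrsMapK g K).Holds (g.act ω) then (1 : ℝ) else 0) = fun ω => if K.Holds ω then (1 : ℝ) else 0 :=
    funext fun ω => if_congr (rrs189_mapK_holds g K ω) rfl rfl
  rw [this]

/-- **the conditional law is transported** -/
theorem rrs189_map_PK (g : RsySym) (t : ℝ) (K : RswCon) (F : Finset (ℤ × ℤ)) (s : Bool) (L : RswCfg → Prop) :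
    rswPK t (g.mF F) s (rrsMapK g K) L = rswPK t F s K (fun ω => L (g.act ω)) := by
  classical
  unfold rswPK
  rw [rsy_sum, rsy_sum]
  have e1 : (fun ω => if (rrsMapK g K).Holds (g.act ω) then (1 : ℝ) else 0) = fun ω => if K.Holds ω then (1 : ℝ) else 0 :=
    funext fun ω => if_congr (rrs189_mapK_holds g K ω) rfl rfl
  have e2 : (fun ω => if (rrsMapK g K).Holds (g.act ω) ∧ L (g.act ω) then (1 : ℝ) else 0) =
      fun ω => if K.Holds ω ∧ L (g.act ω) then (1 : ℝ) else 0 :=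
    funext fun ω => if_congr (and_congr (rrs189_mapK_holds g K ω) Iff.rfl) rfl rfl
  rw [e1, e2]

theorem rrs189_map_PK_sep (g : RsySym) (t : ℝ) (K : RswCon) (F : Finset (ℤ × ℤ)) (s a : Bool) (A B : Finset (ℤ × ℤ)) :
    rswPK t (g.mF F) s (rrsMapK g K) (fun ω => RswSep (g.mF F) a ω (g.mF A) (g.mF B)) = rswPK t F s K (fun ω => RswSep F a ω A B) := by
  rw [rrs189_map_PK]
  simp only [rsy_sep]

theorem rrs189_filter_mF (g : RsySym) (F : Finset (ℤ × ℤ)) (p q : ℤ × ℤ → Prop) [DecidablePred p] [DecidablePred q]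
    (h : ∀ f, p (g.Fc f) ↔ q f) : (g.mF F).filter p = g.mF (F.filter q) := by
  ext f
  rw [Finset.mem_filter, rsy_mem_mF', rsy_mem_mF', Finset.mem_filter]
  have := h (g.Fc.symm f)
  rw [Equiv.apply_symm_apply] at this
  rw [this]

/-- **(HP) is transported by a lattice symmetry** -/
theorem rrs189_hpd_map {t : ℝ} {s : Bool} {l τ l' τ' : ℤ × ℤ → ℤ} (g : RsySym) (k : ℤ) (hl : ∀ f, l (g.Fc f) = l' f + k)
    (hτ : ∀ f f', τ (g.Fc f) - τ (g.Fc f') = τ' f - τ' f') (h : RnzHPd t s l τ) : RnzHPd t s l' τ' := by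
  intro C
  obtain ⟨δ, hδ, H₀, H⟩ := h C
  refine ⟨δ, hδ, H₀, fun Hh c F K hH hF hw hK hKf => ?_⟩
  have e1 : (g.mF F).filter (fun f => c + k + Hh ≤ l f) = g.mF (F.filter (fun f => c + Hh ≤ l' f)) :=
    rrs189_filter_mF g F _ _ fun f => by rw [hl]; constructor <;> intro h <;> omega
  have e2 : (g.mF F).filter (fun f => l f ≤ c + k + (Hh / 10 : ℕ)) = g.mF (F.filter (fun f => l' f ≤ c + (Hh / 10 : ℕ))) :=
    rrs189_filter_mF g F _ _ fun f => by rw [hl]; constructor <;> intro h <;> omega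
  have e3 : (g.mF F).filter (fun f => c + k + (Hh / 5 : ℕ) ≤ l f) = g.mF (F.filter (fun f => c + (Hh / 5 : ℕ) ≤ l' f)) :=
    rrs189_filter_mF g F _ _ fun f => by rw [hl]; constructor <;> intro h <;> omega
  have key := H Hh (c + k) (g.mF F) (rrsMapK g K) hH
    ((rrs189_all_mF g F _).2 fun f hf => by rw [hl]; have := hF f hf; omega)
    ((rrs189_all_mF g F _).2 fun f hf => (rrs189_all_mF g F _).2 fun f' hf' => by rw [hτ]; exact hw f hf f' hf')
    (by rw [e1]; exact rrs189_mapK_legal g hK) ((rrs189_map_feas g t K F s).2 hKf)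
  rw [e2, e3, rrs189_map_PK_sep] at key
  exact key

/-- **(COR) is transported by a lattice symmetry** -/
theorem rrs189_cord_map {t : ℝ} {s : Bool} {l τ l' τ' : ℤ × ℤ → ℤ} (g : RsySym) (k k' : ℤ) (hl : ∀ f, l (g.Fc f) = l' f + k)
    (hτ : ∀ f, τ (g.Fc f) = τ' f + k') (h : RnzCord t s l τ) : RnzCord t s l' τ' := by
  obtain ⟨δ, hδ, r₀, H⟩ := h
  refine ⟨δ, hδ, r₀, fun r p c F K hr hF hK hKf => ?_⟩
  have e1 : (g.mF F).filter (fun f => l f ≤ p + k ∨ p + k + 6 * r ≤ l f) = g.mF (F.filter (fun f => l' f ≤ p ∨ p + 6 * r ≤ l' f)) :=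
    rrs189_filter_mF g F _ _ fun f => by rw [hl]; constructor <;> intro h <;> omega
  have e2 : (g.mF F).filter (fun f => l f ≤ p + k) = g.mF (F.filter (fun f => l' f ≤ p)) :=
    rrs189_filter_mF g F _ _ fun f => by rw [hl]; constructor <;> intro h <;> omega
  have e3 : (g.mF F).filter (fun f => p + k + 6 * r ≤ l f) = g.mF (F.filter (fun f => p + 6 * r ≤ l' f)) :=
    rrs189_filter_mF g F _ _ fun f => by rw [hl]; constructor <;> intro h <;> omega
  have key := H r (p + k) (c + k') (g.mF F) (rrsMapK g K) hr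
    ((rrs189_all_mF g F _).2 fun f hf => by rw [hτ]; have := hF f hf; omega)
    (by rw [e1]; exact rrs189_mapK_legal g hK) ((rrs189_map_feas g t K F s).2 hKf)
  rw [e2, e3, rrs189_map_PK_sep] at key
  exact key

/-- **(HP) FROM ONE DIRECTION AND ONE COLOUR** -/
theorem rrs189_hp_of_one {t : ℝ} (h : RnzHPd t true (fun f => f.2) (fun f => f.1)) : RnzHP t :=
  rrs189_hp_of_plus h
    (rrs189_hpd_map rsyRy (-1) (fun f => by show (-f.2 - 1 : ℤ) = -f.2 + -1; ring) (fun f f' => rfl) h)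
    (rrs189_hpd_map rsySw 0 (fun f => by show (f.1 : ℤ) = f.1 + 0; ring) (fun f f' => rfl) h)
    (rrs189_hpd_map (rsyRx.trans rsySw) (-1) (fun f => by show (-f.1 - 1 : ℤ) = -f.1 + -1; ring) (fun f f' => rfl) h)

/-- **(COR) FROM ONE ORIENTATION AND ONE COLOUR** -/
theorem rrs189_cor_of_one {t : ℝ} (h : RnzCord t true (fun f => f.1) (fun f => f.2)) : RnzCor t :=
  rrs189_cor_of_plus h
    (rrs189_cord_map rsySw 0 0 (fun f => by show (f.2 : ℤ) = f.2 + 0; ring) (fun f => by show (f.1 : ℤ) = f.1 + 0; ring) h)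

/-! ## 12. B5, THE PLANAR HALF: (HP) from the contract (HSS) on ONE explicit rectangle -/

/-- **comparison with a sea** (the three steps of `rrt109_cord_plus`, generic) -/
theorem rrs189_sea_cmp {t : ℝ} (h0 : 0 < t) (h1 : t ≤ 1) (hO : Rrt109Ord t) {n : ℕ} {F F₀ : Finset (ℤ × ℤ)} (hFΛ : F ⊆ rswBox 0 n) (h₀ : F₀ ⊆ F)
    {K Sea : RswCon} (hK : K.Legal F₀) (hfe : K.Feas t F true) (hS : Sea.Legal (rswBox 0 n)) (hle : Rrt109Le Sea (rrt109Amb (rswBox 0 n) F K))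
    {E L : RswCfg → Prop} (hE : RswInc E) (hEL : ∀ ω, E ω → L ω) (hL : RnzLoc F L) {c : ℝ} (hc : 0 < c)
    (hcon : c ≤ rswPK t (rswBox 0 n) true Sea E) : c ≤ rswPK t F true K L := by
  have hord := hO n true _ _ _ hS (rrt109_amb_legal (F := F) (h₀.trans hFΛ) hK) hle hE
  rw [rrt109_PK_eq] at hcon
  have hZ2 := rrt109_amb_feas h0 h1 hFΛ h₀ hK hfe
  have hmono := rsx_sum_mono h0.le h1 (rswBox 0 n) true (X := fun ω => rsxInd ((rrt109Amb (rswBox 0 n) F K).Holds ω ∧ E ω))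
    (Y := fun ω => rsxInd ((rrt109Amb (rswBox 0 n) F K).Holds ω ∧ L ω))
    (fun ω => by
      by_cases hh : (rrt109Amb (rswBox 0 n) F K).Holds ω ∧ E ω
      · rw [rsx_ind_pos hh, rsx_ind_pos ⟨hh.1, hEL ω hh.2⟩]
      · rw [rsx_ind_neg hh]; exact rsx_ind_nonneg _)
  rw [← rrt109_amb_PK h0 h1 hFΛ h₀ hK hL, rrt109_PK_eq, le_div_iff₀ hZ2]
  have hZ1nn := rsx_sum_nonneg h0.le h1 (rswBox 0 n) true (X := fun ω => rsxInd (Sea.Holds ω)) (fun _ => rsx_ind_nonneg _)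
  revert hcon hord hmono hZ2 hZ1nn
  generalize rswSum t (rswBox 0 n) true (fun ω => rsxInd ((rrt109Amb (rswBox 0 n) F K).Holds ω)) = Z₂
  generalize rswSum t (rswBox 0 n) true (fun ω => rsxInd ((rrt109Amb (rswBox 0 n) F K).Holds ω ∧ L ω)) = N₃
  generalize rswSum t (rswBox 0 n) true (fun ω => rsxInd (Sea.Holds ω)) = Z₁
  intro hcon hord hZ2 hmono hZ1nn
  have hZ1 : 0 < Z₁ := by
    rcases hZ1nn.lt_or_eq with h | h
    · exact h
    · rw [← h, div_zero] at hcon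
      exact absurd hcon (not_le.2 hc)
  rw [le_div_iff₀ hZ1] at hcon
  have h3 : Z₁ * (c * Z₂) ≤ Z₁ * N₃ := by
    calc Z₁ * (c * Z₂) = (c * Z₁) * Z₂ := by ring
      _ ≤ _ := mul_le_mul_of_nonneg_right hcon hZ2.le
      _ ≤ _ := hord
      _ ≤ Z₁ * N₃ := mul_le_mul_of_nonneg_left hmono hZ1.le
  exact le_of_mul_le_mul_left h3 hZ1

/-- the sea with plus pins `P`, minus pins `M`: homogeneous edges open -/
noncomputable def rrsSea (Λ P M : Finset (ℤ × ℤ)) : RswCon :=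
  ⟨P, M, (rswInt Λ).filter (fun e => e.1 ∈ P ∧ rswEnd e ∈ P), (rswInt Λ).filter (fun e => e.1 ∈ M ∧ rswEnd e ∈ M), ∅⟩

theorem rrs189_sea_legal {Λ P M : Finset (ℤ × ℤ)} (hP : P ⊆ cornersOf Λ) (hM : M ⊆ cornersOf Λ) : (rrsSea Λ P M).Legal Λ := by
  refine ⟨hP, hM, ?_, ?_⟩
  · intro e he
    simp only [rrsSea, Finset.mem_union, Finset.mem_filter, Finset.notMem_empty, or_false] at he
    rcases he with h | h <;> exact h.1
  · intro e he
    simp only [rrsSea, Finset.mem_union, Finset.mem_filter, Finset.notMem_empty, or_false] at he ⊢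
    rcases he with h | h
    · exact ⟨Or.inl h.2.1, Or.inl h.2.2⟩
    · exact ⟨Or.inr h.2.1, Or.inr h.2.2⟩

/-- the sea lies below the ambient history -/
theorem rrs189_sea_le {Λ F F₀ P M : Finset (ℤ × ℤ)} {K : RswCon} (hK : K.Legal F₀) (h₀ : F₀ ⊆ Λ) (hP : P ⊆ cornersOf Λ)
    (hoff : ∀ v ∈ P, v ∉ F) (hM : cornersOf F₀ ⊆ M) : Rrt109Le (rrsSea Λ P M) (rrt109Amb Λ F K) := by
  have hed : ∀ e, e ∈ K.Gp ∨ e ∈ K.Gm ∨ e ∈ K.Cl → e ∈ K.Gp ∪ K.Gm ∪ K.Cl := fun e he => by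
    simp only [Finset.mem_union]; tauto
  have hpin : ∀ v, v ∈ K.Sp ∪ K.Sm → v ∈ M := fun v hv => by
    rcases Finset.mem_union.1 hv with h | h
    · exact hM (hK.sp h)
    · exact hM (hK.sm h)
  have hgm : ∀ e, e ∈ K.Gp ∨ e ∈ K.Gm ∨ e ∈ K.Cl → e ∈ (rrsSea Λ P M).Gm := fun e he =>
    Finset.mem_filter.2 ⟨rsx_int_mono h₀ (hK.ed (hed e he)), hpin _ (hK.full e (hed e he)).1, hpin _ (hK.full e (hed e he)).2⟩
  refine ⟨?_, fun v hv => hM (hK.sm hv), ?_, fun e he => hgm e (Or.inr (Or.inl he)), Finset.empty_subset _,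
    fun e he => Finset.mem_union_right _ (hgm e (Or.inr (Or.inr he)))⟩
  · exact fun v hv => Finset.mem_union_right _ (Finset.mem_sdiff.2 ⟨hP hv, fun hin => hoff v hv (rsx_mem_in.1 hin).1⟩)
  · intro e he
    have he' := Finset.mem_filter.1 he
    exact Finset.mem_union_right _ (Finset.mem_sdiff.2 ⟨he'.1, fun hin => hoff _ he'.2.1 (rsx_mem_int.1 hin).1⟩)

/-- plus pins of the half-strip sea: below the row `y₀`, left of the column `x₀`, right of the column `x₁` -/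
noncomputable def rrsHP (Λ : Finset (ℤ × ℤ)) (x₀ x₁ y₀ : ℤ) : Finset (ℤ × ℤ) :=
  (cornersOf Λ).filter (fun v => v.2 ≤ y₀ ∨ v.1 ≤ x₀ ∨ x₁ ≤ v.1)

/-- minus pins of the half-strip sea: above the row `y₁`, between the two columns -/
noncomputable def rrsHM (Λ : Finset (ℤ × ℤ)) (x₀ x₁ y₁ : ℤ) : Finset (ℤ × ℤ) :=
  (rsxIn Λ).filter (fun v => y₁ ≤ v.2 ∧ x₀ < v.1 ∧ v.1 < x₁)

/-- **the sea history of the rectangle** `[x₀, x₁] × [y₀, y₁]`: plus on three sides, minus on the top side -/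
noncomputable def rrsHSea (Λ : Finset (ℤ × ℤ)) (x₀ x₁ y₀ y₁ : ℤ) : RswCon := rrsSea Λ (rrsHP Λ x₀ x₁ y₀) (rrsHM Λ x₀ x₁ y₁)

/-- the faces of the rectangle -/
noncomputable def rrsHQ (Λ : Finset (ℤ × ℤ)) (x₀ x₁ y₀ y₁ : ℤ) : Finset (ℤ × ℤ) :=
  Λ.filter (fun f => x₀ ≤ f.1 ∧ f.1 < x₁ ∧ y₀ ≤ f.2 ∧ f.2 < y₁)

/-- **(HSS) THE CONTRACT WITH A4 (CYL)**: in the rectangle of height `H`, width `W ≤ C H`, plus on the bottom and on the two vertical sides, minus on the top, the plus good edges cut the rows `≤ y₀ + a` from the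
rows `≥ y₀ + b`, for every band `5 ≤ a`, `a + ε H ≤ b`, `10 b ≤ 3 H - 30`      (the numerology of `Rct127CylM`, read from the plus side) -/
def RnzHSS (t : ℝ) : Prop :=
  ∀ (C : ℕ) (ε : ℝ), 0 < ε → ∃ δ : ℝ, 0 < δ ∧ ∃ H₀ : ℕ, ∀ (H W n : ℕ) (x₀ y₀ a b : ℤ), H₀ ≤ H → W ≤ C * H →
    (∀ f : ℤ × ℤ, x₀ - 2 ≤ f.1 → f.1 ≤ x₀ + W + 1 → y₀ - 2 ≤ f.2 → f.2 ≤ y₀ + H + 1 → f ∈ rswBox 0 n) →
    5 ≤ a → (a : ℝ) + ε * H ≤ b → 10 * b ≤ 3 * (H : ℤ) - 30 →
    δ ≤ rswPK t (rswBox 0 n) true (rrsHSea (rswBox 0 n) x₀ (x₀ + W) y₀ (y₀ + H))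
      (fun ω => RswSep (rrsHQ (rswBox 0 n) x₀ (x₀ + W) y₀ (y₀ + H)) true ω
        ((rrsHQ (rswBox 0 n) x₀ (x₀ + W) y₀ (y₀ + H)).filter (fun f => f.2 ≤ y₀ + a))
        ((rrsHQ (rswBox 0 n) x₀ (x₀ + W) y₀ (y₀ + H)).filter (fun f => y₀ + b ≤ f.2)))

/-- one step of a dual path changes the row by at most one -/
theorem rrs189_step_row {F : Finset (ℤ × ℤ)} {a : Bool} {ω : RswCfg} {f g : ℤ × ℤ} (h : RswStep F a ω f g) : g.2 ≤ f.2 + 1 := by
  obtain ⟨_, _, ⟨v, b⟩, he, _⟩ := h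
  cases b <;> simp only [rsx_co_false, rsx_co_true] at he <;> rcases he with ⟨rfl, rfl⟩ | ⟨rfl, rfl⟩ <;> dsimp only <;> omega

/-- **deterministic**: a horizontal cut of the rectangle `Q` is a cut of every domain inside the half-strip -/
theorem rrs189_HQ_sep {Λ F : Finset (ℤ × ℤ)} (h : F ⊆ Λ) {x₀ x₁ y₀ y₁ α β α' β' : ℤ} (hF : ∀ f ∈ F, x₀ ≤ f.1 ∧ f.1 < x₁ ∧ y₀ ≤ f.2)
    (hα : α' ≤ α) (hαβ : α < y₁) (hβ : β ≤ β') (hβy : β < y₁) {ω : RswCfg}
    (hE : RswSep (rrsHQ Λ x₀ x₁ y₀ y₁) true ω ((rrsHQ Λ x₀ x₁ y₀ y₁).filter (fun f => f.2 ≤ α)) ((rrsHQ Λ x₀ x₁ y₀ y₁).filter (fun f => β ≤ f.2))) :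
    RswSep F true ω (F.filter (fun f => f.2 ≤ α')) (F.filter (fun f => β' ≤ f.2)) := by
  set Q := rrsHQ Λ x₀ x₁ y₀ y₁ with hQ
  have memQ : ∀ w ∈ F, w.2 < y₁ → w ∈ Q := fun w hw h1 =>
    Finset.mem_filter.2 ⟨h hw, (hF w hw).1, (hF w hw).2.1, (hF w hw).2.2, h1⟩
  intro f hf g hg hr
  obtain ⟨hfF, hf'⟩ := Finset.mem_filter.1 hf
  have hg' := (Finset.mem_filter.1 hg).2
  have key : ∀ w, Relation.ReflTransGen (RswStep F true ω) f w →
      w.2 < β ∧ w ∈ Q ∧ ∃ u ∈ Q.filter (fun f => f.2 ≤ α), Relation.ReflTransGen (RswStep Q true ω) u w := by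
    intro w hw
    induction hw with
    | refl =>
      have hfQ : f ∈ Q := memQ f hfF (by omega)
      have hfL : f ∈ Q.filter (fun f => f.2 ≤ α) := Finset.mem_filter.2 ⟨hfQ, by omega⟩
      refine ⟨?_, hfQ, f, hfL, Relation.ReflTransGen.refl⟩
      by_contra hc
      exact hE f hfL f (Finset.mem_filter.2 ⟨hfQ, by omega⟩) Relation.ReflTransGen.refl
    | @tail w w' _ hst ih =>
      obtain ⟨hwβ, hwQ, u, hu, hur⟩ := ih
      have hrow := rrs189_step_row hst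
      obtain ⟨hwF, hw'F, e, he, hne⟩ := hst
      have hw'Q : w' ∈ Q := memQ w' hw'F (by omega)
      have hur' : Relation.ReflTransGen (RswStep Q true ω) u w' := hur.tail ⟨hwQ, hw'Q, e, he, hne⟩
      refine ⟨?_, hw'Q, u, hu, hur'⟩
      by_contra hc
      exact hE u hu w' (Finset.mem_filter.2 ⟨hw'Q, by omega⟩) hur'
  have := (key g hr).1
  omega

/-- **(HP), plus colour, push upwards, from (HSS)** -/
theorem rrs189_hpd_plus {t : ℝ} (h0 : 0 < t) (h1 : t ≤ 1) (hS : RnzHSS t) (hO : Rrt109Ord t) :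
    RnzHPd t true (fun f => f.2) (fun f => f.1) := by
  intro C
  obtain ⟨δ, hδ, H₀, hA⟩ := hS (C + 3) (1 / 20) (by norm_num)
  refine ⟨δ, hδ, max H₀ 100, fun H c F K hH hF hw hK hfe => ?_⟩
  have hH1 : H₀ ≤ H + 1 := le_trans (le_max_left _ _) (hH.trans (Nat.le_succ H))
  have hH2 : 100 ≤ H := le_trans (le_max_right _ _) hH
  dsimp only at hF hw hK ⊢
  -- the window
  obtain ⟨x₀, hx⟩ : ∃ x₀ : ℤ, ∀ f ∈ F, x₀ ≤ f.1 ∧ f.1 ≤ x₀ + C * H := by
    rcases F.eq_empty_or_nonempty with rfl | hne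
    · exact ⟨0, fun f hf => absurd hf (Finset.notMem_empty f)⟩
    · obtain ⟨f₀, hf₀, hmin⟩ := Finset.exists_min_image F (fun f => f.1) hne
      exact ⟨f₀.1, fun f hf => ⟨hmin f hf, by have := hw f hf f₀ hf₀; omega⟩⟩
  generalize hm : (C : ℤ) * (H : ℤ) = m at hx
  have hWc : ((C * H + 3 : ℕ) : ℤ) = m + 3 := by push_cast; rw [hm]
  have hHc : ((H + 1 : ℕ) : ℤ) = (H : ℤ) + 1 := by push_cast; rfl
  obtain ⟨q, hq⟩ : ∃ q : ℕ, q = H / 10 := ⟨_, rfl⟩
  obtain ⟨q', hq'⟩ : ∃ q' : ℕ, q' = H / 5 := ⟨_, rfl⟩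
  rw [← hq, ← hq']
  obtain ⟨n, -, hn⟩ := rrt109_box_exists (F ∪ (Finset.Icc (x₀ - 3) (x₀ + m + 3) ×ˢ Finset.Icc (c - 3) (c + H + 1))) 0
  have hFΛ : F ⊆ rswBox 0 n := fun f hf => hn f (Finset.mem_union_left _ hf) f (by simp) (by simp)
  have hnear : ∀ f ∈ F, ∀ g : ℤ × ℤ, |g.1 - f.1| ≤ 2 → |g.2 - f.2| ≤ 2 → g ∈ rswBox 0 n := fun f hf => hn f (Finset.mem_union_left _ hf)
  have hmargin : ∀ f : ℤ × ℤ, (x₀ - 1) - 2 ≤ f.1 → f.1 ≤ (x₀ - 1) + ((C * H + 3 : ℕ) : ℤ) + 1 → (c - 1) - 2 ≤ f.2 →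
      f.2 ≤ (c - 1) + ((H + 1 : ℕ) : ℤ) + 1 → f ∈ rswBox 0 n := by
    intro f f1 f2 f3 f4
    rw [hWc] at f2
    rw [hHc] at f4
    refine hn f (Finset.mem_union_right _ ?_) f (by simp) (by simp)
    rw [Finset.mem_product, Finset.mem_Icc, Finset.mem_Icc]
    omega
  have hband : (((q : ℤ) + 1 : ℤ) : ℝ) + 1 / 20 * ((H + 1 : ℕ) : ℝ) ≤ (((q' : ℤ) + 1 : ℤ) : ℝ) := by
    have hz : 20 * ((q : ℤ) + 1) + ((H : ℤ) + 1) ≤ 20 * ((q' : ℤ) + 1) := by omega
    have hz' : (20 : ℝ) * ((q : ℝ) + 1) + ((H : ℝ) + 1) ≤ 20 * ((q' : ℝ) + 1) := by exact_mod_cast hz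
    push_cast
    linarith
  have hcon := hA (H + 1) (C * H + 3) n (x₀ - 1) (c - 1) ((q : ℤ) + 1) ((q' : ℤ) + 1) hH1
    (by nlinarith) hmargin (by omega) hband (by push_cast; omega)
  have hsub : F.filter (fun f => c + H ≤ f.2) ⊆ F := Finset.filter_subset _ _
  have hle : Rrt109Le (rrsHSea (rswBox 0 n) (x₀ - 1) ((x₀ - 1) + ((C * H + 3 : ℕ) : ℤ)) (c - 1) ((c - 1) + ((H + 1 : ℕ) : ℤ)))
      (rrt109Amb (rswBox 0 n) F K) := by
    refine rrs189_sea_le hK (hsub.trans hFΛ) (Finset.filter_subset _ _) ?_ ?_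
    · intro v hv hvF
      have h2 := (Finset.mem_filter.1 hv).2
      have h3 := hx v hvF
      have h4 := hF v hvF
      rw [hWc] at h2
      omega
    · intro v hv
      rw [hWc, hHc]
      have key : ∀ f ∈ F.filter (fun f => c + H ≤ f.2), f.1 ≤ v.1 → v.1 ≤ f.1 + 1 → f.2 ≤ v.2 → v.2 ≤ f.2 + 1 →
          v ∈ rrsHM (rswBox 0 n) (x₀ - 1) ((x₀ - 1) + (m + 3)) ((c - 1) + ((H : ℤ) + 1)) := by
        intro f hf a1 a2 a3 a4
        obtain ⟨hfF, hfh⟩ := Finset.mem_filter.1 hf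
        have h3 := hx f hfF
        refine Finset.mem_filter.2 ⟨rsx_mem_in.2 ⟨hnear f hfF _ ?_ ?_, hnear f hfF _ ?_ ?_, hnear f hfF _ ?_ ?_, hnear f hfF _ ?_ ?_⟩,
          by omega, by omega, by omega⟩ <;> rw [abs_le] <;> (try dsimp only) <;> omega
      rcases rsx_mem_corners.1 hv with h | h | h | h
      · exact key _ h (by omega) (by omega) (by omega) (by omega)
      · exact key _ h (by dsimp only; omega) (by dsimp only; omega) (by dsimp only; omega) (by dsimp only; omega)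
      · exact key _ h (by dsimp only; omega) (by dsimp only; omega) (by dsimp only; omega) (by dsimp only; omega)
      · exact key _ h (by dsimp only; omega) (by dsimp only; omega) (by dsimp only; omega) (by dsimp only; omega)
  refine rrs189_sea_cmp h0 h1 hO hFΛ hsub hK hfe
    (rrs189_sea_legal (Finset.filter_subset _ _) (fun v hv => rsx_in_sub_corners _ (Finset.mem_filter.1 hv).1)) hle
    (rnz_sep_inc _ _ _) (fun ω hE => ?_) (rrt109_sep_loc F _ _ true) hδ hcon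
  refine rrs189_HQ_sep hFΛ (fun f hf => ?_) ?_ ?_ ?_ ?_ hE
  · have h3 := hx f hf
    have h4 := hF f hf
    rw [hWc]
    omega
  · omega
  · rw [hHc]; omega
  · omega
  · rw [hHc]; omega

/-- **(HP) FROM (HSS)**: all directions, both colours -/
theorem rrs189_hp_of_hss {t : ℝ} (h0 : 0 < t) (h1 : t ≤ 1) (hS : RnzHSS t) (hO : Rrt109Ord t) : RnzHP t :=
  rrs189_hp_of_one (rrs189_hpd_plus h0 h1 hS hO)

/-- **(REC) FROM THE TWO PLANAR CONTRACTS** (HSS) [A4] and (COR) -/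
theorem rrs189_rec_hss {t : ℝ} (ht1 : 1 / 2 ≤ t) (ht2 : t < 1) (hS : RnzHSS t) (hO : Rrt109Ord t) (hC : RnzCor t) : RcRec t :=
  rrs189_rec ht1 ht2 (rrs189_hp_of_hss (by linarith) ht2.le hS hO) hC

/-- **(REC) FROM (HSS), (LSS) AND (ORD)**: the whole of A5 -/
theorem rrs189_rec_top {t : ℝ} (ht1 : 1 / 2 ≤ t) (ht2 : t < 1) (hS : RnzHSS t) (hL : RnzLSS t) (hO : Rrt109Ord t) : RcRec t :=
  rrs189_rec_hss ht1 ht2 hS hO
    (rrs189_cor_of_plus (rrt109_cord_plus (by linarith) ht2.le (Or.inl ⟨rfl, rfl⟩) hL.1 hO)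
      (rrt109_cord_plus (by linarith) ht2.le (Or.inr ⟨rfl, rfl⟩) hL.2 hO))

/-- the equation lemmas of the definitions of this file are generated HERE -/
theorem rrs189_defs_eqns_cite : True := by
  have := @rrsRect.eq_1
  have := @RrsFkg.eq_1
  have := @RrsBox.eq_1
  have := @RrsFinal.eq_1
  have := @RrsSplit.eq_1
  have := @RrsDomM.eq_1
  have := @rrsZ.eq_1
  have := @rrsTube.eq_1
  have := @rrsG.eq_1
  have := @rrsHist.eq_1
  have := @rrsTr.eq_1
  have := @rrsFix.eq_1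
  have := @RrsS0.eq_1
  have := @rrsEnds.eq_1
  have := @rrsPin.eq_1
  have := @rrsBd.eq_1
  have := @rrsKI.eq_1
  have := @RrsMono.eq_1
  have := @rrsFlipK.eq_1
  have := @rrsMapK.eq_1
  have := @rrsSea.eq_1
  have := @rrsHP.eq_1
  have := @rrsHM.eq_1
  have := @rrsHSea.eq_1
  have := @rrsHQ.eq_1
  have := @RnzHSS.eq_1
  trivial

end Claimed.Agent.R292
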