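import Claimed.Agent.R292.Rsw.CmpPin291
import Claimed.Agent.R292.Screen.Tv91
import Claimed.Agent.R292.Rsw.RenDefs12
import Claimed.Agent.R292.Rsw.BoxJordan219
import Claimed.Agent.R292.Rsw.RenSep189

/-!
# Row 292 (S0540), Rsw/Holley12 : (T2) HOLLEY FOR LEGAL HISTORIES      (helper12; prefix `hol12_` / `Hol12` / `hol12`)      0 sorry

TEX prop:comparison, second sentence: two laws of `(s, W)` under DIFFERENT prescriptions (vertex pins, forced open / closed edges with pinned ends) are ordered in the order (3.4) `(s, W⁺, -W⁻)`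
as soon as the prescriptions are ordered.   Tools: `cmp291_holley` (291: separate plus and minus couplings), `cmq291_sum2`, `cmq291_sumK` (291: forced edges, dictionary).
THE POINT: a coupling which cannot act (plus coupling of an edge with a minus pinned end, minus coupling of an edge with a plus pinned end) may be given ANY value:
`0 / 1` in the lower law, `1 / 0` in the upper law; then `a₁ ≤ a₂`, `b₂ ≤ b₁` follow from the order of the prescriptions.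

* §1 generic (any finite multigraph): `hol12_AT_holley`
* §2 flat problems with `Cmi291Dual F`: `Hol12Le K₁ K₂`, **`hol12_pin`**
* §3 exit: **`hol12_scr91cmp`** (`Scr91Cmp t F P` of Screen/Tv91, verbatim)
* §4 histories `RswCon`: `hol12_con` (two boundary colours, real observables), **`hol12_ord : Rrt109Ord t`** (contract (ORD) of B6, RenTop109 sec. 11, verbatim)
The same theorem ON AN ABSTRACT SYSTEM `Rcy162Sys` (cylinder): `Rsw/HolSys12` (`hsy12_holley`).   Top of block A5: `Rsw/A5Top12`.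
-/

set_option autoImplicit false
set_option linter.unusedSectionVars false
set_option linter.unusedVariables false
set_option linter.unusedSimpArgs false

namespace Claimed.Agent.R292

open Finset
open Claims Claims.C0468
open Claimed.Agent.R291

/-! ## 1. generic -/

section Gen

variable {V ι : Type*} [Fintype V] [DecidableEq V] [Fintype ι] [DecidableEq ι]

open Classical in
/-- couplings under forced edges, with the value `c` where the coupling cannot act (`h i`) -/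
noncomputable def hol12C (c : ℝ) (h : ι → Prop) (r : ℝ) (Oo Oc : Finset ι) (i : ι) : ℝ :=
  if h i then c else cmq291A r Oo Oc i

theorem hol12_C_pos {c : ℝ} {h : ι → Prop} (r : ℝ) (Oo Oc : Finset ι) {i : ι} (hi : h i) : hol12C c h r Oo Oc i = c := by
  unfold hol12C; rw [if_pos hi]

theorem hol12_C_neg {c : ℝ} {h : ι → Prop} (r : ℝ) (Oo Oc : Finset ι) {i : ι} (hi : ¬ h i) :
    hol12C c h r Oo Oc i = cmq291A r Oo Oc i := by
  unfold hol12C; rw [if_neg hi]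

theorem hol12_C_mem {c : ℝ} (hc0 : 0 ≤ c) (hc1 : c ≤ 1) (h : ι → Prop) {r : ℝ} (hr : 0 ≤ r) (Oo Oc : Finset ι) (i : ι) :
    0 ≤ hol12C c h r Oo Oc i ∧ hol12C c h r Oo Oc i ≤ 1 := by
  by_cases hi : h i
  · rw [hol12_C_pos r Oo Oc hi]; exact ⟨hc0, hc1⟩
  · rw [hol12_C_neg r Oo Oc hi]; exact cmq291_A_mem hr Oo Oc i

theorem hol12_Up_congr (p q : ι → V) (c : ℝ) (h : ι → Prop) (r : ℝ) (Oo Oc : Finset ι) (s : V → Bool)
    (hs : ∀ i, h i → ¬ (s (p i) = true ∧ s (q i) = true)) :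
    cmp291Up p q (hol12C c h r Oo Oc) s = cmp291Up p q (cmq291A r Oo Oc) s := by
  funext i
  unfold cmp291Up
  by_cases hi : s (p i) = true ∧ s (q i) = true
  · rw [if_pos hi, if_pos hi, hol12_C_neg r Oo Oc (fun hh => hs i hh hi)]
  · rw [if_neg hi, if_neg hi]

theorem hol12_Um_congr (p q : ι → V) (c : ℝ) (h : ι → Prop) (r : ℝ) (Oo Oc : Finset ι) (s : V → Bool)
    (hs : ∀ i, h i → ¬ (s (p i) = false ∧ s (q i) = false)) :
    cmp291Um p q (hol12C c h r Oo Oc) s = cmp291Um p q (cmq291A r Oo Oc) s := by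
  funext i
  unfold cmp291Um
  by_cases hi : s (p i) = false ∧ s (q i) = false
  · rw [if_pos hi, if_pos hi, hol12_C_neg r Oo Oc (fun hh => hs i hh hi)]
  · rw [if_neg hi, if_neg hi]

/-- the weight does not see the couplings which cannot act -/
theorem hol12_W_congr (p q : ι → V) (G : (V → Bool) → ℝ) (ca cb : ℝ) (hM hP : ι → Prop) (r : ℝ) (Oo Oc : Finset ι) (s : V → Bool)
    (hs : G s ≠ 0 → (∀ i, hM i → ¬ (s (p i) = true ∧ s (q i) = true)) ∧ ∀ i, hP i → ¬ (s (p i) = false ∧ s (q i) = false))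
    (y : Finset ι × (Finset ι)ᵒᵈ) :
    cmp291W p q G (hol12C ca hM r Oo Oc) (hol12C cb hP r Oo Oc) s y = cmp291W p q G (cmq291A r Oo Oc) (cmq291A r Oo Oc) s y := by
  unfold cmp291W
  by_cases hG : G s = 0
  · rw [hG, zero_mul, zero_mul]
  · rw [hol12_Up_congr p q ca hM r Oo Oc s (hs hG).1, hol12_Um_congr p q cb hP r Oo Oc s (hs hG).2]

open Classical in
/-- the monochromaticity of an edge read on the pins -/
noncomputable def hol12M (p q : ι → V) (Pp Pm : V → Prop) (i : ι) : Bool :=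
  decide ((Pp (p i) ∧ Pp (q i)) ∨ (Pm (p i) ∧ Pm (q i)))

theorem hol12_M_spec (p q : ι → V) (Pp Pm : V → Prop) (s : V → Bool) (hp : ∀ v, Pp v → s v = true) (hm : ∀ v, Pm v → s v = false)
    (i : ι) (hi : (Pp (p i) ∨ Pm (p i)) ∧ (Pp (q i) ∨ Pm (q i))) : (s (p i) = s (q i) ↔ hol12M p q Pp Pm i = true) := by
  classical
  unfold hol12M
  rw [decide_eq_true_iff]
  constructor
  · intro he
    rcases hi.1 with a | a <;> rcases hi.2 with b | b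
    · exact Or.inl ⟨a, b⟩
    · rw [hp _ a, hm _ b] at he; exact absurd he (by decide)
    · rw [hm _ a, hp _ b] at he; exact absurd he (by decide)
    · exact Or.inr ⟨a, b⟩
  · rintro (⟨a, b⟩ | ⟨a, b⟩)
    · rw [hp _ a, hp _ b]
    · rw [hm _ a, hm _ b]

/-- at a vertex which is pinned in one of the two ordered laws, `⊓` and `⊔` act trivially -/
theorem hol12_triv {Pp₁ Pm₁ Pp₂ Pm₂ : V → Prop} {s s' : V → Bool}
    (hp1 : ∀ v, Pp₁ v → s v = true) (hm1 : ∀ v, Pm₁ v → s v = false)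
    (hp2 : ∀ v, Pp₂ v → s' v = true) (hm2 : ∀ v, Pm₂ v → s' v = false)
    (hpp : ∀ v, Pp₁ v → Pp₂ v) (hmm : ∀ v, Pm₂ v → Pm₁ v) {v : V} (hv : (Pp₁ v ∨ Pm₁ v) ∨ (Pp₂ v ∨ Pm₂ v)) :
    (s ⊓ s') v = s v ∧ (s ⊔ s') v = s' v := by
  rw [Pi.inf_apply, Pi.sup_apply]
  rcases hv with (a | a) | (a | a)
  · rw [hp1 v a, hp2 v (hpp v a)]; exact ⟨rfl, rfl⟩
  · rw [hm1 v a]; cases s' v <;> exact ⟨rfl, rfl⟩
  · rw [hp2 v a]; cases s v <;> exact ⟨rfl, rfl⟩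
  · rw [hm2 v a, hm1 v (hmm v a)]; exact ⟨rfl, rfl⟩

/-- **Proposition 3.2 with forced edges, comparison** -/
theorem hol12_AT_holley (p q : ι → V) {r : ℝ} (hr : 0 ≤ r)
    (Oo₁ Oc₁ Oo₂ Oc₂ : Finset ι) (hd₁ : ∀ i ∈ Oo₁, i ∉ Oc₁) (hd₂ : ∀ i ∈ Oo₂, i ∉ Oc₂)
    (Pp₁ Pm₁ Pp₂ Pm₂ : V → Prop)
    {Φ₁ Φ₂ : (V → Bool) → ℝ} (h1 : ∀ s, 0 ≤ Φ₁ s) (h2 : ∀ s, 0 ≤ Φ₂ s)
    (hΦ : ∀ s s', Φ₁ s * Φ₂ s' ≤ Φ₁ (s ⊓ s') * Φ₂ (s ⊔ s'))
    (hp₁ : ∀ s, Φ₁ s ≠ 0 → (∀ v, Pp₁ v → s v = true) ∧ ∀ v, Pm₁ v → s v = false)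
    (hp₂ : ∀ s, Φ₂ s ≠ 0 → (∀ v, Pp₂ v → s v = true) ∧ ∀ v, Pm₂ v → s v = false)
    (hpp : ∀ v, Pp₁ v → Pp₂ v) (hmm : ∀ v, Pm₂ v → Pm₁ v)
    (ok₁ : ∀ i ∈ Oo₁ ∪ Oc₁, (Pp₁ (p i) ∨ Pm₁ (p i)) ∧ (Pp₁ (q i) ∨ Pm₁ (q i)))
    (ok₂ : ∀ i ∈ Oo₂ ∪ Oc₂, (Pp₂ (p i) ∨ Pm₂ (p i)) ∧ (Pp₂ (q i) ∨ Pm₂ (q i)))
    (o1 : ∀ i ∈ Oo₁, (Pm₁ (p i) ∨ Pm₁ (q i)) ∨ i ∈ Oo₂)
    (o2 : ∀ i ∈ Oc₂, (Pm₁ (p i) ∨ Pm₁ (q i)) ∨ i ∈ Oo₁ ∪ Oc₁)
    (o3 : ∀ i ∈ Oo₂, (Pp₂ (p i) ∨ Pp₂ (q i)) ∨ i ∈ Oo₁)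
    (o4 : ∀ i ∈ Oc₁, (Pp₂ (p i) ∨ Pp₂ (q i)) ∨ i ∈ Oo₂ ∪ Oc₂)
    {f : (V → Bool) → Finset ι → ℝ} (hf : cmp291Inc p q f) :
    (∑ s, ∑ W, Φ₁ s * cmp291AT p q r s W * (cmq291Pi Oo₁ Oc₁ W * f s W))
        * (∑ s, ∑ W, Φ₂ s * cmp291AT p q r s W * (cmq291Pi Oo₂ Oc₂ W * 1))
      ≤ (∑ s, ∑ W, Φ₁ s * cmp291AT p q r s W * (cmq291Pi Oo₁ Oc₁ W * 1))
        * ∑ s, ∑ W, Φ₂ s * cmp291AT p q r s W * (cmq291Pi Oo₂ Oc₂ W * f s W) := by
  classical
  set m₁ := hol12M p q Pp₁ Pm₁ with hm₁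
  set m₂ := hol12M p q Pp₂ Pm₂ with hm₂
  set G₁ := cmq291G p q r Oo₁ Oc₁ m₁ Φ₁ with hG₁
  set G₂ := cmq291G p q r Oo₂ Oc₂ m₂ Φ₂ with hG₂
  set hM₁ : ι → Prop := fun i => Pm₁ (p i) ∨ Pm₁ (q i) with hhM₁
  set hP₁ : ι → Prop := fun i => Pp₁ (p i) ∨ Pp₁ (q i) with hhP₁
  set hM₂ : ι → Prop := fun i => Pm₂ (p i) ∨ Pm₂ (q i) with hhM₂
  set hP₂ : ι → Prop := fun i => Pp₂ (p i) ∨ Pp₂ (q i) with hhP₂
  have hα := cmp291_inv_mem hr
  -- the mono status of the forced closed edges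
  have hms₁ : ∀ s, Φ₁ s ≠ 0 → ∀ i ∈ Oc₁, (s (p i) = s (q i) ↔ m₁ i = true) := fun s hs i hi =>
    hol12_M_spec p q Pp₁ Pm₁ s (hp₁ s hs).1 (hp₁ s hs).2 i (ok₁ i (Finset.mem_union_right _ hi))
  have hms₂ : ∀ s, Φ₂ s ≠ 0 → ∀ i ∈ Oc₂, (s (p i) = s (q i) ↔ m₂ i = true) := fun s hs i hi =>
    hol12_M_spec p q Pp₂ Pm₂ s (hp₂ s hs).1 (hp₂ s hs).2 i (ok₂ i (Finset.mem_union_right _ hi))
  -- supports
  have hsup₁ : ∀ s, G₁ s ≠ 0 → Φ₁ s ≠ 0 := fun s hs h0 => hs (by rw [hG₁]; unfold cmq291G; rw [h0, zero_mul])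
  have hsup₂ : ∀ s, G₂ s ≠ 0 → Φ₂ s ≠ 0 := fun s hs h0 => hs (by rw [hG₂]; unfold cmq291G; rw [h0, zero_mul])
  have hact₁ : ∀ s, G₁ s ≠ 0 → (∀ i, hM₁ i → ¬ (s (p i) = true ∧ s (q i) = true)) ∧ ∀ i, hP₁ i → ¬ (s (p i) = false ∧ s (q i) = false) := by
    intro s hs
    obtain ⟨a, b⟩ := hp₁ s (hsup₁ s hs)
    refine ⟨fun i hi hc => ?_, fun i hi hc => ?_⟩
    · rcases hi with hi | hi
      · rw [b _ hi] at hc; exact absurd hc.1 (by decide)
      · rw [b _ hi] at hc; exact absurd hc.2 (by decide)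
    · rcases hi with hi | hi
      · rw [a _ hi] at hc; exact absurd hc.1 (by decide)
      · rw [a _ hi] at hc; exact absurd hc.2 (by decide)
  have hact₂ : ∀ s, G₂ s ≠ 0 → (∀ i, hM₂ i → ¬ (s (p i) = true ∧ s (q i) = true)) ∧ ∀ i, hP₂ i → ¬ (s (p i) = false ∧ s (q i) = false) := by
    intro s hs
    obtain ⟨a, b⟩ := hp₂ s (hsup₂ s hs)
    refine ⟨fun i hi hc => ?_, fun i hi hc => ?_⟩
    · rcases hi with hi | hi
      · rw [b _ hi] at hc; exact absurd hc.1 (by decide)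
      · rw [b _ hi] at hc; exact absurd hc.2 (by decide)
    · rcases hi with hi | hi
      · rw [a _ hi] at hc; exact absurd hc.1 (by decide)
      · rw [a _ hi] at hc; exact absurd hc.2 (by decide)
  -- the couplings are ordered
  have hA : ∀ i, ¬ hM₁ i → cmq291A r Oo₁ Oc₁ i ≤ cmq291A r Oo₂ Oc₂ i := by
    intro i hi
    unfold cmq291A
    by_cases c1 : i ∈ Oo₁
    · have c2 : i ∈ Oo₂ := (o1 i c1).resolve_left hi
      rw [if_pos c1, if_pos c2]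
    · rw [if_neg c1]
      by_cases c3 : i ∈ Oc₁
      · rw [if_pos c3]
        split_ifs
        · exact zero_le_one
        · exact le_rfl
        · exact hα.1
      · rw [if_neg c3]
        by_cases c2 : i ∈ Oo₂
        · rw [if_pos c2]; exact hα.2
        · rw [if_neg c2]
          by_cases c4 : i ∈ Oc₂
          · rcases o2 i c4 with h | h
            · exact absurd h hi
            · rcases Finset.mem_union.1 h with h | h
              · exact absurd h c1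
              · exact absurd h c3
          · rw [if_neg c4]
  have hB : ∀ i, ¬ hP₂ i → cmq291A r Oo₂ Oc₂ i ≤ cmq291A r Oo₁ Oc₁ i := by
    intro i hi
    unfold cmq291A
    by_cases c1 : i ∈ Oo₂
    · have c2 : i ∈ Oo₁ := (o3 i c1).resolve_left hi
      rw [if_pos c1, if_pos c2]
    · rw [if_neg c1]
      by_cases c3 : i ∈ Oc₂
      · rw [if_pos c3]
        split_ifs
        · exact zero_le_one
        · exact le_rfl
        · exact hα.1
      · rw [if_neg c3]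
        by_cases c2 : i ∈ Oo₁
        · rw [if_pos c2]; exact hα.2
        · rw [if_neg c2]
          by_cases c4 : i ∈ Oc₁
          · rcases o4 i c4 with h | h
            · exact absurd h hi
            · rcases Finset.mem_union.1 h with h | h
              · exact absurd h c1
              · exact absurd h c3
          · rw [if_neg c4]
  have ha : ∀ i, hol12C 0 hM₁ r Oo₁ Oc₁ i ≤ hol12C 1 hM₂ r Oo₂ Oc₂ i := by
    intro i
    by_cases c : hM₁ i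
    · rw [hol12_C_pos r Oo₁ Oc₁ c]
      exact (hol12_C_mem zero_le_one le_rfl hM₂ hr Oo₂ Oc₂ i).1
    · have c' : ¬ hM₂ i := fun h => c (h.imp (hmm _) (hmm _))
      rw [hol12_C_neg r Oo₁ Oc₁ c, hol12_C_neg r Oo₂ Oc₂ c']
      exact hA i c
  have hb : ∀ i, hol12C 0 hP₂ r Oo₂ Oc₂ i ≤ hol12C 1 hP₁ r Oo₁ Oc₁ i := by
    intro i
    by_cases c : hP₂ i
    · rw [hol12_C_pos r Oo₂ Oc₂ c]
      exact (hol12_C_mem zero_le_one le_rfl hP₁ hr Oo₁ Oc₁ i).1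
    · have c' : ¬ hP₁ i := fun h => c (h.imp (hpp _) (hpp _))
      rw [hol12_C_neg r Oo₂ Oc₂ c, hol12_C_neg r Oo₁ Oc₁ c']
      exact hB i c
  -- the vertex factors
  have hG1n : ∀ s, 0 ≤ G₁ s := cmq291_G_nonneg p q hr Oo₁ Oc₁ m₁ h1
  have hG2n : ∀ s, 0 ≤ G₂ s := cmq291_G_nonneg p q hr Oo₂ Oc₂ m₂ h2
  have hGG : ∀ s s', G₁ s * G₂ s' ≤ G₁ (s ⊓ s') * G₂ (s ⊔ s') := by
    intro s s'
    by_cases hz1 : Φ₁ s = 0
    · have : G₁ s = 0 := by rw [hG₁]; unfold cmq291G; rw [hz1, zero_mul]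
      rw [this, zero_mul]
      exact mul_nonneg (hG1n _) (hG2n _)
    by_cases hz2 : Φ₂ s' = 0
    · have : G₂ s' = 0 := by rw [hG₂]; unfold cmq291G; rw [hz2, zero_mul]
      rw [this, mul_zero]
      exact mul_nonneg (hG1n _) (hG2n _)
    obtain ⟨a1, b1⟩ := hp₁ s hz1
    obtain ⟨a2, b2⟩ := hp₂ s' hz2
    have tr := fun v hv => hol12_triv (s := s) (s' := s') a1 b1 a2 b2 hpp hmm (v := v) hv
    have hH1 := cmq291_H_nonneg hr Oo₁ Oc₁ m₁
    have hH2 := cmq291_H_nonneg hr Oo₂ Oc₂ m₂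
    have edge : ∀ i, cmq291H r Oo₁ Oc₁ m₁ i (s (p i)) (s (q i)) * cmq291H r Oo₂ Oc₂ m₂ i (s' (p i)) (s' (q i))
        ≤ cmq291H r Oo₁ Oc₁ m₁ i ((s ⊓ s') (p i)) ((s ⊓ s') (q i)) * cmq291H r Oo₂ Oc₂ m₂ i ((s ⊔ s') (p i)) ((s ⊔ s') (q i)) := by
      intro i
      by_cases c1 : i ∈ Oo₁ ∪ Oc₁
      · obtain ⟨u1, u2⟩ := ok₁ i c1
        rw [(tr _ (Or.inl u1)).1, (tr _ (Or.inl u1)).2, (tr _ (Or.inl u2)).1, (tr _ (Or.inl u2)).2]
      by_cases c2 : i ∈ Oo₂ ∪ Oc₂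
      · obtain ⟨u1, u2⟩ := ok₂ i c2
        rw [(tr _ (Or.inr u1)).1, (tr _ (Or.inr u1)).2, (tr _ (Or.inr u2)).1, (tr _ (Or.inr u2)).2]
      rw [Finset.mem_union, not_or] at c1 c2
      unfold cmq291H
      rw [if_neg c1.1, if_neg c1.2, if_neg c2.1, if_neg c2.2]
      exact cmp291_H_super (by nlinarith) _ _ _ _
    have prod : (∏ i, cmq291H r Oo₁ Oc₁ m₁ i (s (p i)) (s (q i))) * ∏ i, cmq291H r Oo₂ Oc₂ m₂ i (s' (p i)) (s' (q i))
        ≤ (∏ i, cmq291H r Oo₁ Oc₁ m₁ i ((s ⊓ s') (p i)) ((s ⊓ s') (q i)))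
          * ∏ i, cmq291H r Oo₂ Oc₂ m₂ i ((s ⊔ s') (p i)) ((s ⊔ s') (q i)) := by
      rw [← Finset.prod_mul_distrib, ← Finset.prod_mul_distrib]
      exact Finset.prod_le_prod (fun i _ => mul_nonneg (hH1 i _ _) (hH2 i _ _)) (fun i _ => edge i)
    have n1 : 0 ≤ (∏ i, cmq291H r Oo₁ Oc₁ m₁ i (s (p i)) (s (q i))) * ∏ i, cmq291H r Oo₂ Oc₂ m₂ i (s' (p i)) (s' (q i)) :=
      mul_nonneg (Finset.prod_nonneg fun i _ => hH1 i _ _) (Finset.prod_nonneg fun i _ => hH2 i _ _)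
    rw [hG₁, hG₂]
    unfold cmq291G
    calc Φ₁ s * (∏ i, cmq291H r Oo₁ Oc₁ m₁ i (s (p i)) (s (q i))) * (Φ₂ s' * ∏ i, cmq291H r Oo₂ Oc₂ m₂ i (s' (p i)) (s' (q i)))
        = (Φ₁ s * Φ₂ s') * ((∏ i, cmq291H r Oo₁ Oc₁ m₁ i (s (p i)) (s (q i))) * ∏ i, cmq291H r Oo₂ Oc₂ m₂ i (s' (p i)) (s' (q i))) := by ring
      _ ≤ _ := mul_le_mul (hΦ s s') prod n1 (mul_nonneg (h1 _) (h2 _))
      _ = _ := by ring
  have key := cmp291_holley p q hG1n hG2n hGG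
    (a₁ := hol12C 0 hM₁ r Oo₁ Oc₁) (a₂ := hol12C 1 hM₂ r Oo₂ Oc₂) (b₁ := hol12C 1 hP₁ r Oo₁ Oc₁) (b₂ := hol12C 0 hP₂ r Oo₂ Oc₂)
    (fun i => (hol12_C_mem le_rfl zero_le_one hM₁ hr Oo₁ Oc₁ i).1) ha (fun i => (hol12_C_mem zero_le_one le_rfl hM₂ hr Oo₂ Oc₂ i).2)
    (fun i => (hol12_C_mem le_rfl zero_le_one hP₂ hr Oo₂ Oc₂ i).1) hb (fun i => (hol12_C_mem zero_le_one le_rfl hP₁ hr Oo₁ Oc₁ i).2)
    (cmp291_Ext_mono p q hf)
  simp only [hol12_W_congr p q G₁ 0 1 hM₁ hP₁ r Oo₁ Oc₁ _ (hact₁ _), hol12_W_congr p q G₂ 1 0 hM₂ hP₂ r Oo₂ Oc₂ _ (hact₂ _)] at key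
  have e1 := cmq291_sum2 p q hr Oo₁ Oc₁ hd₁ m₁ Φ₁ hms₁ f
  have e2 := cmq291_sum2 p q hr Oo₂ Oc₂ hd₂ m₂ Φ₂ hms₂ f
  have e3 := cmq291_sum2 p q hr Oo₁ Oc₁ hd₁ m₁ Φ₁ hms₁ (fun _ _ => 1)
  have e4 := cmq291_sum2 p q hr Oo₂ Oc₂ hd₂ m₂ Φ₂ hms₂ (fun _ _ => 1)
  have e' : ∀ s y, cmp291Ext p q (fun _ _ => (1 : ℝ)) s y = 1 := fun _ _ => rfl
  simp only [e', mul_one] at e3 e4
  rw [e1, e2, e3, e4] at key
  have hc : (0 : ℝ) < (Fintype.card (V → Bool) : ℝ) := by exact_mod_cast Fintype.card_pos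
  refine le_of_mul_le_mul_left ?_ (mul_pos hc hc)
  simp only [mul_one]
  nlinarith [key]

end Gen

/-! ## 2. flat problems -/

section Inst

/-- **the order of prescriptions** (the observed sets may differ) -/
structure Hol12Le (K₁ K₂ : MdlPin) : Prop where
  /-- more plus pins above -/
  sp : K₁.Sp ⊆ K₂.Sp
  /-- more minus pins below -/
  sm : K₂.Sm ⊆ K₁.Sm
  /-- a good plus edge of the lower prescription is forced open above -/
  o1 : ∀ e ∈ K₁.Oo, (e.1 ∈ K₁.Sm ∨ rswEnd e ∈ K₁.Sm) ∨ e ∈ K₂.Oo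
  /-- an edge closed above cannot be good plus below -/
  o2 : ∀ e ∈ K₂.Oc, (e.1 ∈ K₁.Sm ∨ rswEnd e ∈ K₁.Sm) ∨ e ∈ K₁.Oo ∪ K₁.Oc
  /-- a good minus edge of the upper prescription is forced open below -/
  o3 : ∀ e ∈ K₂.Oo, (e.1 ∈ K₂.Sp ∨ rswEnd e ∈ K₂.Sp) ∨ e ∈ K₁.Oo
  /-- an edge closed below cannot be good minus above -/
  o4 : ∀ e ∈ K₁.Oc, (e.1 ∈ K₂.Sp ∨ rswEnd e ∈ K₂.Sp) ∨ e ∈ K₂.Oo ∪ K₂.Oc

/-- generic plus pins -/
def hol12Pp (F : Finset (ℤ × ℤ)) (K : MdlPin) (v : Option ↥(cmi291Inn F)) : Prop := ∃ w ∈ K.Sp, cmi291Cls F w = v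

/-- generic minus pins -/
def hol12Pm (F : Finset (ℤ × ℤ)) (K : MdlPin) (v : Option ↥(cmi291Inn F)) : Prop :=
  ∃ w ∈ K.Sm, w ∈ cornersOf F ∧ cmi291Cls F w = v

theorem hol12_Psi_holley {K₁ K₂ : MdlPin} (hsp : K₁.Sp ⊆ K₂.Sp) (hsm : K₂.Sm ⊆ K₁.Sm) (S S' : Finset (ℤ × ℤ)) :
    cmq291Psi K₁ S * cmq291Psi K₂ S' ≤ cmq291Psi K₁ (S ∩ S') * cmq291Psi K₂ (S ∪ S') := by
  classical
  by_cases h : K₁.Sp ⊆ S ∧ ∀ v ∈ K₁.Sm, v ∉ S
  · by_cases h' : K₂.Sp ⊆ S' ∧ ∀ v ∈ K₂.Sm, v ∉ S'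
    · have h1 : K₁.Sp ⊆ S ∩ S' ∧ ∀ v ∈ K₁.Sm, v ∉ S ∩ S' :=
        ⟨Finset.subset_inter h.1 (hsp.trans h'.1), fun v hv hm => h.2 v hv (Finset.mem_inter.1 hm).1⟩
      have h2 : K₂.Sp ⊆ S ∪ S' ∧ ∀ v ∈ K₂.Sm, v ∉ S ∪ S' :=
        ⟨h'.1.trans Finset.subset_union_right, fun v hv hm => by
          rcases Finset.mem_union.1 hm with a | a
          · exact h.2 v (hsm hv) a
          · exact h'.2 v hv a⟩
      unfold cmq291Psi
      rw [if_pos h, if_pos h', if_pos h1, if_pos h2]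
    · have : cmq291Psi K₂ S' = 0 := by unfold cmq291Psi; rw [if_neg h']
      rw [this, mul_zero]
      exact mul_nonneg (cmq291_Psi_nonneg _ _) (cmq291_Psi_nonneg _ _)
  · have : cmq291Psi K₁ S = 0 := by unfold cmq291Psi; rw [if_neg h]
    rw [this, zero_mul]
    exact mul_nonneg (cmq291_Psi_nonneg _ _) (cmq291_Psi_nonneg _ _)

theorem hol12_pins_spec {F : Finset (ℤ × ℤ)} (b : Bool) (K : MdlPin) (s : Option ↥(cmi291Inn F) → Bool)
    (hs : cmi291Phi F b (cmq291Psi K) s ≠ 0) :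
    (∀ v, hol12Pp F K v → s v = true) ∧ ∀ v, hol12Pm F K v → s v = false := by
  classical
  have hΨ : cmq291Psi K (cmi291S F s) ≠ 0 := fun h => hs (by unfold cmi291Phi; rw [h, mul_zero])
  have hh : K.Sp ⊆ cmi291S F s ∧ ∀ v ∈ K.Sm, v ∉ cmi291S F s := by
    by_contra hc
    exact hΨ (by unfold cmq291Psi; rw [if_neg hc])
  refine ⟨?_, ?_⟩
  · rintro v ⟨w, hw, rfl⟩
    exact (cmi291_mem_S.1 (hh.1 hw)).2
  · rintro v ⟨w, hw, hc, rfl⟩
    by_contra hne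
    exact hh.2 w hw (cmi291_mem_S.2 ⟨hc, Bool.eq_true_of_not_eq_false hne⟩)

theorem hol12_end_pins {F : Finset (ℤ × ℤ)} (K : MdlPin) (i : ↥(rswInt F)) :
    (i.1.1 ∈ K.Sp → hol12Pp F K (cmi291P F i)) ∧ (i.1.1 ∈ K.Sm → hol12Pm F K (cmi291P F i)) ∧
      (rswEnd i.1 ∈ K.Sp → hol12Pp F K (cmi291Q F i)) ∧ (rswEnd i.1 ∈ K.Sm → hol12Pm F K (cmi291Q F i)) :=
  ⟨fun h => ⟨_, h, rfl⟩, fun h => ⟨_, h, rsz_face_corner (rsz_mem_int.1 i.2).1, rfl⟩, fun h => ⟨_, h, rfl⟩,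
    fun h => ⟨_, h, rsz_end_corner (rsz_mem_int.1 i.2).1, rfl⟩⟩

theorem hol12_ok_gen {F : Finset (ℤ × ℤ)} {K : MdlPin} (hK : K.Ok) (i : ↥(rswInt F)) (hi : i ∈ cmq291P1 F K ∪ cmq291P0 F K) :
    (hol12Pp F K (cmi291P F i) ∨ hol12Pm F K (cmi291P F i)) ∧ (hol12Pp F K (cmi291Q F i) ∨ hol12Pm F K (cmi291Q F i)) := by
  have hi' : i.1 ∈ K.Oo ∪ K.Oc := by
    rcases Finset.mem_union.1 hi with h | h
    · exact Finset.mem_union_left _ (Finset.mem_subtype.1 h)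
    · exact Finset.mem_union_right _ (Finset.mem_subtype.1 h)
  obtain ⟨a, b⟩ := hK i.1 hi'
  obtain ⟨e1, e2, e3, e4⟩ := hol12_end_pins K i
  exact ⟨(Finset.mem_union.1 a).imp e1 e2, (Finset.mem_union.1 b).imp e3 e4⟩

theorem hol12_sumK_zero {t : ℝ} (h0 : 0 < t) {F : Finset (ℤ × ℤ)} (hF : Cmi291Dual F) (b : Bool) (K : MdlPin)
    (h : ¬ (K.Oo ⊆ rswInt F ∧ ∀ e ∈ K.Oo, e ∉ K.Oc)) (X : RswCfg → ℝ) (hX : ∀ S D O, X ⟨S, D, O⟩ = X ⟨S, ∅, O⟩) :
    mdlSumK t F b K X = 0 := by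
  have a := cmq291_sumK h0.ne' hF b K X hX
  simp only [cmq291_PiO_zero h, zero_mul, mul_zero, Finset.sum_const_zero] at a
  have hc : (0 : ℝ) < (2 : ℝ) ^ Fintype.card (Option ↥(cmi291Inn F)) := by positivity
  exact (mul_eq_zero.1 a).resolve_left hc.ne'

/-- **(T2) HOLLEY FOR PRESCRIPTIONS**: flat problem of a set of faces with Euler's relation, boundary colours `b₁ ≤ b₂`, ordered prescriptions (infeasible ones allowed) -/
theorem hol12_pin {t : ℝ} (h0 : 0 < t) (h1 : t ≤ 1) {F : Finset (ℤ × ℤ)} (hF : Cmi291Dual F) {b₁ b₂ : Bool} (hb : b₁ ≤ b₂)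
    {K₁ K₂ : MdlPin} (ok₁ : K₁.Ok) (ok₂ : K₂.Ok) (hle : Hol12Le K₁ K₂) {X : RswCfg → ℝ} (hX : Cmi291Inc X) :
    mdlSumK t F b₁ K₁ X * mdlSumK t F b₂ K₂ (fun _ => 1) ≤ mdlSumK t F b₁ K₁ (fun _ => 1) * mdlSumK t F b₂ K₂ X := by
  classical
  by_cases hO1 : K₁.Oo ⊆ rswInt F ∧ ∀ e ∈ K₁.Oo, e ∉ K₁.Oc
  swap
  · rw [hol12_sumK_zero h0 hF b₁ K₁ hO1 X hX.noD, hol12_sumK_zero h0 hF b₁ K₁ hO1 (fun _ => 1) (fun _ _ _ => rfl), zero_mul, zero_mul]
  by_cases hO2 : K₂.Oo ⊆ rswInt F ∧ ∀ e ∈ K₂.Oo, e ∉ K₂.Oc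
  swap
  · rw [hol12_sumK_zero h0 hF b₂ K₂ hO2 X hX.noD, hol12_sumK_zero h0 hF b₂ K₂ hO2 (fun _ => 1) (fun _ _ _ => rfl), mul_zero, mul_zero]
  have a1 := cmq291_sumK h0.ne' hF b₁ K₁ X hX.noD
  have a2 := cmq291_sumK h0.ne' hF b₂ K₂ X hX.noD
  have a3 := cmq291_sumK h0.ne' hF b₁ K₁ (fun _ => 1) (fun _ _ _ => rfl)
  have a4 := cmq291_sumK h0.ne' hF b₂ K₂ (fun _ => 1) (fun _ _ _ => rfl)
  simp only [cmq291_PiO_eq hO1.1] at a1 a3
  simp only [cmq291_PiO_eq hO2.1] at a2 a4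
  have key := hol12_AT_holley (cmi291P F) (cmi291Q F) (cmi291_r_nonneg h0 h1)
    (cmq291P1 F K₁) (cmq291P0 F K₁) (cmq291P1 F K₂) (cmq291P0 F K₂)
    (fun i hi hi' => hO1.2 i.1 (Finset.mem_subtype.1 hi) (Finset.mem_subtype.1 hi'))
    (fun i hi hi' => hO2.2 i.1 (Finset.mem_subtype.1 hi) (Finset.mem_subtype.1 hi'))
    (hol12Pp F K₁) (hol12Pm F K₁) (hol12Pp F K₂) (hol12Pm F K₂)
    (cmi291_Phi_nonneg (F := F) b₁ (cmq291_Psi_nonneg K₁)) (cmi291_Phi_nonneg (F := F) b₂ (cmq291_Psi_nonneg K₂))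
    (cmi291_Phi_holley hb (cmq291_Psi_nonneg K₁) (cmq291_Psi_nonneg K₂) (hol12_Psi_holley hle.sp hle.sm))
    (hol12_pins_spec b₁ K₁) (hol12_pins_spec b₂ K₂)
    (fun v ⟨w, hw, e⟩ => ⟨w, hle.sp hw, e⟩) (fun v ⟨w, hw, hc, e⟩ => ⟨w, hle.sm hw, hc, e⟩)
    (hol12_ok_gen ok₁) (hol12_ok_gen ok₂)
    (fun i hi => by
      obtain ⟨_, e2, _, e4⟩ := hol12_end_pins K₁ i
      exact (hle.o1 i.1 (Finset.mem_subtype.1 hi)).imp (fun h => h.imp e2 e4) (fun h => Finset.mem_subtype.2 h))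
    (fun i hi => by
      obtain ⟨_, e2, _, e4⟩ := hol12_end_pins K₁ i
      refine (hle.o2 i.1 (Finset.mem_subtype.1 hi)).imp (fun h => h.imp e2 e4) (fun h => ?_)
      rcases Finset.mem_union.1 h with h | h
      · exact Finset.mem_union_left _ (Finset.mem_subtype.2 h)
      · exact Finset.mem_union_right _ (Finset.mem_subtype.2 h))
    (fun i hi => by
      obtain ⟨e1, _, e3, _⟩ := hol12_end_pins K₂ i
      exact (hle.o3 i.1 (Finset.mem_subtype.1 hi)).imp (fun h => h.imp e1 e3) (fun h => Finset.mem_subtype.2 h))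
    (fun i hi => by
      obtain ⟨e1, _, e3, _⟩ := hol12_end_pins K₂ i
      refine (hle.o4 i.1 (Finset.mem_subtype.1 hi)).imp (fun h => h.imp e1 e3) (fun h => ?_)
      rcases Finset.mem_union.1 h with h | h
      · exact Finset.mem_union_left _ (Finset.mem_subtype.2 h)
      · exact Finset.mem_union_right _ (Finset.mem_subtype.2 h))
    (cmi291_inc_gen (F := F) hX)
  have hKc := cmi291_K_pos h0 F
  have hc : (0 : ℝ) < (2 : ℝ) ^ Fintype.card (Option ↥(cmi291Inn F)) := by positivity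
  refine le_of_mul_le_mul_left ?_ (mul_pos hc hc)
  have goal_form : ∀ A B C D : ℝ,
      ((2 : ℝ) ^ Fintype.card (Option ↥(cmi291Inn F)) * A) * ((2 : ℝ) ^ Fintype.card (Option ↥(cmi291Inn F)) * B)
        ≤ ((2 : ℝ) ^ Fintype.card (Option ↥(cmi291Inn F)) * C)
          * ((2 : ℝ) ^ Fintype.card (Option ↥(cmi291Inn F)) * D) →
      (2 : ℝ) ^ Fintype.card (Option ↥(cmi291Inn F)) * (2 : ℝ) ^ Fintype.card (Option ↥(cmi291Inn F)) * (A * B)
        ≤ (2 : ℝ) ^ Fintype.card (Option ↥(cmi291Inn F)) * (2 : ℝ) ^ Fintype.card (Option ↥(cmi291Inn F))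
          * (C * D) := by
    intro A B C D h
    nlinarith [h]
  refine goal_form _ _ _ _ ?_
  rw [a1, a2, a3, a4]
  have := mul_le_mul_of_nonneg_left key (mul_pos hKc hKc).le
  nlinarith [this]

end Inst

/-! ## 3. exit for Screen/Tv91 : `Scr91Cmp` -/

section Rec

open Classical in
/-- the prescriptions of a record -/
noncomputable def hol12Rec (r : Scr91Rec) : MdlPin :=
  ⟨r.VS.filter (fun v => v ∈ r.π.S), r.VS.filter (fun v => v ∉ r.π.S), r.VO.filter (fun e => e ∈ r.π.O), r.VO.filter (fun e => e ∉ r.π.O)⟩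

open Classical in
/-- the prescriptions of a record together with the plus pins `P` -/
noncomputable def hol12RecP (r : Scr91Rec) (P : Finset ((ℤ × ℤ) × Bool)) : MdlPin :=
  ⟨(hol12Rec r).Sp ∪ (P.image Prod.fst ∪ P.image rswEnd), (hol12Rec r).Sm, (hol12Rec r).Oo ∪ P, (hol12Rec r).Oc⟩

theorem hol12_rec_holds (r : Scr91Rec) (ω : RswCfg) : (hol12Rec r).Holds ω ↔ r.Ev ω := by
  classical
  unfold MdlPin.Holds Scr91Rec.Ev hol12Rec
  constructor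
  · rintro ⟨a, b, c, d⟩
    refine ⟨fun v hv => ⟨fun h => ?_, fun h => a (Finset.mem_filter.2 ⟨hv, h⟩)⟩, fun e he => ⟨fun h => ?_, fun h => c (Finset.mem_filter.2 ⟨he, h⟩)⟩⟩
    · by_contra hc
      exact b v (Finset.mem_filter.2 ⟨hv, hc⟩) h
    · by_contra hc
      exact d e (Finset.mem_filter.2 ⟨he, hc⟩) h
  · rintro ⟨a, b⟩
    refine ⟨fun v hv => ?_, fun v hv h => ?_, fun e he => ?_, fun e he h => ?_⟩
    · obtain ⟨h1, h2⟩ := Finset.mem_filter.1 hv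
      exact (a v h1).2 h2
    · obtain ⟨h1, h2⟩ := Finset.mem_filter.1 hv
      exact h2 ((a v h1).1 h)
    · obtain ⟨h1, h2⟩ := Finset.mem_filter.1 he
      exact (b e h1).2 h2
    · obtain ⟨h1, h2⟩ := Finset.mem_filter.1 he
      exact h2 ((b e h1).1 h)

theorem hol12_good_true_iff (ω : RswCfg) (e : (ℤ × ℤ) × Bool) : RswGood true ω e ↔ e ∈ ω.O ∧ e.1 ∈ ω.S ∧ rswEnd e ∈ ω.S := by
  unfold RswGood
  simp

theorem hol12_good_false_iff (ω : RswCfg) (e : (ℤ × ℤ) × Bool) : RswGood false ω e ↔ e ∈ ω.O ∧ e.1 ∉ ω.S ∧ rswEnd e ∉ ω.S := by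
  unfold RswGood
  simp

theorem hol12_recP_holds (r : Scr91Rec) (P : Finset ((ℤ × ℤ) × Bool)) (ω : RswCfg) :
    (hol12RecP r P).Holds ω ↔ (∀ e ∈ P, RswGood true ω e) ∧ r.Ev ω := by
  classical
  rw [← hol12_rec_holds]
  unfold MdlPin.Holds hol12RecP
  simp only [hol12_good_true_iff]
  constructor
  · rintro ⟨a, b, c, d⟩
    refine ⟨fun e he => ⟨c (Finset.mem_union_right _ he), a (Finset.mem_union_right _ (Finset.mem_union_left _ (Finset.mem_image_of_mem _ he))),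
      a (Finset.mem_union_right _ (Finset.mem_union_right _ (Finset.mem_image_of_mem _ he)))⟩,
      fun v hv => a (Finset.mem_union_left _ hv), b, fun e he => c (Finset.mem_union_left _ he), d⟩
  · rintro ⟨g, a, b, c, d⟩
    refine ⟨fun v hv => ?_, b, fun e he => ?_, d⟩
    · rcases Finset.mem_union.1 hv with h | h
      · exact a h
      · rcases Finset.mem_union.1 h with h | h
        · obtain ⟨e, he, rfl⟩ := Finset.mem_image.1 h
          exact (g e he).2.1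
        · obtain ⟨e, he, rfl⟩ := Finset.mem_image.1 h
          exact (g e he).2.2
    · rcases Finset.mem_union.1 he with h | h
      · exact c h
      · exact (g e h).1

theorem hol12_rec_site (r : Scr91Rec) {v : ℤ × ℤ} (hv : v ∈ r.VS) : v ∈ (hol12Rec r).Sp ∪ (hol12Rec r).Sm := by
  classical
  unfold hol12Rec
  by_cases h : v ∈ r.π.S
  · exact Finset.mem_union_left _ (Finset.mem_filter.2 ⟨hv, h⟩)
  · exact Finset.mem_union_right _ (Finset.mem_filter.2 ⟨hv, h⟩)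

theorem hol12_rec_edge (r : Scr91Rec) {e : (ℤ × ℤ) × Bool} : e ∈ (hol12Rec r).Oo ∪ (hol12Rec r).Oc ↔ e ∈ r.VO := by
  classical
  unfold hol12Rec
  simp only [Finset.mem_union, Finset.mem_filter]
  tauto

theorem hol12_rec_ok {r : Scr91Rec} (hr : r.Legal) : (hol12Rec r).Ok := fun e he =>
  ⟨hol12_rec_site r (hr e (hol12_rec_edge r |>.1 he)).1, hol12_rec_site r (hr e (hol12_rec_edge r |>.1 he)).2⟩

theorem hol12_recP_ok {r : Scr91Rec} (hr : r.Legal) (P : Finset ((ℤ × ℤ) × Bool)) : (hol12RecP r P).Ok := by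
  classical
  intro e he
  have up : ∀ v, v ∈ (hol12Rec r).Sp ∪ (hol12Rec r).Sm → v ∈ (hol12RecP r P).Sp ∪ (hol12RecP r P).Sm := by
    intro v hv
    rcases Finset.mem_union.1 hv with h | h
    · exact Finset.mem_union_left _ (Finset.mem_union_left _ h)
    · exact Finset.mem_union_right _ h
  have he' : e ∈ (hol12Rec r).Oo ∪ (hol12Rec r).Oc ∨ e ∈ P := by
    rcases Finset.mem_union.1 he with h | h
    · rcases Finset.mem_union.1 h with h | h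
      · exact Or.inl (Finset.mem_union_left _ h)
      · exact Or.inr h
    · exact Or.inl (Finset.mem_union_right _ h)
  rcases he' with h | h
  · exact ⟨up _ (hol12_rec_ok hr e h).1, up _ (hol12_rec_ok hr e h).2⟩
  · exact ⟨Finset.mem_union_left _ (Finset.mem_union_right _ (Finset.mem_union_left _ (Finset.mem_image_of_mem _ h))),
      Finset.mem_union_left _ (Finset.mem_union_right _ (Finset.mem_union_right _ (Finset.mem_image_of_mem _ h)))⟩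

theorem hol12_rec_le {r₁ r₂ : Scr91Rec} (l₁ : r₁.Legal) (l₂ : r₂.Legal) (hle : Scr91Le r₁ r₂) (P : Finset ((ℤ × ℤ) × Bool)) :
    Hol12Le (hol12Rec r₁) (hol12RecP r₂ P) := by
  classical
  obtain ⟨eS, eO, hS, hp, hm⟩ := hle
  have mSp : ∀ (r : Scr91Rec) v, v ∈ (hol12Rec r).Sp ↔ v ∈ r.VS ∧ v ∈ r.π.S := fun r v => by unfold hol12Rec; exact Finset.mem_filter
  have mSm : ∀ (r : Scr91Rec) v, v ∈ (hol12Rec r).Sm ↔ v ∈ r.VS ∧ v ∉ r.π.S := fun r v => by unfold hol12Rec; exact Finset.mem_filter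
  have mOo : ∀ (r : Scr91Rec) e, e ∈ (hol12Rec r).Oo ↔ e ∈ r.VO ∧ e ∈ r.π.O := fun r e => by unfold hol12Rec; exact Finset.mem_filter
  have mOc : ∀ (r : Scr91Rec) e, e ∈ (hol12Rec r).Oc ↔ e ∈ r.VO ∧ e ∉ r.π.O := fun r e => by unfold hol12Rec; exact Finset.mem_filter
  refine ⟨?_, ?_, ?_, ?_, ?_, ?_⟩
  · intro v hv
    obtain ⟨h1, h2⟩ := (mSp r₁ v).1 hv
    exact Finset.mem_union_left _ ((mSp r₂ v).2 ⟨eS ▸ h1, hS v h1 h2⟩)
  · intro v hv
    obtain ⟨h1, h2⟩ := (mSm r₂ v).1 hv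
    exact (mSm r₁ v).2 ⟨eS ▸ h1, fun h => h2 (hS v (eS ▸ h1) h)⟩
  · intro e he
    obtain ⟨h1, h2⟩ := (mOo r₁ e).1 he
    by_cases a : e.1 ∈ r₁.π.S
    · by_cases b : rswEnd e ∈ r₁.π.S
      · right
        have := hp e h1 ((hol12_good_true_iff _ _).2 ⟨h2, a, b⟩)
        exact Finset.mem_union_left _ ((mOo r₂ e).2 ⟨eO ▸ h1, ((hol12_good_true_iff _ _).1 this).1⟩)
      · exact Or.inl (Or.inr ((mSm r₁ _).2 ⟨(l₁ e h1).2, b⟩))
    · exact Or.inl (Or.inl ((mSm r₁ _).2 ⟨(l₁ e h1).1, a⟩))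
  · intro e he
    obtain ⟨h1, _⟩ := (mOc r₂ e).1 he
    exact Or.inr ((hol12_rec_edge r₁).2 (eO ▸ h1))
  · intro e he
    rcases Finset.mem_union.1 he with h | h
    · obtain ⟨h1, h2⟩ := (mOo r₂ e).1 h
      by_cases a : e.1 ∈ r₂.π.S
      · exact Or.inl (Or.inl (Finset.mem_union_left _ ((mSp r₂ _).2 ⟨(l₂ e h1).1, a⟩)))
      · by_cases b : rswEnd e ∈ r₂.π.S
        · exact Or.inl (Or.inr (Finset.mem_union_left _ ((mSp r₂ _).2 ⟨(l₂ e h1).2, b⟩)))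
        · right
          have := hm e (eO ▸ h1) ((hol12_good_false_iff _ _).2 ⟨h2, a, b⟩)
          exact (mOo r₁ e).2 ⟨eO ▸ h1, ((hol12_good_false_iff _ _).1 this).1⟩
    · exact Or.inl (Or.inl (Finset.mem_union_right _ (Finset.mem_union_left _ (Finset.mem_image_of_mem _ h))))
  · intro e he
    obtain ⟨h1, _⟩ := (mOc r₁ e).1 he
    have := (hol12_rec_edge r₂).2 (eO ▸ h1)
    right
    rcases Finset.mem_union.1 this with h | h
    · exact Finset.mem_union_left _ (Finset.mem_union_left _ h)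
    · exact Finset.mem_union_right _ h

theorem hol12_N_rec (t : ℝ) (F : Finset (ℤ × ℤ)) (r : Scr91Rec) (f : RswCfg → ℝ) :
    scr91N t F (fun _ => 1) r f = mdlSumK t F true (hol12Rec r) f := by
  classical
  unfold scr91N mdlSumK
  congr 1
  funext ω
  by_cases h : r.Ev ω
  · rw [rsx_ind_pos h, if_pos ((hol12_rec_holds r ω).2 h)]; ring
  · rw [rsx_ind_neg h, if_neg (fun hh => h ((hol12_rec_holds r ω).1 hh))]; ring

theorem hol12_N_recP (t : ℝ) (F : Finset (ℤ × ℤ)) (P : Finset ((ℤ × ℤ) × Bool)) (r : Scr91Rec) (f : RswCfg → ℝ) :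
    scr91N t F (scr91Pin P) r f = mdlSumK t F true (hol12RecP r P) f := by
  classical
  unfold scr91N mdlSumK scr91Pin
  congr 1
  funext ω
  by_cases g : ∀ e ∈ P, RswGood true ω e
  · by_cases h : r.Ev ω
    · rw [rsx_ind_pos g, rsx_ind_pos h, if_pos ((hol12_recP_holds r P ω).2 ⟨g, h⟩)]; ring
    · rw [rsx_ind_neg h, if_neg (fun hh => h ((hol12_recP_holds r P ω).1 hh).2)]; ring
  · rw [rsx_ind_neg g, if_neg (fun hh => g ((hol12_recP_holds r P ω).1 hh).1)]; ring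

theorem hol12_inc_of_scr {f : RswCfg → ℝ} (hf : Scr91Inc f) : Cmi291Inc f := fun ω ω' h =>
  hf ω ω' h.1 (fun _ hg => cmi291_good_true h hg) (fun _ hg => cmi291_good_false h hg)

/-- **EXIT for Screen/Tv91**: `Scr91Cmp t F P`, verbatim, for every `F` with Euler's relation and EVERY `P` -/
theorem hol12_scr91cmp_dual {t : ℝ} (h0 : 0 < t) (h1 : t ≤ 1) {F : Finset (ℤ × ℤ)} (hF : Cmi291Dual F) (P : Finset ((ℤ × ℤ) × Bool)) :
    Scr91Cmp t F P := by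
  intro r₁ r₂ l₁ l₂ hle f hf _
  rw [hol12_N_rec, hol12_N_rec, hol12_N_recP, hol12_N_recP, mul_comm (mdlSumK t F true (hol12RecP r₂ P) f)]
  exact hol12_pin h0 h1 hF le_rfl (hol12_rec_ok l₁) (hol12_recP_ok l₂ P) (hol12_rec_le l₁ l₂ hle P) (hol12_inc_of_scr hf)

/-- **EXIT for Screen/Tv91**, Jordan sets of faces -/
theorem hol12_scr91cmp {t : ℝ} (h0 : 0 < t) (h1 : t ≤ 1) {F : Finset (ℤ × ℤ)} (hF : RswJordan F) (P : Finset ((ℤ × ℤ) × Bool)) :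
    Scr91Cmp t F P := hol12_scr91cmp_dual h0 h1 (cmi291_dual_of_jordan hF) P

end Rec

/-! ## 4. THE ORDER OF TWO LEGAL HISTORIES (`RswCon` form): `Rrt109Ord t`, verbatim -/

section Ord

theorem hol12_le_of_cmi {ω ω' : RswCfg} (h : Cmi291Le ω ω') : RswLe ω ω' :=
  ⟨h.1, fun _ hg => cmi291_good_true h hg, fun _ hg => cmi291_good_false h hg⟩

theorem hol12_inc_ind {L : RswCfg → Prop} (hL : RswInc L) : Cmi291Inc (fun ω => rsxInd (L ω)) := by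
  intro ω ω' h
  show rsxInd (L ω) ≤ rsxInd (L ω')
  by_cases a : L ω
  · rw [rsx_ind_pos a, rsx_ind_pos (hL ω ω' (hol12_le_of_cmi h) a)]
  · rw [rsx_ind_neg a]
    by_cases a' : L ω'
    · rw [rsx_ind_pos a']; norm_num
    · rw [rsx_ind_neg a']

theorem hol12_mono_inc {X : RswCfg → ℝ} (hX : RrsMono X) : Cmi291Inc X := fun ω ω' h => hX ω ω' (hol12_le_of_cmi h)

/-- the order of histories gives the order of prescriptions; extra good edges: `E₁` of colour minus below, `E₂` of colour plus above are allowed -/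
theorem hol12_le_pin {K₁ K₂ : RswCon} (h : Rrt109Le K₁ K₂) : Hol12Le (rrsPin K₁ ∅ true) (rrsPin K₂ ∅ true) := by
  have ends_mono : ∀ {A B : Finset ((ℤ × ℤ) × Bool)}, A ⊆ B → rrsEnds A ⊆ rrsEnds B := fun hAB v hv => by
    obtain ⟨e, he, rfl | rfl⟩ := rrs189_mem_ends hv
    · exact rrs189_ends_fst (hAB he)
    · exact rrs189_ends_end (hAB he)
  refine ⟨?_, ?_, ?_, ?_, ?_, ?_⟩
  · exact Finset.union_subset_union (Finset.union_subset_union h.sp (ends_mono h.gp)) (Finset.Subset.refl _)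
  · exact Finset.union_subset_union (Finset.union_subset_union h.sm (ends_mono h.gm)) (Finset.Subset.refl _)
  · intro e he
    simp only [rrsPin, Finset.mem_union, Finset.notMem_empty, or_false] at he ⊢
    rcases he with a | a
    · exact Or.inr (Or.inl (h.gp a))
    · exact Or.inl (Or.inl (Or.inl (Or.inr (rrs189_ends_fst a))))
  · intro e he
    simp only [rrsPin, Finset.mem_union, Finset.notMem_empty, or_false] at he ⊢
    rcases Finset.mem_union.1 (h.cl2 he) with a | a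
    · exact Or.inr (Or.inr a)
    · exact Or.inr (Or.inl (Or.inr a))
  · intro e he
    simp only [rrsPin, Finset.mem_union, Finset.notMem_empty, or_false] at he ⊢
    rcases he with a | a
    · exact Or.inl (Or.inl (Or.inl (Or.inr (rrs189_ends_fst a))))
    · exact Or.inr (Or.inr (h.gm a))
  · intro e he
    simp only [rrsPin, Finset.mem_union, Finset.notMem_empty, or_false] at he ⊢
    rcases Finset.mem_union.1 (h.cl1 he) with a | a
    · exact Or.inr (Or.inr a)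
    · exact Or.inr (Or.inl (Or.inl a))

theorem hol12_sumK_con (t : ℝ) (F : Finset (ℤ × ℤ)) (b : Bool) (K : RswCon) (X : RswCfg → ℝ) :
    mdlSumK t F b (rrsPin K ∅ true) X = rswSum t F b (fun ω => rsxInd (K.Holds ω) * X ω) := by
  classical
  unfold mdlSumK
  congr 1
  funext ω
  have e : (rrsPin K ∅ true).Holds ω ↔ K.Holds ω := by
    rw [rrs189_pin_holds]
    exact ⟨fun h => h.1, fun h => ⟨h, fun e he => absurd he (Finset.notMem_empty e)⟩⟩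
  by_cases h : K.Holds ω
  · rw [if_pos (e.2 h), rsx_ind_pos h, one_mul]
  · rw [if_neg (fun hh => h (e.1 hh)), rsx_ind_neg h, zero_mul]

/-- **HOLLEY FOR TWO LEGAL HISTORIES**, real observables, two boundary colours, any `F` with Euler's relation -/
theorem hol12_con {t : ℝ} (h0 : 0 < t) (h1 : t ≤ 1) {F : Finset (ℤ × ℤ)} (hF : Cmi291Dual F) {b₁ b₂ : Bool} (hb : b₁ ≤ b₂)
    {K₁ K₂ : RswCon} {F₁ F₂ : Finset (ℤ × ℤ)} (l₁ : K₁.Legal F₁) (l₂ : K₂.Legal F₂) (hle : Rrt109Le K₁ K₂) {X : RswCfg → ℝ} (hX : RrsMono X) :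
    rnzN t F b₁ K₁ X * rnzZ t F b₂ K₂ ≤ rnzZ t F b₁ K₁ * rnzN t F b₂ K₂ X := by
  have key := hol12_pin h0 h1 hF hb (rrs189_pin_ok l₁ ∅ true) (rrs189_pin_ok l₂ ∅ true) (hol12_le_pin hle) (hol12_mono_inc hX)
  rw [hol12_sumK_con, hol12_sumK_con, hol12_sumK_con, hol12_sumK_con] at key
  exact key

/-- **EXIT for B6 (109)**: `Rrt109Ord t`, verbatim -/
theorem hol12_ord {t : ℝ} (h0 : 0 < t) (h1 : t ≤ 1) : Rrt109Ord t := by
  intro n b K₁ K₂ L l₁ l₂ hle hL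
  have e1 : ∀ K : RswCon, (fun ω => rsxInd (K.Holds ω ∧ L ω)) = fun ω => rsxInd (K.Holds ω) * rsxInd (L ω) := fun K => by
    funext ω
    by_cases a : K.Holds ω <;> by_cases c : L ω
    · rw [rsx_ind_pos a, rsx_ind_pos c, rsx_ind_pos ⟨a, c⟩, one_mul]
    · rw [rsx_ind_neg c, rsx_ind_neg (fun hh => c hh.2), mul_zero]
    · rw [rsx_ind_neg a, rsx_ind_neg (fun hh => a hh.1), zero_mul]
    · rw [rsx_ind_neg a, rsx_ind_neg (fun hh => a hh.1), zero_mul]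
  have e2 : ∀ K : RswCon, (fun ω => rsxInd (K.Holds ω)) = fun ω => rsxInd (K.Holds ω) * (fun _ => (1 : ℝ)) ω := fun K => by
    funext ω
    rw [mul_one]
  rcases Nat.eq_zero_or_pos n with rfl | hn
  · have hbox : rswBox 0 0 = ∅ := by unfold rswBox; simp
    have hc : cornersOf (rswBox 0 0) = ∅ := by rw [hbox]; rfl
    have hi : rswInt (rswBox 0 0) = ∅ := by rw [hbox]; rfl
    have triv : ∀ K : RswCon, K.Legal (rswBox 0 0) → K = ⟨∅, ∅, ∅, ∅, ∅⟩ := fun K l => by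
      have a1 := l.sp
      have a2 := l.sm
      have a3 := l.ed
      rw [hc] at a1 a2
      rw [hi] at a3
      have a4 := Finset.subset_empty.1 a3
      rw [Finset.union_eq_empty, Finset.union_eq_empty] at a4
      cases K
      simp only [RswCon.mk.injEq]
      exact ⟨Finset.subset_empty.1 a1, Finset.subset_empty.1 a2, a4.1.1, a4.1.2, a4.2⟩
    rw [triv K₁ l₁, triv K₂ l₂, mul_comm]
  · have key := hol12_pin h0 h1 (cmi291_dual_of_jordan (bj219_box_jordan 0 hn)) (le_refl b) (rrs189_pin_ok l₁ ∅ true) (rrs189_pin_ok l₂ ∅ true)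
      (hol12_le_pin hle) (hol12_inc_ind hL)
    rw [hol12_sumK_con, hol12_sumK_con, hol12_sumK_con, hol12_sumK_con] at key
    rw [e1, e1, e2 K₁, e2 K₂]
    exact key

end Ord

/-- the equation lemmas of the definitions of this file are generated HERE (RULES.md, rule 6) -/
theorem hol12_eqns_cite : True := by
  have := @hol12C.eq_1.{0}
  have := @hol12M.eq_1.{0, 0}
  have := @hol12Pp.eq_1
  have := @hol12Pm.eq_1
  have := @hol12Rec.eq_1
  have := @hol12RecP.eq_1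
  trivial

end Claimed.Agent.R292
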