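import Claimed.Agent.R292.Defs.GaussMatch
import Claimed.Agent.R292.Rsw.PlaneIn31
import Claimed.Agent.R292.Rsw.BoxJordan219

/-!
# Row 292 (S0540), Rsw/Rate72 : **[RATE]** `GaussRate t` (Defs/GaussMatch of helper181) VERBATIM from `GaussFkg t` = the statement of `exit_mdl_cmp` (S0), colour plus      (pen helper72; prefix `rt72_`, `Rt72`, `rt72`)      0 sorry

TEX[prop:comparison], second paragraph ("monotone circuit couplings"), as used in TEX[lem:neutral-pair-mixing].      NO coupling, NO exploration induction, NO splitting into monotone parts (no factor `card A`).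

ROAD = THE INNER CLUSTER.  `V(w)` = the faces of `B` joined to `A` by dual paths in `B` which cross no good PLUS edge.
* (1) deterministic: `1[RswSep B true w A (layer B)] = ∑_V rskInd V true w * 1[Rt72Conn V A true w]`, `V` over the sets `A ⊆ V ⊆ B \ layer B`; `Rt72Conn V` reads inside `V` only      (`rt72_sep_sum`)
* (2) exact cut (`rsk_cut` of helper91), in `(F, b)` with the weight `u` and in `(B, -)`:   `Sum (1_Sep u X) = ∑_V ψ_X(V) a(V)`,  `ψ_X(V) = E_{V,+} (1_conn X)`, `a(V) = Sum (rskInd V true * u)`      (`rt72_cut_sum`)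
* (3) the cut event is INCREASING:   `a(V) ≥ λ(V) Z`, `λ(V) = E_{B,-} (rskInd V true)`, `Z = Sum u`      (FKG without pins + `rt72_dn` = `rpi31_dn` of helper31)      (`rt72_cmp`)
* (4) `|ψ_X| ≤ ψ_1`, so `|Sum (u X) - E_{B,-} X * Z| ≤ ∑_V ψ_1(V) (a(V) - λ(V) Z) + Sum (u 1_¬Sep) + Z P_{B,-}(¬Sep) = 2 Z P_{B,-}(¬Sep)`      (`rt72_rate`)

PART 2 (secs 6-9): **[MIX-R]** `rt72_mix : GaussRate t → GaussArm t → GaussMixR t` VERBATIM.
* exterior search from the layer of `Λ = Λ_L(z)`, colour plus (`rt72Out`, `Rt72K`; the search of helper171 with a colour parameter); swap with the exterior spectator `G` (`rt72_K_swap`)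
* behind the searched cut the law is the flat PLUS law of the sealed `U ⊇ B = Λ_ρ(z)`; NO condition on the shape of `U`: `GaussRate` in the Jordan ambient `F` with `u = rskInd U true` (`rt72_sealed`); `u = 1` for `F'` (`rt72_flat`)
* `|E_F (G X) - E_F G * E_{F'} X| ≤ 4 P_{B,-}(no plus cut A | layer B) + 2 P_F(no plus cut B | layer Λ)` (`rt72_mix_abs2`); `GaussArm` twice (`rt72_mix_box`); `ρ = ⌊√(r L)⌋`, `κ = α / 2` (`rt72_num`)
-/

set_option autoImplicit false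

namespace Claimed.Agent.R292

open Claims Claims.C0468 Finset

/-! ## 0. vocabulary -/

/-- the inner cluster: the faces of `B` joined to `A` inside `B` without crossing a good edge of colour `a` -/
noncomputable def rt72Cl (B A : Finset (ℤ × ℤ)) (a : Bool) (ω : RswCfg) : Finset (ℤ × ℤ) :=
  open Classical in B.filter (fun g => ∃ f ∈ A, Relation.ReflTransGen (RswStep B a ω) f g)

/-- every face of `V` is joined to `A` inside `V` -/
def Rt72Conn (V A : Finset (ℤ × ℤ)) (a : Bool) (ω : RswCfg) : Prop :=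
  ∀ g ∈ V, ∃ f ∈ A, Relation.ReflTransGen (RswStep V a ω) f g

/-- the possible values of the inner cluster on the separation event -/
noncomputable def rt72Fam (B A : Finset (ℤ × ℤ)) : Finset (Finset (ℤ × ℤ)) :=
  open Classical in (B \ rswLayer B).powerset.filter (fun V => A ⊆ V)

theorem rt72_eqns_cite : True := by
  have := @rt72Cl.eq_1
  have := @Rt72Conn.eq_1
  have := @rt72Fam.eq_1
  trivial

/-! ## 1. the inner cluster -/

theorem rt72_mem_cl {B A : Finset (ℤ × ℤ)} {a : Bool} {ω : RswCfg} {g : ℤ × ℤ} :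
    g ∈ rt72Cl B A a ω ↔ g ∈ B ∧ ∃ f ∈ A, Relation.ReflTransGen (RswStep B a ω) f g := by
  classical
  unfold rt72Cl
  simp only [mem_filter]

theorem rt72_mem_fam {B A V : Finset (ℤ × ℤ)} : V ∈ rt72Fam B A ↔ (V ⊆ B ∧ ∀ x ∈ V, x ∉ rswLayer B) ∧ A ⊆ V := by
  classical
  unfold rt72Fam
  simp only [mem_filter, mem_powerset]
  refine and_congr_left fun _ => ⟨fun h => ⟨fun x hx => (mem_sdiff.1 (h hx)).1, fun x hx => (mem_sdiff.1 (h hx)).2⟩,
    fun h x hx => mem_sdiff.2 ⟨h.1 hx, h.2 x hx⟩⟩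

/-- the separation event = the inner cluster avoids the layer -/
theorem rt72_sep_iff {B A : Finset (ℤ × ℤ)} (hA : A ⊆ B) (a : Bool) (ω : RswCfg) :
    RswSep B a ω A (rswLayer B) ↔ rt72Cl B A a ω ∈ rt72Fam B A := by
  rw [rt72_mem_fam]
  constructor
  · intro h
    refine ⟨⟨fun x hx => (rt72_mem_cl.1 hx).1, fun x hx hl => ?_⟩, fun x hx => rt72_mem_cl.2 ⟨hA hx, x, hx, Relation.ReflTransGen.refl⟩⟩
    obtain ⟨_, f, hf, hr⟩ := rt72_mem_cl.1 hx
    exact h f hf x hl hr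
  · rintro ⟨⟨_, h⟩, _⟩ f hf g hg hr
    exact h g (rt72_mem_cl.2 ⟨rsp171_layer_sub_box B hg, f, hf, hr⟩) hg

/-- the value of the inner cluster: exact cut + connection inside -/
theorem rt72_cl_iff {B A V : Finset (ℤ × ℤ)} (hV : V ∈ rt72Fam B A) (a : Bool) (ω : RswCfg) :
    rt72Cl B A a ω = V ↔ RswCut V a ω ∧ Rt72Conn V A a ω := by
  obtain ⟨⟨hVB, hVl⟩, hAV⟩ := rt72_mem_fam.1 hV
  constructor
  · intro h
    have hmem : ∀ x, x ∈ V ↔ x ∈ B ∧ ∃ f ∈ A, Relation.ReflTransGen (RswStep B a ω) f x := by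
      intro x; rw [← h, rt72_mem_cl]
    constructor
    · have key : ∀ (x y : ℤ × ℤ) (e : (ℤ × ℤ) × Bool), x ∈ V → y ∉ V → ((x = e.1 ∧ y = rswCo e) ∨ (y = e.1 ∧ x = rswCo e)) →
          RswGood a ω e := by
        intro x y e hx hy he
        have hyB : y ∈ B := rsp171_nbr (hVB hx) (hVl x hx) he
        obtain ⟨_, f, hf, hr⟩ := (hmem x).1 hx
        by_contra hn
        exact hy ((hmem y).2 ⟨hyB, f, hf, hr.tail ⟨hVB hx, hyB, e, he, hn⟩⟩)
      intro e he
      rcases he with ⟨h1, h2⟩ | ⟨h1, h2⟩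
      · exact key e.1 (rswCo e) e h1 h2 (Or.inl ⟨rfl, rfl⟩)
      · exact key (rswCo e) e.1 e h2 h1 (Or.inr ⟨rfl, rfl⟩)
    · intro g hg
      obtain ⟨hgB, f, hf, hr⟩ := (hmem g).1 hg
      refine ⟨f, hf, ?_⟩
      clear hg hgB
      induction hr with
      | refl => exact Relation.ReflTransGen.refl
      | tail h1 h2 ih =>
        rename_i x y
        obtain ⟨hx, hy, e, he, hn⟩ := h2
        exact ih.tail ⟨(hmem x).2 ⟨hx, f, hf, h1⟩, (hmem y).2 ⟨hy, f, hf, h1.tail ⟨hx, hy, e, he, hn⟩⟩, e, he, hn⟩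
  · rintro ⟨hc, hn⟩
    ext x
    rw [rt72_mem_cl]
    constructor
    · rintro ⟨hxB, f, hf, hr⟩
      clear hxB
      induction hr with
      | refl => exact hAV hf
      | tail _ h2 ih =>
        rename_i x y
        obtain ⟨_, _, e, he, hng⟩ := h2
        by_contra hy
        apply hng
        apply hc
        rcases he with ⟨rfl, rfl⟩ | ⟨rfl, rfl⟩
        · exact Or.inl ⟨ih, hy⟩
        · exact Or.inr ⟨hy, ih⟩
    · intro hx
      obtain ⟨f, hf, hr⟩ := hn x hx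
      exact ⟨hVB hx, f, hf, rsp171_rtg_mono (fun u v h => ⟨hVB h.1, hVB h.2.1, h.2.2⟩) hr⟩

/-- **(1)** the indicator of the separation event is the sum over the values of the inner cluster -/
theorem rt72_sep_sum {B A : Finset (ℤ × ℤ)} (hA : A ⊆ B) (a : Bool) (ω : RswCfg) :
    rspI (fun ω => RswSep B a ω A (rswLayer B)) ω = ∑ V ∈ rt72Fam B A, rskInd V a ω * rspI (Rt72Conn V A a) ω := by
  classical
  have e : ∀ V ∈ rt72Fam B A, rskInd V a ω * rspI (Rt72Conn V A a) ω = if rt72Cl B A a ω = V then 1 else 0 := by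
    intro V hV
    by_cases h : rt72Cl B A a ω = V
    · obtain ⟨h1, h2⟩ := (rt72_cl_iff hV a ω).1 h
      rw [if_pos h, rpi31_ind_pos h1, rsp171_I_pos h2, one_mul]
    · rw [if_neg h]
      by_cases h1 : RswCut V a ω
      · have h2 : ¬ Rt72Conn V A a ω := fun h2 => h ((rt72_cl_iff hV a ω).2 ⟨h1, h2⟩)
        rw [rsp171_I_neg h2, mul_zero]
      · rw [rpi31_ind_neg h1, zero_mul]
  rw [sum_congr rfl e, sum_ite_eq]
  by_cases h : RswSep B a ω A (rswLayer B)
  · rw [rsp171_I_pos (L := fun ω => RswSep B a ω A (rswLayer B)) h, if_pos ((rt72_sep_iff hA a ω).1 h)]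
  · rw [rsp171_I_neg (L := fun ω => RswSep B a ω A (rswLayer B)) h, if_neg (fun h' => h ((rt72_sep_iff hA a ω).2 h'))]

/-! ## 2. what reads where -/

theorem rt72_conn_inside (V A : Finset (ℤ × ℤ)) (a : Bool) : RskInside V (rspI (Rt72Conn V A a)) := by
  intro ω
  have e : RswStep V a (rskIn V ω) = RswStep V a ω :=
    rsp171_step_in_eq (by simp only [rskIn, inter_assoc, inter_self]) (by simp only [rskIn, inter_assoc, inter_self])
  refine rsp171_I_congr ?_
  unfold Rt72Conn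
  rw [e]

theorem rt72_inside_mono {A V : Finset (ℤ × ℤ)} (h : A ⊆ V) {X : RswCfg → ℝ} (hX : RskInside A X) : RskInside V X := by
  intro ω
  have e : rskIn A (rskIn V ω) = rskIn A ω := by
    unfold rskIn
    simp only [inter_assoc]
    rw [inter_eq_right.2 (rsk_corners_mono h), inter_eq_right.2 h, inter_eq_right.2 (rsk_int_mono h)]
  rw [← hX (rskIn V ω), e, hX]

theorem rt72_core_mono {V B : Finset (ℤ × ℤ)} (h : V ⊆ B) : rskCore V ⊆ rskCore B := by
  intro v hv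
  exact rsk_core_iff.2 (rsp171_onPolygon_anti h (rsk_core_iff.1 hv))

theorem rt72_outside_mono {V B : Finset (ℤ × ℤ)} (h : V ⊆ B) {u : RswCfg → ℝ} (hu : RskOutside B u) : RskOutside V u := by
  classical
  intro ω
  have e : rskOut B (rskOut V ω) = rskOut B ω := by
    unfold rskOut
    simp only [sdiff_sdiff_left, sup_eq_union]
    rw [union_eq_right.2 (rt72_core_mono h), union_eq_right.2 h, union_eq_right.2 (rsk_int_mono h)]
  rw [← hu (rskOut V ω), e, hu]

/-- an edge of the polygon of a member of the family is an interior edge of `B` -/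
theorem rt72_bd_int {B A V : Finset (ℤ × ℤ)} (hV : V ∈ rt72Fam B A) {e : (ℤ × ℤ) × Bool} (he : RskBd V e) : e ∈ rswInt B := by
  obtain ⟨⟨hVB, hVl⟩, _⟩ := rt72_mem_fam.1 hV
  rw [rsb_mem_int]
  rcases he with ⟨h1, _⟩ | ⟨_, h2⟩
  · exact ⟨hVB h1, rsp171_nbr (hVB h1) (hVl _ h1) (Or.inl ⟨rfl, rfl⟩)⟩
  · exact ⟨rsp171_nbr (hVB h2) (hVl _ h2) (Or.inr ⟨rfl, rfl⟩), hVB h2⟩

theorem rt72_ind_loc {B A V : Finset (ℤ × ℤ)} (hV : V ∈ rt72Fam B A) (a : Bool) :
    RspLoc (cornersOf B) ∅ (rswInt B) (rskInd V a) := by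
  have key : ∀ ω ω' : RswCfg, ω.S ∩ cornersOf B = ω'.S ∩ cornersOf B → ω.O ∩ rswInt B = ω'.O ∩ rswInt B →
      RswCut V a ω → RswCut V a ω' := by
    intro ω ω' hS hO hc e he
    have hi := rt72_bd_int hV he
    exact (rsp171_good_congr (rsp171_mem_of_inter hO hi) (rsp171_mem_of_inter hS (rsb_int_fst_corner hi))
      (rsp171_mem_of_inter hS (rsb_int_end_corner hi))).1 (hc e he)
  intro ω ω' hS _ hO
  by_cases hc : RswCut V a ω
  · rw [rpi31_ind_pos hc, rpi31_ind_pos (key ω ω' hS hO hc)]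
  · rw [rpi31_ind_neg hc, rpi31_ind_neg (fun h => hc (key ω' ω hS.symm hO.symm h))]

theorem rt72_ind_inc (V : Finset (ℤ × ℤ)) : RspInc (rskInd V true) := by
  intro ω ω' h
  by_cases hc : RswCut V true ω
  · have hc' : RswCut V true ω' := by
      intro e he
      obtain ⟨g1, g2, g3⟩ := hc e he
      have m1 : e.1 ∈ ω.S := g2.2 rfl
      have m2 : rswEnd e ∈ ω.S := g3.2 rfl
      exact ⟨h.2.1 e g1 m1, ⟨fun _ => rfl, fun _ => h.1 m1⟩, ⟨fun _ => rfl, fun _ => h.1 m2⟩⟩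
    rw [rpi31_ind_pos hc, rpi31_ind_pos hc']
  · rw [rpi31_ind_neg hc]; exact rpi31_ind_nonneg _ _ _

/-! ## 3. the exact cut along the inner cluster -/

/-- **(2)** -/
theorem rt72_cut_sum {t : ℝ} (h0 : 0 < t) (h1 : t ≤ 1) {G B A : Finset (ℤ × ℤ)} (hBG : B ⊆ G) (hA : A ⊆ B) (a b : Bool)
    {w X : RswCfg → ℝ} (hw : RskOutside B w) (hX : RskInside A X) :
    rswSum t G b (fun ω => rspI (fun ω => RswSep B a ω A (rswLayer B)) ω * (w ω * X ω)) =
      ∑ V ∈ rt72Fam B A, rswE t V a (fun ω => rspI (Rt72Conn V A a) ω * X ω) * rswSum t G b (fun ω => rskInd V a ω * w ω) := by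
  have e : (fun ω => rspI (fun ω => RswSep B a ω A (rswLayer B)) ω * (w ω * X ω)) =
      fun ω => ∑ V ∈ rt72Fam B A, rskInd V a ω * (rspI (Rt72Conn V A a) ω * X ω) * w ω := by
    funext ω
    rw [rt72_sep_sum hA, sum_mul]
    refine sum_congr rfl fun V _ => ?_
    ring
  rw [e, rsb_sum_finset_sum]
  refine sum_congr rfl fun V hV => ?_
  obtain ⟨⟨hVB, _⟩, hAV⟩ := rt72_mem_fam.1 hV
  exact rsk_cut h0 h1 (hVB.trans hBG) a b (rsk_inside_mul (rt72_conn_inside V A a) (rt72_inside_mono hAV hX))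
    (rt72_outside_mono hVB hw)

/-- the part of a weighted sum on the separation event, up to the weight of the failure -/
theorem rt72_decomp {t : ℝ} (h0 : 0 < t) (h1 : t ≤ 1) {G B A : Finset (ℤ × ℤ)} (hBG : B ⊆ G) (hA : A ⊆ B) (a b : Bool)
    {w X : RswCfg → ℝ} (hw0 : ∀ ω, 0 ≤ w ω) (hw : RskOutside B w) (hX : RskInside A X) (hX1 : ∀ ω, |X ω| ≤ 1) :
    |rswSum t G b (fun ω => w ω * X ω) -
        ∑ V ∈ rt72Fam B A, rswE t V a (fun ω => rspI (Rt72Conn V A a) ω * X ω) * rswSum t G b (fun ω => rskInd V a ω * w ω)| ≤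
      rswSum t G b (fun ω => rspI (fun ω => ¬ RswSep B a ω A (rswLayer B)) ω * w ω) := by
  rw [← rt72_cut_sum h0 h1 hBG hA a b hw hX, ← rsb_sum_sub]
  have e : (fun ω => w ω * X ω - rspI (fun ω => RswSep B a ω A (rswLayer B)) ω * (w ω * X ω)) =
      fun ω => rspI (fun ω => ¬ RswSep B a ω A (rswLayer B)) ω * w ω * X ω := by
    funext ω
    have := rsp171_I_compl (fun ω => RswSep B a ω A (rswLayer B)) ω
    have e2 : rspI (fun ω => ¬ RswSep B a ω A (rswLayer B)) ω = 1 - rspI (fun ω => RswSep B a ω A (rswLayer B)) ω := by linarith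
    rw [e2]; ring
  rw [e, abs_le]
  have hJ : ∀ ω, 0 ≤ rspI (fun ω => ¬ RswSep B a ω A (rswLayer B)) ω * w ω := fun ω => mul_nonneg (rsp171_I_nonneg _ _) (hw0 ω)
  constructor
  · rw [← rsb_sum_neg]
    refine rsb_sum_mono h0.le h1 fun ω _ _ => ?_
    nlinarith [hJ ω, (abs_le.1 (hX1 ω)).1]
  · refine rsb_sum_mono h0.le h1 fun ω _ _ => ?_
    nlinarith [hJ ω, (abs_le.1 (hX1 ω)).2]

/-- the total weight -/
theorem rt72_decomp_one {t : ℝ} (h0 : 0 < t) (h1 : t ≤ 1) {G B A : Finset (ℤ × ℤ)} (hBG : B ⊆ G) (hA : A ⊆ B) (a b : Bool)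
    {w : RswCfg → ℝ} (hw : RskOutside B w) :
    rswSum t G b w =
      ∑ V ∈ rt72Fam B A, rswE t V a (rspI (Rt72Conn V A a)) * rswSum t G b (fun ω => rskInd V a ω * w ω) +
        rswSum t G b (fun ω => rspI (fun ω => ¬ RswSep B a ω A (rswLayer B)) ω * w ω) := by
  have h := rt72_cut_sum h0 h1 hBG hA a b hw (rsk_inside_const A 1)
  simp only [mul_one] at h
  rw [← h, ← rsb_sum_add]
  congr 1
  funext ω
  have := rsp171_I_compl (fun ω => RswSep B a ω A (rswLayer B)) ω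
  calc w ω = (rspI (fun ω => RswSep B a ω A (rswLayer B)) ω + rspI (fun ω => ¬ RswSep B a ω A (rswLayer B)) ω) * w ω := by
        rw [this, one_mul]
    _ = _ := by ring

/-- the same for the flat law of `B` itself -/
theorem rt72_decomp_E {t : ℝ} (h0 : 0 < t) (h1 : t ≤ 1) {B A : Finset (ℤ × ℤ)} (hA : A ⊆ B) (a b : Bool)
    {X : RswCfg → ℝ} (hX : RskInside A X) (hX1 : ∀ ω, |X ω| ≤ 1) :
    |rswE t B b X - ∑ V ∈ rt72Fam B A, rswE t V a (fun ω => rspI (Rt72Conn V A a) ω * X ω) * rswE t B b (rskInd V a)| ≤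
      rswP t B b (fun ω => ¬ RswSep B a ω A (rswLayer B)) := by
  have h := rt72_decomp h0 h1 (Finset.Subset.refl B) hA a b (w := fun _ => 1) (fun _ => zero_le_one) (rsk_outside_const B 1) hX hX1
  simp only [mul_one, one_mul] at h
  have hZ := rsb_Z_pos h0 h1 B b
  rw [rsp171_P_eq]
  unfold rswE at h ⊢
  have e : rswSum t B b X / rswSum t B b (fun _ => 1) -
      ∑ V ∈ rt72Fam B A, rswSum t V a (fun ω => rspI (Rt72Conn V A a) ω * X ω) / rswSum t V a (fun _ => 1) *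
        (rswSum t B b (rskInd V a) / rswSum t B b (fun _ => 1)) =
      (rswSum t B b X - ∑ V ∈ rt72Fam B A, rswSum t V a (fun ω => rspI (Rt72Conn V A a) ω * X ω) / rswSum t V a (fun _ => 1) *
        rswSum t B b (fun ω => rskInd V a ω)) / rswSum t B b (fun _ => 1) := by
    rw [sub_div, sum_div]
    congr 1
    refine sum_congr rfl fun V _ => ?_
    rw [mul_div_assoc]
  rw [e, abs_div, abs_of_pos hZ]
  exact div_le_div_of_nonneg_right h hZ.le

theorem rt72_decomp_E_one {t : ℝ} (h0 : 0 < t) (h1 : t ≤ 1) {B A : Finset (ℤ × ℤ)} (hA : A ⊆ B) (a b : Bool) :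
    1 = ∑ V ∈ rt72Fam B A, rswE t V a (rspI (Rt72Conn V A a)) * rswE t B b (rskInd V a) +
      rswP t B b (fun ω => ¬ RswSep B a ω A (rswLayer B)) := by
  have h := rt72_decomp_one h0 h1 (Finset.Subset.refl B) hA a b (w := fun _ => 1) (rsk_outside_const B 1)
  simp only [mul_one] at h
  have hZ := rsb_Z_pos h0 h1 B b
  rw [rsp171_P_eq]
  have e : ∀ Y : RswCfg → ℝ, rswE t B b Y = rswSum t B b Y / rswSum t B b (fun _ => 1) := fun _ => rfl
  have e2 : ∑ V ∈ rt72Fam B A, rswE t V a (rspI (Rt72Conn V A a)) * rswE t B b (rskInd V a) =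
      (∑ V ∈ rt72Fam B A, rswE t V a (rspI (Rt72Conn V A a)) * rswSum t B b (fun ω => rskInd V a ω)) / rswSum t B b (fun _ => 1) := by
    rw [sum_div]
    refine sum_congr rfl fun V _ => ?_
    rw [e, mul_div_assoc]
  rw [e2, e, ← add_div, ← h, div_self hZ.ne']

/-! ## 4. the comparison -/

/-- (S0) gives `GaussFkg` -/
theorem rt72_fkg_of_S0 {t : ℝ} (hS0 : Rpi31S0 t) : GaussFkg t := fun F hF b K hK X Y hX hY => hS0 F hF b true K hK X Y hX hY

/-- `rpi31_dn` of helper31 uses the colour plus only (his proof, word for word, from `GaussFkg`) -/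
theorem rt72_dn {t : ℝ} (h0 : 0 < t) (h1 : t < 1) (hS0 : GaussFkg t) {F' F : Finset (ℤ × ℤ)} (b : Bool) {A : RswCfg → ℝ}
    (hF : RswJordan F) (hsub : F' ⊆ F) (hdeep : RspDeep F' F) (hA : RspInc A)
    (hloc : RspLoc (cornersOf F') ∅ (rswInt F') A) : rswE t F' false A ≤ rswE t F b A := by
  have eF : rswE t F b (fun ω => A (rpi31Clean ω)) = rswE t F b A :=
    rsb_E_congr fun ω hin hw => by rw [rpi31_clean_eq hin hw]
  have eF' : rswE t F' false (fun ω => A (rpi31Clean ω)) = rswE t F' false A :=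
    rsb_E_congr fun ω hin hw => by rw [rpi31_clean_eq hin hw]
  rw [← eF, ← eF']
  have fkg := hS0 F hF b rpi31NoPin rpi31_noPin_ok _ _ (rpi31_inc hA) (rpi31_ind_dec F')
  simp only [rpi31_noPin_sum] at fkg
  have cut := rsk_cut h0 h1.le hsub false b (rpi31_inside hloc) (rsk_outside_const F' 1)
  simp only [mul_one] at cut
  have hZ := rsb_Z_pos h0 h1.le F b
  have hI := rpi31_cut_pos_minus h0 h1 hdeep b
  have e1 : rswSum t F b (fun ω => 1 - rskInd F' false ω) = rswSum t F b (fun _ => 1) - rswSum t F b (rskInd F' false) :=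
    rsb_sum_sub t F b _ _
  have e2 : rswSum t F b (fun ω => A (rpi31Clean ω) * (1 - rskInd F' false ω)) =
      rswSum t F b (fun ω => A (rpi31Clean ω)) - rswSum t F b (fun ω => rskInd F' false ω * A (rpi31Clean ω)) := by
    rw [← rsb_sum_sub]
    congr 1
    funext ω
    ring
  rw [e1, e2, cut] at fkg
  have e3 : rswE t F b (fun ω => A (rpi31Clean ω)) = rswSum t F b (fun ω => A (rpi31Clean ω)) / rswSum t F b (fun _ => 1) := rfl
  rw [e3, le_div_iff₀ hZ]
  have key : (rswE t F' false (fun ω => A (rpi31Clean ω)) * rswSum t F b (fun _ => 1)) * rswSum t F b (rskInd F' false)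
      ≤ rswSum t F b (fun ω => A (rpi31Clean ω)) * rswSum t F b (rskInd F' false) := by
    have : (fun ω => rskInd F' false ω) = rskInd F' false := rfl
    rw [this] at fkg
    nlinarith [fkg]
  exact le_of_mul_le_mul_right key hI

/-- **(3)** the plus cut is an increasing event: under the increasing weight `u` it is at least as likely as in the minus flat law of `B` -/
theorem rt72_cmp {t : ℝ} (h0 : 0 < t) (h1 : t < 1) (hS0 : GaussFkg t) {F B A V : Finset (ℤ × ℤ)} (b : Bool) (hF : RswJordan F)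
    (hBF : B ⊆ F) (hd : RspDeep B F) (hV : V ∈ rt72Fam B A) {u : RswCfg → ℝ} (hu0 : ∀ ω, 0 ≤ u ω) (hui : MdlInc true u) :
    rswE t B false (rskInd V true) * rswSum t F b u ≤ rswSum t F b (fun ω => rskInd V true ω * u ω) := by
  have fkg := hS0 F hF b rpi31NoPin rpi31_noPin_ok _ _ (rpi31_ind_inc V) hui
  simp only [rpi31_noPin_sum] at fkg
  have dn := rt72_dn h0 h1 hS0 b hF hBF hd (rt72_ind_inc V) (rt72_ind_loc hV true)
  have hZ := rsb_Z_pos h0 h1.le F b
  have hU : 0 ≤ rswSum t F b u := rsb_sum_nonneg h0.le h1.le fun ω _ _ => hu0 ω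
  have e : rswE t F b (rskInd V true) = rswSum t F b (rskInd V true) / rswSum t F b (fun _ => 1) := rfl
  rw [e, le_div_iff₀ hZ] at dn
  have k := mul_le_mul_of_nonneg_right dn hU
  have : rswSum t F b (fun _ => 1) * (rswE t B false (rskInd V true) * rswSum t F b u) ≤
      rswSum t F b (fun _ => 1) * rswSum t F b (fun ω => rskInd V true ω * u ω) := by
    calc _ = rswE t B false (rskInd V true) * rswSum t F b (fun _ => 1) * rswSum t F b u := by ring
      _ ≤ _ := k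
      _ ≤ _ := fkg
  exact le_of_mul_le_mul_left this hZ

/-! ## 5. [RATE] -/

/-- **[RATE]** = `GaussRate t` of Defs/GaussMatch, VERBATIM, from `GaussFkg t` = the statement of `exit_mdl_cmp`, colour plus = block MATCH -/
theorem rt72_rate {t : ℝ} (h0 : 0 < t) (h1 : t < 1) (hS0 : GaussFkg t) : GaussRate t := by
  intro F B A b u X hF hBF hd hAB hu0 hui huo hX hX1
  have d1 := rt72_decomp h0 h1.le hBF hAB true b hu0 huo hX hX1
  have d2 := rt72_decomp_one h0 h1.le hBF hAB true b huo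
  have d3 := rt72_decomp_E h0 h1.le hAB true false hX hX1
  have d4 := rt72_decomp_E_one (t := t) h0 h1.le hAB true false
  have hU : 0 ≤ rswSum t F b u := rsb_sum_nonneg h0.le h1.le fun ω _ _ => hu0 ω
  set Z := rswSum t F b u with hZ
  set q := rswP t B false (fun ω => ¬ RswSep B true ω A (rswLayer B)) with hq
  set r := rswSum t F b (fun ω => rspI (fun ω => ¬ RswSep B true ω A (rswLayer B)) ω * u ω) with hr
  set ψ : Finset (ℤ × ℤ) → ℝ := fun V => rswE t V true (fun ω => rspI (Rt72Conn V A true) ω * X ω) with hψ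
  set φ : Finset (ℤ × ℤ) → ℝ := fun V => rswE t V true (rspI (Rt72Conn V A true)) with hφ
  set av : Finset (ℤ × ℤ) → ℝ := fun V => rswSum t F b (fun ω => rskInd V true ω * u ω) with hav
  set lv : Finset (ℤ × ℤ) → ℝ := fun V => rswE t B false (rskInd V true) with hlv
  have hψφ : ∀ V, |ψ V| ≤ φ V := by
    intro V
    refine (rsb_abs_E_le h0 h1.le V true _).trans (rsb_E_mono h0 h1.le fun ω _ _ => ?_)
    rw [abs_mul, abs_of_nonneg (rsp171_I_nonneg _ _)]
    exact mul_le_of_le_one_right (rsp171_I_nonneg _ _) (hX1 ω)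
  have hcmp : ∀ V ∈ rt72Fam B A, 0 ≤ av V - lv V * Z := fun V hV => sub_nonneg.2 (rt72_cmp h0 h1 hS0 b hF hBF hd hV hu0 hui)
  have mid : |∑ V ∈ rt72Fam B A, ψ V * av V - (∑ V ∈ rt72Fam B A, ψ V * lv V) * Z| ≤
      ∑ V ∈ rt72Fam B A, φ V * av V - (∑ V ∈ rt72Fam B A, φ V * lv V) * Z := by
    have e1 : ∑ V ∈ rt72Fam B A, ψ V * av V - (∑ V ∈ rt72Fam B A, ψ V * lv V) * Z = ∑ V ∈ rt72Fam B A, ψ V * (av V - lv V * Z) := by
      rw [sum_mul, ← sum_sub_distrib]
      exact sum_congr rfl fun V _ => by ring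
    have e2 : ∑ V ∈ rt72Fam B A, φ V * av V - (∑ V ∈ rt72Fam B A, φ V * lv V) * Z = ∑ V ∈ rt72Fam B A, φ V * (av V - lv V * Z) := by
      rw [sum_mul, ← sum_sub_distrib]
      exact sum_congr rfl fun V _ => by ring
    rw [e1, e2]
    refine (abs_sum_le_sum_abs _ _).trans (sum_le_sum fun V hV => ?_)
    rw [abs_mul, abs_of_nonneg (hcmp V hV)]
    exact mul_le_mul_of_nonneg_right (hψφ V) (hcmp V hV)
  have d3' : |rswE t B false X * Z - (∑ V ∈ rt72Fam B A, ψ V * lv V) * Z| ≤ q * Z := by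
    rw [← sub_mul, abs_mul, abs_of_nonneg hU]
    exact mul_le_mul_of_nonneg_right d3 hU
  have a1 := abs_le.1 d1
  have a2 := abs_le.1 mid
  have a3 := abs_le.1 d3'
  have d4' : (∑ V ∈ rt72Fam B A, φ V * lv V) * Z = (1 - q) * Z := by
    have : ∑ V ∈ rt72Fam B A, φ V * lv V = 1 - q := by linarith
    rw [this]
  rw [abs_le]
  constructor <;> nlinarith

/-- the same from (S0) in the shape of helper31 -/
theorem rt72_rate_S0 {t : ℝ} (h0 : 0 < t) (h1 : t < 1) (hS0 : Rpi31S0 t) : GaussRate t := rt72_rate h0 h1 (rt72_fkg_of_S0 hS0)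

/-! ## 6. the exterior search, either colour (the search of helper171, `rspOut`, `rspK`, with a colour parameter) -/

/-- the faces of `Λ` reached from its layer without crossing a good edge of colour `a` -/
noncomputable def rt72Out (Λ : Finset (ℤ × ℤ)) (a : Bool) (ω : RswCfg) : Finset (ℤ × ℤ) :=
  open Classical in Λ.filter (fun g => ∃ f ∈ rswLayer Λ, Relation.ReflTransGen (RswStep Λ a ω) f g)

/-- the search from the layer of `Λ` leaves exactly `U` -/
def Rt72K (Λ U : Finset (ℤ × ℤ)) (a : Bool) (ω : RswCfg) : Prop := Λ \ rt72Out Λ a ω = U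

/-- the possible results of a successful search -/
noncomputable def rt72FamK (Λ B : Finset (ℤ × ℤ)) : Finset (Finset (ℤ × ℤ)) :=
  open Classical in Λ.powerset.filter (fun U => B ⊆ U)

theorem rt72_eqns_cite2 : True := by
  have := @rt72Out.eq_1
  have := @Rt72K.eq_1
  have := @rt72FamK.eq_1
  trivial

theorem rt72_mem_out {Λ : Finset (ℤ × ℤ)} {a : Bool} {ω : RswCfg} {g : ℤ × ℤ} :
    g ∈ rt72Out Λ a ω ↔ g ∈ Λ ∧ ∃ f ∈ rswLayer Λ, Relation.ReflTransGen (RswStep Λ a ω) f g := by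
  classical
  unfold rt72Out
  simp only [mem_filter]

theorem rt72_mem_famK {Λ B U : Finset (ℤ × ℤ)} : U ∈ rt72FamK Λ B ↔ U ⊆ Λ ∧ B ⊆ U := by
  classical
  unfold rt72FamK
  simp only [mem_filter, mem_powerset]

theorem rt72_K_not_mem {Λ U : Finset (ℤ × ℤ)} {a : Bool} {ω : RswCfg} (hK : Rt72K Λ U a ω) {x : ℤ × ℤ} (hx : x ∈ rt72Out Λ a ω) :
    x ∉ U := by
  intro hU
  rw [← hK] at hU
  exact (mem_sdiff.1 hU).2 hx

theorem rt72_out_sub {Λ U : Finset (ℤ × ℤ)} {a : Bool} {ω ω' : RswCfg} (hK : Rt72K Λ U a ω)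
    (hg : ∀ e, e ∉ rswInt U → (RswGood a ω e ↔ RswGood a ω' e)) {f x : ℤ × ℤ} (hf : f ∈ rswLayer Λ) :
    (Relation.ReflTransGen (RswStep Λ a ω) f x ↔ Relation.ReflTransGen (RswStep Λ a ω') f x) := by
  constructor
  · intro h
    induction h with
    | refl => exact Relation.ReflTransGen.refl
    | tail h1 h2 ih =>
      rename_i x y
      refine ih.tail ?_
      obtain ⟨hx, hy, e, he, hn⟩ := h2
      have hxU : x ∉ U := rt72_K_not_mem hK (rt72_mem_out.2 ⟨hx, f, hf, h1⟩)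
      have heU : e ∉ rswInt U := by
        intro hh
        have := rsb_mem_int.1 hh
        rcases he with ⟨rfl, _⟩ | ⟨_, rfl⟩
        · exact hxU this.1
        · exact hxU this.2
      exact ⟨hx, hy, e, he, fun hh => hn ((hg e heU).2 hh)⟩
  · intro h
    induction h with
    | refl => exact Relation.ReflTransGen.refl
    | tail h1 h2 ih =>
      rename_i x y
      refine ih.tail ?_
      obtain ⟨hx, hy, e, he, hn⟩ := h2
      have hxU : x ∉ U := rt72_K_not_mem hK (rt72_mem_out.2 ⟨hx, f, hf, ih⟩)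
      have heU : e ∉ rswInt U := by
        intro hh
        have := rsb_mem_int.1 hh
        rcases he with ⟨rfl, _⟩ | ⟨_, rfl⟩
        · exact hxU this.1
        · exact hxU this.2
      exact ⟨hx, hy, e, he, fun hh => hn ((hg e heU).1 hh)⟩

theorem rt72_K_of_good {Λ U : Finset (ℤ × ℤ)} {a : Bool} {ω ω' : RswCfg} (hK : Rt72K Λ U a ω)
    (hg : ∀ e, e ∉ rswInt U → (RswGood a ω e ↔ RswGood a ω' e)) : Rt72K Λ U a ω' := by
  have e : rt72Out Λ a ω' = rt72Out Λ a ω := by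
    ext x
    rw [rt72_mem_out, rt72_mem_out]
    refine and_congr_right fun _ => ⟨?_, ?_⟩
    · rintro ⟨f, hf, hr⟩; exact ⟨f, hf, (rt72_out_sub hK hg hf).2 hr⟩
    · rintro ⟨f, hf, hr⟩; exact ⟨f, hf, (rt72_out_sub hK hg hf).1 hr⟩
  unfold Rt72K
  rw [e]
  exact hK

/-- the result of the search reads only the rest of `U` -/
theorem rt72_K_outside (Λ U : Finset (ℤ × ℤ)) (a : Bool) : RskOutside U (rspI (Rt72K Λ U a)) := by
  refine rsk_outside_of_good (a := a) fun ω ω' hg => rsp171_I_congr ⟨fun h => rt72_K_of_good h hg, fun h => ?_⟩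
  exact rt72_K_of_good h fun e he => (hg e he).symm

/-- on `Rt72K Λ U a` the polygon of `U` is a good cut of colour `a` -/
theorem rt72_K_cut {Λ U : Finset (ℤ × ℤ)} {a : Bool} {ω : RswCfg} (hK : Rt72K Λ U a ω) : RswCut U a ω := by
  have hU : ∀ x, x ∈ U ↔ x ∈ Λ ∧ x ∉ rt72Out Λ a ω := by
    intro x
    rw [← hK, mem_sdiff]
  have key : ∀ (x y : ℤ × ℤ) (e : (ℤ × ℤ) × Bool), x ∈ U → y ∉ U → ((x = e.1 ∧ y = rswCo e) ∨ (y = e.1 ∧ x = rswCo e)) →
      RswGood a ω e := by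
    intro x y e hx hy he
    have hx' := (hU x).1 hx
    have hl : x ∉ rswLayer Λ := fun hh => hx'.2 (rt72_mem_out.2 ⟨hx'.1, x, hh, Relation.ReflTransGen.refl⟩)
    have hyΛ : y ∈ Λ := rsp171_nbr hx'.1 hl he
    have hyO : y ∈ rt72Out Λ a ω := by
      by_contra hh
      exact hy ((hU y).2 ⟨hyΛ, hh⟩)
    obtain ⟨_, f, hf, hr⟩ := rt72_mem_out.1 hyO
    by_contra hn
    exact hx'.2 (rt72_mem_out.2 ⟨hx'.1, f, hf, hr.tail ⟨hyΛ, hx'.1, e, he.symm, hn⟩⟩)
  intro e he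
  rcases he with ⟨h1, h2⟩ | ⟨h1, h2⟩
  · exact key e.1 (rswCo e) e h1 h2 (Or.inl ⟨rfl, rfl⟩)
  · exact key (rswCo e) e.1 e h2 h1 (Or.inr ⟨rfl, rfl⟩)

theorem rt72_sepK_iff {Λ B : Finset (ℤ × ℤ)} (hB : B ⊆ Λ) (a : Bool) (ω : RswCfg) :
    RswSep Λ a ω B (rswLayer Λ) ↔ B ⊆ Λ \ rt72Out Λ a ω := by
  constructor
  · intro h f hf
    rw [mem_sdiff]
    refine ⟨hB hf, fun hout => ?_⟩
    obtain ⟨_, g, hg, hr⟩ := rt72_mem_out.1 hout
    exact h f hf g hg (rsp171_path_symm hr)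
  · intro h f hf g hg hr
    exact (mem_sdiff.1 (h hf)).2 (rt72_mem_out.2 ⟨hB hf, g, hg, rsp171_path_symm hr⟩)

theorem rt72_sepK_sum {Λ B : Finset (ℤ × ℤ)} (hB : B ⊆ Λ) (a : Bool) (ω : RswCfg) :
    rspI (fun ω => RswSep Λ a ω B (rswLayer Λ)) ω = ∑ U ∈ rt72FamK Λ B, rspI (Rt72K Λ U a) ω := by
  classical
  have e : ∀ U, rspI (Rt72K Λ U a) ω = if Λ \ rt72Out Λ a ω = U then 1 else 0 := by
    intro U
    by_cases h : Λ \ rt72Out Λ a ω = U
    · rw [if_pos h]; exact rsp171_I_pos h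
    · rw [if_neg h]; exact rsp171_I_neg h
  simp only [e]
  rw [Finset.sum_ite_eq]
  by_cases h : RswSep Λ a ω B (rswLayer Λ)
  · rw [rsp171_I_pos (L := fun ω => RswSep Λ a ω B (rswLayer Λ)) h, if_pos]
    exact rt72_mem_famK.2 ⟨sdiff_subset, (rt72_sepK_iff hB a ω).1 h⟩
  · rw [rsp171_I_neg (L := fun ω => RswSep Λ a ω B (rswLayer Λ)) h, if_neg]
    exact fun hh => h ((rt72_sepK_iff hB a ω).2 (rt72_mem_famK.1 hh).2)

/-- **the cut behind the search, with an exterior spectator `G`** -/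
theorem rt72_K_swap {t : ℝ} (h0 : 0 < t) (h1 : t ≤ 1) {Λ F U : Finset (ℤ × ℤ)} (a b : Bool) {G X : RswCfg → ℝ} (hΛ : Λ ⊆ F) (hU : U ⊆ Λ)
    (hG : RskOutside Λ G) (hX : RskInside U X) :
    rswE t F b (fun ω => rspI (Rt72K Λ U a) ω * (G ω * X ω)) = rswE t U a X * rswE t F b (fun ω => rspI (Rt72K Λ U a) ω * G ω) := by
  have h := rsk_cut_E h0 h1 (hU.trans hΛ) a b hX (rsk_outside_mul (rt72_K_outside Λ U a) (rt72_outside_mono hU hG))
  have e : ∀ ω, rskInd U a ω * rspI (Rt72K Λ U a) ω = rspI (Rt72K Λ U a) ω := by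
    intro ω
    by_cases hK : Rt72K Λ U a ω
    · rw [rpi31_ind_pos (rt72_K_cut hK), one_mul]
    · rw [rsp171_I_neg hK, mul_zero]
  have e1 : (fun ω => rskInd U a ω * X ω * (rspI (Rt72K Λ U a) ω * G ω)) = fun ω => rspI (Rt72K Λ U a) ω * (G ω * X ω) := by
    funext ω
    calc _ = (rskInd U a ω * rspI (Rt72K Λ U a) ω) * (G ω * X ω) := by ring
      _ = _ := by rw [e]
  have e2 : (fun ω => rskInd U a ω * (rspI (Rt72K Λ U a) ω * G ω)) = fun ω => rspI (Rt72K Λ U a) ω * G ω := by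
    funext ω
    rw [← mul_assoc, e]
  rw [e1, e2] at h
  exact h

/-! ## 7. mixing, abstract sets `A ⊆ B ⊆ Λ ⊆ F` -/

/-- the flat PLUS law of ANY sealed `U ⊇ B` (no condition on the shape of `U`) against the minus flat law of `B`: `GaussRate` with `u = rskInd U true` -/
theorem rt72_sealed {t : ℝ} (h0 : 0 < t) (h1 : t < 1) (hR : GaussRate t) {F U B A : Finset (ℤ × ℤ)} (b : Bool) (hF : RswJordan F)
    (hUF : U ⊆ F) (hBU : B ⊆ U) (hd : RspDeep B F) (hAB : A ⊆ B) {X : RswCfg → ℝ} (hX : RskInside A X) (hX1 : ∀ ω, |X ω| ≤ 1) :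
    |rswE t U true X - rswE t B false X| * rswSum t F b (rskInd U true) ≤
      2 * rswP t B false (fun ω => ¬ RswSep B true ω A (rswLayer B)) * rswSum t F b (rskInd U true) := by
  have h := hR F B A b (rskInd U true) X hF (hBU.trans hUF) hd hAB (rpi31_ind_nonneg U true) (rpi31_ind_inc U)
    (rt72_outside_mono hBU (rsk_ind_outside U true)) hX hX1
  have cut := rsk_cut h0 h1.le hUF true b (rt72_inside_mono (hAB.trans hBU) hX) (rsk_outside_const U 1)
  simp only [mul_one] at cut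
  have hs : 0 ≤ rswSum t F b (rskInd U true) := rsb_sum_nonneg h0.le h1.le fun ω _ _ => rpi31_ind_nonneg U true ω
  have e : (fun ω => rskInd U true ω) = rskInd U true := rfl
  rw [e] at cut
  rw [cut, ← sub_mul, abs_mul, abs_of_nonneg hs] at h
  exact h

/-- the flat law of a Jordan ambient domain against the minus flat law of `B`: `GaussRate` with `u = 1` -/
theorem rt72_flat {t : ℝ} (h0 : 0 < t) (h1 : t < 1) (hR : GaussRate t) {F B A : Finset (ℤ × ℤ)} (b : Bool) (hF : RswJordan F)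
    (hBF : B ⊆ F) (hd : RspDeep B F) (hAB : A ⊆ B) {X : RswCfg → ℝ} (hX : RskInside A X) (hX1 : ∀ ω, |X ω| ≤ 1) :
    |rswE t F b X - rswE t B false X| ≤ 2 * rswP t B false (fun ω => ¬ RswSep B true ω A (rswLayer B)) := by
  have h := hR F B A b (fun _ => 1) X hF hBF hd hAB (fun _ => zero_le_one) (fun _ _ _ => le_rfl) (rsk_outside_const B 1) hX hX1
  simp only [one_mul] at h
  have hZ := rsb_Z_pos h0 h1.le F b
  have e : rswE t F b X - rswE t B false X = (rswSum t F b X - rswE t B false X * rswSum t F b (fun _ => 1)) / rswSum t F b (fun _ => 1) := by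
    unfold rswE
    field_simp
  rw [e, abs_div, abs_of_pos hZ, div_le_iff₀ hZ]
  exact h

theorem rt72_abs_E_ind {t : ℝ} (h0 : 0 < t) (h1 : t ≤ 1) (F : Finset (ℤ × ℤ)) (b : Bool) (L : RswCfg → Prop) {Y : RswCfg → ℝ}
    (hY : ∀ ω, |Y ω| ≤ 1) : |rswE t F b (fun ω => rspI L ω * Y ω)| ≤ rswP t F b L := by
  rw [rsp171_P_eq]
  refine (rsb_abs_E_le h0 h1 F b _).trans (rsb_E_mono h0 h1 fun ω _ _ => ?_)
  rw [abs_mul, abs_of_nonneg (rsp171_I_nonneg _ _)]
  exact mul_le_of_le_one_right (rsp171_I_nonneg _ _) (hY ω)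

/-- **MIXING, abstract form**: `G` reads off the strict inside of `Λ`, `X` reads inside `A` -/
theorem rt72_mix_abs {t : ℝ} (h0 : 0 < t) (h1 : t < 1) (hR : GaussRate t) {F Λ B A : Finset (ℤ × ℤ)} (b : Bool) (hF : RswJordan F)
    (hΛF : Λ ⊆ F) (hBΛ : B ⊆ Λ) (hd : RspDeep B F) (hAB : A ⊆ B) {G X : RswCfg → ℝ} (hG : RskOutside Λ G) (hG1 : ∀ ω, |G ω| ≤ 1)
    (hX : RskInside A X) (hX1 : ∀ ω, |X ω| ≤ 1) :
    |rswE t F b (fun ω => G ω * X ω) - rswE t F b G * rswE t B false X| ≤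
      2 * rswP t B false (fun ω => ¬ RswSep B true ω A (rswLayer B)) +
        2 * rswP t F b (fun ω => ¬ RswSep Λ true ω B (rswLayer Λ)) := by
  set c := rswE t B false X with hc
  set q := rswP t B false (fun ω => ¬ RswSep B true ω A (rswLayer B)) with hq
  set q' := rswP t F b (fun ω => ¬ RswSep Λ true ω B (rswLayer Λ)) with hq'
  have hq0 : 0 ≤ q := rsb_P_nonneg h0 h1.le _ _ _
  have hq0' : 0 ≤ q' := rsb_P_nonneg h0 h1.le _ _ _
  have hc1 : |c| ≤ 1 := rsb_abs_E_le_of_le h0 h1.le fun ω _ _ => hX1 ω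
  have hGX1 : ∀ ω, |G ω * X ω| ≤ 1 := fun ω => by
    rw [abs_mul]; exact mul_le_one₀ (hG1 ω) (abs_nonneg _) (hX1 ω)
  have s1 := rsp171_E_split (t := t) F b (fun ω => RswSep Λ true ω B (rswLayer Λ)) (fun ω => G ω * X ω)
  have s2 := rsp171_E_split (t := t) F b (fun ω => RswSep Λ true ω B (rswLayer Λ)) G
  have f1 : |rswE t F b (fun ω => G ω * X ω * rspI (fun ω => ¬ RswSep Λ true ω B (rswLayer Λ)) ω)| ≤ q' := by
    have := rt72_abs_E_ind h0 h1.le F b (fun ω => ¬ RswSep Λ true ω B (rswLayer Λ)) hGX1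
    simpa only [mul_comm] using this
  have f2 : |rswE t F b (fun ω => G ω * rspI (fun ω => ¬ RswSep Λ true ω B (rswLayer Λ)) ω)| ≤ q' := by
    have := rt72_abs_E_ind h0 h1.le F b (fun ω => ¬ RswSep Λ true ω B (rswLayer Λ)) hG1
    simpa only [mul_comm] using this
  have g1 : rswE t F b (fun ω => rspI (fun ω => RswSep Λ true ω B (rswLayer Λ)) ω * (G ω * X ω)) =
      ∑ U ∈ rt72FamK Λ B, rswE t U true X * rswE t F b (fun ω => rspI (Rt72K Λ U true) ω * G ω) := by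
    have e : (fun ω => rspI (fun ω => RswSep Λ true ω B (rswLayer Λ)) ω * (G ω * X ω)) =
        fun ω => ∑ U ∈ rt72FamK Λ B, rspI (Rt72K Λ U true) ω * (G ω * X ω) := by
      funext ω
      rw [rt72_sepK_sum hBΛ, sum_mul]
    rw [e, rsb_E_finset_sum]
    refine sum_congr rfl fun U hU => ?_
    obtain ⟨hU1, hU2⟩ := rt72_mem_famK.1 hU
    exact rt72_K_swap h0 h1.le true b hΛF hU1 hG (rt72_inside_mono (hAB.trans hU2) hX)
  have g2 : rswE t F b (fun ω => rspI (fun ω => RswSep Λ true ω B (rswLayer Λ)) ω * G ω) =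
      ∑ U ∈ rt72FamK Λ B, rswE t F b (fun ω => rspI (Rt72K Λ U true) ω * G ω) := by
    have e : (fun ω => rspI (fun ω => RswSep Λ true ω B (rswLayer Λ)) ω * G ω) =
        fun ω => ∑ U ∈ rt72FamK Λ B, rspI (Rt72K Λ U true) ω * G ω := by
      funext ω
      rw [rt72_sepK_sum hBΛ, sum_mul]
    rw [e, rsb_E_finset_sum]
  have g3 : ∑ U ∈ rt72FamK Λ B, rswP t F b (Rt72K Λ U true) ≤ 1 := by
    have e : rspI (fun ω => RswSep Λ true ω B (rswLayer Λ)) = fun ω => ∑ U ∈ rt72FamK Λ B, rspI (Rt72K Λ U true) ω := by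
      funext ω
      exact rt72_sepK_sum hBΛ true ω
    have := rsb_P_le_one h0 h1.le F b (fun ω => RswSep Λ true ω B (rswLayer Λ))
    rw [rsp171_P_eq, e, rsb_E_finset_sum] at this
    exact this
  have term : ∀ U ∈ rt72FamK Λ B, |(rswE t U true X - c) * rswE t F b (fun ω => rspI (Rt72K Λ U true) ω * G ω)| ≤
      2 * q * rswP t F b (Rt72K Λ U true) := by
    intro U hU
    obtain ⟨hU1, hU2⟩ := rt72_mem_famK.1 hU
    have hs := rt72_sealed h0 h1 hR b hF (hU1.trans hΛF) hU2 hd hAB hX hX1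
    have hs0 : 0 ≤ rswSum t F b (rskInd U true) := rsb_sum_nonneg h0.le h1.le fun ω _ _ => rpi31_ind_nonneg U true ω
    have hP0 : 0 ≤ rswP t F b (Rt72K Λ U true) := rsb_P_nonneg h0 h1.le _ _ _
    have he := rt72_abs_E_ind h0 h1.le F b (Rt72K Λ U true) hG1
    rw [abs_mul]
    rcases hs0.eq_or_lt with h | h
    · have hP : rswP t F b (Rt72K Λ U true) ≤ 0 := by
        have : rswP t F b (Rt72K Λ U true) ≤ rswE t F b (rskInd U true) := by
          rw [rsp171_P_eq]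
          refine rsb_E_mono h0 h1.le fun ω _ _ => ?_
          by_cases hK : Rt72K Λ U true ω
          · rw [rsp171_I_pos hK, rpi31_ind_pos (rt72_K_cut hK)]
          · rw [rsp171_I_neg hK]; exact rpi31_ind_nonneg _ _ _
        have e : rswE t F b (rskInd U true) = 0 := by unfold rswE; rw [← h, zero_div]
        linarith
      have hP' : rswP t F b (Rt72K Λ U true) = 0 := le_antisymm hP hP0
      rw [hP'] at he ⊢
      have : |rswE t F b (fun ω => rspI (Rt72K Λ U true) ω * G ω)| = 0 := le_antisymm he (abs_nonneg _)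
      rw [this, mul_zero, mul_zero]
    · have hd' : |rswE t U true X - c| ≤ 2 * q := le_of_mul_le_mul_right hs h
      exact mul_le_mul hd' he (abs_nonneg _) (mul_nonneg zero_le_two hq0)
  have main : |rswE t F b (fun ω => rspI (fun ω => RswSep Λ true ω B (rswLayer Λ)) ω * (G ω * X ω)) -
      rswE t F b (fun ω => rspI (fun ω => RswSep Λ true ω B (rswLayer Λ)) ω * G ω) * c| ≤ 2 * q := by
    rw [g1, g2, sum_mul, ← sum_sub_distrib]
    have e : ∀ U ∈ rt72FamK Λ B, rswE t U true X * rswE t F b (fun ω => rspI (Rt72K Λ U true) ω * G ω) -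
        rswE t F b (fun ω => rspI (Rt72K Λ U true) ω * G ω) * c =
        (rswE t U true X - c) * rswE t F b (fun ω => rspI (Rt72K Λ U true) ω * G ω) := fun U _ => by ring
    rw [sum_congr rfl e]
    calc _ ≤ ∑ U ∈ rt72FamK Λ B, |(rswE t U true X - c) * rswE t F b (fun ω => rspI (Rt72K Λ U true) ω * G ω)| := abs_sum_le_sum_abs _ _
      _ ≤ ∑ U ∈ rt72FamK Λ B, 2 * q * rswP t F b (Rt72K Λ U true) := sum_le_sum term
      _ = 2 * q * ∑ U ∈ rt72FamK Λ B, rswP t F b (Rt72K Λ U true) := by rw [mul_sum]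
      _ ≤ 2 * q * 1 := mul_le_mul_of_nonneg_left g3 (mul_nonneg zero_le_two hq0)
      _ = 2 * q := mul_one _
  have f2' : |rswE t F b (fun ω => G ω * rspI (fun ω => ¬ RswSep Λ true ω B (rswLayer Λ)) ω) * c| ≤ q' := by
    rw [abs_mul]
    calc _ ≤ q' * 1 := mul_le_mul f2 hc1 (abs_nonneg _) hq0'
      _ = q' := mul_one _
  rw [s1, s2]
  have a1 := abs_le.1 main
  have a2 := abs_le.1 f1
  have a3 := abs_le.1 f2'
  rw [abs_le]
  constructor <;> nlinarith

/-- **MIXING, abstract form, two ambient domains** -/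
theorem rt72_mix_abs2 {t : ℝ} (h0 : 0 < t) (h1 : t < 1) (hR : GaussRate t) {F F' Λ B A : Finset (ℤ × ℤ)} (b b' : Bool) (hF : RswJordan F)
    (hF' : RswJordan F') (hΛF : Λ ⊆ F) (hBΛ : B ⊆ Λ) (hd : RspDeep B F) (hBF' : B ⊆ F') (hd' : RspDeep B F') (hAB : A ⊆ B)
    {G X : RswCfg → ℝ} (hG : RskOutside Λ G) (hG1 : ∀ ω, |G ω| ≤ 1) (hX : RskInside A X) (hX1 : ∀ ω, |X ω| ≤ 1) :
    |rswE t F b (fun ω => G ω * X ω) - rswE t F b G * rswE t F' b' X| ≤
      4 * rswP t B false (fun ω => ¬ RswSep B true ω A (rswLayer B)) +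
        2 * rswP t F b (fun ω => ¬ RswSep Λ true ω B (rswLayer Λ)) := by
  have m1 := rt72_mix_abs h0 h1 hR b hF hΛF hBΛ hd hAB hG hG1 hX hX1
  have m2 := rt72_flat h0 h1 hR b' hF' hBF' hd' hAB hX hX1
  have hG' : |rswE t F b G| ≤ 1 := rsb_abs_E_le_of_le h0 h1.le fun ω _ _ => hG1 ω
  have m3 : |rswE t F b G * (rswE t F' b' X - rswE t B false X)| ≤ 2 * rswP t B false (fun ω => ¬ RswSep B true ω A (rswLayer B)) := by
    rw [abs_mul]
    calc _ ≤ 1 * (2 * rswP t B false (fun ω => ¬ RswSep B true ω A (rswLayer B))) :=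
          mul_le_mul hG' m2 (abs_nonneg _) zero_le_one
      _ = _ := one_mul _
  have a1 := abs_le.1 m1
  have a2 := abs_le.1 m3
  rw [abs_le]
  constructor <;> nlinarith

/-! ## 8. boxes -/

theorem rt72_mem_box {z : ℤ × ℤ} {n : ℕ} {v : ℤ × ℤ} :
    v ∈ rswBox z n ↔ (z.1 - (n : ℤ) ≤ v.1 ∧ v.1 < z.1 + n) ∧ (z.2 - (n : ℤ) ≤ v.2 ∧ v.2 < z.2 + n) := by
  unfold rswBox
  simp [mem_product, mem_Ico]

theorem rt72_box_mono (z : ℤ × ℤ) {n m : ℕ} (h : n ≤ m) : rswBox z n ⊆ rswBox z m := by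
  intro v hv
  rw [rt72_mem_box] at hv ⊢
  have : (n : ℤ) ≤ m := by exact_mod_cast h
  omega

theorem rt72_box_deep (z : ℤ × ℤ) (n : ℕ) : RspDeep (rswBox z n) (rswBox z (n + 1)) := by
  intro v hv
  rw [rsp171_mem_corners] at hv
  obtain ⟨f, hf, h⟩ := hv
  rw [rt72_mem_box] at hf
  rw [rsp171_not_onPolygon]
  simp only [rt72_mem_box]
  push_cast
  rcases h with rfl | rfl | rfl | rfl <;> (try dsimp only) <;> omega

theorem rt72_box_deep' (z : ℤ × ℤ) {n m : ℕ} (h : n < m) {F : Finset (ℤ × ℤ)} (hF : rswBox z m ⊆ F) : RspDeep (rswBox z n) F :=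
  rsp171_deep_mono (rt72_box_deep z n) (Finset.Subset.refl _) ((rt72_box_mono z h).trans hF)

/-- a face of a deep subset is not in the layer -/
theorem rt72_deep_not_layer {F' F : Finset (ℤ × ℤ)} (h : RspDeep F' F) {f : ℤ × ℤ} (hf : f ∈ F') : f ∉ rswLayer F := by
  classical
  intro hl
  unfold rswLayer at hl
  simp only [mem_filter] at hl
  obtain ⟨_, v, hv, hp⟩ := hl
  refine h v (rsp171_mem_corners.2 ⟨f, hf, ?_⟩) hp
  simpa only [mem_insert, mem_singleton] using hv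

/-- the arm event of `GaussArm` in the ambient `F` contains the failure of the separation from the layer of a box -/
theorem rt72_sep_of_arm {F : Finset (ℤ × ℤ)} {z : ℤ × ℤ} {R : ℕ} (hF : rswBox z (R + 1) ⊆ F) {a : Bool} {ω : RswCfg} {A : Finset (ℤ × ℤ)}
    (h : RswSep F a ω A (F \ rswBox z R)) : RswSep (rswBox z (R + 1)) a ω A (rswLayer (rswBox z (R + 1))) := by
  intro f hf g hg hr
  refine h f hf g (mem_sdiff.2 ⟨hF (rsp171_layer_sub_box _ hg), fun hgR => rt72_deep_not_layer (rt72_box_deep z R) hgR hg⟩) ?_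
  exact rsp171_rtg_mono (fun u v h => ⟨hF h.1, hF h.2.1, h.2.2⟩) hr

/-- **MIXING, boxes, the intermediate radius `ρ` as a parameter** -/
theorem rt72_mix_box {t : ℝ} (h0 : 0 < t) (h1 : t < 1) (hR : GaussRate t) {CA α : ℝ}
    (HA : ∀ (F : Finset (ℤ × ℤ)) (z : ℤ × ℤ) (b a : Bool) (r R : ℕ), 1 ≤ R → RswJordan F → rswBox z R ⊆ F →
      rswP t F b (fun ω => ¬ RswSep F a ω (rswBox z r) (F \ rswBox z R)) ≤ CA * (((r : ℝ) + 1) / R) ^ α)
    {F F' : Finset (ℤ × ℤ)} (z : ℤ × ℤ) (b b' : Bool) {r ρ L : ℕ} (hF : RswJordan F) (hF' : RswJordan F')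
    (hrρ : r ≤ ρ) (hρ : 2 ≤ ρ) (hρL : ρ + 1 ≤ L) (hLF : rswBox z L ⊆ F) (hLF' : rswBox z L ⊆ F')
    {G X : RswCfg → ℝ} (hG : RskOutside (rswBox z L) G) (hG1 : ∀ ω, |G ω| ≤ 1) (hX : RskInside (rswBox z r) X) (hX1 : ∀ ω, |X ω| ≤ 1) :
    |rswE t F b (fun ω => G ω * X ω) - rswE t F b G * rswE t F' b' X| ≤
      4 * (CA * (((r : ℝ) + 1) / ((ρ - 1 : ℕ) : ℝ)) ^ α) + 2 * (CA * (((ρ : ℝ) + 1) / ((L - 1 : ℕ) : ℝ)) ^ α) := by
  have m := rt72_mix_abs2 h0 h1 hR b b' hF hF' hLF (rt72_box_mono z (show ρ ≤ L by omega)) (rt72_box_deep' z (show ρ < L by omega) hLF)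
    ((rt72_box_mono z (show ρ ≤ L by omega)).trans hLF') (rt72_box_deep' z (show ρ < L by omega) hLF') (rt72_box_mono z hrρ) hG hG1 hX hX1
  have eρ : ρ - 1 + 1 = ρ := by omega
  have eL : L - 1 + 1 = L := by omega
  have q1 : rswP t (rswBox z ρ) false (fun ω => ¬ RswSep (rswBox z ρ) true ω (rswBox z r) (rswLayer (rswBox z ρ))) ≤
      CA * (((r : ℝ) + 1) / ((ρ - 1 : ℕ) : ℝ)) ^ α := by
    refine le_trans ?_ (HA (rswBox z ρ) z false true r (ρ - 1) (by omega) (bj219_box_jordan z (by omega)) (rt72_box_mono z (by omega)))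
    refine rsb_P_mono h0 h1.le fun ω _ _ hn hs => hn ?_
    have := rt72_sep_of_arm (F := rswBox z ρ) (z := z) (R := ρ - 1) (by rw [eρ]) hs
    rwa [eρ] at this
  have q2 : rswP t F b (fun ω => ¬ RswSep (rswBox z L) true ω (rswBox z ρ) (rswLayer (rswBox z L))) ≤
      CA * (((ρ : ℝ) + 1) / ((L - 1 : ℕ) : ℝ)) ^ α := by
    refine le_trans ?_ (HA F z b true ρ (L - 1) (by omega) hF ((rt72_box_mono z (by omega)).trans hLF))
    refine rsb_P_mono h0 h1.le fun ω _ _ hn hs => hn ?_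
    have := rt72_sep_of_arm (F := F) (z := z) (R := L - 1) (by rw [eL]; exact hLF) hs
    rwa [eL] at this
  linarith

/-! ## 9. arithmetic; [MIX-R] -/

/-- the arithmetic of the intermediate radius `ρ = ⌊√(r L)⌋` -/
theorem rt72_num {CA α : ℝ} (hC : 0 < CA) (hα : 0 < α) :
    ∃ C κ : ℝ, 0 < C ∧ 0 < κ ∧ ∀ r L : ℕ, 1 ≤ r → C * r ≤ L →
      r ≤ Nat.sqrt (r * L) ∧ 2 ≤ Nat.sqrt (r * L) ∧ Nat.sqrt (r * L) + 1 ≤ L ∧
      4 * (CA * (((r : ℝ) + 1) / ((Nat.sqrt (r * L) - 1 : ℕ) : ℝ)) ^ α) +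
        2 * (CA * (((Nat.sqrt (r * L) : ℝ) + 1) / ((L - 1 : ℕ) : ℝ)) ^ α) ≤ C * ((r : ℝ) / L) ^ κ := by
  refine ⟨max 16 (6 * CA * (4 : ℝ) ^ α), α / 2, lt_of_lt_of_le (by norm_num) (le_max_left _ _), by positivity, ?_⟩
  intro r L hr hL
  have hL16 : (16 : ℝ) * r ≤ L := le_trans (mul_le_mul_of_nonneg_right (le_max_left _ _) (Nat.cast_nonneg r)) hL
  have hL16' : 16 * r ≤ L := by exact_mod_cast hL16
  obtain ⟨s, hs⟩ : ∃ s, s = Nat.sqrt (r * L) := ⟨_, rfl⟩
  rw [← hs]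
  have hs1 : s * s ≤ r * L := by rw [hs]; exact Nat.sqrt_le (r * L)
  have hs2 : r * L < (s + 1) * (s + 1) := by rw [hs]; exact Nat.lt_succ_sqrt (r * L)
  have h4 : 4 * r ≤ s := by rw [hs]; exact Nat.le_sqrt.2 (by nlinarith)
  have hsL : s + 1 ≤ L := by
    by_contra h
    have h' : L ≤ s := by omega
    nlinarith
  refine ⟨by omega, by omega, hsL, ?_⟩
  have hr1 : (1 : ℝ) ≤ r := by exact_mod_cast hr
  have hLpos : (0 : ℝ) < L := by linarith
  obtain ⟨x, hx⟩ : ∃ x, x = Real.sqrt ((r : ℝ) / L) := ⟨_, rfl⟩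
  have hx0 : 0 ≤ x := by rw [hx]; exact Real.sqrt_nonneg _
  have hx2 : x * x = (r : ℝ) / L := by rw [hx]; exact Real.mul_self_sqrt (by positivity)
  have hrx : (r : ℝ) = L * x * x := by rw [mul_assoc, hx2]; field_simp
  have hLx : (L * x) * (L * x) = (r : ℝ) * L := by
    calc (L * x) * (L * x) = (L * x * x) * L := by ring
      _ = r * L := by rw [← hrx]
  have hLx0 : 0 ≤ (L : ℝ) * x := mul_nonneg hLpos.le hx0
  have hsR1 : (s : ℝ) * s ≤ r * L := by exact_mod_cast hs1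
  have hsR2 : (r : ℝ) * L < ((s : ℝ) + 1) * (s + 1) := by exact_mod_cast hs2
  have hs0 : (0 : ℝ) ≤ s := Nat.cast_nonneg s
  have k1 : (s : ℝ) ≤ L * x := by
    by_contra h
    push Not at h
    nlinarith
  have k2 : (L : ℝ) * x < s + 1 := by
    by_contra h
    push Not at h
    nlinarith
  have hs4 : (4 : ℝ) ≤ s := by
    have : (4 : ℝ) * r ≤ s := by exact_mod_cast h4
    linarith
  have c1 : ((s - 1 : ℕ) : ℝ) = (s : ℝ) - 1 := by
    rw [Nat.cast_sub (by omega)]; simp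
  have c2 : ((L - 1 : ℕ) : ℝ) = (L : ℝ) - 1 := by
    rw [Nat.cast_sub (by omega)]; simp
  rw [c1, c2]
  have b1 : ((r : ℝ) + 1) / ((s : ℝ) - 1) ≤ 4 * x := by
    rw [div_le_iff₀ (by linarith)]
    calc (r : ℝ) + 1 ≤ 2 * r := by linarith
      _ = 2 * x * (L * x) := by rw [hrx]; ring
      _ ≤ 2 * x * (s + 1) := mul_le_mul_of_nonneg_left k2.le (by positivity)
      _ ≤ 2 * x * (2 * (s - 1)) := mul_le_mul_of_nonneg_left (by linarith) (by positivity)
      _ = 4 * x * (s - 1) := by ring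
  have b2 : ((s : ℝ) + 1) / ((L : ℝ) - 1) ≤ 4 * x := by
    rw [div_le_iff₀ (by linarith)]
    calc (s : ℝ) + 1 ≤ 2 * s := by linarith
      _ ≤ 2 * (L * x) := by linarith
      _ = x * (2 * L) := by ring
      _ ≤ x * (4 * (L - 1)) := mul_le_mul_of_nonneg_left (by linarith) hx0
      _ = 4 * x * (L - 1) := by ring
  have e1 : (4 * x) ^ α = (4 : ℝ) ^ α * ((r : ℝ) / L) ^ (α / 2) := by
    rw [Real.mul_rpow (by norm_num) hx0, hx, Real.sqrt_eq_rpow, ← Real.rpow_mul (by positivity)]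
    congr 2
    ring
  have p1 : (((r : ℝ) + 1) / ((s : ℝ) - 1)) ^ α ≤ (4 * x) ^ α :=
    Real.rpow_le_rpow (div_nonneg (by linarith) (by linarith)) b1 hα.le
  have p2 : (((s : ℝ) + 1) / ((L : ℝ) - 1)) ^ α ≤ (4 * x) ^ α :=
    Real.rpow_le_rpow (div_nonneg (by linarith) (by linarith)) b2 hα.le
  have hy : 0 ≤ ((r : ℝ) / L) ^ (α / 2) := Real.rpow_nonneg (by positivity) _
  calc 4 * (CA * (((r : ℝ) + 1) / ((s : ℝ) - 1)) ^ α) + 2 * (CA * (((s : ℝ) + 1) / ((L : ℝ) - 1)) ^ α)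
      ≤ 4 * (CA * (4 * x) ^ α) + 2 * (CA * (4 * x) ^ α) := by
        have := mul_le_mul_of_nonneg_left p1 hC.le
        have := mul_le_mul_of_nonneg_left p2 hC.le
        linarith
    _ = 6 * CA * (4 : ℝ) ^ α * ((r : ℝ) / L) ^ (α / 2) := by rw [e1]; ring
    _ ≤ max 16 (6 * CA * (4 : ℝ) ^ α) * ((r : ℝ) / L) ^ (α / 2) := mul_le_mul_of_nonneg_right (le_max_right _ _) hy

/-- **[MIX-R]** = `GaussMixR t` of Defs/GaussMatch, VERBATIM, from `GaussRate t` and `GaussArm t` -/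
theorem rt72_mix {t : ℝ} (h0 : 0 < t) (h1 : t < 1) (HR : GaussRate t) (HA : GaussArm t) : GaussMixR t := by
  obtain ⟨CA, α, hC, hα, hA⟩ := HA
  obtain ⟨C, κ, hC0, hκ, hnum⟩ := rt72_num hC hα
  refine ⟨C, κ, hC0, hκ, ?_⟩
  intro F F' z b b' r L hF hF' hr hL hLF hLF' G X hG hG1 hX hX1
  obtain ⟨n1, n2, n3, n4⟩ := hnum r L hr hL
  exact (rt72_mix_box h0 h1 HR hA z b b' hF hF' n1 n2 n3 hLF hLF' hG hG1 hX hX1).trans n4

/-- **[MIX-R]** from `GaussFkg t` (= the statement of `exit_mdl_cmp`, colour plus) and `GaussArm t` -/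
theorem rt72_mix_fkg {t : ℝ} (h0 : 0 < t) (h1 : t < 1) (HF : GaussFkg t) (HA : GaussArm t) : GaussMixR t :=
  rt72_mix h0 h1 (rt72_rate h0 h1 HF) HA

end Claimed.Agent.R292
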