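import Claimed.Agent.R292.Rsw.CutHt91
import Claimed.Agent.R292.Rsw.Search122
import Claimed.Agent.R292.Spec.Dict79
import Claimed.Agent.R292.Spec.Fv212
import Claimed.Agent.R292.Exit.MODEL

/-!
# Row 292 (S0540), Rsw/Nondeg211 : P5 = NONDEGENERACY (`asi_nd` of Spec/B6)      (owner helper211; prefix `rnd_`, `Rnd`, `rnd`)      0 sorry

**`rnd_asi_nd` = the statement of `asi_nd` of Spec/B6 VERBATIM; the only open input is (S1) `exit_mdl_circ` of Exit/MODEL (`k = 0`).**      Wiring in B6: `asi_nd := rnd_asi_nd c hc1 hc2`.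
`rnd_nd_of : RndS1 c⁻¹ → Rp2Nd c` (contract of 212, Spec/Fv212) has no open input at all.

TEX: AT paper, 04-spectral, last part of the proof of prop:plane-green (two circuits of opposite colours + exact cut + fair colours).

ROAD (own text; no cluster is singled out, no topology):
* `C₀` = chamber of the MINUS search from the layer of the box `B₀`, `C₁` = chamber of the PLUS search from the layer of the box `B₁ ⊆ B₀`; both are functions of `(S, O)`.
* `rnd_flip_H`   recolouring the face spins on a chamber `C`:  `H_F (flip_C ω) = H_F ω - 2 H_C ω` (`H_C` = flat height of the chamber, `0` off its corners).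
* `rnd_parity`   the flat height of `(C, a)` is an integer, even exactly at the vertices of colour `a`.
* `rnd_det`      on `{B₁ ⊆ C₀, B₂ ⊆ C₁}`: `H_{C₀} - H_{C₁} = k` on the corners of `B₂`, `k` ODD  ⟹  `Y ∘ T₀ - Y ∘ T₁ = -2 k m`, `m` = the mass of the smearing in `B₂`.
* `rnd_var_L`    the two flips preserve the law and the event (`rsk_flip_E` of 91)  ⟹  `P(L) m² ≤ E Y²` for every event `L` of `(S, O)` on which the two separations hold.
* `rnd_two`, `rnd_var`   SECOND ROAD to `P(two circuits) ≥ p²`: stopped cut `rs122_stopped` of 122 + circuit bounds in the chambers (not used by the final theorem).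
* `rnd_ext_sep`  the separation of `A` from `A'` is exterior data (`MdlExt`) of every buffer inside `A`;  `rnd_core`: (S1) twice ⟹ `p² m² ≤ E Y²` in the boxes (`B₂ = Λ_r`, `B₁ = Λ_{2r+1}`, `B₀ = Λ_{6r+1}`, `n ≥ 9 r`, `r = R + 1`).
* `rnd_arr_dict` + `asd_fz_eq` of 79: the dictionary to `mdlFz`, `asiArr`;  `rp2_nd_glue` of 212: the test function.
-/

set_option autoImplicit false

namespace Claimed.Agent.R292

open Claims Claims.C0468 Relation

/-! ## 1. the height under the recolouring of a chamber -/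

theorem rnd_onPolygon_mono {C F : Finset (ℤ × ℤ)} (h : C ⊆ F) {v : ℤ × ℤ} (hv : OnPolygon F v) : OnPolygon C v :=
  fun hc => hv ⟨h hc.1, h hc.2.1, h hc.2.2.1, h hc.2.2.2⟩

theorem rnd_sg_flip_in {D C : Finset (ℤ × ℤ)} {f : ℤ × ℤ} (hf : f ∈ C) : rskSg (symmDiff D C) f = - rskSg D f := by
  unfold rskSg
  by_cases h : f ∈ D <;> simp [Finset.mem_symmDiff, h, hf]

theorem rnd_sg_flip_out {D C : Finset (ℤ × ℤ)} {f : ℤ × ℤ} (hf : f ∉ C) : rskSg (symmDiff D C) f = rskSg D f := by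
  unfold rskSg
  by_cases h : f ∈ D <;> simp [Finset.mem_symmDiff, h, hf]

open Classical in
/-- **the flip formula**: recolouring the face spins on a chamber reflects the height of the chamber -/
theorem rnd_flip_H {t : ℝ} {C F : Finset (ℤ × ℤ)} (hC : C ⊆ F) (hextF : At92hExt F) (hextC : At92hExt C) {a b : Bool} {ω : RswCfg}
    (hc : RswCut C a ω) (hw : rswWt t F b ω ≠ 0) {v : ℤ × ℤ} (hv : v ∈ cornersOf F) :
    rswH F (rskFlip C ω) v = rswH F ω v - 2 * (if v ∈ cornersOf C then rswH C ω v else 0) := by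
  obtain ⟨Hv, Hf, h⟩ := rsk_ht_of_wt hextF hw
  obtain ⟨Hv', Hf', h'⟩ := rsk_ht_of_closed hextC (rsk_bc_of_cut hc) (rsk_closed_mono hC (rsk_closed_of_wt hw).2)
  have key : IsATHeight (rswTau F (rskFlip C ω)) (rswTauD F (rskFlip C ω))
      (fun v => Hv v - 2 * (if v ∈ cornersOf C then Hv' v else 0)) (fun f => Hf f - 2 * (if f ∈ C then Hf' f else 0)) := by
    rw [rsk_isHt_iff] at h h' ⊢
    refine ⟨fun u hu hp => ?_, fun f hf u hu => ?_⟩
    · show Hv u - 2 * (if u ∈ cornersOf C then Hv' u else 0) = 0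
      rw [h.1 u hu hp]
      by_cases huC : u ∈ cornersOf C
      · rw [if_pos huC, h'.1 u huC (rnd_onPolygon_mono hC hp)]; ring
      · rw [if_neg huC]; ring
    · have e1 := h.2 f hf u hu
      show Hf f - 2 * (if f ∈ C then Hf' f else 0) - (Hv u - 2 * (if u ∈ cornersOf C then Hv' u else 0)) =
        ((rskSg ω.S u : ℝ) * (rskSg (symmDiff ω.D C) f : ℝ)) / 2
      by_cases hfC : f ∈ C
      · have huC : u ∈ cornersOf C := at92h_mem_corners.2 ⟨f, hfC, hu⟩
        have e2 := h'.2 f hfC u hu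
        rw [if_pos hfC, if_pos huC, rnd_sg_flip_in hfC]
        push_cast
        linarith
      · rw [if_neg hfC, rnd_sg_flip_out hfC]
        by_cases huC : u ∈ cornersOf C
        · rw [if_pos huC, h'.1 u huC (at92h_onPolygon hfC hu)]
          linarith
        · rw [if_neg huC]
          linarith
  unfold rswH
  rw [at92h_eq key v hv, at92h_eq h v hv]
  by_cases hvC : v ∈ cornersOf C
  · simp only [if_pos hvC]
    rw [at92h_eq h' v hvC]
  · simp only [if_neg hvC]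

/-! ## 2. parity of the flat height -/

theorem rnd_cor_iff (f v : ℤ × ℤ) : v ∈ mdl21Cor f ↔ at92hCor f v := by
  rw [mdl21_mem_cor]
  obtain ⟨x, y⟩ := v
  obtain ⟨p, q⟩ := f
  unfold at92hCor
  simp only [Prod.mk.injEq]
  tauto

/-- the flat height of `(C, a)` is an integer, even exactly at the vertices of colour `a` -/
theorem rnd_parity {C : Finset (ℤ × ℤ)} {a : Bool} {ω : RswCfg} {Hv Hf : ℤ × ℤ → ℝ}
    (h : IsATHeight (rswTau C ω) (rswTauD C ω) Hv Hf) (hbc : RswBc C a ω) :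
    ∀ v ∈ cornersOf C, ∃ m : ℤ, Hv v = m ∧ (Even m ↔ (v ∈ ω.S ↔ a = true)) := by
  rw [rsk_isHt_iff] at h
  refine (mdl21_induct C (fun f => ∃ m : ℤ, Hf f = m + 1 / 2 ∧ (Even m ↔ (f ∈ ω.D ↔ a = true)))
    (fun v => ∃ m : ℤ, Hv v = m ∧ (Even m ↔ (v ∈ ω.S ↔ a = true))) ?_ ?_ ?_).2
  · intro v hv hp
    refine ⟨0, by rw [h.1 v hv hp]; simp, ?_⟩
    simp only [Even.zero, true_iff]
    exact hbc v hv hp
  · rintro f hf v hv ⟨m, hm, hpar⟩
    have e := h.2 f hf v ((rnd_cor_iff f v).1 hv)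
    rw [hm] at e
    unfold rskSg at e
    by_cases h1 : v ∈ ω.S <;> by_cases h2 : f ∈ ω.D
    · refine ⟨m, ?_, ?_⟩
      · simp only [h1, h2, if_true] at e; push_cast at e; linarith
      · simp only [h1, h2, true_iff] at hpar ⊢; exact hpar
    · refine ⟨m - 1, ?_, ?_⟩
      · simp only [h1, h2, if_true, if_false] at e; push_cast at e ⊢; linarith
      · simp only [h1, h2, true_iff, false_iff] at hpar ⊢
        rw [Int.even_sub_one, hpar]
    · refine ⟨m - 1, ?_, ?_⟩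
      · simp only [h1, h2, if_true, if_false] at e; push_cast at e ⊢; linarith
      · simp only [h1, h2, true_iff, false_iff] at hpar ⊢
        rw [Int.even_sub_one, hpar, not_not]
    · refine ⟨m, ?_, ?_⟩
      · simp only [h1, h2, if_false] at e; push_cast at e; linarith
      · simp only [h1, h2, false_iff] at hpar ⊢; exact hpar
  · rintro f hf v hv ⟨m, hm, hpar⟩
    have e := h.2 f hf v ((rnd_cor_iff f v).1 hv)
    rw [hm] at e
    unfold rskSg at e
    by_cases h1 : v ∈ ω.S <;> by_cases h2 : f ∈ ω.D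
    · refine ⟨m, ?_, ?_⟩
      · simp only [h1, h2, if_true] at e; push_cast at e; linarith
      · simp only [h1, h2, true_iff] at hpar ⊢; exact hpar
    · refine ⟨m + 1, ?_, ?_⟩
      · simp only [h1, h2, if_true, if_false] at e; push_cast at e ⊢; linarith
      · simp only [h1, h2, true_iff, false_iff] at hpar ⊢
        rw [Int.even_add_one, hpar, not_not]
    · refine ⟨m + 1, ?_, ?_⟩
      · simp only [h1, h2, if_true, if_false] at e; push_cast at e ⊢; linarith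
      · simp only [h1, h2, true_iff, false_iff] at hpar ⊢
        rw [Int.even_add_one, hpar]
    · refine ⟨m, ?_, ?_⟩
      · simp only [h1, h2, if_false] at e; push_cast at e; linarith
      · simp only [h1, h2, false_iff] at hpar ⊢; exact hpar

/-- the weight of the chamber -/
theorem rnd_wt_sub {t : ℝ} {C F : Finset (ℤ × ℤ)} (hC : C ⊆ F) {a b : Bool} {ω : RswCfg} (hc : RswCut C a ω)
    (hw : rswWt t F b ω ≠ 0) : rswWt t C a ω ≠ 0 := by
  classical
  unfold rswWt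
  rw [if_pos (rsk_bc_of_cut hc)]
  exact Finset.prod_ne_zero_iff.2 fun e he => ((rsb_wt_ne_zero hw).2 e (rsk_int_mono hC he)).1

/-! ## 3. separations -/

theorem rnd_step_symm {F : Finset (ℤ × ℤ)} {a : Bool} {ω : RswCfg} {f g : ℤ × ℤ} (h : RswStep F a ω f g) :
    RswStep F a ω g f := by
  obtain ⟨h1, h2, e, he, hn⟩ := h
  exact ⟨h2, h1, e, he.symm, hn⟩

theorem rnd_reach_symm {F : Finset (ℤ × ℤ)} {a : Bool} {ω : RswCfg} {f g : ℤ × ℤ}
    (h : ReflTransGen (RswStep F a ω) f g) : ReflTransGen (RswStep F a ω) g f := by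
  induction h with
  | refl => exact ReflTransGen.refl
  | tail _ hs ih => exact ReflTransGen.head (rnd_step_symm hs) ih

theorem rnd_sep_symm {F : Finset (ℤ × ℤ)} {a : Bool} {ω : RswCfg} {A B : Finset (ℤ × ℤ)} (h : RswSep F a ω A B) :
    RswSep F a ω B A := fun f hf g hg hr => h g hg f hf (rnd_reach_symm hr)

/-- a separation inside the box `B'` from its layer is a separation in `F` from everything off the box -/
theorem rnd_sep_up {F B' B1 : Finset (ℤ × ℤ)} {a : Bool} {ω : RswCfg} (hB1 : B1 ⊆ B')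
    (h : RswSep B' a ω (rswLayer B') B1) : RswSep F a ω ((F \ B') ∪ rswLayer B') B1 := by
  intro f hf g hg hr
  have key : ∀ x, ReflTransGen (RswStep F a ω) f x → x ∈ B' →
      ∃ f' ∈ rswLayer B', ReflTransGen (RswStep B' a ω) f' x := by
    intro x hx
    induction hx with
    | refl =>
      intro hxB
      rcases Finset.mem_union.1 hf with h1 | h1
      · exact absurd hxB (Finset.mem_sdiff.1 h1).2
      · exact ⟨f, h1, ReflTransGen.refl⟩
    | @tail p x _ hs ih =>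
      intro hxB
      by_cases hp : p ∈ B'
      · obtain ⟨f', hf', hr'⟩ := ih hp
        obtain ⟨_, _, e, he, hn⟩ := hs
        exact ⟨f', hf', hr'.tail ⟨hp, hxB, e, he, hn⟩⟩
      · obtain ⟨_, _, e, he, _⟩ := hs
        rcases he with ⟨rfl, rfl⟩ | ⟨rfl, rfl⟩
        · exact ⟨_, rs122_layer_co hp hxB, ReflTransGen.refl⟩
        · exact ⟨_, rs122_layer_fst hxB hp, ReflTransGen.refl⟩
  obtain ⟨f', hf', hr'⟩ := key g hr (hB1 hg)
  exact h f' hf' g hg hr'

/-- a separation in `F` from a set which contains the layer of the box `B'` is a separation inside `B'` -/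
theorem rnd_sep_down {F B' A B1 : Finset (ℤ × ℤ)} {a : Bool} {ω : RswCfg} (hB : B' ⊆ F) (hA : rswLayer B' ⊆ A)
    (h : RswSep F a ω A B1) : RswSep B' a ω (rswLayer B') B1 := by
  intro f hf g hg hr
  refine h f (hA hf) g hg (ReflTransGen.lift id ?_ _ _ hr)
  rintro x y ⟨h1, h2, e, he, hn⟩
  exact ⟨hB h1, hB h2, e, he, hn⟩

theorem rnd_good_in {F' : Finset (ℤ × ℤ)} {a : Bool} {ω : RswCfg} {e : (ℤ × ℤ) × Bool} (he : e ∈ rswInt F') :
    RswGood a (rskIn F' ω) e ↔ RswGood a ω e := by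
  unfold RswGood rskIn
  simp only [Finset.mem_inter, he, rsk_int_fst he, rsk_int_end he, and_true]

theorem rnd_step_in {B F' : Finset (ℤ × ℤ)} (hB : B ⊆ F') (a : Bool) (ω : RswCfg) :
    RswStep B a (rskIn F' ω) = RswStep B a ω := by
  funext f g
  refine propext ⟨?_, ?_⟩
  · rintro ⟨h1, h2, e, he, hn⟩
    refine ⟨h1, h2, e, he, fun hg => hn ((rnd_good_in ?_).2 hg)⟩
    rw [rsk_mem_int]
    rcases he with ⟨rfl, rfl⟩ | ⟨rfl, rfl⟩
    · exact ⟨hB h1, hB h2⟩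
    · exact ⟨hB h2, hB h1⟩
  · rintro ⟨h1, h2, e, he, hn⟩
    refine ⟨h1, h2, e, he, fun hg => hn ((rnd_good_in ?_).1 hg)⟩
    rw [rsk_mem_int]
    rcases he with ⟨rfl, rfl⟩ | ⟨rfl, rfl⟩
    · exact ⟨hB h1, hB h2⟩
    · exact ⟨hB h2, hB h1⟩

open Classical in
/-- the separation inside a box is an inside event of every larger domain -/
theorem rnd_sep_inside {B F' : Finset (ℤ × ℤ)} (hB : B ⊆ F') (a : Bool) (A A' : Finset (ℤ × ℤ)) :
    RskInside F' (fun ω => if RswSep B a ω A A' then (1 : ℝ) else 0) := by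
  intro ω
  have e : RswSep B a (rskIn F' ω) A A' ↔ RswSep B a ω A A' := by
    unfold RswSep
    rw [rnd_step_in hB]
  show (if RswSep B a (rskIn F' ω) A A' then (1 : ℝ) else 0) = (if RswSep B a ω A A' then (1 : ℝ) else 0)
  by_cases h : RswSep B a ω A A'
  · rw [if_pos h, if_pos (e.2 h)]
  · rw [if_neg h, if_neg (fun h' => h (e.1 h'))]

/-! ## 4. the two chambers -/

/-- the chamber of the search of colour `a` from the layer of `B`, as a function of `(S, O)` -/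
noncomputable def rndCh (B : Finset (ℤ × ℤ)) (a : Bool) (S : Finset (ℤ × ℤ)) (O : Finset ((ℤ × ℤ) × Bool)) : Finset (ℤ × ℤ) :=
  B \ rs122Inv B a ⟨S, ∅, O⟩ (rswLayer B)

/-- the mass of the smearing in `B2` (a vertex is named as the face of which it is the lower left corner) -/
noncomputable def rndMass (B2 : Finset (ℤ × ℤ)) (w : (ℤ × ℤ) →₀ ℝ) : ℝ := ∑ v ∈ w.support.filter (fun v => v ∈ B2), w v

theorem rnd_eqns_cite : True := by
  have := @rndCh.eq_1
  have := @rndMass.eq_1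
  trivial

theorem rnd_ch_sub (B : Finset (ℤ × ℤ)) (a : Bool) (S : Finset (ℤ × ℤ)) (O : Finset ((ℤ × ℤ) × Bool)) : rndCh B a S O ⊆ B :=
  Finset.sdiff_subset

theorem rnd_ch_cut (B : Finset (ℤ × ℤ)) (a : Bool) (ω : RswCfg) : RswCut (rndCh B a ω.S ω.O) a ω := by
  have h : RswCut (rndCh B a ω.S ω.O) a ⟨ω.S, ∅, ω.O⟩ := rs122_cut (Finset.Subset.refl _)
  exact h

theorem rnd_ch_ext {B : Finset (ℤ × ℤ)} (hext : At92hExt B) (a : Bool) (S : Finset (ℤ × ℤ)) (O : Finset ((ℤ × ℤ) × Bool)) :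
    At92hExt (rndCh B a S O) := by
  refine rsk_ext_of_reach (a := a) (ω := ⟨S, ∅, O⟩) hext fun g => ?_
  rw [rs122_mem]
  refine ⟨fun h => h.2, fun h => ⟨?_, h⟩⟩
  obtain ⟨f, hf, hr⟩ := h
  cases hr with
  | refl => exact (rs122_mem_layer.1 hf).1
  | tail _ hs => exact hs.2.1

theorem rnd_ch_closed {B F : Finset (ℤ × ℤ)} (a : Bool) (S : Finset (ℤ × ℤ)) (O : Finset ((ℤ × ℤ) × Bool)) :
    RskClosed F O (rndCh B a S O) := by
  intro e _ hO
  have hc := rnd_ch_cut B a ⟨S, ∅, O⟩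
  by_contra hne
  have hbd : RskBd (rndCh B a S O) e := by
    unfold RskBd
    tauto
  exact hO (hc e hbd).1

theorem rnd_ch_sup {B B1 : Finset (ℤ × ℤ)} (hB1 : B1 ⊆ B) {a : Bool} {ω : RswCfg} (h : RswSep B a ω (rswLayer B) B1) :
    B1 ⊆ rndCh B a ω.S ω.O := by
  intro g hg
  refine Finset.mem_sdiff.2 ⟨hB1 hg, fun hI => ?_⟩
  obtain ⟨_, f, hf, hr⟩ := rs122_mem.1 hI
  exact h f hf g hg hr

/-- **the two recolourings move the statistic apart by `2 k m`, `k` odd** -/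
theorem rnd_det {t : ℝ} {F B0 B1 B2 : Finset (ℤ × ℤ)} (h0 : B0 ⊆ F) (h1 : B1 ⊆ B0) (h2 : B2 ⊆ B1)
    (hextF : At92hExt F) (hext0 : At92hExt B0) (hext1 : At92hExt B1) (hK : RskKing (↑B2 : Set (ℤ × ℤ))) (hne : B2.Nonempty)
    {w : (ℤ × ℤ) →₀ ℝ} (hw : ∀ v ∈ w.support, v ∈ B2 ∨ (v ∈ cornersOf F ∧ v ∉ cornersOf B0))
    {ω : RswCfg} (hwt : rswWt t F true ω ≠ 0)
    (hG0 : RswSep B0 false ω (rswLayer B0) B1) (hG1 : RswSep B1 true ω (rswLayer B1) B2) :
    ∃ k : ℤ, Odd k ∧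
      rswArr w (rswH F (rskFlip (rndCh B0 false ω.S ω.O) ω)) - rswArr w (rswH F (rskFlip (rndCh B1 true ω.S ω.O) ω)) =
        -2 * k * rndMass B2 w := by
  classical
  obtain ⟨C0, hC0⟩ : ∃ C0, C0 = rndCh B0 false ω.S ω.O := ⟨_, rfl⟩
  obtain ⟨C1, hC1⟩ : ∃ C1, C1 = rndCh B1 true ω.S ω.O := ⟨_, rfl⟩
  rw [← hC0, ← hC1]
  have hC0B : C0 ⊆ B0 := by rw [hC0]; exact rnd_ch_sub _ _ _ _
  have hC1B : C1 ⊆ B1 := by rw [hC1]; exact rnd_ch_sub _ _ _ _
  have hC0F : C0 ⊆ F := hC0B.trans h0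
  have hC1F : C1 ⊆ F := hC1B.trans (h1.trans h0)
  have hcut0 : RswCut C0 false ω := by rw [hC0]; exact rnd_ch_cut B0 false ω
  have hcut1 : RswCut C1 true ω := by rw [hC1]; exact rnd_ch_cut B1 true ω
  have hB1C0 : B1 ⊆ C0 := by rw [hC0]; exact rnd_ch_sup h1 hG0
  have hB2C1 : B2 ⊆ C1 := by rw [hC1]; exact rnd_ch_sup h2 hG1
  have hC1C0 : C1 ⊆ C0 := hC1B.trans hB1C0
  have hextC0 : At92hExt C0 := by rw [hC0]; exact rnd_ch_ext hext0 _ _ _
  have hextC1 : At92hExt C1 := by rw [hC1]; exact rnd_ch_ext hext1 _ _ _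
  have hwt0 : rswWt t C0 false ω ≠ 0 := rnd_wt_sub hC0F hcut0 hwt
  have hwt1 : rswWt t C1 true ω ≠ 0 := rnd_wt_sub hC1F hcut1 hwt
  obtain ⟨c, hh⟩ := rsk_H_const hC1C0 hextC0 hextC1 hcut1 hwt0 (T := (↑B2 : Set (ℤ × ℤ)))
    (fun f hf => hB2C1 (Finset.mem_coe.1 hf)) hK
  -- parity
  obtain ⟨v0, hv0⟩ := hne
  obtain ⟨Hv0, Hf0, hh0⟩ := rsk_ht_of_wt hextC0 hwt0
  obtain ⟨Hv1, Hf1, hh1⟩ := rsk_ht_of_wt hextC1 hwt1
  have hv0C0 : v0 ∈ cornersOf C0 := at92h_self_mem_corners (hC1C0 (hB2C1 hv0))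
  have hv0C1 : v0 ∈ cornersOf C1 := at92h_self_mem_corners (hB2C1 hv0)
  obtain ⟨m0, hm0, hp0⟩ := rnd_parity hh0 (rsk_bc_of_cut hcut0) v0 hv0C0
  obtain ⟨m1, hm1, hp1⟩ := rnd_parity hh1 (rsk_bc_of_cut hcut1) v0 hv0C1
  have hc : c = ((m0 - m1 : ℤ) : ℝ) := by
    have e := hh v0 (Finset.mem_coe.2 hv0) v0 (rsk_cor_self v0)
    unfold rswH at e
    rw [at92h_eq hh0 v0 hv0C0, at92h_eq hh1 v0 hv0C1, hm0, hm1] at e
    push_cast
    linarith
  refine ⟨m0 - m1, ?_, ?_⟩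
  · rw [Int.odd_sub, ← Int.not_even_iff_odd, hp0, hp1]
    simp
  · unfold rswArr Finsupp.sum rndMass
    rw [← Finset.sum_sub_distrib, Finset.sum_filter, Finset.mul_sum]
    refine Finset.sum_congr rfl fun v hv => ?_
    show w v * rswH F (rskFlip C0 ω) v - w v * rswH F (rskFlip C1 ω) v = -2 * ((m0 - m1 : ℤ) : ℝ) * if v ∈ B2 then w v else 0
    rcases hw v hv with hvB | ⟨hvF, hvn⟩
    · have a1 : v ∈ cornersOf F := at92h_self_mem_corners (hC1F (hB2C1 hvB))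
      have a2 : v ∈ cornersOf C0 := at92h_self_mem_corners (hC1C0 (hB2C1 hvB))
      have a3 : v ∈ cornersOf C1 := at92h_self_mem_corners (hB2C1 hvB)
      rw [rnd_flip_H hC0F hextF hextC0 hcut0 hwt a1, rnd_flip_H hC1F hextF hextC1 hcut1 hwt a1, if_pos a2, if_pos a3,
        if_pos hvB, hh v (Finset.mem_coe.2 hvB) v (rsk_cor_self v), hc]
      ring
    · have a2 : v ∉ cornersOf C0 := fun h => hvn (rsk_corners_mono hC0B h)
      have a3 : v ∉ cornersOf C1 := fun h => hvn (rsk_corners_mono (hC1B.trans h1) h)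
      have a4 : v ∉ B2 := fun h => hvn (at92h_self_mem_corners (h1 (h2 h)))
      rw [rnd_flip_H hC0F hextF hextC0 hcut0 hwt hvF, rnd_flip_H hC1F hextF hextC1 hcut1 hwt hvF, if_neg a2, if_neg a3,
        if_neg a4]
      ring

/-! ## 5. the variance bound in the `(S, D, O)` model -/

/-- **NONDEGENERACY, event form**: `L` = any event of `(S, O)` on which the two separations hold -/
theorem rnd_var_L {t : ℝ} (ht0 : 0 < t) (ht1 : t ≤ 1) {F B0 B1 B2 : Finset (ℤ × ℤ)} (h0 : B0 ⊆ F) (h1 : B1 ⊆ B0) (h2 : B2 ⊆ B1)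
    (hextF : At92hExt F) (hext0 : At92hExt B0) (hext1 : At92hExt B1) (hK : RskKing (↑B2 : Set (ℤ × ℤ))) (hne : B2.Nonempty)
    {L : RswCfg → Prop} (hLf : ∀ (C : Finset (ℤ × ℤ)) (ω : RswCfg), L (rskFlip C ω) ↔ L ω)
    (hL0 : ∀ ω, L ω → RswSep B0 false ω (rswLayer B0) B1) (hL1 : ∀ ω, L ω → RswSep B1 true ω (rswLayer B1) B2)
    {w : (ℤ × ℤ) →₀ ℝ} (hw : ∀ v ∈ w.support, v ∈ B2 ∨ (v ∈ cornersOf F ∧ v ∉ cornersOf B0)) :
    rswP t F true L * rndMass B2 w ^ 2 ≤ rswE t F true (fun ω => rswArr w (rswH F ω) ^ 2) := by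
  classical
  obtain ⟨m, hm⟩ : ∃ m, m = rndMass B2 w := ⟨_, rfl⟩
  rw [← hm]
  obtain ⟨J, hJ⟩ : ∃ J : RswCfg → ℝ, J = fun ω => if L ω then (1 : ℝ) else 0 := ⟨_, rfl⟩
  have hJf : ∀ (C : Finset (ℤ × ℤ)) (ω : RswCfg), J (rskFlip C ω) = J ω := by
    intro C ω
    rw [hJ]
    by_cases h : L ω
    · simp only [if_pos h, if_pos ((hLf C ω).2 h)]
    · simp only [if_neg h, if_neg (fun h' => h ((hLf C ω).1 h'))]
  have hP : rswP t F true L = rswE t F true J := by
    rw [hJ]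
    unfold rswP
    congr 1
  -- the flips
  have hf0 := rsk_flip_E t F true (rndCh B0 false) (fun S O => (rnd_ch_sub _ _ _ _).trans h0)
    (fun S O => rnd_ch_closed false S O) (fun ω => J ω * rswArr w (rswH F ω) ^ 2)
  have hf1 := rsk_flip_E t F true (rndCh B1 true) (fun S O => (rnd_ch_sub _ _ _ _).trans (h1.trans h0))
    (fun S O => rnd_ch_closed true S O) (fun ω => J ω * rswArr w (rswH F ω) ^ 2)
  simp only [hJf] at hf0 hf1
  have hsum : rswE t F true (fun ω => J ω * (2 * m ^ 2)) ≤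
      rswE t F true (fun ω => J ω * rswArr w (rswH F (rskFlip (rndCh B0 false ω.S ω.O) ω)) ^ 2 +
        J ω * rswArr w (rswH F (rskFlip (rndCh B1 true ω.S ω.O) ω)) ^ 2) := by
    refine rsb_E_mono ht0 ht1 fun ω _ hwt => ?_
    by_cases g : L ω
    · obtain ⟨k, hk, hd⟩ := rnd_det h0 h1 h2 hextF hext0 hext1 hK hne hw hwt (hL0 ω g) (hL1 ω g)
      have hJ1 : J ω = 1 := by
        rw [hJ]
        simp only [if_pos g]
      rw [hJ1, one_mul, one_mul, one_mul]
      rw [← hm] at hd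
      have hk1 : (1 : ℝ) ≤ (k : ℝ) ^ 2 := by
        have hk0 : k ≠ 0 := by
          rintro rfl
          simp at hk
        have h1 : (1 : ℤ) ≤ k ^ 2 := by
          have := sq_nonneg k
          have h3 : k ^ 2 ≠ 0 := pow_ne_zero 2 hk0
          omega
        exact_mod_cast h1
      obtain ⟨x, hx⟩ : ∃ x, x = rswArr w (rswH F (rskFlip (rndCh B0 false ω.S ω.O) ω)) := ⟨_, rfl⟩
      obtain ⟨y, hy⟩ : ∃ y, y = rswArr w (rswH F (rskFlip (rndCh B1 true ω.S ω.O) ω)) := ⟨_, rfl⟩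
      rw [← hx, ← hy] at hd ⊢
      have e1 : (x - y) ^ 2 = 4 * (k : ℝ) ^ 2 * m ^ 2 := by rw [hd]; ring
      have e2 : m ^ 2 ≤ (k : ℝ) ^ 2 * m ^ 2 := by nlinarith [sq_nonneg m]
      nlinarith [sq_nonneg (x + y)]
    · have hJ0 : J ω = 0 := by
        rw [hJ]
        simp only [if_neg g]
      rw [hJ0]; simp
  rw [rsb_E_add, ← hf0, ← hf1, rsb_E_mul_const] at hsum
  have hle : rswE t F true (fun ω => J ω * rswArr w (rswH F ω) ^ 2) ≤
      rswE t F true (fun ω => rswArr w (rswH F ω) ^ 2) := by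
    refine rsb_E_mono ht0 ht1 fun ω _ _ => ?_
    have : J ω ≤ 1 := by
      rw [hJ]
      show (if L ω then (1 : ℝ) else 0) ≤ 1
      split_ifs <;> norm_num
    nlinarith [sq_nonneg (rswArr w (rswH F ω))]
  rw [hP]
  linarith

theorem rnd_sep_flip (F : Finset (ℤ × ℤ)) (a : Bool) (A B C : Finset (ℤ × ℤ)) (ω : RswCfg) :
    RswSep F a (rskFlip C ω) A B ↔ RswSep F a ω A B := Iff.rfl

theorem rnd_sep_mono {F : Finset (ℤ × ℤ)} {a : Bool} {ω : RswCfg} {A A' B B' : Finset (ℤ × ℤ)} (hA : A' ⊆ A) (hB : B' ⊆ B)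
    (h : RswSep F a ω A B) : RswSep F a ω A' B' := fun f hf g hg => h f (hA hf) g (hB hg)

/-- **the two circuits by the stopped cut** (`B1'` = the box separated by the first circuit, `B1 ⊆ B1'` = the box of the second search) -/
theorem rnd_two {t : ℝ} (ht0 : 0 < t) (ht1 : t ≤ 1) {F B0 B1' B1 B2 : Finset (ℤ × ℤ)} (h0 : B0 ⊆ F) (h1' : B1' ⊆ B0) (h1 : B1 ⊆ B1')
    (hlay : rswLayer F ⊆ (F \ B0) ∪ rswLayer B0) {p : ℝ} (hp : 0 ≤ p)
    (hc0 : p ≤ rswP t F true (fun ω => RswSep B0 false ω (rswLayer B0) B1'))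
    (hc1 : ∀ F' : Finset (ℤ × ℤ), B1' ⊆ F' → F' ⊆ F → p ≤ rswP t F' false (fun ω => RswSep B1 true ω (rswLayer B1) B2)) :
    p ^ 2 ≤ rswP t F true (fun ω => RswSep F false ω ((F \ B0) ∪ rswLayer B0) B1' ∧ RswSep B1 true ω (rswLayer B1) B2) := by
  classical
  have hst := rs122_stopped ht0 ht1 F false true (A := (F \ B0) ∪ rswLayer B0) (B := B1') hlay (h1'.trans h0)
    (X := fun ω => if RswSep B1 true ω (rswLayer B1) B2 then (1 : ℝ) else 0) (m := p)
    (fun F' hB hF => ⟨rnd_sep_inside (h1.trans hB) true _ _, hc1 F' hB hF⟩)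
  have hP0 : p ≤ rswP t F true (fun ω => RswSep F false ω ((F \ B0) ∪ rswLayer B0) B1') :=
    hc0.trans (rsb_P_mono ht0 ht1 fun ω _ _ h => rnd_sep_up h1' h)
  have e : rswP t F true (fun ω => RswSep F false ω ((F \ B0) ∪ rswLayer B0) B1' ∧ RswSep B1 true ω (rswLayer B1) B2) =
      rswE t F true (fun ω => (if RswSep F false ω ((F \ B0) ∪ rswLayer B0) B1' then (1 : ℝ) else 0) *
        (if RswSep B1 true ω (rswLayer B1) B2 then (1 : ℝ) else 0)) := by
    unfold rswP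
    congr 1
    funext ω
    by_cases g0 : RswSep F false ω ((F \ B0) ∪ rswLayer B0) B1' <;> by_cases g1 : RswSep B1 true ω (rswLayer B1) B2 <;>
      simp [g0, g1]
  rw [e]
  refine le_trans ?_ hst
  rw [sq]
  exact mul_le_mul_of_nonneg_left hP0 hp

/-- **NONDEGENERACY in the `(S, D, O)` model** -/
theorem rnd_var {t : ℝ} (ht0 : 0 < t) (ht1 : t ≤ 1) {F B0 B1' B1 B2 : Finset (ℤ × ℤ)} (h0 : B0 ⊆ F) (h1' : B1' ⊆ B0) (h1 : B1 ⊆ B1')
    (h2 : B2 ⊆ B1) (hextF : At92hExt F) (hext0 : At92hExt B0) (hext1 : At92hExt B1) (hK : RskKing (↑B2 : Set (ℤ × ℤ)))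
    (hne : B2.Nonempty) (hlay : rswLayer F ⊆ (F \ B0) ∪ rswLayer B0) {p : ℝ} (hp : 0 ≤ p)
    (hc0 : p ≤ rswP t F true (fun ω => RswSep B0 false ω (rswLayer B0) B1'))
    (hc1 : ∀ F' : Finset (ℤ × ℤ), B1' ⊆ F' → F' ⊆ F → p ≤ rswP t F' false (fun ω => RswSep B1 true ω (rswLayer B1) B2))
    {w : (ℤ × ℤ) →₀ ℝ} (hw : ∀ v ∈ w.support, v ∈ B2 ∨ (v ∈ cornersOf F ∧ v ∉ cornersOf B0)) :
    p ^ 2 * rndMass B2 w ^ 2 ≤ rswE t F true (fun ω => rswArr w (rswH F ω) ^ 2) := by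
  have h := rnd_var_L ht0 ht1 h0 (h1.trans h1') h2 hextF hext0 hext1 hK hne
    (L := fun ω => RswSep F false ω ((F \ B0) ∪ rswLayer B0) B1' ∧ RswSep B1 true ω (rswLayer B1) B2)
    (fun _ _ => Iff.rfl)
    (fun ω g => rnd_sep_mono (Finset.Subset.refl _) h1 (rnd_sep_down h0 Finset.subset_union_right g.1))
    (fun ω g => g.2) hw
  exact (mul_le_mul_of_nonneg_right (rnd_two ht0 ht1 h0 h1' h1 hlay hp hc0 hc1) (sq_nonneg _)).trans h

/-! ## 6. exterior data; boxes -/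

theorem rnd_edge_cor (e : (ℤ × ℤ) × Bool) :
    at92hCor e.1 e.1 ∧ at92hCor e.1 (rswEnd e) ∧ at92hCor (rswCo e) e.1 ∧ at92hCor (rswCo e) (rswEnd e) := by
  obtain ⟨⟨x, y⟩, c⟩ := e
  cases c <;> simp [at92hCor, rswEnd, rswCo]

/-- an edge with a face off `B` is read in the same way by two configurations which agree off the open `B` -/
theorem rnd_good_ext {B : Finset (ℤ × ℤ)} {a : Bool} {ω ω' : RswCfg} (hS : ∀ v, OnPolygon B v → (v ∈ ω.S ↔ v ∈ ω'.S))
    (hO : ∀ e, e ∉ rswInt B → (e ∈ ω.O ↔ e ∈ ω'.O)) {e : (ℤ × ℤ) × Bool} (he : e.1 ∉ B ∨ rswCo e ∉ B) :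
    RswGood a ω e ↔ RswGood a ω' e := by
  obtain ⟨c1, c2, c3, c4⟩ := rnd_edge_cor e
  have h1 : e ∉ rswInt B := by
    rw [rsk_mem_int]
    tauto
  have h2 : OnPolygon B e.1 := by
    rcases he with h | h
    · exact at92h_onPolygon h c1
    · exact at92h_onPolygon h c3
  have h3 : OnPolygon B (rswEnd e) := by
    rcases he with h | h
    · exact at92h_onPolygon h c2
    · exact at92h_onPolygon h c4
  unfold RswGood
  rw [hO e h1, hS _ h2, hS _ h3]

theorem rnd_ext_aux {F B A A' : Finset (ℤ × ℤ)} (hB : B ⊆ A) {a : Bool} {ω ω' : RswCfg}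
    (hS : ∀ v, OnPolygon B v → (v ∈ ω.S ↔ v ∈ ω'.S)) (hO : ∀ e, e ∉ rswInt B → (e ∈ ω.O ↔ e ∈ ω'.O))
    (h : RswSep F a ω A A') : RswSep F a ω' A A' := by
  intro f hf g hg hr
  have key : ∀ x, ReflTransGen (RswStep F a ω') f x → ∃ f' ∈ A, ReflTransGen (RswStep F a ω) f' x := by
    intro x hx
    induction hx with
    | refl => exact ⟨f, hf, ReflTransGen.refl⟩
    | @tail x y _ hs ih =>
      by_cases hy : y ∈ A
      · exact ⟨y, hy, ReflTransGen.refl⟩
      · obtain ⟨f', hf', hr'⟩ := ih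
        obtain ⟨h1, h2, e, he, hn⟩ := hs
        refine ⟨f', hf', hr'.tail ⟨h1, h2, e, he, fun hgood => hn ((rnd_good_ext hS hO ?_).1 hgood)⟩⟩
        rcases he with ⟨_, rfl⟩ | ⟨rfl, _⟩
        · exact Or.inr fun h => hy (hB h)
        · exact Or.inl fun h => hy (hB h)
  obtain ⟨f', hf', hr'⟩ := key g hr
  exact h f' hf' g hg hr'

/-- the separation of `A` from `A'` is exterior data of every buffer inside `A` -/
theorem rnd_ext_sep {F B A A' : Finset (ℤ × ℤ)} (hB : B ⊆ A) (a : Bool) : MdlExt B (fun ω => RswSep F a ω A A') := by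
  intro ω ω' hS hO
  exact ⟨rnd_ext_aux hB hS hO, rnd_ext_aux hB (fun v hv => (hS v hv).symm) (fun e he => (hO e he).symm)⟩

theorem rnd_sep_sub {F B' A A' : Finset (ℤ × ℤ)} {a : Bool} {ω : RswCfg} (hB : B' ⊆ F) (h : RswSep F a ω A A') :
    RswSep B' a ω A A' := by
  intro f hf g hg hr
  refine h f hf g hg (ReflTransGen.lift id ?_ _ _ hr)
  rintro x y ⟨h1, h2, e, he, hn⟩
  exact ⟨hB h1, hB h2, e, he, hn⟩

theorem rnd_mem_box (z : ℤ × ℤ) (n : ℕ) (f : ℤ × ℤ) :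
    f ∈ rswBox z n ↔ (z.1 - n ≤ f.1 ∧ f.1 < z.1 + n) ∧ (z.2 - n ≤ f.2 ∧ f.2 < z.2 + n) := by
  unfold rswBox
  simp only [Finset.mem_product, Finset.mem_Ico]

theorem rnd_box_mono (z : ℤ × ℤ) {m n : ℕ} (h : m ≤ n) : rswBox z m ⊆ rswBox z n := by
  intro f hf
  rw [rnd_mem_box] at hf ⊢
  have : (m : ℤ) ≤ n := by exact_mod_cast h
  omega

/-- the layer of `Box (m + 1)` does not meet `Box m` -/
theorem rnd_layer_box (z : ℤ × ℤ) (m : ℕ) {f : ℤ × ℤ} (hf : f ∈ rswLayer (rswBox z (m + 1))) : f ∉ rswBox z m := by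
  intro hm
  obtain ⟨_, v, hv, hp⟩ := rs122_mem_layer.1 hf
  apply hp
  rw [rnd_mem_box] at hm
  simp only [Finset.mem_insert, Finset.mem_singleton] at hv
  simp only [rnd_mem_box]
  push_cast
  rcases hv with rfl | rfl | rfl | rfl <;> (try simp only) <;> omega

theorem rnd_mem_corners_box (z : ℤ × ℤ) (n : ℕ) (v : ℤ × ℤ) :
    v ∈ cornersOf (rswBox z n) → (z.1 - n ≤ v.1 ∧ v.1 ≤ z.1 + n) ∧ (z.2 - n ≤ v.2 ∧ v.2 ≤ z.2 + n) := by
  intro hv
  obtain ⟨f, hf, hc⟩ := at92h_mem_corners.1 hv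
  rw [rnd_mem_box] at hf
  unfold at92hCor at hc
  omega

/-! ## 7. the two circuits from (S1); the variance bound in the boxes -/

/-- the statement of (S1) `exit_mdl_circ` of Exit/MODEL for `k = 0` (prop:circuits (1): a circuit of either colour given any exterior data of the buffer) -/
def RndS1 (t : ℝ) : Prop :=
  ∃ p : ℝ, 0 < p ∧ ∃ n0 : ℕ, ∀ n : ℕ, n0 ≤ n → ∀ (F : Finset (ℤ × ℤ)) (z : ℤ × ℤ) (b a : Bool) (L : RswCfg → Prop),
    RswJordan F → rswBox z (3 * n) ⊆ F → MdlExt (rswBox z (3 * n)) L →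
    p * rswP t F b L ≤ rswP t F b fun ω => L ω ∧ RswSep F a ω (rswBox z n) (F \ rswBox z (2 * n))

theorem rnd_S1_eqns_cite : True := by
  have := @RndS1.eq_1
  trivial

theorem rnd_mem_mdlBox (R : ℕ) (u : ℤ × ℤ) : u ∈ mdlBox R ↔ (-(R : ℤ) ≤ u.1 ∧ u.1 ≤ R) ∧ (-(R : ℤ) ≤ u.2 ∧ u.2 ≤ R) := by
  unfold mdlBox
  simp only [Finset.mem_product, Finset.mem_Icc]

/-- **NONDEGENERACY in the boxes**, vocabulary `(S, D, O)` -/
theorem rnd_core {t : ℝ} (ht0 : 0 < t) (ht1 : t ≤ 1) (hS : RndS1 t) :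
    ∃ (p : ℝ) (R0 : ℕ), 0 < p ∧ ∀ (n R : ℕ) (w : (ℤ × ℤ) →₀ ℝ), R0 ≤ R → 18 * R ≤ n →
      (∀ u ∈ mdlBox (13 * R), u ∉ mdlBox R → w u = 0) → (∀ v ∈ w.support, v ∈ cornersOf (rswBox 0 n)) →
      p ^ 2 * (∑ u ∈ mdlBox R, w u) ^ 2 ≤ rswE t (rswBox 0 n) true (fun ω => rswArr w (rswH (rswBox 0 n) ω) ^ 2) := by
  obtain ⟨p, hp, n0, H⟩ := hS
  refine ⟨p, max n0 1, hp, ?_⟩
  intro n R w hR hn hcol hsup
  have hR1 : 1 ≤ R := le_trans (le_max_right _ _) hR
  have hRn : n0 ≤ R := le_trans (le_max_left _ _) hR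
  obtain ⟨r, hr⟩ : ∃ r, r = R + 1 := ⟨_, rfl⟩
  obtain ⟨F, hF⟩ : ∃ F, F = rswBox 0 n := ⟨_, rfl⟩
  rw [← hF] at hsup ⊢
  have hJF : RswJordan F := by rw [hF]; exact asd_box_jordan 0 (by omega)
  have hsub : ∀ m : ℕ, m ≤ n → rswBox 0 m ⊆ F := fun m hm => by rw [hF]; exact rnd_box_mono 0 hm
  -- the two circuits
  have s1 := H (3 * r) (by omega) F 0 true false (fun _ => True) hJF (hsub _ (by omega)) (fun _ _ _ _ => Iff.rfl)
  rw [rsb_P_true ht0 ht1, mul_one] at s1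
  have s2 := H r (by omega) F 0 true true (fun ω => RswSep F false ω (rswBox 0 (3 * r)) (F \ rswBox 0 (2 * (3 * r)))) hJF
    (hsub _ (by omega)) (rnd_ext_sep (Finset.Subset.refl _) false)
  have s1' : p ≤ rswP t F true (fun ω => RswSep F false ω (rswBox 0 (3 * r)) (F \ rswBox 0 (2 * (3 * r)))) :=
    s1.trans (rsb_P_mono ht0 ht1 fun ω _ _ h => h.2)
  have s3 : p ^ 2 ≤ rswP t F true (fun ω => RswSep F false ω (rswBox 0 (3 * r)) (F \ rswBox 0 (2 * (3 * r))) ∧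
      RswSep F true ω (rswBox 0 r) (F \ rswBox 0 (2 * r))) := by
    refine le_trans ?_ s2
    rw [sq]
    exact mul_le_mul_of_nonneg_left s1' hp.le
  -- the flips
  have hlay : ∀ m : ℕ, m + 1 ≤ n → rswLayer (rswBox 0 (m + 1)) ⊆ F \ rswBox 0 m := by
    intro m hm f hf
    exact Finset.mem_sdiff.2 ⟨hsub _ hm (rs122_mem_layer.1 hf).1, rnd_layer_box 0 m hf⟩
  have key := rnd_var_L ht0 ht1 (F := F) (B0 := rswBox 0 (2 * (3 * r) + 1)) (B1 := rswBox 0 (2 * r + 1)) (B2 := rswBox 0 r)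
    (hsub _ (by omega)) (rnd_box_mono 0 (by omega)) (rnd_box_mono 0 (by omega)) (rsk_ext_of_jordan hJF)
    (rsk_ext_of_jordan (asd_box_jordan 0 (by omega))) (rsk_ext_of_jordan (asd_box_jordan 0 (by omega))) (rsk_king_box 0 r)
    ⟨(0, 0), (rnd_mem_box 0 r _).2 (by simp only [Prod.fst_zero, Prod.snd_zero]; omega)⟩
    (L := fun ω => RswSep F false ω (rswBox 0 (3 * r)) (F \ rswBox 0 (2 * (3 * r))) ∧
      RswSep F true ω (rswBox 0 r) (F \ rswBox 0 (2 * r)))
    (fun _ _ => Iff.rfl)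
    (fun ω g => rnd_sep_sub (hsub _ (by omega))
      (rnd_sep_symm (rnd_sep_mono (rnd_box_mono 0 (by omega)) (hlay _ (by omega)) g.1)))
    (fun ω g => rnd_sep_sub (hsub _ (by omega))
      (rnd_sep_symm (rnd_sep_mono (Finset.Subset.refl _) (hlay _ (by omega)) g.2)))
    (w := w) (by
      intro v hv
      by_cases h13 : v ∈ mdlBox (13 * R)
      · left
        have hvR : v ∈ mdlBox R := by
          by_contra hn
          exact (Finsupp.mem_support_iff.1 hv) (hcol v h13 hn)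
        rw [rnd_mem_mdlBox] at hvR
        rw [rnd_mem_box, hr]
        simp only [Prod.fst_zero, Prod.snd_zero]
        push_cast
        omega
      · right
        refine ⟨hsup v hv, fun hc => h13 ?_⟩
        have := rnd_mem_corners_box 0 _ v hc
        simp only [Prod.fst_zero, Prod.snd_zero] at this
        rw [rnd_mem_mdlBox]
        push_cast at this ⊢
        have hR1' : (1 : ℤ) ≤ R := by exact_mod_cast hR1
        have hr' : (r : ℤ) = R + 1 := by exact_mod_cast hr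
        omega)
  have hmass : rndMass (rswBox 0 r) w = ∑ u ∈ mdlBox R, w u := by
    unfold rndMass
    refine Finset.sum_subset ?_ ?_
    · intro v hv
      obtain ⟨hv1, hv2⟩ := Finset.mem_filter.1 hv
      by_contra hn
      refine (Finsupp.mem_support_iff.1 hv1) (hcol v ?_ hn)
      rw [rnd_mem_box, hr] at hv2
      simp only [Prod.fst_zero, Prod.snd_zero] at hv2
      rw [rnd_mem_mdlBox]
      push_cast at hv2 ⊢
      have hR1' : (1 : ℤ) ≤ R := by exact_mod_cast hR1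
      omega
    · intro u hu hn
      by_contra h0
      refine hn (Finset.mem_filter.2 ⟨Finsupp.mem_support_iff.2 h0, ?_⟩)
      rw [rnd_mem_mdlBox] at hu
      rw [rnd_mem_box, hr]
      simp only [Prod.fst_zero, Prod.snd_zero]
      push_cast
      omega
  rw [hmass] at key
  exact (mul_le_mul_of_nonneg_right s3 (sq_nonneg _)).trans key

/-! ## 8. the dictionary; `Rp2Nd`; `asi_nd` -/

/-- the statistic of `Defs/SPECI` read on an admissible configuration -/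
theorem rnd_arr_dict {F : Finset (ℤ × ℤ)} (hex : Mdl21Ex F) {ω : RswCfg} (ha : IsAdmissibleSpins (rswTau F ω) (rswTauD F ω))
    (w : (ℤ × ℤ) →₀ ℝ) :
    asiArr w (mdl21mH F (rswd11K F ω)) = rswArr (w.filter (fun v => v ∈ cornersOf F)) (rswH F ω) := by
  classical
  unfold asiArr rswArr
  rw [Finsupp.sum_filter_index]
  unfold Finsupp.sum
  rw [Finsupp.support_filter, Finset.sum_filter]
  refine Finset.sum_congr rfl fun v _ => ?_
  show w v * ((mdl21mH F (rswd11K F ω) (mdlV v) : ℝ) / 2) = if v ∈ cornersOf F then w v * rswH F ω v else 0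
  rw [mdl21m_H_V]
  by_cases hv : v ∈ cornersOf F
  · rw [if_pos hv, rswd11_H_K hex ha hv]
  · rw [if_neg hv, (rswd11_K_ht hex ha).offv v hv]
    simp

/-- (S1) for `k = 0` -/
theorem rnd_S1 (t : ℝ) (ht1 : 1 / 2 ≤ t) (ht2 : t < 1) : RndS1 t := by
  obtain ⟨p, hp, n0, H⟩ := exit_mdl_circ t ht1 ht2 0
  refine ⟨p, hp, n0, fun n hn F z b a L hF hsub hL => ?_⟩
  have h := H n hn F z b a L hF (by simpa using hsub) (by
    have e : rswBox z (0 * n) = ∅ := by
      unfold rswBox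
      simp
    rw [e, Finset.sdiff_empty]
    simpa using hL)
  simpa using h

/-- **the nondegeneracy contract of 212 from (S1)** -/
theorem rnd_nd_of {c : ℝ} (hc1 : 1 < c) (hc2 : c ≤ 2) (hS : RndS1 c⁻¹) : Rp2Nd c := by
  classical
  obtain ⟨ht1, ht2, ht0, htc⟩ := asd_t_of_c hc1 hc2
  obtain ⟨p, R0, hp, H⟩ := rnd_core (by linarith) ht2.le hS
  refine ⟨p ^ 2, max R0 1, 18, 13, by positivity, fun n R w hR hn hcol => ?_⟩
  have hR0 : R0 ≤ R := le_trans (le_max_left _ _) hR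
  have hR1 : 1 ≤ R := le_trans (le_max_right _ _) hR
  have hex := asd_box_ex 0 (n := n) (by omega)
  have e := asd_fz_eq ht0 hex (fun h => asiArr w h ^ 2)
  rw [htc] at e
  rw [e, rswd11_E_congr _ fun ω ha => by rw [rnd_arr_dict hex ha w]]
  have hin : ∀ u ∈ mdlBox R, u ∈ cornersOf (rswBox 0 n) := by
    intro u hu
    refine rswd11_face_corner ((rnd_mem_box 0 n u).2 ?_)
    rw [rnd_mem_mdlBox] at hu
    simp only [Prod.fst_zero, Prod.snd_zero]
    have : (18 : ℤ) * R ≤ n := by exact_mod_cast hn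
    have hR1' : (1 : ℤ) ≤ R := by exact_mod_cast hR1
    omega
  have h := H n R (w.filter (fun v => v ∈ cornersOf (rswBox 0 n))) hR0 hn
    (fun u hu hn' => by
      by_cases hc : u ∈ cornersOf (rswBox 0 n)
      · rw [Finsupp.filter_apply_pos _ _ hc]
        exact hcol u hu hn'
      · rw [Finsupp.filter_apply_neg _ _ hc])
    (fun v hv => by
      rw [Finsupp.support_filter] at hv
      exact (Finset.mem_filter.1 hv).2)
  have hm : ∑ u ∈ mdlBox R, (w.filter (fun v => v ∈ cornersOf (rswBox 0 n))) u = ∑ u ∈ mdlBox R, w u :=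
    Finset.sum_congr rfl fun u hu => Finsupp.filter_apply_pos _ _ (hin u hu)
  rw [hm] at h
  exact h

/-- the nondegeneracy contract of 212 -/
theorem rnd_nd (c : ℝ) (hc1 : 1 < c) (hc2 : c ≤ 2) : Rp2Nd c :=
  rnd_nd_of hc1 hc2 (rnd_S1 c⁻¹ (asd_t_of_c hc1 hc2).1 (asd_t_of_c hc1 hc2).2.1)

/-- **(P5) = the statement of `asi_nd` of `Spec/B6`, verbatim**, from (S1) `exit_mdl_circ` alone -/
theorem rnd_asi_nd (c : ℝ) (hc1 : 1 < c) (hc2 : c ≤ 2) :
    ∃ f : ℝ × ℝ → ℝ, AspTest f ∧ ∫ z, f z = 0 ∧ ∃ κ : ℝ, 0 < κ ∧ ∀ᶠ δ in nhdsWithin (0 : ℝ) (Set.Ioi 0),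
      ∀ᶠ R : ℕ in Filter.atTop, κ ≤ mdlFz c (rswBox 0 R) (fun h => asiArr (aspW δ f) h ^ 2) :=
  rp2_nd_glue (rnd_nd c hc1 hc2)

end Claimed.Agent.R292
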