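import Claimed.Agent.R292.Defs.RSW
import Claimed.Agent.R291.Pl.SetForm
import Claimed.Agent.R291.Ann.CylKit
import Claimed.Agent.R292.AtHeight
import Claimed.Agent.R292.Model.Euler141

/-!
# Row 292 (S0540), Rsw/TriDict111 : BOND + DUAL PERCOLATION ON `ℤ²` IS A SITE COLOURING OF THE TRIANGULAR LATTICE      (owner helper111; prefix `rtd111`, `Rtd111`)

Refine `ℤ²` by two:  primal vertex `v ↦ (2 v.1, 2 v.2)`,  face `f ↦ (2 f.1 + 1, 2 f.2 + 1)`,  edge `↦` its midpoint (mixed parity).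
Vertices are BLACK, faces are WHITE, an edge point is BLACK iff the edge is good.   In every unit square of the refined lattice the corners are one vertex, one face and two edges,
so the anti-diagonals of the frozen `triAdj` change no connectivity (vertex-face never joins a colour; two black edge points are joined through the vertex, two white ones through the face).
SEC. 8 = PLANAR EXACTNESS of the flat domain (`At2hConn F`): `rtd111_x_exact` (hex), `rtd111_x_perp` (hperp), **`rtd111_x_euler`** = eq. (3.5) of the AT paper `2^{k(N)} = C 2^{k(W)+|W|}` via `mdl141e_duality` (141).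
SEC. 9 = CYLINDER DUALITY (J3) on the cover, any `L`-periodic edge set: **`rtd111_cyl_dual`** (a circuit of interior edges of `G` which winds once <-> no dual bottom-top chain).
SEC. 10 = STATUS FIELDS, abstractly: `Rtd111Spec On G` (instances: `cyOn s (rcy162Fld ..)` of Sys162, `rtd111Bl G`): `rtd111_c_white_iff`, `rtd111_c_black_iff` (path dictionaries in any box / band), `rtd111_c_X_white/_black`, parity of rows.
SEC. 11 = THE EVENTS OF R291 `Ann/CylKit` IN WORDS: `rtd111_c_Blk`, `_H`, `_H_chain`, `_VP`, `_V`, **`rtd111_c_Blk_circuit`**, **`rtd111_c_VP_cocircuit`** (both orientations of J3), `rtd111_c_set` (blocking set), `rtd111_c_*_top/_bot` (parity).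
Hence the whole planar kit of R291 (`Tool/TriSC`, `Tool/TriSCLat`, `Pl/SetForm`: Timar, Hex, box duality, forced intersections, cylinders) applies VERBATIM to the vocabulary of `Defs/RSW`.
-/

set_option autoImplicit false
set_option linter.unusedVariables false
set_option linter.unusedSimpArgs false

namespace Claimed.Agent.R292

open Relation Claimed.Agent.R291
open Claims.C0467 (triAdj)
open Claims.C0468 (cornersOf OnPolygon)

/-! ## 1. the refined points -/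

/-- refined point of a primal vertex -/
def rtd111P (v : ℤ × ℤ) : ℤ × ℤ := (2 * v.1, 2 * v.2)

/-- refined point of a face -/
def rtd111F (f : ℤ × ℤ) : ℤ × ℤ := (2 * f.1 + 1, 2 * f.2 + 1)

/-- refined point of an edge -/
def rtd111E (e : (ℤ × ℤ) × Bool) : ℤ × ℤ :=
  if e.2 then (2 * e.1.1, 2 * e.1.2 + 1) else (2 * e.1.1 + 1, 2 * e.1.2)

theorem rtd111_co_f (x y : ℤ) : rswCo ((x, y), false) = (x, y - 1) := rfl
theorem rtd111_co_t (x y : ℤ) : rswCo ((x, y), true) = (x - 1, y) := rfl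
theorem rtd111_end_f (x y : ℤ) : rswEnd ((x, y), false) = (x + 1, y) := rfl
theorem rtd111_end_t (x y : ℤ) : rswEnd ((x, y), true) = (x, y + 1) := rfl
theorem rtd111_E_f (x y : ℤ) : rtd111E ((x, y), false) = (2 * x + 1, 2 * y) := rfl
theorem rtd111_E_t (x y : ℤ) : rtd111E ((x, y), true) = (2 * x, 2 * y + 1) := rfl

theorem rtd111_P_inj {u v : ℤ × ℤ} (h : rtd111P u = rtd111P v) : u = v := by
  simp only [rtd111P, Prod.mk.injEq] at h
  exact Prod.ext (by omega) (by omega)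

theorem rtd111_F_inj {u v : ℤ × ℤ} (h : rtd111F u = rtd111F v) : u = v := by
  simp only [rtd111F, Prod.mk.injEq] at h
  exact Prod.ext (by omega) (by omega)

theorem rtd111_E_inj {e e' : (ℤ × ℤ) × Bool} (h : rtd111E e = rtd111E e') : e = e' := by
  obtain ⟨⟨x, y⟩, b⟩ := e
  obtain ⟨⟨x', y'⟩, b'⟩ := e'
  cases b <;> cases b' <;> simp [rtd111E] at h ⊢ <;> omega

theorem rtd111_P_ne_F (v f : ℤ × ℤ) : rtd111P v ≠ rtd111F f := by
  intro h
  simp only [rtd111P, rtd111F, Prod.mk.injEq] at h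
  omega

theorem rtd111_P_ne_E (v : ℤ × ℤ) (e : (ℤ × ℤ) × Bool) : rtd111P v ≠ rtd111E e := by
  obtain ⟨⟨x, y⟩, b⟩ := e
  intro h
  cases b <;> simp [rtd111P, rtd111E] at h <;> omega

theorem rtd111_F_ne_E (f : ℤ × ℤ) (e : (ℤ × ℤ) × Bool) : rtd111F f ≠ rtd111E e := by
  obtain ⟨⟨x, y⟩, b⟩ := e
  intro h
  cases b <;> simp [rtd111F, rtd111E] at h <;> omega

/-- every refined point is a vertex, a face or an edge -/
theorem rtd111_cases (p : ℤ × ℤ) : (∃ v, p = rtd111P v) ∨ (∃ f, p = rtd111F f) ∨ (∃ e, p = rtd111E e) := by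
  obtain ⟨x, y⟩ := p
  rcases Int.even_or_odd' x with ⟨i, hi | hi⟩ <;> rcases Int.even_or_odd' y with ⟨j, hj | hj⟩
  · exact Or.inl ⟨(i, j), by simp [rtd111P, hi, hj]⟩
  · exact Or.inr (Or.inr ⟨((i, j), true), by simp [rtd111E, hi, hj]⟩)
  · exact Or.inr (Or.inr ⟨((i, j), false), by simp [rtd111E, hi, hj]⟩)
  · exact Or.inr (Or.inl ⟨(i, j), by simp [rtd111F, hi, hj]⟩)

/-! ## 2. adjacency table -/

theorem rtd111_adj_FF (f g : ℤ × ℤ) : ¬ triAdj (rtd111F f) (rtd111F g) := by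
  rw [tsc_adj_iff]
  simp only [rtd111F]
  omega

theorem rtd111_adj_PP (f g : ℤ × ℤ) : ¬ triAdj (rtd111P f) (rtd111P g) := by
  rw [tsc_adj_iff]
  simp only [rtd111P]
  omega

theorem rtd111_adj_symm {u v : ℤ × ℤ} (h : triAdj u v) : triAdj v u := by
  rw [tsc_adj_iff] at *
  omega

theorem rtd111_adj_FE {f : ℤ × ℤ} {e : (ℤ × ℤ) × Bool} (h : triAdj (rtd111F f) (rtd111E e)) : f = e.1 ∨ f = rswCo e := by
  obtain ⟨⟨x, y⟩, b⟩ := e
  obtain ⟨x', y'⟩ := f
  rw [tsc_adj_iff] at h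
  cases b <;> simp [rtd111F, rtd111E, rtd111_co_f, rtd111_co_t] at h ⊢ <;> omega

theorem rtd111_adj_PE {v : ℤ × ℤ} {e : (ℤ × ℤ) × Bool} (h : triAdj (rtd111P v) (rtd111E e)) : v = e.1 ∨ v = rswEnd e := by
  obtain ⟨⟨x, y⟩, b⟩ := e
  obtain ⟨x', y'⟩ := v
  rw [tsc_adj_iff] at h
  cases b <;> simp [rtd111P, rtd111E, rtd111_end_f, rtd111_end_t] at h ⊢ <;> omega

theorem rtd111_adj_EE {e e' : (ℤ × ℤ) × Bool} (h : triAdj (rtd111E e) (rtd111E e')) :
    e.1 = e'.1 ∨ (rswCo e = rswCo e' ∧ rswEnd e = rswEnd e') := by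
  obtain ⟨⟨x, y⟩, b⟩ := e
  obtain ⟨⟨x', y'⟩, b'⟩ := e'
  rw [tsc_adj_iff] at h
  cases b <;> cases b' <;> simp [rtd111E, rtd111_co_f, rtd111_co_t, rtd111_end_f, rtd111_end_t] at h ⊢ <;> omega

theorem rtd111_adj_F1 (e : (ℤ × ℤ) × Bool) : triAdj (rtd111F e.1) (rtd111E e) := by
  obtain ⟨⟨x, y⟩, b⟩ := e
  rw [tsc_adj_iff]
  cases b <;> simp [rtd111F, rtd111E] <;> omega

theorem rtd111_adj_F2 (e : (ℤ × ℤ) × Bool) : triAdj (rtd111F (rswCo e)) (rtd111E e) := by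
  obtain ⟨⟨x, y⟩, b⟩ := e
  rw [tsc_adj_iff]
  cases b <;> simp [rtd111F, rtd111E, rtd111_co_f, rtd111_co_t] <;> omega

theorem rtd111_adj_P1 (e : (ℤ × ℤ) × Bool) : triAdj (rtd111P e.1) (rtd111E e) := by
  obtain ⟨⟨x, y⟩, b⟩ := e
  rw [tsc_adj_iff]
  cases b <;> simp [rtd111P, rtd111E] <;> omega

theorem rtd111_adj_P2 (e : (ℤ × ℤ) × Bool) : triAdj (rtd111P (rswEnd e)) (rtd111E e) := by
  obtain ⟨⟨x, y⟩, b⟩ := e
  rw [tsc_adj_iff]
  cases b <;> simp [rtd111P, rtd111E, rtd111_end_f, rtd111_end_t] <;> omega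

/-! ## 3. the white dictionary: dual chains of faces = white paths -/

/-- one step of a dual path inside the set of faces `F` which crosses an edge that is not in `G` (`RswStep F a ω = Rtd111WStep ↑F (RswGood a ω)` by `Iff.rfl`) -/
def Rtd111WStep (F : Set (ℤ × ℤ)) (G : (ℤ × ℤ) × Bool → Prop) (f g : ℤ × ℤ) : Prop :=
  f ∈ F ∧ g ∈ F ∧ ∃ e, ((f = e.1 ∧ g = rswCo e) ∨ (g = e.1 ∧ f = rswCo e)) ∧ ¬ G e

theorem rtd111_step_iff (F : Finset (ℤ × ℤ)) (a : Bool) (ω : RswCfg) (f g : ℤ × ℤ) :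
    RswStep F a ω f g ↔ Rtd111WStep (↑F : Set (ℤ × ℤ)) (RswGood a ω) f g := Iff.rfl

/-- the white points: the faces of `F` and the edges not in `G` with both faces in `F` -/
def rtd111Wh (F : Set (ℤ × ℤ)) (G : (ℤ × ℤ) × Bool → Prop) : Set (ℤ × ℤ) :=
  {p | (∃ f ∈ F, p = rtd111F f) ∨ (∃ e : (ℤ × ℤ) × Bool, e.1 ∈ F ∧ rswCo e ∈ F ∧ ¬ G e ∧ p = rtd111E e)}

theorem rtd111_F_mem_Wh {F : Set (ℤ × ℤ)} {G : (ℤ × ℤ) × Bool → Prop} {f : ℤ × ℤ} : rtd111F f ∈ rtd111Wh F G ↔ f ∈ F := by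
  constructor
  · rintro (⟨g, hg, h⟩ | ⟨e, _, _, _, h⟩)
    · rwa [rtd111_F_inj h]
    · exact absurd h (rtd111_F_ne_E f e)
  · intro h
    exact Or.inl ⟨f, h, rfl⟩

theorem rtd111_E_mem_Wh {F : Set (ℤ × ℤ)} {G : (ℤ × ℤ) × Bool → Prop} {e : (ℤ × ℤ) × Bool} :
    rtd111E e ∈ rtd111Wh F G ↔ e.1 ∈ F ∧ rswCo e ∈ F ∧ ¬ G e := by
  constructor
  · rintro (⟨g, hg, h⟩ | ⟨e', h1, h2, h3, h⟩)
    · exact absurd h.symm (rtd111_F_ne_E g e)
    · rw [rtd111_E_inj h]; exact ⟨h1, h2, h3⟩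
  · rintro ⟨h1, h2, h3⟩
    exact Or.inr ⟨e, h1, h2, h3, rfl⟩

theorem rtd111_P_not_mem_Wh {F : Set (ℤ × ℤ)} {G : (ℤ × ℤ) × Bool → Prop} (v : ℤ × ℤ) : rtd111P v ∉ rtd111Wh F G := by
  rintro (⟨g, hg, h⟩ | ⟨e', h1, h2, h3, h⟩)
  · exact rtd111_P_ne_F v g h
  · exact rtd111_P_ne_E v e' h

/-- `g` is a face of the refined point `x` -/
def Rtd111Face (x g : ℤ × ℤ) : Prop := x = rtd111F g ∨ ∃ e, x = rtd111E e ∧ (g = e.1 ∨ g = rswCo e)

theorem rtd111_wstep_symm {F : Set (ℤ × ℤ)} {G : (ℤ × ℤ) × Bool → Prop} {f g : ℤ × ℤ} (h : Rtd111WStep F G f g) : Rtd111WStep F G g f := by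
  obtain ⟨h1, h2, e, h3, h4⟩ := h
  exact ⟨h2, h1, e, h3.symm, h4⟩

/-- a white path projects to a dual chain: every face of every point of the path is reached -/
theorem rtd111_white_proj {F : Set (ℤ × ℤ)} {G : (ℤ × ℤ) × Bool → Prop} {f x : ℤ × ℤ}
    (h : TscR tscG (rtd111Wh F G) (rtd111F f) x) : ∀ g, Rtd111Face x g → ReflTransGen (Rtd111WStep F G) f g := by
  induction h with
  | refl =>
    rintro g (hg | ⟨e, he, _⟩)
    · rw [rtd111_F_inj hg]
    · exact absurd he (rtd111_F_ne_E f e)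
  | @tail x y _ hxy ih =>
    obtain ⟨hadj, hx, hy⟩ := hxy
    have hadj' : triAdj x y := hadj
    rcases hy with ⟨g0, hg0, rfl⟩ | ⟨e', h1, h2, h3, rfl⟩
    · -- `y` is a face
      rintro g (hg | ⟨e, he, _⟩)
      · rw [← rtd111_F_inj hg]
        rcases hx with ⟨f', _, rfl⟩ | ⟨e, _, _, _, rfl⟩
        · exact absurd hadj' (rtd111_adj_FF f' g0)
        · exact ih g0 (Or.inr ⟨e, rfl, rtd111_adj_FE (rtd111_adj_symm hadj')⟩)
      · exact absurd he (rtd111_F_ne_E g0 e)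
    · -- `y` is an edge
      have hst : Rtd111WStep F G e'.1 (rswCo e') := ⟨h1, h2, e', Or.inl ⟨rfl, rfl⟩, h3⟩
      have key : ReflTransGen (Rtd111WStep F G) f e'.1 ∨ ReflTransGen (Rtd111WStep F G) f (rswCo e') := by
        rcases hx with ⟨f', _, rfl⟩ | ⟨e, _, _, _, rfl⟩
        · rcases rtd111_adj_FE hadj' with h | h
          · exact Or.inl (h ▸ ih f' (Or.inl rfl))
          · exact Or.inr (h ▸ ih f' (Or.inl rfl))
        · rcases rtd111_adj_EE hadj' with h | ⟨h, _⟩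
          · exact Or.inl (h ▸ ih e.1 (Or.inr ⟨e, rfl, Or.inl rfl⟩))
          · exact Or.inr (h ▸ ih (rswCo e) (Or.inr ⟨e, rfl, Or.inr rfl⟩))
      have both : ReflTransGen (Rtd111WStep F G) f e'.1 ∧ ReflTransGen (Rtd111WStep F G) f (rswCo e') := by
        rcases key with k | k
        · exact ⟨k, k.tail hst⟩
        · exact ⟨k.tail (rtd111_wstep_symm hst), k⟩
      rintro g (hg | ⟨e, he, hge⟩)
      · exact absurd hg.symm (rtd111_F_ne_E g e')
      · rw [← rtd111_E_inj he] at hge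
        rcases hge with rfl | rfl
        · exact both.1
        · exact both.2

theorem rtd111_white_lift_step {F : Set (ℤ × ℤ)} {G : (ℤ × ℤ) × Bool → Prop} {f g : ℤ × ℤ} (h : Rtd111WStep F G f g) :
    TscR tscG (rtd111Wh F G) (rtd111F f) (rtd111F g) := by
  obtain ⟨hf, hg, e, he, hG⟩ := h
  have hfW : rtd111F f ∈ rtd111Wh F G := rtd111_F_mem_Wh.2 hf
  have hgW : rtd111F g ∈ rtd111Wh F G := rtd111_F_mem_Wh.2 hg
  rcases he with ⟨rfl, rfl⟩ | ⟨rfl, rfl⟩
  · have heW : rtd111E e ∈ rtd111Wh F G := rtd111_E_mem_Wh.2 ⟨hf, hg, hG⟩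
    exact (tsc_R_step (G := tscG) (rtd111_adj_F1 e) hfW heW).trans (tsc_R_step (G := tscG) (rtd111_adj_symm (rtd111_adj_F2 e)) heW hgW)
  · have heW : rtd111E e ∈ rtd111Wh F G := rtd111_E_mem_Wh.2 ⟨hg, hf, hG⟩
    exact (tsc_R_step (G := tscG) (rtd111_adj_F2 e) hfW heW).trans (tsc_R_step (G := tscG) (rtd111_adj_symm (rtd111_adj_F1 e)) heW hgW)

/-- **WHITE DICTIONARY**: dual chains of faces inside `F` crossing only edges not in `G` = paths of the triangular lattice inside the white set -/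
theorem rtd111_white_iff {F : Set (ℤ × ℤ)} {G : (ℤ × ℤ) × Bool → Prop} {f g : ℤ × ℤ} :
    ReflTransGen (Rtd111WStep F G) f g ↔ TscR tscG (rtd111Wh F G) (rtd111F f) (rtd111F g) := by
  constructor
  · intro h
    induction h with
    | refl => exact ReflTransGen.refl
    | tail _ hs ih => exact ih.trans (rtd111_white_lift_step hs)
  · intro h
    exact rtd111_white_proj h g (Or.inl rfl)

/-- the same in the vocabulary of `Defs/RSW` -/
theorem rtd111_rsw_iff (F : Finset (ℤ × ℤ)) (a : Bool) (ω : RswCfg) (f g : ℤ × ℤ) :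
    ReflTransGen (RswStep F a ω) f g ↔ TscR tscG (rtd111Wh (↑F : Set (ℤ × ℤ)) (RswGood a ω)) (rtd111F f) (rtd111F g) :=
  rtd111_white_iff (F := (↑F : Set (ℤ × ℤ))) (G := RswGood a ω)

theorem rtd111_sep_iff (F : Finset (ℤ × ℤ)) (a : Bool) (ω : RswCfg) (A B : Finset (ℤ × ℤ)) :
    RswSep F a ω A B ↔ ∀ f ∈ A, ∀ g ∈ B, ¬ TscR tscG (rtd111Wh (↑F : Set (ℤ × ℤ)) (RswGood a ω)) (rtd111F f) (rtd111F g) := by
  show (∀ f ∈ A, ∀ g ∈ B, ¬ ReflTransGen (RswStep F a ω) f g) ↔ _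
  simp only [rtd111_rsw_iff]

/-! ## 4. the black dictionary: chains of good edges = black paths -/

/-- one step along an edge of `G` -/
def Rtd111BStep (G : (ℤ × ℤ) × Bool → Prop) (u v : ℤ × ℤ) : Prop :=
  ∃ e, G e ∧ ((u = e.1 ∧ v = rswEnd e) ∨ (v = e.1 ∧ u = rswEnd e))

/-- the black points: all vertices and the edges of `G` -/
def rtd111Bl (G : (ℤ × ℤ) × Bool → Prop) : Set (ℤ × ℤ) :=
  {p | (∃ v, p = rtd111P v) ∨ (∃ e : (ℤ × ℤ) × Bool, G e ∧ p = rtd111E e)}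

theorem rtd111_P_mem_Bl {G : (ℤ × ℤ) × Bool → Prop} (v : ℤ × ℤ) : rtd111P v ∈ rtd111Bl G := Or.inl ⟨v, rfl⟩

theorem rtd111_E_mem_Bl {G : (ℤ × ℤ) × Bool → Prop} {e : (ℤ × ℤ) × Bool} : rtd111E e ∈ rtd111Bl G ↔ G e := by
  constructor
  · rintro (⟨v, h⟩ | ⟨e', h1, h⟩)
    · exact absurd h.symm (rtd111_P_ne_E v e)
    · rwa [rtd111_E_inj h]
  · intro h
    exact Or.inr ⟨e, h, rfl⟩

theorem rtd111_F_not_mem_Bl {G : (ℤ × ℤ) × Bool → Prop} (f : ℤ × ℤ) : rtd111F f ∉ rtd111Bl G := by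
  rintro (⟨v, h⟩ | ⟨e', h1, h⟩)
  · exact rtd111_P_ne_F v f h.symm
  · exact rtd111_F_ne_E f e' h

/-- white and black are disjoint -/
theorem rtd111_Wh_Bl {F : Set (ℤ × ℤ)} {G : (ℤ × ℤ) × Bool → Prop} {p : ℤ × ℤ} (h1 : p ∈ rtd111Wh F G) (h2 : p ∈ rtd111Bl G) : False := by
  rcases h1 with ⟨f, _, rfl⟩ | ⟨e, _, _, h3, rfl⟩
  · exact rtd111_F_not_mem_Bl f h2
  · exact h3 (rtd111_E_mem_Bl.1 h2)

/-- `w` is a vertex of the refined point `x` -/
def Rtd111Vert (x w : ℤ × ℤ) : Prop := x = rtd111P w ∨ ∃ e, x = rtd111E e ∧ (w = e.1 ∨ w = rswEnd e)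

theorem rtd111_bstep_symm {G : (ℤ × ℤ) × Bool → Prop} {f g : ℤ × ℤ} (h : Rtd111BStep G f g) : Rtd111BStep G g f := by
  obtain ⟨e, h3, h4⟩ := h
  exact ⟨e, h3, h4.symm⟩

/-- a black path inside any region `R` projects to a chain of edges of `G` whose points lie in `R` -/
theorem rtd111_black_proj {R : Set (ℤ × ℤ)} {G : (ℤ × ℤ) × Bool → Prop} {x0 x : ℤ × ℤ}
    (h : TscR tscG (R ∩ rtd111Bl G) x0 x) {u : ℤ × ℤ}
    (h0 : ∀ w, Rtd111Vert x0 w → ReflTransGen (Rtd111BStep (fun e => G e ∧ rtd111E e ∈ R)) u w) :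
    ∀ w, Rtd111Vert x w → ReflTransGen (Rtd111BStep (fun e => G e ∧ rtd111E e ∈ R)) u w := by
  induction h with
  | refl => exact h0
  | @tail x y _ hxy ih =>
    obtain ⟨hadj, ⟨hxR, hx⟩, ⟨hyR, hy⟩⟩ := hxy
    have hadj' : triAdj x y := hadj
    rcases hy with ⟨g0, rfl⟩ | ⟨e', h1, rfl⟩
    · rintro g (hg | ⟨e, he, _⟩)
      · rw [← rtd111_P_inj hg]
        rcases hx with ⟨f', rfl⟩ | ⟨e, _, rfl⟩
        · exact absurd hadj' (rtd111_adj_PP f' g0)
        · exact ih g0 (Or.inr ⟨e, rfl, rtd111_adj_PE (rtd111_adj_symm hadj')⟩)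
      · exact absurd he (rtd111_P_ne_E g0 e)
    · have hst : Rtd111BStep (fun e => G e ∧ rtd111E e ∈ R) e'.1 (rswEnd e') := ⟨e', ⟨h1, hyR⟩, Or.inl ⟨rfl, rfl⟩⟩
      have key : ReflTransGen (Rtd111BStep (fun e => G e ∧ rtd111E e ∈ R)) u e'.1 ∨
          ReflTransGen (Rtd111BStep (fun e => G e ∧ rtd111E e ∈ R)) u (rswEnd e') := by
        rcases hx with ⟨f', rfl⟩ | ⟨e, _, rfl⟩
        · rcases rtd111_adj_PE hadj' with h | h
          · exact Or.inl (h ▸ ih f' (Or.inl rfl))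
          · exact Or.inr (h ▸ ih f' (Or.inl rfl))
        · rcases rtd111_adj_EE hadj' with h | ⟨_, h⟩
          · exact Or.inl (h ▸ ih e.1 (Or.inr ⟨e, rfl, Or.inl rfl⟩))
          · exact Or.inr (h ▸ ih (rswEnd e) (Or.inr ⟨e, rfl, Or.inr rfl⟩))
      have both : ReflTransGen (Rtd111BStep (fun e => G e ∧ rtd111E e ∈ R)) u e'.1 ∧
          ReflTransGen (Rtd111BStep (fun e => G e ∧ rtd111E e ∈ R)) u (rswEnd e') := by
        rcases key with k | k
        · exact ⟨k, k.tail hst⟩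
        · exact ⟨k.tail (rtd111_bstep_symm hst), k⟩
      rintro g (hg | ⟨e, he, hge⟩)
      · exact absurd hg.symm (rtd111_P_ne_E g e')
      · rw [← rtd111_E_inj he] at hge
        rcases hge with rfl | rfl
        · exact both.1
        · exact both.2

theorem rtd111_black_lift_step {G : (ℤ × ℤ) × Bool → Prop} {f g : ℤ × ℤ} (h : Rtd111BStep G f g) :
    TscR tscG (rtd111Bl G) (rtd111P f) (rtd111P g) := by
  obtain ⟨e, hG, he⟩ := h
  have heW : rtd111E e ∈ rtd111Bl G := rtd111_E_mem_Bl.2 hG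
  rcases he with ⟨rfl, rfl⟩ | ⟨rfl, rfl⟩
  · exact (tsc_R_step (G := tscG) (rtd111_adj_P1 e) (rtd111_P_mem_Bl _) heW).trans
      (tsc_R_step (G := tscG) (rtd111_adj_symm (rtd111_adj_P2 e)) heW (rtd111_P_mem_Bl _))
  · exact (tsc_R_step (G := tscG) (rtd111_adj_P2 e) (rtd111_P_mem_Bl _) heW).trans
      (tsc_R_step (G := tscG) (rtd111_adj_symm (rtd111_adj_P1 e)) heW (rtd111_P_mem_Bl _))

/-- **BLACK DICTIONARY**: chains of edges of `G` = paths of the triangular lattice inside the black set -/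
theorem rtd111_black_iff {G : (ℤ × ℤ) × Bool → Prop} {u v : ℤ × ℤ} :
    ReflTransGen (Rtd111BStep G) u v ↔ TscR tscG (rtd111Bl G) (rtd111P u) (rtd111P v) := by
  constructor
  · intro h
    induction h with
    | refl => exact ReflTransGen.refl
    | tail _ hs ih => exact ih.trans (rtd111_black_lift_step hs)
  · intro h
    have h' : TscR tscG (Set.univ ∩ rtd111Bl G) (rtd111P u) (rtd111P v) := by rwa [Set.univ_inter]
    have := rtd111_black_proj h' (u := u) (by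
      rintro w (hw | ⟨e, he, _⟩)
      · rw [rtd111_P_inj hw]
      · exact absurd he (rtd111_P_ne_E u e)) v (Or.inl rfl)
    refine ReflTransGen.mono (fun a b hab => ?_) _ _ this
    obtain ⟨e, ⟨h1, _⟩, h2⟩ := hab
    exact ⟨e, h1, h2⟩

/-! ## 5. regions which contain the bounding box of any two of their points (boxes, strips, half planes, the plane) -/

/-- `R` contains the bounding box of any two of its points -/
def Rtd111Rect (R : Set (ℤ × ℤ)) : Prop :=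
  ∀ p ∈ R, ∀ q ∈ R, ∀ z : ℤ × ℤ, min p.1 q.1 ≤ z.1 → z.1 ≤ max p.1 q.1 → min p.2 q.2 ≤ z.2 → z.2 ≤ max p.2 q.2 → z ∈ R

/-- the faces of a region -/
def rtd111FR (R : Set (ℤ × ℤ)) : Set (ℤ × ℤ) := {f | rtd111F f ∈ R}

/-- the edges of `G` with both faces in `F` -/
def Rtd111In (F : Set (ℤ × ℤ)) (G : (ℤ × ℤ) × Bool → Prop) (e : (ℤ × ℤ) × Bool) : Prop := G e ∧ e.1 ∈ F ∧ rswCo e ∈ F

theorem rtd111_rect_box (a b c d : ℤ) : Rtd111Rect (tscBox a b c d) := by
  intro p hp q hq z h1 h2 h3 h4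
  obtain ⟨p1, p2, p3, p4⟩ := hp
  obtain ⟨q1, q2, q3, q4⟩ := hq
  exact ⟨by omega, by omega, by omega, by omega⟩

theorem rtd111_rect_univ : Rtd111Rect Set.univ := fun _ _ _ _ _ _ _ _ _ => trivial

theorem rtd111_adj_EE_face {R : Set (ℤ × ℤ)} (hR : Rtd111Rect R) {e e' : (ℤ × ℤ) × Bool} (h : triAdj (rtd111E e) (rtd111E e'))
    (h1 : rtd111E e ∈ R) (h2 : rtd111E e' ∈ R) :
    (e.1 = e'.1 ∧ e.1 ∈ rtd111FR R) ∨ (rswCo e = rswCo e' ∧ rswCo e ∈ rtd111FR R) := by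
  obtain ⟨⟨x, y⟩, b⟩ := e
  obtain ⟨⟨x', y'⟩, b'⟩ := e'
  rw [tsc_adj_iff] at h
  cases b <;> cases b'
  · exfalso; simp only [rtd111_E_f] at h; omega
  · simp only [rtd111_E_f, rtd111_E_t] at h h1 h2
    rcases (by omega : (x' = x ∧ y' = y) ∨ (x' = x + 1 ∧ y' = y - 1)) with ⟨rfl, rfl⟩ | ⟨rfl, rfl⟩
    · left
      refine ⟨rfl, hR _ h1 _ h2 _ ?_ ?_ ?_ ?_⟩ <;> simp only [rtd111F] <;> omega
    · right
      refine ⟨by simp [rtd111_co_f, rtd111_co_t], hR _ h1 _ h2 _ ?_ ?_ ?_ ?_⟩ <;> simp only [rtd111F, rtd111_co_f] <;> omega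
  · simp only [rtd111_E_f, rtd111_E_t] at h h1 h2
    rcases (by omega : (x' = x ∧ y' = y) ∨ (x' = x - 1 ∧ y' = y + 1)) with ⟨rfl, rfl⟩ | ⟨rfl, rfl⟩
    · left
      refine ⟨rfl, hR _ h1 _ h2 _ ?_ ?_ ?_ ?_⟩ <;> simp only [rtd111F] <;> omega
    · right
      refine ⟨by simp [rtd111_co_f, rtd111_co_t], hR _ h1 _ h2 _ ?_ ?_ ?_ ?_⟩ <;> simp only [rtd111F, rtd111_co_t] <;> omega
  · exfalso; simp only [rtd111_E_t] at h; omega

/-- the point of an edge lies between the points of its two faces -/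
theorem rtd111_E_mem_of_faces {R : Set (ℤ × ℤ)} (hR : Rtd111Rect R) {e : (ℤ × ℤ) × Bool} (h1 : e.1 ∈ rtd111FR R) (h2 : rswCo e ∈ rtd111FR R) :
    rtd111E e ∈ R := by
  obtain ⟨⟨x, y⟩, b⟩ := e
  cases b
  · refine hR _ h1 _ h2 _ ?_ ?_ ?_ ?_ <;> simp only [rtd111F, rtd111_co_f, rtd111_E_f] <;> omega
  · refine hR _ h1 _ h2 _ ?_ ?_ ?_ ?_ <;> simp only [rtd111F, rtd111_co_t, rtd111_E_t] <;> omega

/-- **white projection in a region**: the white set is `R` minus the INTERIOR edges of `G` and the vertices (boundary edges are white dead ends) -/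
theorem rtd111_white_proj_R {R : Set (ℤ × ℤ)} (hR : Rtd111Rect R) {G : (ℤ × ℤ) × Bool → Prop} {x0 x f0 : ℤ × ℤ}
    (h : TscR tscG (R \ rtd111Bl (Rtd111In (rtd111FR R) G)) x0 x)
    (h0 : ∀ g ∈ rtd111FR R, Rtd111Face x0 g → ReflTransGen (Rtd111WStep (rtd111FR R) G) f0 g) :
    ∀ g ∈ rtd111FR R, Rtd111Face x g → ReflTransGen (Rtd111WStep (rtd111FR R) G) f0 g := by
  induction h with
  | refl => exact h0
  | @tail x y _ hxy ih =>
    obtain ⟨hadj, ⟨hxR, hxB⟩, ⟨hyR, hyB⟩⟩ := hxy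
    have hadj' : triAdj x y := hadj
    rcases rtd111_cases y with ⟨v, rfl⟩ | ⟨g0, rfl⟩ | ⟨e', rfl⟩
    · exact absurd (rtd111_P_mem_Bl v) hyB
    · rintro g hgR (hg | ⟨e, he, _⟩)
      · rw [← rtd111_F_inj hg] at hgR ⊢
        rcases rtd111_cases x with ⟨v, rfl⟩ | ⟨f', rfl⟩ | ⟨e, rfl⟩
        · exact absurd (rtd111_P_mem_Bl v) hxB
        · exact absurd hadj' (rtd111_adj_FF f' g0)
        · exact ih g0 hgR (Or.inr ⟨e, rfl, rtd111_adj_FE (rtd111_adj_symm hadj')⟩)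
      · exact absurd he (rtd111_F_ne_E g0 e)
    · have key : ∃ φ ∈ rtd111FR R, (φ = e'.1 ∨ φ = rswCo e') ∧ ReflTransGen (Rtd111WStep (rtd111FR R) G) f0 φ := by
        rcases rtd111_cases x with ⟨v, rfl⟩ | ⟨f', rfl⟩ | ⟨e, rfl⟩
        · exact absurd (rtd111_P_mem_Bl v) hxB
        · exact ⟨f', hxR, rtd111_adj_FE hadj', ih f' hxR (Or.inl rfl)⟩
        · rcases rtd111_adj_EE_face hR hadj' hxR hyR with ⟨h1, h2⟩ | ⟨h1, h2⟩
          · exact ⟨e.1, h2, Or.inl h1, ih e.1 h2 (Or.inr ⟨e, rfl, Or.inl rfl⟩)⟩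
          · exact ⟨rswCo e, h2, Or.inr h1, ih (rswCo e) h2 (Or.inr ⟨e, rfl, Or.inr rfl⟩)⟩
      obtain ⟨φ, hφR, hφ, hreach⟩ := key
      rintro g hgR (hg | ⟨e, he, hge⟩)
      · exact absurd hg.symm (rtd111_F_ne_E g e')
      · rw [← rtd111_E_inj he] at hge
        have hnG : e'.1 ∈ rtd111FR R → rswCo e' ∈ rtd111FR R → ¬ G e' := fun a1 a2 a3 => hyB (rtd111_E_mem_Bl.2 ⟨a3, a1, a2⟩)
        rcases hφ with rfl | rfl <;> rcases hge with rfl | rfl
        · exact hreach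
        · exact hreach.tail ⟨hφR, hgR, e', Or.inl ⟨rfl, rfl⟩, hnG hφR hgR⟩
        · exact hreach.tail ⟨hφR, hgR, e', Or.inr ⟨rfl, rfl⟩, hnG hgR hφR⟩
        · exact hreach

theorem rtd111_white_lift_R {R : Set (ℤ × ℤ)} (hR : Rtd111Rect R) {G : (ℤ × ℤ) × Bool → Prop} {f g : ℤ × ℤ}
    (h : ReflTransGen (Rtd111WStep (rtd111FR R) G) f g) :
    TscR tscG (R \ rtd111Bl (Rtd111In (rtd111FR R) G)) (rtd111F f) (rtd111F g) := by
  induction h with
  | refl => exact ReflTransGen.refl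
  | @tail x y _ hs ih =>
    refine ih.trans ?_
    obtain ⟨hf, hg, e, he, hG⟩ := hs
    have hfW : rtd111F x ∈ R \ rtd111Bl (Rtd111In (rtd111FR R) G) := ⟨hf, rtd111_F_not_mem_Bl x⟩
    have hgW : rtd111F y ∈ R \ rtd111Bl (Rtd111In (rtd111FR R) G) := ⟨hg, rtd111_F_not_mem_Bl y⟩
    have hnB : rtd111E e ∉ rtd111Bl (Rtd111In (rtd111FR R) G) := fun hh => hG (rtd111_E_mem_Bl.1 hh).1
    rcases he with ⟨rfl, rfl⟩ | ⟨rfl, rfl⟩
    · have heW : rtd111E e ∈ R \ rtd111Bl (Rtd111In (rtd111FR R) G) := ⟨rtd111_E_mem_of_faces hR hf hg, hnB⟩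
      exact (tsc_R_step (G := tscG) (rtd111_adj_F1 e) hfW heW).trans (tsc_R_step (G := tscG) (rtd111_adj_symm (rtd111_adj_F2 e)) heW hgW)
    · have heW : rtd111E e ∈ R \ rtd111Bl (Rtd111In (rtd111FR R) G) := ⟨rtd111_E_mem_of_faces hR hg hf, hnB⟩
      exact (tsc_R_step (G := tscG) (rtd111_adj_F2 e) hfW heW).trans (tsc_R_step (G := tscG) (rtd111_adj_symm (rtd111_adj_F1 e)) heW hgW)

/-! ## 6. BOX DUALITY (R4a): a rectangle of faces `[a, b) × [c, d)` -/

/-- the rectangle of faces `[a, b) × [c, d)` -/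
def rtd111FB (a b c d : ℤ) : Set (ℤ × ℤ) := {f | a ≤ f.1 ∧ f.1 < b ∧ c ≤ f.2 ∧ f.2 < d}

theorem rtd111_mem_FB {a b c d : ℤ} {f : ℤ × ℤ} : f ∈ rtd111FB a b c d ↔ a ≤ f.1 ∧ f.1 < b ∧ c ≤ f.2 ∧ f.2 < d := Iff.rfl

theorem rtd111_mem_box {a b c d : ℤ} {p : ℤ × ℤ} : p ∈ tscBox a b c d ↔ a ≤ p.1 ∧ p.1 ≤ b ∧ c ≤ p.2 ∧ p.2 ≤ d := Iff.rfl

theorem rtd111_FR_box (a b c d : ℤ) : rtd111FR (tscBox (2 * a) (2 * b) (2 * c) (2 * d)) = rtd111FB a b c d := by
  ext f
  show rtd111F f ∈ tscBox (2 * a) (2 * b) (2 * c) (2 * d) ↔ _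
  rw [rtd111_mem_box, rtd111_mem_FB]
  simp only [rtd111F]
  omega

/-- an interior edge of the rectangle: its point and the points of its two ends lie in the closed box -/
theorem rtd111_in_box {a b c d : ℤ} {e : (ℤ × ℤ) × Bool} (h1 : e.1 ∈ rtd111FB a b c d) (h2 : rswCo e ∈ rtd111FB a b c d) :
    rtd111E e ∈ tscBox (2 * a) (2 * b) (2 * c) (2 * d) ∧ rtd111P e.1 ∈ tscBox (2 * a) (2 * b) (2 * c) (2 * d) ∧
      rtd111P (rswEnd e) ∈ tscBox (2 * a) (2 * b) (2 * c) (2 * d) := by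
  obtain ⟨⟨x, y⟩, b'⟩ := e
  cases b'
  · simp only [rtd111_co_f, rtd111_end_f, rtd111_E_f, rtd111_mem_FB, rtd111_mem_box, rtd111P] at *
    omega
  · simp only [rtd111_co_t, rtd111_end_t, rtd111_E_t, rtd111_mem_FB, rtd111_mem_box, rtd111P] at *
    omega

/-- lift of a chain of interior edges into the closed box -/
theorem rtd111_black_lift_box {a b c d : ℤ} {G : (ℤ × ℤ) × Bool → Prop} {u v : ℤ × ℤ}
    (h : ReflTransGen (Rtd111BStep (Rtd111In (rtd111FB a b c d) G)) u v) :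
    u = v ∨ (rtd111P u ∈ tscBox (2 * a) (2 * b) (2 * c) (2 * d) ∧
      TscR tscG (tscBox (2 * a) (2 * b) (2 * c) (2 * d) ∩ rtd111Bl (Rtd111In (rtd111FB a b c d) G)) (rtd111P u) (rtd111P v)) := by
  induction h with
  | refl => exact Or.inl rfl
  | @tail x y _ hs ih =>
    right
    obtain ⟨e, hG, he⟩ := hs
    obtain ⟨b1, b2, b3⟩ := rtd111_in_box hG.2.1 hG.2.2
    have heW : rtd111E e ∈ tscBox (2 * a) (2 * b) (2 * c) (2 * d) ∩ rtd111Bl (Rtd111In (rtd111FB a b c d) G) := ⟨b1, rtd111_E_mem_Bl.2 hG⟩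
    have h1W : rtd111P e.1 ∈ tscBox (2 * a) (2 * b) (2 * c) (2 * d) ∩ rtd111Bl (Rtd111In (rtd111FB a b c d) G) := ⟨b2, rtd111_P_mem_Bl _⟩
    have h2W : rtd111P (rswEnd e) ∈ tscBox (2 * a) (2 * b) (2 * c) (2 * d) ∩ rtd111Bl (Rtd111In (rtd111FB a b c d) G) := ⟨b3, rtd111_P_mem_Bl _⟩
    have hxy : rtd111P x ∈ tscBox (2 * a) (2 * b) (2 * c) (2 * d) ∧
        TscR tscG (tscBox (2 * a) (2 * b) (2 * c) (2 * d) ∩ rtd111Bl (Rtd111In (rtd111FB a b c d) G)) (rtd111P x) (rtd111P y) := by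
      rcases he with ⟨rfl, rfl⟩ | ⟨rfl, rfl⟩
      · exact ⟨b2, (tsc_R_step (G := tscG) (rtd111_adj_P1 e) h1W heW).trans (tsc_R_step (G := tscG) (rtd111_adj_symm (rtd111_adj_P2 e)) heW h2W)⟩
      · exact ⟨b3, (tsc_R_step (G := tscG) (rtd111_adj_P2 e) h2W heW).trans (tsc_R_step (G := tscG) (rtd111_adj_symm (rtd111_adj_P1 e)) heW h1W)⟩
    rcases ih with rfl | ⟨i1, i2⟩
    · exact hxy
    · exact ⟨i1, i2.trans hxy.2⟩

theorem rtd111_black_proj_box {a b c d : ℤ} {G : (ℤ × ℤ) × Bool → Prop} {u v : ℤ × ℤ}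
    (h : TscR tscG (tscBox (2 * a) (2 * b) (2 * c) (2 * d) ∩ rtd111Bl (Rtd111In (rtd111FB a b c d) G)) (rtd111P u) (rtd111P v)) :
    ReflTransGen (Rtd111BStep (Rtd111In (rtd111FB a b c d) G)) u v := by
  have := rtd111_black_proj h (u := u) (by
    rintro w (hw | ⟨e, he, _⟩)
    · rw [rtd111_P_inj hw]
    · exact absurd he (rtd111_P_ne_E u e)) v (Or.inl rfl)
  refine ReflTransGen.mono (fun a b hab => ?_) _ _ this
  obtain ⟨e, ⟨h1, _⟩, h2⟩ := hab
  exact ⟨e, h1, h2⟩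

theorem rtd111_wchain_mem {F : Set (ℤ × ℤ)} {G : (ℤ × ℤ) × Bool → Prop} {f g : ℤ × ℤ} (h : ReflTransGen (Rtd111WStep F G) f g) (hf : f ∈ F) : g ∈ F := by
  induction h with
  | refl => exact hf
  | tail _ hs _ => exact hs.2.1

/-- (T1) black left-right -/
theorem rtd111_T1 {a b c d : ℤ} (hab : a < b) (G : (ℤ × ℤ) × Bool → Prop) :
    (∃ u v : ℤ × ℤ, u.1 = a ∧ v.1 = b ∧ ReflTransGen (Rtd111BStep (Rtd111In (rtd111FB a b c d) G)) u v) ↔
    (∃ l r, l ∈ tscBox (2 * a) (2 * b) (2 * c) (2 * d) ∩ rtd111Bl (Rtd111In (rtd111FB a b c d) G) ∧ l.1 = 2 * a ∧ r.1 = 2 * b ∧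
      TscR tscG (tscBox (2 * a) (2 * b) (2 * c) (2 * d) ∩ rtd111Bl (Rtd111In (rtd111FB a b c d) G)) l r) := by
  constructor
  · rintro ⟨u, v, hu, hv, h⟩
    rcases rtd111_black_lift_box h with rfl | ⟨h1, h2⟩
    · omega
    · exact ⟨rtd111P u, rtd111P v, ⟨h1, rtd111_P_mem_Bl u⟩, by simp [rtd111P, hu], by simp [rtd111P, hv], h2⟩
  · rintro ⟨l, r, hl, hl1, hr1, h⟩
    have hr := tsc_R_mem h hl
    have key : ∀ z ∈ tscBox (2 * a) (2 * b) (2 * c) (2 * d) ∩ rtd111Bl (Rtd111In (rtd111FB a b c d) G), (z.1 = 2 * a ∨ z.1 = 2 * b) → ∃ w, z = rtd111P w := by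
      rintro z ⟨_, ⟨w, hw⟩ | ⟨e, ⟨_, e1, e2⟩, rfl⟩⟩ hz
      · exact ⟨w, hw⟩
      · exfalso
        obtain ⟨⟨x, y⟩, b'⟩ := e
        cases b'
        · simp only [rtd111_E_f] at hz; omega
        · simp only [rtd111_E_t, rtd111_co_t, rtd111_mem_FB] at hz e1 e2; omega
    obtain ⟨u, rfl⟩ := key l hl (Or.inl hl1)
    obtain ⟨v, rfl⟩ := key r hr (Or.inr hr1)
    refine ⟨u, v, ?_, ?_, rtd111_black_proj_box h⟩
    · simp only [rtd111P] at hl1; omega
    · simp only [rtd111P] at hr1; omega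

/-- (T3) black bottom-top -/
theorem rtd111_T3 {a b c d : ℤ} (hcd : c < d) (G : (ℤ × ℤ) × Bool → Prop) :
    (∃ u v : ℤ × ℤ, u.2 = c ∧ v.2 = d ∧ ReflTransGen (Rtd111BStep (Rtd111In (rtd111FB a b c d) G)) u v) ↔
    (∃ l r, l ∈ tscBox (2 * a) (2 * b) (2 * c) (2 * d) ∩ rtd111Bl (Rtd111In (rtd111FB a b c d) G) ∧ l.2 = 2 * c ∧ r.2 = 2 * d ∧
      TscR tscG (tscBox (2 * a) (2 * b) (2 * c) (2 * d) ∩ rtd111Bl (Rtd111In (rtd111FB a b c d) G)) l r) := by
  constructor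
  · rintro ⟨u, v, hu, hv, h⟩
    rcases rtd111_black_lift_box h with rfl | ⟨h1, h2⟩
    · omega
    · exact ⟨rtd111P u, rtd111P v, ⟨h1, rtd111_P_mem_Bl u⟩, by simp [rtd111P, hu], by simp [rtd111P, hv], h2⟩
  · rintro ⟨l, r, hl, hl1, hr1, h⟩
    have hr := tsc_R_mem h hl
    have key : ∀ z ∈ tscBox (2 * a) (2 * b) (2 * c) (2 * d) ∩ rtd111Bl (Rtd111In (rtd111FB a b c d) G), (z.2 = 2 * c ∨ z.2 = 2 * d) → ∃ w, z = rtd111P w := by
      rintro z ⟨_, ⟨w, hw⟩ | ⟨e, ⟨_, e1, e2⟩, rfl⟩⟩ hz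
      · exact ⟨w, hw⟩
      · exfalso
        obtain ⟨⟨x, y⟩, b'⟩ := e
        cases b'
        · simp only [rtd111_E_f, rtd111_co_f, rtd111_mem_FB] at hz e1 e2; omega
        · simp only [rtd111_E_t] at hz; omega
    obtain ⟨u, rfl⟩ := key l hl (Or.inl hl1)
    obtain ⟨v, rfl⟩ := key r hr (Or.inr hr1)
    refine ⟨u, v, ?_, ?_, rtd111_black_proj_box h⟩
    · simp only [rtd111P] at hl1; omega
    · simp only [rtd111P] at hr1; omega

/-- (T2) white bottom-top -/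
theorem rtd111_T2 {a b c d : ℤ} (hcd : c < d) (G : (ℤ × ℤ) × Bool → Prop) :
    (∃ f g : ℤ × ℤ, f ∈ rtd111FB a b c d ∧ f.2 = c ∧ g.2 = d - 1 ∧ ReflTransGen (Rtd111WStep (rtd111FB a b c d) G) f g) ↔
    (∃ u v, u ∈ tscBox (2 * a) (2 * b) (2 * c) (2 * d) \ rtd111Bl (Rtd111In (rtd111FB a b c d) G) ∧ u.2 = 2 * c ∧ v.2 = 2 * d ∧
      TscR tscG (tscBox (2 * a) (2 * b) (2 * c) (2 * d) \ rtd111Bl (Rtd111In (rtd111FB a b c d) G)) u v) := by
  have hR := rtd111_rect_box (2 * a) (2 * b) (2 * c) (2 * d)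
  have hFR := rtd111_FR_box a b c d
  constructor
  · rintro ⟨f, g, hf, hf2, hg2, h⟩
    have hg := rtd111_wchain_mem h hf
    have hp := rtd111_white_lift_R hR (G := G) (f := f) (g := g) (by rw [hFR]; exact h)
    rw [hFR] at hp
    obtain ⟨f1, f2, f3, f4⟩ := hf
    obtain ⟨g1, g2, g3, g4⟩ := hg
    have hu : rtd111E ((f.1, c), false) ∈ tscBox (2 * a) (2 * b) (2 * c) (2 * d) \ rtd111Bl (Rtd111In (rtd111FB a b c d) G) := by
      refine ⟨?_, fun hh => ?_⟩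
      · rw [rtd111_E_f, rtd111_mem_box]; simp only; omega
      · have := (rtd111_E_mem_Bl.1 hh).2.2
        rw [rtd111_co_f, rtd111_mem_FB] at this
        simp only at this; omega
    have hv : rtd111E ((g.1, d), false) ∈ tscBox (2 * a) (2 * b) (2 * c) (2 * d) \ rtd111Bl (Rtd111In (rtd111FB a b c d) G) := by
      refine ⟨?_, fun hh => ?_⟩
      · rw [rtd111_E_f, rtd111_mem_box]; simp only; omega
      · have := (rtd111_E_mem_Bl.1 hh).2.1
        rw [rtd111_mem_FB] at this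
        simp only at this; omega
    have hfW : rtd111F f ∈ tscBox (2 * a) (2 * b) (2 * c) (2 * d) \ rtd111Bl (Rtd111In (rtd111FB a b c d) G) := by
      refine ⟨?_, rtd111_F_not_mem_Bl f⟩
      rw [rtd111_mem_box]; simp only [rtd111F]; omega
    have hgW : rtd111F g ∈ tscBox (2 * a) (2 * b) (2 * c) (2 * d) \ rtd111Bl (Rtd111In (rtd111FB a b c d) G) := by
      refine ⟨?_, rtd111_F_not_mem_Bl g⟩
      rw [rtd111_mem_box]; simp only [rtd111F]; omega
    have a1 : triAdj (rtd111E ((f.1, c), false)) (rtd111F f) := by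
      rw [tsc_adj_iff, rtd111_E_f]; simp only [rtd111F, true_and]; omega
    have a2 : triAdj (rtd111F g) (rtd111E ((g.1, d), false)) := by
      rw [tsc_adj_iff, rtd111_E_f]; simp only [rtd111F, true_and]; omega
    exact ⟨_, _, hu, by rw [rtd111_E_f], by rw [rtd111_E_f],
      (tsc_R_step (G := tscG) a1 hu hfW).trans (hp.trans (tsc_R_step (G := tscG) a2 hgW hv))⟩
  · rintro ⟨u, v, hu, hu2, hv2, h⟩
    have hv := tsc_R_mem h hu
    have key : ∀ z ∈ tscBox (2 * a) (2 * b) (2 * c) (2 * d) \ rtd111Bl (Rtd111In (rtd111FB a b c d) G), ∀ k : ℤ, z.2 = 2 * k →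
        ∃ x, a ≤ x ∧ x < b ∧ z = rtd111E ((x, k), false) := by
      rintro z ⟨hzB, hzP⟩ k hz
      rcases rtd111_cases z with ⟨w, rfl⟩ | ⟨w, rfl⟩ | ⟨⟨⟨x, y⟩, b'⟩, rfl⟩
      · exact absurd (rtd111_P_mem_Bl w) hzP
      · simp only [rtd111F] at hz; omega
      · cases b'
        · rw [rtd111_E_f] at hz hzB
          rw [rtd111_mem_box] at hzB
          simp only at hz hzB
          have : y = k := by omega
          subst this
          exact ⟨x, by omega, by omega, rfl⟩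
        · rw [rtd111_E_t] at hz; simp only at hz; omega
    obtain ⟨x, hx1, hx2, rfl⟩ := key u hu c hu2
    obtain ⟨x', hx1', hx2', rfl⟩ := key v hv d hv2
    have hproj := rtd111_white_proj_R hR (G := G) (f0 := (x, c)) (by rw [hFR]; exact h) (by
      rw [hFR]
      rintro g hg (hg' | ⟨e, he, hge⟩)
      · exact absurd hg'.symm (rtd111_F_ne_E g _)
      · rw [← rtd111_E_inj he] at hge
        rcases hge with rfl | rfl
        · exact ReflTransGen.refl
        · rw [rtd111_co_f, rtd111_mem_FB] at hg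
          simp only at hg; omega)
    rw [hFR] at hproj
    refine ⟨(x, c), (x', d - 1), ⟨hx1, hx2, le_refl c, hcd⟩, rfl, rfl, hproj (x', d - 1) ⟨hx1', hx2', by simp only; omega, by simp only; omega⟩ ?_⟩
    exact Or.inr ⟨((x', d), false), rfl, Or.inr (rtd111_co_f x' d).symm⟩

/-- (T4) white left-right -/
theorem rtd111_T4 {a b c d : ℤ} (hab : a < b) (G : (ℤ × ℤ) × Bool → Prop) :
    (∃ f g : ℤ × ℤ, f ∈ rtd111FB a b c d ∧ f.1 = a ∧ g.1 = b - 1 ∧ ReflTransGen (Rtd111WStep (rtd111FB a b c d) G) f g) ↔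
    (∃ u v, u ∈ tscBox (2 * a) (2 * b) (2 * c) (2 * d) \ rtd111Bl (Rtd111In (rtd111FB a b c d) G) ∧ u.1 = 2 * a ∧ v.1 = 2 * b ∧
      TscR tscG (tscBox (2 * a) (2 * b) (2 * c) (2 * d) \ rtd111Bl (Rtd111In (rtd111FB a b c d) G)) u v) := by
  have hR := rtd111_rect_box (2 * a) (2 * b) (2 * c) (2 * d)
  have hFR := rtd111_FR_box a b c d
  constructor
  · rintro ⟨f, g, hf, hf2, hg2, h⟩
    have hg := rtd111_wchain_mem h hf
    have hp := rtd111_white_lift_R hR (G := G) (f := f) (g := g) (by rw [hFR]; exact h)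
    rw [hFR] at hp
    obtain ⟨f1, f2, f3, f4⟩ := hf
    obtain ⟨g1, g2, g3, g4⟩ := hg
    have hu : rtd111E ((a, f.2), true) ∈ tscBox (2 * a) (2 * b) (2 * c) (2 * d) \ rtd111Bl (Rtd111In (rtd111FB a b c d) G) := by
      refine ⟨?_, fun hh => ?_⟩
      · rw [rtd111_E_t, rtd111_mem_box]; simp only; omega
      · have := (rtd111_E_mem_Bl.1 hh).2.2
        rw [rtd111_co_t, rtd111_mem_FB] at this
        simp only at this; omega
    have hv : rtd111E ((b, g.2), true) ∈ tscBox (2 * a) (2 * b) (2 * c) (2 * d) \ rtd111Bl (Rtd111In (rtd111FB a b c d) G) := by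
      refine ⟨?_, fun hh => ?_⟩
      · rw [rtd111_E_t, rtd111_mem_box]; simp only; omega
      · have := (rtd111_E_mem_Bl.1 hh).2.1
        rw [rtd111_mem_FB] at this
        simp only at this; omega
    have hfW : rtd111F f ∈ tscBox (2 * a) (2 * b) (2 * c) (2 * d) \ rtd111Bl (Rtd111In (rtd111FB a b c d) G) := by
      refine ⟨?_, rtd111_F_not_mem_Bl f⟩
      rw [rtd111_mem_box]; simp only [rtd111F]; omega
    have hgW : rtd111F g ∈ tscBox (2 * a) (2 * b) (2 * c) (2 * d) \ rtd111Bl (Rtd111In (rtd111FB a b c d) G) := by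
      refine ⟨?_, rtd111_F_not_mem_Bl g⟩
      rw [rtd111_mem_box]; simp only [rtd111F]; omega
    have a1 : triAdj (rtd111E ((a, f.2), true)) (rtd111F f) := by
      rw [tsc_adj_iff, rtd111_E_t]; simp only [rtd111F, and_true]; omega
    have a2 : triAdj (rtd111F g) (rtd111E ((b, g.2), true)) := by
      rw [tsc_adj_iff, rtd111_E_t]; simp only [rtd111F, and_true]; omega
    exact ⟨_, _, hu, by rw [rtd111_E_t], by rw [rtd111_E_t],
      (tsc_R_step (G := tscG) a1 hu hfW).trans (hp.trans (tsc_R_step (G := tscG) a2 hgW hv))⟩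
  · rintro ⟨u, v, hu, hu2, hv2, h⟩
    have hv := tsc_R_mem h hu
    have key : ∀ z ∈ tscBox (2 * a) (2 * b) (2 * c) (2 * d) \ rtd111Bl (Rtd111In (rtd111FB a b c d) G), ∀ k : ℤ, z.1 = 2 * k →
        ∃ y, c ≤ y ∧ y < d ∧ z = rtd111E ((k, y), true) := by
      rintro z ⟨hzB, hzP⟩ k hz
      rcases rtd111_cases z with ⟨w, rfl⟩ | ⟨w, rfl⟩ | ⟨⟨⟨x, y⟩, b'⟩, rfl⟩
      · exact absurd (rtd111_P_mem_Bl w) hzP
      · simp only [rtd111F] at hz; omega
      · cases b'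
        · rw [rtd111_E_f] at hz; simp only at hz; omega
        · rw [rtd111_E_t] at hz hzB
          rw [rtd111_mem_box] at hzB
          simp only at hz hzB
          have : x = k := by omega
          subst this
          exact ⟨y, by omega, by omega, rfl⟩
    obtain ⟨y, hx1, hx2, rfl⟩ := key u hu a hu2
    obtain ⟨y', hx1', hx2', rfl⟩ := key v hv b hv2
    have hproj := rtd111_white_proj_R hR (G := G) (f0 := (a, y)) (by rw [hFR]; exact h) (by
      rw [hFR]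
      rintro g hg (hg' | ⟨e, he, hge⟩)
      · exact absurd hg'.symm (rtd111_F_ne_E g _)
      · rw [← rtd111_E_inj he] at hge
        rcases hge with rfl | rfl
        · exact ReflTransGen.refl
        · rw [rtd111_co_t, rtd111_mem_FB] at hg
          simp only at hg; omega)
    rw [hFR] at hproj
    refine ⟨(a, y), (b - 1, y'), ⟨le_refl a, hab, hx1, hx2⟩, rfl, rfl, hproj (b - 1, y') ⟨by simp only; omega, by simp only; omega, hx1', hx2'⟩ ?_⟩
    exact Or.inr ⟨((b, y'), true), rfl, Or.inr (rtd111_co_t b y').symm⟩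

/-- **BOX DUALITY (R4a), first orientation**: in the rectangle of faces `[a,b) × [c,d)` EXACTLY ONE of the two holds: a chain of interior edges of `G` from the column `a` of vertices to the
column `b`;  a dual chain of faces from the bottom row to the top row which crosses only edges not in `G`. -/
theorem rtd111_box_dual {a b c d : ℤ} (hab : a < b) (hcd : c < d) (G : (ℤ × ℤ) × Bool → Prop) :
    (∃ u v : ℤ × ℤ, u.1 = a ∧ v.1 = b ∧ ReflTransGen (Rtd111BStep (Rtd111In (rtd111FB a b c d) G)) u v) ↔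
    ¬ (∃ f g : ℤ × ℤ, f ∈ rtd111FB a b c d ∧ f.2 = c ∧ g.2 = d - 1 ∧ ReflTransGen (Rtd111WStep (rtd111FB a b c d) G) f g) := by
  rw [rtd111_T1 hab G, rtd111_T2 hcd G]
  exact pls_box_iff (by omega) (by omega) _

/-- **BOX DUALITY (R4a), second orientation**: a chain of interior edges of `G` from the row `c` of vertices to the row `d`, or (exclusively) a dual chain of faces from the left column to the right column. -/
theorem rtd111_box_dual' {a b c d : ℤ} (hab : a < b) (hcd : c < d) (G : (ℤ × ℤ) × Bool → Prop) :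
    (∃ u v : ℤ × ℤ, u.2 = c ∧ v.2 = d ∧ ReflTransGen (Rtd111BStep (Rtd111In (rtd111FB a b c d) G)) u v) ↔
    ¬ (∃ f g : ℤ × ℤ, f ∈ rtd111FB a b c d ∧ f.1 = a ∧ g.1 = b - 1 ∧ ReflTransGen (Rtd111WStep (rtd111FB a b c d) G) f g) := by
  rw [rtd111_T3 hcd G, rtd111_T4 hab G]
  have h := pls_box_iff (a := 2 * a) (b := 2 * b) (c := 2 * c) (d := 2 * d) (by omega) (by omega) (rtd111Bl (Rtd111In (rtd111FB a b c d) G))ᶜ
  rw [← Set.sdiff_eq, Set.sdiff_compl] at h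
  rw [h, not_not]

/-! ## 7. the same in the vocabulary of `Defs/RSW` -/

/-- the rectangle of faces `[a, b) × [c, d)` as a `Finset` (`rswBox z n = rtd111Rc (z.1 - n) (z.1 + n) (z.2 - n) (z.2 + n)` by `rfl`) -/
noncomputable def rtd111Rc (a b c d : ℤ) : Finset (ℤ × ℤ) := Finset.Ico a b ×ˢ Finset.Ico c d

theorem rtd111_mem_Rc {a b c d : ℤ} {f : ℤ × ℤ} : f ∈ rtd111Rc a b c d ↔ a ≤ f.1 ∧ f.1 < b ∧ c ≤ f.2 ∧ f.2 < d := by
  simp only [rtd111Rc, Finset.mem_product, Finset.mem_Ico]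
  tauto

theorem rtd111_coe_Rc (a b c d : ℤ) : (↑(rtd111Rc a b c d) : Set (ℤ × ℤ)) = rtd111FB a b c d := by
  ext f
  rw [Finset.mem_coe, rtd111_mem_Rc, rtd111_mem_FB]

theorem rtd111_rswBox (z : ℤ × ℤ) (n : ℕ) : rswBox z n = rtd111Rc (z.1 - n) (z.1 + n) (z.2 - n) (z.2 + n) := rfl

/-- a chain of good interior edges of the finite set of faces `F` -/
def Rtd111Chain (F : Finset (ℤ × ℤ)) (s : Bool) (ω : RswCfg) : ℤ × ℤ → ℤ × ℤ → Prop :=
  ReflTransGen (Rtd111BStep (Rtd111In (↑F : Set (ℤ × ℤ)) (RswGood s ω)))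

/-- **R4a in the vocabulary of `Defs/RSW`**: the good edges separate the bottom row of faces from the top row iff a chain of good interior edges joins the left side to the right side -/
theorem rtd111_sep_rows {a b c d : ℤ} (hab : a < b) (hcd : c < d) (s : Bool) (ω : RswCfg) :
    RswSep (rtd111Rc a b c d) s ω (rtd111Rc a b c (c + 1)) (rtd111Rc a b (d - 1) d) ↔
      ∃ u v : ℤ × ℤ, u.1 = a ∧ v.1 = b ∧ Rtd111Chain (rtd111Rc a b c d) s ω u v := by
  unfold Rtd111Chain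
  rw [rtd111_coe_Rc, rtd111_box_dual hab hcd]
  show (∀ f ∈ rtd111Rc a b c (c + 1), ∀ g ∈ rtd111Rc a b (d - 1) d, ¬ ReflTransGen (Rtd111WStep (↑(rtd111Rc a b c d) : Set (ℤ × ℤ)) (RswGood s ω)) f g) ↔ _
  rw [rtd111_coe_Rc]
  constructor
  · rintro h ⟨f, g, hf, hf2, hg2, hfg⟩
    have hg := rtd111_wchain_mem hfg hf
    rw [rtd111_mem_FB] at hf hg
    exact h f (rtd111_mem_Rc.2 ⟨hf.1, hf.2.1, by omega, by omega⟩) g (rtd111_mem_Rc.2 ⟨hg.1, hg.2.1, by omega, by omega⟩) hfg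
  · intro h f hf g hg hfg
    rw [rtd111_mem_Rc] at hf hg
    exact h ⟨f, g, rtd111_mem_FB.2 ⟨hf.1, hf.2.1, by omega, by omega⟩, by omega, by omega, hfg⟩

/-- the good edges separate the left column of faces from the right column iff a chain of good interior edges joins the bottom side to the top side -/
theorem rtd111_sep_cols {a b c d : ℤ} (hab : a < b) (hcd : c < d) (s : Bool) (ω : RswCfg) :
    RswSep (rtd111Rc a b c d) s ω (rtd111Rc a (a + 1) c d) (rtd111Rc (b - 1) b c d) ↔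
      ∃ u v : ℤ × ℤ, u.2 = c ∧ v.2 = d ∧ Rtd111Chain (rtd111Rc a b c d) s ω u v := by
  unfold Rtd111Chain
  rw [rtd111_coe_Rc, rtd111_box_dual' hab hcd]
  show (∀ f ∈ rtd111Rc a (a + 1) c d, ∀ g ∈ rtd111Rc (b - 1) b c d, ¬ ReflTransGen (Rtd111WStep (↑(rtd111Rc a b c d) : Set (ℤ × ℤ)) (RswGood s ω)) f g) ↔ _
  rw [rtd111_coe_Rc]
  constructor
  · rintro h ⟨f, g, hf, hf2, hg2, hfg⟩
    have hg := rtd111_wchain_mem hfg hf
    rw [rtd111_mem_FB] at hf hg
    exact h f (rtd111_mem_Rc.2 ⟨by omega, by omega, hf.2.2.1, hf.2.2.2⟩) g (rtd111_mem_Rc.2 ⟨by omega, by omega, hg.2.2.1, hg.2.2.2⟩) hfg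
  · intro h f hf g hg hfg
    rw [rtd111_mem_Rc] at hf hg
    exact h ⟨f, g, rtd111_mem_FB.2 ⟨by omega, by omega, hf.2.2.1, hf.2.2.2⟩, by omega, by omega, hfg⟩

/-! ## 8. PLANAR EXACTNESS OF THE AT DOMAIN (the hypotheses `hperp`, `hex` of `mdl141e_duality`, Model/Euler141) -/

theorem rtd111_x_self (a : ZMod 2) : a + a = 0 := CharTwo.add_self_eq_zero a

theorem rtd111_x_eq_of_add {a b : ZMod 2} (h : a + b = 0) : a = b := by
  revert a b; decide

theorem rtd111_x_int_def (F : Finset (ℤ × ℤ)) : rswInt F = (F ×ˢ (Finset.univ : Finset Bool)).filter (fun e => rswCo e ∈ F) := rfl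

theorem rtd111_x_mem_int {F : Finset (ℤ × ℤ)} {e : (ℤ × ℤ) × Bool} : e ∈ rswInt F ↔ e.1 ∈ F ∧ rswCo e ∈ F := by
  rw [rtd111_x_int_def, Finset.mem_filter, Finset.mem_product]
  simp

theorem rtd111_x_onpoly (F : Finset (ℤ × ℤ)) (v : ℤ × ℤ) :
    OnPolygon F v ↔ ¬ (v ∈ F ∧ (v.1 - 1, v.2) ∈ F ∧ (v.1, v.2 - 1) ∈ F ∧ (v.1 - 1, v.2 - 1) ∈ F) := Iff.rfl

theorem rtd111_x_corners_def (F : Finset (ℤ × ℤ)) :
    cornersOf F = F.biUnion (fun f => {f, (f.1 + 1, f.2), (f.1, f.2 + 1), (f.1 + 1, f.2 + 1)}) := rfl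

/-- the ray potential -/
noncomputable def rtd111xN (m : ℤ) (c : (ℤ × ℤ) × Bool → ZMod 2) (v : ℤ × ℤ) : ZMod 2 :=
  ∑ i ∈ Finset.Ico m v.1, c ((i, v.2), false)

theorem rtd111_x_N_left {m : ℤ} {c : (ℤ × ℤ) × Bool → ZMod 2} {v : ℤ × ℤ} (h : v.1 ≤ m) : rtd111xN m c v = 0 := by
  unfold rtd111xN
  rw [Finset.Ico_eq_empty (by omega), Finset.sum_empty]

theorem rtd111_x_N_succ {m : ℤ} {c : (ℤ × ℤ) × Bool → ZMod 2} {x y : ℤ} (h : m ≤ x) :
    rtd111xN m c (x + 1, y) = rtd111xN m c (x, y) + c ((x, y), false) := by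
  unfold rtd111xN
  have e1 : Finset.Ico m (x + 1) = insert x (Finset.Ico m x) := by
    ext i; simp only [Finset.mem_Ico, Finset.mem_insert]; omega
  simp only
  rw [e1, Finset.sum_insert (by simp), add_comm]

/-- **exactness on `ℤ²`**: an edge function which vanishes on the left of `m` and is even at every face is a coboundary of the ray potential -/
theorem rtd111_x_plane {m : ℤ} {c : (ℤ × ℤ) × Bool → ZMod 2} (hm : ∀ i y b, i < m → c ((i, y), b) = 0)
    (hev : ∀ f : ℤ × ℤ, c (f, false) + c ((f.1, f.2 + 1), false) + c (f, true) + c ((f.1 + 1, f.2), true) = 0) :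
    ∀ e, c e = rtd111xN m c e.1 + rtd111xN m c (rswEnd e) := by
  have hH : ∀ x y, c ((x, y), false) = rtd111xN m c (x, y) + rtd111xN m c (x + 1, y) := by
    intro x y
    rcases le_or_gt m x with h | h
    · rw [rtd111_x_N_succ h, ← add_assoc, rtd111_x_self, zero_add]
    · rw [rtd111_x_N_left (v := (x, y)) (by simp only; omega), rtd111_x_N_left (v := (x + 1, y)) (by simp only; omega), hm x y false h, add_zero]
  have hV0 : ∀ x y, x ≤ m → c ((x, y), true) = 0 := by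
    intro x y h
    rcases lt_or_eq_of_le h with h | rfl
    · exact hm x y true h
    · have := hev (x - 1, y)
      simp only [sub_add_cancel] at this
      rw [hm (x - 1) y false (by omega), hm (x - 1) (y + 1) false (by omega), hm (x - 1) y true (by omega)] at this
      simpa using this
  have hV : ∀ x y, c ((x, y), true) = rtd111xN m c (x, y) + rtd111xN m c (x, y + 1) := by
    intro x y
    rcases le_or_gt m x with h | h
    · induction x, h using Int.le_induction with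
      | base => rw [hV0 m y le_rfl, rtd111_x_N_left (v := (m, y)) le_rfl, rtd111_x_N_left (v := (m, y + 1)) le_rfl, add_zero]
      | succ x hx ih =>
        rw [rtd111_x_N_succ hx, rtd111_x_N_succ hx]
        have := hev (x, y)
        simp only at this
        have e : c ((x + 1, y), true) = c ((x, y), false) + c ((x, y + 1), false) + c ((x, y), true) := by
          have h2 := rtd111_x_eq_of_add this
          exact h2.symm
        rw [e, ih]
        ring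
    · rw [hV0 x y h.le, rtd111_x_N_left (v := (x, y)) (by simp only; omega), rtd111_x_N_left (v := (x, y + 1)) (by simp only; omega), add_zero]
  rintro ⟨⟨x, y⟩, b⟩
  cases b
  · exact hH x y
  · exact hV x y

/-- a vertex which is not an inner corner of `F` is a corner of a face outside `F` -/
theorem rtd111_x_outer_face {F : Finset (ℤ × ℤ)} {v : ℤ × ℤ} (h : v ∉ cornersOf F ∨ OnPolygon F v) :
    ∃ g, g ∉ F ∧ v ∈ at2hC4 g := by
  by_contra hcon
  push Not at hcon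
  have h1 : v ∈ F := by
    by_contra hh; exact hcon v hh (at2h_mem_C4.2 ⟨Or.inl rfl, Or.inl rfl⟩)
  have h2 : (v.1 - 1, v.2) ∈ F := by
    by_contra hh; exact hcon _ hh (at2h_mem_C4.2 ⟨Or.inr (by simp), Or.inl rfl⟩)
  have h3 : (v.1, v.2 - 1) ∈ F := by
    by_contra hh; exact hcon _ hh (at2h_mem_C4.2 ⟨Or.inl rfl, Or.inr (by simp)⟩)
  have h4 : (v.1 - 1, v.2 - 1) ∈ F := by
    by_contra hh; exact hcon _ hh (at2h_mem_C4.2 ⟨Or.inr (by simp), Or.inr (by simp)⟩)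
  rcases h with h | h
  · apply h
    rw [rtd111_x_corners_def, Finset.mem_biUnion]
    exact ⟨v, h1, by simp⟩
  · exact h ⟨h1, h2, h3, h4⟩

/-- **PLANAR EXACTNESS (`hex`, swapped form)**: `F` finite, complement connected (`At2hConn`, 212).   An edge function supported on the interior edges of `F` which is even at every face is the
coboundary of a vertex function which vanishes off the inner corners of `F`. -/
theorem rtd111_x_exact (F : Finset (ℤ × ℤ)) (hF : At2hConn F) (c : (ℤ × ℤ) × Bool → ZMod 2) (hs : ∀ e, e ∉ rswInt F → c e = 0)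
    (hev : ∀ f : ℤ × ℤ, c (f, false) + c ((f.1, f.2 + 1), false) + c (f, true) + c ((f.1 + 1, f.2), true) = 0) :
    ∃ n : ℤ × ℤ → ZMod 2, (∀ v, (v ∉ cornersOf F ∨ OnPolygon F v) → n v = 0) ∧ ∀ e, c e = n e.1 + n (rswEnd e) := by
  -- a bound on the left
  obtain ⟨m, hm⟩ : ∃ m : ℤ, ∀ f ∈ F, m < f.1 := by
    refine ⟨-(∑ f ∈ F, |f.1|) - 1, fun f hf => ?_⟩
    have h1 : |f.1| ≤ ∑ f ∈ F, |f.1| := Finset.single_le_sum (f := fun f : ℤ × ℤ => |f.1|) (fun i _ => abs_nonneg _) hf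
    have h2 := neg_abs_le f.1
    omega
  have hm' : ∀ i y b, i < m → c ((i, y), b) = 0 := by
    intro i y b hi
    refine hs _ fun he => ?_
    have := hm _ (rtd111_x_mem_int.1 he).1
    simp only at this
    omega
  have hex := rtd111_x_plane hm' hev
  set n := rtd111xN m c with hn
  refine ⟨n, ?_, hex⟩
  -- `n` is constant on the corners of a face outside `F`
  have hconst : ∀ g, g ∉ F → ∀ w ∈ at2hC4 g, n w = n g := by
    intro g hg w hw
    have e1 : n g = n (g.1 + 1, g.2) := by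
      have := hex (g, false)
      rw [hs _ (fun he => hg (rtd111_x_mem_int.1 he).1)] at this
      exact rtd111_x_eq_of_add this.symm
    have e2 : n g = n (g.1, g.2 + 1) := by
      have := hex (g, true)
      rw [hs _ (fun he => hg (rtd111_x_mem_int.1 he).1)] at this
      exact rtd111_x_eq_of_add this.symm
    have e3 : n (g.1, g.2 + 1) = n (g.1 + 1, g.2 + 1) := by
      have := hex ((g.1, g.2 + 1), false)
      rw [hs _ (fun he => hg (by
        have := (rtd111_x_mem_int.1 he).2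
        have e : rswCo ((g.1, g.2 + 1), false) = g := by
          show (g.1, g.2 + 1 - 1) = g
          ext <;> simp
        rwa [e] at this))] at this
      exact rtd111_x_eq_of_add this.symm
    obtain ⟨w1, w2⟩ := w
    rw [at2h_mem_C4] at hw
    simp only at hw
    rcases hw with ⟨rfl | rfl, rfl | rfl⟩
    · rfl
    · exact e2.symm
    · exact e1.symm
    · rw [← e3, ← e2]
  -- the faces outside `F` on whose corners `n` vanishes
  have hall := hF {g | g ∉ F ∧ n g = 0} (fun f hf => hf.1) ⟨(m - 1, 0), fun hh => by have := hm _ hh; simp only at this; omega,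
      rtd111_x_N_left (by simp only; omega)⟩ (by
    rintro f ⟨hf, hf0⟩ g hg ⟨w, hwf, hwg⟩
    exact ⟨hg, by rw [← hconst g hg w hwg, hconst f hf w hwf, hf0]⟩)
  intro v hv
  obtain ⟨g, hg, hvg⟩ := rtd111_x_outer_face hv
  rw [hconst g hg v hvg]
  exact (hall g hg).2

/-- the inner corners of `F` (all four faces around the vertex lie in `F`) -/
def rtd111xK (F : Finset (ℤ × ℤ)) : Finset (ℤ × ℤ) :=
  F.filter (fun v => (v.1 - 1, v.2) ∈ F ∧ (v.1, v.2 - 1) ∈ F ∧ (v.1 - 1, v.2 - 1) ∈ F)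

theorem rtd111_x_mem_K {F : Finset (ℤ × ℤ)} {v : ℤ × ℤ} :
    v ∈ rtd111xK F ↔ v ∈ F ∧ (v.1 - 1, v.2) ∈ F ∧ (v.1, v.2 - 1) ∈ F ∧ (v.1 - 1, v.2 - 1) ∈ F := by
  unfold rtd111xK
  rw [Finset.mem_filter]

theorem rtd111_x_not_K {F : Finset (ℤ × ℤ)} {v : ℤ × ℤ} (h : v ∉ rtd111xK F) : v ∉ cornersOf F ∨ OnPolygon F v :=
  Or.inr fun hh => h (rtd111_x_mem_K.2 hh)

theorem rtd111_x_K_iff {F : Finset (ℤ × ℤ)} {v : ℤ × ℤ} : v ∈ rtd111xK F ↔ v ∈ cornersOf F ∧ ¬ OnPolygon F v := by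
  constructor
  · intro h
    have h' := rtd111_x_mem_K.1 h
    refine ⟨?_, fun hh => hh h'⟩
    rw [rtd111_x_corners_def, Finset.mem_biUnion]
    exact ⟨v, h'.1, by simp⟩
  · rintro ⟨_, h⟩
    by_contra hh
    rcases rtd111_x_not_K hh with h1 | h1
    · exact h (fun h4 => hh (rtd111_x_mem_K.2 h4))
    · exact h h1

theorem rtd111_x_four (a b c e : ZMod 2) : (a + b) + (a + c) + ((c + e) + (b + e)) = 0 := by
  revert a b c e; decide

/-- the edge which ends at `v` in the direction `b` -/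
def rtd111xT (e : (ℤ × ℤ) × Bool) : (ℤ × ℤ) × Bool := (if e.2 then (e.1.1, e.1.2 - 1) else (e.1.1 - 1, e.1.2), e.2)

theorem rtd111_x_T_f (x y : ℤ) : rtd111xT ((x, y), false) = ((x - 1, y), false) := rfl
theorem rtd111_x_T_t (x y : ℤ) : rtd111xT ((x, y), true) = ((x, y - 1), true) := rfl

/-- **PLANAR ORTHOGONALITY (`hperp`)**: a coboundary of the faces is orthogonal to a coboundary of the vertices which vanishes off the inner corners -/
theorem rtd111_x_perp (F : Finset (ℤ × ℤ)) (d n : ℤ × ℤ → ZMod 2) (hn : ∀ v, v ∉ rtd111xK F → n v = 0) :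
    ∑ e ∈ rswInt F, (d e.1 + d (rswCo e)) * (n e.1 + n (rswEnd e)) = 0 := by
  have hK : ∀ v ∈ rtd111xK F, ∀ b, (v, b) ∈ rswInt F ∧ rtd111xT (v, b) ∈ rswInt F := by
    rintro ⟨x, y⟩ hv b
    obtain ⟨h1, h2, h3, h4⟩ := rtd111_x_mem_K.1 hv
    simp only at h2 h3 h4
    cases b
    · refine ⟨rtd111_x_mem_int.2 ⟨h1, h3⟩, rtd111_x_mem_int.2 ⟨h2, h4⟩⟩
    · refine ⟨rtd111_x_mem_int.2 ⟨h1, h2⟩, rtd111_x_mem_int.2 ⟨h3, h4⟩⟩
  have e1 : ∑ e ∈ rswInt F, (d e.1 + d (rswCo e)) * n e.1 = ∑ e ∈ rtd111xK F ×ˢ (Finset.univ : Finset Bool), (d e.1 + d (rswCo e)) * n e.1 := by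
    symm
    refine Finset.sum_subset ?_ ?_
    · rintro ⟨v, b⟩ he
      exact (hK v (Finset.mem_product.1 he).1 b).1
    · rintro ⟨v, b⟩ _ he
      rw [hn v (fun hv => he (Finset.mem_product.2 ⟨hv, Finset.mem_univ _⟩)), mul_zero]
  have e2 : ∑ e ∈ rswInt F, (d e.1 + d (rswCo e)) * n (rswEnd e) =
      ∑ e ∈ rtd111xK F ×ˢ (Finset.univ : Finset Bool), (d (rtd111xT e).1 + d (rswCo (rtd111xT e))) * n e.1 := by
    refine Finset.sum_bij_ne_zero (fun e _ _ => (rswEnd e, e.2)) ?_ ?_ ?_ ?_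
    · intro e _ h0
      refine Finset.mem_product.2 ⟨?_, Finset.mem_univ _⟩
      by_contra hh
      exact h0 (by rw [hn _ hh, mul_zero])
    · rintro ⟨⟨x, y⟩, b⟩ _ _ ⟨⟨x', y'⟩, b'⟩ _ _ h
      cases b <;> cases b' <;> simp [rtd111_end_f, rtd111_end_t] at h ⊢ <;> omega
    · rintro ⟨⟨x, y⟩, b⟩ he h0
      have hv := (Finset.mem_product.1 he).1
      refine ⟨rtd111xT ((x, y), b), (hK _ hv b).2, ?_, ?_⟩
      · cases b
        · simpa [rtd111_x_T_f, rtd111_end_f] using h0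
        · simpa [rtd111_x_T_t, rtd111_end_t] using h0
      · cases b <;> simp [rtd111xT, rtd111_end_f, rtd111_end_t]
    · rintro ⟨⟨x, y⟩, b⟩ _ _
      cases b <;> simp [rtd111xT, rtd111_end_f, rtd111_end_t]
  simp only [mul_add, Finset.sum_add_distrib]
  rw [e1, e2, ← Finset.sum_add_distrib, Finset.sum_product]
  refine Finset.sum_eq_zero fun v _ => ?_
  obtain ⟨x, y⟩ := v
  rw [Fintype.sum_bool]
  simp only [rtd111_x_T_f, rtd111_x_T_t]
  have c1 : rswCo ((x, y), true) = (x - 1, y) := rfl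
  have c2 : rswCo ((x, y), false) = (x, y - 1) := rfl
  have c3 : rswCo ((x, y - 1), true) = (x - 1, y - 1) := rfl
  have c4 : rswCo ((x - 1, y), false) = (x - 1, y - 1) := rfl
  rw [c1, c2, c3, c4]
  have := rtd111_x_four (d (x, y)) (d (x - 1, y)) (d (x, y - 1)) (d (x - 1, y - 1))
  linear_combination (n (x, y)) * this

/-! ### packaging for `mdl141e_duality` : `ι = rswInt F`, dual vertices `F`, primal vertices = inner corners + the wired polygon (`none`) -/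

/-- class of a vertex: an inner corner, or the wired polygon -/
def rtd111xCls (F : Finset (ℤ × ℤ)) (v : ℤ × ℤ) : Option {v // v ∈ rtd111xK F} := if h : v ∈ rtd111xK F then some ⟨v, h⟩ else none

def rtd111xS (F : Finset (ℤ × ℤ)) (i : {e // e ∈ rswInt F}) : Option {v // v ∈ rtd111xK F} := rtd111xCls F i.1.1

def rtd111xE (F : Finset (ℤ × ℤ)) (i : {e // e ∈ rswInt F}) : Option {v // v ∈ rtd111xK F} := rtd111xCls F (rswEnd i.1)

def rtd111xS' (F : Finset (ℤ × ℤ)) (i : {e // e ∈ rswInt F}) : {f // f ∈ F} := ⟨i.1.1, (rtd111_x_mem_int.1 i.2).1⟩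

def rtd111xE' (F : Finset (ℤ × ℤ)) (i : {e // e ∈ rswInt F}) : {f // f ∈ F} := ⟨rswCo i.1, (rtd111_x_mem_int.1 i.2).2⟩

theorem rtd111_x_perp_pack (F : Finset (ℤ × ℤ)) (dV : Option {v // v ∈ rtd111xK F} → ZMod 2) (ρ : {f // f ∈ F} → ZMod 2) :
    ∑ i, mdl141e_d (rtd111xS F) (rtd111xE F) dV i * mdl141e_d (rtd111xS' F) (rtd111xE' F) ρ i = 0 := by
  set n : ℤ × ℤ → ZMod 2 := fun v => dV (rtd111xCls F v) + dV none with hn
  set d : ℤ × ℤ → ZMod 2 := fun f => if h : f ∈ F then ρ ⟨f, h⟩ else 0 with hd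
  have hn0 : ∀ v, v ∉ rtd111xK F → n v = 0 := by
    intro v hv
    simp only [hn, rtd111xCls, dif_neg hv]
    exact rtd111_x_self _
  have h := rtd111_x_perp F d n hn0
  rw [← Finset.sum_coe_sort] at h
  rw [← h]
  refine Finset.sum_congr rfl fun i _ => ?_
  have h1 := (rtd111_x_mem_int.1 i.2).1
  have h2 := (rtd111_x_mem_int.1 i.2).2
  simp only [mdl141e_d, rtd111xS, rtd111xE, rtd111xS', rtd111xE', hn, hd, dif_pos h1, dif_pos h2]
  have := rtd111_x_self (dV none)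
  linear_combination (-(ρ ⟨i.1.1, h1⟩ + ρ ⟨rswCo i.1, h2⟩)) * this

theorem rtd111_x_ex_pack (F : Finset (ℤ × ℤ)) (hF : At2hConn F) (y : {e // e ∈ rswInt F} → ZMod 2)
    (hy : ∀ ρ : {f // f ∈ F} → ZMod 2, ∑ i, y i * mdl141e_d (rtd111xS' F) (rtd111xE' F) ρ i = 0) :
    ∃ dV : Option {v // v ∈ rtd111xK F} → ZMod 2, ∀ i, y i = mdl141e_d (rtd111xS F) (rtd111xE F) dV i := by
  classical
  set c : (ℤ × ℤ) × Bool → ZMod 2 := fun e => if h : e ∈ rswInt F then y ⟨e, h⟩ else 0 with hc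
  have hs : ∀ e, e ∉ rswInt F → c e = 0 := fun e he => by simp only [hc, dif_neg he]
  have hev : ∀ f : ℤ × ℤ, c (f, false) + c ((f.1, f.2 + 1), false) + c (f, true) + c ((f.1 + 1, f.2), true) = 0 := by
    intro f
    by_cases hf : f ∈ F
    · have h := hy (fun g => if g.1 = f then 1 else 0)
      have e1 : ∑ i, y i * mdl141e_d (rtd111xS' F) (rtd111xE' F) (fun g => if g.1 = f then 1 else 0) i =
          ∑ e ∈ rswInt F, c e * ((if e.1 = f then 1 else 0) + (if rswCo e = f then 1 else 0)) := by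
        rw [← Finset.sum_coe_sort (rswInt F) (fun e => c e * ((if e.1 = f then (1 : ZMod 2) else 0) + (if rswCo e = f then 1 else 0)))]
        refine Finset.sum_congr rfl fun i _ => ?_
        simp only [mdl141e_d, rtd111xS', rtd111xE', hc, dif_pos i.2]
        rfl
      rw [e1] at h
      have e2 : ∑ e ∈ rswInt F, c e * ((if e.1 = f then 1 else 0) + (if rswCo e = f then 1 else 0)) =
          ∑ e ∈ ({(f, false), ((f.1, f.2 + 1), false), (f, true), ((f.1 + 1, f.2), true)} : Finset ((ℤ × ℤ) × Bool)),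
            c e * ((if e.1 = f then 1 else 0) + (if rswCo e = f then 1 else 0)) := by
        refine Finset.sum_congr_of_eq_on_inter ?_ ?_ (fun _ _ _ => rfl)
        · rintro ⟨⟨x, y'⟩, b⟩ _ hne
          obtain ⟨f1, f2⟩ := f
          have a1 : ¬ ((x, y') = (f1, f2)) := by
            rintro h0
            rw [Prod.mk.injEq] at h0
            obtain ⟨rfl, rfl⟩ := h0
            cases b <;> simp at hne
          have a2 : ¬ (rswCo ((x, y'), b) = (f1, f2)) := by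
            intro h0
            cases b
            · have h0' : (x, y' - 1) = (f1, f2) := h0
              rw [Prod.mk.injEq] at h0'
              obtain ⟨rfl, rfl⟩ := h0'
              simp at hne
            · have h0' : (x - 1, y') = (f1, f2) := h0
              rw [Prod.mk.injEq] at h0'
              obtain ⟨rfl, rfl⟩ := h0'
              simp at hne
          simp only [if_neg a1, if_neg a2, add_zero, mul_zero]
        · intro e _ he
          rw [hs e he, zero_mul]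
      rw [e2] at h
      obtain ⟨f1, f2⟩ := f
      have c1 : rswCo ((f1, f2), false) = (f1, f2 - 1) := rfl
      have c2 : rswCo ((f1, f2 + 1), false) = (f1, f2 + 1 - 1) := rfl
      have c3 : rswCo ((f1, f2), true) = (f1 - 1, f2) := rfl
      have c4 : rswCo ((f1 + 1, f2), true) = (f1 + 1 - 1, f2) := rfl
      rw [Finset.sum_insert (by simp), Finset.sum_insert (by simp), Finset.sum_insert (by simp), Finset.sum_singleton, c1, c2, c3, c4] at h
      simp at h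
      simp only
      rw [← h]
      ring
    · have n1 : (f, false) ∉ rswInt F := fun he => hf (rtd111_x_mem_int.1 he).1
      have n2 : (f, true) ∉ rswInt F := fun he => hf (rtd111_x_mem_int.1 he).1
      have n3 : ((f.1, f.2 + 1), false) ∉ rswInt F := fun he => hf (by
        have := (rtd111_x_mem_int.1 he).2
        have e : rswCo ((f.1, f.2 + 1), false) = f := by
          show (f.1, f.2 + 1 - 1) = f
          ext <;> simp
        rwa [e] at this)
      have n4 : ((f.1 + 1, f.2), true) ∉ rswInt F := fun he => hf (by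
        have := (rtd111_x_mem_int.1 he).2
        have e : rswCo ((f.1 + 1, f.2), true) = f := by
          show (f.1 + 1 - 1, f.2) = f
          ext <;> simp
        rwa [e] at this)
      rw [hs _ n1, hs _ n2, hs _ n3, hs _ n4]
      simp
  obtain ⟨n, hn0, hn⟩ := rtd111_x_exact F hF c hs hev
  refine ⟨fun o => match o with | some v => n v.1 | none => 0, fun i => ?_⟩
  have hcls : ∀ v, (match rtd111xCls F v with | some v => n v.1 | none => 0) = n v := by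
    intro v
    by_cases hv : v ∈ rtd111xK F
    · simp only [rtd111xCls, dif_pos hv]
    · simp only [rtd111xCls, dif_neg hv]
      exact (hn0 v (rtd111_x_not_K hv)).symm
  have h1 := hn i.1
  simp only [hc, dif_pos i.2] at h1
  simp only [mdl141e_d, rtd111xS, rtd111xE]
  rw [hcls, hcls]
  exact h1

/-- **eq. (3.5) of the AT paper for the flat domain `F`** (`At2hConn F`):   `#{face spins constant across the edges of N} * 2^|N| * C = 2^|F| * #{vertex colourings (polygon wired) constant along W = Int \ N}` -/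
theorem rtd111_x_euler (F : Finset (ℤ × ℤ)) (hF : At2hConn F) (N : Finset {e // e ∈ rswInt F}) :
    Claimed.Agent.R291.iszN Bool (rtd111xS' F) (rtd111xE' F) N * 2 ^ N.card * Claimed.Agent.R291.iszN Bool (rtd111xS F) (rtd111xE F) Finset.univ =
      2 ^ Fintype.card {f // f ∈ F} * Claimed.Agent.R291.iszN Bool (rtd111xS F) (rtd111xE F) (Finset.univ \ N) :=
  mdl141e_duality_bool (rtd111xS' F) (rtd111xE' F) (rtd111xS F) (rtd111xE F) (rtd111_x_perp_pack F) (rtd111_x_ex_pack F hF) N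


/-! ## 9. CYLINDER DUALITY (J3), read on the cover: `L`-periodic edge sets in the band of faces `c ≤ f.2 < d` -/

/-- the band of faces `c ≤ f.2 < d` -/
def rtd111Bd (c d : ℤ) : Set (ℤ × ℤ) := {f | c ≤ f.2 ∧ f.2 < d}

theorem rtd111_mem_Bd {c d : ℤ} {f : ℤ × ℤ} : f ∈ rtd111Bd c d ↔ c ≤ f.2 ∧ f.2 < d := Iff.rfl

theorem rtd111_mem_band {c d : ℤ} {p : ℤ × ℤ} : p ∈ plsBand c d ↔ c ≤ p.2 ∧ p.2 ≤ d := Iff.rfl

/-- `L`-periodic edge sets -/
def Rtd111Per (L : ℤ) (G : (ℤ × ℤ) × Bool → Prop) : Prop := ∀ x y b, G ((x + L, y), b) ↔ G ((x, y), b)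

theorem rtd111_rect_band (c d : ℤ) : Rtd111Rect (plsBand c d) := by
  intro p hp q hq z _ _ h3 h4
  obtain ⟨p3, p4⟩ := hp
  obtain ⟨q3, q4⟩ := hq
  exact ⟨by omega, by omega⟩

theorem rtd111_FR_band (c d : ℤ) : rtd111FR (plsBand (2 * c) (2 * d)) = rtd111Bd c d := by
  ext f
  show rtd111F f ∈ plsBand (2 * c) (2 * d) ↔ _
  rw [rtd111_mem_band, rtd111_mem_Bd]
  simp only [rtd111F]
  omega

theorem rtd111_E_shift (e : (ℤ × ℤ) × Bool) (L : ℤ) : rtd111E e + (2 * L, 0) = rtd111E ((e.1.1 + L, e.1.2), e.2) := by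
  obtain ⟨⟨x, y⟩, b⟩ := e
  cases b
  · simp only [rtd111_E_f]; ext <;> simp <;> ring
  · simp only [rtd111_E_t]; ext <;> simp <;> ring

theorem rtd111_P_shift (v : ℤ × ℤ) (L : ℤ) : rtd111P v + (2 * L, 0) = rtd111P (v.1 + L, v.2) := by
  simp only [rtd111P]; ext <;> simp <;> ring

theorem rtd111_F_shift (v : ℤ × ℤ) (L : ℤ) : rtd111F v + (2 * L, 0) = rtd111F (v.1 + L, v.2) := by
  simp only [rtd111F]; ext <;> simp <;> ring

/-- the black set of a periodic edge set is periodic -/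
theorem rtd111_per_Bl {L c d : ℤ} {G : (ℤ × ℤ) × Bool → Prop} (hG : Rtd111Per L G) : PlsPer (2 * L) (rtd111Bl (Rtd111In (rtd111Bd c d) G)) := by
  have key : ∀ (M : ℤ), Rtd111Per M G → ∀ u, u ∈ rtd111Bl (Rtd111In (rtd111Bd c d) G) → u + (2 * M, 0) ∈ rtd111Bl (Rtd111In (rtd111Bd c d) G) := by
    rintro M hM u (⟨v, rfl⟩ | ⟨⟨⟨x, y⟩, b⟩, ⟨h1, h2, h3⟩, rfl⟩)
    · rw [rtd111_P_shift]; exact rtd111_P_mem_Bl _
    · rw [rtd111_E_shift]
      refine rtd111_E_mem_Bl.2 ⟨(hM x y b).2 h1, ?_, ?_⟩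
      · exact h2
      · cases b
        · rw [rtd111_co_f, rtd111_mem_Bd] at *; exact h3
        · rw [rtd111_co_t, rtd111_mem_Bd] at *; exact h3
  intro u
  constructor
  · intro h
    have hneg : Rtd111Per (-L) G := fun x y b => by
      have := hG (x + -L) y b
      rw [show x + -L + L = x by ring] at this
      exact this.symm
    have := key (-L) hneg _ h
    have e : u + (2 * L, 0) + (2 * -L, 0) = u := by ext <;> simp
    rwa [e] at this
  · exact key L hG u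

/-- an interior edge of the band: its point and the points of its two ends lie in the closed band -/
theorem rtd111_in_band {c d : ℤ} {e : (ℤ × ℤ) × Bool} (h1 : e.1 ∈ rtd111Bd c d) (h2 : rswCo e ∈ rtd111Bd c d) :
    rtd111E e ∈ plsBand (2 * c) (2 * d) ∧ rtd111P e.1 ∈ plsBand (2 * c) (2 * d) ∧ rtd111P (rswEnd e) ∈ plsBand (2 * c) (2 * d) := by
  obtain ⟨⟨x, y⟩, b'⟩ := e
  cases b'
  · simp only [rtd111_co_f, rtd111_end_f, rtd111_E_f, rtd111_mem_Bd, rtd111_mem_band, rtd111P] at *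
    omega
  · simp only [rtd111_co_t, rtd111_end_t, rtd111_E_t, rtd111_mem_Bd, rtd111_mem_band, rtd111P] at *
    omega

theorem rtd111_black_lift_band {c d : ℤ} {G : (ℤ × ℤ) × Bool → Prop} {u v : ℤ × ℤ}
    (h : ReflTransGen (Rtd111BStep (Rtd111In (rtd111Bd c d) G)) u v) :
    u = v ∨ (rtd111P u ∈ plsBand (2 * c) (2 * d) ∧
      TscR tscG (plsBand (2 * c) (2 * d) ∩ rtd111Bl (Rtd111In (rtd111Bd c d) G)) (rtd111P u) (rtd111P v)) := by
  induction h with
  | refl => exact Or.inl rfl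
  | @tail x y _ hs ih =>
    right
    obtain ⟨e, hG, he⟩ := hs
    obtain ⟨b1, b2, b3⟩ := rtd111_in_band hG.2.1 hG.2.2
    have heW : rtd111E e ∈ plsBand (2 * c) (2 * d) ∩ rtd111Bl (Rtd111In (rtd111Bd c d) G) := ⟨b1, rtd111_E_mem_Bl.2 hG⟩
    have h1W : rtd111P e.1 ∈ plsBand (2 * c) (2 * d) ∩ rtd111Bl (Rtd111In (rtd111Bd c d) G) := ⟨b2, rtd111_P_mem_Bl _⟩
    have h2W : rtd111P (rswEnd e) ∈ plsBand (2 * c) (2 * d) ∩ rtd111Bl (Rtd111In (rtd111Bd c d) G) := ⟨b3, rtd111_P_mem_Bl _⟩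
    have hxy : rtd111P x ∈ plsBand (2 * c) (2 * d) ∧
        TscR tscG (plsBand (2 * c) (2 * d) ∩ rtd111Bl (Rtd111In (rtd111Bd c d) G)) (rtd111P x) (rtd111P y) := by
      rcases he with ⟨rfl, rfl⟩ | ⟨rfl, rfl⟩
      · exact ⟨b2, (tsc_R_step (G := tscG) (rtd111_adj_P1 e) h1W heW).trans (tsc_R_step (G := tscG) (rtd111_adj_symm (rtd111_adj_P2 e)) heW h2W)⟩
      · exact ⟨b3, (tsc_R_step (G := tscG) (rtd111_adj_P2 e) h2W heW).trans (tsc_R_step (G := tscG) (rtd111_adj_symm (rtd111_adj_P1 e)) heW h1W)⟩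
    rcases ih with rfl | ⟨i1, i2⟩
    · exact hxy
    · exact ⟨i1, i2.trans hxy.2⟩

/-- projection of a black path of the band which starts at any black point -/
theorem rtd111_black_proj_band {c d : ℤ} {G : (ℤ × ℤ) × Bool → Prop} {x0 x u : ℤ × ℤ}
    (h : TscR tscG (plsBand (2 * c) (2 * d) ∩ rtd111Bl (Rtd111In (rtd111Bd c d) G)) x0 x)
    (h0 : ∀ w, Rtd111Vert x0 w → ReflTransGen (Rtd111BStep (Rtd111In (rtd111Bd c d) G)) u w) :
    ∀ w, Rtd111Vert x w → ReflTransGen (Rtd111BStep (Rtd111In (rtd111Bd c d) G)) u w := by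
  induction h with
  | refl => exact h0
  | @tail x y hxx hxy ih =>
    -- one step, through the general projection started at `x`
    intro w hw
    have hstep : TscR tscG (plsBand (2 * c) (2 * d) ∩ rtd111Bl (Rtd111In (rtd111Bd c d) G)) x y := ReflTransGen.single hxy
    -- choose a vertex of `x`
    have hx : x ∈ rtd111Bl (Rtd111In (rtd111Bd c d) G) := hxy.2.1.2
    obtain ⟨u', hu'⟩ : ∃ u', Rtd111Vert x u' ∧ ∀ w', Rtd111Vert x w' →
        ReflTransGen (Rtd111BStep (fun e => Rtd111In (rtd111Bd c d) G e ∧ rtd111E e ∈ plsBand (2 * c) (2 * d))) u' w' := by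
      rcases hx with ⟨v, rfl⟩ | ⟨e, he, rfl⟩
      · refine ⟨v, Or.inl rfl, ?_⟩
        rintro w' (hw' | ⟨e, he, _⟩)
        · rw [rtd111_P_inj hw']
        · exact absurd he (rtd111_P_ne_E v e)
      · refine ⟨e.1, Or.inr ⟨e, rfl, Or.inl rfl⟩, ?_⟩
        rintro w' (hw' | ⟨e', he', hw'⟩)
        · exact absurd hw'.symm (rtd111_P_ne_E w' e)
        · rw [← rtd111_E_inj he'] at hw'
          rcases hw' with rfl | rfl
          · exact ReflTransGen.refl
          · exact ReflTransGen.single ⟨e, ⟨he, hxy.2.1.1⟩, Or.inl ⟨rfl, rfl⟩⟩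
    have h2 := rtd111_black_proj hstep hu'.2 w hw
    refine (ih u' hu'.1).trans (ReflTransGen.mono (fun a b hab => ?_) _ _ h2)
    obtain ⟨e, ⟨h1, _⟩, h3⟩ := hab
    exact ⟨e, h1, h3⟩

/-- (C1) a black path of the band from a point to its translate = a chain of interior edges of `G` from a vertex to its translate -/
theorem rtd111_C1 {L c d : ℤ} (hL : 0 < L) (G : (ℤ × ℤ) × Bool → Prop) :
    (∃ u : ℤ × ℤ, ReflTransGen (Rtd111BStep (Rtd111In (rtd111Bd c d) G)) u (u.1 + L, u.2)) ↔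
    (∃ z, z ∈ plsBand (2 * c) (2 * d) ∩ rtd111Bl (Rtd111In (rtd111Bd c d) G) ∧
      TscR tscG (plsBand (2 * c) (2 * d) ∩ rtd111Bl (Rtd111In (rtd111Bd c d) G)) z (z + (2 * L, 0))) := by
  constructor
  · rintro ⟨u, h⟩
    rcases rtd111_black_lift_band h with h0 | ⟨h1, h2⟩
    · exfalso
      have := congrArg Prod.fst h0
      simp only at this
      omega
    · exact ⟨rtd111P u, ⟨h1, rtd111_P_mem_Bl u⟩, by rw [rtd111_P_shift]; exact h2⟩
  · rintro ⟨z, ⟨hzB, hz⟩, h⟩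
    rcases hz with ⟨v, rfl⟩ | ⟨e, he, rfl⟩
    · refine ⟨v, rtd111_black_proj_band h (u := v) ?_ _ (Or.inl (rtd111_P_shift v L))⟩
      rintro w' (hw' | ⟨e, he, _⟩)
      · rw [rtd111_P_inj hw']
      · exact absurd he (rtd111_P_ne_E v e)
    · refine ⟨e.1, rtd111_black_proj_band h (u := e.1) ?_ _ (Or.inr ⟨_, rtd111_E_shift e L, Or.inl rfl⟩)⟩
      rintro w' (hw' | ⟨e', he', hw'⟩)
      · exact absurd hw'.symm (rtd111_P_ne_E w' e)
      · rw [← rtd111_E_inj he'] at hw'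
        rcases hw' with rfl | rfl
        · exact ReflTransGen.refl
        · exact ReflTransGen.single ⟨e, he, Or.inl ⟨rfl, rfl⟩⟩


/-- (C2) white bottom-top in the band -/
theorem rtd111_C2 {c d : ℤ} (hcd : c < d) (G : (ℤ × ℤ) × Bool → Prop) :
    (∃ f g : ℤ × ℤ, f.2 = c ∧ g.2 = d - 1 ∧ ReflTransGen (Rtd111WStep (rtd111Bd c d) G) f g) ↔
    (∃ u v, u ∈ plsBand (2 * c) (2 * d) \ rtd111Bl (Rtd111In (rtd111Bd c d) G) ∧ u.2 = 2 * c ∧ v.2 = 2 * d ∧
      TscR tscG (plsBand (2 * c) (2 * d) \ rtd111Bl (Rtd111In (rtd111Bd c d) G)) u v) := by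
  have hR := rtd111_rect_band (2 * c) (2 * d)
  have hFR := rtd111_FR_band c d
  constructor
  · rintro ⟨f, g, hf2, hg2, h⟩
    have hp := rtd111_white_lift_R hR (G := G) (f := f) (g := g) (by rw [hFR]; exact h)
    rw [hFR] at hp
    have hu : rtd111E ((f.1, c), false) ∈ plsBand (2 * c) (2 * d) \ rtd111Bl (Rtd111In (rtd111Bd c d) G) := by
      refine ⟨?_, fun hh => ?_⟩
      · rw [rtd111_E_f, rtd111_mem_band]; simp only; omega
      · have := (rtd111_E_mem_Bl.1 hh).2.2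
        rw [rtd111_co_f, rtd111_mem_Bd] at this
        simp only at this; omega
    have hv : rtd111E ((g.1, d), false) ∈ plsBand (2 * c) (2 * d) \ rtd111Bl (Rtd111In (rtd111Bd c d) G) := by
      refine ⟨?_, fun hh => ?_⟩
      · rw [rtd111_E_f, rtd111_mem_band]; simp only; omega
      · have := (rtd111_E_mem_Bl.1 hh).2.1
        rw [rtd111_mem_Bd] at this
        simp only at this; omega
    have hfW : rtd111F f ∈ plsBand (2 * c) (2 * d) \ rtd111Bl (Rtd111In (rtd111Bd c d) G) := by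
      refine ⟨?_, rtd111_F_not_mem_Bl f⟩
      rw [rtd111_mem_band]; simp only [rtd111F]; omega
    have hgW : rtd111F g ∈ plsBand (2 * c) (2 * d) \ rtd111Bl (Rtd111In (rtd111Bd c d) G) := by
      refine ⟨?_, rtd111_F_not_mem_Bl g⟩
      rw [rtd111_mem_band]; simp only [rtd111F]; omega
    have a1 : triAdj (rtd111E ((f.1, c), false)) (rtd111F f) := by
      rw [tsc_adj_iff, rtd111_E_f]; simp only [rtd111F, true_and]; omega
    have a2 : triAdj (rtd111F g) (rtd111E ((g.1, d), false)) := by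
      rw [tsc_adj_iff, rtd111_E_f]; simp only [rtd111F, true_and]; omega
    exact ⟨_, _, hu, by rw [rtd111_E_f], by rw [rtd111_E_f],
      (tsc_R_step (G := tscG) a1 hu hfW).trans (hp.trans (tsc_R_step (G := tscG) a2 hgW hv))⟩
  · rintro ⟨u, v, hu, hu2, hv2, h⟩
    have hv := tsc_R_mem h hu
    have key : ∀ z ∈ plsBand (2 * c) (2 * d) \ rtd111Bl (Rtd111In (rtd111Bd c d) G), ∀ k : ℤ, z.2 = 2 * k →
        ∃ x, z = rtd111E ((x, k), false) := by
      rintro z ⟨hzB, hzP⟩ k hz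
      rcases rtd111_cases z with ⟨w, rfl⟩ | ⟨w, rfl⟩ | ⟨⟨⟨x, y⟩, b'⟩, rfl⟩
      · exact absurd (rtd111_P_mem_Bl w) hzP
      · simp only [rtd111F] at hz; omega
      · cases b'
        · rw [rtd111_E_f] at hz
          simp only at hz
          have : y = k := by omega
          subst this
          exact ⟨x, rfl⟩
        · rw [rtd111_E_t] at hz; simp only at hz; omega
    obtain ⟨x, rfl⟩ := key u hu c hu2
    obtain ⟨x', rfl⟩ := key v hv d hv2
    have hproj := rtd111_white_proj_R hR (G := G) (f0 := (x, c)) (by rw [hFR]; exact h) (by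
      rw [hFR]
      rintro g hg (hg' | ⟨e, he, hge⟩)
      · exact absurd hg'.symm (rtd111_F_ne_E g _)
      · rw [← rtd111_E_inj he] at hge
        rcases hge with rfl | rfl
        · exact ReflTransGen.refl
        · rw [rtd111_co_f, rtd111_mem_Bd] at hg
          simp only at hg; omega)
    rw [hFR] at hproj
    refine ⟨(x, c), (x', d - 1), rfl, rfl, hproj (x', d - 1) ⟨by simp only; omega, by simp only; omega⟩ ?_⟩
    exact Or.inr ⟨((x', d), false), rfl, Or.inr (rtd111_co_f x' d).symm⟩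

/-- **CYLINDER DUALITY (J3), first orientation**, on the cover: `G` an `L`-periodic edge set, band of faces `c ≤ f.2 < d`.   EXACTLY ONE of the two holds: a chain of interior edges of `G` from a vertex
to its translate by `(L, 0)` (a circuit which winds ONCE);   a dual chain of faces from the bottom row to the top row which crosses only edges not in `G`. -/
theorem rtd111_cyl_dual {L c d : ℤ} (hL : 0 < L) (hcd : c < d) {G : (ℤ × ℤ) × Bool → Prop} (hG : Rtd111Per L G) :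
    (∃ u : ℤ × ℤ, ReflTransGen (Rtd111BStep (Rtd111In (rtd111Bd c d) G)) u (u.1 + L, u.2)) ↔
    ¬ (∃ f g : ℤ × ℤ, f.2 = c ∧ g.2 = d - 1 ∧ ReflTransGen (Rtd111WStep (rtd111Bd c d) G) f g) := by
  rw [rtd111_C1 hL G, rtd111_C2 hcd G]
  have h := pls_cyl_iff (L := 2 * L) (by omega) (c := 2 * c) (d := 2 * d) (by omega) (pls_per_compl (rtd111_per_Bl (c := c) (d := d) hG))
  rw [← Set.sdiff_eq, Set.sdiff_compl] at h
  exact h


/-! ## 10. STATUS FIELDS on the refined lattice (`CyF` of R291 `Ann/CylKit`), abstractly: a set `On` of cells and the edge set `G` which it codes -/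

/-- `On` = the cells of one sign of a status field on the refined lattice, `G` = the good edges of this sign: no face is `On`, an edge point is `On` iff the edge is good, the two ends of a good edge are `On`.
INSTANCES: `cyOn s (rcy162Fld L Y ω)` of Rsw/Sys162 (see Rsw/CylDict111), `rtd111Bl G` (`rtd111_spec_Bl`). -/
structure Rtd111Spec (On : Set (ℤ × ℤ)) (G : (ℤ × ℤ) × Bool → Prop) : Prop where
  F : ∀ f, rtd111F f ∉ On
  E : ∀ e, rtd111E e ∈ On ↔ G e
  P1 : ∀ e, G e → rtd111P e.1 ∈ On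
  P2 : ∀ e, G e → rtd111P (rswEnd e) ∈ On

theorem rtd111_spec_Bl (G : (ℤ × ℤ) × Bool → Prop) : Rtd111Spec (rtd111Bl G) G :=
  ⟨rtd111_F_not_mem_Bl, fun _ => rtd111_E_mem_Bl, fun _ _ => rtd111_P_mem_Bl _, fun _ _ => rtd111_P_mem_Bl _⟩

section tau

variable {On : Set (ℤ × ℤ)} {G : (ℤ × ℤ) × Bool → Prop}

/-- the cells are black for the good edges -/
theorem rtd111_on_sub_Bl (hs : Rtd111Spec On G) : On ⊆ rtd111Bl G := by
  intro p hp
  rcases rtd111_cases p with ⟨v, rfl⟩ | ⟨f, rfl⟩ | ⟨e, rfl⟩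
  · exact rtd111_P_mem_Bl v
  · exact absurd hp (hs.F f)
  · exact rtd111_E_mem_Bl.2 ((hs.E e).1 hp)

/-- an edge which has its point or an end off the cells is not good -/
theorem rtd111_not_good (hs : Rtd111Spec On G) {x : ℤ × ℤ} (hx : x ∉ On) {e : (ℤ × ℤ) × Bool}
    (h : x = rtd111E e ∨ x = rtd111P e.1 ∨ x = rtd111P (rswEnd e)) : ¬ G e := by
  intro hg
  rcases h with rfl | rfl | rfl
  · exact hx ((hs.E e).2 hg)
  · exact hx (hs.P1 e hg)
  · exact hx (hs.P2 e hg)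

/-- the face `g` touches the refined point `x` (`x` = the face, one of its four edges or one of its four corners) -/
def Rtd111Near (x g : ℤ × ℤ) : Prop := 2 * g.1 ≤ x.1 ∧ x.1 ≤ 2 * g.1 + 2 ∧ 2 * g.2 ≤ x.2 ∧ x.2 ≤ 2 * g.2 + 2

theorem rtd111_near_F (f : ℤ × ℤ) : Rtd111Near (rtd111F f) f := by
  simp only [Rtd111Near, rtd111F]; omega

theorem rtd111_near_F_iff {f g : ℤ × ℤ} : Rtd111Near (rtd111F f) g ↔ g = f := by
  constructor
  · intro h
    simp only [Rtd111Near, rtd111F] at h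
    exact Prod.ext (by omega) (by omega)
  · rintro rfl; exact rtd111_near_F g

theorem rtd111_c_stepH (hs : Rtd111Spec On G) {F' : Set (ℤ × ℤ)} {x : ℤ × ℤ} {i j : ℤ} (hx : x ∉ On)
    (h1 : (i, j) ∈ F') (h2 : (i + 1, j) ∈ F') (hx1 : x.1 = 2 * i + 2) (hx2 : 2 * j ≤ x.2) (hx3 : x.2 ≤ 2 * j + 2) :
    Rtd111WStep F' (G) (i, j) (i + 1, j) := by
  refine ⟨h1, h2, ((i + 1, j), true), Or.inr ⟨rfl, ?_⟩, rtd111_not_good hs hx ?_⟩
  · rw [rtd111_co_t]; simp
  · rw [rtd111_E_t, rtd111_end_t]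
    simp only [rtd111P]
    rcases (by omega : x.2 = 2 * j + 1 ∨ x.2 = 2 * j ∨ x.2 = 2 * j + 2) with h | h | h
    · exact Or.inl (Prod.ext (by simp only; omega) (by simp only; omega))
    · exact Or.inr (Or.inl (Prod.ext (by simp only; omega) (by simp only; omega)))
    · exact Or.inr (Or.inr (Prod.ext (by simp only; omega) (by simp only; omega)))

theorem rtd111_c_stepV (hs : Rtd111Spec On G) {F' : Set (ℤ × ℤ)} {x : ℤ × ℤ} {i j : ℤ} (hx : x ∉ On)
    (h1 : (i, j) ∈ F') (h2 : (i, j + 1) ∈ F') (hx1 : x.2 = 2 * j + 2) (hx2 : 2 * i ≤ x.1) (hx3 : x.1 ≤ 2 * i + 2) :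
    Rtd111WStep F' (G) (i, j) (i, j + 1) := by
  refine ⟨h1, h2, ((i, j + 1), false), Or.inr ⟨rfl, ?_⟩, rtd111_not_good hs hx ?_⟩
  · rw [rtd111_co_f]; simp
  · rw [rtd111_E_f, rtd111_end_f]
    simp only [rtd111P]
    rcases (by omega : x.1 = 2 * i + 1 ∨ x.1 = 2 * i ∨ x.1 = 2 * i + 2) with h | h | h
    · exact Or.inl (Prod.ext (by simp only; omega) (by simp only; omega))
    · exact Or.inr (Or.inl (Prod.ext (by simp only; omega) (by simp only; omega)))
    · exact Or.inr (Or.inr (Prod.ext (by simp only; omega) (by simp only; omega)))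

/-- (A) the faces of the region which touch a point off the cells of sign `a` are joined by dual steps -/
theorem rtd111_c_near_conn (hs : Rtd111Spec On G) {R : Set (ℤ × ℤ)} (hR : Rtd111Rect R) {x g g' : ℤ × ℤ} (hx : x ∉ On)
    (hg : g ∈ rtd111FR R) (hg' : g' ∈ rtd111FR R) (n : Rtd111Near x g) (n' : Rtd111Near x g') :
    ReflTransGen (Rtd111WStep (rtd111FR R) (G)) g g' := by
  obtain ⟨i, j⟩ := g
  obtain ⟨i', j'⟩ := g'
  obtain ⟨n1, n2, n3, n4⟩ := n
  obtain ⟨m1, m2, m3, m4⟩ := n'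
  simp only at n1 n2 n3 n4 m1 m2 m3 m4
  have hmid : (i', j) ∈ rtd111FR R := by
    refine hR _ hg _ hg' _ ?_ ?_ ?_ ?_ <;> simp only [rtd111F] <;> omega
  have hH : ReflTransGen (Rtd111WStep (rtd111FR R) (G)) (i, j) (i', j) := by
    rcases (by omega : i' = i ∨ i' = i + 1 ∨ i = i' + 1) with rfl | rfl | rfl
    · exact ReflTransGen.refl
    · exact ReflTransGen.single (rtd111_c_stepH hs hx hg hmid (by omega) n3 n4)
    · exact ReflTransGen.single (rtd111_wstep_symm (rtd111_c_stepH hs hx hmid hg (by omega) n3 n4))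
  have hV : ReflTransGen (Rtd111WStep (rtd111FR R) (G)) (i', j) (i', j') := by
    rcases (by omega : j' = j ∨ j' = j + 1 ∨ j = j' + 1) with rfl | rfl | rfl
    · exact ReflTransGen.refl
    · exact ReflTransGen.single (rtd111_c_stepV hs hx hmid hg' (by omega) m1 m2)
    · exact ReflTransGen.single (rtd111_wstep_symm (rtd111_c_stepV hs hx hg' hmid (by omega) m1 m2))
  exact hH.trans hV

/-- (B) two adjacent points of the region: a face of the region which touches the second gives a face of the region which touches both -/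
theorem rtd111_c_near_adj {R : Set (ℤ × ℤ)} (hR : Rtd111Rect R) {x y g' : ℤ × ℤ} (hadj : triAdj x y) (hx : x ∈ R)
    (hg' : g' ∈ rtd111FR R) (n' : Rtd111Near y g') : ∃ g ∈ rtd111FR R, Rtd111Near x g ∧ Rtd111Near y g := by
  obtain ⟨x1, x2⟩ := x
  obtain ⟨y1, y2⟩ := y
  obtain ⟨i', j'⟩ := g'
  rw [tsc_adj_iff] at hadj
  obtain ⟨m1, m2, m3, m4⟩ := n'
  simp only at hadj m1 m2 m3 m4
  obtain ⟨i, hi⟩ : ∃ i : ℤ, (x1 = 2 * i + 1) ∨ (x1 % 2 = 0 ∧ i = i') := by
    rcases Int.even_or_odd' x1 with ⟨k, hk | hk⟩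
    · exact ⟨i', Or.inr ⟨by omega, rfl⟩⟩
    · exact ⟨k, Or.inl hk⟩
  obtain ⟨j, hj⟩ : ∃ j : ℤ, (x2 = 2 * j + 1) ∨ (x2 % 2 = 0 ∧ j = j') := by
    rcases Int.even_or_odd' x2 with ⟨k, hk | hk⟩
    · exact ⟨j', Or.inr ⟨by omega, rfl⟩⟩
    · exact ⟨k, Or.inl hk⟩
  refine ⟨(i, j), ?_, ?_, ?_⟩
  · refine hR _ hx _ hg' _ ?_ ?_ ?_ ?_ <;> simp only [rtd111F] <;> omega
  · simp only [Rtd111Near]; omega
  · simp only [Rtd111Near]; omega

/-- **white projection**: a path of the region off the cells of sign `a` projects to a dual chain of faces of the region which crosses no good edge of colour `a` -/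
theorem rtd111_c_white_proj (hs : Rtd111Spec On G) {R : Set (ℤ × ℤ)} (hR : Rtd111Rect R) {x0 x f0 : ℤ × ℤ}
    (h : TscR tscG (R \ On) x0 x) (hx0 : x0 ∉ On)
    (hf0 : f0 ∈ rtd111FR R) (n0 : Rtd111Near x0 f0) :
    ∀ g ∈ rtd111FR R, Rtd111Near x g → ReflTransGen (Rtd111WStep (rtd111FR R) (G)) f0 g := by
  induction h with
  | refl => exact fun g hg n => rtd111_c_near_conn hs hR hx0 hf0 hg n0 n
  | @tail x y _ hxy ih =>
    obtain ⟨hadj, ⟨hxR, hxB⟩, ⟨hyR, hyB⟩⟩ := hxy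
    intro g' hg' n'
    obtain ⟨g, hg, n1, n2⟩ := rtd111_c_near_adj hR hadj hxR hg' n'
    exact (ih g hg n1).trans (rtd111_c_near_conn hs hR hyB hg hg' n2 n')

/-- (C) a point of the region off the cells of sign `a` is joined to the faces of the region which touch it -/
theorem rtd111_c_to_face (hs : Rtd111Spec On G) {R : Set (ℤ × ℤ)} (hR : Rtd111Rect R) {x f : ℤ × ℤ} (hx : x ∈ R \ On)
    (hf : f ∈ rtd111FR R) (n : Rtd111Near x f) : TscR tscG (R \ On) x (rtd111F f) := by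
  have hfW : rtd111F f ∈ R \ On := ⟨hf, hs.F f⟩
  obtain ⟨x1, x2⟩ := x
  obtain ⟨i, j⟩ := f
  obtain ⟨n1, n2, n3, n4⟩ := n
  simp only at n1 n2 n3 n4
  by_cases h0 : x1 = 2 * i + 1 ∧ x2 = 2 * j + 1
  · obtain ⟨rfl, rfl⟩ := h0
    exact ReflTransGen.refl
  by_cases h1 : triAdj (x1, x2) (rtd111F (i, j))
  · exact tsc_R_step (G := tscG) h1 hx hfW
  · rw [tsc_adj_iff] at h1
    simp only [rtd111F] at h1
    rcases (by omega : (x1 = 2 * i ∧ x2 = 2 * j) ∨ (x1 = 2 * i + 2 ∧ x2 = 2 * j + 2)) with ⟨rfl, rfl⟩ | ⟨rfl, rfl⟩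
    · -- the vertex `(i, j)`: through the edge `((i, j), false)`
      have hm : rtd111E ((i, j), false) ∈ R \ On := by
        refine ⟨?_, fun hh => rtd111_not_good hs hx.2 (Or.inr (Or.inl rfl)) ((hs.E _).1 hh)⟩
        refine hR _ hx.1 _ hf _ ?_ ?_ ?_ ?_ <;> simp only [rtd111F, rtd111_E_f] <;> omega
      have a1 : triAdj (2 * i, 2 * j) (rtd111E ((i, j), false)) := by
        rw [tsc_adj_iff, rtd111_E_f]; exact Or.inl ⟨rfl, rfl⟩
      have a2 : triAdj (rtd111E ((i, j), false)) (rtd111F (i, j)) := by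
        rw [tsc_adj_iff, rtd111_E_f]; exact Or.inr (Or.inl ⟨rfl, rfl⟩)
      exact (tsc_R_step (G := tscG) a1 hx hm).trans (tsc_R_step (G := tscG) a2 hm hfW)
    · -- the vertex `(i + 1, j + 1)`: through the edge `((i, j + 1), false)`
      have hm : rtd111E ((i, j + 1), false) ∈ R \ On := by
        refine ⟨?_, fun hh => rtd111_not_good hs hx.2 (Or.inr (Or.inr ?_)) ((hs.E _).1 hh)⟩
        · refine hR _ hx.1 _ hf _ ?_ ?_ ?_ ?_ <;> simp only [rtd111F, rtd111_E_f] <;> omega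
        · rw [rtd111_end_f]; simp only [rtd111P]; exact Prod.ext (by simp only; ring) (by simp only; ring)
      have a1 : triAdj (2 * i + 2, 2 * j + 2) (rtd111E ((i, j + 1), false)) := by
        rw [tsc_adj_iff, rtd111_E_f]; exact Or.inr (Or.inr (Or.inr (Or.inl ⟨by simp only; omega, by simp only; omega⟩)))
      have a2 : triAdj (rtd111E ((i, j + 1), false)) (rtd111F (i, j)) := by
        rw [tsc_adj_iff, rtd111_E_f]; exact Or.inr (Or.inr (Or.inr (Or.inr (Or.inl ⟨rfl, by simp only [rtd111F]; omega⟩))))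
      exact (tsc_R_step (G := tscG) a1 hx hm).trans (tsc_R_step (G := tscG) a2 hm hfW)

theorem rtd111_c_white_lift (hs : Rtd111Spec On G) {R : Set (ℤ × ℤ)} (hR : Rtd111Rect R) {f g : ℤ × ℤ}
    (h : ReflTransGen (Rtd111WStep (rtd111FR R) (G)) f g) :
    TscR tscG (R \ On) (rtd111F f) (rtd111F g) := by
  induction h with
  | refl => exact ReflTransGen.refl
  | @tail x y _ hs ih =>
    refine ih.trans ?_
    obtain ⟨hf, hg, e, he, hG⟩ := hs
    have hfW : rtd111F x ∈ R \ On := ⟨hf, hs.F x⟩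
    have hgW : rtd111F y ∈ R \ On := ⟨hg, hs.F y⟩
    have hnB : rtd111E e ∉ On := fun hh => hG ((hs.E _).1 hh)
    rcases he with ⟨rfl, rfl⟩ | ⟨rfl, rfl⟩
    · have heW : rtd111E e ∈ R \ On := ⟨rtd111_E_mem_of_faces hR hf hg, hnB⟩
      exact (tsc_R_step (G := tscG) (rtd111_adj_F1 e) hfW heW).trans (tsc_R_step (G := tscG) (rtd111_adj_symm (rtd111_adj_F2 e)) heW hgW)
    · have heW : rtd111E e ∈ R \ On := ⟨rtd111_E_mem_of_faces hR hg hf, hnB⟩
      exact (tsc_R_step (G := tscG) (rtd111_adj_F2 e) hfW heW).trans (tsc_R_step (G := tscG) (rtd111_adj_symm (rtd111_adj_F1 e)) heW hgW)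

/-- **WHITE DICTIONARY OF THE STATUS FIELD**, any box / band / half plane `R` of the refined lattice: two points of `R` off the cells of sign `a` are joined off these cells inside `R` iff the faces of `R`
which touch them are joined by a dual chain of faces of `R` which crosses no good edge of colour `a` -/
theorem rtd111_c_white_iff (hs : Rtd111Spec On G) {R : Set (ℤ × ℤ)} (hR : Rtd111Rect R) {x0 x1 f0 f1 : ℤ × ℤ}
    (hx0 : x0 ∈ R \ On) (hx1 : x1 ∈ R \ On)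
    (hf0 : f0 ∈ rtd111FR R) (hf1 : f1 ∈ rtd111FR R) (n0 : Rtd111Near x0 f0) (n1 : Rtd111Near x1 f1) :
    TscR tscG (R \ On) x0 x1 ↔ ReflTransGen (Rtd111WStep (rtd111FR R) (G)) f0 f1 := by
  constructor
  · intro h
    exact rtd111_c_white_proj hs hR h hx0.2 hf0 n0 f1 hf1 n1
  · intro h
    exact (rtd111_c_to_face hs hR hx0 hf0 n0).trans ((rtd111_c_white_lift hs hR h).trans (tsc_R_symm (rtd111_c_to_face hs hR hx1 hf1 n1)))

/-! ### the black dictionary of the status field -/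

theorem rtd111_c_vert_conn (hs : Rtd111Spec On G) {R : Set (ℤ × ℤ)} {x u w : ℤ × ℤ} (hx : x ∈ R ∩ On)
    (hu : Rtd111Vert x u) (hw : Rtd111Vert x w) : ReflTransGen (Rtd111BStep (fun e => G e ∧ rtd111E e ∈ R)) u w := by
  rcases hu with rfl | ⟨e, rfl, hu⟩
  · rcases hw with hw | ⟨e, he, _⟩
    · rw [rtd111_P_inj hw]
    · exact absurd he (rtd111_P_ne_E u e)
  · rcases hw with hw | ⟨e', he', hw⟩
    · exact absurd hw.symm (rtd111_P_ne_E w e)
    · rw [← rtd111_E_inj he'] at hw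
      have hg : G e ∧ rtd111E e ∈ R := ⟨(hs.E _).1 hx.2, hx.1⟩
      rcases hu with rfl | rfl <;> rcases hw with rfl | rfl
      · exact ReflTransGen.refl
      · exact ReflTransGen.single ⟨e, hg, Or.inl ⟨rfl, rfl⟩⟩
      · exact ReflTransGen.single ⟨e, hg, Or.inr ⟨rfl, rfl⟩⟩
      · exact ReflTransGen.refl

/-- **black projection**: a path of cells of sign `a` inside any region `R` projects to a chain of good edges of colour `a` whose points lie in `R` -/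
theorem rtd111_c_black_proj (hs : Rtd111Spec On G) {R : Set (ℤ × ℤ)} {x0 x u w : ℤ × ℤ} (h : TscR tscG (R ∩ On) x0 x)
    (hx0 : x0 ∈ R ∩ On) (hu : Rtd111Vert x0 u) (hw : Rtd111Vert x w) :
    ReflTransGen (Rtd111BStep (fun e => G e ∧ rtd111E e ∈ R)) u w :=
  rtd111_black_proj (tsc_R_mono (Set.inter_subset_inter_right R (rtd111_on_sub_Bl hs)) h) (fun w' hw' => rtd111_c_vert_conn hs hx0 hu hw') w hw

/-- the region contains the two ends of every edge whose point it contains (boxes and bands with EVEN sides) -/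
def Rtd111Ev (R : Set (ℤ × ℤ)) : Prop := ∀ e : (ℤ × ℤ) × Bool, rtd111E e ∈ R → rtd111P e.1 ∈ R ∧ rtd111P (rswEnd e) ∈ R

theorem rtd111_ev_band (c d : ℤ) : Rtd111Ev (plsBand (2 * c) (2 * d)) := by
  rintro ⟨⟨x, y⟩, b⟩ h
  cases b
  · simp only [rtd111_end_f, rtd111_E_f, rtd111_mem_band, rtd111P] at *; omega
  · simp only [rtd111_end_t, rtd111_E_t, rtd111_mem_band, rtd111P] at *; omega

theorem rtd111_ev_box (a b c d : ℤ) : Rtd111Ev (tscBox (2 * a) (2 * b) (2 * c) (2 * d)) := by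
  rintro ⟨⟨x, y⟩, b'⟩ h
  cases b'
  · simp only [rtd111_end_f, rtd111_E_f, rtd111_mem_box, rtd111P] at *; omega
  · simp only [rtd111_end_t, rtd111_E_t, rtd111_mem_box, rtd111P] at *; omega

theorem rtd111_c_to_vert (hs : Rtd111Spec On G) {R : Set (ℤ × ℤ)} (hR : Rtd111Ev R) {x u : ℤ × ℤ} (hx : x ∈ R ∩ On)
    (hu : Rtd111Vert x u) : rtd111P u ∈ R ∩ On ∧ TscR tscG (R ∩ On) x (rtd111P u) := by
  rcases hu with rfl | ⟨e, rfl, hu⟩
  · exact ⟨hx, ReflTransGen.refl⟩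
  · have hg := (hs.E _).1 hx.2
    obtain ⟨r1, r2⟩ := hR e hx.1
    rcases hu with rfl | rfl
    · have h1 : rtd111P e.1 ∈ R ∩ On := ⟨r1, hs.P1 _ hg⟩
      exact ⟨h1, tsc_R_step (G := tscG) (rtd111_adj_symm (rtd111_adj_P1 e)) hx h1⟩
    · have h1 : rtd111P (rswEnd e) ∈ R ∩ On := ⟨r2, hs.P2 _ hg⟩
      exact ⟨h1, tsc_R_step (G := tscG) (rtd111_adj_symm (rtd111_adj_P2 e)) hx h1⟩

theorem rtd111_c_black_lift (hs : Rtd111Spec On G) {R : Set (ℤ × ℤ)} (hR : Rtd111Ev R) {u v : ℤ × ℤ}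
    (h : ReflTransGen (Rtd111BStep (fun e => G e ∧ rtd111E e ∈ R)) u v) :
    TscR tscG (R ∩ On) (rtd111P u) (rtd111P v) := by
  induction h with
  | refl => exact ReflTransGen.refl
  | @tail x y _ hs ih =>
    refine ih.trans ?_
    obtain ⟨e, ⟨hg, hE⟩, he⟩ := hs
    have hx : rtd111E e ∈ R ∩ On := ⟨hE, (hs.E _).2 hg⟩
    have h1 := (rtd111_c_to_vert hs hR hx (Or.inr ⟨e, rfl, Or.inl rfl⟩)).2
    have h2 := (rtd111_c_to_vert hs hR hx (Or.inr ⟨e, rfl, Or.inr rfl⟩)).2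
    rcases he with ⟨rfl, rfl⟩ | ⟨rfl, rfl⟩
    · exact (tsc_R_symm h1).trans h2
    · exact (tsc_R_symm h2).trans h1

/-- **BLACK DICTIONARY OF THE STATUS FIELD**, boxes and bands with even sides: two cells of sign `a` are joined by cells of sign `a` inside `R` iff their vertices are joined by a chain of good edges of
colour `a` whose points lie in `R` -/
theorem rtd111_c_black_iff (hs : Rtd111Spec On G) {R : Set (ℤ × ℤ)} (hR : Rtd111Ev R) {x0 x1 u v : ℤ × ℤ}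
    (hx0 : x0 ∈ R ∩ On) (hx1 : x1 ∈ R ∩ On)
    (hu : Rtd111Vert x0 u) (hv : Rtd111Vert x1 v) :
    TscR tscG (R ∩ On) x0 x1 ↔ ReflTransGen (Rtd111BStep (fun e => G e ∧ rtd111E e ∈ R)) u v := by
  constructor
  · intro h
    exact rtd111_c_black_proj hs h hx0 hu hv
  · intro h
    exact (rtd111_c_to_vert hs hR hx0 hu).2.trans ((rtd111_c_black_lift hs hR h).trans (tsc_R_symm (rtd111_c_to_vert hs hR hx1 hv).2))

/-! ### crossings in words -/

/-- a cell of sign `a` on an even row has a vertex on this row -/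
theorem rtd111_c_vert_row (hs : Rtd111Spec On G) {x : ℤ × ℤ} {k : ℤ} (hx : x ∈ On) (hk : x.2 = 2 * k) :
    ∃ u : ℤ × ℤ, Rtd111Vert x u ∧ u.2 = k := by
  rcases rtd111_cases x with ⟨v, rfl⟩ | ⟨f, rfl⟩ | ⟨⟨⟨i, j⟩, b⟩, rfl⟩
  · exact ⟨v, Or.inl rfl, by simp only [rtd111P] at hk; omega⟩
  · exact absurd hx (hs.F f)
  · cases b
    · exact ⟨(i, j), Or.inr ⟨_, rfl, Or.inl rfl⟩, by rw [rtd111_E_f] at hk; simp only at hk ⊢; omega⟩
    · rw [rtd111_E_t] at hk; simp only at hk; omega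

/-- **vertical crossings by cells, in words** (`R` = a box or a band with even sides; rows `2 c`, `2 d`) -/
theorem rtd111_c_X_black (hs : Rtd111Spec On G) {R : Set (ℤ × ℤ)} (hR : Rtd111Ev R) (c d : ℤ) :
    CyX (R ∩ On) (2 * c) (2 * d) ↔
      ∃ u v : ℤ × ℤ, rtd111P u ∈ R ∩ On ∧ u.2 = c ∧ v.2 = d ∧ ReflTransGen (Rtd111BStep (fun e => G e ∧ rtd111E e ∈ R)) u v := by
  constructor
  · rintro ⟨x0, x1, hx0, h0, h1, h⟩
    have hx1 := tsc_R_mem h hx0
    obtain ⟨u, hu, hu2⟩ := rtd111_c_vert_row hs hx0.2 h0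
    obtain ⟨v, hv, hv2⟩ := rtd111_c_vert_row hs hx1.2 h1
    exact ⟨u, v, (rtd111_c_to_vert hs hR hx0 hu).1, hu2, hv2, rtd111_c_black_proj hs h hx0 hu hv⟩
  · rintro ⟨u, v, hu, hu2, hv2, h⟩
    exact ⟨rtd111P u, rtd111P v, hu, by simp only [rtd111P]; omega, by simp only [rtd111P]; omega, rtd111_c_black_lift hs hR h⟩

/-- **vertical crossings off the cells of sign `a`, in words** (`R` = a box or a band in which every point of an odd row touches a face of `R`; rows `2 c + 1`, `2 d + 1`) -/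
theorem rtd111_c_X_white (hs : Rtd111Spec On G) {R : Set (ℤ × ℤ)} (hR : Rtd111Rect R)
    (hRf : ∀ x ∈ R, x.2 % 2 = 1 → ∃ f ∈ rtd111FR R, Rtd111Near x f) (c d : ℤ) :
    CyX (R \ On) (2 * c + 1) (2 * d + 1) ↔
      ∃ f g : ℤ × ℤ, f ∈ rtd111FR R ∧ f.2 = c ∧ g.2 = d ∧ ReflTransGen (Rtd111WStep (rtd111FR R) (G)) f g := by
  constructor
  · rintro ⟨x0, x1, hx0, h0, h1, h⟩
    have hx1 := tsc_R_mem h hx0
    obtain ⟨f, hf, nf⟩ := hRf x0 hx0.1 (by omega)
    obtain ⟨g, hg, ng⟩ := hRf x1 hx1.1 (by omega)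
    refine ⟨f, g, hf, ?_, ?_, rtd111_c_white_proj hs hR h hx0.2 hf nf g hg ng⟩
    · obtain ⟨_, _, n3, n4⟩ := nf; omega
    · obtain ⟨_, _, n3, n4⟩ := ng; omega
  · rintro ⟨f, g, hf, hf2, hg2, h⟩
    exact ⟨rtd111F f, rtd111F g, ⟨hf, hs.F f⟩, by simp only [rtd111F]; omega, by simp only [rtd111F]; omega, rtd111_c_white_lift hs hR h⟩

/-! ### the parity of the rows: crossings off the cells end on odd rows, crossings by cells end on even rows -/

theorem rtd111_c_off_up (hs : Rtd111Spec On G) {x : ℤ × ℤ} (hx : x ∉ On) (h2 : x.2 % 2 = 0) : (x.1, x.2 + 1) ∉ On := by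
  rcases rtd111_cases x with ⟨v, rfl⟩ | ⟨f, rfl⟩ | ⟨⟨⟨i, j⟩, b⟩, rfl⟩
  · intro h
    have e : ((rtd111P v).1, (rtd111P v).2 + 1) = rtd111E ((v.1, v.2), true) := rfl
    rw [e] at h
    exact hx (hs.P1 _ ((hs.E _).1 h))
  · simp only [rtd111F] at h2; omega
  · cases b
    · exact hs.F (i, j)
    · rw [rtd111_E_t] at h2; simp only at h2; omega

theorem rtd111_c_off_dn (hs : Rtd111Spec On G) {x : ℤ × ℤ} (hx : x ∉ On) (h2 : x.2 % 2 = 0) : (x.1, x.2 - 1) ∉ On := by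
  rcases rtd111_cases x with ⟨v, rfl⟩ | ⟨f, rfl⟩ | ⟨⟨⟨i, j⟩, b⟩, rfl⟩
  · intro h
    have e : ((rtd111P v).1, (rtd111P v).2 - 1) = rtd111E ((v.1, v.2 - 1), true) := by
      rw [rtd111_E_t]; simp only [rtd111P]; exact Prod.ext rfl (by simp only; ring)
    rw [e] at h
    have h3 := hs.P2 _ ((hs.E _).1 h)
    rw [rtd111_end_t, sub_add_cancel] at h3
    exact hx h3
  · simp only [rtd111F] at h2; omega
  · cases b
    · have e : ((rtd111E ((i, j), false)).1, (rtd111E ((i, j), false)).2 - 1) = rtd111F (i, j - 1) := by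
        rw [rtd111_E_f]; simp only [rtd111F]; exact Prod.ext rfl (by simp only; ring)
      rw [e]
      exact hs.F _
    · rw [rtd111_E_t] at h2; simp only at h2; omega

theorem rtd111_c_on_up (hs : Rtd111Spec On G) {x : ℤ × ℤ} (hx : x ∈ On) (h2 : x.2 % 2 = 1) : (x.1, x.2 + 1) ∈ On := by
  rcases rtd111_cases x with ⟨v, rfl⟩ | ⟨f, rfl⟩ | ⟨⟨⟨i, j⟩, b⟩, rfl⟩
  · simp only [rtd111P] at h2; omega
  · exact absurd hx (hs.F f)
  · cases b
    · rw [rtd111_E_f] at h2; simp only at h2; omega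
    · have h3 := hs.P2 _ ((hs.E _).1 hx)
      have e : ((rtd111E ((i, j), true)).1, (rtd111E ((i, j), true)).2 + 1) = rtd111P (rswEnd ((i, j), true)) := by
        rw [rtd111_E_t, rtd111_end_t]; simp only [rtd111P]; exact Prod.ext rfl (by simp only; ring)
      rw [e]
      exact h3

theorem rtd111_c_on_dn (hs : Rtd111Spec On G) {x : ℤ × ℤ} (hx : x ∈ On) (h2 : x.2 % 2 = 1) : (x.1, x.2 - 1) ∈ On := by
  rcases rtd111_cases x with ⟨v, rfl⟩ | ⟨f, rfl⟩ | ⟨⟨⟨i, j⟩, b⟩, rfl⟩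
  · simp only [rtd111P] at h2; omega
  · exact absurd hx (hs.F f)
  · cases b
    · rw [rtd111_E_f] at h2; simp only at h2; omega
    · have h3 := hs.P1 _ ((hs.E _).1 hx)
      have e : ((rtd111E ((i, j), true)).1, (rtd111E ((i, j), true)).2 - 1) = rtd111P (i, j) := by
        rw [rtd111_E_t]; simp only [rtd111P]; exact Prod.ext rfl (by simp only; ring)
      rw [e]
      exact h3

theorem rtd111_X_ext_up {S S' : Set (ℤ × ℤ)} {c d : ℤ} (hSS : S ⊆ S') (hx : CyX S c d) (hstep : ∀ v ∈ S, v.2 = d → (v.1, v.2 + 1) ∈ S') :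
    CyX S' c (d + 1) := by
  obtain ⟨u, v, hu, h1, h2, h⟩ := hx
  have hv := tsc_R_mem h hu
  have a1 : triAdj v (v.1, v.2 + 1) := by rw [tsc_adj_iff]; exact Or.inr (Or.inl ⟨rfl, rfl⟩)
  exact ⟨u, (v.1, v.2 + 1), hSS hu, h1, by simp only; omega, (tsc_R_mono hSS h).trans (tsc_R_step (G := tscG) a1 (hSS hv) (hstep v hv h2))⟩

theorem rtd111_X_ext_dn {S S' : Set (ℤ × ℤ)} {c d : ℤ} (hSS : S ⊆ S') (hx : CyX S c d) (hstep : ∀ v ∈ S, v.2 = c → (v.1, v.2 - 1) ∈ S') :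
    CyX S' (c - 1) d := by
  obtain ⟨u, v, hu, h1, h2, h⟩ := hx
  have a1 : triAdj (u.1, u.2 - 1) u := by rw [tsc_adj_iff]; exact Or.inr (Or.inl ⟨rfl, by simp only; omega⟩)
  exact ⟨(u.1, u.2 - 1), v, hstep u hu h1, by simp only; omega, h2, (tsc_R_step (G := tscG) a1 (hstep u hu h1) (hSS hu)).trans (tsc_R_mono hSS h)⟩

/-- a set of columns -/
def Rtd111Col (W : Set (ℤ × ℤ)) : Prop := ∀ p q : ℤ × ℤ, p.1 = q.1 → p ∈ W → q ∈ W

theorem rtd111_col_univ : Rtd111Col Set.univ := fun _ _ _ _ => trivial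

theorem rtd111_col_strip (a b : ℤ) : Rtd111Col {p : ℤ × ℤ | a ≤ p.1 ∧ p.1 ≤ b} := fun p q h hp => by
  show a ≤ q.1 ∧ q.1 ≤ b
  rw [← h]; exact hp

theorem rtd111_box_eq (a b c d : ℤ) : tscBox a b c d = {p : ℤ × ℤ | a ≤ p.1 ∧ p.1 ≤ b} ∩ plsBand c d := by
  ext p
  constructor
  · rintro ⟨h1, h2, h3, h4⟩; exact ⟨⟨h1, h2⟩, h3, h4⟩
  · rintro ⟨⟨h1, h2⟩, h3, h4⟩; exact ⟨h1, h2, h3, h4⟩

/-- a crossing off the cells which ends on the even row `2 d` goes on to the row `2 d + 1` -/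
theorem rtd111_c_white_top (hs : Rtd111Spec On G) {W : Set (ℤ × ℤ)} (hW : Rtd111Col W) {c d : ℤ} (hcd : c ≤ 2 * d) :
    CyX ((W ∩ plsBand c (2 * d)) \ On) c (2 * d) ↔ CyX ((W ∩ plsBand c (2 * d + 1)) \ On) c (2 * d + 1) := by
  constructor
  · intro h
    refine rtd111_X_ext_up ?_ h ?_
    · rintro p ⟨⟨h1, h2, h3⟩, h4⟩; exact ⟨⟨h1, h2, by omega⟩, h4⟩
    · rintro v ⟨⟨h1, h2, h3⟩, h4⟩ hv
      exact ⟨⟨hW v _ rfl h1, by show c ≤ v.2 + 1; omega, by show v.2 + 1 ≤ 2 * d + 1; omega⟩, rtd111_c_off_up hs h4 (by omega)⟩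
  · rintro ⟨u, v, hu, h1, h2, h⟩
    refine cy_X_mono ?_ (cy_sub_v hu h h1.le hcd (by omega))
    rintro p ⟨⟨⟨h1, _⟩, h4⟩, h5⟩; exact ⟨⟨h1, h5⟩, h4⟩

/-- a crossing off the cells which starts on the even row `2 c` comes from the row `2 c - 1` -/
theorem rtd111_c_white_bot (hs : Rtd111Spec On G) {W : Set (ℤ × ℤ)} (hW : Rtd111Col W) {c d : ℤ} (hcd : 2 * c ≤ d) :
    CyX ((W ∩ plsBand (2 * c) d) \ On) (2 * c) d ↔ CyX ((W ∩ plsBand (2 * c - 1) d) \ On) (2 * c - 1) d := by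
  constructor
  · intro h
    refine rtd111_X_ext_dn ?_ h ?_
    · rintro p ⟨⟨h1, h2, h3⟩, h4⟩; exact ⟨⟨h1, by omega, h3⟩, h4⟩
    · rintro v ⟨⟨h1, h2, h3⟩, h4⟩ hv
      exact ⟨⟨hW v _ rfl h1, by show 2 * c - 1 ≤ v.2 - 1; omega, by show v.2 - 1 ≤ d; omega⟩, rtd111_c_off_dn hs h4 (by omega)⟩
  · rintro ⟨u, v, hu, h1, h2, h⟩
    refine cy_X_mono ?_ (cy_sub_v hu h (by omega) hcd h2.ge)
    rintro p ⟨⟨⟨h1, _⟩, h4⟩, h5⟩; exact ⟨⟨h1, h5⟩, h4⟩

/-- a crossing by cells which ends on the odd row `2 d + 1` goes on to the row `2 d + 2` -/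
theorem rtd111_c_black_top (hs : Rtd111Spec On G) {W : Set (ℤ × ℤ)} (hW : Rtd111Col W) {c d : ℤ} (hcd : c ≤ 2 * d + 1) :
    CyX ((W ∩ plsBand c (2 * d + 1)) ∩ On) c (2 * d + 1) ↔ CyX ((W ∩ plsBand c (2 * d + 1 + 1)) ∩ On) c (2 * d + 1 + 1) := by
  constructor
  · intro h
    refine rtd111_X_ext_up ?_ h ?_
    · rintro p ⟨⟨h1, h2, h3⟩, h4⟩; exact ⟨⟨h1, h2, by omega⟩, h4⟩
    · rintro v ⟨⟨h1, h2, h3⟩, h4⟩ hv
      exact ⟨⟨hW v _ rfl h1, by show c ≤ v.2 + 1; omega, by show v.2 + 1 ≤ 2 * d + 1 + 1; omega⟩, rtd111_c_on_up hs h4 (by omega)⟩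
  · rintro ⟨u, v, hu, h1, h2, h⟩
    refine cy_X_mono ?_ (cy_sub_v hu h h1.le hcd (by omega))
    rintro p ⟨⟨⟨h1, _⟩, h4⟩, h5⟩; exact ⟨⟨h1, h5⟩, h4⟩

/-- a crossing by cells which starts on the odd row `2 c + 1` comes from the row `2 c` -/
theorem rtd111_c_black_bot (hs : Rtd111Spec On G) {W : Set (ℤ × ℤ)} (hW : Rtd111Col W) {c d : ℤ} (hcd : 2 * c + 1 ≤ d) :
    CyX ((W ∩ plsBand (2 * c + 1) d) ∩ On) (2 * c + 1) d ↔ CyX ((W ∩ plsBand (2 * c + 1 - 1) d) ∩ On) (2 * c + 1 - 1) d := by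
  constructor
  · intro h
    refine rtd111_X_ext_dn ?_ h ?_
    · rintro p ⟨⟨h1, h2, h3⟩, h4⟩; exact ⟨⟨h1, by omega, h3⟩, h4⟩
    · rintro v ⟨⟨h1, h2, h3⟩, h4⟩ hv
      exact ⟨⟨hW v _ rfl h1, by show 2 * c + 1 - 1 ≤ v.2 - 1; omega, by show v.2 - 1 ≤ d; omega⟩, rtd111_c_on_dn hs h4 (by omega)⟩
  · rintro ⟨u, v, hu, h1, h2, h⟩
    refine cy_X_mono ?_ (cy_sub_v hu h (by omega) hcd h2.ge)
    rintro p ⟨⟨⟨h1, _⟩, h4⟩, h5⟩; exact ⟨⟨h1, h5⟩, h4⟩

end tau

/-! ## 11. THE EVENTS `cyVP cyBlk cyV cyH` OF R291 `Ann/CylKit` IN WORDS, CYLINDER DUALITY ON STATUS FIELDS -/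

section events

variable {τ : CyF} {s : SignType} {G : (ℤ × ℤ) × Bool → Prop}

theorem rtd111_FR_band_odd (c d : ℤ) : rtd111FR (plsBand (2 * c + 1) (2 * d - 1)) = rtd111Bd c d := by
  ext f
  show rtd111F f ∈ plsBand (2 * c + 1) (2 * d - 1) ↔ _
  rw [rtd111_mem_band, rtd111_mem_Bd]
  simp only [rtd111F]
  omega

theorem rtd111_FR_box_odd (a b c d : ℤ) : rtd111FR (tscBox (2 * a) (2 * b) (2 * c + 1) (2 * d - 1)) = rtd111FB a b c d := by
  ext f
  show rtd111F f ∈ tscBox (2 * a) (2 * b) (2 * c + 1) (2 * d - 1) ↔ _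
  rw [rtd111_mem_box, rtd111_mem_FB]
  simp only [rtd111F]
  omega

/-- **`cyBlk` in words**: the band of rows `2 c + 1 .. 2 d - 1` of the refined lattice is blocked by the cells of sign `s` iff no dual chain of faces of the rows `c .. d - 1` which crosses no good edge joins
the bottom row of faces to the top row -/
theorem rtd111_c_Blk (hs : Rtd111Spec (cyOn s τ) G) {c d : ℤ} (hcd : c < d) :
    τ ∈ cyBlk s (2 * c + 1) (2 * d - 1) ↔
      ¬ ∃ f g : ℤ × ℤ, f.2 = c ∧ g.2 = d - 1 ∧ ReflTransGen (Rtd111WStep (rtd111Bd c d) G) f g := by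
  show ¬ CyX (plsBand (2 * c + 1) (2 * d - 1) \ cyOn s τ) (2 * c + 1) (2 * d - 1) ↔ _
  have h := rtd111_c_X_white hs (rtd111_rect_band (2 * c + 1) (2 * d - 1)) (by
    intro x hx h2
    rw [rtd111_FR_band_odd]
    rw [rtd111_mem_band] at hx
    refine ⟨(x.1 / 2, (x.2 - 1) / 2), ?_, ?_⟩
    · rw [rtd111_mem_Bd]; simp only; omega
    · simp only [Rtd111Near]; omega) c (d - 1)
  rw [show 2 * (d - 1) + 1 = 2 * d - 1 by ring, rtd111_FR_band_odd] at h
  rw [h]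
  refine not_congr ⟨?_, ?_⟩
  · rintro ⟨f, g, _, h1, h2, h3⟩; exact ⟨f, g, h1, h2, h3⟩
  · rintro ⟨f, g, h1, h2, h3⟩; exact ⟨f, g, ⟨by omega, by omega⟩, h1, h2, h3⟩

/-- **`cyH` in words** -/
theorem rtd111_c_H (hs : Rtd111Spec (cyOn s τ) G) {a b c d : ℤ} (hab : a < b) :
    τ ∈ cyH s (2 * a) (2 * b) (2 * c + 1) (2 * d - 1) ↔
      ¬ ∃ f g : ℤ × ℤ, f ∈ rtd111FB a b c d ∧ f.2 = c ∧ g.2 = d - 1 ∧ ReflTransGen (Rtd111WStep (rtd111FB a b c d) G) f g := by
  show ¬ CyX (tscBox (2 * a) (2 * b) (2 * c + 1) (2 * d - 1) \ cyOn s τ) (2 * c + 1) (2 * d - 1) ↔ _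
  have h := rtd111_c_X_white hs (rtd111_rect_box (2 * a) (2 * b) (2 * c + 1) (2 * d - 1)) (by
    intro x hx h2
    rw [rtd111_FR_box_odd]
    rw [rtd111_mem_box] at hx
    by_cases hb : x.1 < 2 * b
    · refine ⟨(x.1 / 2, (x.2 - 1) / 2), ?_, ?_⟩
      · rw [rtd111_mem_FB]; simp only; omega
      · simp only [Rtd111Near]; omega
    · refine ⟨(b - 1, (x.2 - 1) / 2), ?_, ?_⟩
      · rw [rtd111_mem_FB]; simp only; omega
      · simp only [Rtd111Near]; omega) c (d - 1)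
  rw [show 2 * (d - 1) + 1 = 2 * d - 1 by ring, rtd111_FR_box_odd] at h
  rw [h]

/-- **`cyH` = a left-right chain of good interior edges** (box duality) -/
theorem rtd111_c_H_chain (hs : Rtd111Spec (cyOn s τ) G) {a b c d : ℤ} (hab : a < b) (hcd : c < d) :
    τ ∈ cyH s (2 * a) (2 * b) (2 * c + 1) (2 * d - 1) ↔
      ∃ u v : ℤ × ℤ, u.1 = a ∧ v.1 = b ∧ ReflTransGen (Rtd111BStep (Rtd111In (rtd111FB a b c d) G)) u v := by
  rw [rtd111_c_H hs hab, rtd111_box_dual hab hcd]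

/-- **`cyVP` in words** -/
theorem rtd111_c_VP (hs : Rtd111Spec (cyOn s τ) G) (c d : ℤ) :
    τ ∈ cyVP s (2 * c) (2 * d) ↔
      ∃ u v : ℤ × ℤ, rtd111P u ∈ plsBand (2 * c) (2 * d) ∩ cyOn s τ ∧ u.2 = c ∧ v.2 = d ∧
        ReflTransGen (Rtd111BStep (fun e => G e ∧ rtd111E e ∈ plsBand (2 * c) (2 * d))) u v :=
  rtd111_c_X_black hs (rtd111_ev_band c d) c d

/-- **`cyV` in words** -/
theorem rtd111_c_V (hs : Rtd111Spec (cyOn s τ) G) (a b c d : ℤ) :
    τ ∈ cyV s (2 * a) (2 * b) (2 * c) (2 * d) ↔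
      ∃ u v : ℤ × ℤ, rtd111P u ∈ tscBox (2 * a) (2 * b) (2 * c) (2 * d) ∩ cyOn s τ ∧ u.2 = c ∧ v.2 = d ∧
        ReflTransGen (Rtd111BStep (fun e => G e ∧ rtd111E e ∈ tscBox (2 * a) (2 * b) (2 * c) (2 * d))) u v :=
  rtd111_c_X_black hs (rtd111_ev_box a b c d) c d

/-- **CYLINDER DUALITY ON THE FIELD, first orientation**: `cyBlk` = a circuit of good interior edges which winds once -/
theorem rtd111_c_Blk_circuit (hs : Rtd111Spec (cyOn s τ) G) {L c d : ℤ} (hL : 0 < L) (hcd : c < d) (hG : Rtd111Per L G) :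
    τ ∈ cyBlk s (2 * c + 1) (2 * d - 1) ↔ ∃ u : ℤ × ℤ, ReflTransGen (Rtd111BStep (Rtd111In (rtd111Bd c d) G)) u (u.1 + L, u.2) := by
  rw [rtd111_c_Blk hs hcd, rtd111_cyl_dual hL hcd hG]

/-- **CYLINDER DUALITY ON THE FIELD, second orientation**: no vertical crossing of the rows `2 c .. 2 d` by cells of sign `s` iff a dual circuit of faces of the rows `c .. d - 1` which crosses no good edge
winds once -/
theorem rtd111_c_VP_cocircuit (hs : Rtd111Spec (cyOn s τ) G) {L c d : ℤ} (hL : 0 < L) (hcd : c < d) (hper : CyPer (2 * L) τ) :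
    τ ∉ cyVP s (2 * c) (2 * d) ↔ ∃ f : ℤ × ℤ, f ∈ rtd111Bd c d ∧ ReflTransGen (Rtd111WStep (rtd111Bd c d) G) f (f.1 + L, f.2) := by
  have hR := rtd111_rect_band (2 * c) (2 * d)
  have hFR := rtd111_FR_band c d
  have h := pls_cyl_iff (L := 2 * L) (by omega) (c := 2 * c) (d := 2 * d) (by omega) (cy_per_on s hper)
  show ¬ CyX (plsBand (2 * c) (2 * d) ∩ cyOn s τ) (2 * c) (2 * d) ↔ _
  refine Iff.trans h.symm ?_
  constructor
  · rintro ⟨z, hz, hzz⟩
    have hz' := tsc_R_mem hzz hz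
    have hzb := hz.1
    rw [rtd111_mem_band] at hzb
    obtain ⟨j, hj1, hj2, hj3, hj4⟩ : ∃ j : ℤ, c ≤ j ∧ j < d ∧ 2 * j ≤ z.2 ∧ z.2 ≤ 2 * j + 2 := by
      by_cases hd : z.2 < 2 * d
      · exact ⟨z.2 / 2, by omega, by omega, by omega, by omega⟩
      · exact ⟨d - 1, by omega, by omega, by omega, by omega⟩
    have hf0 : (z.1 / 2, j) ∈ rtd111FR (plsBand (2 * c) (2 * d)) := by rw [hFR]; exact ⟨hj1, hj2⟩
    have hf1 : (z.1 / 2 + L, j) ∈ rtd111FR (plsBand (2 * c) (2 * d)) := by rw [hFR]; exact ⟨hj1, hj2⟩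
    have := (rtd111_c_white_iff hs hR hz hz' hf0 hf1 (by simp only [Rtd111Near]; omega)
      (by simp only [Rtd111Near, Prod.fst_add, Prod.snd_add]; omega)).1 hzz
    rw [hFR] at this
    exact ⟨(z.1 / 2, j), ⟨hj1, hj2⟩, this⟩
  · rintro ⟨f, hf, h1⟩
    have h2 := rtd111_c_white_lift hs hR (f := f) (g := (f.1 + L, f.2)) (by rw [hFR]; exact h1)
    refine ⟨rtd111F f, ⟨?_, hs.F f⟩, ?_⟩
    · have : f ∈ rtd111FR (plsBand (2 * c) (2 * d)) := by rw [hFR]; exact hf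
      exact this
    · rw [rtd111_F_shift]; exact h2

/-- **the connected periodic blocking set** (J3 in the form of 121), any status field -/
theorem rtd111_c_set {L c d : ℤ} (hL : 0 < L) (hcd : c ≤ d) (hper : CyPer L τ) (h : τ ∈ cyBlk s c d) :
    ∃ M : Set (ℤ × ℤ), M ⊆ plsBand c d ∩ cyOn s τ ∧ M.Nonempty ∧ TscConn tscG M ∧ PlsPer L M ∧
      ∀ (T : Set (ℤ × ℤ)) (u v : ℤ × ℤ), u ∈ T → TscR tscG T u v → u.2 ≤ c → d ≤ v.2 → (M ∩ T).Nonempty := by
  obtain ⟨M, h1, h2⟩ := pls_cyl_set hL hcd (pls_per_compl (cy_per_on s hper)) h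
  refine ⟨M, fun p hp => ?_, h2⟩
  have := h1 hp
  exact ⟨this.1, not_not.1 this.2⟩

/-! ### the parity of the rows, on the events -/

theorem rtd111_c_Blk_top (hs : Rtd111Spec (cyOn s τ) G) {c d : ℤ} (hcd : c ≤ 2 * d) : τ ∈ cyBlk s c (2 * d) ↔ τ ∈ cyBlk s c (2 * d + 1) := by
  have h := rtd111_c_white_top hs rtd111_col_univ hcd
  simp only [Set.univ_inter] at h
  exact not_congr h

theorem rtd111_c_Blk_bot (hs : Rtd111Spec (cyOn s τ) G) {c d : ℤ} (hcd : 2 * c ≤ d) : τ ∈ cyBlk s (2 * c) d ↔ τ ∈ cyBlk s (2 * c - 1) d := by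
  have h := rtd111_c_white_bot hs rtd111_col_univ hcd
  simp only [Set.univ_inter] at h
  exact not_congr h

theorem rtd111_c_VP_top (hs : Rtd111Spec (cyOn s τ) G) {c d : ℤ} (hcd : c ≤ 2 * d + 1) : τ ∈ cyVP s c (2 * d + 1) ↔ τ ∈ cyVP s c (2 * d + 1 + 1) := by
  have h := rtd111_c_black_top hs rtd111_col_univ hcd
  simp only [Set.univ_inter] at h
  exact h

theorem rtd111_c_VP_bot (hs : Rtd111Spec (cyOn s τ) G) {c d : ℤ} (hcd : 2 * c + 1 ≤ d) : τ ∈ cyVP s (2 * c + 1) d ↔ τ ∈ cyVP s (2 * c + 1 - 1) d := by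
  have h := rtd111_c_black_bot hs rtd111_col_univ hcd
  simp only [Set.univ_inter] at h
  exact h

theorem rtd111_c_H_top (hs : Rtd111Spec (cyOn s τ) G) (a b : ℤ) {c d : ℤ} (hcd : c ≤ 2 * d) : τ ∈ cyH s a b c (2 * d) ↔ τ ∈ cyH s a b c (2 * d + 1) := by
  have h := rtd111_c_white_top hs (rtd111_col_strip a b) hcd
  rw [← rtd111_box_eq, ← rtd111_box_eq] at h
  exact not_congr h

theorem rtd111_c_H_bot (hs : Rtd111Spec (cyOn s τ) G) (a b : ℤ) {c d : ℤ} (hcd : 2 * c ≤ d) : τ ∈ cyH s a b (2 * c) d ↔ τ ∈ cyH s a b (2 * c - 1) d := by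
  have h := rtd111_c_white_bot hs (rtd111_col_strip a b) hcd
  rw [← rtd111_box_eq, ← rtd111_box_eq] at h
  exact not_congr h

theorem rtd111_c_V_top (hs : Rtd111Spec (cyOn s τ) G) (a b : ℤ) {c d : ℤ} (hcd : c ≤ 2 * d + 1) :
    τ ∈ cyV s a b c (2 * d + 1) ↔ τ ∈ cyV s a b c (2 * d + 1 + 1) := by
  have h := rtd111_c_black_top hs (rtd111_col_strip a b) hcd
  rw [← rtd111_box_eq, ← rtd111_box_eq] at h
  exact h

theorem rtd111_c_V_bot (hs : Rtd111Spec (cyOn s τ) G) (a b : ℤ) {c d : ℤ} (hcd : 2 * c + 1 ≤ d) :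
    τ ∈ cyV s a b (2 * c + 1) d ↔ τ ∈ cyV s a b (2 * c + 1 - 1) d := by
  have h := rtd111_c_black_bot hs (rtd111_col_strip a b) hcd
  rw [← rtd111_box_eq, ← rtd111_box_eq] at h
  exact h

end events

/-- the on-demand equation lemmas of the definitions of this file are generated HERE (RULES.md, rule 6) -/
theorem rtd111_eqns_cite : True := by
  have := @rtd111P.eq_1
  have := @rtd111F.eq_1
  have := @rtd111E.eq_1
  have := @Rtd111WStep.eq_1
  have := @rtd111Wh.eq_1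
  have := @Rtd111Face.eq_1
  have := @Rtd111BStep.eq_1
  have := @rtd111Bl.eq_1
  have := @Rtd111Vert.eq_1
  have := @Rtd111Rect.eq_1
  have := @rtd111FR.eq_1
  have := @Rtd111In.eq_1
  have := @rtd111FB.eq_1
  have := @rtd111Rc.eq_1
  have := @Rtd111Chain.eq_1
  have := @rtd111xN.eq_1
  have := @rtd111xK.eq_1
  have := @rtd111xT.eq_1
  have := @rtd111xCls.eq_1
  have := @rtd111xS.eq_1
  have := @rtd111xE.eq_1
  have := @rtd111xS'.eq_1
  have := @rtd111xE'.eq_1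
  have := @rtd111Bd.eq_1
  have := @Rtd111Per.eq_1
  have := @Rtd111Near.eq_1
  have := @Rtd111Ev.eq_1
  have := @Rtd111Col.eq_1
  trivial

end Claimed.Agent.R292
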