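import Claimed.Agent.R292.Defs.RSW
import Claimed.Agent.R291.Ann.CylKit
import Claimed.Agent.R292.Rsw.TriDict111
import Claimed.Agent.R292.Rsw.CoreTop121
import Claimed.Agent.R292.Rsw.Cut91

/-!
# Row 292 (S0540), Rsw/Sys162 : N3 = THE ABSTRACT FINITE EDGE-PAIR SYSTEM, THE PLANE AND THE CYLINDER AS INSTANCES      (owner helper162; prefix `rcy162` / `Rcy162`)      0 sorry

Order of 122 (RSW-5 (a)) and 121 (A4 / N3 of `CORE_DICT.md`).   What `ClSys` was in R291.   The configuration type is the one of the plane (`RswCfg = (S, D, O)` of Defs/RSW), so all systems share ONE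
configuration type, and a planar domain which does not wrap has literally the same edge pairs.

§1 `Rcy162Sys` = (primal sites `V`, faces `Fc`, interacting edge pairs `E`, endpoints `p0 p1`, faces `f0 f1` of an edge pair);   `fac` = THE TABLE `rswFac`;   for ANY constraint `K : RswCfg → Prop`
   (pins, boundary conditions, histories): `wt`, `sum`, `Ex`, `Pr`;   `Good`, `Step`, `Sep` (as `RswGood`, `RswStep`, `RswSep`).
§2 calculus: weights `≥ 0`, linear, monotone (also reading only the configurations of nonzero weight), `0 < Z` from one feasible configuration, `Ex`, `Pr` (complement, union, monotone).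
§3 the plane: `rcy162Pl F`;   `rcy162_pl_sum / _E / _P / _good / _step / _sep` : the flat problem `(F, b)` of Defs/RSW IS the system `rcy162Pl F` under `K = RswBc F b`  (all `rfl`).
§4 transport: `Rcy162Hom Y Y' gV gF gE` (bijections of sites, faces, edge pairs which respect endpoints and faces as UNORDERED pairs) ⟹ `rcy162_hom_sum / _Ex / _Pr`;   global flips of `S` and `D`.
§5 the cylinder `rcy162Cyl L a b` = `ℤ/L × [a, b]` (fundamental domain `0 ≤ i < L`; vertex rows `a..b`, face rows `a..b-1`; the horizontal edges of the rows `a`, `b` are boundary edges: excluded, as the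
   polygon edges of a flat problem);   `Rcy162Mix` (`s` minus on the row `a`, plus on the row `b`), `Rcy162Flat` (`s = c` on both rows);   well formed, feasible;   symmetries: horizontal shifts,
   mirror `i ↦ -i`, reflection of the rows (+ flip of `S` for the mixed law).
§6 `Y.cfgs` (the `Finset` of the configurations; `rcy162_mem_cfgs`, `rcy162_sum_cfgs`, `rcy162_sum_cfgs'`), `Y.w t` (free weight), `Y.Le` (the order `(s, W⁺, -W⁻)`), `Y.sgV`, `Y.sgE`,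
   **`rcy162Fld L Y ω : CyF`** = the lifted periodic status field on the refined lattice of `TriDict111` (`rcy162_fld_P / _F / _E`, `_mono`, `_per`: period `2 L`), `rcy162Agr` (agreement on a set of refined cells),
   **`rcy162Q t L H E`** = law of the field under the mixed law.
§7 symmetries of the cylinder: `rcy162_shift_hom`, `rcy162_mirror_hom` (any `μ`), `rcy162_rev_hom` : `Rcy162Hom`;   `rcy162_shift_fld / _mirror_fld / _rev_fld / rcy162_flipS_fld` : what they do to the field.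
§8 `rcy162_mix_iff`, `rcy162_flat_iff` (boundary conditions read on the field), their invariance (`rcy162_mix_shift / _mirror / _revflip`, `rcy162_flat_shift / _mirror`);
   **`rcy162_Q_shift`, `rcy162_Q_shift'` (`Even a`), `rcy162_Q_mirror`, `rcy162_Q_refl`**;   soft: `rcy162_Q_nonneg / _univ / _empty / _mono / _union / _compl`.
§9 histories (`RswCon` of CoreTop121) on a system: `Y.Holds K ω`, `Y.Legal K`, **`Y.PK t B K L`** (`= Y.Pr t (B ∧ Holds K) L`);   plane bridges `rcy162_pl_holds / _legal / _PK` (`= rswPK`);   `rcy162_P_cond`,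
   `rcy162_PK_chain`, `rcy162_PK_chain2` (`rcy162Join`), `rcy162_PK_free`;   transport `rcy162MapK`, `rcy162_hom_holds`, `rcy162_hom_PK`;   flip `rcy162FlipK`, `rcy162_flip_holds`, `rcy162_flip_PK`.
§10 the sum over `O`: `Y.fo`, `Y.fc`, `Y.tab` (table `1, t, t, 0`), `rcy162_sum_O`, `rcy162_sum_O_prod`, `rcy162_sum_spin`.
§11 refined fields `Rcy162Ref` (`rcy162_ref_fld`: the status field of the cylinder is one), diagonals are harmless (`rcy162_diag_on / _off`, `rcy162_refl_path`), `rcy162Rf ρ τ` = (reversal of the rows) ∘ (flip);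
   `rcy162_rf_VP / _Blk / _V / _H` (deterministic);   **`rcy162_Q_refl_VP`, `rcy162_Q_refl_Blk`** (= field `refl` of `Rct127Law`, `ρ = 2 H`), `rcy162_Q_refl_V / _H`, `rcy162_Q_congr`.
§12 THE ABSTRACT CUT (lem:finite-cuts on a system; port of `Cut91`): `Rcy162Sub Y Y' C` (subsystem with core `C`), `Rcy162Pin Y' C A` (the rim `Y'.V \ C` has the pattern `A`), `Rcy162Cut Y Y' C A` (pattern on the rim + every
   edge pair of `Y` off `Y'` with a face in `Y'` is open), `rcy162In`, `rcy162Out`, `rcy162CutI`;   **`rcy162_cut_prod`, `rcy162_cut_cross`, `rcy162_cut_comp`, `rcy162_cut`**.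
§13 cylinders inside cylinders: `rcy162QM t L a b E` (law of the field, mixed law on the rows `a..b`), `rcy162RowEv s y`, `rcy162_sub_cyl`, `rcy162_fld_in`, **`rcy162_markov`**, `rcy162_markov_up / _low` (Markov property in the
   language of the field), `rcy162_row_pos`;   vertical shifts `rcy162_vshift_hom / _fld`, `rcy162_QM_vshift`;   `Rcy162Fkg t L a b` ⟹ `rcy162_dom_up`, `rcy162_dom_low` (monotonicity in the two boundary rows) ⟹
   **`rcy162_slide_QM`, `rcy162_slide`** (= field `slide` of `Rct127Law`, in the form of the hypothesis of `rci69_law`; FKG = `rci69_cyl_fkg` of 69).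
-/

set_option autoImplicit false

namespace Claimed.Agent.R292

open Claims Claims.C0468 Finset Claimed.Agent.R291

/-! ## 1. the abstract system -/

/-- an abstract finite edge-pair system on the carriers of Defs/RSW -/
structure Rcy162Sys where
  /-- primal sites -/
  V : Finset (ℤ × ℤ)
  /-- faces -/
  Fc : Finset (ℤ × ℤ)
  /-- interacting edge pairs -/
  E : Finset ((ℤ × ℤ) × Bool)
  /-- first endpoint -/
  p0 : (ℤ × ℤ) × Bool → ℤ × ℤ
  /-- second endpoint -/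
  p1 : (ℤ × ℤ) × Bool → ℤ × ℤ
  /-- first face -/
  f0 : (ℤ × ℤ) × Bool → ℤ × ℤ
  /-- second face -/
  f1 : (ℤ × ℤ) × Bool → ℤ × ℤ

/-- the endpoints and the faces of the interacting edge pairs belong to the system -/
structure Rcy162Sys.WF (Y : Rcy162Sys) : Prop where
  p0 : ∀ e ∈ Y.E, Y.p0 e ∈ Y.V
  p1 : ∀ e ∈ Y.E, Y.p1 e ∈ Y.V
  f0 : ∀ e ∈ Y.E, Y.f0 e ∈ Y.Fc
  f1 : ∀ e ∈ Y.E, Y.f1 e ∈ Y.Fc

/-- TEX eq:spatial-edge-weight: the factor of one edge pair (the table of `rswFac`) -/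
noncomputable def Rcy162Sys.fac (Y : Rcy162Sys) (t : ℝ) (ω : RswCfg) (e : (ℤ × ℤ) × Bool) : ℝ :=
  open Classical in
  if e ∈ ω.O then (if (Y.p0 e ∈ ω.S ↔ Y.p1 e ∈ ω.S) then t else 0)
  else if (Y.f0 e ∈ ω.D ↔ Y.f1 e ∈ ω.D) then (if (Y.p0 e ∈ ω.S ↔ Y.p1 e ∈ ω.S) then 1 - t else t) else 0

/-- weight of a configuration under the constraint `K` -/
noncomputable def Rcy162Sys.wt (Y : Rcy162Sys) (t : ℝ) (K : RswCfg → Prop) (ω : RswCfg) : ℝ :=
  open Classical in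
  if K ω then ∏ e ∈ Y.E, Y.fac t ω e else 0

/-- unnormalised sum -/
noncomputable def Rcy162Sys.sum (Y : Rcy162Sys) (t : ℝ) (K : RswCfg → Prop) (X : RswCfg → ℝ) : ℝ :=
  ∑ S ∈ Y.V.powerset, ∑ D ∈ Y.Fc.powerset, ∑ O ∈ Y.E.powerset, Y.wt t K ⟨S, D, O⟩ * X ⟨S, D, O⟩

/-- expectation -/
noncomputable def Rcy162Sys.Ex (Y : Rcy162Sys) (t : ℝ) (K : RswCfg → Prop) (X : RswCfg → ℝ) : ℝ :=
  Y.sum t K X / Y.sum t K (fun _ => 1)

/-- probability -/
noncomputable def Rcy162Sys.Pr (Y : Rcy162Sys) (t : ℝ) (K : RswCfg → Prop) (L : RswCfg → Prop) : ℝ :=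
  open Classical in Y.Ex t K (fun ω => if L ω then 1 else 0)

/-- the configuration belongs to the system -/
def Rcy162Sys.Cfg (Y : Rcy162Sys) (ω : RswCfg) : Prop := ω.S ⊆ Y.V ∧ ω.D ⊆ Y.Fc ∧ ω.O ⊆ Y.E

/-- open `W` edge whose two endpoints have colour `a` -/
def Rcy162Sys.Good (Y : Rcy162Sys) (a : Bool) (ω : RswCfg) (e : (ℤ × ℤ) × Bool) : Prop :=
  e ∈ ω.O ∧ (Y.p0 e ∈ ω.S ↔ a = true) ∧ (Y.p1 e ∈ ω.S ↔ a = true)

/-- one step of a dual path which crosses an edge that is NOT good -/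
def Rcy162Sys.Step (Y : Rcy162Sys) (a : Bool) (ω : RswCfg) (f g : ℤ × ℤ) : Prop :=
  f ∈ Y.Fc ∧ g ∈ Y.Fc ∧ ∃ e, ((f = Y.f0 e ∧ g = Y.f1 e) ∨ (g = Y.f0 e ∧ f = Y.f1 e)) ∧ ¬ Y.Good a ω e

/-- the good edges of colour `a` separate the faces `A` from the faces `B` -/
def Rcy162Sys.Sep (Y : Rcy162Sys) (a : Bool) (ω : RswCfg) (A B : Finset (ℤ × ℤ)) : Prop :=
  ∀ f ∈ A, ∀ g ∈ B, ¬ Relation.ReflTransGen (Y.Step a ω) f g

/-! ## 2. calculus -/

section calculus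

variable (Y : Rcy162Sys) {t : ℝ} (K : RswCfg → Prop)

theorem rcy162_fac_nonneg (h0 : 0 ≤ t) (h1 : t ≤ 1) (ω : RswCfg) (e : (ℤ × ℤ) × Bool) : 0 ≤ Y.fac t ω e := by
  unfold Rcy162Sys.fac
  split_ifs <;> linarith

theorem rcy162_wt_nonneg (h0 : 0 ≤ t) (h1 : t ≤ 1) (ω : RswCfg) : 0 ≤ Y.wt t K ω := by
  unfold Rcy162Sys.wt
  split_ifs
  · exact prod_nonneg fun e _ => rcy162_fac_nonneg Y h0 h1 ω e
  · exact le_rfl

theorem rcy162_wt_of {K : RswCfg → Prop} {ω : RswCfg} (h : K ω) : Y.wt t K ω = ∏ e ∈ Y.E, Y.fac t ω e := by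
  unfold Rcy162Sys.wt; rw [if_pos h]

theorem rcy162_wt_of_not {K : RswCfg → Prop} {ω : RswCfg} (h : ¬ K ω) : Y.wt t K ω = 0 := by
  unfold Rcy162Sys.wt; rw [if_neg h]

theorem rcy162_K_of_wt {K : RswCfg → Prop} {ω : RswCfg} (h : Y.wt t K ω ≠ 0) : K ω := by
  by_contra hK
  exact h (rcy162_wt_of_not Y hK)

theorem rcy162_fac_of_wt {K : RswCfg → Prop} {ω : RswCfg} (h : Y.wt t K ω ≠ 0) {e : (ℤ × ℤ) × Bool} (he : e ∈ Y.E) :
    Y.fac t ω e ≠ 0 := by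
  rw [rcy162_wt_of Y (rcy162_K_of_wt Y h)] at h
  exact fun h0 => h (prod_eq_zero he h0)

variable (t)

theorem rcy162_sum_add (X X' : RswCfg → ℝ) : Y.sum t K (fun ω => X ω + X' ω) = Y.sum t K X + Y.sum t K X' := by
  unfold Rcy162Sys.sum
  simp only [mul_add, sum_add_distrib]

theorem rcy162_sum_sub (X X' : RswCfg → ℝ) : Y.sum t K (fun ω => X ω - X' ω) = Y.sum t K X - Y.sum t K X' := by
  unfold Rcy162Sys.sum
  simp only [mul_sub, sum_sub_distrib]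

theorem rcy162_sum_smul (a : ℝ) (X : RswCfg → ℝ) : Y.sum t K (fun ω => a * X ω) = a * Y.sum t K X := by
  unfold Rcy162Sys.sum
  simp only [mul_sum]
  refine sum_congr rfl fun S _ => sum_congr rfl fun D _ => sum_congr rfl fun O _ => ?_
  ring

theorem rcy162_sum_fsum {ι : Type*} (s : Finset ι) (X : ι → RswCfg → ℝ) :
    Y.sum t K (fun ω => ∑ i ∈ s, X i ω) = ∑ i ∈ s, Y.sum t K (X i) := by
  classical
  induction s using Finset.induction_on with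
  | empty => simp [Rcy162Sys.sum]
  | insert i s hi ih =>
    simp only [sum_insert hi]
    rw [rcy162_sum_add, ih]

/-- only the configurations of the system with nonzero weight matter -/
theorem rcy162_sum_congr {X X' : RswCfg → ℝ} (h : ∀ ω : RswCfg, Y.Cfg ω → Y.wt t K ω ≠ 0 → X ω = X' ω) :
    Y.sum t K X = Y.sum t K X' := by
  unfold Rcy162Sys.sum
  refine sum_congr rfl fun S hS => sum_congr rfl fun D hD => sum_congr rfl fun O hO => ?_
  by_cases hw : Y.wt t K ⟨S, D, O⟩ = 0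
  · rw [hw, zero_mul, zero_mul]
  · rw [h ⟨S, D, O⟩ ⟨mem_powerset.1 hS, mem_powerset.1 hD, mem_powerset.1 hO⟩ hw]

/-- the constraint may be changed off the configurations of the system -/
theorem rcy162_sum_congr_K {K K' : RswCfg → Prop} (h : ∀ ω : RswCfg, Y.Cfg ω → (K ω ↔ K' ω)) (X : RswCfg → ℝ) :
    Y.sum t K X = Y.sum t K' X := by
  classical
  unfold Rcy162Sys.sum
  refine sum_congr rfl fun S hS => sum_congr rfl fun D hD => sum_congr rfl fun O hO => ?_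
  have := h ⟨S, D, O⟩ ⟨mem_powerset.1 hS, mem_powerset.1 hD, mem_powerset.1 hO⟩
  unfold Rcy162Sys.wt
  by_cases hK : K ⟨S, D, O⟩
  · rw [if_pos hK, if_pos (this.1 hK)]
  · rw [if_neg hK, if_neg (fun hh => hK (this.2 hh))]

/-- an event in the constraint = an indicator in the observable -/
theorem rcy162_sum_and (K' : RswCfg → Prop) (X : RswCfg → ℝ) :
    Y.sum t (fun ω => K ω ∧ K' ω) X = Y.sum t K (fun ω => open Classical in if K' ω then X ω else 0) := by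
  classical
  unfold Rcy162Sys.sum
  refine sum_congr rfl fun S _ => sum_congr rfl fun D _ => sum_congr rfl fun O _ => ?_
  unfold Rcy162Sys.wt
  by_cases h1 : K ⟨S, D, O⟩ <;> by_cases h2 : K' ⟨S, D, O⟩ <;> simp [h1, h2]

variable {t}

theorem rcy162_sum_mono (h0 : 0 ≤ t) (h1 : t ≤ 1) {X X' : RswCfg → ℝ} (h : ∀ ω, X ω ≤ X' ω) : Y.sum t K X ≤ Y.sum t K X' := by
  unfold Rcy162Sys.sum
  exact sum_le_sum fun S _ => sum_le_sum fun D _ => sum_le_sum fun O _ =>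
    mul_le_mul_of_nonneg_left (h _) (rcy162_wt_nonneg Y K h0 h1 _)

theorem rcy162_sum_mono' (h0 : 0 ≤ t) (h1 : t ≤ 1) {X X' : RswCfg → ℝ}
    (h : ∀ ω : RswCfg, Y.Cfg ω → Y.wt t K ω ≠ 0 → X ω ≤ X' ω) : Y.sum t K X ≤ Y.sum t K X' := by
  unfold Rcy162Sys.sum
  refine sum_le_sum fun S hS => sum_le_sum fun D hD => sum_le_sum fun O hO => ?_
  by_cases hw : Y.wt t K ⟨S, D, O⟩ = 0
  · rw [hw, zero_mul, zero_mul]
  · exact mul_le_mul_of_nonneg_left (h ⟨S, D, O⟩ ⟨mem_powerset.1 hS, mem_powerset.1 hD, mem_powerset.1 hO⟩ hw)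
      (rcy162_wt_nonneg Y K h0 h1 _)

theorem rcy162_sum_nonneg (h0 : 0 ≤ t) (h1 : t ≤ 1) {X : RswCfg → ℝ} (h : ∀ ω, 0 ≤ X ω) : 0 ≤ Y.sum t K X := by
  unfold Rcy162Sys.sum
  exact sum_nonneg fun S _ => sum_nonneg fun D _ => sum_nonneg fun O _ => mul_nonneg (rcy162_wt_nonneg Y K h0 h1 _) (h _)

/-- one configuration of the system bounds the sum from below -/
theorem rcy162_single_le (h0 : 0 ≤ t) (h1 : t ≤ 1) {X : RswCfg → ℝ} (hX : ∀ ω, 0 ≤ X ω) {ω : RswCfg} (hω : Y.Cfg ω) :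
    Y.wt t K ω * X ω ≤ Y.sum t K X := by
  obtain ⟨S0, D0, O0⟩ := ω
  obtain ⟨hS, hD, hO⟩ := hω
  have nn : ∀ S D O, 0 ≤ Y.wt t K ⟨S, D, O⟩ * X ⟨S, D, O⟩ := fun S D O => mul_nonneg (rcy162_wt_nonneg Y K h0 h1 _) (hX _)
  unfold Rcy162Sys.sum
  calc Y.wt t K ⟨S0, D0, O0⟩ * X ⟨S0, D0, O0⟩
      ≤ ∑ O ∈ Y.E.powerset, Y.wt t K ⟨S0, D0, O⟩ * X ⟨S0, D0, O⟩ :=
        single_le_sum (f := fun O => Y.wt t K ⟨S0, D0, O⟩ * X ⟨S0, D0, O⟩) (fun O _ => nn _ _ O) (mem_powerset.2 hO)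
    _ ≤ ∑ D ∈ Y.Fc.powerset, ∑ O ∈ Y.E.powerset, Y.wt t K ⟨S0, D, O⟩ * X ⟨S0, D, O⟩ :=
        single_le_sum (f := fun D => ∑ O ∈ Y.E.powerset, Y.wt t K ⟨S0, D, O⟩ * X ⟨S0, D, O⟩)
          (fun D _ => sum_nonneg fun O _ => nn _ D O) (mem_powerset.2 hD)
    _ ≤ _ :=
        single_le_sum (f := fun S => ∑ D ∈ Y.Fc.powerset, ∑ O ∈ Y.E.powerset, Y.wt t K ⟨S, D, O⟩ * X ⟨S, D, O⟩)
          (fun S _ => sum_nonneg fun D _ => sum_nonneg fun O _ => nn S D O) (mem_powerset.2 hS)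

/-- feasibility: a configuration of the system of nonzero weight -/
def Rcy162Sys.Feas (Y : Rcy162Sys) (t : ℝ) (K : RswCfg → Prop) : Prop := ∃ ω, Y.Cfg ω ∧ Y.wt t K ω ≠ 0

theorem rcy162_Z_pos (h0 : 0 ≤ t) (h1 : t ≤ 1) (hf : Y.Feas t K) : 0 < Y.sum t K (fun _ => 1) := by
  obtain ⟨ω, hω, hw⟩ := hf
  have := rcy162_single_le Y K h0 h1 (X := fun _ => 1) (fun _ => zero_le_one) hω
  have hpos : 0 < Y.wt t K ω := lt_of_le_of_ne (rcy162_wt_nonneg Y K h0 h1 ω) (Ne.symm hw)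
  linarith

theorem rcy162_E_const (h0 : 0 ≤ t) (h1 : t ≤ 1) (hf : Y.Feas t K) (a : ℝ) : Y.Ex t K (fun _ => a) = a := by
  unfold Rcy162Sys.Ex
  have := rcy162_sum_smul Y t K a (fun _ => 1)
  simp only [mul_one] at this
  rw [this, mul_div_assoc, div_self (rcy162_Z_pos Y K h0 h1 hf).ne', mul_one]

variable (t)

theorem rcy162_E_add (X X' : RswCfg → ℝ) : Y.Ex t K (fun ω => X ω + X' ω) = Y.Ex t K X + Y.Ex t K X' := by
  unfold Rcy162Sys.Ex; rw [rcy162_sum_add, add_div]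

theorem rcy162_E_sub (X X' : RswCfg → ℝ) : Y.Ex t K (fun ω => X ω - X' ω) = Y.Ex t K X - Y.Ex t K X' := by
  unfold Rcy162Sys.Ex; rw [rcy162_sum_sub, sub_div]

theorem rcy162_E_smul (a : ℝ) (X : RswCfg → ℝ) : Y.Ex t K (fun ω => a * X ω) = a * Y.Ex t K X := by
  unfold Rcy162Sys.Ex; rw [rcy162_sum_smul, mul_div_assoc]

theorem rcy162_E_fsum {ι : Type*} (s : Finset ι) (X : ι → RswCfg → ℝ) :
    Y.Ex t K (fun ω => ∑ i ∈ s, X i ω) = ∑ i ∈ s, Y.Ex t K (X i) := by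
  unfold Rcy162Sys.Ex; rw [rcy162_sum_fsum, sum_div]

theorem rcy162_E_congr {X X' : RswCfg → ℝ} (h : ∀ ω : RswCfg, Y.Cfg ω → Y.wt t K ω ≠ 0 → X ω = X' ω) :
    Y.Ex t K X = Y.Ex t K X' := by
  unfold Rcy162Sys.Ex; rw [rcy162_sum_congr Y t K h]

variable {t}

theorem rcy162_E_mono (h0 : 0 ≤ t) (h1 : t ≤ 1) {X X' : RswCfg → ℝ} (h : ∀ ω, X ω ≤ X' ω) : Y.Ex t K X ≤ Y.Ex t K X' := by
  unfold Rcy162Sys.Ex
  exact div_le_div_of_nonneg_right (rcy162_sum_mono Y K h0 h1 h) (rcy162_sum_nonneg Y K h0 h1 fun _ => zero_le_one)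

theorem rcy162_E_mono' (h0 : 0 ≤ t) (h1 : t ≤ 1) {X X' : RswCfg → ℝ}
    (h : ∀ ω : RswCfg, Y.Cfg ω → Y.wt t K ω ≠ 0 → X ω ≤ X' ω) : Y.Ex t K X ≤ Y.Ex t K X' := by
  unfold Rcy162Sys.Ex
  exact div_le_div_of_nonneg_right (rcy162_sum_mono' Y K h0 h1 h) (rcy162_sum_nonneg Y K h0 h1 fun _ => zero_le_one)

theorem rcy162_E_nonneg (h0 : 0 ≤ t) (h1 : t ≤ 1) {X : RswCfg → ℝ} (h : ∀ ω, 0 ≤ X ω) : 0 ≤ Y.Ex t K X := by
  unfold Rcy162Sys.Ex
  exact div_nonneg (rcy162_sum_nonneg Y K h0 h1 h) (rcy162_sum_nonneg Y K h0 h1 fun _ => zero_le_one)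

open Classical in
theorem rcy162_P_def (t : ℝ) (L : RswCfg → Prop) : Y.Pr t K L = Y.Ex t K (fun ω => if L ω then 1 else 0) := by
  unfold Rcy162Sys.Pr
  congr 1

theorem rcy162_P_nonneg (h0 : 0 ≤ t) (h1 : t ≤ 1) (L : RswCfg → Prop) : 0 ≤ Y.Pr t K L := by
  classical
  rw [rcy162_P_def]
  exact rcy162_E_nonneg Y K h0 h1 fun ω => by split_ifs <;> norm_num

theorem rcy162_P_le_one (h0 : 0 ≤ t) (h1 : t ≤ 1) (hf : Y.Feas t K) (L : RswCfg → Prop) : Y.Pr t K L ≤ 1 := by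
  classical
  rw [rcy162_P_def]
  calc Y.Ex t K (fun ω => if L ω then 1 else 0) ≤ Y.Ex t K (fun _ => 1) :=
        rcy162_E_mono Y K h0 h1 fun ω => by split_ifs <;> norm_num
    _ = 1 := rcy162_E_const Y K h0 h1 hf 1

theorem rcy162_P_mono (h0 : 0 ≤ t) (h1 : t ≤ 1) {L L' : RswCfg → Prop} (h : ∀ ω, L ω → L' ω) : Y.Pr t K L ≤ Y.Pr t K L' := by
  classical
  rw [rcy162_P_def, rcy162_P_def]
  refine rcy162_E_mono Y K h0 h1 fun ω => ?_
  by_cases hL : L ω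
  · rw [if_pos hL, if_pos (h ω hL)]
  · rw [if_neg hL]; split_ifs <;> norm_num

theorem rcy162_P_mono' (h0 : 0 ≤ t) (h1 : t ≤ 1) {L L' : RswCfg → Prop}
    (h : ∀ ω : RswCfg, Y.Cfg ω → Y.wt t K ω ≠ 0 → L ω → L' ω) : Y.Pr t K L ≤ Y.Pr t K L' := by
  classical
  rw [rcy162_P_def, rcy162_P_def]
  refine rcy162_E_mono' Y K h0 h1 fun ω a1 a2 => ?_
  by_cases hL : L ω
  · rw [if_pos hL, if_pos (h ω a1 a2 hL)]
  · rw [if_neg hL]; split_ifs <;> norm_num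

theorem rcy162_P_congr (t : ℝ) {L L' : RswCfg → Prop} (h : ∀ ω : RswCfg, Y.Cfg ω → Y.wt t K ω ≠ 0 → (L ω ↔ L' ω)) :
    Y.Pr t K L = Y.Pr t K L' := by
  classical
  rw [rcy162_P_def, rcy162_P_def]
  refine rcy162_E_congr Y t K fun ω a1 a2 => ?_
  by_cases hL : L ω
  · rw [if_pos hL, if_pos ((h ω a1 a2).1 hL)]
  · rw [if_neg hL, if_neg (fun hh => hL ((h ω a1 a2).2 hh))]

theorem rcy162_P_compl (h0 : 0 ≤ t) (h1 : t ≤ 1) (hf : Y.Feas t K) (L : RswCfg → Prop) :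
    Y.Pr t K (fun ω => ¬ L ω) = 1 - Y.Pr t K L := by
  classical
  rw [rcy162_P_def, rcy162_P_def]
  have h := rcy162_E_sub Y t K (fun _ => 1) (fun ω => if L ω then 1 else 0)
  rw [rcy162_E_const Y K h0 h1 hf 1] at h
  rw [← h]
  congr 1
  funext ω
  by_cases hL : L ω <;> simp [hL]

theorem rcy162_P_union (h0 : 0 ≤ t) (h1 : t ≤ 1) (L L' : RswCfg → Prop) :
    Y.Pr t K (fun ω => L ω ∨ L' ω) ≤ Y.Pr t K L + Y.Pr t K L' := by
  classical
  rw [rcy162_P_def, rcy162_P_def, rcy162_P_def, ← rcy162_E_add]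
  refine rcy162_E_mono Y K h0 h1 fun ω => ?_
  by_cases hL : L ω <;> by_cases hL' : L' ω <;> simp [hL, hL']

theorem rcy162_P_true (h0 : 0 ≤ t) (h1 : t ≤ 1) (hf : Y.Feas t K) : Y.Pr t K (fun _ => True) = 1 := by
  classical
  rw [rcy162_P_def]
  simp only [if_true]
  exact rcy162_E_const Y K h0 h1 hf 1

theorem rcy162_P_false (t : ℝ) : Y.Pr t K (fun _ => False) = 0 := by
  classical
  rw [rcy162_P_def]
  simp only [if_false]
  unfold Rcy162Sys.Ex Rcy162Sys.sum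
  simp

end calculus

/-! ## 3. the plane -/

/-- the flat problem of the faces `F` as a system -/
def rcy162Pl (F : Finset (ℤ × ℤ)) : Rcy162Sys := ⟨cornersOf F, F, rswInt F, fun e => e.1, rswEnd, fun e => e.1, rswCo⟩

theorem rcy162_pl_fac (t : ℝ) (F : Finset (ℤ × ℤ)) (ω : RswCfg) (e : (ℤ × ℤ) × Bool) : (rcy162Pl F).fac t ω e = rswFac t ω e := rfl

theorem rcy162_pl_wt (t : ℝ) (F : Finset (ℤ × ℤ)) (b : Bool) (ω : RswCfg) : (rcy162Pl F).wt t (RswBc F b) ω = rswWt t F b ω := rfl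

theorem rcy162_pl_sum (t : ℝ) (F : Finset (ℤ × ℤ)) (b : Bool) (X : RswCfg → ℝ) : (rcy162Pl F).sum t (RswBc F b) X = rswSum t F b X := rfl

theorem rcy162_pl_E (t : ℝ) (F : Finset (ℤ × ℤ)) (b : Bool) (X : RswCfg → ℝ) : (rcy162Pl F).Ex t (RswBc F b) X = rswE t F b X := rfl

theorem rcy162_pl_P (t : ℝ) (F : Finset (ℤ × ℤ)) (b : Bool) (L : RswCfg → Prop) : (rcy162Pl F).Pr t (RswBc F b) L = rswP t F b L := rfl

theorem rcy162_pl_good (F : Finset (ℤ × ℤ)) (a : Bool) (ω : RswCfg) (e : (ℤ × ℤ) × Bool) : (rcy162Pl F).Good a ω e ↔ RswGood a ω e := Iff.rfl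

theorem rcy162_pl_step (F : Finset (ℤ × ℤ)) (a : Bool) (ω : RswCfg) : (rcy162Pl F).Step a ω = RswStep F a ω := rfl

theorem rcy162_pl_sep (F : Finset (ℤ × ℤ)) (a : Bool) (ω : RswCfg) (A B : Finset (ℤ × ℤ)) : (rcy162Pl F).Sep a ω A B ↔ RswSep F a ω A B := Iff.rfl

theorem rcy162_pl_wf (F : Finset (ℤ × ℤ)) : (rcy162Pl F).WF := by
  have hm : ∀ e, e ∈ rswInt F → e.1 ∈ F ∧ rswCo e ∈ F := by
    intro e he
    unfold rswInt at he
    simpa [Finset.mem_filter, Finset.mem_product] using he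
  refine ⟨fun e he => ?_, fun e he => ?_, fun e he => (hm e he).1, fun e he => (hm e he).2⟩
  · show e.1 ∈ cornersOf F
    unfold cornersOf
    exact mem_biUnion.2 ⟨e.1, (hm e he).1, by simp⟩
  · show rswEnd e ∈ cornersOf F
    unfold cornersOf rswEnd
    refine mem_biUnion.2 ⟨e.1, (hm e he).1, ?_⟩
    split_ifs <;> simp

/-! ## 4. transport -/

theorem rcy162_mem_image_iff {α : Type*} [DecidableEq α] {s A : Finset α} {g : α → α} (hg : Set.InjOn g s) (hA : A ⊆ s) {x : α}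
    (hx : x ∈ s) : g x ∈ A.image g ↔ x ∈ A := by
  rw [Finset.mem_image]
  constructor
  · rintro ⟨y, hy, hxy⟩
    have := hg (hA hy) hx hxy
    rwa [← this]
  · exact fun h => ⟨x, h, rfl⟩

theorem rcy162_sum_powerset_image {α : Type*} [DecidableEq α] {s : Finset α} {g : α → α} (hg : Set.InjOn g s) (φ : Finset α → ℝ) :
    ∑ B ∈ (s.image g).powerset, φ B = ∑ A ∈ s.powerset, φ (A.image g) := by
  symm
  refine Finset.sum_nbij' (fun A => A.image g) (fun B => s.filter fun x => g x ∈ B) ?_ ?_ ?_ ?_ ?_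
  · intro A hA
    exact mem_powerset.2 (image_subset_image (mem_powerset.1 hA))
  · intro B _
    exact mem_powerset.2 (filter_subset _ _)
  · intro A hA
    ext x
    rw [mem_filter]
    constructor
    · rintro ⟨hx, h⟩
      exact (rcy162_mem_image_iff hg (mem_powerset.1 hA) hx).1 h
    · intro hx
      exact ⟨mem_powerset.1 hA hx, mem_image_of_mem g hx⟩
  · intro B hB
    ext y
    rw [mem_image]
    constructor
    · rintro ⟨x, hx, rfl⟩
      exact (mem_filter.1 hx).2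
    · intro hy
      obtain ⟨x, hx, rfl⟩ := mem_image.1 (mem_powerset.1 hB hy)
      exact ⟨x, mem_filter.2 ⟨hx, hy⟩, rfl⟩
  · intro A _
    rfl

theorem rcy162_sum_powerset_compl {α : Type*} [DecidableEq α] (s : Finset α) (φ : Finset α → ℝ) :
    ∑ A ∈ s.powerset, φ A = ∑ A ∈ s.powerset, φ (s \ A) := by
  refine Finset.sum_nbij' (fun A => s \ A) (fun A => s \ A) ?_ ?_ ?_ ?_ ?_
  · intro A _; exact mem_powerset.2 sdiff_subset
  · intro A _; exact mem_powerset.2 sdiff_subset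
  · intro A hA; exact Finset.sdiff_sdiff_eq_self (mem_powerset.1 hA)
  · intro A hA; exact Finset.sdiff_sdiff_eq_self (mem_powerset.1 hA)
  · intro A hA
    show φ A = φ (s \ (s \ A))
    rw [Finset.sdiff_sdiff_eq_self (mem_powerset.1 hA)]

/-- a self map which is injective on a finite set and maps it into itself is onto -/
theorem rcy162_image_eq {α : Type*} [DecidableEq α] {s : Finset α} {g : α → α} (hm : ∀ x ∈ s, g x ∈ s) (hi : Set.InjOn g s) :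
    s.image g = s :=
  Finset.eq_of_subset_of_card_le (image_subset_iff.2 hm) (by rw [card_image_of_injOn hi])

/-- image of a configuration -/
def rcy162Map (gV gF : ℤ × ℤ → ℤ × ℤ) (gE : (ℤ × ℤ) × Bool → (ℤ × ℤ) × Bool) (ω : RswCfg) : RswCfg :=
  ⟨ω.S.image gV, ω.D.image gF, ω.O.image gE⟩

/-- an isomorphism of systems: bijections of the sites, faces and edge pairs which respect endpoints and faces as UNORDERED pairs -/
structure Rcy162Hom (Y Y' : Rcy162Sys) (gV gF : ℤ × ℤ → ℤ × ℤ) (gE : (ℤ × ℤ) × Bool → (ℤ × ℤ) × Bool) : Prop where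
  injV : Set.InjOn gV Y.V
  injF : Set.InjOn gF Y.Fc
  injE : Set.InjOn gE Y.E
  imV : Y.V.image gV = Y'.V
  imF : Y.Fc.image gF = Y'.Fc
  imE : Y.E.image gE = Y'.E
  pp : ∀ e ∈ Y.E, (Y'.p0 (gE e) = gV (Y.p0 e) ∧ Y'.p1 (gE e) = gV (Y.p1 e)) ∨ (Y'.p0 (gE e) = gV (Y.p1 e) ∧ Y'.p1 (gE e) = gV (Y.p0 e))
  ff : ∀ e ∈ Y.E, (Y'.f0 (gE e) = gF (Y.f0 e) ∧ Y'.f1 (gE e) = gF (Y.f1 e)) ∨ (Y'.f0 (gE e) = gF (Y.f1 e) ∧ Y'.f1 (gE e) = gF (Y.f0 e))

section hom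

variable {Y Y' : Rcy162Sys} {gV gF : ℤ × ℤ → ℤ × ℤ} {gE : (ℤ × ℤ) × Bool → (ℤ × ℤ) × Bool}

theorem rcy162_hom_cfg (h : Rcy162Hom Y Y' gV gF gE) {ω : RswCfg} (hω : Y.Cfg ω) : Y'.Cfg (rcy162Map gV gF gE ω) :=
  ⟨by rw [← h.imV]; exact image_subset_image hω.1, by rw [← h.imF]; exact image_subset_image hω.2.1,
    by rw [← h.imE]; exact image_subset_image hω.2.2⟩

theorem rcy162_hom_open (h : Rcy162Hom Y Y' gV gF gE) {ω : RswCfg} (hω : Y.Cfg ω) {e : (ℤ × ℤ) × Bool} (he : e ∈ Y.E) :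
    gE e ∈ (rcy162Map gV gF gE ω).O ↔ e ∈ ω.O := rcy162_mem_image_iff h.injE hω.2.2 he

theorem rcy162_hom_S (h : Rcy162Hom Y Y' gV gF gE) {ω : RswCfg} (hω : Y.Cfg ω) {v : ℤ × ℤ} (hv : v ∈ Y.V) :
    gV v ∈ (rcy162Map gV gF gE ω).S ↔ v ∈ ω.S := rcy162_mem_image_iff h.injV hω.1 hv

theorem rcy162_hom_D (h : Rcy162Hom Y Y' gV gF gE) {ω : RswCfg} (hω : Y.Cfg ω) {f : ℤ × ℤ} (hf : f ∈ Y.Fc) :
    gF f ∈ (rcy162Map gV gF gE ω).D ↔ f ∈ ω.D := rcy162_mem_image_iff h.injF hω.2.1 hf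

theorem rcy162_hom_fac (h : Rcy162Hom Y Y' gV gF gE) (hw : Y.WF) (t : ℝ) {ω : RswCfg} (hω : Y.Cfg ω) {e : (ℤ × ℤ) × Bool}
    (he : e ∈ Y.E) : Y'.fac t (rcy162Map gV gF gE ω) (gE e) = Y.fac t ω e := by
  classical
  have hO := rcy162_hom_open h hω he
  have hS : (Y'.p0 (gE e) ∈ (rcy162Map gV gF gE ω).S ↔ Y'.p1 (gE e) ∈ (rcy162Map gV gF gE ω).S) ↔ (Y.p0 e ∈ ω.S ↔ Y.p1 e ∈ ω.S) := by
    rcases h.pp e he with ⟨a, b⟩ | ⟨a, b⟩
    · rw [a, b, rcy162_hom_S h hω (hw.p0 e he), rcy162_hom_S h hω (hw.p1 e he)]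
    · rw [a, b, rcy162_hom_S h hω (hw.p0 e he), rcy162_hom_S h hω (hw.p1 e he)]
      exact iff_comm
  have hD : (Y'.f0 (gE e) ∈ (rcy162Map gV gF gE ω).D ↔ Y'.f1 (gE e) ∈ (rcy162Map gV gF gE ω).D) ↔ (Y.f0 e ∈ ω.D ↔ Y.f1 e ∈ ω.D) := by
    rcases h.ff e he with ⟨a, b⟩ | ⟨a, b⟩
    · rw [a, b, rcy162_hom_D h hω (hw.f0 e he), rcy162_hom_D h hω (hw.f1 e he)]
    · rw [a, b, rcy162_hom_D h hω (hw.f0 e he), rcy162_hom_D h hω (hw.f1 e he)]
      exact iff_comm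
  unfold Rcy162Sys.fac
  simp only [hO, hS, hD]

theorem rcy162_hom_good (h : Rcy162Hom Y Y' gV gF gE) (hw : Y.WF) (a : Bool) {ω : RswCfg} (hω : Y.Cfg ω) {e : (ℤ × ℤ) × Bool}
    (he : e ∈ Y.E) : Y'.Good a (rcy162Map gV gF gE ω) (gE e) ↔ Y.Good a ω e := by
  unfold Rcy162Sys.Good
  rw [rcy162_hom_open h hω he]
  rcases h.pp e he with ⟨x, y⟩ | ⟨x, y⟩
  · rw [x, y, rcy162_hom_S h hω (hw.p0 e he), rcy162_hom_S h hω (hw.p1 e he)]
  · rw [x, y, rcy162_hom_S h hω (hw.p0 e he), rcy162_hom_S h hω (hw.p1 e he)]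
    tauto

theorem rcy162_hom_wt (h : Rcy162Hom Y Y' gV gF gE) (hw : Y.WF) (t : ℝ) (K' : RswCfg → Prop) {ω : RswCfg} (hω : Y.Cfg ω) :
    Y'.wt t K' (rcy162Map gV gF gE ω) = Y.wt t (fun ω => K' (rcy162Map gV gF gE ω)) ω := by
  classical
  unfold Rcy162Sys.wt
  by_cases hK : K' (rcy162Map gV gF gE ω)
  · rw [if_pos hK, if_pos hK, ← h.imE, Finset.prod_image h.injE]
    exact Finset.prod_congr rfl fun e he => rcy162_hom_fac h hw t hω he
  · rw [if_neg hK, if_neg hK]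

/-- **transport of the sums** -/
theorem rcy162_hom_sum (h : Rcy162Hom Y Y' gV gF gE) (hw : Y.WF) (t : ℝ) (K' : RswCfg → Prop) (X' : RswCfg → ℝ) :
    Y'.sum t K' X' = Y.sum t (fun ω => K' (rcy162Map gV gF gE ω)) (fun ω => X' (rcy162Map gV gF gE ω)) := by
  unfold Rcy162Sys.sum
  rw [← h.imV, ← h.imF, ← h.imE, rcy162_sum_powerset_image h.injV]
  refine sum_congr rfl fun S hS => ?_
  rw [rcy162_sum_powerset_image h.injF]
  refine sum_congr rfl fun D hD => ?_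
  rw [rcy162_sum_powerset_image h.injE]
  refine sum_congr rfl fun O hO => ?_
  have := rcy162_hom_wt h hw t K' (ω := ⟨S, D, O⟩) ⟨mem_powerset.1 hS, mem_powerset.1 hD, mem_powerset.1 hO⟩
  rw [← this]
  rfl

theorem rcy162_hom_Ex (h : Rcy162Hom Y Y' gV gF gE) (hw : Y.WF) (t : ℝ) (K' : RswCfg → Prop) (X' : RswCfg → ℝ) :
    Y'.Ex t K' X' = Y.Ex t (fun ω => K' (rcy162Map gV gF gE ω)) (fun ω => X' (rcy162Map gV gF gE ω)) := by
  unfold Rcy162Sys.Ex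
  rw [rcy162_hom_sum h hw, rcy162_hom_sum h hw t K' (fun _ => 1)]

theorem rcy162_hom_Pr (h : Rcy162Hom Y Y' gV gF gE) (hw : Y.WF) (t : ℝ) (K' L' : RswCfg → Prop) :
    Y'.Pr t K' L' = Y.Pr t (fun ω => K' (rcy162Map gV gF gE ω)) (fun ω => L' (rcy162Map gV gF gE ω)) := by
  unfold Rcy162Sys.Pr
  rw [rcy162_hom_Ex h hw]

end hom

/-- flip of the primal spins -/
def Rcy162Sys.flipS (Y : Rcy162Sys) (ω : RswCfg) : RswCfg := ⟨Y.V \ ω.S, ω.D, ω.O⟩

/-- flip of the face spins -/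
def Rcy162Sys.flipD (Y : Rcy162Sys) (ω : RswCfg) : RswCfg := ⟨ω.S, Y.Fc \ ω.D, ω.O⟩

theorem rcy162_flipS_fac (Y : Rcy162Sys) (hw : Y.WF) (t : ℝ) (ω : RswCfg) {e : (ℤ × ℤ) × Bool} (he : e ∈ Y.E) :
    Y.fac t (Y.flipS ω) e = Y.fac t ω e := by
  classical
  have hS : (Y.p0 e ∈ (Y.flipS ω).S ↔ Y.p1 e ∈ (Y.flipS ω).S) ↔ (Y.p0 e ∈ ω.S ↔ Y.p1 e ∈ ω.S) := by
    show (Y.p0 e ∈ Y.V \ ω.S ↔ Y.p1 e ∈ Y.V \ ω.S) ↔ _
    have a := hw.p0 e he
    have b := hw.p1 e he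
    simp only [mem_sdiff, a, b, true_and]
    tauto
  have hO : e ∈ (Y.flipS ω).O ↔ e ∈ ω.O := Iff.rfl
  have hD : (Y.f0 e ∈ (Y.flipS ω).D ↔ Y.f1 e ∈ (Y.flipS ω).D) ↔ (Y.f0 e ∈ ω.D ↔ Y.f1 e ∈ ω.D) := Iff.rfl
  unfold Rcy162Sys.fac
  simp only [hO, hS, hD]

theorem rcy162_flipD_fac (Y : Rcy162Sys) (hw : Y.WF) (t : ℝ) (ω : RswCfg) {e : (ℤ × ℤ) × Bool} (he : e ∈ Y.E) :
    Y.fac t (Y.flipD ω) e = Y.fac t ω e := by
  classical
  have hD : (Y.f0 e ∈ (Y.flipD ω).D ↔ Y.f1 e ∈ (Y.flipD ω).D) ↔ (Y.f0 e ∈ ω.D ↔ Y.f1 e ∈ ω.D) := by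
    show (Y.f0 e ∈ Y.Fc \ ω.D ↔ Y.f1 e ∈ Y.Fc \ ω.D) ↔ _
    have a := hw.f0 e he
    have b := hw.f1 e he
    simp only [mem_sdiff, a, b, true_and]
    tauto
  have hO : e ∈ (Y.flipD ω).O ↔ e ∈ ω.O := Iff.rfl
  have hS : (Y.p0 e ∈ (Y.flipD ω).S ↔ Y.p1 e ∈ (Y.flipD ω).S) ↔ (Y.p0 e ∈ ω.S ↔ Y.p1 e ∈ ω.S) := Iff.rfl
  unfold Rcy162Sys.fac
  simp only [hO, hS, hD]

theorem rcy162_flipS_sum (Y : Rcy162Sys) (hw : Y.WF) (t : ℝ) (K : RswCfg → Prop) (X : RswCfg → ℝ) :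
    Y.sum t K X = Y.sum t (fun ω => K (Y.flipS ω)) (fun ω => X (Y.flipS ω)) := by
  classical
  unfold Rcy162Sys.sum
  rw [rcy162_sum_powerset_compl]
  refine sum_congr rfl fun S _ => sum_congr rfl fun D _ => sum_congr rfl fun O _ => ?_
  have e : (⟨Y.V \ S, D, O⟩ : RswCfg) = Y.flipS ⟨S, D, O⟩ := rfl
  rw [e]
  congr 1
  unfold Rcy162Sys.wt
  by_cases hK : K (Y.flipS ⟨S, D, O⟩)
  · rw [if_pos hK, if_pos hK]
    exact Finset.prod_congr rfl fun e he => rcy162_flipS_fac Y hw t _ he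
  · rw [if_neg hK, if_neg hK]

theorem rcy162_flipD_sum (Y : Rcy162Sys) (hw : Y.WF) (t : ℝ) (K : RswCfg → Prop) (X : RswCfg → ℝ) :
    Y.sum t K X = Y.sum t (fun ω => K (Y.flipD ω)) (fun ω => X (Y.flipD ω)) := by
  classical
  unfold Rcy162Sys.sum
  refine sum_congr rfl fun S _ => ?_
  rw [rcy162_sum_powerset_compl]
  refine sum_congr rfl fun D _ => sum_congr rfl fun O _ => ?_
  have e : (⟨S, Y.Fc \ D, O⟩ : RswCfg) = Y.flipD ⟨S, D, O⟩ := rfl
  rw [e]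
  congr 1
  unfold Rcy162Sys.wt
  by_cases hK : K (Y.flipD ⟨S, D, O⟩)
  · rw [if_pos hK, if_pos hK]
    exact Finset.prod_congr rfl fun e he => rcy162_flipD_fac Y hw t _ he
  · rw [if_neg hK, if_neg hK]

theorem rcy162_flipS_Pr (Y : Rcy162Sys) (hw : Y.WF) (t : ℝ) (K L : RswCfg → Prop) :
    Y.Pr t K L = Y.Pr t (fun ω => K (Y.flipS ω)) (fun ω => L (Y.flipS ω)) := by
  unfold Rcy162Sys.Pr Rcy162Sys.Ex
  rw [rcy162_flipS_sum Y hw, rcy162_flipS_sum Y hw t K (fun _ => 1)]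

theorem rcy162_flipD_Pr (Y : Rcy162Sys) (hw : Y.WF) (t : ℝ) (K L : RswCfg → Prop) :
    Y.Pr t K L = Y.Pr t (fun ω => K (Y.flipD ω)) (fun ω => L (Y.flipD ω)) := by
  unfold Rcy162Sys.Pr Rcy162Sys.Ex
  rw [rcy162_flipD_sum Y hw, rcy162_flipD_sum Y hw t K (fun _ => 1)]

/-! ## 5. the cylinder: definitions -/

/-- reduction to the fundamental domain `0 ≤ i < L` -/
def rcy162Red (L : ℕ) (u : ℤ × ℤ) : ℤ × ℤ := (u.1 % (L : ℤ), u.2)

/-- reduction of an edge -/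
def rcy162RedE (L : ℕ) (e : (ℤ × ℤ) × Bool) : (ℤ × ℤ) × Bool := (rcy162Red L e.1, e.2)

/-- the row `j` of the fundamental domain -/
noncomputable def rcy162Row (L : ℕ) (j : ℤ) : Finset (ℤ × ℤ) := Finset.Ico (0 : ℤ) L ×ˢ {j}

/-- the interacting edge pairs of the cylinder with vertex rows `a..b`: horizontal edges of the rows `a+1..b-1`, vertical edges between the rows `j`, `j+1`, `a ≤ j < b` -/
noncomputable def rcy162CylE (L : ℕ) (a b : ℤ) : Finset ((ℤ × ℤ) × Bool) :=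
  ((Finset.Ico (0 : ℤ) L ×ˢ Finset.Ioo a b) ×ˢ {false}) ∪ ((Finset.Ico (0 : ℤ) L ×ˢ Finset.Ico a b) ×ˢ {true})

/-- **the cylinder `ℤ/L × [a, b]`**: vertex rows `a..b`, face rows `a..b-1` (the face `(i, j)` has the corners `(i, j), (i+1, j), (i, j+1), (i+1, j+1)` mod `L`) -/
noncomputable def rcy162Cyl (L : ℕ) (a b : ℤ) : Rcy162Sys where
  V := Finset.Ico (0 : ℤ) L ×ˢ Finset.Icc a b
  Fc := Finset.Ico (0 : ℤ) L ×ˢ Finset.Ico a b
  E := rcy162CylE L a b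
  p0 := fun e => e.1
  p1 := fun e => rcy162Red L (rswEnd e)
  f0 := fun e => e.1
  f1 := fun e => rcy162Red L (rswCo e)

/-- mixed boundary condition: `s` minus on the row `a`, plus on the row `b` (`d` free) -/
def Rcy162Mix (L : ℕ) (a b : ℤ) (ω : RswCfg) : Prop := (∀ v ∈ rcy162Row L a, v ∉ ω.S) ∧ rcy162Row L b ⊆ ω.S

/-- flat boundary condition: `s = c` on the two rows `a`, `b` -/
def Rcy162Flat (L : ℕ) (a b : ℤ) (c : Bool) (ω : RswCfg) : Prop :=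
  ∀ v ∈ rcy162Row L a ∪ rcy162Row L b, (v ∈ ω.S ↔ c = true)

/-- **probability under the mixed law** on the cylinder of circumference `L` and height `H` (vertex rows `0..H`) -/
noncomputable def rcy162PM (t : ℝ) (L H : ℕ) (Ev : RswCfg → Prop) : ℝ := (rcy162Cyl L 0 H).Pr t (Rcy162Mix L 0 H) Ev

theorem rcy162_mem_row {L : ℕ} {j : ℤ} {v : ℤ × ℤ} : v ∈ rcy162Row L j ↔ (0 ≤ v.1 ∧ v.1 < L) ∧ v.2 = j := by
  unfold rcy162Row
  rw [Finset.mem_product, Finset.mem_Ico, Finset.mem_singleton]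

theorem rcy162_mem_cylV {L : ℕ} {a b : ℤ} {v : ℤ × ℤ} : v ∈ (rcy162Cyl L a b).V ↔ (0 ≤ v.1 ∧ v.1 < L) ∧ a ≤ v.2 ∧ v.2 ≤ b := by
  show v ∈ Finset.Ico (0 : ℤ) L ×ˢ Finset.Icc a b ↔ _
  rw [Finset.mem_product, Finset.mem_Ico, Finset.mem_Icc]

theorem rcy162_mem_cylF {L : ℕ} {a b : ℤ} {f : ℤ × ℤ} : f ∈ (rcy162Cyl L a b).Fc ↔ (0 ≤ f.1 ∧ f.1 < L) ∧ a ≤ f.2 ∧ f.2 < b := by
  show f ∈ Finset.Ico (0 : ℤ) L ×ˢ Finset.Ico a b ↔ _
  rw [Finset.mem_product, Finset.mem_Ico, Finset.mem_Ico]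

theorem rcy162_mem_cylE {L : ℕ} {a b : ℤ} {e : (ℤ × ℤ) × Bool} :
    e ∈ (rcy162Cyl L a b).E ↔ (0 ≤ e.1.1 ∧ e.1.1 < L) ∧ ((e.2 = false ∧ a < e.1.2 ∧ e.1.2 < b) ∨ (e.2 = true ∧ a ≤ e.1.2 ∧ e.1.2 < b)) := by
  show e ∈ rcy162CylE L a b ↔ _
  unfold rcy162CylE
  simp only [Finset.mem_union, Finset.mem_product, Finset.mem_Ico, Finset.mem_Ioo, Finset.mem_singleton]
  tauto

theorem rcy162_red_range {L : ℕ} (hL : 0 < L) (u : ℤ × ℤ) : 0 ≤ (rcy162Red L u).1 ∧ (rcy162Red L u).1 < L := by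
  have hL' : (0 : ℤ) < L := by exact_mod_cast hL
  exact ⟨Int.emod_nonneg _ hL'.ne', Int.emod_lt_of_pos _ hL'⟩

theorem rcy162_red_of_range {L : ℕ} {u : ℤ × ℤ} (h0 : 0 ≤ u.1) (h1 : u.1 < L) : rcy162Red L u = u := by
  unfold rcy162Red
  rw [Int.emod_eq_of_lt h0 h1]

theorem rcy162_red_snd (L : ℕ) (u : ℤ × ℤ) : (rcy162Red L u).2 = u.2 := rfl

theorem rcy162_cyl_wf {L : ℕ} (hL : 0 < L) (a b : ℤ) : (rcy162Cyl L a b).WF := by
  refine ⟨fun e he => ?_, fun e he => ?_, fun e he => ?_, fun e he => ?_⟩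
  · obtain ⟨h1, h2⟩ := rcy162_mem_cylE.1 he
    refine rcy162_mem_cylV.2 ⟨h1, ?_⟩
    show a ≤ e.1.2 ∧ e.1.2 ≤ b
    rcases h2 with ⟨-, h3, h4⟩ | ⟨-, h3, h4⟩ <;> constructor <;> omega
  · obtain ⟨h1, h2⟩ := rcy162_mem_cylE.1 he
    refine rcy162_mem_cylV.2 ⟨rcy162_red_range hL _, ?_⟩
    show a ≤ (rswEnd e).2 ∧ (rswEnd e).2 ≤ b
    unfold rswEnd
    rcases h2 with ⟨h5, h3, h4⟩ | ⟨h5, h3, h4⟩ <;> simp only [h5] <;> simp <;> constructor <;> omega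
  · obtain ⟨h1, h2⟩ := rcy162_mem_cylE.1 he
    refine rcy162_mem_cylF.2 ⟨h1, ?_⟩
    show a ≤ e.1.2 ∧ e.1.2 < b
    rcases h2 with ⟨-, h3, h4⟩ | ⟨-, h3, h4⟩ <;> constructor <;> omega
  · obtain ⟨h1, h2⟩ := rcy162_mem_cylE.1 he
    refine rcy162_mem_cylF.2 ⟨rcy162_red_range hL _, ?_⟩
    show a ≤ (rswCo e).2 ∧ (rswCo e).2 < b
    unfold rswCo
    rcases h2 with ⟨h5, h3, h4⟩ | ⟨h5, h3, h4⟩ <;> simp only [h5] <;> simp <;> constructor <;> omega

/-- for ANY set of plus sites `S`: all faces minus, `W` open exactly on the edges along which `s` agrees: weight `t ^ |E|` -/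
noncomputable def rcy162Wit (Y : Rcy162Sys) (S : Finset (ℤ × ℤ)) : RswCfg :=
  open Classical in ⟨S, ∅, Y.E.filter fun e => (Y.p0 e ∈ S ↔ Y.p1 e ∈ S)⟩

theorem rcy162_wit_fac (Y : Rcy162Sys) (t : ℝ) (S : Finset (ℤ × ℤ)) {e : (ℤ × ℤ) × Bool} (he : e ∈ Y.E) :
    Y.fac t (rcy162Wit Y S) e = t := by
  classical
  have hO : e ∈ (rcy162Wit Y S).O ↔ (Y.p0 e ∈ S ↔ Y.p1 e ∈ S) := by
    show e ∈ Y.E.filter (fun e => (Y.p0 e ∈ S ↔ Y.p1 e ∈ S)) ↔ _
    rw [Finset.mem_filter]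
    exact ⟨fun h => h.2, fun h => ⟨he, h⟩⟩
  have hS : (Y.p0 e ∈ (rcy162Wit Y S).S ↔ Y.p1 e ∈ (rcy162Wit Y S).S) ↔ (Y.p0 e ∈ S ↔ Y.p1 e ∈ S) := Iff.rfl
  have hD : (Y.f0 e ∈ (rcy162Wit Y S).D ↔ Y.f1 e ∈ (rcy162Wit Y S).D) := by
    show (Y.f0 e ∈ (∅ : Finset (ℤ × ℤ)) ↔ Y.f1 e ∈ (∅ : Finset (ℤ × ℤ)))
    simp
  unfold Rcy162Sys.fac
  by_cases h : (Y.p0 e ∈ S ↔ Y.p1 e ∈ S)
  · rw [if_pos (hO.2 h), if_pos (hS.2 h)]
  · rw [if_neg (fun hh => h (hO.1 hh)), if_pos hD, if_neg (fun hh => h (hS.1 hh))]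

/-- every spin configuration `S ⊆ V` allowed by a constraint on `S` alone is feasible -/
theorem rcy162_feas_of (Y : Rcy162Sys) {t : ℝ} (ht : 0 < t) {K : RswCfg → Prop} {S : Finset (ℤ × ℤ)} (hS : S ⊆ Y.V)
    (hK : K (rcy162Wit Y S)) : Y.Feas t K := by
  classical
  refine ⟨rcy162Wit Y S, ⟨hS, Finset.empty_subset _, Finset.filter_subset _ _⟩, ?_⟩
  rw [rcy162_wt_of Y hK, Finset.prod_congr rfl fun e he => rcy162_wit_fac Y t S he, Finset.prod_const]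
  exact (pow_pos ht _).ne'

theorem rcy162_mix_feas {t : ℝ} (ht : 0 < t) (L : ℕ) {a b : ℤ} (hab : a < b) : (rcy162Cyl L a b).Feas t (Rcy162Mix L a b) := by
  refine rcy162_feas_of _ ht (S := rcy162Row L b) ?_ ⟨?_, ?_⟩
  · intro v hv
    obtain ⟨h1, h2⟩ := rcy162_mem_row.1 hv
    exact rcy162_mem_cylV.2 ⟨h1, by omega, by omega⟩
  · intro v hv hv'
    have h1 := (rcy162_mem_row.1 hv).2
    have h2 := (rcy162_mem_row.1 (show v ∈ rcy162Row L b from hv')).2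
    omega
  · exact fun v hv => hv

theorem rcy162_flat_feas {t : ℝ} (ht : 0 < t) (L : ℕ) {a b : ℤ} (hab : a ≤ b) (c : Bool) :
    (rcy162Cyl L a b).Feas t (Rcy162Flat L a b c) := by
  refine rcy162_feas_of _ ht (S := if c then (rcy162Cyl L a b).V else ∅) ?_ ?_
  · cases c <;> simp
  · intro v hv
    have hvV : v ∈ (rcy162Cyl L a b).V := by
      rcases Finset.mem_union.1 hv with h | h
      · obtain ⟨h1, h2⟩ := rcy162_mem_row.1 h
        exact rcy162_mem_cylV.2 ⟨h1, by omega, by omega⟩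
      · obtain ⟨h1, h2⟩ := rcy162_mem_row.1 h
        exact rcy162_mem_cylV.2 ⟨h1, by omega, by omega⟩
    cases c
    · simp [rcy162Wit]
    · simp [rcy162Wit, hvV]

/-! ## 6. configurations as a `Finset`, the order, the status field on the refined lattice -/

/-- the configurations of the system -/
noncomputable def Rcy162Sys.cfgs (Y : Rcy162Sys) : Finset RswCfg :=
  (Y.V.powerset ×ˢ Y.Fc.powerset ×ˢ Y.E.powerset).map
    ⟨fun x => ⟨x.1, x.2.1, x.2.2⟩, fun x y h => by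
      obtain ⟨x1, x2, x3⟩ := x
      obtain ⟨y1, y2, y3⟩ := y
      simp only [RswCfg.mk.injEq] at h
      obtain ⟨h1, h2, h3⟩ := h
      subst h1 h2 h3
      rfl⟩

theorem rcy162_mem_cfgs {Y : Rcy162Sys} {ω : RswCfg} : ω ∈ Y.cfgs ↔ Y.Cfg ω := by
  unfold Rcy162Sys.cfgs Rcy162Sys.Cfg
  rw [Finset.mem_map]
  constructor
  · rintro ⟨⟨x1, x2, x3⟩, hx, rfl⟩
    simp only [Finset.mem_product, Finset.mem_powerset] at hx
    exact hx
  · rintro ⟨h1, h2, h3⟩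
    exact ⟨(ω.S, ω.D, ω.O), by simp only [Finset.mem_product, Finset.mem_powerset]; exact ⟨h1, h2, h3⟩, rfl⟩

/-- the free weight (no constraint) -/
noncomputable def Rcy162Sys.w (Y : Rcy162Sys) (t : ℝ) (ω : RswCfg) : ℝ := ∏ e ∈ Y.E, Y.fac t ω e

theorem rcy162_w_nonneg (Y : Rcy162Sys) {t : ℝ} (h0 : 0 ≤ t) (h1 : t ≤ 1) (ω : RswCfg) : 0 ≤ Y.w t ω :=
  prod_nonneg fun e _ => rcy162_fac_nonneg Y h0 h1 ω e

open Classical in
theorem rcy162_wt_eq (Y : Rcy162Sys) (t : ℝ) (K : RswCfg → Prop) (ω : RswCfg) : Y.wt t K ω = if K ω then Y.w t ω else 0 := by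
  unfold Rcy162Sys.wt Rcy162Sys.w
  congr

/-- the sums are sums over the `Finset` of the configurations -/
theorem rcy162_sum_cfgs (Y : Rcy162Sys) (t : ℝ) (K : RswCfg → Prop) (X : RswCfg → ℝ) :
    Y.sum t K X = ∑ ω ∈ Y.cfgs, Y.wt t K ω * X ω := by
  unfold Rcy162Sys.sum Rcy162Sys.cfgs
  rw [Finset.sum_map, Finset.sum_product]
  refine sum_congr rfl fun S _ => ?_
  rw [Finset.sum_product]
  rfl

open Classical in
theorem rcy162_sum_cfgs' (Y : Rcy162Sys) (t : ℝ) (K : RswCfg → Prop) (X : RswCfg → ℝ) :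
    Y.sum t K X = ∑ ω ∈ Y.cfgs, if K ω then Y.w t ω * X ω else 0 := by
  rw [rcy162_sum_cfgs]
  refine sum_congr rfl fun ω _ => ?_
  rw [rcy162_wt_eq]
  split_ifs <;> simp

/-- the order `(s, W⁺, -W⁻)` of TEX eq:spatial-order on a system (`RswLe` of CoreTop121 for the plane) -/
def Rcy162Sys.Le (Y : Rcy162Sys) (ω ω' : RswCfg) : Prop :=
  ω.S ⊆ ω'.S ∧ (∀ e, Y.Good true ω e → Y.Good true ω' e) ∧ ∀ e, Y.Good false ω' e → Y.Good false ω e

theorem rcy162_le_refl (Y : Rcy162Sys) (ω : RswCfg) : Y.Le ω ω := ⟨Finset.Subset.refl _, fun _ h => h, fun _ h => h⟩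

theorem rcy162_le_trans (Y : Rcy162Sys) {ω ω' ω'' : RswCfg} (h : Y.Le ω ω') (h' : Y.Le ω' ω'') : Y.Le ω ω'' :=
  ⟨h.1.trans h'.1, fun e he => h'.2.1 e (h.2.1 e he), fun e he => h.2.2 e (h'.2.2 e he)⟩

/-- sign of a site (`0` off the system) -/
noncomputable def Rcy162Sys.sgV (Y : Rcy162Sys) (ω : RswCfg) (v : ℤ × ℤ) : SignType :=
  open Classical in if v ∈ Y.V then (if v ∈ ω.S then 1 else -1) else 0

/-- status of an edge pair: `±1` = open with both endpoints `±`, else `0` (`0` off the system) -/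
noncomputable def Rcy162Sys.sgE (Y : Rcy162Sys) (ω : RswCfg) (e : (ℤ × ℤ) × Bool) : SignType :=
  open Classical in if e ∈ Y.E then (if Y.Good true ω e then 1 else if Y.Good false ω e then -1 else 0) else 0

theorem rcy162_good_excl (Y : Rcy162Sys) (ω : RswCfg) (e : (ℤ × ℤ) × Bool) (h1 : Y.Good true ω e) (h2 : Y.Good false ω e) : False := by
  have a := h1.2.1.2 rfl
  have b := h2.2.1.1 a
  exact Bool.false_ne_true b

theorem rcy162_sgV_of_not {Y : Rcy162Sys} (ω : RswCfg) {v : ℤ × ℤ} (h : v ∉ Y.V) : Y.sgV ω v = 0 := by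
  unfold Rcy162Sys.sgV; rw [if_neg h]

theorem rcy162_sgE_of_not {Y : Rcy162Sys} (ω : RswCfg) {e : (ℤ × ℤ) × Bool} (h : e ∉ Y.E) : Y.sgE ω e = 0 := by
  unfold Rcy162Sys.sgE; rw [if_neg h]

theorem rcy162_sgV_one {Y : Rcy162Sys} {ω : RswCfg} {v : ℤ × ℤ} : Y.sgV ω v = 1 ↔ v ∈ Y.V ∧ v ∈ ω.S := by
  unfold Rcy162Sys.sgV
  by_cases h1 : v ∈ Y.V <;> by_cases h2 : v ∈ ω.S <;> simp [h1, h2]

theorem rcy162_sgV_neg {Y : Rcy162Sys} {ω : RswCfg} {v : ℤ × ℤ} : Y.sgV ω v = -1 ↔ v ∈ Y.V ∧ v ∉ ω.S := by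
  unfold Rcy162Sys.sgV
  by_cases h1 : v ∈ Y.V <;> by_cases h2 : v ∈ ω.S <;> simp [h1, h2]

theorem rcy162_sgE_one {Y : Rcy162Sys} {ω : RswCfg} {e : (ℤ × ℤ) × Bool} : Y.sgE ω e = 1 ↔ e ∈ Y.E ∧ Y.Good true ω e := by
  unfold Rcy162Sys.sgE
  by_cases h1 : e ∈ Y.E <;> by_cases h2 : Y.Good true ω e <;> by_cases h3 : Y.Good false ω e <;> simp [h1, h2, h3]

theorem rcy162_sgE_neg {Y : Rcy162Sys} {ω : RswCfg} {e : (ℤ × ℤ) × Bool} : Y.sgE ω e = -1 ↔ e ∈ Y.E ∧ Y.Good false ω e := by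
  unfold Rcy162Sys.sgE
  by_cases h1 : e ∈ Y.E <;> by_cases h2 : Y.Good true ω e <;> by_cases h3 : Y.Good false ω e <;> simp [h1, h2, h3]
  exact rcy162_good_excl Y ω e h2 h3

theorem rcy162_sgV_mono {Y : Rcy162Sys} {ω ω' : RswCfg} (h : Y.Le ω ω') (v : ℤ × ℤ) : Y.sgV ω v ≤ Y.sgV ω' v := by
  unfold Rcy162Sys.sgV
  by_cases h1 : v ∈ Y.V
  · by_cases h2 : v ∈ ω.S
    · simp [h1, h2, h.1 h2]
    · by_cases h3 : v ∈ ω'.S <;> simp [h1, h2, h3]
  · simp [h1]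

theorem rcy162_sgE_mono {Y : Rcy162Sys} {ω ω' : RswCfg} (h : Y.Le ω ω') (e : (ℤ × ℤ) × Bool) : Y.sgE ω e ≤ Y.sgE ω' e := by
  unfold Rcy162Sys.sgE
  by_cases h1 : e ∈ Y.E
  · by_cases h2 : Y.Good true ω e
    · simp [h1, h2, h.2.1 e h2]
    · by_cases h3 : Y.Good false ω' e
      · have h4 := h.2.2 e h3
        have h5 : ¬ Y.Good true ω' e := fun h5 => rcy162_good_excl Y ω' e h5 h3
        simp [h1, h2, h3, h4, h5]
      · by_cases h4 : Y.Good false ω e <;> by_cases h5 : Y.Good true ω' e <;> simp [h1, h2, h3, h4, h5]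
  · simp [h1]

/-- **the lifted periodic status field** on the refined lattice of `TriDict111`: `s` on the vertex points, `0` on the face points, the status on the edge points; everything read mod `L` -/
noncomputable def rcy162Fld (L : ℕ) (Y : Rcy162Sys) (ω : RswCfg) : CyF := fun p =>
  if p.1 % 2 = 0 then
    (if p.2 % 2 = 0 then Y.sgV ω (rcy162Red L (p.1 / 2, p.2 / 2)) else Y.sgE ω (rcy162RedE L ((p.1 / 2, p.2 / 2), true)))
  else
    (if p.2 % 2 = 0 then Y.sgE ω (rcy162RedE L ((p.1 / 2, p.2 / 2), false)) else 0)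

theorem rcy162_fld_P (L : ℕ) (Y : Rcy162Sys) (ω : RswCfg) (v : ℤ × ℤ) : rcy162Fld L Y ω (rtd111P v) = Y.sgV ω (rcy162Red L v) := by
  have h1 : (2 * v.1) % 2 = 0 := by omega
  have h2 : (2 * v.2) % 2 = 0 := by omega
  have h3 : (2 * v.1) / 2 = v.1 := by omega
  have h4 : (2 * v.2) / 2 = v.2 := by omega
  unfold rcy162Fld rtd111P
  simp only [h1, h2, h3, h4, if_true]

theorem rcy162_fld_F (L : ℕ) (Y : Rcy162Sys) (ω : RswCfg) (f : ℤ × ℤ) : rcy162Fld L Y ω (rtd111F f) = 0 := by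
  have h1 : ¬ (2 * f.1 + 1) % 2 = 0 := by omega
  have h2 : ¬ (2 * f.2 + 1) % 2 = 0 := by omega
  unfold rcy162Fld rtd111F
  simp only [h1, h2, if_false]

theorem rcy162_fld_E (L : ℕ) (Y : Rcy162Sys) (ω : RswCfg) (e : (ℤ × ℤ) × Bool) : rcy162Fld L Y ω (rtd111E e) = Y.sgE ω (rcy162RedE L e) := by
  obtain ⟨⟨x, y⟩, b⟩ := e
  have h1 : (2 * x) % 2 = 0 := by omega
  have h2 : (2 * y) % 2 = 0 := by omega
  have h3 : (2 * x) / 2 = x := by omega
  have h4 : (2 * y) / 2 = y := by omega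
  have h1' : ¬ (2 * x + 1) % 2 = 0 := by omega
  have h2' : ¬ (2 * y + 1) % 2 = 0 := by omega
  have h3' : (2 * x + 1) / 2 = x := by omega
  have h4' : (2 * y + 1) / 2 = y := by omega
  cases b
  · rw [rtd111_E_f]
    unfold rcy162Fld
    simp only [h1', h2, h3', h4, if_true, if_false]
  · rw [rtd111_E_t]
    unfold rcy162Fld
    simp only [h1, h2', h3, h4', if_true, if_false]

theorem rcy162_fld_mono (L : ℕ) {Y : Rcy162Sys} {ω ω' : RswCfg} (h : Y.Le ω ω') (p : ℤ × ℤ) : rcy162Fld L Y ω p ≤ rcy162Fld L Y ω' p := by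
  rcases rtd111_cases p with ⟨v, rfl⟩ | ⟨f, rfl⟩ | ⟨e, rfl⟩
  · rw [rcy162_fld_P, rcy162_fld_P]; exact rcy162_sgV_mono h _
  · rw [rcy162_fld_F, rcy162_fld_F]
  · rw [rcy162_fld_E, rcy162_fld_E]; exact rcy162_sgE_mono h _

theorem rcy162_red_add (L : ℕ) (x y : ℤ) : rcy162Red L (x + L, y) = rcy162Red L (x, y) := by
  unfold rcy162Red
  simp

/-- the field is periodic of period `2 L` -/
theorem rcy162_fld_per (L : ℕ) (Y : Rcy162Sys) (ω : RswCfg) : CyPer (2 * (L : ℤ)) (rcy162Fld L Y ω) := by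
  intro u
  rcases rtd111_cases u with ⟨v, rfl⟩ | ⟨f, rfl⟩ | ⟨e, rfl⟩
  · have : rtd111P v + (2 * (L : ℤ), 0) = rtd111P (v.1 + L, v.2) := by
      unfold rtd111P; ext <;> simp <;> ring
    rw [this, rcy162_fld_P, rcy162_fld_P, rcy162_red_add]
  · have : rtd111F f + (2 * (L : ℤ), 0) = rtd111F (f.1 + L, f.2) := by
      unfold rtd111F; ext <;> simp <;> ring
    rw [this, rcy162_fld_F, rcy162_fld_F]
  · obtain ⟨⟨x, y⟩, b⟩ := e
    have : rtd111E ((x, y), b) + (2 * (L : ℤ), 0) = rtd111E ((x + L, y), b) := by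
      cases b
      · rw [rtd111_E_f, rtd111_E_f]; ext <;> simp <;> ring
      · rw [rtd111_E_t, rtd111_E_t]; ext <;> simp <;> ring
    rw [this, rcy162_fld_E, rcy162_fld_E]
    unfold rcy162RedE
    rw [rcy162_red_add]

theorem rcy162_fld_per' (L : ℕ) (Y : Rcy162Sys) (ω : RswCfg) : CyPer ((2 * L : ℕ) : ℤ) (rcy162Fld L Y ω) := by
  have := rcy162_fld_per L Y ω
  push_cast
  exact this

/-- full agreement on a set of refined cells: the statuses, and the two endpoint spins of the edge cells -/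
def rcy162Agr (L : ℕ) (Y : Rcy162Sys) (Q : Finset (ℤ × ℤ)) (ω ω' : RswCfg) : Prop :=
  ∀ y ∈ Q, rcy162Fld L Y ω y = rcy162Fld L Y ω' y ∧
    ∀ e, y = rtd111E e → rcy162Fld L Y ω (rtd111P e.1) = rcy162Fld L Y ω' (rtd111P e.1) ∧
      rcy162Fld L Y ω (rtd111P (rswEnd e)) = rcy162Fld L Y ω' (rtd111P (rswEnd e))

theorem rcy162_agr_refl (L : ℕ) (Y : Rcy162Sys) (Q : Finset (ℤ × ℤ)) (ω : RswCfg) : rcy162Agr L Y Q ω ω :=
  fun _ _ => ⟨rfl, fun _ _ => ⟨rfl, rfl⟩⟩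

theorem rcy162_agr_symm {L : ℕ} {Y : Rcy162Sys} {Q : Finset (ℤ × ℤ)} {ω ω' : RswCfg} (h : rcy162Agr L Y Q ω ω') : rcy162Agr L Y Q ω' ω :=
  fun y hy => ⟨(h y hy).1.symm, fun e he => ⟨((h y hy).2 e he).1.symm, ((h y hy).2 e he).2.symm⟩⟩

theorem rcy162_agr_trans {L : ℕ} {Y : Rcy162Sys} {Q : Finset (ℤ × ℤ)} {ω ω' ω'' : RswCfg} (h : rcy162Agr L Y Q ω ω')
    (h' : rcy162Agr L Y Q ω' ω'') : rcy162Agr L Y Q ω ω'' :=
  fun y hy => ⟨(h y hy).1.trans (h' y hy).1, fun e he =>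
    ⟨((h y hy).2 e he).1.trans ((h' y hy).2 e he).1, ((h y hy).2 e he).2.trans ((h' y hy).2 e he).2⟩⟩

theorem rcy162_agr_fld {L : ℕ} {Y : Rcy162Sys} {Q : Finset (ℤ × ℤ)} {ω ω' : RswCfg} (h : rcy162Agr L Y Q ω ω') {y : ℤ × ℤ} (hy : y ∈ Q) :
    rcy162Fld L Y ω y = rcy162Fld L Y ω' y := (h y hy).1

theorem rcy162_agr_mono {L : ℕ} {Y : Rcy162Sys} {Q Q' : Finset (ℤ × ℤ)} (hQ : Q ⊆ Q') {ω ω' : RswCfg} (h : rcy162Agr L Y Q' ω ω') :
    rcy162Agr L Y Q ω ω' := fun y hy => h y (hQ hy)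

/-- **the law of the status field** under the mixed law on the cylinder with `L` columns and the vertex rows `0..H` (refined sizes: period `2 L`, rows `0..2 H`) -/
noncomputable def rcy162Q (t : ℝ) (L H : ℕ) (E : Set CyF) : ℝ := rcy162PM t L H (fun ω => rcy162Fld L (rcy162Cyl L 0 H) ω ∈ E)

/-! ## 7. the symmetries of the cylinder -/

/-- reduction forgets multiples of `L` -/
theorem rcy162_red_congr (L : ℕ) {x x' : ℤ} (y k : ℤ) (h : x = x' + L * k) : rcy162Red L (x, y) = rcy162Red L (x', y) := by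
  unfold rcy162Red
  rw [h, Int.add_mul_emod_self_left]

theorem rcy162_red_red (L : ℕ) (u : ℤ × ℤ) : rcy162Red L (rcy162Red L u) = rcy162Red L u := by
  unfold rcy162Red
  simp

theorem rcy162_range_inj {L : ℕ} {x x' A A' : ℤ} (h0 : 0 ≤ x) (h1 : x < L) (h0' : 0 ≤ x') (h1' : x' < L) (h : A % (L : ℤ) = A' % (L : ℤ))
    (hd : A - A' = x - x' ∨ A - A' = x' - x) : x = x' := by
  have h2 : (L : ℤ) ∣ A - A' := Int.dvd_of_emod_eq_zero (Int.emod_eq_emod_iff_emod_sub_eq_zero.1 h)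
  rcases hd with hd | hd
  · rw [hd] at h2
    have := Int.eq_zero_of_abs_lt_dvd h2 (by rw [abs_lt]; constructor <;> omega)
    omega
  · rw [hd] at h2
    have := Int.eq_zero_of_abs_lt_dvd h2 (by rw [abs_lt]; constructor <;> omega)
    omega

/-- horizontal shift by `c` (sites and faces) -/
def rcy162ShV (L : ℕ) (c : ℤ) (u : ℤ × ℤ) : ℤ × ℤ := rcy162Red L (u.1 + c, u.2)

/-- horizontal shift by `c` (edge pairs) -/
def rcy162ShE (L : ℕ) (c : ℤ) (e : (ℤ × ℤ) × Bool) : (ℤ × ℤ) × Bool := (rcy162ShV L c e.1, e.2)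

/-- mirror `i ↦ μ - i` (sites) -/
def rcy162MiV (L : ℕ) (μ : ℤ) (u : ℤ × ℤ) : ℤ × ℤ := rcy162Red L (μ - u.1, u.2)

/-- mirror (faces): `i ↦ μ - i - 1` -/
def rcy162MiF (L : ℕ) (μ : ℤ) (f : ℤ × ℤ) : ℤ × ℤ := rcy162Red L (μ - f.1 - 1, f.2)

/-- mirror (edge pairs) -/
def rcy162MiE (L : ℕ) (μ : ℤ) (e : (ℤ × ℤ) × Bool) : (ℤ × ℤ) × Bool :=
  if e.2 then (rcy162MiV L μ e.1, true) else (rcy162MiF L μ e.1, false)

/-- reversal of the rows `j ↦ r - j` (sites) -/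
def rcy162RvV (r : ℤ) (u : ℤ × ℤ) : ℤ × ℤ := (u.1, r - u.2)

/-- reversal of the rows (faces): `j ↦ r - 1 - j` -/
def rcy162RvF (r : ℤ) (f : ℤ × ℤ) : ℤ × ℤ := (f.1, r - 1 - f.2)

/-- reversal of the rows (edge pairs) -/
def rcy162RvE (r : ℤ) (e : (ℤ × ℤ) × Bool) : (ℤ × ℤ) × Bool :=
  if e.2 then (rcy162RvF r e.1, true) else (rcy162RvV r e.1, false)

theorem rcy162_cyl_p0 (L : ℕ) (a b : ℤ) (e : (ℤ × ℤ) × Bool) : (rcy162Cyl L a b).p0 e = e.1 := rfl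
theorem rcy162_cyl_p1 (L : ℕ) (a b : ℤ) (e : (ℤ × ℤ) × Bool) : (rcy162Cyl L a b).p1 e = rcy162Red L (rswEnd e) := rfl
theorem rcy162_cyl_f0 (L : ℕ) (a b : ℤ) (e : (ℤ × ℤ) × Bool) : (rcy162Cyl L a b).f0 e = e.1 := rfl
theorem rcy162_cyl_f1 (L : ℕ) (a b : ℤ) (e : (ℤ × ℤ) × Bool) : (rcy162Cyl L a b).f1 e = rcy162Red L (rswCo e) := rfl

/-- **the horizontal shifts are automorphisms of the cylinder** -/
theorem rcy162_shift_hom {L : ℕ} (hL : 0 < L) (a b c : ℤ) :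
    Rcy162Hom (rcy162Cyl L a b) (rcy162Cyl L a b) (rcy162ShV L c) (rcy162ShV L c) (rcy162ShE L c) := by
  have inj : ∀ u u' : ℤ × ℤ, (0 ≤ u.1 ∧ u.1 < L) → (0 ≤ u'.1 ∧ u'.1 < L) → rcy162ShV L c u = rcy162ShV L c u' → u = u' := by
    intro u u' hu hu' h
    unfold rcy162ShV rcy162Red at h
    simp only [Prod.mk.injEq] at h
    exact Prod.ext (rcy162_range_inj hu.1 hu.2 hu'.1 hu'.2 h.1 (Or.inl (by ring))) h.2
  have injV : Set.InjOn (rcy162ShV L c) (rcy162Cyl L a b).V := fun u hu u' hu' h =>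
    inj u u' (rcy162_mem_cylV.1 hu).1 (rcy162_mem_cylV.1 hu').1 h
  have injF : Set.InjOn (rcy162ShV L c) (rcy162Cyl L a b).Fc := fun u hu u' hu' h =>
    inj u u' (rcy162_mem_cylF.1 hu).1 (rcy162_mem_cylF.1 hu').1 h
  have injE : Set.InjOn (rcy162ShE L c) (rcy162Cyl L a b).E := by
    intro e he e' he' h
    unfold rcy162ShE at h
    simp only [Prod.mk.injEq] at h
    exact Prod.ext (inj e.1 e'.1 (rcy162_mem_cylE.1 he).1 (rcy162_mem_cylE.1 he').1 h.1) h.2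
  refine ⟨injV, injF, injE, rcy162_image_eq (fun u hu => ?_) injV, rcy162_image_eq (fun u hu => ?_) injF,
    rcy162_image_eq (fun e he => ?_) injE, fun e he => Or.inl ⟨rfl, ?_⟩, fun e he => Or.inl ⟨rfl, ?_⟩⟩
  · exact rcy162_mem_cylV.2 ⟨rcy162_red_range hL _, (rcy162_mem_cylV.1 hu).2⟩
  · exact rcy162_mem_cylF.2 ⟨rcy162_red_range hL _, (rcy162_mem_cylF.1 hu).2⟩
  · exact rcy162_mem_cylE.2 ⟨rcy162_red_range hL _, (rcy162_mem_cylE.1 he).2⟩
  · obtain ⟨⟨x, y⟩, bb⟩ := e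
    rw [rcy162_cyl_p1, rcy162_cyl_p1]
    cases bb
    · show rcy162Red L ((x + c) % (L : ℤ) + 1, y) = rcy162Red L ((x + 1) % (L : ℤ) + c, y)
      rw [rcy162_red_congr L (x' := x + c + 1) y (-((x + c) / L)) (by rw [Int.emod_def]; ring),
        rcy162_red_congr L (x := (x + 1) % (L : ℤ) + c) (x' := x + c + 1) y (-((x + 1) / L)) (by rw [Int.emod_def]; ring)]
    · show rcy162Red L ((x + c) % (L : ℤ), y + 1) = rcy162Red L (x % (L : ℤ) + c, y + 1)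
      rw [rcy162_red_congr L (x' := x + c) (y + 1) (-((x + c) / L)) (by rw [Int.emod_def]; ring),
        rcy162_red_congr L (x := x % (L : ℤ) + c) (x' := x + c) (y + 1) (-(x / L)) (by rw [Int.emod_def]; ring)]
  · obtain ⟨⟨x, y⟩, bb⟩ := e
    rw [rcy162_cyl_f1, rcy162_cyl_f1]
    cases bb
    · show rcy162Red L ((x + c) % (L : ℤ), y - 1) = rcy162Red L (x % (L : ℤ) + c, y - 1)
      rw [rcy162_red_congr L (x' := x + c) (y - 1) (-((x + c) / L)) (by rw [Int.emod_def]; ring),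
        rcy162_red_congr L (x := x % (L : ℤ) + c) (x' := x + c) (y - 1) (-(x / L)) (by rw [Int.emod_def]; ring)]
    · show rcy162Red L ((x + c) % (L : ℤ) - 1, y) = rcy162Red L ((x - 1) % (L : ℤ) + c, y)
      rw [rcy162_red_congr L (x' := x + c - 1) y (-((x + c) / L)) (by rw [Int.emod_def]; ring),
        rcy162_red_congr L (x := (x - 1) % (L : ℤ) + c) (x' := x + c - 1) y (-((x - 1) / L)) (by rw [Int.emod_def]; ring)]

/-- **the mirrors `i ↦ μ - i` are automorphisms of the cylinder** -/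
theorem rcy162_mirror_hom {L : ℕ} (hL : 0 < L) (a b μ : ℤ) :
    Rcy162Hom (rcy162Cyl L a b) (rcy162Cyl L a b) (rcy162MiV L μ) (rcy162MiF L μ) (rcy162MiE L μ) := by
  have inj : ∀ u u' : ℤ × ℤ, (0 ≤ u.1 ∧ u.1 < L) → (0 ≤ u'.1 ∧ u'.1 < L) → rcy162MiV L μ u = rcy162MiV L μ u' → u = u' := by
    intro u u' hu hu' h
    unfold rcy162MiV rcy162Red at h
    simp only [Prod.mk.injEq] at h
    exact Prod.ext (rcy162_range_inj hu.1 hu.2 hu'.1 hu'.2 h.1 (Or.inr (by ring))) h.2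
  have inj' : ∀ u u' : ℤ × ℤ, (0 ≤ u.1 ∧ u.1 < L) → (0 ≤ u'.1 ∧ u'.1 < L) → rcy162MiF L μ u = rcy162MiF L μ u' → u = u' := by
    intro u u' hu hu' h
    unfold rcy162MiF rcy162Red at h
    simp only [Prod.mk.injEq] at h
    exact Prod.ext (rcy162_range_inj hu.1 hu.2 hu'.1 hu'.2 h.1 (Or.inr (by ring))) h.2
  have injV : Set.InjOn (rcy162MiV L μ) (rcy162Cyl L a b).V := fun u hu u' hu' h =>
    inj u u' (rcy162_mem_cylV.1 hu).1 (rcy162_mem_cylV.1 hu').1 h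
  have injF : Set.InjOn (rcy162MiF L μ) (rcy162Cyl L a b).Fc := fun u hu u' hu' h =>
    inj' u u' (rcy162_mem_cylF.1 hu).1 (rcy162_mem_cylF.1 hu').1 h
  have injE : Set.InjOn (rcy162MiE L μ) (rcy162Cyl L a b).E := by
    rintro ⟨u, bb⟩ he ⟨u', bb'⟩ he' h
    have r1 := (rcy162_mem_cylE.1 he).1
    have r2 := (rcy162_mem_cylE.1 he').1
    cases bb <;> cases bb' <;> simp only [rcy162MiE, Prod.mk.injEq, if_true, if_false, Bool.false_eq_true, reduceCtorEq, and_false, and_true] at h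
    · rw [inj' u u' r1 r2 h]
    · rw [inj u u' r1 r2 h]
  refine ⟨injV, injF, injE, rcy162_image_eq (fun u hu => ?_) injV, rcy162_image_eq (fun u hu => ?_) injF,
    rcy162_image_eq (fun e he => ?_) injE, fun e he => ?_, fun e he => ?_⟩
  · exact rcy162_mem_cylV.2 ⟨rcy162_red_range hL _, (rcy162_mem_cylV.1 hu).2⟩
  · exact rcy162_mem_cylF.2 ⟨rcy162_red_range hL _, (rcy162_mem_cylF.1 hu).2⟩
  · obtain ⟨u, bb⟩ := e
    have := (rcy162_mem_cylE.1 he).2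
    cases bb
    · exact rcy162_mem_cylE.2 ⟨rcy162_red_range hL _, this⟩
    · exact rcy162_mem_cylE.2 ⟨rcy162_red_range hL _, this⟩
  · obtain ⟨⟨x, y⟩, bb⟩ := e
    rw [rcy162_cyl_p1, rcy162_cyl_p1, rcy162_cyl_p0, rcy162_cyl_p0]
    cases bb
    · right
      constructor
      · show rcy162Red L (μ - x - 1, y) = rcy162Red L (μ - (x + 1) % (L : ℤ), y)
        rw [rcy162_red_congr L (x := μ - (x + 1) % (L : ℤ)) (x' := μ - x - 1) y ((x + 1) / L) (by rw [Int.emod_def]; ring)]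
      · show rcy162Red L ((μ - x - 1) % (L : ℤ) + 1, y) = rcy162Red L (μ - x, y)
        rw [rcy162_red_congr L (x' := μ - x) y (-((μ - x - 1) / L)) (by rw [Int.emod_def]; ring)]
    · left
      constructor
      · rfl
      · show rcy162Red L ((μ - x) % (L : ℤ), y + 1) = rcy162Red L (μ - x % (L : ℤ), y + 1)
        rw [rcy162_red_congr L (x' := μ - x) (y + 1) (-((μ - x) / L)) (by rw [Int.emod_def]; ring),
          rcy162_red_congr L (x := μ - x % (L : ℤ)) (x' := μ - x) (y + 1) (x / L) (by rw [Int.emod_def]; ring)]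
  · obtain ⟨⟨x, y⟩, bb⟩ := e
    rw [rcy162_cyl_f1, rcy162_cyl_f1, rcy162_cyl_f0, rcy162_cyl_f0]
    cases bb
    · left
      constructor
      · rfl
      · show rcy162Red L ((μ - x - 1) % (L : ℤ), y - 1) = rcy162Red L (μ - x % (L : ℤ) - 1, y - 1)
        rw [rcy162_red_congr L (x' := μ - x - 1) (y - 1) (-((μ - x - 1) / L)) (by rw [Int.emod_def]; ring),
          rcy162_red_congr L (x := μ - x % (L : ℤ) - 1) (x' := μ - x - 1) (y - 1) (x / L) (by rw [Int.emod_def]; ring)]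
    · right
      constructor
      · show rcy162Red L (μ - x, y) = rcy162Red L (μ - (x - 1) % (L : ℤ) - 1, y)
        rw [rcy162_red_congr L (x := μ - (x - 1) % (L : ℤ) - 1) (x' := μ - x) y ((x - 1) / L) (by rw [Int.emod_def]; ring)]
      · show rcy162Red L ((μ - x) % (L : ℤ) - 1, y) = rcy162Red L (μ - x - 1, y)
        rw [rcy162_red_congr L (x' := μ - x - 1) y (-((μ - x) / L)) (by rw [Int.emod_def]; ring)]

/-- **the reversal of the rows `j ↦ a + b - j` is an automorphism of the cylinder** -/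
theorem rcy162_rev_hom (L : ℕ) (a b : ℤ) :
    Rcy162Hom (rcy162Cyl L a b) (rcy162Cyl L a b) (rcy162RvV (a + b)) (rcy162RvF (a + b)) (rcy162RvE (a + b)) := by
  have inj : Function.Injective (rcy162RvV (a + b)) := by
    intro u u' h
    unfold rcy162RvV at h
    simp only [Prod.mk.injEq] at h
    exact Prod.ext h.1 (by omega)
  have inj' : Function.Injective (rcy162RvF (a + b)) := by
    intro u u' h
    unfold rcy162RvF at h
    simp only [Prod.mk.injEq] at h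
    exact Prod.ext h.1 (by omega)
  have injE : Function.Injective (rcy162RvE (a + b)) := by
    rintro ⟨u, bb⟩ ⟨u', bb'⟩ h
    cases bb <;> cases bb' <;> simp only [rcy162RvE, Prod.mk.injEq, if_true, if_false, Bool.false_eq_true, reduceCtorEq, and_false, and_true] at h
    · rw [inj h]
    · rw [inj' h]
  refine ⟨inj.injOn, inj'.injOn, injE.injOn, rcy162_image_eq (fun u hu => ?_) inj.injOn, rcy162_image_eq (fun u hu => ?_) inj'.injOn,
    rcy162_image_eq (fun e he => ?_) injE.injOn, fun e he => ?_, fun e he => ?_⟩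
  · obtain ⟨h1, h2, h3⟩ := rcy162_mem_cylV.1 hu
    refine rcy162_mem_cylV.2 ⟨h1, ?_, ?_⟩ <;> show _ ≤ _ <;> simp only [rcy162RvV] <;> omega
  · obtain ⟨h1, h2, h3⟩ := rcy162_mem_cylF.1 hu
    refine rcy162_mem_cylF.2 ⟨h1, ?_, ?_⟩ <;> simp only [rcy162RvF] <;> omega
  · obtain ⟨⟨x, y⟩, bb⟩ := e
    obtain ⟨h1, h2⟩ := rcy162_mem_cylE.1 he
    cases bb
    · simp only [reduceCtorEq, false_and, or_false, true_and] at h2
      refine rcy162_mem_cylE.2 ⟨h1, Or.inl ⟨rfl, ?_, ?_⟩⟩ <;> simp only [rcy162RvE, rcy162RvV, Bool.false_eq_true, if_false] <;> omega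
    · simp only [reduceCtorEq, false_and, false_or, true_and] at h2
      refine rcy162_mem_cylE.2 ⟨h1, Or.inr ⟨rfl, ?_, ?_⟩⟩ <;> simp only [rcy162RvE, rcy162RvF, if_true] <;> omega
  · obtain ⟨⟨x, y⟩, bb⟩ := e
    obtain ⟨h1, -⟩ := rcy162_mem_cylE.1 he
    have hx : x % (L : ℤ) = x := Int.emod_eq_of_lt h1.1 h1.2
    rw [rcy162_cyl_p1, rcy162_cyl_p1, rcy162_cyl_p0, rcy162_cyl_p0]
    cases bb
    · exact Or.inl ⟨rfl, rfl⟩
    · right
      constructor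
      · show (x, a + b - 1 - y) = (x % (L : ℤ), a + b - (y + 1))
        rw [hx]; congr 1; ring
      · show (x % (L : ℤ), a + b - 1 - y + 1) = (x, a + b - y)
        rw [hx]; congr 1; ring
  · obtain ⟨⟨x, y⟩, bb⟩ := e
    obtain ⟨h1, -⟩ := rcy162_mem_cylE.1 he
    have hx : x % (L : ℤ) = x := Int.emod_eq_of_lt h1.1 h1.2
    rw [rcy162_cyl_f1, rcy162_cyl_f1, rcy162_cyl_f0, rcy162_cyl_f0]
    cases bb
    · right
      constructor
      · show (x, a + b - y) = (x % (L : ℤ), a + b - 1 - (y - 1))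
        rw [hx]; congr 1; ring
      · show (x % (L : ℤ), a + b - y - 1) = (x, a + b - 1 - y)
        rw [hx]; congr 1; ring
    · exact Or.inl ⟨rfl, rfl⟩


/-! ### what a morphism does to the signs and to the field -/

section homsg

variable {Y Y' : Rcy162Sys} {gV gF : ℤ × ℤ → ℤ × ℤ} {gE : (ℤ × ℤ) × Bool → (ℤ × ℤ) × Bool}

theorem rcy162_hom_memV (h : Rcy162Hom Y Y' gV gF gE) {v : ℤ × ℤ} (hv : v ∈ Y.V) : gV v ∈ Y'.V := by
  rw [← h.imV]; exact mem_image_of_mem _ hv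

theorem rcy162_hom_memE (h : Rcy162Hom Y Y' gV gF gE) {e : (ℤ × ℤ) × Bool} (he : e ∈ Y.E) : gE e ∈ Y'.E := by
  rw [← h.imE]; exact mem_image_of_mem _ he

theorem rcy162_hom_sgV (h : Rcy162Hom Y Y' gV gF gE) {ω : RswCfg} (hω : Y.Cfg ω) {v : ℤ × ℤ} (hoff : v ∉ Y.V → gV v ∉ Y'.V) :
    Y'.sgV (rcy162Map gV gF gE ω) (gV v) = Y.sgV ω v := by
  classical
  by_cases hv : v ∈ Y.V
  · unfold Rcy162Sys.sgV
    simp only [hv, rcy162_hom_memV h hv, rcy162_hom_S h hω hv, if_true]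
  · rw [rcy162_sgV_of_not _ hv, rcy162_sgV_of_not _ (hoff hv)]

theorem rcy162_hom_sgE (h : Rcy162Hom Y Y' gV gF gE) (hw : Y.WF) {ω : RswCfg} (hω : Y.Cfg ω) {e : (ℤ × ℤ) × Bool}
    (hoff : e ∉ Y.E → gE e ∉ Y'.E) : Y'.sgE (rcy162Map gV gF gE ω) (gE e) = Y.sgE ω e := by
  classical
  by_cases he : e ∈ Y.E
  · unfold Rcy162Sys.sgE
    simp only [he, rcy162_hom_memE h he, rcy162_hom_good h hw _ hω he, if_true]
  · rw [rcy162_sgE_of_not _ he, rcy162_sgE_of_not _ (hoff he)]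

end homsg

theorem rcy162_flipS_sgV (Y : Rcy162Sys) (ω : RswCfg) (v : ℤ × ℤ) : Y.sgV (Y.flipS ω) v = - Y.sgV ω v := by
  classical
  unfold Rcy162Sys.sgV Rcy162Sys.flipS
  by_cases h1 : v ∈ Y.V <;> by_cases h2 : v ∈ ω.S <;> simp [h1, h2]

theorem rcy162_flipS_good (Y : Rcy162Sys) (hw : Y.WF) (a : Bool) (ω : RswCfg) {e : (ℤ × ℤ) × Bool} (he : e ∈ Y.E) :
    Y.Good a (Y.flipS ω) e ↔ Y.Good (!a) ω e := by
  have h0 := hw.p0 e he
  have h1 := hw.p1 e he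
  unfold Rcy162Sys.Good Rcy162Sys.flipS
  cases a <;> simp [h0, h1]

theorem rcy162_flipS_sgE (Y : Rcy162Sys) (hw : Y.WF) (ω : RswCfg) (e : (ℤ × ℤ) × Bool) : Y.sgE (Y.flipS ω) e = - Y.sgE ω e := by
  classical
  by_cases he : e ∈ Y.E
  · have g1 := rcy162_flipS_good Y hw true ω he
    have g2 := rcy162_flipS_good Y hw false ω he
    simp only [Bool.not_true, Bool.not_false] at g1 g2
    unfold Rcy162Sys.sgE
    simp only [he, g1, g2, if_true]
    by_cases h1 : Y.Good true ω e <;> by_cases h2 : Y.Good false ω e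
    · exact (rcy162_good_excl Y ω e h1 h2).elim
    · simp [h1, h2]
    · simp [h1, h2]
    · simp [h1, h2]
  · rw [rcy162_sgE_of_not _ he, rcy162_sgE_of_not _ he, neg_zero]

theorem rcy162_flipS_fld (L : ℕ) (Y : Rcy162Sys) (hw : Y.WF) (ω : RswCfg) (p : ℤ × ℤ) :
    rcy162Fld L Y (Y.flipS ω) p = - rcy162Fld L Y ω p := by
  rcases rtd111_cases p with ⟨v, rfl⟩ | ⟨f, rfl⟩ | ⟨e, rfl⟩
  · rw [rcy162_fld_P, rcy162_fld_P, rcy162_flipS_sgV]
  · rw [rcy162_fld_F, rcy162_fld_F, neg_zero]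
  · rw [rcy162_fld_E, rcy162_fld_E, rcy162_flipS_sgE Y hw]

theorem rcy162_flipS_cfg (Y : Rcy162Sys) {ω : RswCfg} (hω : Y.Cfg ω) : Y.Cfg (Y.flipS ω) := ⟨sdiff_subset, hω.2.1, hω.2.2⟩

/-- the shift of the configuration shifts the field by `(2 c, 0)` -/
theorem rcy162_shift_fld {L : ℕ} (hL : 0 < L) (a b c : ℤ) {ω : RswCfg} (hω : (rcy162Cyl L a b).Cfg ω) (p : ℤ × ℤ) :
    rcy162Fld L (rcy162Cyl L a b) (rcy162Map (rcy162ShV L c) (rcy162ShV L c) (rcy162ShE L c) ω) (p + (2 * c, 0)) =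
      rcy162Fld L (rcy162Cyl L a b) ω p := by
  have h := rcy162_shift_hom hL a b c
  have hw := rcy162_cyl_wf hL a b
  have key : ∀ x y : ℤ, rcy162Red L (x + c, y) = rcy162ShV L c (rcy162Red L (x, y)) := by
    intro x y
    show _ = rcy162Red L (x % (L : ℤ) + c, y)
    rw [rcy162_red_congr L (x := x % (L : ℤ) + c) (x' := x + c) y (-(x / L)) (by rw [Int.emod_def]; ring)]
  rcases rtd111_cases p with ⟨v, rfl⟩ | ⟨f, rfl⟩ | ⟨e, rfl⟩
  · have e1 : rtd111P v + (2 * c, 0) = rtd111P (v.1 + c, v.2) := by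
      unfold rtd111P; ext <;> simp; ring
    rw [e1, rcy162_fld_P, rcy162_fld_P, key]
    refine rcy162_hom_sgV h hω fun hn hm => hn ?_
    exact rcy162_mem_cylV.2 ⟨rcy162_red_range hL _, (rcy162_mem_cylV.1 hm).2⟩
  · have e1 : rtd111F f + (2 * c, 0) = rtd111F (f.1 + c, f.2) := by
      unfold rtd111F; ext <;> simp; ring
    rw [e1, rcy162_fld_F, rcy162_fld_F]
  · obtain ⟨⟨x, y⟩, bb⟩ := e
    have e1 : rtd111E ((x, y), bb) + (2 * c, 0) = rtd111E ((x + c, y), bb) := by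
      cases bb
      · rw [rtd111_E_f, rtd111_E_f]; ext <;> simp; ring
      · rw [rtd111_E_t, rtd111_E_t]; ext <;> simp; ring
    have e2 : rcy162RedE L ((x + c, y), bb) = rcy162ShE L c (rcy162RedE L ((x, y), bb)) := by
      show (rcy162Red L (x + c, y), bb) = (rcy162ShV L c (rcy162Red L (x, y)), bb)
      rw [key]
    rw [e1, rcy162_fld_E, rcy162_fld_E, e2]
    refine rcy162_hom_sgE h hw hω fun hn hm => hn ?_
    exact rcy162_mem_cylE.2 ⟨rcy162_red_range hL _, (rcy162_mem_cylE.1 hm).2⟩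

/-- the mirror of the configuration mirrors the field: `x ↦ 2 μ - x` -/
theorem rcy162_mirror_fld {L : ℕ} (hL : 0 < L) (a b μ : ℤ) {ω : RswCfg} (hω : (rcy162Cyl L a b).Cfg ω) (p : ℤ × ℤ) :
    rcy162Fld L (rcy162Cyl L a b) (rcy162Map (rcy162MiV L μ) (rcy162MiF L μ) (rcy162MiE L μ) ω) (2 * μ - p.1, p.2) =
      rcy162Fld L (rcy162Cyl L a b) ω p := by
  have h := rcy162_mirror_hom hL a b μ
  have hw := rcy162_cyl_wf hL a b
  have key : ∀ x y : ℤ, rcy162Red L (μ - x, y) = rcy162MiV L μ (rcy162Red L (x, y)) := by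
    intro x y
    show _ = rcy162Red L (μ - x % (L : ℤ), y)
    rw [rcy162_red_congr L (x := μ - x % (L : ℤ)) (x' := μ - x) y (x / L) (by rw [Int.emod_def]; ring)]
  have key' : ∀ x y : ℤ, rcy162Red L (μ - x - 1, y) = rcy162MiF L μ (rcy162Red L (x, y)) := by
    intro x y
    show _ = rcy162Red L (μ - x % (L : ℤ) - 1, y)
    rw [rcy162_red_congr L (x := μ - x % (L : ℤ) - 1) (x' := μ - x - 1) y (x / L) (by rw [Int.emod_def]; ring)]
  rcases rtd111_cases p with ⟨v, rfl⟩ | ⟨f, rfl⟩ | ⟨e, rfl⟩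
  · have e1 : (2 * μ - (rtd111P v).1, (rtd111P v).2) = rtd111P (μ - v.1, v.2) := by
      unfold rtd111P; ext <;> simp; ring
    rw [e1, rcy162_fld_P, rcy162_fld_P, key]
    refine rcy162_hom_sgV h hω fun hn hm => hn ?_
    exact rcy162_mem_cylV.2 ⟨rcy162_red_range hL _, (rcy162_mem_cylV.1 hm).2⟩
  · have e1 : (2 * μ - (rtd111F f).1, (rtd111F f).2) = rtd111F (μ - f.1 - 1, f.2) := by
      unfold rtd111F; ext <;> simp; ring
    rw [e1, rcy162_fld_F, rcy162_fld_F]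
  · obtain ⟨⟨x, y⟩, bb⟩ := e
    cases bb
    · have e1 : (2 * μ - (rtd111E ((x, y), false)).1, (rtd111E ((x, y), false)).2) = rtd111E ((μ - x - 1, y), false) := by
        rw [rtd111_E_f, rtd111_E_f]; ext <;> simp; ring
      have e2 : rcy162RedE L ((μ - x - 1, y), false) = rcy162MiE L μ (rcy162RedE L ((x, y), false)) := by
        show (rcy162Red L (μ - x - 1, y), false) = (rcy162MiF L μ (rcy162Red L (x, y)), false)
        rw [key']
      rw [e1, rcy162_fld_E, rcy162_fld_E, e2]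
      refine rcy162_hom_sgE h hw hω fun hn hm => hn ?_
      exact rcy162_mem_cylE.2 ⟨rcy162_red_range hL _, (rcy162_mem_cylE.1 hm).2⟩
    · have e1 : (2 * μ - (rtd111E ((x, y), true)).1, (rtd111E ((x, y), true)).2) = rtd111E ((μ - x, y), true) := by
        rw [rtd111_E_t, rtd111_E_t]; ext <;> simp; ring
      have e2 : rcy162RedE L ((μ - x, y), true) = rcy162MiE L μ (rcy162RedE L ((x, y), true)) := by
        show (rcy162Red L (μ - x, y), true) = (rcy162MiV L μ (rcy162Red L (x, y)), true)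
        rw [key]
      rw [e1, rcy162_fld_E, rcy162_fld_E, e2]
      refine rcy162_hom_sgE h hw hω fun hn hm => hn ?_
      exact rcy162_mem_cylE.2 ⟨rcy162_red_range hL _, (rcy162_mem_cylE.1 hm).2⟩

/-- the reversal of the rows of the configuration reverses the rows of the field: `y ↦ 2 (a + b) - y` -/
theorem rcy162_rev_fld {L : ℕ} (hL : 0 < L) (a b : ℤ) {ω : RswCfg} (hω : (rcy162Cyl L a b).Cfg ω) (p : ℤ × ℤ) :
    rcy162Fld L (rcy162Cyl L a b) (rcy162Map (rcy162RvV (a + b)) (rcy162RvF (a + b)) (rcy162RvE (a + b)) ω) (p.1, 2 * (a + b) - p.2) =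
      rcy162Fld L (rcy162Cyl L a b) ω p := by
  have h := rcy162_rev_hom L a b
  have hw := rcy162_cyl_wf hL a b
  rcases rtd111_cases p with ⟨v, rfl⟩ | ⟨f, rfl⟩ | ⟨e, rfl⟩
  · have e1 : ((rtd111P v).1, 2 * (a + b) - (rtd111P v).2) = rtd111P (v.1, a + b - v.2) := by
      unfold rtd111P; ext <;> simp; ring
    have e2 : rcy162Red L (v.1, a + b - v.2) = rcy162RvV (a + b) (rcy162Red L v) := rfl
    rw [e1, rcy162_fld_P, rcy162_fld_P, e2]
    refine rcy162_hom_sgV h hω fun hn hm => hn ?_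
    obtain ⟨m1, m2, m3⟩ := rcy162_mem_cylV.1 hm
    simp only [rcy162RvV] at m2 m3
    exact rcy162_mem_cylV.2 ⟨rcy162_red_range hL _, by omega, by omega⟩
  · have e1 : ((rtd111F f).1, 2 * (a + b) - (rtd111F f).2) = rtd111F (f.1, a + b - 1 - f.2) := by
      unfold rtd111F; ext <;> simp; ring
    rw [e1, rcy162_fld_F, rcy162_fld_F]
  · obtain ⟨⟨x, y⟩, bb⟩ := e
    cases bb
    · have e1 : ((rtd111E ((x, y), false)).1, 2 * (a + b) - (rtd111E ((x, y), false)).2) = rtd111E ((x, a + b - y), false) := by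
        rw [rtd111_E_f, rtd111_E_f]; ext <;> simp; ring
      have e2 : rcy162RedE L ((x, a + b - y), false) = rcy162RvE (a + b) (rcy162RedE L ((x, y), false)) := rfl
      rw [e1, rcy162_fld_E, rcy162_fld_E, e2]
      refine rcy162_hom_sgE h hw hω fun hn hm => hn ?_
      obtain ⟨m1, m2⟩ := rcy162_mem_cylE.1 hm
      rw [← e2] at m2
      simp only [rcy162RedE, rcy162Red, reduceCtorEq, false_and, or_false, true_and] at m2
      exact rcy162_mem_cylE.2 ⟨rcy162_red_range hL _, Or.inl ⟨rfl, by show a < y; omega, by show y < b; omega⟩⟩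
    · have e1 : ((rtd111E ((x, y), true)).1, 2 * (a + b) - (rtd111E ((x, y), true)).2) = rtd111E ((x, a + b - 1 - y), true) := by
        rw [rtd111_E_t, rtd111_E_t]; ext <;> simp; ring
      have e2 : rcy162RedE L ((x, a + b - 1 - y), true) = rcy162RvE (a + b) (rcy162RedE L ((x, y), true)) := rfl
      rw [e1, rcy162_fld_E, rcy162_fld_E, e2]
      refine rcy162_hom_sgE h hw hω fun hn hm => hn ?_
      obtain ⟨m1, m2⟩ := rcy162_mem_cylE.1 hm
      rw [← e2] at m2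
      simp only [rcy162RedE, rcy162Red, reduceCtorEq, false_and, false_or, true_and] at m2
      exact rcy162_mem_cylE.2 ⟨rcy162_red_range hL _, Or.inr ⟨rfl, by show a ≤ y; omega, by show y < b; omega⟩⟩

/-! ## 8. the boundary conditions read on the field; the symmetries of the laws -/

theorem rcy162_P_congr_K (Y : Rcy162Sys) (t : ℝ) {K K' : RswCfg → Prop} (h : ∀ ω : RswCfg, Y.Cfg ω → (K ω ↔ K' ω)) (L : RswCfg → Prop) :
    Y.Pr t K L = Y.Pr t K' L := by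
  unfold Rcy162Sys.Pr Rcy162Sys.Ex
  rw [rcy162_sum_congr_K Y t h, rcy162_sum_congr_K Y t h]

/-- both the constraint and the event may be changed off the configurations of the system -/
theorem rcy162_P_congr2 (Y : Rcy162Sys) (t : ℝ) {K K' L L' : RswCfg → Prop} (hK : ∀ ω : RswCfg, Y.Cfg ω → (K ω ↔ K' ω))
    (hL : ∀ ω : RswCfg, Y.Cfg ω → (L ω ↔ L' ω)) : Y.Pr t K L = Y.Pr t K' L' := by
  rw [rcy162_P_congr_K Y t hK, rcy162_P_congr Y K' t fun ω hω _ => hL ω hω]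

theorem rcy162_row_sub {L : ℕ} {a b j : ℤ} (h1 : a ≤ j) (h2 : j ≤ b) : rcy162Row L j ⊆ (rcy162Cyl L a b).V := by
  intro v hv
  obtain ⟨h3, h4⟩ := rcy162_mem_row.1 hv
  exact rcy162_mem_cylV.2 ⟨h3, by omega, by omega⟩

/-- the spins of the row `j` read on the field -/
theorem rcy162_row_iff {L : ℕ} (hL : 0 < L) {a b j : ℤ} (h1 : a ≤ j) (h2 : j ≤ b) (ω : RswCfg) (s : Bool) :
    (∀ v ∈ rcy162Row L j, (v ∈ ω.S ↔ s = true)) ↔ ∀ x : ℤ, rcy162Fld L (rcy162Cyl L a b) ω (rtd111P (x, j)) = if s then 1 else -1 := by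
  constructor
  · intro h x
    have hr : rcy162Red L (x, j) ∈ rcy162Row L j := rcy162_mem_row.2 ⟨rcy162_red_range hL _, rfl⟩
    rw [rcy162_fld_P]
    cases s
    · exact rcy162_sgV_neg.2 ⟨rcy162_row_sub h1 h2 hr, fun hh => Bool.false_ne_true ((h _ hr).1 hh)⟩
    · exact rcy162_sgV_one.2 ⟨rcy162_row_sub h1 h2 hr, (h _ hr).2 rfl⟩
  · intro h v hv
    obtain ⟨h3, h4⟩ := rcy162_mem_row.1 hv
    have := h v.1
    rw [rcy162_fld_P, ← h4, rcy162_red_of_range (u := (v.1, v.2)) h3.1 h3.2] at this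
    cases s
    · have := (rcy162_sgV_neg.1 this).2
      simp only [Bool.false_eq_true, iff_false]
      exact this
    · have := (rcy162_sgV_one.1 this).2
      simp only [iff_true]
      exact this

/-- **the mixed boundary condition read on the field** -/
theorem rcy162_mix_iff {L : ℕ} (hL : 0 < L) {a b : ℤ} (hab : a ≤ b) (ω : RswCfg) :
    Rcy162Mix L a b ω ↔ (∀ x : ℤ, rcy162Fld L (rcy162Cyl L a b) ω (rtd111P (x, a)) = -1) ∧
      ∀ x : ℤ, rcy162Fld L (rcy162Cyl L a b) ω (rtd111P (x, b)) = 1 := by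
  have A := rcy162_row_iff hL (a := a) (b := b) (j := a) le_rfl hab ω false
  have B := rcy162_row_iff hL (a := a) (b := b) (j := b) hab le_rfl ω true
  simp only [Bool.false_eq_true, iff_false, if_false] at A
  simp only [iff_true, if_true] at B
  unfold Rcy162Mix
  rw [← A, ← B]
  rfl

/-- the flat boundary condition read on the field -/
theorem rcy162_flat_iff {L : ℕ} (hL : 0 < L) {a b : ℤ} (hab : a ≤ b) (c : Bool) (ω : RswCfg) :
    Rcy162Flat L a b c ω ↔ (∀ x : ℤ, rcy162Fld L (rcy162Cyl L a b) ω (rtd111P (x, a)) = if c then 1 else -1) ∧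
      ∀ x : ℤ, rcy162Fld L (rcy162Cyl L a b) ω (rtd111P (x, b)) = if c then 1 else -1 := by
  have A := rcy162_row_iff hL (a := a) (b := b) (j := a) le_rfl hab ω c
  have B := rcy162_row_iff hL (a := a) (b := b) (j := b) hab le_rfl ω c
  unfold Rcy162Flat
  rw [← A, ← B]
  simp only [Finset.mem_union]
  constructor
  · intro h
    exact ⟨fun v hv => h v (Or.inl hv), fun v hv => h v (Or.inr hv)⟩
  · rintro ⟨h1, h2⟩ v (hv | hv)
    · exact h1 v hv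
    · exact h2 v hv

section inv

variable {L : ℕ} (hL : 0 < L) {a b : ℤ} (hab : a ≤ b)

include hL hab

theorem rcy162_mix_shift (c : ℤ) {ω : RswCfg} (hω : (rcy162Cyl L a b).Cfg ω) :
    Rcy162Mix L a b (rcy162Map (rcy162ShV L c) (rcy162ShV L c) (rcy162ShE L c) ω) ↔ Rcy162Mix L a b ω := by
  rw [rcy162_mix_iff hL hab, rcy162_mix_iff hL hab]
  have e : ∀ x j : ℤ, rtd111P (x, j) + (2 * c, 0) = rtd111P (x + c, j) := by
    intro x j; unfold rtd111P; ext <;> simp; ring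
  have k : ∀ x j : ℤ, rcy162Fld L (rcy162Cyl L a b) (rcy162Map (rcy162ShV L c) (rcy162ShV L c) (rcy162ShE L c) ω) (rtd111P (x + c, j)) =
      rcy162Fld L (rcy162Cyl L a b) ω (rtd111P (x, j)) := by
    intro x j
    rw [← e]; exact rcy162_shift_fld hL a b c hω _
  constructor
  · rintro ⟨h1, h2⟩
    exact ⟨fun x => by rw [← k]; exact h1 _, fun x => by rw [← k]; exact h2 _⟩
  · rintro ⟨h1, h2⟩
    exact ⟨fun x => by have := k (x - c) a; rw [sub_add_cancel] at this; rw [this]; exact h1 _,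
      fun x => by have := k (x - c) b; rw [sub_add_cancel] at this; rw [this]; exact h2 _⟩

theorem rcy162_flat_shift (c : ℤ) (s : Bool) {ω : RswCfg} (hω : (rcy162Cyl L a b).Cfg ω) :
    Rcy162Flat L a b s (rcy162Map (rcy162ShV L c) (rcy162ShV L c) (rcy162ShE L c) ω) ↔ Rcy162Flat L a b s ω := by
  rw [rcy162_flat_iff hL hab, rcy162_flat_iff hL hab]
  have e : ∀ x j : ℤ, rtd111P (x, j) + (2 * c, 0) = rtd111P (x + c, j) := by
    intro x j; unfold rtd111P; ext <;> simp; ring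
  have k : ∀ x j : ℤ, rcy162Fld L (rcy162Cyl L a b) (rcy162Map (rcy162ShV L c) (rcy162ShV L c) (rcy162ShE L c) ω) (rtd111P (x + c, j)) =
      rcy162Fld L (rcy162Cyl L a b) ω (rtd111P (x, j)) := by
    intro x j
    rw [← e]; exact rcy162_shift_fld hL a b c hω _
  constructor
  · rintro ⟨h1, h2⟩
    exact ⟨fun x => by rw [← k]; exact h1 _, fun x => by rw [← k]; exact h2 _⟩
  · rintro ⟨h1, h2⟩
    exact ⟨fun x => by have := k (x - c) a; rw [sub_add_cancel] at this; rw [this]; exact h1 _,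
      fun x => by have := k (x - c) b; rw [sub_add_cancel] at this; rw [this]; exact h2 _⟩

theorem rcy162_mix_mirror (μ : ℤ) {ω : RswCfg} (hω : (rcy162Cyl L a b).Cfg ω) :
    Rcy162Mix L a b (rcy162Map (rcy162MiV L μ) (rcy162MiF L μ) (rcy162MiE L μ) ω) ↔ Rcy162Mix L a b ω := by
  rw [rcy162_mix_iff hL hab, rcy162_mix_iff hL hab]
  have k : ∀ x j : ℤ, rcy162Fld L (rcy162Cyl L a b) (rcy162Map (rcy162MiV L μ) (rcy162MiF L μ) (rcy162MiE L μ) ω) (rtd111P (μ - x, j)) =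
      rcy162Fld L (rcy162Cyl L a b) ω (rtd111P (x, j)) := by
    intro x j
    have e : rtd111P (μ - x, j) = (2 * μ - (rtd111P (x, j)).1, (rtd111P (x, j)).2) := by
      unfold rtd111P; ext <;> simp; ring
    rw [e]; exact rcy162_mirror_fld hL a b μ hω _
  constructor
  · rintro ⟨h1, h2⟩
    exact ⟨fun x => by rw [← k]; exact h1 _, fun x => by rw [← k]; exact h2 _⟩
  · rintro ⟨h1, h2⟩
    exact ⟨fun x => by have := k (μ - x) a; rw [sub_sub_cancel] at this; rw [this]; exact h1 _,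
      fun x => by have := k (μ - x) b; rw [sub_sub_cancel] at this; rw [this]; exact h2 _⟩

theorem rcy162_flat_mirror (μ : ℤ) (s : Bool) {ω : RswCfg} (hω : (rcy162Cyl L a b).Cfg ω) :
    Rcy162Flat L a b s (rcy162Map (rcy162MiV L μ) (rcy162MiF L μ) (rcy162MiE L μ) ω) ↔ Rcy162Flat L a b s ω := by
  rw [rcy162_flat_iff hL hab, rcy162_flat_iff hL hab]
  have k : ∀ x j : ℤ, rcy162Fld L (rcy162Cyl L a b) (rcy162Map (rcy162MiV L μ) (rcy162MiF L μ) (rcy162MiE L μ) ω) (rtd111P (μ - x, j)) =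
      rcy162Fld L (rcy162Cyl L a b) ω (rtd111P (x, j)) := by
    intro x j
    have e : rtd111P (μ - x, j) = (2 * μ - (rtd111P (x, j)).1, (rtd111P (x, j)).2) := by
      unfold rtd111P; ext <;> simp; ring
    rw [e]; exact rcy162_mirror_fld hL a b μ hω _
  constructor
  · rintro ⟨h1, h2⟩
    exact ⟨fun x => by rw [← k]; exact h1 _, fun x => by rw [← k]; exact h2 _⟩
  · rintro ⟨h1, h2⟩
    exact ⟨fun x => by have := k (μ - x) a; rw [sub_sub_cancel] at this; rw [this]; exact h1 _,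
      fun x => by have := k (μ - x) b; rw [sub_sub_cancel] at this; rw [this]; exact h2 _⟩

omit hab in
/-- reversal of the rows, then flip of `s` -/
theorem rcy162_revflip_fld {ω : RswCfg} (hω : (rcy162Cyl L a b).Cfg ω) (p : ℤ × ℤ) :
    rcy162Fld L (rcy162Cyl L a b) ((rcy162Cyl L a b).flipS (rcy162Map (rcy162RvV (a + b)) (rcy162RvF (a + b)) (rcy162RvE (a + b)) ω)) p =
      - rcy162Fld L (rcy162Cyl L a b) ω (p.1, 2 * (a + b) - p.2) := by
  rw [rcy162_flipS_fld L _ (rcy162_cyl_wf hL a b)]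
  have := rcy162_rev_fld hL a b hω (p.1, 2 * (a + b) - p.2)
  simp only [sub_sub_cancel] at this
  rw [this]

theorem rcy162_mix_revflip {ω : RswCfg} (hω : (rcy162Cyl L a b).Cfg ω) :
    Rcy162Mix L a b ((rcy162Cyl L a b).flipS (rcy162Map (rcy162RvV (a + b)) (rcy162RvF (a + b)) (rcy162RvE (a + b)) ω)) ↔ Rcy162Mix L a b ω := by
  rw [rcy162_mix_iff hL hab, rcy162_mix_iff hL hab]
  have k : ∀ x j : ℤ, rcy162Fld L (rcy162Cyl L a b) ((rcy162Cyl L a b).flipS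
      (rcy162Map (rcy162RvV (a + b)) (rcy162RvF (a + b)) (rcy162RvE (a + b)) ω)) (rtd111P (x, j)) =
      - rcy162Fld L (rcy162Cyl L a b) ω (rtd111P (x, a + b - j)) := by
    intro x j
    rw [rcy162_revflip_fld hL hω]
    congr 2
    unfold rtd111P; ext <;> simp; ring
  simp only [k, add_sub_cancel_left, add_sub_cancel_right]
  constructor
  · rintro ⟨h1, h2⟩
    exact ⟨fun x => by have := h2 x; rw [neg_eq_iff_eq_neg] at this; exact this, fun x => by have := h1 x; rw [neg_inj] at this; exact this⟩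
  · rintro ⟨h1, h2⟩
    exact ⟨fun x => by rw [h2], fun x => by rw [h1, neg_neg]⟩

end inv

/-! ### the laws -/

/-- **the mixed law of the field is invariant under the even shifts** -/
theorem rcy162_Q_shift (t : ℝ) {L : ℕ} (hL : 0 < L) (H : ℕ) (c : ℤ) (E : Set CyF) :
    rcy162Q t L H (cyMv (2 * c, 0) E) = rcy162Q t L H E := by
  have hH : (0 : ℤ) ≤ (H : ℤ) := Int.natCast_nonneg H
  unfold rcy162Q rcy162PM
  rw [rcy162_hom_Pr (rcy162_shift_hom hL 0 H c) (rcy162_cyl_wf hL 0 H)]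
  refine rcy162_P_congr2 _ t (fun ω hω => rcy162_mix_shift hL hH c hω) fun ω hω => ?_
  have : (fun u : ℤ × ℤ => rcy162Fld L (rcy162Cyl L 0 H) (rcy162Map (rcy162ShV L c) (rcy162ShV L c) (rcy162ShE L c) ω) (u + (2 * c, 0))) =
      rcy162Fld L (rcy162Cyl L 0 H) ω := funext fun u => rcy162_shift_fld hL 0 H c hω u
  show (fun u : ℤ × ℤ => rcy162Fld L (rcy162Cyl L 0 H) (rcy162Map (rcy162ShV L c) (rcy162ShV L c) (rcy162ShE L c) ω) (u + (2 * c, 0))) ∈ E ↔ _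
  rw [this]

/-- the same for `Even a` -/
theorem rcy162_Q_shift' (t : ℝ) {L : ℕ} (hL : 0 < L) (H : ℕ) {a : ℤ} (ha : Even a) (E : Set CyF) :
    rcy162Q t L H (cyMv (a, 0) E) = rcy162Q t L H E := by
  obtain ⟨c, rfl⟩ := ha
  rw [← two_mul]
  exact rcy162_Q_shift t hL H c E

/-- **the mixed law of the field is invariant under the mirrors `x ↦ 2 μ - x`** -/
theorem rcy162_Q_mirror (t : ℝ) {L : ℕ} (hL : 0 < L) (H : ℕ) (μ : ℤ) (E : Set CyF) :
    rcy162Q t L H {τ | (fun u : ℤ × ℤ => τ (2 * μ - u.1, u.2)) ∈ E} = rcy162Q t L H E := by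
  have hH : (0 : ℤ) ≤ (H : ℤ) := Int.natCast_nonneg H
  unfold rcy162Q rcy162PM
  rw [rcy162_hom_Pr (rcy162_mirror_hom hL 0 H μ) (rcy162_cyl_wf hL 0 H)]
  refine rcy162_P_congr2 _ t (fun ω hω => rcy162_mix_mirror hL hH μ hω) fun ω hω => ?_
  have : (fun u : ℤ × ℤ => rcy162Fld L (rcy162Cyl L 0 H) (rcy162Map (rcy162MiV L μ) (rcy162MiF L μ) (rcy162MiE L μ) ω) (2 * μ - u.1, u.2)) =
      rcy162Fld L (rcy162Cyl L 0 H) ω := funext fun u => rcy162_mirror_fld hL 0 H μ hω u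
  show (fun u : ℤ × ℤ => rcy162Fld L (rcy162Cyl L 0 H) (rcy162Map (rcy162MiV L μ) (rcy162MiF L μ) (rcy162MiE L μ) ω) (2 * μ - u.1, u.2)) ∈ E ↔ _
  rw [this]

/-- **the mixed law of the field is invariant under (reversal of the rows `y ↦ 2 H - y`) ∘ (flip of the signs)** -/
theorem rcy162_Q_refl (t : ℝ) {L : ℕ} (hL : 0 < L) (H : ℕ) (E : Set CyF) :
    rcy162Q t L H E = rcy162Q t L H {τ | (fun u : ℤ × ℤ => - τ (u.1, 2 * (H : ℤ) - u.2)) ∈ E} := by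
  have hH : (0 : ℤ) ≤ (H : ℤ) := Int.natCast_nonneg H
  unfold rcy162Q rcy162PM
  rw [rcy162_flipS_Pr _ (rcy162_cyl_wf hL 0 H), rcy162_hom_Pr (rcy162_rev_hom L 0 H) (rcy162_cyl_wf hL 0 H)]
  refine rcy162_P_congr2 _ t (fun ω hω => rcy162_mix_revflip hL hH hω) fun ω hω => ?_
  have : rcy162Fld L (rcy162Cyl L 0 H) ((rcy162Cyl L 0 H).flipS (rcy162Map (rcy162RvV (0 + H)) (rcy162RvF (0 + H)) (rcy162RvE (0 + H)) ω)) =
      fun u : ℤ × ℤ => - rcy162Fld L (rcy162Cyl L 0 H) ω (u.1, 2 * (H : ℤ) - u.2) := by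
    funext u
    rw [rcy162_revflip_fld hL hω, zero_add]
  rw [this]
  rfl


/-! ### the soft properties of the law of the field -/

theorem rcy162_Q_nonneg {t : ℝ} (h0 : 0 ≤ t) (h1 : t ≤ 1) (L H : ℕ) (E : Set CyF) : 0 ≤ rcy162Q t L H E :=
  rcy162_P_nonneg _ _ h0 h1 _

theorem rcy162_Q_univ {t : ℝ} (h0 : 0 < t) (h1 : t ≤ 1) (L : ℕ) {H : ℕ} (hH : 0 < H) : rcy162Q t L H Set.univ = 1 :=
  rcy162_P_true _ _ h0.le h1 (rcy162_mix_feas h0 L (by exact_mod_cast hH))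

theorem rcy162_Q_empty (t : ℝ) (L H : ℕ) : rcy162Q t L H ∅ = 0 := rcy162_P_false _ _ t

/-- the law lives on the fields of period `2 L` -/
theorem rcy162_Q_mono {t : ℝ} (h0 : 0 ≤ t) (h1 : t ≤ 1) (L H : ℕ) {E E' : Set CyF}
    (h : ∀ τ, CyPer ((2 * L : ℕ) : ℤ) τ → τ ∈ E → τ ∈ E') : rcy162Q t L H E ≤ rcy162Q t L H E' :=
  rcy162_P_mono _ _ h0 h1 fun ω hω => h _ (rcy162_fld_per' L _ ω) hω

theorem rcy162_Q_union {t : ℝ} (h0 : 0 ≤ t) (h1 : t ≤ 1) (L H : ℕ) (E E' : Set CyF) :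
    rcy162Q t L H (E ∪ E') ≤ rcy162Q t L H E + rcy162Q t L H E' :=
  rcy162_P_union _ _ h0 h1 _ _

theorem rcy162_Q_compl {t : ℝ} (h0 : 0 < t) (h1 : t ≤ 1) (L : ℕ) {H : ℕ} (hH : 0 < H) (E : Set CyF) :
    rcy162Q t L H Eᶜ = 1 - rcy162Q t L H E :=
  rcy162_P_compl _ _ h0.le h1 (rcy162_mix_feas h0 L (by exact_mod_cast hH)) _

/-! ## 9. histories (`RswCon` of CoreTop121) on a system -/

/-- the configuration satisfies the history, read on the system `Y` -/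
def Rcy162Sys.Holds (Y : Rcy162Sys) (K : RswCon) (ω : RswCfg) : Prop :=
  K.Sp ⊆ ω.S ∧ (∀ v ∈ K.Sm, v ∉ ω.S) ∧ (∀ e ∈ K.Gp, Y.Good true ω e) ∧ (∀ e ∈ K.Gm, Y.Good false ω e) ∧ ∀ e ∈ K.Cl, e ∉ ω.O

/-- legal history of the system: only edge pairs of the system are observed, and an observed edge has its two spins pinned -/
structure Rcy162Sys.Legal (Y : Rcy162Sys) (K : RswCon) : Prop where
  sp : K.Sp ⊆ Y.V
  sm : K.Sm ⊆ Y.V
  ed : K.Gp ∪ K.Gm ∪ K.Cl ⊆ Y.E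
  full : ∀ e ∈ K.Gp ∪ K.Gm ∪ K.Cl, Y.p0 e ∈ K.Sp ∪ K.Sm ∧ Y.p1 e ∈ K.Sp ∪ K.Sm

/-- probability of `L` under the boundary condition `B` and the history `K` -/
noncomputable def Rcy162Sys.PK (Y : Rcy162Sys) (t : ℝ) (B : RswCfg → Prop) (K : RswCon) (L : RswCfg → Prop) : ℝ :=
  Y.Pr t (fun ω => B ω ∧ Y.Holds K ω) L

theorem rcy162_pl_holds (F : Finset (ℤ × ℤ)) (K : RswCon) (ω : RswCfg) : (rcy162Pl F).Holds K ω ↔ K.Holds ω := Iff.rfl

theorem rcy162_pl_legal (F : Finset (ℤ × ℤ)) (K : RswCon) : (rcy162Pl F).Legal K ↔ K.Legal F :=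
  ⟨fun h => ⟨h.sp, h.sm, h.ed, h.full⟩, fun h => ⟨h.sp, h.sm, h.ed, h.full⟩⟩

/-- `PK` as a quotient of sums under `B` -/
theorem rcy162_PK_eq (Y : Rcy162Sys) (t : ℝ) (B : RswCfg → Prop) (K : RswCon) (L : RswCfg → Prop) :
    Y.PK t B K L = (open Classical in Y.sum t B (fun ω => if Y.Holds K ω ∧ L ω then 1 else 0)) /
      (open Classical in Y.sum t B (fun ω => if Y.Holds K ω then 1 else 0)) := by
  classical
  unfold Rcy162Sys.PK
  rw [rcy162_P_def]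
  unfold Rcy162Sys.Ex
  rw [rcy162_sum_and, rcy162_sum_and]
  congr 2
  funext ω
  by_cases h1 : Y.Holds K ω <;> by_cases h2 : L ω <;> simp [h1, h2]

/-- the plane: `rswPK` of CoreTop121 -/
theorem rcy162_pl_PK (t : ℝ) (F : Finset (ℤ × ℤ)) (b : Bool) (K : RswCon) (L : RswCfg → Prop) :
    (rcy162Pl F).PK t (RswBc F b) K L = rswPK t F b K L := by
  rw [rcy162_PK_eq]
  rfl

theorem rcy162_holds_free (Y : Rcy162Sys) (ω : RswCfg) : Y.Holds rswFree ω := by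
  unfold Rcy162Sys.Holds rswFree
  simp

theorem rcy162_PK_free (Y : Rcy162Sys) (t : ℝ) (B L : RswCfg → Prop) : Y.PK t B rswFree L = Y.Pr t B L := by
  unfold Rcy162Sys.PK
  exact rcy162_P_congr_K Y t (fun ω _ => ⟨fun h => h.1, fun h => ⟨h, rcy162_holds_free Y ω⟩⟩) L

/-- two histories together -/
def rcy162Join (K K' : RswCon) : RswCon := ⟨K.Sp ∪ K'.Sp, K.Sm ∪ K'.Sm, K.Gp ∪ K'.Gp, K.Gm ∪ K'.Gm, K.Cl ∪ K'.Cl⟩

theorem rcy162_holds_join (Y : Rcy162Sys) (K K' : RswCon) (ω : RswCfg) : Y.Holds (rcy162Join K K') ω ↔ Y.Holds K ω ∧ Y.Holds K' ω := by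
  unfold Rcy162Sys.Holds rcy162Join
  simp only [Finset.union_subset_iff, Finset.mem_union]
  constructor
  · rintro ⟨⟨a1, a2⟩, b, c, d, e⟩
    exact ⟨⟨a1, fun v hv => b v (Or.inl hv), fun v hv => c v (Or.inl hv), fun v hv => d v (Or.inl hv), fun v hv => e v (Or.inl hv)⟩,
      ⟨a2, fun v hv => b v (Or.inr hv), fun v hv => c v (Or.inr hv), fun v hv => d v (Or.inr hv), fun v hv => e v (Or.inr hv)⟩⟩
  · rintro ⟨⟨a1, b1, c1, d1, e1⟩, ⟨a2, b2, c2, d2, e2⟩⟩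
    exact ⟨⟨a1, a2⟩, fun v hv => hv.elim (b1 v) (b2 v), fun v hv => hv.elim (c1 v) (c2 v), fun v hv => hv.elim (d1 v) (d2 v),
      fun v hv => hv.elim (e1 v) (e2 v)⟩

theorem rcy162_legal_join {Y : Rcy162Sys} {K K' : RswCon} (h : Y.Legal K) (h' : Y.Legal K') : Y.Legal (rcy162Join K K') := by
  have split : ∀ e, e ∈ (rcy162Join K K').Gp ∪ (rcy162Join K K').Gm ∪ (rcy162Join K K').Cl → e ∈ K.Gp ∪ K.Gm ∪ K.Cl ∨ e ∈ K'.Gp ∪ K'.Gm ∪ K'.Cl := by
    intro e he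
    simp only [rcy162Join, Finset.mem_union] at he ⊢
    rcases he with ((he | he) | (he | he)) | (he | he)
    · exact Or.inl (Or.inl (Or.inl he))
    · exact Or.inr (Or.inl (Or.inl he))
    · exact Or.inl (Or.inl (Or.inr he))
    · exact Or.inr (Or.inl (Or.inr he))
    · exact Or.inl (Or.inr he)
    · exact Or.inr (Or.inr he)
  have up : ∀ v, v ∈ K.Sp ∪ K.Sm → v ∈ (rcy162Join K K').Sp ∪ (rcy162Join K K').Sm := by
    intro v hv
    simp only [rcy162Join, Finset.mem_union] at hv ⊢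
    rcases hv with hv | hv
    · exact Or.inl (Or.inl hv)
    · exact Or.inr (Or.inl hv)
  have up' : ∀ v, v ∈ K'.Sp ∪ K'.Sm → v ∈ (rcy162Join K K').Sp ∪ (rcy162Join K K').Sm := by
    intro v hv
    simp only [rcy162Join, Finset.mem_union] at hv ⊢
    rcases hv with hv | hv
    · exact Or.inl (Or.inr hv)
    · exact Or.inr (Or.inr hv)
  refine ⟨Finset.union_subset h.sp h'.sp, Finset.union_subset h.sm h'.sm, fun e he => ?_, fun e he => ?_⟩
  · rcases split e he with he | he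
    · exact h.ed he
    · exact h'.ed he
  · rcases split e he with he | he
    · exact ⟨up _ (h.full e he).1, up _ (h.full e he).2⟩
    · exact ⟨up' _ (h'.full e he).1, up' _ (h'.full e he).2⟩

/-- conditioning: an event in the constraint -/
theorem rcy162_P_cond (Y : Rcy162Sys) {t : ℝ} (h0 : 0 ≤ t) (h1 : t ≤ 1) (B K' L : RswCfg → Prop) :
    Y.Pr t B (fun ω => K' ω ∧ L ω) = Y.Pr t B K' * Y.Pr t (fun ω => B ω ∧ K' ω) L := by
  classical
  obtain ⟨a, ha⟩ : ∃ a, a = Y.sum t (fun ω => B ω ∧ K' ω) (fun ω => if L ω then 1 else 0) := ⟨_, rfl⟩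
  obtain ⟨z, hz⟩ : ∃ z, z = Y.sum t (fun ω => B ω ∧ K' ω) (fun _ => 1) := ⟨_, rfl⟩
  have e1 : Y.sum t B (fun ω => if K' ω ∧ L ω then 1 else 0) = a := by
    rw [ha, rcy162_sum_and]
    congr 1
    funext ω
    by_cases h1 : K' ω <;> by_cases h2 : L ω <;> simp [h1, h2]
  have e2 : Y.sum t B (fun ω => if K' ω then 1 else 0) = z := by
    rw [hz, rcy162_sum_and]
  have a0 : 0 ≤ a := by
    rw [ha]; exact rcy162_sum_nonneg Y _ h0 h1 fun ω => by split_ifs <;> norm_num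
  have az : a ≤ z := by
    rw [ha, hz]; exact rcy162_sum_mono Y _ h0 h1 fun ω => by split_ifs <;> norm_num
  have l1 : Y.Pr t B (fun ω => K' ω ∧ L ω) = a / Y.sum t B (fun _ => 1) := by
    rw [rcy162_P_def]; unfold Rcy162Sys.Ex; rw [← e1]
    congr 2
    funext ω
    by_cases h1 : K' ω <;> by_cases h2 : L ω <;> simp [h1, h2]
  have l2 : Y.Pr t B K' = z / Y.sum t B (fun _ => 1) := by
    rw [rcy162_P_def]; unfold Rcy162Sys.Ex; rw [← e2]
  have l3 : Y.Pr t (fun ω => B ω ∧ K' ω) L = a / z := by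
    rw [rcy162_P_def]; unfold Rcy162Sys.Ex; rw [← ha, ← hz]
  rw [l1, l2, l3]
  by_cases hzz : z = 0
  · have : a = 0 := le_antisymm (az.trans hzz.le) a0
    rw [this, hzz]; simp
  · field_simp

/-- **chain rule** -/
theorem rcy162_PK_chain (Y : Rcy162Sys) {t : ℝ} (h0 : 0 ≤ t) (h1 : t ≤ 1) (B : RswCfg → Prop) (K : RswCon) (L : RswCfg → Prop) :
    Y.Pr t B (fun ω => Y.Holds K ω ∧ L ω) = Y.Pr t B (Y.Holds K) * Y.PK t B K L :=
  rcy162_P_cond Y h0 h1 B _ L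

/-- chain rule for two histories -/
theorem rcy162_PK_chain2 (Y : Rcy162Sys) {t : ℝ} (h0 : 0 ≤ t) (h1 : t ≤ 1) (B : RswCfg → Prop) (K K' : RswCon) (L : RswCfg → Prop) :
    Y.PK t B K (fun ω => Y.Holds K' ω ∧ L ω) = Y.PK t B K (Y.Holds K') * Y.PK t B (rcy162Join K K') L := by
  have := rcy162_PK_chain Y h0 h1 (fun ω => B ω ∧ Y.Holds K ω) K' L
  unfold Rcy162Sys.PK at this ⊢
  rw [this]
  congr 1
  refine rcy162_P_congr_K Y t (fun ω _ => ?_) L
  rw [rcy162_holds_join]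
  tauto

/-- image of a history -/
def rcy162MapK (gV : ℤ × ℤ → ℤ × ℤ) (gE : (ℤ × ℤ) × Bool → (ℤ × ℤ) × Bool) (K : RswCon) : RswCon :=
  ⟨K.Sp.image gV, K.Sm.image gV, K.Gp.image gE, K.Gm.image gE, K.Cl.image gE⟩

/-- the flipped history -/
def rcy162FlipK (K : RswCon) : RswCon := ⟨K.Sm, K.Sp, K.Gm, K.Gp, K.Cl⟩

section homK

variable {Y Y' : Rcy162Sys} {gV gF : ℤ × ℤ → ℤ × ℤ} {gE : (ℤ × ℤ) × Bool → (ℤ × ℤ) × Bool}

theorem rcy162_hom_holds (h : Rcy162Hom Y Y' gV gF gE) (hw : Y.WF) {K : RswCon} (hK : Y.Legal K) {ω : RswCfg} (hω : Y.Cfg ω) :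
    Y'.Holds (rcy162MapK gV gE K) (rcy162Map gV gF gE ω) ↔ Y.Holds K ω := by
  have eGp : ∀ e ∈ K.Gp, e ∈ Y.E := fun e he => hK.ed (by simp [he])
  have eGm : ∀ e ∈ K.Gm, e ∈ Y.E := fun e he => hK.ed (by simp [he])
  have eCl : ∀ e ∈ K.Cl, e ∈ Y.E := fun e he => hK.ed (by simp [he])
  unfold Rcy162Sys.Holds rcy162MapK
  simp only [Finset.image_subset_iff, Finset.forall_mem_image]
  constructor
  · rintro ⟨a, b, c, d, e⟩
    exact ⟨fun v hv => (rcy162_hom_S h hω (hK.sp hv)).1 (a v hv), fun v hv hh => b hv ((rcy162_hom_S h hω (hK.sm hv)).2 hh),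
      fun x hx => (rcy162_hom_good h hw _ hω (eGp x hx)).1 (c hx), fun x hx => (rcy162_hom_good h hw _ hω (eGm x hx)).1 (d hx),
      fun x hx hh => e hx ((rcy162_hom_open h hω (eCl x hx)).2 hh)⟩
  · rintro ⟨a, b, c, d, e⟩
    exact ⟨fun v hv => (rcy162_hom_S h hω (hK.sp hv)).2 (a hv), fun v hv hh => b v hv ((rcy162_hom_S h hω (hK.sm hv)).1 hh),
      fun x hx => (rcy162_hom_good h hw _ hω (eGp x hx)).2 (c x hx), fun x hx => (rcy162_hom_good h hw _ hω (eGm x hx)).2 (d x hx),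
      fun x hx hh => e x hx ((rcy162_hom_open h hω (eCl x hx)).1 hh)⟩

/-- **transport of the conditional laws** -/
theorem rcy162_hom_PK (h : Rcy162Hom Y Y' gV gF gE) (hw : Y.WF) (t : ℝ) (B' : RswCfg → Prop) {K : RswCon} (hK : Y.Legal K)
    (L' : RswCfg → Prop) :
    Y'.PK t B' (rcy162MapK gV gE K) L' = Y.PK t (fun ω => B' (rcy162Map gV gF gE ω)) K (fun ω => L' (rcy162Map gV gF gE ω)) := by
  unfold Rcy162Sys.PK
  rw [rcy162_hom_Pr h hw]
  refine rcy162_P_congr_K Y t (fun ω hω => ?_) _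
  rw [rcy162_hom_holds h hw hK hω]

end homK

theorem rcy162_flip_holds (Y : Rcy162Sys) (hw : Y.WF) {K : RswCon} (hK : Y.Legal K) (ω : RswCfg) :
    Y.Holds (rcy162FlipK K) (Y.flipS ω) ↔ Y.Holds K ω := by
  have eGp : ∀ e ∈ K.Gp, e ∈ Y.E := fun e he => hK.ed (by simp [he])
  have eGm : ∀ e ∈ K.Gm, e ∈ Y.E := fun e he => hK.ed (by simp [he])
  have g1 : ∀ e ∈ K.Gm, (Y.Good true (Y.flipS ω) e ↔ Y.Good false ω e) := fun e he => rcy162_flipS_good Y hw true ω (eGm e he)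
  have g2 : ∀ e ∈ K.Gp, (Y.Good false (Y.flipS ω) e ↔ Y.Good true ω e) := fun e he => rcy162_flipS_good Y hw false ω (eGp e he)
  unfold Rcy162Sys.Holds rcy162FlipK
  constructor
  · rintro ⟨a, b, c, d, e⟩
    refine ⟨fun v hv => ?_, fun v hv hh => ?_, fun x hx => (g2 x hx).1 (d x hx), fun x hx => (g1 x hx).1 (c x hx), e⟩
    · by_contra hn
      exact b v hv (Finset.mem_sdiff.2 ⟨hK.sp hv, hn⟩)
    · exact (Finset.mem_sdiff.1 (a hv)).2 hh
  · rintro ⟨a, b, c, d, e⟩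
    exact ⟨fun v hv => Finset.mem_sdiff.2 ⟨hK.sm hv, b v hv⟩, fun v hv hh => (Finset.mem_sdiff.1 hh).2 (a hv),
      fun x hx => (g1 x hx).2 (d x hx), fun x hx => (g2 x hx).2 (c x hx), e⟩

theorem rcy162_flip_PK (Y : Rcy162Sys) (hw : Y.WF) (t : ℝ) (B : RswCfg → Prop) {K : RswCon} (hK : Y.Legal K) (L : RswCfg → Prop) :
    Y.PK t B (rcy162FlipK K) L = Y.PK t (fun ω => B (Y.flipS ω)) K (fun ω => L (Y.flipS ω)) := by
  unfold Rcy162Sys.PK
  rw [rcy162_flipS_Pr Y hw]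
  refine rcy162_P_congr_K Y t (fun ω _ => ?_) _
  rw [rcy162_flip_holds Y hw hK]

/-! ## 10. the sum over `O`: given the spins the edge pairs are independent; the spin marginal (table `1, t, t, 0`) -/

/-- a product over the edges of a two-valued factor, summed over the set of the open edges -/
theorem rcy162_sum_powerset_prod {α : Type*} [DecidableEq α] (E : Finset α) (a b : α → ℝ) :
    ∑ O ∈ E.powerset, ∏ e ∈ E, (if e ∈ O then a e else b e) = ∏ e ∈ E, (a e + b e) := by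
  rw [Finset.prod_add]
  refine sum_congr rfl fun O hO => ?_
  rw [mem_powerset] at hO
  rw [← Finset.prod_sdiff hO, mul_comm]
  congr 1
  · exact prod_congr rfl fun e he => by rw [if_pos he]
  · exact prod_congr rfl fun e he => by rw [if_neg (mem_sdiff.1 he).2]

/-- factor of an OPEN edge pair -/
noncomputable def Rcy162Sys.fo (Y : Rcy162Sys) (t : ℝ) (S : Finset (ℤ × ℤ)) (e : (ℤ × ℤ) × Bool) : ℝ :=
  open Classical in if (Y.p0 e ∈ S ↔ Y.p1 e ∈ S) then t else 0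

/-- factor of a CLOSED edge pair -/
noncomputable def Rcy162Sys.fc (Y : Rcy162Sys) (t : ℝ) (S D : Finset (ℤ × ℤ)) (e : (ℤ × ℤ) × Bool) : ℝ :=
  open Classical in if (Y.f0 e ∈ D ↔ Y.f1 e ∈ D) then (if (Y.p0 e ∈ S ↔ Y.p1 e ∈ S) then 1 - t else t) else 0

/-- the table `1, t, t, 0` of the spin marginal -/
noncomputable def Rcy162Sys.tab (Y : Rcy162Sys) (t : ℝ) (S D : Finset (ℤ × ℤ)) (e : (ℤ × ℤ) × Bool) : ℝ :=
  open Classical in
  if (Y.p0 e ∈ S ↔ Y.p1 e ∈ S) then (if (Y.f0 e ∈ D ↔ Y.f1 e ∈ D) then 1 else t) else (if (Y.f0 e ∈ D ↔ Y.f1 e ∈ D) then t else 0)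

open Classical in
theorem rcy162_fac_eq (Y : Rcy162Sys) (t : ℝ) (S D : Finset (ℤ × ℤ)) (O : Finset ((ℤ × ℤ) × Bool)) (e : (ℤ × ℤ) × Bool) :
    Y.fac t ⟨S, D, O⟩ e = if e ∈ O then Y.fo t S e else Y.fc t S D e := by
  unfold Rcy162Sys.fac Rcy162Sys.fo Rcy162Sys.fc
  rfl

theorem rcy162_tab_eq (Y : Rcy162Sys) (t : ℝ) (S D : Finset (ℤ × ℤ)) (e : (ℤ × ℤ) × Bool) :
    Y.fo t S e + Y.fc t S D e = Y.tab t S D e := by
  unfold Rcy162Sys.fo Rcy162Sys.fc Rcy162Sys.tab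
  split_ifs <;> ring

theorem rcy162_tab_nonneg (Y : Rcy162Sys) {t : ℝ} (h0 : 0 ≤ t) (S D : Finset (ℤ × ℤ)) (e : (ℤ × ℤ) × Bool) : 0 ≤ Y.tab t S D e := by
  unfold Rcy162Sys.tab
  split_ifs <;> linarith

/-- **the sum over `O`** -/
theorem rcy162_sum_O (Y : Rcy162Sys) (t : ℝ) (S D : Finset (ℤ × ℤ)) :
    ∑ O ∈ Y.E.powerset, Y.w t ⟨S, D, O⟩ = ∏ e ∈ Y.E, Y.tab t S D e := by
  classical
  unfold Rcy162Sys.w
  simp only [rcy162_fac_eq, ← rcy162_tab_eq]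
  exact rcy162_sum_powerset_prod Y.E _ _

/-- the sum over `O` against an observable which is a product over the edges -/
theorem rcy162_sum_O_prod (Y : Rcy162Sys) (t : ℝ) (S D : Finset (ℤ × ℤ)) (x y : (ℤ × ℤ) × Bool → ℝ) :
    ∑ O ∈ Y.E.powerset, Y.w t ⟨S, D, O⟩ * ∏ e ∈ Y.E, (open Classical in if e ∈ O then x e else y e) =
      ∏ e ∈ Y.E, (Y.fo t S e * x e + Y.fc t S D e * y e) := by
  classical
  rw [← rcy162_sum_powerset_prod]
  refine sum_congr rfl fun O _ => ?_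
  unfold Rcy162Sys.w
  rw [← Finset.prod_mul_distrib]
  refine prod_congr rfl fun e _ => ?_
  rw [rcy162_fac_eq]
  by_cases h : e ∈ O <;> simp [h]

/-- **the spin marginal**: constraint and observable read `(S, D)` only -/
theorem rcy162_sum_spin (Y : Rcy162Sys) (t : ℝ) {K : RswCfg → Prop} {X : RswCfg → ℝ}
    (hK : ∀ S D O, K ⟨S, D, O⟩ ↔ K ⟨S, D, ∅⟩) (hX : ∀ S D O, X ⟨S, D, O⟩ = X ⟨S, D, ∅⟩) :
    Y.sum t K X = ∑ S ∈ Y.V.powerset, ∑ D ∈ Y.Fc.powerset,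
      (open Classical in if K ⟨S, D, ∅⟩ then ∏ e ∈ Y.E, Y.tab t S D e else 0) * X ⟨S, D, ∅⟩ := by
  classical
  unfold Rcy162Sys.sum
  refine sum_congr rfl fun S _ => sum_congr rfl fun D _ => ?_
  simp only [hX S D]
  rw [← Finset.sum_mul]
  congr 1
  by_cases h : K ⟨S, D, ∅⟩
  · rw [if_pos h, ← rcy162_sum_O]
    refine sum_congr rfl fun O _ => ?_
    rw [rcy162_wt_eq, if_pos ((hK S D O).2 h)]
  · rw [if_neg h]
    refine sum_eq_zero fun O _ => ?_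
    rw [rcy162_wt_eq, if_neg fun hh => h ((hK S D O).1 hh)]

/-! ## 11. refined fields; the reflection of the rows in EVENT form (field `refl` of `Rct127Law`) -/

/-- a REFINED field: `0` on the face points; an edge point of sign `s ≠ 0` has its two endpoints of sign `s` -/
def Rcy162Ref (τ : CyF) : Prop :=
  (∀ f, τ (rtd111F f) = 0) ∧ ∀ e, τ (rtd111E e) ≠ 0 → τ (rtd111P e.1) = τ (rtd111E e) ∧ τ (rtd111P (rswEnd e)) = τ (rtd111E e)

/-- a set in which a diagonal step can be replaced by two steps of `ℤ²` -/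
def Rcy162Diag (T : Set (ℤ × ℤ)) : Prop := ∀ x y : ℤ, (x, y) ∈ T → (x + 1, y + 1) ∈ T → (x + 1, y) ∈ T ∨ (x, y + 1) ∈ T

/-- a region which contains the unit square of each of its diagonals (bands, boxes) -/
def Rcy162Sq (R : Set (ℤ × ℤ)) : Prop := ∀ x y : ℤ, (x, y) ∈ R → (x + 1, y + 1) ∈ R → (x + 1, y) ∈ R ∧ (x, y + 1) ∈ R

theorem rcy162_sq_band (c d : ℤ) : Rcy162Sq (plsBand c d) := by
  intro x y h1 h2
  simp only [plsBand, Set.mem_ofPred_eq] at h1 h2 ⊢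
  omega

theorem rcy162_sq_box (a b c d : ℤ) : Rcy162Sq (tscBox a b c d) := by
  intro x y h1 h2
  simp only [tscBox, Set.mem_ofPred_eq] at h1 h2 ⊢
  omega

theorem rcy162_diag_inter {R T : Set (ℤ × ℤ)} (hR : Rcy162Sq R) (hT : Rcy162Diag T) : Rcy162Diag (R ∩ T) := by
  intro x y h1 h2
  obtain ⟨r1, r2⟩ := hR x y h1.1 h2.1
  rcases hT x y h1.2 h2.2 with h | h
  · exact Or.inl ⟨r1, h⟩
  · exact Or.inr ⟨r2, h⟩

theorem rcy162_diag_on {τ : CyF} (hτ : Rcy162Ref τ) {s : SignType} (hs : s ≠ 0) : Rcy162Diag (cyOn s τ) := by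
  intro x y h1 h2
  simp only [cyOn, Set.mem_ofPred_eq] at h1 h2 ⊢
  rcases Int.even_or_odd' x with ⟨i, hi | hi⟩ <;> rcases Int.even_or_odd' y with ⟨j, hj | hj⟩ <;> subst hi hj
  · exact absurd ((hτ.1 (i, j)).symm.trans h2) (Ne.symm hs)
  · right
    have := (hτ.2 ((i, j), true) (by rw [rtd111_E_t, h1]; exact hs)).2
    rw [rtd111_E_t, h1, rtd111_end_t] at this
    have e : rtd111P (i, j + 1) = (2 * i, 2 * j + 1 + 1) := by unfold rtd111P; ext <;> simp; ring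
    rw [← e]; exact this
  · left
    have := (hτ.2 ((i, j), false) (by rw [rtd111_E_f, h1]; exact hs)).2
    rw [rtd111_E_f, h1, rtd111_end_f] at this
    have e : rtd111P (i + 1, j) = (2 * i + 1 + 1, 2 * j) := by unfold rtd111P; ext <;> simp; ring
    rw [← e]; exact this
  · exact absurd ((hτ.1 (i, j)).symm.trans h1) (Ne.symm hs)

theorem rcy162_diag_off {τ : CyF} (hτ : Rcy162Ref τ) {s : SignType} (hs : s ≠ 0) : Rcy162Diag (cyOn s τ)ᶜ := by
  intro x y h1 h2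
  simp only [cyOn, Set.mem_compl_iff, Set.mem_ofPred_eq] at h1 h2 ⊢
  rcases Int.even_or_odd' x with ⟨i, hi | hi⟩ <;> rcases Int.even_or_odd' y with ⟨j, hj | hj⟩ <;> subst hi hj
  · left
    intro h
    have := (hτ.2 ((i, j), false) (by rw [rtd111_E_f, h]; exact hs)).1
    rw [rtd111_E_f, h] at this
    exact h1 this
  · left
    have := hτ.1 (i, j)
    unfold rtd111F at this
    rw [this]; exact Ne.symm hs
  · right
    have := hτ.1 (i, j)
    unfold rtd111F at this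
    rw [this]; exact Ne.symm hs
  · left
    intro h
    have e : rtd111E ((i + 1, j), true) = (2 * i + 1 + 1, 2 * j + 1) := by rw [rtd111_E_t]; ext <;> simp; ring
    have := (hτ.2 ((i + 1, j), true) (by rw [e, h]; exact hs)).2
    rw [e, h, rtd111_end_t] at this
    have e2 : rtd111P (i + 1, j + 1) = (2 * i + 1 + 1, 2 * j + 1 + 1) := by unfold rtd111P; ext <;> simp <;> ring
    rw [e2] at this
    exact h2 this

/-- the image of a path under the reversal of the rows `y ↦ ρ - y` -/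
theorem rcy162_refl_path (ρ : ℤ) {S S' : Set (ℤ × ℤ)} (hS : ∀ u ∈ S, (u.1, ρ - u.2) ∈ S') (hD : Rcy162Diag S') {u v : ℤ × ℤ}
    (h : TscR tscG S u v) : TscR tscG S' (u.1, ρ - u.2) (v.1, ρ - v.2) := by
  have adj : ∀ {p q : ℤ × ℤ}, p ∈ S' → q ∈ S' → ((q.1 = p.1 + 1 ∧ q.2 = p.2) ∨ (q.1 = p.1 ∧ q.2 = p.2 + 1) ∨ (q.1 = p.1 - 1 ∧ q.2 = p.2) ∨
      (q.1 = p.1 ∧ q.2 = p.2 - 1)) → TscR tscG S' p q := by
    intro p q hp hq hpq
    refine tsc_R_step ((tsc_G_adj _ _).2 ((tsc_adj_iff _ _).2 ?_)) hp hq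
    omega
  induction h with
  | refl => exact tsc_R_refl _
  | @tail a b _ hab ih =>
    refine tsc_R_trans ih ?_
    obtain ⟨h1, ha, hb⟩ := hab
    have ha' := hS a ha
    have hb' := hS b hb
    rw [tsc_G_adj, tsc_adj_iff] at h1
    rcases h1 with h1 | h1 | h1 | h1 | h1 | h1
    · exact adj ha' hb' (by simp only; omega)
    · exact adj ha' hb' (by simp only; omega)
    · have e : (a.1, ρ - a.2) = (b.1 + 1, (ρ - b.2) + 1) := by ext <;> simp only <;> omega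
      rw [e] at ha' ⊢
      rcases hD b.1 (ρ - b.2) hb' ha' with hm | hm
      · exact tsc_R_trans (adj ha' hm (by simp)) (adj hm hb' (by simp))
      · exact tsc_R_trans (adj ha' hm (by simp)) (adj hm hb' (by simp))
    · exact adj ha' hb' (by simp only; omega)
    · exact adj ha' hb' (by simp only; omega)
    · have e : (b.1, ρ - b.2) = (a.1 + 1, (ρ - a.2) + 1) := by ext <;> simp only <;> omega
      rw [e] at hb' ⊢
      rcases hD a.1 (ρ - a.2) ha' hb' with hm | hm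
      · exact tsc_R_trans (adj ha' hm (by simp)) (adj hm hb' (by simp))
      · exact tsc_R_trans (adj ha' hm (by simp)) (adj hm hb' (by simp))

theorem rcy162_refl_X (ρ : ℤ) {c d : ℤ} {S S' : Set (ℤ × ℤ)} (hS : ∀ u ∈ S, (u.1, ρ - u.2) ∈ S') (hD : Rcy162Diag S') (h : CyX S c d) :
    CyX S' (ρ - d) (ρ - c) := by
  obtain ⟨u, v, hu, h1, h2, h3⟩ := h
  exact ⟨(v.1, ρ - v.2), (u.1, ρ - u.2), hS v (tsc_R_mem h3 hu), by simp only [h2], by simp only [h1],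
    tsc_R_symm (rcy162_refl_path ρ hS hD h3)⟩

/-- (reversal of the rows) ∘ (flip) of a field -/
def rcy162Rf (ρ : ℤ) (τ : CyF) : CyF := fun u => - τ (u.1, ρ - u.2)

theorem rcy162_rf_rf (ρ : ℤ) (τ : CyF) : rcy162Rf ρ (rcy162Rf ρ τ) = τ := by
  funext u
  unfold rcy162Rf
  simp

theorem rcy162_ref_rf {τ : CyF} (hτ : Rcy162Ref τ) (r : ℤ) : Rcy162Ref (rcy162Rf (2 * r) τ) := by
  constructor
  · intro f
    have e : ((rtd111F f).1, 2 * r - (rtd111F f).2) = rtd111F (f.1, r - 1 - f.2) := by unfold rtd111F; ext <;> simp; ring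
    unfold rcy162Rf
    rw [e, hτ.1, neg_zero]
  · rintro ⟨⟨x, y⟩, bb⟩ h
    unfold rcy162Rf at h ⊢
    have eP : ∀ p q : ℤ, ((rtd111P (p, q)).1, 2 * r - (rtd111P (p, q)).2) = rtd111P (p, r - q) := by
      intro p q; unfold rtd111P; ext <;> simp; ring
    cases bb
    · have e : ((rtd111E ((x, y), false)).1, 2 * r - (rtd111E ((x, y), false)).2) = rtd111E ((x, r - y), false) := by
        rw [rtd111_E_f, rtd111_E_f]; ext <;> simp; ring
      rw [e] at h ⊢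
      have := hτ.2 ((x, r - y), false) (by simpa using h)
      rw [rtd111_end_f] at this ⊢
      rw [eP, eP, this.1, this.2]
      exact ⟨rfl, rfl⟩
    · have e : ((rtd111E ((x, y), true)).1, 2 * r - (rtd111E ((x, y), true)).2) = rtd111E ((x, r - 1 - y), true) := by
        rw [rtd111_E_t, rtd111_E_t]; ext <;> simp; ring
      rw [e] at h ⊢
      have := hτ.2 ((x, r - 1 - y), true) (by simpa using h)
      rw [rtd111_end_t] at this ⊢
      have e1 : r - 1 - y + 1 = r - y := by ring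
      have e2 : r - (y + 1) = r - 1 - y := by ring
      rw [e1] at this
      rw [eP, eP, e2, this.1, this.2]
      exact ⟨rfl, rfl⟩

section events

variable {τ : CyF} (hτ : Rcy162Ref τ) (r : ℤ) {s : SignType} (hs : s ≠ 0)

include hτ hs

/-- generic form: region `R` and its image `R'` -/
theorem rcy162_rf_on {R R' : Set (ℤ × ℤ)} (hR : Rcy162Sq R) (hR' : Rcy162Sq R') (hRR : ∀ u, u ∈ R ↔ (u.1, 2 * r - u.2) ∈ R') (c d : ℤ) :
    CyX (R' ∩ cyOn (-s) (rcy162Rf (2 * r) τ)) (2 * r - d) (2 * r - c) ↔ CyX (R ∩ cyOn s τ) c d := by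
  have hs' : -s ≠ 0 := by simpa using hs
  constructor
  · intro h
    have := rcy162_refl_X (2 * r) (S' := R ∩ cyOn s τ) (fun u hu => ?_) (rcy162_diag_inter hR (rcy162_diag_on hτ hs)) h
    · simpa using this
    · refine ⟨(hRR _).2 (by simpa using hu.1), ?_⟩
      have := hu.2
      simp only [cyOn, rcy162Rf, Set.mem_ofPred_eq, neg_inj] at this ⊢
      exact this
  · intro h
    refine rcy162_refl_X (2 * r) (fun u hu => ⟨(hRR u).1 hu.1, ?_⟩)
      (rcy162_diag_inter hR' (rcy162_diag_on (rcy162_ref_rf hτ r) hs')) h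
    have := hu.2
    simp only [cyOn, rcy162Rf, Set.mem_ofPred_eq, neg_inj, sub_sub_cancel] at this ⊢
    exact this

theorem rcy162_rf_off {R R' : Set (ℤ × ℤ)} (hR : Rcy162Sq R) (hR' : Rcy162Sq R') (hRR : ∀ u, u ∈ R ↔ (u.1, 2 * r - u.2) ∈ R') (c d : ℤ) :
    CyX (R' \ cyOn (-s) (rcy162Rf (2 * r) τ)) (2 * r - d) (2 * r - c) ↔ CyX (R \ cyOn s τ) c d := by
  have hs' : -s ≠ 0 := by simpa using hs
  constructor
  · intro h
    have := rcy162_refl_X (2 * r) (S' := R \ cyOn s τ) (fun u hu => ?_) (rcy162_diag_inter hR (rcy162_diag_off hτ hs)) h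
    · simpa using this
    · refine ⟨(hRR _).2 (by simpa using hu.1), ?_⟩
      have := hu.2
      simp only [cyOn, rcy162Rf, Set.mem_ofPred_eq, neg_inj] at this ⊢
      exact this
  · intro h
    refine rcy162_refl_X (2 * r) (fun u hu => ⟨(hRR u).1 hu.1, ?_⟩)
      (rcy162_diag_inter hR' (rcy162_diag_off (rcy162_ref_rf hτ r) hs')) h
    have := hu.2
    simp only [cyOn, rcy162Rf, Set.mem_ofPred_eq, neg_inj, sub_sub_cancel] at this ⊢
    exact this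

theorem rcy162_rf_VP (c d : ℤ) : rcy162Rf (2 * r) τ ∈ cyVP (-s) (2 * r - d) (2 * r - c) ↔ τ ∈ cyVP s c d :=
  rcy162_rf_on hτ r hs (rcy162_sq_band c d) (rcy162_sq_band _ _) (fun u => by simp only [plsBand, Set.mem_ofPred_eq]; omega) c d

theorem rcy162_rf_Blk (c d : ℤ) : rcy162Rf (2 * r) τ ∈ cyBlk (-s) (2 * r - d) (2 * r - c) ↔ τ ∈ cyBlk s c d :=
  not_congr (rcy162_rf_off hτ r hs (rcy162_sq_band c d) (rcy162_sq_band _ _) (fun u => by simp only [plsBand, Set.mem_ofPred_eq]; omega) c d)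

theorem rcy162_rf_V (a b c d : ℤ) : rcy162Rf (2 * r) τ ∈ cyV (-s) a b (2 * r - d) (2 * r - c) ↔ τ ∈ cyV s a b c d :=
  rcy162_rf_on hτ r hs (rcy162_sq_box a b c d) (rcy162_sq_box _ _ _ _) (fun u => by simp only [tscBox, Set.mem_ofPred_eq]; omega) c d

theorem rcy162_rf_H (a b c d : ℤ) : rcy162Rf (2 * r) τ ∈ cyH (-s) a b (2 * r - d) (2 * r - c) ↔ τ ∈ cyH s a b c d :=
  not_congr (rcy162_rf_off hτ r hs (rcy162_sq_box a b c d) (rcy162_sq_box _ _ _ _) (fun u => by simp only [tscBox, Set.mem_ofPred_eq]; omega) c d)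

end events


theorem rcy162_red_end (L : ℕ) (e : (ℤ × ℤ) × Bool) : rcy162Red L (rswEnd (rcy162RedE L e)) = rcy162Red L (rswEnd e) := by
  obtain ⟨⟨x, y⟩, bb⟩ := e
  cases bb
  · show rcy162Red L (x % (L : ℤ) + 1, y) = rcy162Red L (x + 1, y)
    rw [rcy162_red_congr L (x' := x + 1) y (-(x / L)) (by rw [Int.emod_def]; ring)]
  · show rcy162Red L (x % (L : ℤ), y + 1) = rcy162Red L (x, y + 1)
    rw [rcy162_red_congr L (x' := x) (y + 1) (-(x / L)) (by rw [Int.emod_def]; ring)]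

theorem rcy162_red_co (L : ℕ) (e : (ℤ × ℤ) × Bool) : rcy162Red L (rswCo (rcy162RedE L e)) = rcy162Red L (rswCo e) := by
  obtain ⟨⟨x, y⟩, bb⟩ := e
  cases bb
  · show rcy162Red L (x % (L : ℤ), y - 1) = rcy162Red L (x, y - 1)
    rw [rcy162_red_congr L (x' := x) (y - 1) (-(x / L)) (by rw [Int.emod_def]; ring)]
  · show rcy162Red L (x % (L : ℤ) - 1, y) = rcy162Red L (x - 1, y)
    rw [rcy162_red_congr L (x' := x - 1) y (-(x / L)) (by rw [Int.emod_def]; ring)]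

/-- **the status field of the cylinder is a refined field** -/
theorem rcy162_ref_fld {L : ℕ} (hL : 0 < L) (a b : ℤ) (ω : RswCfg) : Rcy162Ref (rcy162Fld L (rcy162Cyl L a b) ω) := by
  have hw := rcy162_cyl_wf hL a b
  refine ⟨fun f => rcy162_fld_F _ _ _ f, fun e he => ?_⟩
  rw [rcy162_fld_E] at he ⊢
  rw [rcy162_fld_P, rcy162_fld_P]
  have c0 : (rcy162Cyl L a b).p0 (rcy162RedE L e) = rcy162Red L e.1 := rfl
  have c1 : (rcy162Cyl L a b).p1 (rcy162RedE L e) = rcy162Red L (rswEnd e) := by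
    rw [rcy162_cyl_p1, rcy162_red_end]
  rcases SignType.trichotomy ((rcy162Cyl L a b).sgE ω (rcy162RedE L e)) with h | h | h
  · obtain ⟨hE, hG⟩ := rcy162_sgE_neg.1 h
    have p0 := hw.p0 _ hE
    have p1 := hw.p1 _ hE
    rw [c0] at p0
    rw [c1] at p1
    have g0 := hG.2.1
    have g1 := hG.2.2
    rw [c0] at g0
    rw [c1] at g1
    rw [h]
    exact ⟨rcy162_sgV_neg.2 ⟨p0, fun hh => Bool.false_ne_true (g0.1 hh)⟩, rcy162_sgV_neg.2 ⟨p1, fun hh => Bool.false_ne_true (g1.1 hh)⟩⟩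
  · exact absurd h he
  · obtain ⟨hE, hG⟩ := rcy162_sgE_one.1 h
    have p0 := hw.p0 _ hE
    have p1 := hw.p1 _ hE
    rw [c0] at p0
    rw [c1] at p1
    have g0 := hG.2.1
    have g1 := hG.2.2
    rw [c0] at g0
    rw [c1] at g1
    rw [h]
    exact ⟨rcy162_sgV_one.2 ⟨p0, g0.2 rfl⟩, rcy162_sgV_one.2 ⟨p1, g1.2 rfl⟩⟩

/-- two events which agree on the status fields have the same probability -/
theorem rcy162_Q_congr (t : ℝ) (L H : ℕ) {E E' : Set CyF}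
    (h : ∀ ω : RswCfg, rcy162Fld L (rcy162Cyl L 0 H) ω ∈ E ↔ rcy162Fld L (rcy162Cyl L 0 H) ω ∈ E') : rcy162Q t L H E = rcy162Q t L H E' :=
  rcy162_P_congr _ _ t fun ω _ _ => h ω

theorem rcy162_Q_refl' (t : ℝ) {L : ℕ} (hL : 0 < L) (H : ℕ) (E : Set CyF) :
    rcy162Q t L H E = rcy162Q t L H {τ | rcy162Rf (2 * (H : ℤ)) τ ∈ E} := rcy162_Q_refl t hL H E

/-- **field `refl` of `Rct127Law`, `ρ = 2 H`** (refined height `2 H`) -/
theorem rcy162_Q_refl_VP (t : ℝ) {L : ℕ} (hL : 0 < L) (H : ℕ) (c d : ℤ) :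
    rcy162Q t L H (cyVP (-1) c d) = rcy162Q t L H (cyVP 1 (2 * (H : ℤ) - d) (2 * (H : ℤ) - c)) := by
  rw [rcy162_Q_refl' t hL H (cyVP 1 _ _)]
  refine rcy162_Q_congr t L H fun ω => ?_
  have := rcy162_rf_VP (rcy162_ref_fld hL 0 H ω) (H : ℤ) (s := -1) (by decide) c d
  rw [neg_neg] at this
  exact this.symm

theorem rcy162_Q_refl_Blk (t : ℝ) {L : ℕ} (hL : 0 < L) (H : ℕ) (c d : ℤ) :
    rcy162Q t L H (cyBlk (-1) c d) = rcy162Q t L H (cyBlk 1 (2 * (H : ℤ) - d) (2 * (H : ℤ) - c)) := by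
  rw [rcy162_Q_refl' t hL H (cyBlk 1 _ _)]
  refine rcy162_Q_congr t L H fun ω => ?_
  have := rcy162_rf_Blk (rcy162_ref_fld hL 0 H ω) (H : ℤ) (s := -1) (by decide) c d
  rw [neg_neg] at this
  exact this.symm

theorem rcy162_Q_refl_V (t : ℝ) {L : ℕ} (hL : 0 < L) (H : ℕ) (a b c d : ℤ) :
    rcy162Q t L H (cyV (-1) a b c d) = rcy162Q t L H (cyV 1 a b (2 * (H : ℤ) - d) (2 * (H : ℤ) - c)) := by
  rw [rcy162_Q_refl' t hL H (cyV 1 _ _ _ _)]
  refine rcy162_Q_congr t L H fun ω => ?_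
  have := rcy162_rf_V (rcy162_ref_fld hL 0 H ω) (H : ℤ) (s := -1) (by decide) a b c d
  rw [neg_neg] at this
  exact this.symm

theorem rcy162_Q_refl_H (t : ℝ) {L : ℕ} (hL : 0 < L) (H : ℕ) (a b c d : ℤ) :
    rcy162Q t L H (cyH (-1) a b c d) = rcy162Q t L H (cyH 1 a b (2 * (H : ℤ) - d) (2 * (H : ℤ) - c)) := by
  rw [rcy162_Q_refl' t hL H (cyH 1 _ _ _ _)]
  refine rcy162_Q_congr t L H fun ω => ?_
  have := rcy162_rf_H (rcy162_ref_fld hL 0 H ω) (H : ℤ) (s := -1) (by decide) a b c d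
  rw [neg_neg] at this
  exact this.symm

/-! ## 12. the abstract cut (lem:finite-cuts on a system; `Cut91` is the plane) -/

/-- `Y'` is a subsystem of `Y`; `C` = the CORE of `Y'` (its sites off the rim): an edge pair of `Y` which is not in `Y'` has no endpoint in the core -/
structure Rcy162Sub (Y Y' : Rcy162Sys) (C : Finset (ℤ × ℤ)) : Prop where
  sV : Y'.V ⊆ Y.V
  sF : Y'.Fc ⊆ Y.Fc
  sE : Y'.E ⊆ Y.E
  sC : C ⊆ Y'.V
  wf : Y'.WF
  p0 : ∀ e ∈ Y'.E, Y'.p0 e = Y.p0 e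
  p1 : ∀ e ∈ Y'.E, Y'.p1 e = Y.p1 e
  f0 : ∀ e ∈ Y'.E, Y'.f0 e = Y.f0 e
  f1 : ∀ e ∈ Y'.E, Y'.f1 e = Y.f1 e
  core : ∀ e ∈ Y.E, e ∉ Y'.E → Y.p0 e ∉ C ∧ Y.p1 e ∉ C

/-- the spins of the rim `Y'.V \ C` are given by the pattern `A` -/
def Rcy162Pin (Y' : Rcy162Sys) (C A : Finset (ℤ × ℤ)) (ω : RswCfg) : Prop := ∀ v ∈ Y'.V \ C, (v ∈ ω.S ↔ v ∈ A)

/-- **the cut**: the rim has the pattern `A`, and every edge pair of `Y` off `Y'` which has a face in `Y'` is open -/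
def Rcy162Cut (Y Y' : Rcy162Sys) (C A : Finset (ℤ × ℤ)) (ω : RswCfg) : Prop :=
  Rcy162Pin Y' C A ω ∧ ∀ e ∈ Y.E \ Y'.E, (Y.f0 e ∈ Y'.Fc ∨ Y.f1 e ∈ Y'.Fc) → e ∈ ω.O

/-- the configuration read inside `Y'` -/
def rcy162In (Y' : Rcy162Sys) (ω : RswCfg) : RswCfg := ⟨ω.S ∩ Y'.V, ω.D ∩ Y'.Fc, ω.O ∩ Y'.E⟩

/-- the configuration read off the strict inside of `Y'` -/
def rcy162Out (Y' : Rcy162Sys) (C : Finset (ℤ × ℤ)) (ω : RswCfg) : RswCfg := ⟨ω.S \ C, ω.D \ Y'.Fc, ω.O \ Y'.E⟩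

/-- indicator of the cut -/
noncomputable def rcy162CutI (Y Y' : Rcy162Sys) (C A : Finset (ℤ × ℤ)) (ω : RswCfg) : ℝ :=
  open Classical in if Rcy162Cut Y Y' C A ω then 1 else 0

/-- weight of the outside -/
noncomputable def rcy162Wout (Y Y' : Rcy162Sys) (t : ℝ) (K : RswCfg → Prop) (η : RswCfg) : ℝ :=
  open Classical in if K η then ∏ e ∈ Y.E \ Y'.E, Y.fac t η e else 0

/-- the sum over the outside -/
noncomputable def rcy162G (Y Y' : Rcy162Sys) (C A : Finset (ℤ × ℤ)) (t : ℝ) (K : RswCfg → Prop) (Z : RswCfg → ℝ) : ℝ :=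
  ∑ S ∈ (Y.V \ C).powerset, ∑ D ∈ (Y.Fc \ Y'.Fc).powerset, ∑ O ∈ (Y.E \ Y'.E).powerset,
    rcy162CutI Y Y' C A ⟨S, D, O⟩ * rcy162Wout Y Y' t K ⟨S, D, O⟩ * Z ⟨S, D, O⟩

theorem rcy162_fac_congr (Y Y' : Rcy162Sys) (t : ℝ) {ω ω' : RswCfg} {e : (ℤ × ℤ) × Bool} (hO : e ∈ ω.O ↔ e ∈ ω'.O)
    (h1 : Y.p0 e ∈ ω.S ↔ Y'.p0 e ∈ ω'.S) (h2 : Y.p1 e ∈ ω.S ↔ Y'.p1 e ∈ ω'.S) (h3 : Y.f0 e ∈ ω.D ↔ Y'.f0 e ∈ ω'.D)
    (h4 : Y.f1 e ∈ ω.D ↔ Y'.f1 e ∈ ω'.D) : Y.fac t ω e = Y'.fac t ω' e := by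
  unfold Rcy162Sys.fac
  simp only [hO, h1, h2, h3, h4]

theorem rcy162_fac_congr_open (Y Y' : Rcy162Sys) (t : ℝ) {ω ω' : RswCfg} {e : (ℤ × ℤ) × Bool} (hO : e ∈ ω.O) (hO' : e ∈ ω'.O)
    (h1 : Y.p0 e ∈ ω.S ↔ Y'.p0 e ∈ ω'.S) (h2 : Y.p1 e ∈ ω.S ↔ Y'.p1 e ∈ ω'.S) : Y.fac t ω e = Y'.fac t ω' e := by
  unfold Rcy162Sys.fac
  simp only [hO, hO', h1, h2, if_true]

section cut

variable {Y Y' : Rcy162Sys} {C : Finset (ℤ × ℤ)} (h : Rcy162Sub Y Y' C)

include h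

theorem rcy162_fac_in (t : ℝ) (ω : RswCfg) {e : (ℤ × ℤ) × Bool} (he : e ∈ Y'.E) : Y'.fac t (rcy162In Y' ω) e = Y.fac t ω e := by
  apply rcy162_fac_congr <;> simp only [rcy162In, Finset.mem_inter]
  · exact ⟨fun x => x.1, fun x => ⟨x, he⟩⟩
  · rw [← h.p0 e he]; exact ⟨fun x => x.1, fun x => ⟨x, h.wf.p0 e he⟩⟩
  · rw [← h.p1 e he]; exact ⟨fun x => x.1, fun x => ⟨x, h.wf.p1 e he⟩⟩
  · rw [← h.f0 e he]; exact ⟨fun x => x.1, fun x => ⟨x, h.wf.f0 e he⟩⟩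
  · rw [← h.f1 e he]; exact ⟨fun x => x.1, fun x => ⟨x, h.wf.f1 e he⟩⟩

omit h in
theorem rcy162_out_S {ω : RswCfg} {v : ℤ × ℤ} (hv : v ∉ C) : (v ∈ (rcy162Out Y' C ω).S ↔ v ∈ ω.S) := by
  simp only [rcy162Out, Finset.mem_sdiff]
  exact ⟨fun x => x.1, fun x => ⟨x, hv⟩⟩

omit h in
theorem rcy162_out_O {ω : RswCfg} {e : (ℤ × ℤ) × Bool} (he : e ∉ Y'.E) : (e ∈ (rcy162Out Y' C ω).O ↔ e ∈ ω.O) := by
  simp only [rcy162Out, Finset.mem_sdiff]
  exact ⟨fun x => x.1, fun x => ⟨x, he⟩⟩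

omit h in
theorem rcy162_out_D {ω : RswCfg} {f : ℤ × ℤ} (hf : f ∉ Y'.Fc) : (f ∈ (rcy162Out Y' C ω).D ↔ f ∈ ω.D) := by
  simp only [rcy162Out, Finset.mem_sdiff]
  exact ⟨fun x => x.1, fun x => ⟨x, hf⟩⟩

omit h in
/-- the cut is read off the outside -/
theorem rcy162_cut_out {A : Finset (ℤ × ℤ)} {ω : RswCfg} : Rcy162Cut Y Y' C A (rcy162Out Y' C ω) ↔ Rcy162Cut Y Y' C A ω := by
  unfold Rcy162Cut Rcy162Pin
  refine and_congr (forall_congr' fun v => imp_congr_right fun hv => ?_) (forall_congr' fun e => imp_congr_right fun he => imp_congr_right fun _ => ?_)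
  · rw [rcy162_out_S (Finset.mem_sdiff.1 hv).2]
  · rw [rcy162_out_O (Finset.mem_sdiff.1 he).2]

theorem rcy162_fac_out (t : ℝ) {A : Finset (ℤ × ℤ)} {ω : RswCfg} (hc : Rcy162Cut Y Y' C A ω) {e : (ℤ × ℤ) × Bool} (he : e ∈ Y.E \ Y'.E) :
    Y.fac t (rcy162Out Y' C ω) e = Y.fac t ω e := by
  obtain ⟨he1, he2⟩ := Finset.mem_sdiff.1 he
  obtain ⟨c0, c1⟩ := h.core e he1 he2
  have h1 := rcy162_out_S (Y' := Y') (ω := ω) c0
  have h2 := rcy162_out_S (Y' := Y') (ω := ω) c1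
  by_cases hb : Y.f0 e ∈ Y'.Fc ∨ Y.f1 e ∈ Y'.Fc
  · have hg := hc.2 e he hb
    exact rcy162_fac_congr_open Y Y t ((rcy162_out_O he2).2 hg) hg h1 h2
  · rw [not_or] at hb
    exact rcy162_fac_congr Y Y t (rcy162_out_O he2) h1 h2 (rcy162_out_D hb.1) (rcy162_out_D hb.2)

omit h in
theorem rcy162_pin_in {A : Finset (ℤ × ℤ)} {ω : RswCfg} (hc : Rcy162Pin Y' C A ω) : Rcy162Pin Y' C A (rcy162In Y' ω) := by
  intro v hv
  have := hc v hv
  simp only [rcy162In, Finset.mem_inter]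
  exact ⟨fun x => this.1 x.1, fun x => ⟨this.2 x, (Finset.mem_sdiff.1 hv).1⟩⟩

/-- the weight splits on the cut -/
theorem rcy162_wt_split (t : ℝ) {K : RswCfg → Prop} (hK : ∀ ω, K (rcy162Out Y' C ω) ↔ K ω) {A : Finset (ℤ × ℤ)} {ω : RswCfg}
    (hc : Rcy162Cut Y Y' C A ω) :
    Y.wt t K ω = Y'.wt t (Rcy162Pin Y' C A) (rcy162In Y' ω) * rcy162Wout Y Y' t K (rcy162Out Y' C ω) := by
  classical
  unfold Rcy162Sys.wt rcy162Wout
  rw [if_pos (rcy162_pin_in hc.1)]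
  by_cases hb : K ω
  · rw [if_pos hb, if_pos ((hK ω).2 hb), ← Finset.prod_sdiff h.sE, mul_comm]
    congr 1
    · exact Finset.prod_congr rfl fun e he => (rcy162_fac_in h t ω he).symm
    · exact Finset.prod_congr rfl fun e he => (rcy162_fac_out h t hc he).symm
  · rw [if_neg hb, if_neg (fun x => hb ((hK ω).1 x)), mul_zero]

/-- the problem `(Y', pattern A on the rim)` as a sum over the strict inside -/
theorem rcy162_sum_in (t : ℝ) (A : Finset (ℤ × ℤ)) (X : RswCfg → ℝ) :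
    Y'.sum t (Rcy162Pin Y' C A) X = ∑ S ∈ C.powerset, ∑ D ∈ Y'.Fc.powerset, ∑ O ∈ Y'.E.powerset,
      Y'.wt t (Rcy162Pin Y' C A) ⟨S ∪ A ∩ (Y'.V \ C), D, O⟩ * X ⟨S ∪ A ∩ (Y'.V \ C), D, O⟩ := by
  classical
  unfold Rcy162Sys.sum
  rw [rsk_sum_powerset_split h.sC]
  refine Finset.sum_congr rfl fun S₁ hS₁ => ?_
  rw [Finset.mem_powerset] at hS₁
  rw [Finset.sum_eq_single (A ∩ (Y'.V \ C))]
  · intro S₂ hS₂ hne
    rw [Finset.mem_powerset] at hS₂
    refine Finset.sum_eq_zero fun D _ => Finset.sum_eq_zero fun O _ => ?_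
    rw [rcy162_wt_of_not, zero_mul]
    intro hb
    apply hne
    ext v
    rw [Finset.mem_inter]
    constructor
    · intro hv
      exact ⟨(hb v (hS₂ hv)).1 (Finset.mem_union_right _ hv), hS₂ hv⟩
    · rintro ⟨ha, h1⟩
      rcases Finset.mem_union.1 ((hb v h1).2 ha) with x | x
      · exact absurd (hS₁ x) (Finset.mem_sdiff.1 h1).2
      · exact x
  · intro x
    exact absurd (Finset.mem_powerset.2 Finset.inter_subset_right) x

/-- one term of the big sum -/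
theorem rcy162_cut_term (t : ℝ) {K : RswCfg → Prop} (hK : ∀ ω, K (rcy162Out Y' C ω) ↔ K ω) (A : Finset (ℤ × ℤ)) (X Z : RswCfg → ℝ)
    {S₁ S₂ D₁ D₂ : Finset (ℤ × ℤ)} {O₁ O₂ : Finset ((ℤ × ℤ) × Bool)} (hS₁ : S₁ ⊆ C) (hS₂ : S₂ ⊆ Y.V \ C) (hD₁ : D₁ ⊆ Y'.Fc)
    (hD₂ : D₂ ⊆ Y.Fc \ Y'.Fc) (hO₁ : O₁ ⊆ Y'.E) (hO₂ : O₂ ⊆ Y.E \ Y'.E) :
    Y.wt t K ⟨S₁ ∪ S₂, D₁ ∪ D₂, O₁ ∪ O₂⟩ * (rcy162CutI Y Y' C A ⟨S₁ ∪ S₂, D₁ ∪ D₂, O₁ ∪ O₂⟩ *
        X (rcy162In Y' ⟨S₁ ∪ S₂, D₁ ∪ D₂, O₁ ∪ O₂⟩) * Z (rcy162Out Y' C ⟨S₁ ∪ S₂, D₁ ∪ D₂, O₁ ∪ O₂⟩)) =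
      (Y'.wt t (Rcy162Pin Y' C A) ⟨S₁ ∪ A ∩ (Y'.V \ C), D₁, O₁⟩ * X ⟨S₁ ∪ A ∩ (Y'.V \ C), D₁, O₁⟩) *
        (rcy162CutI Y Y' C A ⟨S₂, D₂, O₂⟩ * rcy162Wout Y Y' t K ⟨S₂, D₂, O₂⟩ * Z ⟨S₂, D₂, O₂⟩) := by
  classical
  have hout : rcy162Out Y' C ⟨S₁ ∪ S₂, D₁ ∪ D₂, O₁ ∪ O₂⟩ = ⟨S₂, D₂, O₂⟩ := by
    unfold rcy162Out
    simp only [rsk_union_sdiff hS₁ hS₂, rsk_union_sdiff hD₁ hD₂, rsk_union_sdiff hO₁ hO₂]
  by_cases hc : Rcy162Cut Y Y' C A ⟨S₁ ∪ S₂, D₁ ∪ D₂, O₁ ∪ O₂⟩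
  · have hc' : Rcy162Cut Y Y' C A ⟨S₂, D₂, O₂⟩ := by
      rw [← hout]; exact rcy162_cut_out.2 hc
    have hin : rcy162In Y' ⟨S₁ ∪ S₂, D₁ ∪ D₂, O₁ ∪ O₂⟩ = ⟨S₁ ∪ A ∩ (Y'.V \ C), D₁, O₁⟩ := by
      unfold rcy162In
      simp only [rsk_union_inter hD₁ hD₂, rsk_union_inter hO₁ hO₂]
      congr 1
      ext v
      simp only [Finset.mem_inter, Finset.mem_union, Finset.mem_sdiff]
      by_cases hv : v ∈ C
      · have h2 : v ∉ S₂ := fun x => (Finset.mem_sdiff.1 (hS₂ x)).2 hv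
        have h3 := h.sC hv
        simp [hv, h2, h3]
      · have h1 : v ∉ S₁ := fun x => hv (hS₁ x)
        by_cases h3 : v ∈ Y'.V
        · have h4 := hc.1 v (Finset.mem_sdiff.2 ⟨h3, hv⟩)
          simp only [Finset.mem_union, h1, false_or] at h4
          simp [hv, h1, h3, h4]
        · simp [h1, h3]
    rw [rcy162_wt_split h t hK hc, hout, hin]
    unfold rcy162CutI
    rw [if_pos hc, if_pos hc']
    ring
  · have hc' : ¬ Rcy162Cut Y Y' C A ⟨S₂, D₂, O₂⟩ := by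
      rw [← hout]; exact fun x => hc (rcy162_cut_out.1 x)
    unfold rcy162CutI
    rw [if_neg hc, if_neg hc']
    ring

/-- **product formula** (all `t`) -/
theorem rcy162_cut_prod (t : ℝ) {K : RswCfg → Prop} (hK : ∀ ω, K (rcy162Out Y' C ω) ↔ K ω) (A : Finset (ℤ × ℤ)) (X Z : RswCfg → ℝ) :
    Y.sum t K (fun ω => rcy162CutI Y Y' C A ω * X (rcy162In Y' ω) * Z (rcy162Out Y' C ω)) =
      Y'.sum t (Rcy162Pin Y' C A) X * rcy162G Y Y' C A t K Z := by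
  classical
  rw [rcy162_sum_in h t A X]
  unfold rcy162G
  rw [← rsk_sum6 _ _ _ _ _ _
    (fun S D O => Y'.wt t (Rcy162Pin Y' C A) ⟨S ∪ A ∩ (Y'.V \ C), D, O⟩ * X ⟨S ∪ A ∩ (Y'.V \ C), D, O⟩)
    (fun S D O => rcy162CutI Y Y' C A ⟨S, D, O⟩ * rcy162Wout Y Y' t K ⟨S, D, O⟩ * Z ⟨S, D, O⟩)]
  unfold Rcy162Sys.sum
  rw [rsk_sum_powerset_split (h.sC.trans h.sV)]
  refine Finset.sum_congr rfl fun S₁ hS₁ => Finset.sum_congr rfl fun S₂ hS₂ => ?_
  rw [rsk_sum_powerset_split h.sF]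
  refine Finset.sum_congr rfl fun D₁ hD₁ => Finset.sum_congr rfl fun D₂ hD₂ => ?_
  rw [rsk_sum_powerset_split h.sE]
  refine Finset.sum_congr rfl fun O₁ hO₁ => Finset.sum_congr rfl fun O₂ hO₂ => ?_
  rw [Finset.mem_powerset] at hS₁ hS₂ hD₁ hD₂ hO₁ hO₂
  exact rcy162_cut_term h t hK A X Z hS₁ hS₂ hD₁ hD₂ hO₁ hO₂

/-- cross multiplied form (all `t`) -/
theorem rcy162_cut_cross (t : ℝ) {K : RswCfg → Prop} (hK : ∀ ω, K (rcy162Out Y' C ω) ↔ K ω) (A : Finset (ℤ × ℤ)) (X Z : RswCfg → ℝ) :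
    Y.sum t K (fun ω => rcy162CutI Y Y' C A ω * X (rcy162In Y' ω) * Z (rcy162Out Y' C ω)) * Y'.sum t (Rcy162Pin Y' C A) (fun _ => 1) =
      Y'.sum t (Rcy162Pin Y' C A) X * Y.sum t K (fun ω => rcy162CutI Y Y' C A ω * Z (rcy162Out Y' C ω)) := by
  have h1 := rcy162_cut_prod h t hK A X Z
  have h2 := rcy162_cut_prod h t hK A (fun _ => 1) Z
  simp only [mul_one] at h2
  rw [h1, h2]
  ring

/-- **lem:finite-cuts (2) on a system**, composition form -/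
theorem rcy162_cut_comp {t : ℝ} {K : RswCfg → Prop} (hK : ∀ ω, K (rcy162Out Y' C ω) ↔ K ω) (A : Finset (ℤ × ℤ))
    (hp : Y'.sum t (Rcy162Pin Y' C A) (fun _ => 1) ≠ 0) (X Z : RswCfg → ℝ) :
    Y.sum t K (fun ω => rcy162CutI Y Y' C A ω * X (rcy162In Y' ω) * Z (rcy162Out Y' C ω)) =
      Y'.Ex t (Rcy162Pin Y' C A) X * Y.sum t K (fun ω => rcy162CutI Y Y' C A ω * Z (rcy162Out Y' C ω)) := by
  have h1 := rcy162_cut_cross h t hK A X Z
  unfold Rcy162Sys.Ex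
  rw [div_mul_eq_mul_div, eq_div_iff hp]
  exact h1

/-- **lem:finite-cuts (2) on a system**: `X` reads only inside `Y'`, `Z` only the rest -/
theorem rcy162_cut {t : ℝ} {K : RswCfg → Prop} (hK : ∀ ω, K (rcy162Out Y' C ω) ↔ K ω) (A : Finset (ℤ × ℤ))
    (hp : Y'.sum t (Rcy162Pin Y' C A) (fun _ => 1) ≠ 0) {X Z : RswCfg → ℝ} (hX : ∀ ω, X (rcy162In Y' ω) = X ω)
    (hZ : ∀ ω, Z (rcy162Out Y' C ω) = Z ω) :
    Y.sum t K (fun ω => rcy162CutI Y Y' C A ω * X ω * Z ω) =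
      Y'.Ex t (Rcy162Pin Y' C A) X * Y.sum t K (fun ω => rcy162CutI Y Y' C A ω * Z ω) := by
  have h1 := rcy162_cut_comp h hK A hp X Z
  simp only [hX _, hZ _] at h1
  exact h1

end cut

/-! ## 13. cylinders inside cylinders: the Markov property in the language of the field; vertical shifts; SLIDE from FKG -/

/-- indicator of an event -/
noncomputable def rcy162Ind (L : RswCfg → Prop) (ω : RswCfg) : ℝ := open Classical in if L ω then 1 else 0

theorem rcy162_ind_pos {L : RswCfg → Prop} {ω : RswCfg} (h : L ω) : rcy162Ind L ω = 1 := by unfold rcy162Ind; rw [if_pos h]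

theorem rcy162_ind_neg {L : RswCfg → Prop} {ω : RswCfg} (h : ¬ L ω) : rcy162Ind L ω = 0 := by unfold rcy162Ind; rw [if_neg h]

theorem rcy162_ind_nonneg (L : RswCfg → Prop) (ω : RswCfg) : 0 ≤ rcy162Ind L ω := by
  unfold rcy162Ind; split_ifs <;> norm_num

theorem rcy162_ind_iff {L L' : RswCfg → Prop} {ω ω' : RswCfg} (h : L ω ↔ L' ω') : rcy162Ind L ω = rcy162Ind L' ω' := by
  by_cases c : L ω
  · rw [rcy162_ind_pos c, rcy162_ind_pos (h.1 c)]
  · rw [rcy162_ind_neg c, rcy162_ind_neg (fun x => c (h.2 x))]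

theorem rcy162_ind_and (A B : RswCfg → Prop) (ω : RswCfg) : rcy162Ind (fun ω => A ω ∧ B ω) ω = rcy162Ind A ω * rcy162Ind B ω := by
  by_cases a : A ω
  · by_cases b : B ω
    · rw [rcy162_ind_pos a, rcy162_ind_pos b, rcy162_ind_pos (L := fun ω => A ω ∧ B ω) ⟨a, b⟩, mul_one]
    · rw [rcy162_ind_neg b, rcy162_ind_neg (L := fun ω => A ω ∧ B ω) (fun x => b x.2), mul_zero]
  · rw [rcy162_ind_neg a, rcy162_ind_neg (L := fun ω => A ω ∧ B ω) (fun x => a x.1), zero_mul]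

theorem rcy162_P_ind (Y : Rcy162Sys) (t : ℝ) (K L : RswCfg → Prop) : Y.Pr t K L = Y.sum t K (rcy162Ind L) / Y.sum t K (fun _ => 1) := rfl

/-- law of the status field under the mixed law on the cylinder with the vertex rows `a..b` -/
noncomputable def rcy162QM (t : ℝ) (L : ℕ) (a b : ℤ) (E : Set CyF) : ℝ :=
  (rcy162Cyl L a b).Pr t (Rcy162Mix L a b) (fun ω => rcy162Fld L (rcy162Cyl L a b) ω ∈ E)

theorem rcy162_Q_eq_QM (t : ℝ) (L H : ℕ) (E : Set CyF) : rcy162Q t L H E = rcy162QM t L 0 H E := rfl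

/-- all the points of the refined row `y` have the sign `s` -/
def rcy162RowEv (s : SignType) (y : ℤ) : Set CyF := {τ | ∀ x : ℤ, τ (x, y) = s}

/-- the core of the cylinder with the rows `a..b` -/
noncomputable def rcy162Core (L : ℕ) (a b : ℤ) : Finset (ℤ × ℤ) := Finset.Ico (0 : ℤ) L ×ˢ Finset.Ioo a b

theorem rcy162_mem_core {L : ℕ} {a b : ℤ} {v : ℤ × ℤ} : v ∈ rcy162Core L a b ↔ (0 ≤ v.1 ∧ v.1 < L) ∧ a < v.2 ∧ v.2 < b := by
  unfold rcy162Core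
  rw [Finset.mem_product, Finset.mem_Ico, Finset.mem_Ioo]

/-- a cylinder inside a cylinder -/
theorem rcy162_sub_cyl {L : ℕ} (hL : 0 < L) {a a' b' b : ℤ} (h1 : a ≤ a') (h2 : b' ≤ b) :
    Rcy162Sub (rcy162Cyl L a b) (rcy162Cyl L a' b') (rcy162Core L a' b') := by
  refine ⟨fun v hv => ?_, fun v hv => ?_, fun e he => ?_, fun v hv => ?_, rcy162_cyl_wf hL a' b', fun _ _ => rfl, fun _ _ => rfl,
    fun _ _ => rfl, fun _ _ => rfl, fun e he hn => ?_⟩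
  · obtain ⟨x, y, z⟩ := rcy162_mem_cylV.1 hv
    exact rcy162_mem_cylV.2 ⟨x, by omega, by omega⟩
  · obtain ⟨x, y, z⟩ := rcy162_mem_cylF.1 hv
    exact rcy162_mem_cylF.2 ⟨x, by omega, by omega⟩
  · obtain ⟨x, y⟩ := rcy162_mem_cylE.1 he
    refine rcy162_mem_cylE.2 ⟨x, ?_⟩
    rcases y with ⟨y1, y2, y3⟩ | ⟨y1, y2, y3⟩
    · exact Or.inl ⟨y1, by omega, by omega⟩
    · exact Or.inr ⟨y1, by omega, by omega⟩
  · obtain ⟨x, y, z⟩ := rcy162_mem_core.1 hv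
    exact rcy162_mem_cylV.2 ⟨x, by omega, by omega⟩
  · obtain ⟨x, y⟩ := rcy162_mem_cylE.1 he
    have hn' : ¬ ((e.2 = false ∧ a' < e.1.2 ∧ e.1.2 < b') ∨ (e.2 = true ∧ a' ≤ e.1.2 ∧ e.1.2 < b')) := fun hh =>
      hn (rcy162_mem_cylE.2 ⟨x, hh⟩)
    rw [rcy162_cyl_p0, rcy162_cyl_p1]
    obtain ⟨⟨i, r⟩, bb⟩ := e
    cases bb
    · simp only [true_and, reduceCtorEq, false_and, or_false] at hn'
      constructor
      · intro hc
        exact hn' (rcy162_mem_core.1 hc).2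
      · intro hc
        exact hn' (rcy162_mem_core.1 hc).2
    · simp only [true_and, reduceCtorEq, false_and, false_or] at hn'
      constructor
      · intro hc
        have := (rcy162_mem_core.1 hc).2
        simp only at this
        omega
      · intro hc
        have := (rcy162_mem_core.1 hc).2
        rw [rtd111_end_t] at this
        simp only [rcy162Red] at this
        omega

/-- `Good` inside a subsystem -/
theorem rcy162_good_in {Y Y' : Rcy162Sys} {C : Finset (ℤ × ℤ)} (h : Rcy162Sub Y Y' C) (s : Bool) (ω : RswCfg) {e : (ℤ × ℤ) × Bool}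
    (he : e ∈ Y'.E) : Y'.Good s (rcy162In Y' ω) e ↔ Y.Good s ω e := by
  have a0 := h.wf.p0 e he
  have a1 := h.wf.p1 e he
  unfold Rcy162Sys.Good rcy162In
  simp only [Finset.mem_inter, he, a0, a1, and_true]
  rw [h.p0 e he, h.p1 e he]

/-- the field of the small cylinder, read on the configuration inside, is the field of the big one on the rows strictly inside -/
theorem rcy162_fld_in {L : ℕ} (hL : 0 < L) {a a' b' b : ℤ} (h1 : a ≤ a') (h2 : b' ≤ b) (ω : RswCfg) {p : ℤ × ℤ}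
    (hp1 : 2 * a' + 1 ≤ p.2) (hp2 : p.2 ≤ 2 * b' - 1) :
    rcy162Fld L (rcy162Cyl L a' b') (rcy162In (rcy162Cyl L a' b') ω) p = rcy162Fld L (rcy162Cyl L a b) ω p := by
  classical
  have hs := rcy162_sub_cyl hL h1 h2
  rcases rtd111_cases p with ⟨v, rfl⟩ | ⟨f, rfl⟩ | ⟨e, rfl⟩
  · rw [rcy162_fld_P, rcy162_fld_P]
    simp only [rtd111P] at hp1 hp2
    have m' : rcy162Red L v ∈ (rcy162Cyl L a' b').V := rcy162_mem_cylV.2 ⟨rcy162_red_range hL _, by show a' ≤ v.2; omega, by show v.2 ≤ b'; omega⟩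
    have m := hs.sV m'
    unfold Rcy162Sys.sgV rcy162In
    simp only [m, m', Finset.mem_inter, and_true, if_true]
  · rw [rcy162_fld_F, rcy162_fld_F]
  · rw [rcy162_fld_E, rcy162_fld_E]
    have m' : rcy162RedE L e ∈ (rcy162Cyl L a' b').E := by
      obtain ⟨⟨i, r⟩, bb⟩ := e
      refine rcy162_mem_cylE.2 ⟨rcy162_red_range hL _, ?_⟩
      cases bb
      · rw [rtd111_E_f] at hp1 hp2
        simp only at hp1 hp2
        exact Or.inl ⟨rfl, by show a' < r; omega, by show r < b'; omega⟩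
      · rw [rtd111_E_t] at hp1 hp2
        simp only at hp1 hp2
        exact Or.inr ⟨rfl, by show a' ≤ r; omega, by show r < b'; omega⟩
    have m := hs.sE m'
    unfold Rcy162Sys.sgE
    simp only [m, m', rcy162_good_in hs _ ω m', if_true]


/-- the mixed boundary condition reads only off the core of an inner cylinder -/
theorem rcy162_mix_out {L : ℕ} {a a' b' b : ℤ} (h1 : a ≤ a') (h2 : b' ≤ b) (ω : RswCfg) :
    Rcy162Mix L a b (rcy162Out (rcy162Cyl L a' b') (rcy162Core L a' b') ω) ↔ Rcy162Mix L a b ω := by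
  have ha : ∀ v ∈ rcy162Row L a, v ∉ rcy162Core L a' b' := by
    intro v hv hc
    have x := (rcy162_mem_row.1 hv).2
    have y := (rcy162_mem_core.1 hc).2
    omega
  have hb : ∀ v ∈ rcy162Row L b, v ∉ rcy162Core L a' b' := by
    intro v hv hc
    have x := (rcy162_mem_row.1 hv).2
    have y := (rcy162_mem_core.1 hc).2
    omega
  unfold Rcy162Mix
  constructor
  · rintro ⟨x, y⟩
    exact ⟨fun v hv hh => x v hv ((rcy162_out_S (ha v hv)).2 hh), fun v hv => (rcy162_out_S (hb v hv)).1 (y hv)⟩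
  · rintro ⟨x, y⟩
    exact ⟨fun v hv hh => x v hv ((rcy162_out_S (ha v hv)).1 hh), fun v hv => (rcy162_out_S (hb v hv)).2 (y hv)⟩

/-- **the Markov property**: cylinder `a'..b'` inside the cylinder `a..b`, pattern `A` on the two rows `a'`, `b'` -/
theorem rcy162_markov {t : ℝ} {L : ℕ} (hL : 0 < L) {a a' b' b : ℤ} (h1 : a ≤ a') (h2 : b' ≤ b) (A : Finset (ℤ × ℤ))
    (hp : (rcy162Cyl L a' b').sum t (Rcy162Pin (rcy162Cyl L a' b') (rcy162Core L a' b') A) (fun _ => 1) ≠ 0) {E : Set CyF}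
    (hE : CySup (2 * a' + 1) (2 * b' - 1) E) :
    (rcy162Cyl L a b).Pr t (Rcy162Mix L a b) (fun ω => Rcy162Cut (rcy162Cyl L a b) (rcy162Cyl L a' b') (rcy162Core L a' b') A ω ∧
        rcy162Fld L (rcy162Cyl L a b) ω ∈ E) =
      (rcy162Cyl L a' b').Pr t (Rcy162Pin (rcy162Cyl L a' b') (rcy162Core L a' b') A) (fun ω => rcy162Fld L (rcy162Cyl L a' b') ω ∈ E) *
        (rcy162Cyl L a b).Pr t (Rcy162Mix L a b) (Rcy162Cut (rcy162Cyl L a b) (rcy162Cyl L a' b') (rcy162Core L a' b') A) := by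
  have hs := rcy162_sub_cyl hL h1 h2
  have key := rcy162_cut_comp hs (t := t) (K := Rcy162Mix L a b) (rcy162_mix_out h1 h2) A hp
    (rcy162Ind fun ω => rcy162Fld L (rcy162Cyl L a' b') ω ∈ E) (fun _ => 1)
  have e1 : rcy162Ind (fun ω : RswCfg => Rcy162Cut (rcy162Cyl L a b) (rcy162Cyl L a' b') (rcy162Core L a' b') A ω ∧
        rcy162Fld L (rcy162Cyl L a b) ω ∈ E) =
      fun ω => rcy162CutI (rcy162Cyl L a b) (rcy162Cyl L a' b') (rcy162Core L a' b') A ω *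
        rcy162Ind (fun ω => rcy162Fld L (rcy162Cyl L a' b') ω ∈ E) (rcy162In (rcy162Cyl L a' b') ω) * 1 := by
    funext ω
    have hiff : rcy162Fld L (rcy162Cyl L a b) ω ∈ E ↔ rcy162Fld L (rcy162Cyl L a' b') (rcy162In (rcy162Cyl L a' b') ω) ∈ E :=
      (hE _ _ fun u hu1 hu2 => rcy162_fld_in hL h1 h2 ω hu1 hu2).symm
    rw [rcy162_ind_and, mul_one, rcy162_ind_iff (L := fun ω => rcy162Fld L (rcy162Cyl L a b) ω ∈ E)
      (L' := fun ω => rcy162Fld L (rcy162Cyl L a' b') ω ∈ E) hiff]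
    rfl
  have e2 : rcy162Ind (Rcy162Cut (rcy162Cyl L a b) (rcy162Cyl L a' b') (rcy162Core L a' b') A) =
      fun ω => rcy162CutI (rcy162Cyl L a b) (rcy162Cyl L a' b') (rcy162Core L a' b') A ω * 1 := by
    funext ω
    rw [mul_one]
    rfl
  rw [rcy162_P_ind, rcy162_P_ind, rcy162_P_ind, e1, e2, key]
  unfold Rcy162Sys.Ex
  ring


/-- the row event in words: the sites of the row `j` have the colour `s` and the horizontal edges of the row are open -/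
theorem rcy162_rowEv_iff {L : ℕ} (hL : 0 < L) {a b j : ℤ} (h1 : a < j) (h2 : j < b) (s : Bool) (ω : RswCfg) :
    rcy162Fld L (rcy162Cyl L a b) ω ∈ rcy162RowEv (if s then 1 else -1) (2 * j) ↔
      (∀ v ∈ rcy162Row L j, (v ∈ ω.S ↔ s = true)) ∧ ∀ v ∈ rcy162Row L j, (v, false) ∈ ω.O := by
  have hrow := rcy162_row_iff hL (a := a) (b := b) (j := j) h1.le h2.le ω s
  constructor
  · intro h
    refine ⟨hrow.2 fun x => h (2 * x), fun v hv => ?_⟩
    obtain ⟨r1, r2⟩ := rcy162_mem_row.1 hv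
    have e1 : rtd111E (v, false) = (2 * v.1 + 1, 2 * j) := by rw [← r2]; rfl
    have e2 : rcy162RedE L (v, false) = (v, false) := by
      show (rcy162Red L v, false) = (v, false)
      rw [rcy162_red_of_range r1.1 r1.2]
    have := h (2 * v.1 + 1)
    rw [← e1, rcy162_fld_E, e2] at this
    cases s
    · exact (rcy162_sgE_neg.1 this).2.1
    · exact (rcy162_sgE_one.1 this).2.1
  · rintro ⟨hS, hO⟩ x
    rcases Int.even_or_odd' x with ⟨i, hi | hi⟩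
    · rw [hi]; exact hrow.1 hS i
    · have e1 : (x, 2 * j) = rtd111E ((i, j), false) := by rw [hi]; rfl
      rw [e1, rcy162_fld_E]
      have m0 : rcy162Red L (i, j) ∈ rcy162Row L j := rcy162_mem_row.2 ⟨rcy162_red_range hL _, rfl⟩
      have m1 : rcy162Red L (rswEnd (rcy162RedE L ((i, j), false))) ∈ rcy162Row L j := rcy162_mem_row.2 ⟨rcy162_red_range hL _, rfl⟩
      have mE : rcy162RedE L ((i, j), false) ∈ (rcy162Cyl L a b).E :=
        rcy162_mem_cylE.2 ⟨rcy162_red_range hL _, Or.inl ⟨rfl, h1, h2⟩⟩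
      have hG : (rcy162Cyl L a b).Good s ω (rcy162RedE L ((i, j), false)) := ⟨hO _ m0, hS _ m0, hS _ m1⟩
      cases s
      · exact rcy162_sgE_neg.2 ⟨mE, hG⟩
      · exact rcy162_sgE_one.2 ⟨mE, hG⟩

/-- the pattern "plus on the top row" on the rim of a cylinder is the mixed boundary condition -/
theorem rcy162_pin_mix {L : ℕ} {a b : ℤ} (hab : a < b) (ω : RswCfg) :
    Rcy162Pin (rcy162Cyl L a b) (rcy162Core L a b) (rcy162Row L b) ω ↔ Rcy162Mix L a b ω := by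
  unfold Rcy162Pin Rcy162Mix
  constructor
  · intro h
    refine ⟨fun v hv hS => ?_, fun v hv => ?_⟩
    · obtain ⟨r1, r2⟩ := rcy162_mem_row.1 hv
      have m : v ∈ (rcy162Cyl L a b).V \ rcy162Core L a b :=
        Finset.mem_sdiff.2 ⟨rcy162_mem_cylV.2 ⟨r1, by omega, by omega⟩, fun hc => by have := (rcy162_mem_core.1 hc).2; omega⟩
      have := (rcy162_mem_row.1 ((h v m).1 hS)).2
      omega
    · obtain ⟨r1, r2⟩ := rcy162_mem_row.1 hv
      have m : v ∈ (rcy162Cyl L a b).V \ rcy162Core L a b :=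
        Finset.mem_sdiff.2 ⟨rcy162_mem_cylV.2 ⟨r1, by omega, by omega⟩, fun hc => by have := (rcy162_mem_core.1 hc).2; omega⟩
      exact (h v m).2 hv
  · rintro ⟨hA, hB⟩ v hv
    obtain ⟨m1, m2⟩ := Finset.mem_sdiff.1 hv
    obtain ⟨r1, r2, r3⟩ := rcy162_mem_cylV.1 m1
    have r4 : ¬ (a < v.2 ∧ v.2 < b) := fun hh => m2 (rcy162_mem_core.2 ⟨r1, hh⟩)
    by_cases hb : v.2 = b
    · have : v ∈ rcy162Row L b := rcy162_mem_row.2 ⟨r1, hb⟩
      exact ⟨fun _ => this, fun _ => hB this⟩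
    · have : v ∈ rcy162Row L a := rcy162_mem_row.2 ⟨r1, by omega⟩
      exact ⟨fun x => absurd x (hA v this), fun x => absurd (rcy162_mem_row.1 x).2 hb⟩

/-- the cut along the row `j`, seen from below -/
theorem rcy162_cut_up_iff {L : ℕ} (hL : 0 < L) {a b j : ℤ} (h1 : a < j) (h2 : j < b) {ω : RswCfg} (hm : Rcy162Mix L a b ω) :
    Rcy162Cut (rcy162Cyl L a b) (rcy162Cyl L a j) (rcy162Core L a j) (rcy162Row L j) ω ↔
      rcy162Fld L (rcy162Cyl L a b) ω ∈ rcy162RowEv 1 (2 * j) := by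
  have := rcy162_rowEv_iff hL h1 h2 true ω
  simp only [if_true, iff_true] at this
  rw [this]
  unfold Rcy162Cut
  rw [rcy162_pin_mix h1]
  refine and_congr ⟨fun x v hv => x.2 hv, fun x => ⟨hm.1, fun v hv => x v hv⟩⟩ ⟨fun x v hv => ?_, fun x e he hf => ?_⟩
  · obtain ⟨r1, r2⟩ := rcy162_mem_row.1 hv
    refine x (v, false) (Finset.mem_sdiff.2 ⟨rcy162_mem_cylE.2 ⟨r1, Or.inl ⟨rfl, by show a < v.2; omega, by show v.2 < b; omega⟩⟩, fun hc => ?_⟩)
      (Or.inr (rcy162_mem_cylF.2 ⟨rcy162_red_range hL _, by show a ≤ v.2 - 1; omega, by show v.2 - 1 < j; omega⟩))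
    rcases (rcy162_mem_cylE.1 hc).2 with ⟨-, -, y⟩ | ⟨y, -⟩
    · simp only at y; omega
    · exact Bool.false_ne_true y
  · obtain ⟨m1, m2⟩ := Finset.mem_sdiff.1 he
    obtain ⟨⟨i, r⟩, bb⟩ := e
    obtain ⟨r1, r2⟩ := rcy162_mem_cylE.1 m1
    have r3 : ¬ (((((i, r), bb) : (ℤ × ℤ) × Bool).2 = false ∧ a < r ∧ r < j) ∨ ((((i, r), bb) : (ℤ × ℤ) × Bool).2 = true ∧ a ≤ r ∧ r < j)) :=
      fun hh => m2 (rcy162_mem_cylE.2 ⟨r1, hh⟩)
    have f0 : (rcy162Cyl L a b).f0 ((i, r), bb) ∈ (rcy162Cyl L a j).Fc → r < j := fun hh => (rcy162_mem_cylF.1 hh).2.2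
    cases bb
    · simp only [true_and, reduceCtorEq, false_and, or_false] at r2 r3
      have f1 : (rcy162Cyl L a b).f1 ((i, r), false) ∈ (rcy162Cyl L a j).Fc → r - 1 < j := fun hh => (rcy162_mem_cylF.1 hh).2.2
      have hr : r = j := by
        rcases hf with hf | hf
        · have := f0 hf; omega
        · have := f1 hf; omega
      subst hr
      exact x (i, r) (rcy162_mem_row.2 ⟨r1, rfl⟩)
    · simp only [true_and, reduceCtorEq, false_and, false_or] at r2 r3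
      have f1 : (rcy162Cyl L a b).f1 ((i, r), true) ∈ (rcy162Cyl L a j).Fc → r < j := fun hh => (rcy162_mem_cylF.1 hh).2.2
      rcases hf with hf | hf
      · have := f0 hf; omega
      · have := f1 hf; omega

/-- the cut along the row `j`, seen from above -/
theorem rcy162_cut_low_iff {L : ℕ} (hL : 0 < L) {a b j : ℤ} (h1 : a < j) (h2 : j < b) {ω : RswCfg} (hm : Rcy162Mix L a b ω) :
    Rcy162Cut (rcy162Cyl L a b) (rcy162Cyl L j b) (rcy162Core L j b) (rcy162Row L b) ω ↔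
      rcy162Fld L (rcy162Cyl L a b) ω ∈ rcy162RowEv (-1) (2 * j) := by
  have := rcy162_rowEv_iff hL h1 h2 false ω
  simp only [Bool.false_eq_true, if_false, iff_false] at this
  rw [this]
  unfold Rcy162Cut
  rw [rcy162_pin_mix h2]
  refine and_congr ⟨fun x v hv => x.1 v hv, fun x => ⟨x, hm.2⟩⟩ ⟨fun x v hv => ?_, fun x e he hf => ?_⟩
  · obtain ⟨r1, r2⟩ := rcy162_mem_row.1 hv
    refine x (v, false) (Finset.mem_sdiff.2 ⟨rcy162_mem_cylE.2 ⟨r1, Or.inl ⟨rfl, by show a < v.2; omega, by show v.2 < b; omega⟩⟩, fun hc => ?_⟩)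
      (Or.inl (rcy162_mem_cylF.2 ⟨r1, by show j ≤ v.2; omega, by show v.2 < b; omega⟩))
    rcases (rcy162_mem_cylE.1 hc).2 with ⟨-, y, -⟩ | ⟨y, -⟩
    · simp only at y; omega
    · exact Bool.false_ne_true y
  · obtain ⟨m1, m2⟩ := Finset.mem_sdiff.1 he
    obtain ⟨⟨i, r⟩, bb⟩ := e
    obtain ⟨r1, r2⟩ := rcy162_mem_cylE.1 m1
    have r3 : ¬ (((((i, r), bb) : (ℤ × ℤ) × Bool).2 = false ∧ j < r ∧ r < b) ∨ ((((i, r), bb) : (ℤ × ℤ) × Bool).2 = true ∧ j ≤ r ∧ r < b)) :=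
      fun hh => m2 (rcy162_mem_cylE.2 ⟨r1, hh⟩)
    have f0 : (rcy162Cyl L a b).f0 ((i, r), bb) ∈ (rcy162Cyl L j b).Fc → j ≤ r := fun hh => (rcy162_mem_cylF.1 hh).2.1
    cases bb
    · simp only [true_and, reduceCtorEq, false_and, or_false] at r2 r3
      have f1 : (rcy162Cyl L a b).f1 ((i, r), false) ∈ (rcy162Cyl L j b).Fc → j ≤ r - 1 := fun hh => (rcy162_mem_cylF.1 hh).2.1
      have hr : r = j := by
        rcases hf with hf | hf
        · have := f0 hf; omega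
        · have := f1 hf; omega
      subst hr
      exact x (i, r) (rcy162_mem_row.2 ⟨r1, rfl⟩)
    · simp only [true_and, reduceCtorEq, false_and, false_or] at r2 r3
      have f1 : (rcy162Cyl L a b).f1 ((i, r), true) ∈ (rcy162Cyl L j b).Fc → j ≤ r := fun hh => (rcy162_mem_cylF.1 hh).2.1
      rcases hf with hf | hf
      · have := f0 hf; omega
      · have := f1 hf; omega


theorem rcy162_pin_Z_ne {t : ℝ} (h0 : 0 < t) (h1 : t ≤ 1) (L : ℕ) {a b : ℤ} (hab : a < b) :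
    (rcy162Cyl L a b).sum t (Rcy162Pin (rcy162Cyl L a b) (rcy162Core L a b) (rcy162Row L b)) (fun _ => 1) ≠ 0 := by
  rw [rcy162_sum_congr_K _ t (fun ω _ => rcy162_pin_mix hab ω)]
  exact (rcy162_Z_pos _ _ h0.le h1 (rcy162_mix_feas h0 L hab)).ne'

/-- **Markov, cut from above**: given that the row `j` is a plus circuit, the law below is the mixed law of the cylinder `a..j` -/
theorem rcy162_markov_up {t : ℝ} (h0 : 0 < t) (h1 : t ≤ 1) {L : ℕ} (hL : 0 < L) {a b j : ℤ} (haj : a < j) (hjb : j < b) {E : Set CyF}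
    (hE : CySup (2 * a + 1) (2 * j - 1) E) :
    rcy162QM t L a b (E ∩ rcy162RowEv 1 (2 * j)) = rcy162QM t L a j E * rcy162QM t L a b (rcy162RowEv 1 (2 * j)) := by
  have key := rcy162_markov (t := t) hL (a := a) (a' := a) (b' := j) (b := b) le_rfl hjb.le (rcy162Row L j) (rcy162_pin_Z_ne h0 h1 L haj) hE
  unfold rcy162QM
  rw [rcy162_P_congr_K _ t (fun ω _ => rcy162_pin_mix haj ω)] at key
  rw [rcy162_P_congr _ _ t fun ω _ hw => (rcy162_cut_up_iff hL haj hjb (rcy162_K_of_wt _ hw)),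
    rcy162_P_congr (L' := fun ω => rcy162Fld L (rcy162Cyl L a b) ω ∈ E ∩ rcy162RowEv 1 (2 * j)) _ _ t fun ω _ hw => by
      rw [rcy162_cut_up_iff hL haj hjb (rcy162_K_of_wt _ hw)]
      exact ⟨fun x => ⟨x.2, x.1⟩, fun x => ⟨x.2, x.1⟩⟩] at key
  exact key

/-- **Markov, cut from below**: given that the row `j` is a minus circuit, the law above is the mixed law of the cylinder `j..b` -/
theorem rcy162_markov_low {t : ℝ} (h0 : 0 < t) (h1 : t ≤ 1) {L : ℕ} (hL : 0 < L) {a b j : ℤ} (haj : a < j) (hjb : j < b) {E : Set CyF}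
    (hE : CySup (2 * j + 1) (2 * b - 1) E) :
    rcy162QM t L a b (E ∩ rcy162RowEv (-1) (2 * j)) = rcy162QM t L j b E * rcy162QM t L a b (rcy162RowEv (-1) (2 * j)) := by
  have key := rcy162_markov (t := t) hL (a := a) (a' := j) (b' := b) (b := b) haj.le le_rfl (rcy162Row L b) (rcy162_pin_Z_ne h0 h1 L hjb) hE
  unfold rcy162QM
  rw [rcy162_P_congr_K _ t (fun ω _ => rcy162_pin_mix hjb ω)] at key
  rw [rcy162_P_congr _ _ t fun ω _ hw => (rcy162_cut_low_iff hL haj hjb (rcy162_K_of_wt _ hw)),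
    rcy162_P_congr (L' := fun ω => rcy162Fld L (rcy162Cyl L a b) ω ∈ E ∩ rcy162RowEv (-1) (2 * j)) _ _ t fun ω _ hw => by
      rw [rcy162_cut_low_iff hL haj hjb (rcy162_K_of_wt _ hw)]
      exact ⟨fun x => ⟨x.2, x.1⟩, fun x => ⟨x.2, x.1⟩⟩] at key
  exact key

/-- an event which contains a configuration of nonzero weight has positive probability -/
theorem rcy162_P_pos (Y : Rcy162Sys) {t : ℝ} (h0 : 0 ≤ t) (h1 : t ≤ 1) {K L : RswCfg → Prop} {ω : RswCfg} (hω : Y.Cfg ω)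
    (hw : Y.wt t K ω ≠ 0) (hL : L ω) : 0 < Y.Pr t K L := by
  rw [rcy162_P_ind]
  have hZ := rcy162_Z_pos Y K h0 h1 ⟨ω, hω, hw⟩
  refine div_pos ?_ hZ
  have := rcy162_single_le Y K h0 h1 (X := rcy162Ind L) (rcy162_ind_nonneg L) hω
  rw [rcy162_ind_pos hL, mul_one] at this
  exact lt_of_lt_of_le (lt_of_le_of_ne (rcy162_wt_nonneg Y K h0 h1 ω) (Ne.symm hw)) this

/-- the rows `≥ j` -/
noncomputable def rcy162Up (L : ℕ) (j b : ℤ) : Finset (ℤ × ℤ) := Finset.Ico (0 : ℤ) L ×ˢ Finset.Icc j b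

theorem rcy162_mem_up {L : ℕ} {j b : ℤ} {v : ℤ × ℤ} : v ∈ rcy162Up L j b ↔ (0 ≤ v.1 ∧ v.1 < L) ∧ j ≤ v.2 ∧ v.2 ≤ b := by
  unfold rcy162Up
  rw [Finset.mem_product, Finset.mem_Ico, Finset.mem_Icc]

/-- the witness: plus on the rows `≥ j'`, minus below -/
theorem rcy162_row_pos {t : ℝ} (h0 : 0 < t) (h1 : t ≤ 1) {L : ℕ} (hL : 0 < L) {a b j : ℤ} (haj : a < j) (hjb : j < b) (s : Bool) :
    0 < rcy162QM t L a b (rcy162RowEv (if s then 1 else -1) (2 * j)) := by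
  classical
  obtain ⟨j', hj', hj1, hj2⟩ : ∃ j' : ℤ, (j' ≤ j ↔ s = true) ∧ a < j' ∧ j' ≤ b := by
    cases s
    · exact ⟨j + 1, by simp, by omega, by omega⟩
    · exact ⟨j, by simp, haj, hjb.le⟩
  have hsub : rcy162Up L j' b ⊆ (rcy162Cyl L a b).V := fun v hv => by
    obtain ⟨x, y, z⟩ := rcy162_mem_up.1 hv
    exact rcy162_mem_cylV.2 ⟨x, by omega, z⟩
  have hK : Rcy162Mix L a b (rcy162Wit (rcy162Cyl L a b) (rcy162Up L j' b)) := by
    refine ⟨fun v hv hS => ?_, fun v hv => ?_⟩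
    · have x := (rcy162_mem_row.1 hv).2
      have y := (rcy162_mem_up.1 (show v ∈ rcy162Up L j' b from hS)).2
      omega
    · obtain ⟨x, y⟩ := rcy162_mem_row.1 hv
      exact (rcy162_mem_up.2 ⟨x, by omega, by omega⟩ : v ∈ rcy162Up L j' b)
  have hcfg : (rcy162Cyl L a b).Cfg (rcy162Wit (rcy162Cyl L a b) (rcy162Up L j' b)) :=
    ⟨hsub, Finset.empty_subset _, Finset.filter_subset _ _⟩
  have hwt : (rcy162Cyl L a b).wt t (Rcy162Mix L a b) (rcy162Wit (rcy162Cyl L a b) (rcy162Up L j' b)) ≠ 0 := by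
    rw [rcy162_wt_of _ hK, Finset.prod_congr rfl fun e he => rcy162_wit_fac _ t _ he, Finset.prod_const]
    exact (pow_pos h0 _).ne'
  refine rcy162_P_pos _ h0.le h1 hcfg hwt ?_
  rw [rcy162_rowEv_iff hL haj hjb s]
  have hS : ∀ v ∈ rcy162Row L j, (v ∈ rcy162Up L j' b ↔ s = true) := by
    intro v hv
    obtain ⟨x, y⟩ := rcy162_mem_row.1 hv
    rw [rcy162_mem_up, ← hj']
    constructor
    · intro z; omega
    · intro z; exact ⟨x, by omega, by omega⟩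
  refine ⟨hS, fun v hv => ?_⟩
  obtain ⟨x, y⟩ := rcy162_mem_row.1 hv
  show (v, false) ∈ (rcy162Cyl L a b).E.filter _
  rw [Finset.mem_filter]
  refine ⟨rcy162_mem_cylE.2 ⟨x, Or.inl ⟨rfl, by show a < v.2; omega, by show v.2 < b; omega⟩⟩, ?_⟩
  have m1 : (rcy162Cyl L a b).p1 (v, false) ∈ rcy162Row L j := rcy162_mem_row.2 ⟨rcy162_red_range hL _, y⟩
  rw [hS _ m1]
  exact hS v hv


/-! ### vertical shifts -/

/-- vertical shift by `k` (sites and faces) -/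
def rcy162VsV (k : ℤ) (u : ℤ × ℤ) : ℤ × ℤ := (u.1, u.2 + k)

/-- vertical shift by `k` (edge pairs) -/
def rcy162VsE (k : ℤ) (e : (ℤ × ℤ) × Bool) : (ℤ × ℤ) × Bool := (rcy162VsV k e.1, e.2)

theorem rcy162_vshift_hom (L : ℕ) (a b k : ℤ) :
    Rcy162Hom (rcy162Cyl L a b) (rcy162Cyl L (a + k) (b + k)) (rcy162VsV k) (rcy162VsV k) (rcy162VsE k) := by
  have inj : Function.Injective (rcy162VsV k) := by
    intro u u' h
    unfold rcy162VsV at h
    simp only [Prod.mk.injEq] at h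
    exact Prod.ext h.1 (by omega)
  have injE : Function.Injective (rcy162VsE k) := by
    intro e e' h
    unfold rcy162VsE at h
    simp only [Prod.mk.injEq] at h
    exact Prod.ext (inj h.1) h.2
  refine ⟨inj.injOn, inj.injOn, injE.injOn, ?_, ?_, ?_, fun e _ => Or.inl ⟨rfl, ?_⟩, fun e _ => Or.inl ⟨rfl, ?_⟩⟩
  · ext v
    rw [Finset.mem_image, rcy162_mem_cylV]
    constructor
    · rintro ⟨u, hu, rfl⟩
      obtain ⟨x, y, z⟩ := rcy162_mem_cylV.1 hu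
      exact ⟨x, by simp only [rcy162VsV]; omega, by simp only [rcy162VsV]; omega⟩
    · rintro ⟨x, y, z⟩
      exact ⟨(v.1, v.2 - k), rcy162_mem_cylV.2 ⟨x, by simp only; omega, by simp only; omega⟩, by simp [rcy162VsV]⟩
  · ext v
    rw [Finset.mem_image, rcy162_mem_cylF]
    constructor
    · rintro ⟨u, hu, rfl⟩
      obtain ⟨x, y, z⟩ := rcy162_mem_cylF.1 hu
      exact ⟨x, by simp only [rcy162VsV]; omega, by simp only [rcy162VsV]; omega⟩
    · rintro ⟨x, y, z⟩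
      exact ⟨(v.1, v.2 - k), rcy162_mem_cylF.2 ⟨x, by simp only; omega, by simp only; omega⟩, by simp [rcy162VsV]⟩
  · ext e
    rw [Finset.mem_image, rcy162_mem_cylE]
    constructor
    · rintro ⟨u, hu, rfl⟩
      obtain ⟨x, y⟩ := rcy162_mem_cylE.1 hu
      refine ⟨x, ?_⟩
      simp only [rcy162VsE, rcy162VsV]
      rcases y with ⟨y1, y2, y3⟩ | ⟨y1, y2, y3⟩
      · exact Or.inl ⟨y1, by omega, by omega⟩
      · exact Or.inr ⟨y1, by omega, by omega⟩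
    · rintro ⟨x, y⟩
      refine ⟨((e.1.1, e.1.2 - k), e.2), rcy162_mem_cylE.2 ⟨x, ?_⟩, by simp [rcy162VsE, rcy162VsV]⟩
      simp only
      rcases y with ⟨y1, y2, y3⟩ | ⟨y1, y2, y3⟩
      · exact Or.inl ⟨y1, by omega, by omega⟩
      · exact Or.inr ⟨y1, by omega, by omega⟩
  · obtain ⟨⟨x, y⟩, bb⟩ := e
    rw [rcy162_cyl_p1, rcy162_cyl_p1]
    cases bb
    · rfl
    · show (x % (L : ℤ), y + k + 1) = (x % (L : ℤ), y + 1 + k)
      rw [add_right_comm]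
  · obtain ⟨⟨x, y⟩, bb⟩ := e
    rw [rcy162_cyl_f1, rcy162_cyl_f1]
    cases bb
    · show (x % (L : ℤ), y + k - 1) = (x % (L : ℤ), y - 1 + k)
      congr 1; ring
    · rfl

theorem rcy162_vshift_fld {L : ℕ} (hL : 0 < L) (a b k : ℤ) {ω : RswCfg} (hω : (rcy162Cyl L a b).Cfg ω) (p : ℤ × ℤ) :
    rcy162Fld L (rcy162Cyl L (a + k) (b + k)) (rcy162Map (rcy162VsV k) (rcy162VsV k) (rcy162VsE k) ω) (p + (0, 2 * k)) =
      rcy162Fld L (rcy162Cyl L a b) ω p := by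
  have h := rcy162_vshift_hom L a b k
  have hw := rcy162_cyl_wf hL a b
  rcases rtd111_cases p with ⟨v, rfl⟩ | ⟨f, rfl⟩ | ⟨e, rfl⟩
  · have e1 : rtd111P v + (0, 2 * k) = rtd111P (v.1, v.2 + k) := by
      unfold rtd111P; ext <;> simp; ring
    have e2 : rcy162Red L (v.1, v.2 + k) = rcy162VsV k (rcy162Red L v) := rfl
    rw [e1, rcy162_fld_P, rcy162_fld_P, e2]
    refine rcy162_hom_sgV h hω fun hn hm => hn ?_
    obtain ⟨m1, m2, m3⟩ := rcy162_mem_cylV.1 hm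
    simp only [rcy162VsV] at m2 m3
    exact rcy162_mem_cylV.2 ⟨rcy162_red_range hL _, by omega, by omega⟩
  · have e1 : rtd111F f + (0, 2 * k) = rtd111F (f.1, f.2 + k) := by
      unfold rtd111F; ext <;> simp; ring
    rw [e1, rcy162_fld_F, rcy162_fld_F]
  · obtain ⟨⟨x, y⟩, bb⟩ := e
    have e1 : rtd111E ((x, y), bb) + (0, 2 * k) = rtd111E ((x, y + k), bb) := by
      cases bb
      · rw [rtd111_E_f, rtd111_E_f]; ext <;> simp; ring
      · rw [rtd111_E_t, rtd111_E_t]; ext <;> simp; ring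
    have e2 : rcy162RedE L ((x, y + k), bb) = rcy162VsE k (rcy162RedE L ((x, y), bb)) := rfl
    rw [e1, rcy162_fld_E, rcy162_fld_E, e2]
    refine rcy162_hom_sgE h hw hω fun hn hm => hn ?_
    obtain ⟨m1, m2⟩ := rcy162_mem_cylE.1 hm
    refine rcy162_mem_cylE.2 ⟨rcy162_red_range hL _, ?_⟩
    simp only [rcy162VsE, rcy162VsV, rcy162RedE, rcy162Red] at m2 ⊢
    rcases m2 with ⟨y1, y2, y3⟩ | ⟨y1, y2, y3⟩
    · exact Or.inl ⟨y1, by omega, by omega⟩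
    · exact Or.inr ⟨y1, by omega, by omega⟩

theorem rcy162_mix_vshift {L : ℕ} (hL : 0 < L) {a b : ℤ} (hab : a ≤ b) (k : ℤ) {ω : RswCfg} (hω : (rcy162Cyl L a b).Cfg ω) :
    Rcy162Mix L (a + k) (b + k) (rcy162Map (rcy162VsV k) (rcy162VsV k) (rcy162VsE k) ω) ↔ Rcy162Mix L a b ω := by
  rw [rcy162_mix_iff hL (by omega : a + k ≤ b + k), rcy162_mix_iff hL hab]
  have key : ∀ x j : ℤ, rcy162Fld L (rcy162Cyl L (a + k) (b + k)) (rcy162Map (rcy162VsV k) (rcy162VsV k) (rcy162VsE k) ω) (rtd111P (x, j + k)) =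
      rcy162Fld L (rcy162Cyl L a b) ω (rtd111P (x, j)) := by
    intro x j
    have e : rtd111P (x, j + k) = rtd111P (x, j) + (0, 2 * k) := by unfold rtd111P; ext <;> simp; ring
    rw [e]; exact rcy162_vshift_fld hL a b k hω _
  simp only [key]

/-- **vertical shift of the mixed laws** -/
theorem rcy162_QM_vshift (t : ℝ) {L : ℕ} (hL : 0 < L) {a b : ℤ} (hab : a ≤ b) (k : ℤ) (E : Set CyF) :
    rcy162QM t L (a + k) (b + k) (cyMv (0, 2 * k) E) = rcy162QM t L a b E := by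
  unfold rcy162QM
  rw [rcy162_hom_Pr (rcy162_vshift_hom L a b k) (rcy162_cyl_wf hL a b)]
  refine rcy162_P_congr2 _ t (fun ω hω => rcy162_mix_vshift hL hab k hω) fun ω hω => ?_
  have : (fun u : ℤ × ℤ => rcy162Fld L (rcy162Cyl L (a + k) (b + k)) (rcy162Map (rcy162VsV k) (rcy162VsV k) (rcy162VsE k) ω) (u + (0, 2 * k))) =
      rcy162Fld L (rcy162Cyl L a b) ω := funext fun u => rcy162_vshift_fld hL a b k hω u
  show (fun u : ℤ × ℤ => rcy162Fld L (rcy162Cyl L (a + k) (b + k)) (rcy162Map (rcy162VsV k) (rcy162VsV k) (rcy162VsE k) ω) (u + (0, 2 * k))) ∈ E ↔ _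
  rw [this]


/-! ### FKG ⟹ monotonicity in the two boundary rows ⟹ SLIDE -/

theorem rcy162_P_split (Y : Rcy162Sys) (t : ℝ) (K L M : RswCfg → Prop) :
    Y.Pr t K L = Y.Pr t K (fun ω => L ω ∧ M ω) + Y.Pr t K (fun ω => L ω ∧ ¬ M ω) := by
  rw [rcy162_P_ind, rcy162_P_ind, rcy162_P_ind, ← add_div, ← rcy162_sum_add]
  congr 2
  funext ω
  rw [rcy162_ind_and, rcy162_ind_and]
  by_cases m : M ω
  · rw [rcy162_ind_pos m, rcy162_ind_neg (L := fun ω => ¬ M ω) (fun x => x m)]; ring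
  · rw [rcy162_ind_neg m, rcy162_ind_pos (L := fun ω => ¬ M ω) m]; ring

/-- FKG for the law of the field on the cylinder `a..b` -/
def Rcy162Fkg (t : ℝ) (L : ℕ) (a b : ℤ) : Prop :=
  ∀ E E' : Set CyF, CyInc E → CyInc E' → rcy162QM t L a b E * rcy162QM t L a b E' ≤ rcy162QM t L a b (E ∩ E')

theorem rcy162_QM_compl {t : ℝ} (h0 : 0 < t) (h1 : t ≤ 1) (L : ℕ) {a b : ℤ} (hab : a < b) (E : Set CyF) :
    rcy162QM t L a b Eᶜ = 1 - rcy162QM t L a b E :=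
  rcy162_P_compl _ _ h0.le h1 (rcy162_mix_feas h0 L hab) _

/-- an increasing and a decreasing event are negatively correlated -/
theorem rcy162_fkg_neg {t : ℝ} (h0 : 0 < t) (h1 : t ≤ 1) {L : ℕ} {a b : ℤ} (hab : a < b) (hF : Rcy162Fkg t L a b) {E D : Set CyF}
    (hE : CyInc E) (hD : CyInc Dᶜ) : rcy162QM t L a b (E ∩ D) ≤ rcy162QM t L a b E * rcy162QM t L a b D := by
  have s1 : rcy162QM t L a b E = rcy162QM t L a b (E ∩ D) + rcy162QM t L a b (E ∩ Dᶜ) :=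
    rcy162_P_split _ t _ _ (fun ω => rcy162Fld L (rcy162Cyl L a b) ω ∈ D)
  have s2 := hF E Dᶜ hE hD
  rw [rcy162_QM_compl h0 h1 L hab] at s2
  nlinarith

theorem rcy162_inc_row (y : ℤ) : CyInc (rcy162RowEv 1 y) := by
  intro τ τ' h hτ x
  have h1 := h (x, y)
  rw [hτ x] at h1
  exact le_antisymm (SignType.le_one _) h1

theorem rcy162_dec_row (y : ℤ) : CyInc (rcy162RowEv (-1) y)ᶜ := by
  intro τ τ' h hτ hτ'
  apply hτ
  intro x
  have h1 := h (x, y)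
  rw [hτ' x] at h1
  exact le_antisymm h1 (SignType.neg_one_le _)

/-- **bringing the plus row closer increases the law** -/
theorem rcy162_dom_up {t : ℝ} (h0 : 0 < t) (h1 : t ≤ 1) {L : ℕ} (hL : 0 < L) {a b j : ℤ} (haj : a < j) (hjb : j < b)
    (hF : Rcy162Fkg t L a b) {E : Set CyF} (hE : CyInc E) (hS : CySup (2 * a + 1) (2 * j - 1) E) :
    rcy162QM t L a b E ≤ rcy162QM t L a j E := by
  have m := rcy162_markov_up h0 h1 hL haj hjb hS
  have f := hF E _ hE (rcy162_inc_row (2 * j))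
  have p := rcy162_row_pos h0 h1 hL haj hjb true
  simp only [if_true] at p
  rw [m] at f
  exact le_of_mul_le_mul_right f p

/-- **pushing the minus row away increases the law** -/
theorem rcy162_dom_low {t : ℝ} (h0 : 0 < t) (h1 : t ≤ 1) {L : ℕ} (hL : 0 < L) {a b j : ℤ} (haj : a < j) (hjb : j < b)
    (hF : Rcy162Fkg t L a b) {E : Set CyF} (hE : CyInc E) (hS : CySup (2 * j + 1) (2 * b - 1) E) :
    rcy162QM t L j b E ≤ rcy162QM t L a b E := by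
  have m := rcy162_markov_low h0 h1 hL haj hjb hS
  have f := rcy162_fkg_neg h0 h1 (haj.trans hjb) hF hE (rcy162_dec_row (2 * j))
  have p := rcy162_row_pos h0 h1 hL haj hjb false
  simp only [Bool.false_eq_true, if_false] at p
  rw [m] at f
  exact le_of_mul_le_mul_right f p

/-- **SLIDE** on the rows `a..b`, by `k ≥ 1` rows of `ℤ²` (`2 k` refined rows) -/
theorem rcy162_slide_QM {t : ℝ} (h0 : 0 < t) (h1 : t ≤ 1) {L : ℕ} (hL : 0 < L) {a b k : ℤ} (hab : a < b) (hk : 0 < k)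
    (hF : Rcy162Fkg t L (a - k) b) {E : Set CyF} (hE : CyInc E) (hS : CySup (2 * a + 1) (2 * (b - k) - 1) E) :
    rcy162QM t L a b E ≤ rcy162QM t L a b (cyMv (0, 2 * k) E) := by
  have s1 : rcy162QM t L a b E ≤ rcy162QM t L (a - k) b E :=
    rcy162_dom_low h0 h1 hL (by omega) hab hF hE (cy_sup_mono hS le_rfl (by omega))
  have s2 : rcy162QM t L (a - k) b E ≤ rcy162QM t L (a - k) (b - k) E :=
    rcy162_dom_up h0 h1 hL (by omega) (by omega) hF hE (cy_sup_mono hS (by omega) le_rfl)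
  have s3 := rcy162_QM_vshift t hL (a := a - k) (b := b - k) (by omega) k E
  rw [sub_add_cancel, sub_add_cancel] at s3
  rw [s3]
  exact s1.trans s2

/-- **field `slide` of `Rct127Law`** for `rcy162Q`, from FKG on the cylinders (the form of the hypothesis of `rci69_law`) -/
theorem rcy162_slide {t : ℝ} (h0 : 0 < t) (h1 : t ≤ 1) {L : ℕ} (hL : 0 < L) (hF : ∀ a b : ℤ, a < b → Rcy162Fkg t L a b) {H : ℕ} (hH : 0 < H)
    (c d s : ℤ) (E : Set CyF) (hE : CyInc E) (hS : CySup c d E) (hc : 3 ≤ c) (hs : 3 ≤ s) (hse : Even s)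
    (hd : d + s ≤ ((2 * H : ℕ) : ℤ) - 4) : rcy162Q t L H E ≤ rcy162Q t L H (cyMv (0, s) E) := by
  obtain ⟨k, rfl⟩ := hse
  rw [← two_mul] at hd ⊢
  push_cast at hd
  have hH' : (0 : ℤ) < H := by exact_mod_cast hH
  exact rcy162_slide_QM h0 h1 hL hH' (by omega) (hF _ _ (by omega)) hE (cy_sup_mono hS (by omega) (by omega))

/-- the equation lemmas of the definitions of this file are generated HERE (RULES.md, rule 6) -/
theorem rcy162_defs_eqns_cite : True := by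
  have := @Rcy162Sys.fac.eq_1
  have := @Rcy162Sys.wt.eq_1
  have := @Rcy162Sys.sum.eq_1
  have := @Rcy162Sys.Ex.eq_1
  have := @Rcy162Sys.Pr.eq_1
  have := @Rcy162Sys.Cfg.eq_1
  have := @Rcy162Sys.Good.eq_1
  have := @Rcy162Sys.Step.eq_1
  have := @Rcy162Sys.Sep.eq_1
  have := @Rcy162Sys.Feas.eq_1
  have := @rcy162Pl.eq_1
  have := @rcy162Red.eq_1
  have := @rcy162RedE.eq_1
  have := @rcy162Row.eq_1
  have := @rcy162CylE.eq_1
  have := @rcy162Cyl.eq_1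
  have := @Rcy162Mix.eq_1
  have := @Rcy162Flat.eq_1
  have := @rcy162PM.eq_1
  have := @rcy162Wit.eq_1
  have := @rcy162Map.eq_1
  have := @Rcy162Sys.flipS.eq_1
  have := @Rcy162Sys.flipD.eq_1
  have := @Rcy162Sys.cfgs.eq_1
  have := @Rcy162Sys.w.eq_1
  have := @Rcy162Sys.Le.eq_1
  have := @Rcy162Sys.sgV.eq_1
  have := @Rcy162Sys.sgE.eq_1
  have := @rcy162Fld.eq_1
  have := @rcy162Agr.eq_1
  have := @rcy162Q.eq_1
  have := @rcy162ShV.eq_1
  have := @rcy162ShE.eq_1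
  have := @rcy162MiV.eq_1
  have := @rcy162MiF.eq_1
  have := @rcy162MiE.eq_1
  have := @rcy162RvV.eq_1
  have := @rcy162RvF.eq_1
  have := @rcy162RvE.eq_1
  have := @Rcy162Sys.Holds.eq_1
  have := @Rcy162Sys.PK.eq_1
  have := @rcy162Join.eq_1
  have := @rcy162MapK.eq_1
  have := @rcy162FlipK.eq_1
  have := @Rcy162Sys.fo.eq_1
  have := @Rcy162Sys.fc.eq_1
  have := @Rcy162Sys.tab.eq_1
  have := @Rcy162Ref.eq_1
  have := @Rcy162Diag.eq_1
  have := @Rcy162Sq.eq_1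
  have := @rcy162Rf.eq_1
  have := @Rcy162Pin.eq_1
  have := @Rcy162Cut.eq_1
  have := @rcy162In.eq_1
  have := @rcy162Out.eq_1
  have := @rcy162CutI.eq_1
  have := @rcy162Wout.eq_1
  have := @rcy162G.eq_1
  have := @rcy162Ind.eq_1
  have := @rcy162QM.eq_1
  have := @rcy162RowEv.eq_1
  have := @rcy162Core.eq_1
  have := @rcy162Up.eq_1
  have := @rcy162VsV.eq_1
  have := @rcy162VsE.eq_1
  have := @Rcy162Fkg.eq_1
  trivial

end Claimed.Agent.R292
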