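import Claimed.Agent.R291.Ann.CylPair
import Claimed.Agent.R292.Rsw.Sys162

/-!
# Row 292 (S0540), Rsw/CylTop127 : R8 CORE, block A4-TOP = `rct127_main : Rct127Kit Adm P → Rct127Cyl Adm P`      (owner helper127; prefix `rct127_` / `Rct127`)      0 sorry

COPY of R291 `Ann/CylKit` (the two records) + `Ann/CylMain` (the proof), order of 121 (19:16Z).   NO model: an abstract family of laws `P L H S T` on status fields `CyF = ℤ × ℤ → SignType`.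
The EVENTS (`cyVP cyBlk cyV cyH cyMv CyInc CySup CyPer`) and the deterministic lemmas (`cy_extract cy_wind cy_mv_* cy_*_sub ...`) are IMPORTED from R291 `Ann/CylKit`, not copied.

WHAT IS DIFFERENT FROM R291 (so that the record can be met through the refinement of `TriDict111`: `τ = s` on P-sites, `0` on F-sites, status on the edge midpoints):
* `Adm L H` : a predicate of ADMISSIBLE sizes (e.g. `Even L ∧ Even H`), a parameter of the kit and of the conclusion; nothing is asked of it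
* `shift`   : only by EVEN amounts
* `slide`   : only by EVEN amounts `t ≥ 3` (the proof uses `t = 4` and `t = c₂ - c₁`, even)
* `refl`    : in EVENT form: `∃ ρ, H - 3 ≤ ρ ≤ H + 1`, the rows are reversed by `b ↦ ρ - b`; only what it does to `cyVP (-1) c d` and `cyBlk (-1) c d` is stated
* `sym recov rswl glue` : only for EVEN `m` (`r`)
* the scale `m` of the proof is even; bands are moved by even amounts only, so the target band is `c + 3 m .. c + 7 m + 1` (one spare row for the parity)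
* the mirror statement `Rct127CylM` asks `5 ≤ c` and `10 d ≤ 3 H - 30` (R291: `3 ≤ c`, `10 d ≤ 3 H - 10`) because of the free `ρ`
-/

set_option autoImplicit false
set_option linter.unusedSectionVars false
set_option linter.unusedVariables false

namespace Claimed.Agent.R292

open Claimed.Agent.R291 Relation

/-! ## 0. the records -/

/-- the SOFT properties of the mixed laws on one cylinder (circumference `L`, height `H`), refined square lattice.      (R291 `CyLaw`) -/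
structure Rct127Law (L H : ℕ) (P : Bool → Bool → Set CyF → ℝ) : Prop where
  nonneg : ∀ S T E, 0 ≤ P S T E
  one : ∀ S T, P S T Set.univ = 1
  zero : ∀ S T, P S T ∅ = 0
  /-- the law lives on periodic fields -/
  mono : ∀ S T (E E' : Set CyF), (∀ τ, CyPer L τ → τ ∈ E → τ ∈ E') → P S T E ≤ P S T E'
  union : ∀ S T (E E' : Set CyF), P S T (E ∪ E') ≤ P S T E + P S T E'
  /-- T1 -/
  fkg : ∀ S T (E E' : Set CyF), CyInc E → CyInc E' → CySup 3 ((H : ℤ) - 4) E → CySup 3 ((H : ℤ) - 4) E' →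
    P S T E * P S T E' ≤ P S T (E ∩ E')
  /-- T5, horizontal translations by EVEN amounts -/
  shift : ∀ S T (a : ℤ) (E : Set CyF), Even a → P S T (cyMv (a, 0) E) = P S T E
  /-- an increasing test moves UP by an EVEN amount, the class of the boundary convention may change -/
  slide : ∀ S S' T (c d t : ℤ) (E : Set CyF), CyInc E → CySup c d E → 3 ≤ c → 3 ≤ t → Even t → d + t ≤ (H : ℤ) - 4 →
    P S T E ≤ P S' T (cyMv (0, t) E)
  /-- T5: reflection of the rows + flip, EVENT form -/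
  refl : ∃ ρ : ℤ, (H : ℤ) - 3 ≤ ρ ∧ ρ ≤ (H : ℤ) + 1 ∧ ∀ (S T : Bool) (c d : ℤ),
    P S T (cyVP (-1) c d) = P (!S) (!T) (cyVP 1 (ρ - d) (ρ - c)) ∧ P S T (cyBlk (-1) c d) = P (!S) (!T) (cyBlk 1 (ρ - d) (ρ - c))
  /-- first seed (R291 `CyLaw.sym`), even `m` -/
  sym : ∀ (T : Bool) (k m κ : ℤ), 1 ≤ m → Even m → 3 ≤ k → k + m + 3 ≤ κ → κ + m - 1 ≤ (H : ℤ) - 4 → (H : ℤ) + k + m + 7 ≤ 2 * κ →
    1 ≤ P T T (cyVP 1 k (k + m - 1)) + P T T (cyVP (-1) k (k + m - 1))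
      + 4 * (P T T (cyVP 1 κ (κ + m - 1)) + P T (!T) (cyBlk 1 κ (κ + m - 1)))
  /-- recovery above a plus winding (R291 `CyLaw.recov`), even `m` -/
  recov : ∀ (T T1 : Bool) (c d κ m : ℤ), 3 ≤ c → c ≤ d → d + 3 ≤ κ → 1 ≤ m → Even m → κ + m - 1 ≤ (H : ℤ) - 4 →
    P T T (cyBlk 1 c d) ≤ 2 * (P T T1 (cyVP 1 κ (κ + m - 1)) + P T T1 (cyBlk 1 κ (κ + m - 1)))

/-- THE KIT: soft properties + the crossing inputs, with constants uniform in the cylinder.      (R291 `CyKit`) -/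
structure Rct127Kit (Adm : ℕ → ℕ → Prop) (P : ℕ → ℕ → Bool → Bool → Set CyF → ℝ) : Prop where
  law : ∀ L H : ℕ, Adm L H → 20 ≤ H → H ≤ L → Rct127Law L H (P L H)
  /-- A3 (56) + A2 lengthening, matching class, same band, even `r` -/
  rswl : ∀ (κ : ℕ) (δ : ℝ), 0 < δ → ∃ δ' : ℝ, 0 < δ' ∧ ∃ r0 : ℕ, ∀ (L H : ℕ) (T : Bool) (k r : ℤ), Adm L H →
    20 ≤ H → H ≤ L → (r0 : ℤ) ≤ r → Even r → ((κ : ℤ) + 20) * r ≤ L → 3 + r ≤ k → k + 2 * r ≤ (H : ℤ) - 4 →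
    (δ ≤ P L H T T (cyV 1 0 (6 * r) k (k + r - 1)) ∨ δ ≤ P L H T T (cyH 1 0 (4 * r) k (k + r - 1))) →
    δ' ≤ P L H T T (cyH 1 0 (κ * r) k (k + r - 1))
  /-- A1, gluing with `ℓ = 10 m`, even `m` -/
  glue : ∃ cG : ℝ, 0 < cG ∧ ∃ r0 : ℕ, ∀ (L H : ℕ) (T : Bool) (k m : ℤ), Adm L H →
    20 ≤ H → H ≤ L → (r0 : ℤ) ≤ m → Even m → 100 * m ≤ L → 3 + 3 * m ≤ k → k + 13 * m ≤ (H : ℤ) - 4 →
    cG * P L H T T (cyH 1 0 (60 * m) (k + 8 * m) (k + 10 * m - 1) ∩ cyH 1 (10 * m) (70 * m) k (k + 2 * m - 1))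
      ≤ P L H T T (cyV 1 (12 * m) (58 * m) (k + 3 * m) (k + 7 * m))

/-- **(CYL)** in the vocabulary of the kit      (R291 `CyCyl`) -/
def Rct127Cyl (Adm : ℕ → ℕ → Prop) (P : ℕ → ℕ → Bool → Bool → Set CyF → ℝ) : Prop :=
  ∀ (C : ℕ) (ε : ℝ), 0 < ε → ∃ δ : ℝ, 0 < δ ∧ ∃ H₀ : ℕ, ∀ (L H : ℕ) (T : Bool), Adm L H → H₀ ≤ H → H ≤ L → L ≤ C * H →
    ∀ c d : ℤ, 7 * (H : ℤ) ≤ 10 * c → (c : ℝ) + ε * H ≤ d → d ≤ (H : ℤ) - 4 → δ ≤ P L H T T (cyBlk 1 c d)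

/-- the mirror statement      (R291 `CyCylM`, with `5 ≤ c`, `10 d ≤ 3 H - 30`) -/
def Rct127CylM (Adm : ℕ → ℕ → Prop) (P : ℕ → ℕ → Bool → Bool → Set CyF → ℝ) : Prop :=
  ∀ (C : ℕ) (ε : ℝ), 0 < ε → ∃ δ : ℝ, 0 < δ ∧ ∃ H₀ : ℕ, ∀ (L H : ℕ) (T : Bool), Adm L H → H₀ ≤ H → H ≤ L → L ≤ C * H →
    ∀ c d : ℤ, 5 ≤ c → (c : ℝ) + ε * H ≤ d → 10 * d ≤ 3 * (H : ℤ) - 30 → δ ≤ P L H T T (cyBlk (-1) c d)

/-- the equation lemmas of the definitions of this file are generated HERE (RULES.md, rule 6) -/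
theorem rct127_eqns_cite : True := by
  have := @Rct127Cyl.eq_1
  have := @Rct127CylM.eq_1
  trivial

/-! ## 1. soft consequences -/

section soft

variable {L H : ℕ} {Q : Bool → Bool → Set CyF → ℝ}

theorem rct127_sub (h : Rct127Law L H Q) (S T : Bool) {E E' : Set CyF} (hE : E ⊆ E') : Q S T E ≤ Q S T E' :=
  h.mono S T E E' fun _ _ ht => hE ht

theorem rct127_le_one (h : Rct127Law L H Q) (S T : Bool) (E : Set CyF) : Q S T E ≤ 1 :=
  (rct127_sub h S T (Set.subset_univ E)).trans_eq (h.one S T)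

/-- finite union bound -/
theorem rct127_union_fin (h : Rct127Law L H Q) (S T : Bool) {ι : Type} (s : Finset ι) (E : ι → Set CyF) :
    Q S T (⋃ j ∈ s, E j) ≤ ∑ j ∈ s, Q S T (E j) := by
  classical
  induction s using Finset.induction_on with
  | empty => simp [h.zero]
  | insert a s ha ih =>
    rw [Finset.set_biUnion_insert, Finset.sum_insert ha]
    exact (h.union S T _ _).trans (by linarith)

/-- finite FKG -/
theorem rct127_fkg_fin (h : Rct127Law L H Q) (S T : Bool) {ι : Type} (s : Finset ι) (E : ι → Set CyF) (hi : ∀ j ∈ s, CyInc (E j))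
    (hs : ∀ j ∈ s, CySup 3 ((H : ℤ) - 4) (E j)) : ∏ j ∈ s, Q S T (E j) ≤ Q S T (⋂ j ∈ s, E j) := by
  classical
  have key : ∀ s : Finset ι, (∀ j ∈ s, CyInc (E j)) → (∀ j ∈ s, CySup 3 ((H : ℤ) - 4) (E j)) →
      CyInc (⋂ j ∈ s, E j) ∧ CySup 3 ((H : ℤ) - 4) (⋂ j ∈ s, E j) ∧ ∏ j ∈ s, Q S T (E j) ≤ Q S T (⋂ j ∈ s, E j) := by
    intro s
    induction s using Finset.induction_on with
    | empty =>
      intro _ _
      refine ⟨?_, ?_, ?_⟩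
      · intro τ τ' _ _
        simp
      · intro τ τ' _
        simp
      · simp [h.one]
    | insert a s ha ih =>
      intro hi hs
      obtain ⟨i1, i2, i3⟩ := ih (fun j hj => hi j (Finset.mem_insert_of_mem hj)) (fun j hj => hs j (Finset.mem_insert_of_mem hj))
      have a1 := hi a (Finset.mem_insert_self _ _)
      have a2 := hs a (Finset.mem_insert_self _ _)
      rw [Finset.set_biInter_insert, Finset.prod_insert ha]
      refine ⟨cy_inc_inter a1 i1, cy_sup_inter a2 i2, ?_⟩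
      exact (mul_le_mul_of_nonneg_left i3 (h.nonneg _ _ _)).trans (h.fkg S T _ _ a1 i1 a2 i2)
  exact (key s hi hs).2.2

/-! ## 2. extraction in probability -/

/-- `cy_extract` + union bound + shifts by the even amounts `j m` -/
theorem rct127_ext_prob (h : Rct127Law L H Q) (S T : Bool) (Cm : ℕ) {m c d : ℤ} (hL : 1 ≤ L) (hm : 1 ≤ m) (hme : Even m) (hLm : (L : ℤ) ≤ Cm * m)
    (hcd : c ≤ d) :
    Q S T (cyVP 1 c d) ≤ ((Cm : ℝ) + 6) * (Q S T (cyV 1 0 (6 * m) c d) + Q S T (cyH 1 0 (4 * m) c d)) := by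
  have h1 : Q S T (cyVP 1 c d) ≤ Q S T (⋃ j ∈ Finset.Icc (-4 : ℤ) ((Cm : ℤ) + 1),
      (cyV 1 (j * m) (j * m + 6 * m) c d ∪ cyH 1 (j * m) (j * m + 4 * m) c d)) := by
    refine h.mono S T _ _ fun τ hper hτ => ?_
    obtain ⟨j, hj1, hj2, hj3⟩ := cy_extract 1 (L := (L : ℤ)) (by exact_mod_cast hL) hm hcd hper hτ
    have hj4 : j ≤ (Cm : ℤ) + 1 := by
      have : j * m ≤ ((Cm : ℤ) + 1) * m := by nlinarith
      exact le_of_mul_le_mul_right this (by omega)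
    simp only [Set.mem_iUnion]
    exact ⟨j, Finset.mem_Icc.2 ⟨hj1, hj4⟩, hj3⟩
  refine h1.trans ((rct127_union_fin h S T _ _).trans ?_)
  have h2 : ∀ j ∈ Finset.Icc (-4 : ℤ) ((Cm : ℤ) + 1), Q S T (cyV 1 (j * m) (j * m + 6 * m) c d ∪ cyH 1 (j * m) (j * m + 4 * m) c d) ≤
      Q S T (cyV 1 0 (6 * m) c d) + Q S T (cyH 1 0 (4 * m) c d) := by
    intro j _
    refine (h.union S T _ _).trans (le_of_eq ?_)
    have e1 := h.shift S T (j * m) (cyV 1 0 (6 * m) c d) (hme.mul_left j)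
    have e2 := h.shift S T (j * m) (cyH 1 0 (4 * m) c d) (hme.mul_left j)
    rw [cy_mv_V] at e1
    rw [cy_mv_H] at e2
    simp only [zero_add, add_zero] at e1 e2
    rw [← e1, ← e2, add_comm (6 * m), add_comm (4 * m)]
  refine (Finset.sum_le_sum h2).trans (le_of_eq ?_)
  rw [Finset.sum_const, Int.card_Icc, nsmul_eq_mul]
  congr 1
  have : ((Cm : ℤ) + 1 + 1 - -4).toNat = Cm + 6 := by omega
  rw [this]
  push_cast
  ring

/-! ## 3. LEMMA BE -/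

/-- steps 1, 2: slide by `4` to the matching law, then extraction (or `cy_Blk_H`). -/
theorem rct127_BE1 (h : Rct127Law L H Q) (S T : Bool) (Cm : ℕ) {m c : ℤ} {p : ℝ} (hp : 0 < p) (hL : 1 ≤ L) (hm : 1 ≤ m) (hme : Even m)
    (hLm : (L : ℤ) ≤ Cm * m) (hc : 3 ≤ c)
    (hH : c + m + 3 ≤ (H : ℤ) - 4) (hyp : p ≤ Q S T (cyVP 1 c (c + m - 1)) ∨ p ≤ Q S T (cyBlk 1 c (c + m - 1))) :
    p / (2 * ((Cm : ℝ) + 6)) ≤ Q T T (cyV 1 0 (6 * m) (c + 4) (c + 4 + m - 1)) ∨ p / (2 * ((Cm : ℝ) + 6)) ≤ Q T T (cyH 1 0 (4 * m) (c + 4) (c + 4 + m - 1)) := by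
  have hC : (0 : ℝ) < (Cm : ℝ) + 6 := by positivity
  have e : c + m - 1 + 4 = c + 4 + m - 1 := by ring
  have h4 : Even (4 : ℤ) := ⟨2, by norm_num⟩
  rcases hyp with hyp | hyp
  · have s1 := h.slide S T T c (c + m - 1) 4 _ (cy_inc_VP c (c + m - 1)) (cy_sup_VP 1 c (c + m - 1)) hc (by norm_num) h4 (by omega)
    rw [cy_mv_VP] at s1
    simp only [e] at s1
    have s2 := rct127_ext_prob h T T Cm (c := c + 4) (d := c + 4 + m - 1) hL hm hme hLm (by omega)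
    have s3 : p ≤ ((Cm : ℝ) + 6) * (Q T T (cyV 1 0 (6 * m) (c + 4) (c + 4 + m - 1)) + Q T T (cyH 1 0 (4 * m) (c + 4) (c + 4 + m - 1))) :=
      hyp.trans (s1.trans s2)
    by_contra hcon
    push Not at hcon
    obtain ⟨c1, c2⟩ := hcon
    have c3 : ((Cm : ℝ) + 6) * (Q T T (cyV 1 0 (6 * m) (c + 4) (c + 4 + m - 1)) + Q T T (cyH 1 0 (4 * m) (c + 4) (c + 4 + m - 1))) <
        ((Cm : ℝ) + 6) * (p / (2 * ((Cm : ℝ) + 6)) + p / (2 * ((Cm : ℝ) + 6))) := by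
      apply mul_lt_mul_of_pos_left _ hC
      linarith
    have c4 : ((Cm : ℝ) + 6) * (p / (2 * ((Cm : ℝ) + 6)) + p / (2 * ((Cm : ℝ) + 6))) = p := by
      field_simp
      ring
    linarith
  · right
    have s1 := h.slide S T T c (c + m - 1) 4 _ (cy_inc_Blk c (c + m - 1)) (cy_sup_Blk 1 c (c + m - 1)) hc (by norm_num) h4 (by omega)
    rw [cy_mv_Blk] at s1
    simp only [e] at s1
    have s2 := rct127_sub h T T (cy_Blk_H 1 0 (4 * m) (c + 4) (c + 4 + m - 1))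
    have s3 : p / (2 * ((Cm : ℝ) + 6)) ≤ p := by
      apply div_le_self hp.le
      have : (0 : ℝ) ≤ Cm := Nat.cast_nonneg _
      linarith
    linarith

/-- step 6: `cy_wind` with `w = 46 m` + finite FKG over `j ∈ Icc (-1) (Cm + 1)`; all shifts are even. -/
theorem rct127_BE4 (h : Rct127Law L H Q) (T : Bool) (Cm : ℕ) {m k : ℤ} {dV dH : ℝ} (hL : 1 ≤ L) (hm : 1 ≤ m) (hme : Even m) (hLm : (L : ℤ) ≤ Cm * m)
    (hk : 0 ≤ k) (hH : k + 7 * m ≤ (H : ℤ) - 4)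
    (h0V : 0 ≤ dV) (h0H : 0 ≤ dH) (hV : dV ≤ Q T T (cyV 1 (12 * m) (58 * m) (k + 3 * m) (k + 7 * m)))
    (hH' : dH ≤ Q T T (cyH 1 0 (138 * m) (k + 4 * m) (k + 4 * m + m - 1))) :
    (dV * dH) ^ (Cm + 3) ≤ Q T T (cyBlk 1 (k + 3 * m) (k + 7 * m)) := by
  set w : ℤ := 46 * m with hw
  set c' : ℤ := k + 3 * m with hc'
  set d' : ℤ := k + 7 * m with hd'
  have hwe : Even w := hme.mul_left 46
  let E : ℤ → Set CyF := fun j => cyV 1 (j * w) (j * w + w) c' d' ∩ cyH 1 (j * w - w) (j * w + 2 * w) c' d'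
  have sV : ∀ a b : ℤ, CySup 3 ((H : ℤ) - 4) (cyV 1 a b c' d') := fun a b => cy_sup_mono (cy_sup_V 1 a b c' d') (by omega) hH
  have sH : ∀ a b : ℤ, CySup 3 ((H : ℤ) - 4) (cyH 1 a b c' d') := fun a b => cy_sup_mono (cy_sup_H 1 a b c' d') (by omega) hH
  have hE : ∀ j : ℤ, dV * dH ≤ Q T T (E j) := by
    intro j
    have e1 := h.shift T T (j * w - 12 * m) (cyV 1 (12 * m) (58 * m) c' d') ((hwe.mul_left j).sub (hme.mul_left 12))
    rw [cy_mv_V] at e1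
    have a1 : 12 * m + (j * w - 12 * m, (0 : ℤ)).1 = j * w := by
      show 12 * m + (j * w - 12 * m) = j * w
      ring
    have a2 : 58 * m + (j * w - 12 * m, (0 : ℤ)).1 = j * w + w := by
      show 58 * m + (j * w - 12 * m) = j * w + w
      rw [hw]; ring
    rw [a1, a2] at e1
    simp only [add_zero] at e1
    have e2 := h.shift T T (j * w - w) (cyH 1 0 (138 * m) (k + 4 * m) (k + 4 * m + m - 1)) ((hwe.mul_left j).sub hwe)
    rw [cy_mv_H] at e2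
    have a3 : 138 * m + (j * w - w, (0 : ℤ)).1 = j * w + 2 * w := by
      show 138 * m + (j * w - w) = j * w + 2 * w
      rw [hw]; ring
    rw [a3] at e2
    simp only [add_zero, zero_add] at e2
    have e3 := rct127_sub h T T (cy_H_sub 1 (j * w - w) (j * w + 2 * w) (c := c') (d := d') (c' := k + 4 * m) (d' := k + 4 * m + m - 1)
      (by omega) (by omega) (by omega))
    have f := h.fkg T T _ _ (cy_inc_V (j * w) (j * w + w) c' d') (cy_inc_H (j * w - w) (j * w + 2 * w) c' d') (sV _ _) (sH _ _)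
    refine le_trans ?_ f
    apply mul_le_mul _ _ h0H (h.nonneg _ _ _)
    · rw [e1]; exact hV
    · exact le_trans (by rw [e2]; exact hH') e3
  have hprod : (dV * dH) ^ (Cm + 3) ≤ ∏ j ∈ Finset.Icc (-1 : ℤ) ((Cm : ℤ) + 1), Q T T (E j) := by
    have hc : (Finset.Icc (-1 : ℤ) ((Cm : ℤ) + 1)).card = Cm + 3 := by
      rw [Int.card_Icc]
      omega
    rw [← hc, ← Finset.prod_const]
    exact Finset.prod_le_prod (fun _ _ => mul_nonneg h0V h0H) (fun j _ => hE j)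
  refine hprod.trans ((rct127_fkg_fin h T T _ E (fun j _ => cy_inc_inter (cy_inc_V _ _ _ _) (cy_inc_H _ _ _ _))
    (fun j _ => cy_sup_inter (sV _ _) (sH _ _))).trans ?_)
  refine h.mono T T _ _ fun τ hper hτ => ?_
  simp only [Set.mem_iInter] at hτ
  have hj : ∀ j : ℤ, -1 ≤ j → j * w ≤ L + w → j ∈ Finset.Icc (-1 : ℤ) ((Cm : ℤ) + 1) := by
    intro j h1 h2
    refine Finset.mem_Icc.2 ⟨h1, ?_⟩
    by_contra hc
    push Not at hc
    have h3 : ((Cm : ℤ) + 2) * w ≤ j * w := by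
      apply mul_le_mul_of_nonneg_right (by omega) (by omega)
    have h4 : (0 : ℤ) ≤ (Cm : ℤ) * m := by positivity
    rw [hw] at h2 h3
    nlinarith
  exact cy_wind 1 (L := (L : ℤ)) (w := w) (by exact_mod_cast hL) (by omega) (by omega) hper
    (fun j h1 h2 => (hτ j (hj j h1 h2)).1) (fun j h1 h2 => (hτ j (hj j h1 h2)).2)

/-! ## 4. STAGE A -/

/-- `k₁ = H / 3 - m - 2`, `κ = (H + k₁ + m + 8) / 2`; field `sym` at `T = true`: one of the four terms is `≥ 1/10`; the second one is transported by `refl` to the band `ρ - k₁ - m + 1 .. ρ - k₁` of the other class. -/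
theorem rct127_seedA (h : Rct127Law L H Q) {m : ℤ} (hm : 1 ≤ m) (hme : Even m) (hH : 200 * m ≤ (H : ℤ)) :
    ∃ (S T : Bool) (c₀ : ℤ), 3 * m + 3 ≤ c₀ ∧ 3 * c₀ ≤ 2 * (H : ℤ) + 15 ∧
      (1 / 10 ≤ Q S T (cyVP 1 c₀ (c₀ + m - 1)) ∨ 1 / 10 ≤ Q S T (cyBlk 1 c₀ (c₀ + m - 1))) := by
  obtain ⟨k₁, hk₁⟩ : ∃ k₁ : ℤ, k₁ = (H : ℤ) / 3 - m - 2 := ⟨_, rfl⟩
  obtain ⟨κ, hκ⟩ : ∃ κ : ℤ, κ = ((H : ℤ) + k₁ + m + 8) / 2 := ⟨_, rfl⟩
  have hs := h.sym true k₁ m κ hm hme (by omega) (by omega) (by omega) (by omega)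
  by_cases hA : 1 / 10 ≤ Q true true (cyVP 1 k₁ (k₁ + m - 1))
  · exact ⟨true, true, k₁, by omega, by omega, Or.inl hA⟩
  by_cases hB : 1 / 10 ≤ Q true true (cyVP (-1) k₁ (k₁ + m - 1))
  · obtain ⟨ρ, hρ1, hρ2, ho⟩ := h.refl
    rw [(ho true true k₁ (k₁ + m - 1)).1] at hB
    refine ⟨!true, !true, ρ - k₁ - m + 1, by omega, by omega, Or.inl ?_⟩
    have e1 : ρ - (k₁ + m - 1) = ρ - k₁ - m + 1 := by ring
    have e2 : ρ - k₁ = ρ - k₁ - m + 1 + m - 1 := by ring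
    rw [e1] at hB
    rw [← e2]
    exact hB
  by_cases hC : 1 / 10 ≤ Q true true (cyVP 1 κ (κ + m - 1))
  · exact ⟨true, true, κ, by omega, by omega, Or.inl hC⟩
  by_cases hD : 1 / 10 ≤ Q true (!true) (cyBlk 1 κ (κ + m - 1))
  · exact ⟨true, !true, κ, by omega, by omega, Or.inr hD⟩
  push Not at hA hB hC hD
  linarith

end soft

variable {Adm : ℕ → ℕ → Prop} {P : ℕ → ℕ → Bool → Bool → Set CyF → ℝ}

/-- steps 3, 4: `rswl` at the band `c₁`, then slide (same class, `t = c₂ - c₁ ≥ 3`, EVEN) to the band `c₂`. -/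
theorem rct127_BE2 (hK : Rct127Kit Adm P) (κ : ℕ) (δ : ℝ) (hδ : 0 < δ) :
    ∃ δ' : ℝ, 0 < δ' ∧ ∃ r₀ : ℕ, ∀ (L H : ℕ) (T : Bool) (c₁ c₂ m : ℤ), Adm L H → 20 ≤ H → H ≤ L → (r₀ : ℤ) ≤ m → Even m → ((κ : ℤ) + 20) * m ≤ L → 3 + m ≤ c₁ →
      c₁ + 3 ≤ c₂ → Even (c₂ - c₁) →
      c₂ + 2 * m ≤ (H : ℤ) - 4 → (δ ≤ P L H T T (cyV 1 0 (6 * m) c₁ (c₁ + m - 1)) ∨ δ ≤ P L H T T (cyH 1 0 (4 * m) c₁ (c₁ + m - 1))) →
      δ' ≤ P L H T T (cyH 1 0 (κ * m) c₂ (c₂ + m - 1)) := by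
  obtain ⟨δ', hδ', r₀, hr⟩ := hK.rswl κ δ hδ
  refine ⟨δ', hδ', r₀, fun L H T c₁ c₂ m hA hH hHL hm hme hκ hc1 hc12 hev hc2 hyp => ?_⟩
  have hm0 : 0 ≤ m := le_trans (Int.natCast_nonneg r₀) hm
  have h1 := hr L H T c₁ m hA hH hHL hm hme hκ hc1 (by omega) hyp
  have hlaw := hK.law L H hA hH hHL
  have s := hlaw.slide T T T c₁ (c₁ + m - 1) (c₂ - c₁) _ (cy_inc_H 0 (κ * m) c₁ (c₁ + m - 1)) (cy_sup_H 1 _ _ _ _)
    (by omega) (by omega) hev (by omega)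
  rw [cy_mv_H] at s
  have e1 : c₁ + (c₂ - c₁) = c₂ := by ring
  have e2 : c₁ + m - 1 + (c₂ - c₁) = c₂ + m - 1 := by ring
  simp only [add_zero, e1, e2] at s
  exact h1.trans s

/-- step 5: the two strips, `fkg`, `glue`; the shift by `10 m` is even. -/
theorem rct127_BE3 (hK : Rct127Kit Adm P) :
    ∃ cG : ℝ, 0 < cG ∧ ∃ r₀ : ℕ, ∀ (L H : ℕ) (T : Bool) (k m : ℤ) (d₁ : ℝ), Adm L H → 20 ≤ H → H ≤ L → (r₀ : ℤ) ≤ m → 1 ≤ m → Even m → 100 * m ≤ L → 3 + 3 * m ≤ k →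
      k + 13 * m ≤ (H : ℤ) - 4 → 0 ≤ d₁ →
      d₁ ≤ P L H T T (cyH 1 0 (60 * m) (k + 8 * m) (k + 8 * m + m - 1)) → d₁ ≤ P L H T T (cyH 1 0 (60 * m) k (k + m - 1)) →
      cG * d₁ ^ 2 ≤ P L H T T (cyV 1 (12 * m) (58 * m) (k + 3 * m) (k + 7 * m)) := by
  obtain ⟨cG, hcG, r₀, hg⟩ := hK.glue
  refine ⟨cG, hcG, r₀, fun L H T k m d₁ hA hH hHL hr hm hme hL hk hkH hd h1 h2 => ?_⟩
  have hlaw := hK.law L H hA hH hHL
  have g := hg L H T k m hA hH hHL hr hme hL hk hkH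
  have a1 : d₁ ≤ P L H T T (cyH 1 0 (60 * m) (k + 8 * m) (k + 10 * m - 1)) :=
    h1.trans (rct127_sub hlaw T T (cy_H_sub 1 0 (60 * m) le_rfl (by omega) (by omega)))
  have e := hlaw.shift T T (10 * m) (cyH 1 0 (60 * m) k (k + m - 1)) (hme.mul_left 10)
  rw [cy_mv_H] at e
  have e1 : 60 * m + 10 * m = 70 * m := by ring
  simp only [zero_add, add_zero, e1] at e
  have a2 : d₁ ≤ P L H T T (cyH 1 (10 * m) (70 * m) k (k + 2 * m - 1)) := by
    rw [← e] at h2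
    exact h2.trans (rct127_sub hlaw T T (cy_H_sub 1 (10 * m) (70 * m) le_rfl (by omega) (by omega)))
  have f := hlaw.fkg T T _ _ (cy_inc_H 0 (60 * m) (k + 8 * m) (k + 10 * m - 1)) (cy_inc_H (10 * m) (70 * m) k (k + 2 * m - 1))
    (cy_sup_mono (cy_sup_H 1 _ _ _ _) (by omega) (by omega)) (cy_sup_mono (cy_sup_H 1 _ _ _ _) (by omega) (by omega))
  have a3 : d₁ ^ 2 ≤ P L H T T (cyH 1 0 (60 * m) (k + 8 * m) (k + 10 * m - 1)) * P L H T T (cyH 1 (10 * m) (70 * m) k (k + 2 * m - 1)) := by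
    rw [sq]
    exact mul_le_mul a1 a2 hd (hd.trans a1)
  exact (mul_le_mul_of_nonneg_left (a3.trans f) hcG.le).trans g

/-- **LEMMA BE**: a vertical crossing or a blocked band of `m` slabs at `c`, under ANY law class `S`, gives a blocked band `k + 3 m .. k + 7 m` under the matching law, for every `k ≥ c + 8` of the parity of `c`. -/
theorem rct127_BE (hK : Rct127Kit Adm P) (Cm : ℕ) (p : ℝ) (hp : 0 < p) :
    ∃ δ : ℝ, 0 < δ ∧ ∃ r₀ : ℕ, ∀ (L H : ℕ) (S T : Bool) (m c k : ℤ), Adm L H → 20 ≤ H → H ≤ L → (r₀ : ℤ) ≤ m → 1 ≤ m → Even m → 200 * m ≤ L → (L : ℤ) ≤ Cm * m →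
      3 * m + 3 ≤ c → c + 8 ≤ k → Even (k - c) →
      k + 13 * m ≤ (H : ℤ) - 4 → (p ≤ P L H S T (cyVP 1 c (c + m - 1)) ∨ p ≤ P L H S T (cyBlk 1 c (c + m - 1))) →
      δ ≤ P L H T T (cyBlk 1 (k + 3 * m) (k + 7 * m)) := by
  have hC : (0 : ℝ) < 2 * ((Cm : ℝ) + 6) := by positivity
  obtain ⟨δ', hδ', r1, h2⟩ := rct127_BE2 hK 138 (p / (2 * ((Cm : ℝ) + 6))) (div_pos hp hC)
  obtain ⟨cG, hcG, r2, h3⟩ := rct127_BE3 hK
  refine ⟨(cG * δ' ^ 2 * δ') ^ (Cm + 3), by positivity, max r1 r2, fun L H S T m c k hA h20 hHL hm hm1 hme hL hLm hc hk hkc hH hyp => ?_⟩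
  have h := hK.law L H hA h20 hHL
  have hr1 : (r1 : ℤ) ≤ m := le_trans (by exact_mod_cast le_max_left r1 r2) hm
  have hr2 : (r2 : ℤ) ≤ m := le_trans (by exact_mod_cast le_max_right r1 r2) hm
  have hL1 : 1 ≤ L := by omega
  have s1 := rct127_BE1 h S T Cm hp hL1 hm1 hme hLm (by omega) (by omega) hyp
  have s2 : ∀ c₂ : ℤ, c + 8 ≤ c₂ → Even (c₂ - c) → c₂ + 2 * m ≤ (H : ℤ) - 4 → δ' ≤ P L H T T (cyH 1 0 (138 * m) c₂ (c₂ + m - 1)) := by
    intro c₂ g1 ge g2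
    have ge' : Even (c₂ - (c + 4)) := by
      rw [Int.even_iff] at ge ⊢
      omega
    have := h2 L H T (c + 4) c₂ m hA h20 hHL hr1 hme (by push_cast; omega) (by omega) (by omega) ge' g2 s1
    exact_mod_cast this
  have s3 : ∀ c₂ : ℤ, c + 8 ≤ c₂ → Even (c₂ - c) → c₂ + 2 * m ≤ (H : ℤ) - 4 → δ' ≤ P L H T T (cyH 1 0 (60 * m) c₂ (c₂ + m - 1)) := by
    intro c₂ g1 ge g2
    exact (s2 c₂ g1 ge g2).trans (rct127_sub h T T (cy_H_narrow 1 c₂ (c₂ + m - 1) le_rfl (by omega)))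
  have ev8 : Even (k + 8 * m - c) := by
    rw [Int.even_iff] at hkc ⊢
    omega
  have ev4 : Even (k + 4 * m - c) := by
    rw [Int.even_iff] at hkc ⊢
    omega
  have s4 := h3 L H T k m δ' hA h20 hHL hr2 hm1 hme (by omega) (by omega) hH hδ'.le (s3 _ (by omega) ev8 (by omega)) (s3 _ hk hkc (by omega))
  exact rct127_BE4 h T Cm hL1 hm1 hme hLm (by omega) (by omega) (by positivity) hδ'.le s4 (s2 _ (by omega) ev4 (by omega))

/-! ## 5. the main theorem -/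

/-- an integer of the parity of `a` among `c`, `c + 1` -/
theorem rct127_par (a c : ℤ) : ∃ k : ℤ, c ≤ k ∧ k ≤ c + 1 ∧ Even (k - a) := by
  rcases Int.even_or_odd (c - a) with h | h
  · exact ⟨c, le_rfl, by omega, h⟩
  · refine ⟨c + 1, by omega, le_rfl, ?_⟩
    rw [Int.even_iff]
    rw [Int.odd_iff] at h
    omega

/-- one scale.   `rct127_seedA` gives `(S, T, c₀)`; `rct127_BE` (`p = 1/10`) gives `δ₁`.   `T = T₁`: `k ∈ {c, c + 1}` of the parity of `c₀`.   `T ≠ T₁`: `k = c₀ + 8`, field `recov` with `κ' = k + 7 m + 3`,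
`rct127_BE` (`p = δ₁ / 4`, law class `T`, test class `T₁`, band `κ'`), `k ∈ {c, c + 1}` of the parity of `κ'`. -/
theorem rct127_core (hK : Rct127Kit Adm P) (Cm : ℕ) :
    ∃ δ : ℝ, 0 < δ ∧ ∃ r₀ : ℕ, ∀ (L H : ℕ) (T₁ : Bool) (m c : ℤ), Adm L H → 1000 ≤ H → H ≤ L → (r₀ : ℤ) ≤ m → 1 ≤ m → Even m → 1000 * m ≤ H → (L : ℤ) ≤ Cm * m →
      7 * (H : ℤ) ≤ 10 * c →
      c + 13 * m + 1 ≤ (H : ℤ) - 4 → δ ≤ P L H T₁ T₁ (cyBlk 1 (c + 3 * m) (c + 7 * m + 1)) := by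
  obtain ⟨δ₁, hδ₁, r1, h1⟩ := rct127_BE hK Cm (1 / 10) (by norm_num)
  obtain ⟨δ₂, hδ₂, r2, h2⟩ := rct127_BE hK Cm (δ₁ / 4) (by positivity)
  refine ⟨min δ₁ δ₂, lt_min hδ₁ hδ₂, max r1 r2, fun L H T₁ m c hA hH hHL hm hm1 hme hmH hLm hc hcH => ?_⟩
  have h20 : 20 ≤ H := by omega
  have h := hK.law L H hA h20 hHL
  have hr1 : (r1 : ℤ) ≤ m := le_trans (by exact_mod_cast le_max_left r1 r2) hm
  have hr2 : (r2 : ℤ) ≤ m := le_trans (by exact_mod_cast le_max_right r1 r2) hm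
  have hHL' : (H : ℤ) ≤ L := by exact_mod_cast hHL
  have hH' : (1000 : ℤ) ≤ H := by exact_mod_cast hH
  obtain ⟨S, T, c₀, a1, a2, a3⟩ := rct127_seedA h hm1 hme (by omega)
  by_cases hT : T = T₁
  · subst hT
    obtain ⟨k, k1, k2, k3⟩ := rct127_par c₀ c
    have r := h1 L H S T m c₀ k hA h20 hHL hr1 hm1 hme (by omega) hLm a1 (by omega) k3 (by omega) a3
    exact (min_le_left _ _).trans (r.trans (rct127_sub h T T (cy_Blk_sub 1 (by omega) (by omega) (by omega))))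
  · have b1 := h1 L H S T m c₀ (c₀ + 8) hA h20 hHL hr1 hm1 hme (by omega) hLm a1 le_rfl ⟨4, by ring⟩ (by omega) a3
    have b2 := h.recov T T₁ (c₀ + 8 + 3 * m) (c₀ + 8 + 7 * m) (c₀ + 8 + 7 * m + 3) m (by omega) (by omega) le_rfl hm1 hme (by omega)
    have b3 : δ₁ / 4 ≤ P L H T T₁ (cyVP 1 (c₀ + 8 + 7 * m + 3) (c₀ + 8 + 7 * m + 3 + m - 1)) ∨
        δ₁ / 4 ≤ P L H T T₁ (cyBlk 1 (c₀ + 8 + 7 * m + 3) (c₀ + 8 + 7 * m + 3 + m - 1)) := by
      by_contra hcon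
      push Not at hcon
      linarith [hcon.1, hcon.2]
    obtain ⟨k, k1, k2, k3⟩ := rct127_par (c₀ + 8 + 7 * m + 3) c
    have r := h2 L H T T₁ m (c₀ + 8 + 7 * m + 3) k hA h20 hHL hr2 hm1 hme (by omega) hLm (by omega) (by omega) k3 (by omega) b3
    exact (min_le_right _ _).trans (r.trans (rct127_sub h T₁ T₁ (cy_Blk_sub 1 (by omega) (by omega) (by omega))))

/-- **(CYL)**.   `K = max 1000 (⌈20 / ε⌉₊ + 1)`, `m = 2 (H / (2 K))` (EVEN), `Cm = 2 C K`, `H₀ = 2 K (r₀ + 1) + 1000`; `rct127_core`, `cy_Blk_sub` (`c ≤ c + 3 m`, `c + 7 m + 1 ≤ d` since `20 m ≤ ε H`). -/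
theorem rct127_main (hK : Rct127Kit Adm P) : Rct127Cyl Adm P := by
  intro C ε hε
  obtain ⟨K, hK1, hK2⟩ : ∃ K : ℕ, 1000 ≤ K ∧ 20 / ε ≤ (K : ℝ) :=
    ⟨max 1000 (⌈20 / ε⌉₊ + 1), le_max_left _ _, (Nat.le_ceil _).trans (by exact_mod_cast (Nat.le_succ _).trans (le_max_right _ _))⟩
  obtain ⟨δ, hδ, r₀, hc⟩ := rct127_core hK (2 * C * K)
  refine ⟨δ, hδ, 2 * K * (r₀ + 1) + 1000, fun L H T hA hH hHL hLC c d h7 hcd hd => ?_⟩
  have hKpos : 0 < 2 * K := by omega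
  obtain ⟨q, hq⟩ : ∃ q : ℕ, q = H / (2 * K) := ⟨_, rfl⟩
  obtain ⟨m, hm⟩ : ∃ m : ℕ, m = 2 * q := ⟨_, rfl⟩
  have q1 : q * (2 * K) ≤ H := by rw [hq]; exact Nat.div_mul_le_self H (2 * K)
  have q2 : H < (q + 1) * (2 * K) := by
    rw [hq]
    have := Nat.lt_div_mul_add (a := H) hKpos
    nlinarith
  have q3 : r₀ + 1 ≤ q := by
    rw [hq, Nat.le_div_iff_mul_le hKpos]
    nlinarith
  have m1 : m * K ≤ H := by rw [hm]; nlinarith
  have m2 : H < (m + 2) * K := by rw [hm]; nlinarith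
  have m3 : r₀ + 1 ≤ m := by omega
  have hme : Even (m : ℤ) := ⟨(q : ℤ), by rw [hm]; push_cast; ring⟩
  have h20 : 20 ≤ H := by omega
  have h := hK.law L H hA h20 hHL
  have m4 : 1000 * m ≤ H := le_trans (by nlinarith) m1
  have m5 : L ≤ 2 * C * K * m := by
    have : C * H ≤ C * ((m + 2) * K) := Nat.mul_le_mul_left _ m2.le
    have h2 : C * ((m + 2) * K) ≤ 2 * C * K * m := by
      have : m + 2 ≤ 2 * m := by omega
      calc C * ((m + 2) * K) ≤ C * ((2 * m) * K) := Nat.mul_le_mul_left _ (Nat.mul_le_mul_right _ this)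
        _ = 2 * C * K * m := by ring
    omega
  have m6 : (20 : ℝ) * m ≤ ε * H := by
    have a1 : (20 : ℝ) ≤ ε * K := by
      rw [div_le_iff₀ hε] at hK2
      linarith
    have a2 : (m : ℝ) * K ≤ H := by exact_mod_cast m1
    have a3 : (0 : ℝ) ≤ m := Nat.cast_nonneg _
    calc (20 : ℝ) * m ≤ ε * K * m := mul_le_mul_of_nonneg_right a1 a3
      _ = ε * (m * K) := by ring
      _ ≤ ε * H := mul_le_mul_of_nonneg_left a2 hε.le
  have m7 : c + 20 * (m : ℤ) ≤ d := by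
    have : (c : ℝ) + 20 * (m : ℝ) ≤ d := by linarith
    exact_mod_cast this
  have m8 : (1 : ℤ) ≤ m := by exact_mod_cast (Nat.succ_le_succ (Nat.zero_le r₀)).trans m3
  have r := hc L H T (m : ℤ) c hA (by omega) hHL (by exact_mod_cast (Nat.le_succ r₀).trans m3) m8 hme
    (by exact_mod_cast m4) (by exact_mod_cast m5) h7 (by omega)
  exact r.trans (rct127_sub h T T (cy_Blk_sub 1 (by omega) (by omega) (by omega)))

/-- the mirror statement: `refl` in event form. -/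
theorem rct127_main_minus (hK : Rct127Kit Adm P) (h : Rct127Cyl Adm P) : Rct127CylM Adm P := by
  intro C ε hε
  obtain ⟨δ, hδ, H₀, hh⟩ := h C ε hε
  refine ⟨δ, hδ, max H₀ 20, fun L H T hA hH hHL hLC c d hc hcd hd => ?_⟩
  have hlaw := hK.law L H hA (le_trans (le_max_right _ _) hH) hHL
  obtain ⟨ρ, hρ1, hρ2, ho⟩ := hlaw.refl
  rw [(ho T T c d).2]
  apply hh L H (!T) hA (le_trans (le_max_left _ _) hH) hHL hLC
  · omega
  · push_cast
    linarith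
  · omega

/-!
# PART 2 (appended 15 Oct, order N3a "one pen = one file"): LAW SIDE, THE FIELDS `sym` AND `recov` ON THE CYLINDER OF 162      (prefix `rcs127` / `Rcs127`)

PORT of R291 `Ann/CylSym` (+ parts (e), (e') of `Ann/CylPair`) to the abstract edge-pair systems `Rcy162Sys` of `Rsw/Sys162`.      LAW: `rcy162Q t L H` (BASE sizes `L`, `H`; refined `2 L`, `2 H`).
PROVED HERE (0 sorry):
* Sec. 1  the exchange `X` = `rcs127Sw Y` (faces <-> sites), the two-status weight `rcs127Wt2` (cell table `clCellW2` of R291, one uniform per edge pair), its two marginals, `rcs127_Z_sw`, `rcs127_pair_sw`,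
          T6 = `rcs127_wt2_cover`, **ALT number form `rcs127_alt`, probability form `rcs127_alt_P`** on ANY system, `1/2 ≤ t ≤ 1`.
* Sec. 2  the status field of `d` `rcs127FldD` (faces carry `d`, vertices `0`), sign consistency `rcs127_same_P / _F`, **`rcs127_alt_cfg`** = the four-way alternative on the support (through `cy_alt_det` of R291).
* Sec. 3  `rcs127QD` = law of the status field of `d` under the mixed law; (n2) `rcs127_QD_neg`; **(n1) + (n2) `rcs127_alt_band`** : `1 ≤ Q(VP⁺) + Q(VP⁻) + 2 QD(Blk⁺)` in every band strictly inside.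
* Sec. 4  **`rcs127_sym`** = the field `sym` of `Rct127Law (2 L) (2 H) (fun _ _ => rcy162Q t L H)` word for word FROM the typed input `Rcs127Search t L H` = (n3) - (n5) + (perJ).
* Sec. 5  **THE CUT `rcs127_cut`** (abstract, two-sided product formula): `Rcs127Cut Z V₁ V₂ F₁ F₂ E₀ E₁ E₂` ⟹ `N_Z[cut ∧ K₁ ∧ K₂](X₁ X₂) = t^|E₀| N_{Z₁}[pin ∧ K₁](X₁) N_{Z₂}[pin ∧ K₂](X₂)`.
* Sec. 6  **THE SEARCH** (abstract; R291 `dis_dec`, `am_search`, `cyw_search`): record `rcs127Rec Z a A₀ ω`, `rcs127_rec_iff` (`record = J` = cut event ∧ event of the explored part), `rcs127_search_one`,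
          **`rcs127_search`** (sum over the records: mean `≥ 1/c` of `X ≥ 0` in every unexplored system `rcs127Out Z J` ⟹ `N[B] ≤ c N[X]`).   Geometry asked: `Rcs127Adm Z A₀ J` only.   For `sym`: `Z = rcs127Sw (cylinder)`; for `recov`: `Z =` cylinder.
* Sec. 7  the kernel `rcs127Ker`, **TOWER `rcs127_tower`**, `rcs127_ker_congr`; **`rcs127_search_sw`** = search in the statuses of `d` for a test on the statuses of `s` ((n3) - (n5), abstract); unexplored system read for `s`: `rcs127OutP Y J`, b.c. `Rcs127KP Y J k₂`.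
* Sec. 8  the mixed cylinder: what a test in a band reads (`rcs127T`, `rcs127AV`, `rcs127AF`, `rcs127_fld_agree`), **`rcs127_search_of_perJ : Rcs127G1 L H → Rcs127G2 L H → Rcs127PerJ t L H → Rcs127Search t L H`**.
          So the field `sym` is reduced to: (G1), (G2) deterministic (producer 111) and ONE model input `Rcs127PerJ t L H` = (perJ): in every unexplored system the high band is crossed or blocked by plus cells w.p. `≥ 1/2`.
* Sec. 9  only connected records: `Rcs127Conn`, `rcs127_rec_conn` (a record is joined to its seeds inside itself), **`Rcs127PerJc t L H`** (= (perJ) asked for connected `J` only), **`rcs127_search_of_perJc : G1 → G2 → Rcs127PerJc t L H → Rcs127Search t L H`**.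
          THE LAST CONTRACT OF `sym` IS `Rcs127PerJc` (not proved in this file; **CLOSED 23:44Z in `Rsw/RenHP31.lean`: `rhp31_perJc (1/2 ≤ t) (t ≤ 1) (0 < L) H : Rcs127PerJc t L H`**, frame `Rsw/PerJ69.lean` of 69, tools `Rsw/PerJT127.lean`; then `rcd111_sym_c` = the field `sym`).  `Rcs127PerJ` (all `J`) is stronger and is NOT claimed: for a disconnected `J` the pinned system is not a planar minor.  (G1), (G2): proved by 111 (`CylDict111` par. 4 - 6).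
* Sec. 10 eq. (3.5) passes to a minor, hat form: `Rcs127Hat Y π` (= `HP`, `HX` of `rci69_dual_of_hat`), `rcs127Minor`, **`rcs127_hat_minor`**; the unexplored system as a minor `rcs127OutC Y J q`, `Rcs127G3 Y J q` (deterministic input: the faces of the deleted pairs form one class), **`rcs127_hat_outC`**.
* Sec. 11 the pinned unexplored system and its minor: `rcs127_outC_wf`, `rcs127_outC_pin`, **`rcs127_outC_two : N_{OutC}[k₂](X) = 2 N_{OutP}[d = + on the cut ∧ k₂](X)`** for observables of `(s, O)`: so association / order of the minor (69) are association / order of the unexplored system.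
          (applied in `Rsw/OutFkg127.lean`: `rof127_dual`, `rof127_fkg_sum`, `rof127_holley_sum` = eq. (3.5), T1, T2 in every unexplored system of a connected record.)
* Sec. 12 eq. (3.5) passes to a contraction, hat form: `rcs127CtV`, `Rcs127Chain` (+ `_refl`, `_step`), **`rcs127_hat_contract`** (contract a set of sites joined by deleted pairs, delete the pairs inside it).  With Sec. 10 this gives (3.5) for the SYMMETRIC domain
          (record `J` deleted below, mirror image of `J` deleted above), the tool which the text of `Rcs127PerJc` needs (used in `Rsw/PerJT127.lean`); the other steps of that text (ALT 111 / 31, glide reflection 162, flips 12, association 291, domination 69) are in the files `Rsw/PerJ*.lean`.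
-/

open Claims.C0467 (triAdj)

/-! ## 1. the exchange `X` and the two-status law on an abstract system -/

/-- **the exchange `X`**: faces become sites, sites become faces (CORE_DICT Sec. 1) -/
def rcs127Sw (Y : Rcy162Sys) : Rcy162Sys := ⟨Y.Fc, Y.V, Y.E, Y.f0, Y.f1, Y.p0, Y.p1⟩

theorem rcs127_sw_sw (Y : Rcy162Sys) : rcs127Sw (rcs127Sw Y) = Y := rfl

theorem rcs127_sw_wf {Y : Rcy162Sys} (h : Y.WF) : (rcs127Sw Y).WF := ⟨h.f0, h.f1, h.p0, h.p1⟩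

/-- the factor of 162 is the cell table of R291 -/
theorem rcs127_fac_eq (Y : Rcy162Sys) (t : ℝ) (ω : RswCfg) (e : (ℤ × ℤ) × Bool) :
    Y.fac t ω e = open Classical in clCellW t (Y.p0 e ∈ ω.S ↔ Y.p1 e ∈ ω.S) (Y.f0 e ∈ ω.D ↔ Y.f1 e ∈ ω.D) (e ∈ ω.O) := by
  classical
  unfold Rcy162Sys.fac clCellW
  by_cases h1 : e ∈ ω.O <;> by_cases h2 : (Y.p0 e ∈ ω.S ↔ Y.p1 e ∈ ω.S) <;> by_cases h3 : (Y.f0 e ∈ ω.D ↔ Y.f1 e ∈ ω.D) <;>
    simp only [h1, h2, h3, if_true, if_false]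

/-- the two-status factor of one edge pair: `O` = statuses of `s`, `O'` = statuses of `d` (one uniform per edge pair, `U ↦ 1 - U`) -/
noncomputable def rcs127Fac2 (Y : Rcy162Sys) (t : ℝ) (S D : Finset (ℤ × ℤ)) (O O' : Finset ((ℤ × ℤ) × Bool)) (e : (ℤ × ℤ) × Bool) : ℝ :=
  open Classical in clCellW2 t (Y.p0 e ∈ S ↔ Y.p1 e ∈ S) (Y.f0 e ∈ D ↔ Y.f1 e ∈ D) (e ∈ O) (e ∈ O')

/-- the two-status weight -/
noncomputable def rcs127Wt2 (Y : Rcy162Sys) (t : ℝ) (S D : Finset (ℤ × ℤ)) (O O' : Finset ((ℤ × ℤ) × Bool)) : ℝ :=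
  ∏ e ∈ Y.E, rcs127Fac2 Y t S D O O' e

theorem rcs127_wt2_nonneg (Y : Rcy162Sys) {t : ℝ} (h0 : 1 / 2 ≤ t) (h1 : t ≤ 1) (S D : Finset (ℤ × ℤ)) (O O' : Finset ((ℤ × ℤ) × Bool)) :
    0 ≤ rcs127Wt2 Y t S D O O' :=
  Finset.prod_nonneg fun e _ => am_cellW2_nonneg h0 h1 _ _ _ _

theorem rcs127_wt2_sw (Y : Rcy162Sys) (t : ℝ) (S D : Finset (ℤ × ℤ)) (O O' : Finset ((ℤ × ℤ) × Bool)) :
    rcs127Wt2 (rcs127Sw Y) t D S O' O = rcs127Wt2 Y t S D O O' :=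
  Finset.prod_congr rfl fun e _ => am_cellW2_swap _ _ _ _ _

/-- the marginal on the statuses of `s` is the weight of the system -/
theorem rcs127_wt2_fst (Y : Rcy162Sys) (t : ℝ) (S D : Finset (ℤ × ℤ)) (O : Finset ((ℤ × ℤ) × Bool)) :
    ∑ O' ∈ Y.E.powerset, rcs127Wt2 Y t S D O O' = ∏ e ∈ Y.E, Y.fac t ⟨S, D, O⟩ e := by
  classical
  have h := am_sum_powerset_prod Y.E (fun e p => clCellW2 t (Y.p0 e ∈ S ↔ Y.p1 e ∈ S) (Y.f0 e ∈ D ↔ Y.f1 e ∈ D) (e ∈ O) p)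
  rw [Finset.prod_congr rfl fun e _ => (rcs127_fac_eq Y t ⟨S, D, O⟩ e).trans
    (am_cellW2_sum t (Y.p0 e ∈ S ↔ Y.p1 e ∈ S) (Y.f0 e ∈ D ↔ Y.f1 e ∈ D) (e ∈ O)).symm]
  unfold rcs127Wt2 rcs127Fac2
  convert h using 4

/-- the marginal on the statuses of `d` is the weight of the exchanged system -/
theorem rcs127_wt2_snd (Y : Rcy162Sys) (t : ℝ) (S D : Finset (ℤ × ℤ)) (O' : Finset ((ℤ × ℤ) × Bool)) :
    ∑ O ∈ Y.E.powerset, rcs127Wt2 Y t S D O O' = ∏ e ∈ Y.E, (rcs127Sw Y).fac t ⟨D, S, O'⟩ e := by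
  have h := rcs127_wt2_fst (rcs127Sw Y) t D S O'
  exact (Finset.sum_congr rfl fun O _ => (rcs127_wt2_sw Y t S D O O').symm).trans h

/-- **T6**: on the support every edge pair is open for one colour at least; an open edge pair has its own spin constant -/
theorem rcs127_wt2_cover (Y : Rcy162Sys) {t : ℝ} {S D : Finset (ℤ × ℤ)} {O O' : Finset ((ℤ × ℤ) × Bool)} (hω : rcs127Wt2 Y t S D O O' ≠ 0)
    {e : (ℤ × ℤ) × Bool} (he : e ∈ Y.E) :
    (e ∈ O ∨ e ∈ O') ∧ (e ∈ O → (Y.p0 e ∈ S ↔ Y.p1 e ∈ S)) ∧ (e ∈ O' → (Y.f0 e ∈ D ↔ Y.f1 e ∈ D)) := by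
  classical
  have h := (Finset.prod_ne_zero_iff.1 hω) e he
  unfold rcs127Fac2 clCellW2 at h
  by_cases h1 : (Y.p0 e ∈ S ↔ Y.p1 e ∈ S) <;> by_cases h2 : (Y.f0 e ∈ D ↔ Y.f1 e ∈ D) <;> by_cases h3 : e ∈ O <;> by_cases h4 : e ∈ O' <;>
    simp [h1, h2, h3, h4] at h ⊢

/-- the four-fold sum of the two-status law under a constraint on the pair `(s, d)` -/
noncomputable def rcs127N2 (Y : Rcy162Sys) (t : ℝ) (κ : Finset (ℤ × ℤ) → Finset (ℤ × ℤ) → Prop)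
    (G : Finset (ℤ × ℤ) → Finset (ℤ × ℤ) → Finset ((ℤ × ℤ) × Bool) → Finset ((ℤ × ℤ) × Bool) → ℝ) : ℝ :=
  open Classical in
  ∑ S ∈ Y.V.powerset, ∑ D ∈ Y.Fc.powerset, ∑ O ∈ Y.E.powerset, ∑ O' ∈ Y.E.powerset, if κ S D then rcs127Wt2 Y t S D O O' * G S D O O' else 0

/-- observables of `(s, d, O)` -/
theorem rcs127_N2_fst (Y : Rcy162Sys) (t : ℝ) (κ : Finset (ℤ × ℤ) → Finset (ℤ × ℤ) → Prop) (X : RswCfg → ℝ) :
    rcs127N2 Y t κ (fun S D O _ => X ⟨S, D, O⟩) = Y.sum t (fun ω => κ ω.S ω.D) X := by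
  classical
  unfold rcs127N2 Rcy162Sys.sum
  refine Finset.sum_congr rfl fun S _ => Finset.sum_congr rfl fun D _ => Finset.sum_congr rfl fun O _ => ?_
  unfold Rcy162Sys.wt
  by_cases h : κ S D
  · simp only [if_pos h]
    rw [← rcs127_wt2_fst Y t S D O, Finset.sum_mul]
  · simp only [if_neg h, zero_mul, Finset.sum_const_zero]

/-- observables of `(d, s, O')` -/
theorem rcs127_N2_snd (Y : Rcy162Sys) (t : ℝ) (κ : Finset (ℤ × ℤ) → Finset (ℤ × ℤ) → Prop) (X : RswCfg → ℝ) :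
    rcs127N2 Y t κ (fun S D _ O' => X ⟨D, S, O'⟩) = (rcs127Sw Y).sum t (fun ω => κ ω.D ω.S) X := by
  classical
  unfold rcs127N2 Rcy162Sys.sum
  show _ = ∑ D ∈ Y.Fc.powerset, ∑ S ∈ Y.V.powerset, ∑ O' ∈ Y.E.powerset, (rcs127Sw Y).wt t (fun ω => κ ω.D ω.S) ⟨D, S, O'⟩ * X ⟨D, S, O'⟩
  rw [Finset.sum_comm]
  refine Finset.sum_congr rfl fun D _ => Finset.sum_congr rfl fun S _ => ?_
  rw [Finset.sum_comm]
  refine Finset.sum_congr rfl fun O' _ => ?_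
  unfold Rcy162Sys.wt
  by_cases h : κ S D
  · simp only [if_pos h]
    have e := rcs127_wt2_snd Y t S D O'
    show _ = (∏ e ∈ Y.E, (rcs127Sw Y).fac t ⟨D, S, O'⟩ e) * X ⟨D, S, O'⟩
    rw [← e, Finset.sum_mul]
  · simp only [if_neg h, zero_mul, Finset.sum_const_zero]

/-- the two partition functions agree -/
theorem rcs127_Z_sw (Y : Rcy162Sys) (t : ℝ) (κ : Finset (ℤ × ℤ) → Finset (ℤ × ℤ) → Prop) :
    (rcs127Sw Y).sum t (fun ω => κ ω.D ω.S) (fun _ => 1) = Y.sum t (fun ω => κ ω.S ω.D) (fun _ => 1) := by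
  rw [← rcs127_N2_snd, ← rcs127_N2_fst]

/-- PAIR observables have the same sums in the two systems (colour exchange, R291 `cp_swap`) -/
theorem rcs127_pair_sw (Y : Rcy162Sys) (t : ℝ) (κ : Finset (ℤ × ℤ) → Finset (ℤ × ℤ) → Prop) (G : Finset (ℤ × ℤ) → Finset (ℤ × ℤ) → ℝ) :
    (rcs127Sw Y).sum t (fun ω => κ ω.D ω.S) (fun ω => G ω.D ω.S) = Y.sum t (fun ω => κ ω.S ω.D) (fun ω => G ω.S ω.D) := by
  rw [← rcs127_N2_snd Y t κ (fun ω => G ω.D ω.S), ← rcs127_N2_fst Y t κ (fun ω => G ω.S ω.D)]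

open Classical in
/-- **ALT, number form** (R291 `cp_alt`; T6): `E₁`, `E₂` are read on `(s, d, O)`, `E₃`, `E₄` on the exchanged configuration `(d, s, O')` -/
theorem rcs127_alt (Y : Rcy162Sys) {t : ℝ} (h0 : 1 / 2 ≤ t) (h1 : t ≤ 1) (κ : Finset (ℤ × ℤ) → Finset (ℤ × ℤ) → Prop)
    (E₁ E₂ E₃ E₄ : RswCfg → Prop)
    (hdet : ∀ (S D : Finset (ℤ × ℤ)) (O O' : Finset ((ℤ × ℤ) × Bool)), S ⊆ Y.V → D ⊆ Y.Fc → O ⊆ Y.E → O' ⊆ Y.E → κ S D → rcs127Wt2 Y t S D O O' ≠ 0 →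
      E₁ ⟨S, D, O⟩ ∨ E₂ ⟨S, D, O⟩ ∨ E₃ ⟨D, S, O'⟩ ∨ E₄ ⟨D, S, O'⟩) :
    Y.sum t (fun ω => κ ω.S ω.D) (fun _ => 1) ≤
      Y.sum t (fun ω => κ ω.S ω.D) (fun ω => if E₁ ω then 1 else 0) + Y.sum t (fun ω => κ ω.S ω.D) (fun ω => if E₂ ω then 1 else 0) +
        (rcs127Sw Y).sum t (fun ω => κ ω.D ω.S) (fun ω => if E₃ ω then 1 else 0) +
          (rcs127Sw Y).sum t (fun ω => κ ω.D ω.S) (fun ω => if E₄ ω then 1 else 0) := by
  rw [← rcs127_N2_fst Y t κ (fun _ => 1), ← rcs127_N2_fst Y t κ (fun ω => if E₁ ω then 1 else 0), ← rcs127_N2_fst Y t κ (fun ω => if E₂ ω then 1 else 0),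
    ← rcs127_N2_snd Y t κ (fun ω => if E₃ ω then 1 else 0), ← rcs127_N2_snd Y t κ (fun ω => if E₄ ω then 1 else 0)]
  unfold rcs127N2
  simp only [← Finset.sum_add_distrib]
  refine Finset.sum_le_sum fun S hS => Finset.sum_le_sum fun D hD => Finset.sum_le_sum fun O hO => Finset.sum_le_sum fun O' hO' => ?_
  by_cases hk : κ S D
  · simp only [if_pos hk]
    have hw := rcs127_wt2_nonneg Y h0 h1 S D O O'
    by_cases hw0 : rcs127Wt2 Y t S D O O' = 0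
    · simp [hw0]
    · have a1 : (0 : ℝ) ≤ if E₁ ⟨S, D, O⟩ then 1 else 0 := by split_ifs <;> norm_num
      have a2 : (0 : ℝ) ≤ if E₂ ⟨S, D, O⟩ then 1 else 0 := by split_ifs <;> norm_num
      have a3 : (0 : ℝ) ≤ if E₃ ⟨D, S, O'⟩ then 1 else 0 := by split_ifs <;> norm_num
      have a4 : (0 : ℝ) ≤ if E₄ ⟨D, S, O'⟩ then 1 else 0 := by split_ifs <;> norm_num
      have a5 : (1 : ℝ) ≤ (if E₁ ⟨S, D, O⟩ then 1 else 0) + (if E₂ ⟨S, D, O⟩ then 1 else 0) + (if E₃ ⟨D, S, O'⟩ then 1 else 0) + (if E₄ ⟨D, S, O'⟩ then 1 else 0) := by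
        rcases hdet S D O O' (Finset.mem_powerset.1 hS) (Finset.mem_powerset.1 hD) (Finset.mem_powerset.1 hO) (Finset.mem_powerset.1 hO') hk hw0 with h | h | h | h
        · rw [if_pos h]; linarith
        · rw [if_pos h]; linarith
        · rw [if_pos h]; linarith
        · rw [if_pos h]; linarith
      calc rcs127Wt2 Y t S D O O' * 1 ≤ rcs127Wt2 Y t S D O O' * ((if E₁ ⟨S, D, O⟩ then 1 else 0) + (if E₂ ⟨S, D, O⟩ then 1 else 0) + (if E₃ ⟨D, S, O'⟩ then 1 else 0) + (if E₄ ⟨D, S, O'⟩ then 1 else 0)) :=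
            mul_le_mul_of_nonneg_left a5 hw
        _ = _ := by ring
  · simp only [if_neg hk]
    norm_num

/-- **ALT, probability form** -/
theorem rcs127_alt_P (Y : Rcy162Sys) {t : ℝ} (h0 : 1 / 2 ≤ t) (h1 : t ≤ 1) (κ : Finset (ℤ × ℤ) → Finset (ℤ × ℤ) → Prop)
    (hf : Y.Feas t (fun ω => κ ω.S ω.D)) (E₁ E₂ E₃ E₄ : RswCfg → Prop)
    (hdet : ∀ (S D : Finset (ℤ × ℤ)) (O O' : Finset ((ℤ × ℤ) × Bool)), S ⊆ Y.V → D ⊆ Y.Fc → O ⊆ Y.E → O' ⊆ Y.E → κ S D → rcs127Wt2 Y t S D O O' ≠ 0 →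
      E₁ ⟨S, D, O⟩ ∨ E₂ ⟨S, D, O⟩ ∨ E₃ ⟨D, S, O'⟩ ∨ E₄ ⟨D, S, O'⟩) :
    1 ≤ Y.Pr t (fun ω => κ ω.S ω.D) E₁ + Y.Pr t (fun ω => κ ω.S ω.D) E₂ +
      (rcs127Sw Y).Pr t (fun ω => κ ω.D ω.S) E₃ + (rcs127Sw Y).Pr t (fun ω => κ ω.D ω.S) E₄ := by
  classical
  have hZ := rcy162_Z_pos Y _ (by linarith : (0 : ℝ) ≤ t) h1 hf
  have h := rcs127_alt Y h0 h1 κ E₁ E₂ E₃ E₄ hdet
  rw [rcy162_P_def, rcy162_P_def, rcy162_P_def, rcy162_P_def]
  unfold Rcy162Sys.Ex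
  rw [rcs127_Z_sw, ← add_div, ← add_div, ← add_div, le_div_iff₀ hZ, one_mul]
  exact h

/-! ## 2. the two status fields on the refined lattice -/

/-- **the status field of `d`**, read on the configuration `(d, s, O')` of the exchanged system `Y'`: `d` on the face points, `0` on the vertex points, the status on the edge points -/
noncomputable def rcs127FldD (L : ℕ) (Y' : Rcy162Sys) (ω : RswCfg) : CyF := fun p =>
  if p.1 % 2 = 0 then
    (if p.2 % 2 = 0 then 0 else Y'.sgE ω (rcy162RedE L ((p.1 / 2, p.2 / 2), true)))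
  else
    (if p.2 % 2 = 0 then Y'.sgE ω (rcy162RedE L ((p.1 / 2, p.2 / 2), false)) else Y'.sgV ω (rcy162Red L (p.1 / 2, p.2 / 2)))

theorem rcs127_fldD_P (L : ℕ) (Y' : Rcy162Sys) (ω : RswCfg) (v : ℤ × ℤ) : rcs127FldD L Y' ω (rtd111P v) = 0 := by
  have h1 : (2 * v.1) % 2 = 0 := by omega
  have h2 : (2 * v.2) % 2 = 0 := by omega
  unfold rcs127FldD rtd111P
  simp only [h1, h2, if_true]

theorem rcs127_fldD_F (L : ℕ) (Y' : Rcy162Sys) (ω : RswCfg) (f : ℤ × ℤ) : rcs127FldD L Y' ω (rtd111F f) = Y'.sgV ω (rcy162Red L f) := by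
  have h1 : ¬ (2 * f.1 + 1) % 2 = 0 := by omega
  have h2 : ¬ (2 * f.2 + 1) % 2 = 0 := by omega
  have h3 : (2 * f.1 + 1) / 2 = f.1 := by omega
  have h4 : (2 * f.2 + 1) / 2 = f.2 := by omega
  unfold rcs127FldD rtd111F
  simp only [h1, h2, h3, h4, if_false]

theorem rcs127_fldD_E (L : ℕ) (Y' : Rcy162Sys) (ω : RswCfg) (e : (ℤ × ℤ) × Bool) : rcs127FldD L Y' ω (rtd111E e) = Y'.sgE ω (rcy162RedE L e) := by
  obtain ⟨⟨x, y⟩, b⟩ := e
  have h1 : (2 * x) % 2 = 0 := by omega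
  have h2 : (2 * y) % 2 = 0 := by omega
  have h3 : (2 * x) / 2 = x := by omega
  have h4 : (2 * y) / 2 = y := by omega
  have h1' : ¬ (2 * x + 1) % 2 = 0 := by omega
  have h2' : ¬ (2 * y + 1) % 2 = 0 := by omega
  have h3' : (2 * x + 1) / 2 = x := by omega
  have h4' : (2 * y + 1) / 2 = y := by omega
  cases b
  · rw [rtd111_E_f]
    unfold rcs127FldD
    simp only [h1', h2, h3', h4, if_true, if_false]
  · rw [rtd111_E_t]
    unfold rcs127FldD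
    simp only [h1, h2', h3, h4', if_true, if_false]

/-- the sign of a site -/
noncomputable def rcs127Sg (S : Finset (ℤ × ℤ)) (v : ℤ × ℤ) : SignType := open Classical in if v ∈ S then 1 else -1

theorem rcs127_sgV_sg {Y : Rcy162Sys} {ω : RswCfg} {v : ℤ × ℤ} (h : Y.sgV ω v ≠ 0) : Y.sgV ω v = rcs127Sg ω.S v := by
  classical
  unfold Rcy162Sys.sgV at h ⊢
  unfold rcs127Sg
  by_cases h1 : v ∈ Y.V
  · simp only [if_pos h1]
  · rw [if_neg h1] at h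
    exact absurd rfl h

theorem rcs127_sgV_ne {Y : Rcy162Sys} (ω : RswCfg) {v : ℤ × ℤ} (h : v ∈ Y.V) : Y.sgV ω v ≠ 0 := by
  classical
  unfold Rcy162Sys.sgV
  rw [if_pos h]
  split_ifs <;> decide

theorem rcs127_sgE_sg {Y : Rcy162Sys} {ω : RswCfg} {e : (ℤ × ℤ) × Bool} (h : Y.sgE ω e ≠ 0) :
    Y.sgE ω e = rcs127Sg ω.S (Y.p0 e) ∧ Y.sgE ω e = rcs127Sg ω.S (Y.p1 e) := by
  classical
  unfold Rcy162Sys.sgE at h ⊢
  unfold rcs127Sg
  by_cases h1 : e ∈ Y.E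
  · rw [if_pos h1] at h ⊢
    by_cases h2 : Y.Good true ω e
    · rw [if_pos h2, if_pos (h2.2.1.2 rfl), if_pos (h2.2.2.2 rfl)]
      exact ⟨rfl, rfl⟩
    · rw [if_neg h2] at h ⊢
      by_cases h3 : Y.Good false ω e
      · rw [if_pos h3, if_neg (fun hh => Bool.false_ne_true (h3.2.1.1 hh)), if_neg (fun hh => Bool.false_ne_true (h3.2.2.1 hh))]
        exact ⟨rfl, rfl⟩
      · rw [if_neg h3] at h
        exact absurd rfl h
  · rw [if_neg h1] at h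
    exact absurd rfl h

/-- an open edge pair along which the spin is constant has a status -/
theorem rcs127_sgE_ne {Y : Rcy162Sys} {ω : RswCfg} {e : (ℤ × ℤ) × Bool} (h1 : e ∈ Y.E) (h2 : e ∈ ω.O) (h3 : Y.p0 e ∈ ω.S ↔ Y.p1 e ∈ ω.S) :
    Y.sgE ω e ≠ 0 := by
  classical
  unfold Rcy162Sys.sgE
  rw [if_pos h1]
  by_cases h4 : Y.p0 e ∈ ω.S
  · have : Y.Good true ω e := ⟨h2, ⟨fun _ => rfl, fun _ => h4⟩, ⟨fun _ => rfl, fun _ => h3.1 h4⟩⟩
    rw [if_pos this]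
    decide
  · have g : Y.Good false ω e := ⟨h2, ⟨fun hh => absurd hh h4, fun hh => absurd hh Bool.false_ne_true⟩,
      ⟨fun hh => absurd (h3.2 hh) h4, fun hh => absurd hh Bool.false_ne_true⟩⟩
    have g' : ¬ Y.Good true ω e := fun hh => rcy162_good_excl Y ω e hh g
    rw [if_neg g', if_pos g]
    decide

/-- adjacent nonzero values agree: a field carried by the VERTEX points -/
theorem rcs127_same_P (τ : CyF) (σ : ℤ × ℤ → SignType) (hP : ∀ v, τ (rtd111P v) ≠ 0 → τ (rtd111P v) = σ v) (hF : ∀ f, τ (rtd111F f) = 0)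
    (hE : ∀ e, τ (rtd111E e) ≠ 0 → τ (rtd111E e) = σ e.1 ∧ τ (rtd111E e) = σ (rswEnd e)) {u v : ℤ × ℤ} (h : triAdj u v)
    (hu : τ u ≠ 0) (hv : τ v ≠ 0) : τ u = τ v := by
  rcases rtd111_cases u with ⟨a, rfl⟩ | ⟨a, rfl⟩ | ⟨a, rfl⟩
  · rcases rtd111_cases v with ⟨b, rfl⟩ | ⟨b, rfl⟩ | ⟨b, rfl⟩
    · exact absurd h (rtd111_adj_PP a b)
    · exact absurd (hF b) hv
    · rcases rtd111_adj_PE h with e | e
      · rw [hP a hu, (hE b hv).1, e]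
      · rw [hP a hu, (hE b hv).2, e]
  · exact absurd (hF a) hu
  · rcases rtd111_cases v with ⟨b, rfl⟩ | ⟨b, rfl⟩ | ⟨b, rfl⟩
    · rcases rtd111_adj_PE (rtd111_adj_symm h) with e | e
      · rw [hP b hv, (hE a hu).1, e]
      · rw [hP b hv, (hE a hu).2, e]
    · exact absurd (hF b) hv
    · rcases rtd111_adj_EE h with e | ⟨_, e⟩
      · rw [(hE a hu).1, (hE b hv).1, e]
      · rw [(hE a hu).2, (hE b hv).2, e]

/-- adjacent nonzero values agree: a field carried by the FACE points -/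
theorem rcs127_same_F (τ : CyF) (σ : ℤ × ℤ → SignType) (hF : ∀ f, τ (rtd111F f) ≠ 0 → τ (rtd111F f) = σ f) (hP : ∀ v, τ (rtd111P v) = 0)
    (hE : ∀ e, τ (rtd111E e) ≠ 0 → τ (rtd111E e) = σ e.1 ∧ τ (rtd111E e) = σ (rswCo e)) {u v : ℤ × ℤ} (h : triAdj u v)
    (hu : τ u ≠ 0) (hv : τ v ≠ 0) : τ u = τ v := by
  rcases rtd111_cases u with ⟨a, rfl⟩ | ⟨a, rfl⟩ | ⟨a, rfl⟩
  · exact absurd (hP a) hu
  · rcases rtd111_cases v with ⟨b, rfl⟩ | ⟨b, rfl⟩ | ⟨b, rfl⟩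
    · exact absurd (hP b) hv
    · exact absurd h (rtd111_adj_FF a b)
    · rcases rtd111_adj_FE h with e | e
      · rw [hF a hu, (hE b hv).1, e]
      · rw [hF a hu, (hE b hv).2, e]
  · rcases rtd111_cases v with ⟨b, rfl⟩ | ⟨b, rfl⟩ | ⟨b, rfl⟩
    · exact absurd (hP b) hv
    · rcases rtd111_adj_FE (rtd111_adj_symm h) with e | e
      · rw [hF b hv, (hE a hu).1, e]
      · rw [hF b hv, (hE a hu).2, e]
    · rcases rtd111_adj_EE h with e | ⟨e, _⟩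
      · rw [(hE a hu).1, (hE b hv).1, e]
      · rw [(hE a hu).2, (hE b hv).2, e]

theorem rcs127_red_end (L : ℕ) (e : (ℤ × ℤ) × Bool) : rcy162Red L (rswEnd (rcy162RedE L e)) = rcy162Red L (rswEnd e) := by
  obtain ⟨⟨x, y⟩, b⟩ := e
  cases b <;> simp [rcy162Red, rcy162RedE, rswEnd]

theorem rcs127_red_co (L : ℕ) (e : (ℤ × ℤ) × Bool) : rcy162Red L (rswCo (rcy162RedE L e)) = rcy162Red L (rswCo e) := by
  obtain ⟨⟨x, y⟩, b⟩ := e
  cases b <;> simp [rcy162Red, rcy162RedE, rswCo]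

/-- membership of a reduced edge pair in the cylinder -/
theorem rcs127_redE_mem {L : ℕ} (hL : 0 < L) {a b : ℤ} {e : (ℤ × ℤ) × Bool} (h : 2 * a + 1 ≤ (rtd111E e).2) (h' : (rtd111E e).2 ≤ 2 * b - 1) :
    rcy162RedE L e ∈ (rcy162Cyl L a b).E := by
  obtain ⟨⟨x, y⟩, c⟩ := e
  rw [rcy162_mem_cylE]
  refine ⟨rcy162_red_range hL _, ?_⟩
  cases c
  · rw [rtd111_E_f] at h h'
    left
    refine ⟨rfl, ?_, ?_⟩
    · show a < y
      simp only at h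
      omega
    · show y < b
      simp only at h'
      omega
  · rw [rtd111_E_t] at h h'
    right
    refine ⟨rfl, ?_, ?_⟩
    · show a ≤ y
      simp only at h
      omega
    · show y < b
      simp only at h'
      omega

/-- **ALT, adapter on the cylinder** (R291 `cyw_alt_cfg`): on the support of the two-status weight the two status fields satisfy the four-way alternative in every band of refined rows strictly inside -/
theorem rcs127_alt_cfg {L : ℕ} (hL : 0 < L) {a b : ℤ} {t : ℝ} {c d : ℤ} (hcd : c ≤ d) (hc : 2 * a + 1 ≤ c) (hd : d ≤ 2 * b - 1)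
    {S D : Finset (ℤ × ℤ)} {O O' : Finset ((ℤ × ℤ) × Bool)} (hω : rcs127Wt2 (rcy162Cyl L a b) t S D O O' ≠ 0) :
    rcy162Fld L (rcy162Cyl L a b) ⟨S, D, O⟩ ∈ cyVP 1 c d ∨ rcy162Fld L (rcy162Cyl L a b) ⟨S, D, O⟩ ∈ cyVP (-1) c d ∨
      rcs127FldD L (rcs127Sw (rcy162Cyl L a b)) ⟨D, S, O'⟩ ∈ cyBlk 1 c d ∨ rcs127FldD L (rcs127Sw (rcy162Cyl L a b)) ⟨D, S, O'⟩ ∈ cyBlk (-1) c d := by
  have hL2 : (0 : ℤ) < 2 * (L : ℤ) := by positivity
  refine cy_alt_det hL2 hcd _ _ (rcy162_fld_per L _ _) ?_ ?_ ?_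
  · intro u hu
    have hu1 : c ≤ u.2 := hu.1
    have hu2 : u.2 ≤ d := hu.2
    rcases rtd111_cases u with ⟨v, rfl⟩ | ⟨f, rfl⟩ | ⟨e, rfl⟩
    · left
      rw [rcy162_fld_P]
      refine rcs127_sgV_ne _ (rcy162_mem_cylV.2 ⟨rcy162_red_range hL _, ?_⟩)
      have e1 : (rtd111P v).2 = 2 * v.2 := rfl
      rw [rcy162_red_snd]
      constructor <;> omega
    · right
      rw [rcs127_fldD_F]
      refine rcs127_sgV_ne _ (show rcy162Red L f ∈ (rcy162Cyl L a b).Fc from rcy162_mem_cylF.2 ⟨rcy162_red_range hL _, ?_⟩)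
      have e1 : (rtd111F f).2 = 2 * f.2 + 1 := rfl
      rw [rcy162_red_snd]
      constructor <;> omega
    · have he : rcy162RedE L e ∈ (rcy162Cyl L a b).E := rcs127_redE_mem hL (by omega) (by omega)
      obtain ⟨h1, h2, h3⟩ := rcs127_wt2_cover _ hω he
      rcases h1 with h1 | h1
      · left
        rw [rcy162_fld_E]
        exact rcs127_sgE_ne he h1 (h2 h1)
      · right
        rw [rcs127_fldD_E]
        exact rcs127_sgE_ne (Y := rcs127Sw (rcy162Cyl L a b)) he h1 (h3 h1)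
  · intro u _ v _ huv h1 h2
    refine rcs127_same_P _ (fun w => rcs127Sg S (rcy162Red L w)) (fun w hw => ?_) (fun f => rcy162_fld_F _ _ _ f) (fun e he => ?_) huv h1 h2
    · rw [rcy162_fld_P] at hw ⊢
      exact rcs127_sgV_sg hw
    · rw [rcy162_fld_E] at he ⊢
      obtain ⟨g1, g2⟩ := rcs127_sgE_sg he
      refine ⟨g1, ?_⟩
      rw [g2]
      show rcs127Sg S (rcy162Red L (rswEnd (rcy162RedE L e))) = _
      rw [rcs127_red_end]
  · intro u _ v _ huv h1 h2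
    refine rcs127_same_F _ (fun w => rcs127Sg D (rcy162Red L w)) (fun w hw => ?_) (fun f => rcs127_fldD_P _ _ _ f) (fun e he => ?_) huv h1 h2
    · rw [rcs127_fldD_F] at hw ⊢
      exact rcs127_sgV_sg hw
    · rw [rcs127_fldD_E] at he ⊢
      obtain ⟨g1, g2⟩ := rcs127_sgE_sg he
      refine ⟨g1, ?_⟩
      rw [g2]
      show rcs127Sg D (rcy162Red L (rswCo (rcy162RedE L e))) = _
      rw [rcs127_red_co]

/-! ## 3. (n1) + (n2): ALT in a band of the mixed cylinder -/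

/-- the mixed boundary condition read on the SECOND component (configurations `(d, s, O')` of the exchanged system) -/
def Rcs127MixD (L : ℕ) (a b : ℤ) (ω : RswCfg) : Prop := (∀ v ∈ rcy162Row L a, v ∉ ω.D) ∧ rcy162Row L b ⊆ ω.D

/-- **the law of the status field of `d`** under the mixed law (BASE sizes `L`, `H`) -/
noncomputable def rcs127QD (t : ℝ) (L H : ℕ) (E : Set CyF) : ℝ :=
  (rcs127Sw (rcy162Cyl L 0 H)).Pr t (Rcs127MixD L 0 H) (fun ω => rcs127FldD L (rcs127Sw (rcy162Cyl L 0 H)) ω ∈ E)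

theorem rcs127_flipS_fldD (L : ℕ) (Y' : Rcy162Sys) (hw : Y'.WF) (ω : RswCfg) (p : ℤ × ℤ) :
    rcs127FldD L Y' (Y'.flipS ω) p = - rcs127FldD L Y' ω p := by
  rcases rtd111_cases p with ⟨v, rfl⟩ | ⟨f, rfl⟩ | ⟨e, rfl⟩
  · rw [rcs127_fldD_P, rcs127_fldD_P, neg_zero]
  · rw [rcs127_fldD_F, rcs127_fldD_F, rcy162_flipS_sgV]
  · rw [rcs127_fldD_E, rcs127_fldD_E, rcy162_flipS_sgE Y' hw]

theorem rcs127_on_neg (s : SignType) (τ : CyF) : cyOn s (fun u => - τ u) = cyOn (-s) τ := by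
  ext u
  show - τ u = s ↔ τ u = - s
  exact neg_eq_iff_eq_neg

theorem rcs127_neg_VP (s : SignType) (τ : CyF) (c d : ℤ) : (fun u => - τ u) ∈ cyVP s c d ↔ τ ∈ cyVP (-s) c d := by
  show CyX (plsBand c d ∩ cyOn s (fun u => - τ u)) c d ↔ CyX (plsBand c d ∩ cyOn (-s) τ) c d
  rw [rcs127_on_neg]

theorem rcs127_neg_Blk (s : SignType) (τ : CyF) (c d : ℤ) : (fun u => - τ u) ∈ cyBlk s c d ↔ τ ∈ cyBlk (-s) c d := by
  show ¬ CyX (plsBand c d \ cyOn s (fun u => - τ u)) c d ↔ ¬ CyX (plsBand c d \ cyOn (-s) τ) c d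
  rw [rcs127_on_neg]

/-- (n2) the spin `d` is free under the mixed law: its two signs play the same role -/
theorem rcs127_QD_neg (t : ℝ) {L : ℕ} (hL : 0 < L) (H : ℕ) (E : Set CyF) :
    rcs127QD t L H {τ | (fun u => - τ u) ∈ E} = rcs127QD t L H E := by
  have hw : (rcs127Sw (rcy162Cyl L 0 H)).WF := rcs127_sw_wf (rcy162_cyl_wf hL 0 H)
  unfold rcs127QD
  rw [rcy162_flipS_Pr _ hw t (Rcs127MixD L 0 H) (fun ω => rcs127FldD L (rcs127Sw (rcy162Cyl L 0 H)) ω ∈ E)]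
  have e : ∀ ω, rcs127FldD L (rcs127Sw (rcy162Cyl L 0 H)) ((rcs127Sw (rcy162Cyl L 0 H)).flipS ω)
      = fun u => - rcs127FldD L (rcs127Sw (rcy162Cyl L 0 H)) ω u := fun ω => funext fun p => rcs127_flipS_fldD L _ hw ω p
  simp only [e]
  rfl

theorem rcs127_QD_Blk (t : ℝ) {L : ℕ} (hL : 0 < L) (H : ℕ) (c d : ℤ) : rcs127QD t L H (cyBlk (-1) c d) = rcs127QD t L H (cyBlk 1 c d) := by
  rw [← rcs127_QD_neg t hL H (cyBlk 1 c d)]
  congr 1
  ext τ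
  exact (rcs127_neg_Blk 1 τ c d).symm

/-- **(n1) + (n2)**: ALT in a band of refined rows strictly inside the mixed cylinder -/
theorem rcs127_alt_band {t : ℝ} (h0 : 1 / 2 ≤ t) (h1 : t ≤ 1) {L H : ℕ} (hL : 0 < L) (hH : 0 < H) {c d : ℤ} (hcd : c ≤ d) (hc : 1 ≤ c)
    (hd : d ≤ 2 * (H : ℤ) - 1) :
    1 ≤ rcy162Q t L H (cyVP 1 c d) + rcy162Q t L H (cyVP (-1) c d) + 2 * rcs127QD t L H (cyBlk 1 c d) := by
  have ht : 0 < t := by linarith
  have hf : (rcy162Cyl L 0 H).Feas t (Rcy162Mix L 0 H) := rcy162_mix_feas ht L (by exact_mod_cast hH)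
  have h := rcs127_alt_P (rcy162Cyl L 0 H) h0 h1 (fun S _ => (∀ v ∈ rcy162Row L 0, v ∉ S) ∧ rcy162Row L H ⊆ S) hf
    (fun ω => rcy162Fld L (rcy162Cyl L 0 H) ω ∈ cyVP 1 c d) (fun ω => rcy162Fld L (rcy162Cyl L 0 H) ω ∈ cyVP (-1) c d)
    (fun ω => rcs127FldD L (rcs127Sw (rcy162Cyl L 0 H)) ω ∈ cyBlk 1 c d) (fun ω => rcs127FldD L (rcs127Sw (rcy162Cyl L 0 H)) ω ∈ cyBlk (-1) c d)
    (fun S D O O' _ _ _ _ _ hw => rcs127_alt_cfg hL hcd (by omega) hd hw)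
  have e := rcs127_QD_Blk t hL H c d
  have h' : 1 ≤ rcy162Q t L H (cyVP 1 c d) + rcy162Q t L H (cyVP (-1) c d) + rcs127QD t L H (cyBlk 1 c d) + rcs127QD t L H (cyBlk (-1) c d) := h
  rw [e] at h'
  linarith

/-! ## 4. the field `sym` from the search input -/

/-- **(n3) - (n5) + (perJ), THE SEARCH INPUT** (R291 `cyw_search` + `cyw_perJ`): above a plus winding of the statuses of `d` in the low band, the high band is crossed or blocked by plus cells of `s` with conditional probability `≥ 1/2` -/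
def Rcs127Search (t : ℝ) (L H : ℕ) : Prop :=
  ∀ k m κ : ℤ, 1 ≤ m → Even m → 3 ≤ k → k + m + 3 ≤ κ → κ + m - 1 ≤ 2 * (H : ℤ) - 4 → 2 * (H : ℤ) + k + m + 7 ≤ 2 * κ →
    rcs127QD t L H (cyBlk 1 k (k + m - 1)) ≤ 2 * (rcy162Q t L H (cyVP 1 κ (κ + m - 1)) + rcy162Q t L H (cyBlk 1 κ (κ + m - 1)))

/-- **the field `sym` of `Rct127Law (2 L) (2 H) (fun _ _ => rcy162Q t L H)`**, word for word, from the search input -/
theorem rcs127_sym {t : ℝ} (h0 : 1 / 2 ≤ t) (h1 : t ≤ 1) {L H : ℕ} (hL : 0 < L) (hs : Rcs127Search t L H) :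
    ∀ (T : Bool) (k m κ : ℤ), 1 ≤ m → Even m → 3 ≤ k → k + m + 3 ≤ κ → κ + m - 1 ≤ ((2 * H : ℕ) : ℤ) - 4 → ((2 * H : ℕ) : ℤ) + k + m + 7 ≤ 2 * κ →
    1 ≤ (fun (_ _ : Bool) => rcy162Q t L H) T T (cyVP 1 k (k + m - 1)) + (fun (_ _ : Bool) => rcy162Q t L H) T T (cyVP (-1) k (k + m - 1))
      + 4 * ((fun (_ _ : Bool) => rcy162Q t L H) T T (cyVP 1 κ (κ + m - 1)) + (fun (_ _ : Bool) => rcy162Q t L H) T (!T) (cyBlk 1 κ (κ + m - 1))) := by
  intro T k m κ hm hme hk hκ hκH hN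
  push_cast at hκH hN
  have hH : 0 < H := by
    rcases Nat.eq_zero_or_pos H with h | h
    · subst h
      simp only [Nat.cast_zero] at hκH
      omega
    · exact h
  have a := rcs127_alt_band h0 h1 hL hH (c := k) (d := k + m - 1) (by omega) (by omega) (by omega)
  have b := hs k m κ hm hme hk hκ hκH hN
  show 1 ≤ rcy162Q t L H (cyVP 1 k (k + m - 1)) + rcy162Q t L H (cyVP (-1) k (k + m - 1))
      + 4 * (rcy162Q t L H (cyVP 1 κ (κ + m - 1)) + rcy162Q t L H (cyBlk 1 κ (κ + m - 1)))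
  linarith

/-! ## 5. THE CUT: a system factorises across a set of good edge pairs      (R291 `dis_cut_law`, AT paper lem:finite-cuts; abstract form of `rsk_cut_prod` of 91) -/

/-- restriction of a system to a part -/
def rcs127Res (Z : Rcy162Sys) (V F : Finset (ℤ × ℤ)) (E : Finset ((ℤ × ℤ) × Bool)) : Rcy162Sys := ⟨V, F, E, Z.p0, Z.p1, Z.f0, Z.f1⟩

/-- restriction of a configuration to a part -/
def rcs127R (V F : Finset (ℤ × ℤ)) (E : Finset ((ℤ × ℤ) × Bool)) (ω : RswCfg) : RswCfg := ⟨ω.S ∩ V, ω.D ∩ F, ω.O ∩ E⟩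

/-- the spin `s` equals `a` on `V₀` -/
def Rcs127Pin (V₀ : Finset (ℤ × ℤ)) (a : Bool) (ω : RswCfg) : Prop := ∀ v ∈ V₀, (v ∈ ω.S ↔ a = true)

/-- **a cut**: the edge pairs `E₀` split the system into two parts which share only the sites `V₁ ∩ V₂`, and these contain the endpoints of `E₀` -/
structure Rcs127Cut (Z : Rcy162Sys) (V₁ V₂ F₁ F₂ : Finset (ℤ × ℤ)) (E₀ E₁ E₂ : Finset ((ℤ × ℤ) × Bool)) : Prop where
  V : V₁ ∪ V₂ = Z.V
  F : F₁ ∪ F₂ = Z.Fc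
  Fd : Disjoint F₁ F₂
  E : (E₀ ∪ E₁) ∪ E₂ = Z.E
  E01 : Disjoint E₀ E₁
  E02 : Disjoint E₀ E₂
  E12 : Disjoint E₁ E₂
  p0 : ∀ e ∈ E₀, Z.p0 e ∈ V₁ ∩ V₂ ∧ Z.p1 e ∈ V₁ ∩ V₂
  p1 : ∀ e ∈ E₁, Z.p0 e ∈ V₁ ∧ Z.p1 e ∈ V₁ ∧ Z.f0 e ∈ F₁ ∧ Z.f1 e ∈ F₁
  p2 : ∀ e ∈ E₂, Z.p0 e ∈ V₂ ∧ Z.p1 e ∈ V₂ ∧ Z.f0 e ∈ F₂ ∧ Z.f1 e ∈ F₂

theorem rcs127_fac_congr (Z Z' : Rcy162Sys) (t : ℝ) {ω ω' : RswCfg} {e : (ℤ × ℤ) × Bool} (hO : e ∈ ω.O ↔ e ∈ ω'.O)
    (h0 : Z.p0 e ∈ ω.S ↔ Z'.p0 e ∈ ω'.S) (h1 : Z.p1 e ∈ ω.S ↔ Z'.p1 e ∈ ω'.S) (g0 : Z.f0 e ∈ ω.D ↔ Z'.f0 e ∈ ω'.D)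
    (g1 : Z.f1 e ∈ ω.D ↔ Z'.f1 e ∈ ω'.D) : Z.fac t ω e = Z'.fac t ω' e := by
  unfold Rcy162Sys.fac
  simp only [hO, h0, h1, g0, g1]

/-- the factor of an edge pair of a part reads the restriction -/
theorem rcs127_fac_res (Z : Rcy162Sys) (t : ℝ) {V F : Finset (ℤ × ℤ)} {E : Finset ((ℤ × ℤ) × Bool)} (ω : RswCfg) {e : (ℤ × ℤ) × Bool} (he : e ∈ E)
    (h : Z.p0 e ∈ V ∧ Z.p1 e ∈ V ∧ Z.f0 e ∈ F ∧ Z.f1 e ∈ F) : Z.fac t ω e = (rcs127Res Z V F E).fac t (rcs127R V F E ω) e := by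
  refine rcs127_fac_congr Z _ t ?_ ?_ ?_ ?_ ?_
  · exact ⟨fun x => Finset.mem_inter.2 ⟨x, he⟩, fun x => (Finset.mem_inter.1 x).1⟩
  · exact ⟨fun x => Finset.mem_inter.2 ⟨x, h.1⟩, fun x => (Finset.mem_inter.1 x).1⟩
  · exact ⟨fun x => Finset.mem_inter.2 ⟨x, h.2.1⟩, fun x => (Finset.mem_inter.1 x).1⟩
  · exact ⟨fun x => Finset.mem_inter.2 ⟨x, h.2.2.1⟩, fun x => (Finset.mem_inter.1 x).1⟩
  · exact ⟨fun x => Finset.mem_inter.2 ⟨x, h.2.2.2⟩, fun x => (Finset.mem_inter.1 x).1⟩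

section cut

variable {Z : Rcy162Sys} {V₁ V₂ F₁ F₂ : Finset (ℤ × ℤ)} {E₀ E₁ E₂ : Finset ((ℤ × ℤ) × Bool)}

/-- the weight factorises on the cut event -/
theorem rcs127_cut_w (h : Rcs127Cut Z V₁ V₂ F₁ F₂ E₀ E₁ E₂) (t : ℝ) (a : Bool) {ω : RswCfg} (hO : E₀ ⊆ ω.O) (hp : Rcs127Pin (V₁ ∩ V₂) a ω) :
    Z.w t ω = t ^ E₀.card * (rcs127Res Z V₁ F₁ E₁).w t (rcs127R V₁ F₁ E₁ ω) * (rcs127Res Z V₂ F₂ E₂).w t (rcs127R V₂ F₂ E₂ ω) := by
  classical
  unfold Rcy162Sys.w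
  rw [← h.E, Finset.prod_union (Finset.disjoint_union_left.2 ⟨h.E02, h.E12⟩), Finset.prod_union h.E01]
  congr 1
  · congr 1
    · rw [Finset.prod_congr rfl (g := fun _ => t), Finset.prod_const]
      intro e he
      have h1 := hp _ (h.p0 e he).1
      have h2 := hp _ (h.p0 e he).2
      unfold Rcy162Sys.fac
      rw [if_pos (hO he), if_pos (h1.trans h2.symm)]
    · exact Finset.prod_congr rfl fun e he => rcs127_fac_res Z t ω he (h.p1 e he)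
  · exact Finset.prod_congr rfl fun e he => rcs127_fac_res Z t ω he (h.p2 e he)

/-- gluing of two configurations of the parts -/
def rcs127Glue (E₀ : Finset ((ℤ × ℤ) × Bool)) (x : RswCfg × RswCfg) : RswCfg := ⟨x.1.S ∪ x.2.S, x.1.D ∪ x.2.D, (E₀ ∪ x.1.O) ∪ x.2.O⟩

theorem rcs127_glue_R1 (h : Rcs127Cut Z V₁ V₂ F₁ F₂ E₀ E₁ E₂) (a : Bool) {x : RswCfg × RswCfg} (h1 : (rcs127Res Z V₁ F₁ E₁).Cfg x.1)
    (h2 : (rcs127Res Z V₂ F₂ E₂).Cfg x.2) (p1 : Rcs127Pin (V₁ ∩ V₂) a x.1) (p2 : Rcs127Pin (V₁ ∩ V₂) a x.2) :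
    rcs127R V₁ F₁ E₁ (rcs127Glue E₀ x) = x.1 := by
  obtain ⟨⟨S₁, D₁, O₁⟩, ⟨S₂, D₂, O₂⟩⟩ := x
  obtain ⟨a1, a2, a3⟩ := h1
  obtain ⟨b1, b2, b3⟩ := h2
  simp only [rcs127R, rcs127Glue, RswCfg.mk.injEq]
  refine ⟨?_, ?_, ?_⟩
  · ext v
    simp only [Finset.mem_inter, Finset.mem_union]
    constructor
    · rintro ⟨hv | hv, hv1⟩
      · exact hv
      · have hm : v ∈ V₁ ∩ V₂ := Finset.mem_inter.2 ⟨hv1, b1 hv⟩
        exact (p1 v hm).2 ((p2 v hm).1 hv)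
    · exact fun hv => ⟨Or.inl hv, a1 hv⟩
  · ext v
    simp only [Finset.mem_inter, Finset.mem_union]
    constructor
    · rintro ⟨hv | hv, hv1⟩
      · exact hv
      · exact absurd (b2 hv) (Finset.disjoint_left.1 h.Fd hv1)
    · exact fun hv => ⟨Or.inl hv, a2 hv⟩
  · ext v
    simp only [Finset.mem_inter, Finset.mem_union]
    constructor
    · rintro ⟨(hv | hv) | hv, hv1⟩
      · exact absurd hv1 (Finset.disjoint_left.1 h.E01 hv)
      · exact hv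
      · exact absurd (b3 hv) (Finset.disjoint_left.1 h.E12 hv1)
    · exact fun hv => ⟨Or.inl (Or.inr hv), a3 hv⟩

theorem rcs127_glue_R2 (h : Rcs127Cut Z V₁ V₂ F₁ F₂ E₀ E₁ E₂) (a : Bool) {x : RswCfg × RswCfg} (h1 : (rcs127Res Z V₁ F₁ E₁).Cfg x.1)
    (h2 : (rcs127Res Z V₂ F₂ E₂).Cfg x.2) (p1 : Rcs127Pin (V₁ ∩ V₂) a x.1) (p2 : Rcs127Pin (V₁ ∩ V₂) a x.2) :
    rcs127R V₂ F₂ E₂ (rcs127Glue E₀ x) = x.2 := by
  obtain ⟨⟨S₁, D₁, O₁⟩, ⟨S₂, D₂, O₂⟩⟩ := x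
  obtain ⟨a1, a2, a3⟩ := h1
  obtain ⟨b1, b2, b3⟩ := h2
  simp only [rcs127R, rcs127Glue, RswCfg.mk.injEq]
  refine ⟨?_, ?_, ?_⟩
  · ext v
    simp only [Finset.mem_inter, Finset.mem_union]
    constructor
    · rintro ⟨hv | hv, hv1⟩
      · have hm : v ∈ V₁ ∩ V₂ := Finset.mem_inter.2 ⟨a1 hv, hv1⟩
        exact (p2 v hm).2 ((p1 v hm).1 hv)
      · exact hv
    · exact fun hv => ⟨Or.inr hv, b1 hv⟩
  · ext v
    simp only [Finset.mem_inter, Finset.mem_union]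
    constructor
    · rintro ⟨hv | hv, hv1⟩
      · exact absurd hv1 (Finset.disjoint_left.1 h.Fd (a2 hv))
      · exact hv
    · exact fun hv => ⟨Or.inr hv, b2 hv⟩
  · ext v
    simp only [Finset.mem_inter, Finset.mem_union]
    constructor
    · rintro ⟨(hv | hv) | hv, hv1⟩
      · exact absurd hv1 (Finset.disjoint_left.1 h.E02 hv)
      · exact absurd hv1 (Finset.disjoint_left.1 h.E12 (a3 hv))
      · exact hv
    · exact fun hv => ⟨Or.inr hv, b3 hv⟩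

theorem rcs127_glue_R (h : Rcs127Cut Z V₁ V₂ F₁ F₂ E₀ E₁ E₂) {ω : RswCfg} (hω : Z.Cfg ω) (hO : E₀ ⊆ ω.O) :
    rcs127Glue E₀ (rcs127R V₁ F₁ E₁ ω, rcs127R V₂ F₂ E₂ ω) = ω := by
  obtain ⟨S, D, O⟩ := ω
  obtain ⟨a1, a2, a3⟩ := hω
  simp only [rcs127R, rcs127Glue, RswCfg.mk.injEq]
  refine ⟨?_, ?_, ?_⟩
  · rw [← Finset.inter_union_distrib_left, h.V]
    exact Finset.inter_eq_left.2 a1
  · rw [← Finset.inter_union_distrib_left, h.F]
    exact Finset.inter_eq_left.2 a2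
  · ext e
    simp only [Finset.mem_inter, Finset.mem_union]
    constructor
    · rintro ((hv | hv) | hv)
      · exact hO hv
      · exact hv.1
      · exact hv.1
    · intro hv
      have := a3 hv
      rw [← h.E] at this
      simp only [Finset.mem_union] at this
      rcases this with (h' | h') | h'
      · exact Or.inl (Or.inl h')
      · exact Or.inl (Or.inr ⟨hv, h'⟩)
      · exact Or.inr ⟨hv, h'⟩

theorem rcs127_R_cfg (Z : Rcy162Sys) (V F : Finset (ℤ × ℤ)) (E : Finset ((ℤ × ℤ) × Bool)) (ω : RswCfg) : (rcs127Res Z V F E).Cfg (rcs127R V F E ω) :=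
  ⟨Finset.inter_subset_right, Finset.inter_subset_right, Finset.inter_subset_right⟩

theorem rcs127_R_pin {V V₀ F : Finset (ℤ × ℤ)} {E : Finset ((ℤ × ℤ) × Bool)} (hV : V₀ ⊆ V) (a : Bool) (ω : RswCfg) :
    Rcs127Pin V₀ a (rcs127R V F E ω) ↔ Rcs127Pin V₀ a ω := by
  unfold Rcs127Pin
  refine forall_congr' fun v => forall_congr' fun hv => ?_
  show (v ∈ ω.S ∩ V ↔ a = true) ↔ _
  rw [Finset.mem_inter]
  have := hV hv
  tauto

theorem rcs127_glue_cfg (h : Rcs127Cut Z V₁ V₂ F₁ F₂ E₀ E₁ E₂) {x : RswCfg × RswCfg} (h1 : (rcs127Res Z V₁ F₁ E₁).Cfg x.1)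
    (h2 : (rcs127Res Z V₂ F₂ E₂).Cfg x.2) : Z.Cfg (rcs127Glue E₀ x) := by
  obtain ⟨a1, a2, a3⟩ := h1
  obtain ⟨b1, b2, b3⟩ := h2
  refine ⟨?_, ?_, ?_⟩
  · rw [← h.V]; exact Finset.union_subset_union a1 b1
  · rw [← h.F]; exact Finset.union_subset_union a2 b2
  · rw [← h.E]; exact Finset.union_subset_union (Finset.union_subset_union le_rfl a3) b3

/-- the configurations of the system which satisfy the constraint -/
noncomputable def rcs127Cf (Y : Rcy162Sys) (K : RswCfg → Prop) : Finset RswCfg := open Classical in Y.cfgs.filter K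

theorem rcs127_mem_cf {Y : Rcy162Sys} {K : RswCfg → Prop} {ω : RswCfg} : ω ∈ rcs127Cf Y K ↔ Y.Cfg ω ∧ K ω := by
  classical
  unfold rcs127Cf
  rw [Finset.mem_filter, rcy162_mem_cfgs]

/-- the sums as sums over the configurations which satisfy the constraint -/
theorem rcs127_sum_cf (Y : Rcy162Sys) (t : ℝ) (K : RswCfg → Prop) (X : RswCfg → ℝ) :
    Y.sum t K X = ∑ ω ∈ rcs127Cf Y K, Y.w t ω * X ω := by
  classical
  unfold rcs127Cf
  rw [rcy162_sum_cfgs', Finset.sum_filter]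

/-- **THE CUT, product formula** (all `t`) -/
theorem rcs127_cut (h : Rcs127Cut Z V₁ V₂ F₁ F₂ E₀ E₁ E₂) (t : ℝ) (a : Bool) (K₁ K₂ : RswCfg → Prop) (X₁ X₂ : RswCfg → ℝ) :
    Z.sum t (fun ω => (E₀ ⊆ ω.O ∧ Rcs127Pin (V₁ ∩ V₂) a ω) ∧ K₁ (rcs127R V₁ F₁ E₁ ω) ∧ K₂ (rcs127R V₂ F₂ E₂ ω))
        (fun ω => X₁ (rcs127R V₁ F₁ E₁ ω) * X₂ (rcs127R V₂ F₂ E₂ ω)) =
      t ^ E₀.card * (rcs127Res Z V₁ F₁ E₁).sum t (fun ω => Rcs127Pin (V₁ ∩ V₂) a ω ∧ K₁ ω) X₁ *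
        (rcs127Res Z V₂ F₂ E₂).sum t (fun ω => Rcs127Pin (V₁ ∩ V₂) a ω ∧ K₂ ω) X₂ := by
  classical
  rw [rcs127_sum_cf, rcs127_sum_cf, rcs127_sum_cf, mul_assoc, Finset.sum_mul_sum, Finset.mul_sum]
  simp only [Finset.mul_sum]
  rw [← Finset.sum_product']
  refine Finset.sum_nbij' (fun ω => (rcs127R V₁ F₁ E₁ ω, rcs127R V₂ F₂ E₂ ω)) (rcs127Glue E₀) ?_ ?_ ?_ ?_ ?_
  · intro ω hω
    obtain ⟨h1, ⟨h2, h3⟩, h4, h5⟩ := rcs127_mem_cf.1 hω
    refine Finset.mem_product.2 ⟨rcs127_mem_cf.2 ⟨rcs127_R_cfg _ _ _ _ _, ?_, h4⟩, rcs127_mem_cf.2 ⟨rcs127_R_cfg _ _ _ _ _, ?_, h5⟩⟩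
    · exact (rcs127_R_pin Finset.inter_subset_left a ω).2 h3
    · exact (rcs127_R_pin Finset.inter_subset_right a ω).2 h3
  · intro x hx
    obtain ⟨g1, g2⟩ := Finset.mem_product.1 hx
    obtain ⟨c1, p1, k1⟩ := rcs127_mem_cf.1 g1
    obtain ⟨c2, p2, k2⟩ := rcs127_mem_cf.1 g2
    refine rcs127_mem_cf.2 ⟨rcs127_glue_cfg h c1 c2, ⟨?_, ?_⟩, ?_, ?_⟩
    · exact fun e he => Finset.mem_union.2 (Or.inl (Finset.mem_union.2 (Or.inl he)))
    · intro v hv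
      show v ∈ x.1.S ∪ x.2.S ↔ _
      rw [Finset.mem_union]
      have q1 := p1 v hv
      have q2 := p2 v hv
      tauto
    · rw [rcs127_glue_R1 h a c1 c2 p1 p2]; exact k1
    · rw [rcs127_glue_R2 h a c1 c2 p1 p2]; exact k2
  · intro ω hω
    obtain ⟨h1, ⟨h2, h3⟩, h4, h5⟩ := rcs127_mem_cf.1 hω
    exact rcs127_glue_R h h1 h2
  · intro x hx
    obtain ⟨g1, g2⟩ := Finset.mem_product.1 hx
    obtain ⟨c1, p1, k1⟩ := rcs127_mem_cf.1 g1
    obtain ⟨c2, p2, k2⟩ := rcs127_mem_cf.1 g2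
    exact Prod.ext (rcs127_glue_R1 h a c1 c2 p1 p2) (rcs127_glue_R2 h a c1 c2 p1 p2)
  · intro ω hω
    obtain ⟨h1, ⟨h2, h3⟩, h4, h5⟩ := rcs127_mem_cf.1 hω
    rw [rcs127_cut_w h t a h2 h3]
    ring

end cut

/-! ## 6. THE SEARCH: the record of an exploration, its cut, the sum over the records      (R291 `dis_dec` / `am_search`, abstract) -/

/-- **the record**: the faces joined to `A₀` by dual paths which cross no good edge pair of colour `a` -/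
noncomputable def rcs127Rec (Z : Rcy162Sys) (a : Bool) (A₀ : Finset (ℤ × ℤ)) (ω : RswCfg) : Finset (ℤ × ℤ) :=
  open Classical in Z.Fc.filter (fun g => ∃ f ∈ A₀, ReflTransGen (Z.Step a ω) f g)

theorem rcs127_mem_rec {Z : Rcy162Sys} {a : Bool} {A₀ : Finset (ℤ × ℤ)} {ω : RswCfg} {g : ℤ × ℤ} :
    g ∈ rcs127Rec Z a A₀ ω ↔ g ∈ Z.Fc ∧ ∃ f ∈ A₀, ReflTransGen (Z.Step a ω) f g := by
  classical
  unfold rcs127Rec
  rw [Finset.mem_filter]

/-- the edge pairs with both faces in `J` -/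
def rcs127E1 (Z : Rcy162Sys) (J : Finset (ℤ × ℤ)) : Finset ((ℤ × ℤ) × Bool) := Z.E.filter (fun e => Z.f0 e ∈ J ∧ Z.f1 e ∈ J)

/-- the edge pairs with no face in `J` -/
def rcs127E2 (Z : Rcy162Sys) (J : Finset (ℤ × ℤ)) : Finset ((ℤ × ℤ) × Bool) := Z.E.filter (fun e => Z.f0 e ∉ J ∧ Z.f1 e ∉ J)

/-- the edge pairs with exactly one face in `J` -/
def rcs127E0 (Z : Rcy162Sys) (J : Finset (ℤ × ℤ)) : Finset ((ℤ × ℤ) × Bool) := Z.E.filter (fun e => ¬ (Z.f0 e ∈ J ↔ Z.f1 e ∈ J))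

/-- the endpoints of the edge pairs of the cut -/
def rcs127V0 (Z : Rcy162Sys) (J : Finset (ℤ × ℤ)) : Finset (ℤ × ℤ) := (rcs127E0 Z J).image Z.p0 ∪ (rcs127E0 Z J).image Z.p1

/-- the sites of the explored part -/
def rcs127V1 (Z : Rcy162Sys) (J : Finset (ℤ × ℤ)) : Finset (ℤ × ℤ) := ((rcs127E1 Z J).image Z.p0 ∪ (rcs127E1 Z J).image Z.p1) ∪ rcs127V0 Z J

/-- the sites of the unexplored part -/
def rcs127V2 (Z : Rcy162Sys) (J : Finset (ℤ × ℤ)) : Finset (ℤ × ℤ) := (Z.V \ rcs127V1 Z J) ∪ rcs127V0 Z J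

/-- the explored system -/
def rcs127In (Z : Rcy162Sys) (J : Finset (ℤ × ℤ)) : Rcy162Sys := rcs127Res Z (rcs127V1 Z J) J (rcs127E1 Z J)

/-- **the unexplored system** -/
def rcs127Out (Z : Rcy162Sys) (J : Finset (ℤ × ℤ)) : Rcy162Sys := rcs127Res Z (rcs127V2 Z J) (Z.Fc \ J) (rcs127E2 Z J)

/-- reading the explored part -/
def rcs127RIn (Z : Rcy162Sys) (J : Finset (ℤ × ℤ)) (ω : RswCfg) : RswCfg := rcs127R (rcs127V1 Z J) J (rcs127E1 Z J) ω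

/-- reading the unexplored part -/
def rcs127ROut (Z : Rcy162Sys) (J : Finset (ℤ × ℤ)) (ω : RswCfg) : RswCfg := rcs127R (rcs127V2 Z J) (Z.Fc \ J) (rcs127E2 Z J) ω

/-- **admissible record** (the only geometry the search needs): a site shared by an explored and an unexplored edge pair is an endpoint of the cut -/
structure Rcs127Adm (Z : Rcy162Sys) (A₀ J : Finset (ℤ × ℤ)) : Prop where
  sub0 : A₀ ⊆ J
  subF : J ⊆ Z.Fc
  geo : ∀ e ∈ rcs127E2 Z J, (Z.p0 e ∈ rcs127V1 Z J → Z.p0 e ∈ rcs127V0 Z J) ∧ (Z.p1 e ∈ rcs127V1 Z J → Z.p1 e ∈ rcs127V0 Z J)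

/-- `J` is closed under the steps across the pairs which do not belong to the system (these are never good) -/
def Rcs127Ph (Z : Rcy162Sys) (J : Finset (ℤ × ℤ)) : Prop :=
  ∀ e, e ∉ Z.E → (Z.f0 e ∈ J → Z.f1 e ∈ Z.Fc → Z.f1 e ∈ J) ∧ (Z.f1 e ∈ J → Z.f0 e ∈ Z.Fc → Z.f0 e ∈ J)

section search

variable {Z : Rcy162Sys} {A₀ J : Finset (ℤ × ℤ)}

theorem rcs127_mem_E0 {e : (ℤ × ℤ) × Bool} : e ∈ rcs127E0 Z J ↔ e ∈ Z.E ∧ ¬ (Z.f0 e ∈ J ↔ Z.f1 e ∈ J) := by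
  unfold rcs127E0; rw [Finset.mem_filter]

theorem rcs127_mem_E1 {e : (ℤ × ℤ) × Bool} : e ∈ rcs127E1 Z J ↔ e ∈ Z.E ∧ Z.f0 e ∈ J ∧ Z.f1 e ∈ J := by
  unfold rcs127E1; rw [Finset.mem_filter]

theorem rcs127_mem_E2 {e : (ℤ × ℤ) × Bool} : e ∈ rcs127E2 Z J ↔ e ∈ Z.E ∧ Z.f0 e ∉ J ∧ Z.f1 e ∉ J := by
  unfold rcs127E2; rw [Finset.mem_filter]

theorem rcs127_V0_sub_V1 : rcs127V0 Z J ⊆ rcs127V1 Z J := Finset.subset_union_right

theorem rcs127_V0_sub_V2 : rcs127V0 Z J ⊆ rcs127V2 Z J := Finset.subset_union_right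

theorem rcs127_p_V0 {e : (ℤ × ℤ) × Bool} (he : e ∈ rcs127E0 Z J) : Z.p0 e ∈ rcs127V0 Z J ∧ Z.p1 e ∈ rcs127V0 Z J :=
  ⟨Finset.mem_union.2 (Or.inl (Finset.mem_image_of_mem _ he)), Finset.mem_union.2 (Or.inr (Finset.mem_image_of_mem _ he))⟩

theorem rcs127_p_V1 {e : (ℤ × ℤ) × Bool} (he : e ∈ rcs127E1 Z J) : Z.p0 e ∈ rcs127V1 Z J ∧ Z.p1 e ∈ rcs127V1 Z J :=
  ⟨Finset.mem_union.2 (Or.inl (Finset.mem_union.2 (Or.inl (Finset.mem_image_of_mem _ he)))),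
    Finset.mem_union.2 (Or.inl (Finset.mem_union.2 (Or.inr (Finset.mem_image_of_mem _ he))))⟩

theorem rcs127_V0_sub (hw : Z.WF) : rcs127V0 Z J ⊆ Z.V := by
  intro v hv
  rcases Finset.mem_union.1 hv with h | h
  · obtain ⟨e, he, rfl⟩ := Finset.mem_image.1 h
    exact hw.p0 e (rcs127_mem_E0.1 he).1
  · obtain ⟨e, he, rfl⟩ := Finset.mem_image.1 h
    exact hw.p1 e (rcs127_mem_E0.1 he).1

theorem rcs127_V1_sub (hw : Z.WF) : rcs127V1 Z J ⊆ Z.V := by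
  intro v hv
  rcases Finset.mem_union.1 hv with h | h
  · rcases Finset.mem_union.1 h with h | h
    · obtain ⟨e, he, rfl⟩ := Finset.mem_image.1 h
      exact hw.p0 e (rcs127_mem_E1.1 he).1
    · obtain ⟨e, he, rfl⟩ := Finset.mem_image.1 h
      exact hw.p1 e (rcs127_mem_E1.1 he).1
  · exact rcs127_V0_sub hw h

theorem rcs127_V12 : rcs127V1 Z J ∩ rcs127V2 Z J = rcs127V0 Z J := by
  ext v
  unfold rcs127V2
  simp only [Finset.mem_inter, Finset.mem_union, Finset.mem_sdiff]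
  constructor
  · rintro ⟨h1, h2 | h2⟩
    · exact absurd h1 h2.2
    · exact h2
  · exact fun h => ⟨rcs127_V0_sub_V1 h, Or.inr h⟩

/-- an admissible record is a cut -/
theorem rcs127_adm_cut (hw : Z.WF) (h : Rcs127Adm Z A₀ J) :
    Rcs127Cut Z (rcs127V1 Z J) (rcs127V2 Z J) J (Z.Fc \ J) (rcs127E0 Z J) (rcs127E1 Z J) (rcs127E2 Z J) where
  V := by
    ext v
    unfold rcs127V2
    simp only [Finset.mem_union, Finset.mem_sdiff]
    constructor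
    · rintro (h1 | ⟨h1, _⟩ | h1)
      · exact rcs127_V1_sub hw h1
      · exact h1
      · exact rcs127_V0_sub hw h1
    · intro hv
      by_cases h1 : v ∈ rcs127V1 Z J
      · exact Or.inl h1
      · exact Or.inr (Or.inl ⟨hv, h1⟩)
  F := Finset.union_sdiff_of_subset h.subF
  Fd := Finset.disjoint_sdiff
  E := by
    ext e
    simp only [Finset.mem_union, rcs127_mem_E0, rcs127_mem_E1, rcs127_mem_E2]
    constructor
    · rintro ((h1 | h1) | h1) <;> exact h1.1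
    · intro he
      by_cases h0 : Z.f0 e ∈ J <;> by_cases h1 : Z.f1 e ∈ J <;> simp [he, h0, h1]
  E01 := Finset.disjoint_left.2 fun e h0 h1 => (rcs127_mem_E0.1 h0).2 (by have := (rcs127_mem_E1.1 h1).2; tauto)
  E02 := Finset.disjoint_left.2 fun e h0 h1 => (rcs127_mem_E0.1 h0).2 (by have := (rcs127_mem_E2.1 h1).2; tauto)
  E12 := Finset.disjoint_left.2 fun e h0 h1 => (rcs127_mem_E2.1 h1).2.1 (rcs127_mem_E1.1 h0).2.1
  p0 := fun e he => by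
    rw [rcs127_V12]
    exact rcs127_p_V0 he
  p1 := fun e he => ⟨(rcs127_p_V1 he).1, (rcs127_p_V1 he).2, (rcs127_mem_E1.1 he).2.1, (rcs127_mem_E1.1 he).2.2⟩
  p2 := fun e he => by
    obtain ⟨h1, h2, h3⟩ := rcs127_mem_E2.1 he
    refine ⟨?_, ?_, Finset.mem_sdiff.2 ⟨hw.f0 e h1, h2⟩, Finset.mem_sdiff.2 ⟨hw.f1 e h1, h3⟩⟩
    · by_cases c : Z.p0 e ∈ rcs127V1 Z J
      · exact rcs127_V0_sub_V2 ((h.geo e he).1 c)
      · exact Finset.mem_union.2 (Or.inl (Finset.mem_sdiff.2 ⟨hw.p0 e h1, c⟩))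
    · by_cases c : Z.p1 e ∈ rcs127V1 Z J
      · exact rcs127_V0_sub_V2 ((h.geo e he).2 c)
      · exact Finset.mem_union.2 (Or.inl (Finset.mem_sdiff.2 ⟨hw.p1 e h1, c⟩))

/-- for a pair with both faces in `J`: good in the system iff good in the explored system -/
theorem rcs127_good_in (a : Bool) {ω : RswCfg} (hω : ω.O ⊆ Z.E) {e : (ℤ × ℤ) × Bool} (h0 : Z.f0 e ∈ J) (h1 : Z.f1 e ∈ J) :
    (rcs127In Z J).Good a (rcs127RIn Z J ω) e ↔ Z.Good a ω e := by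
  show (e ∈ ω.O ∩ rcs127E1 Z J ∧ (Z.p0 e ∈ ω.S ∩ rcs127V1 Z J ↔ a = true) ∧ (Z.p1 e ∈ ω.S ∩ rcs127V1 Z J ↔ a = true)) ↔
    (e ∈ ω.O ∧ (Z.p0 e ∈ ω.S ↔ a = true) ∧ (Z.p1 e ∈ ω.S ↔ a = true))
  simp only [Finset.mem_inter]
  constructor
  · rintro ⟨⟨g1, g2⟩, g3, g4⟩
    have := rcs127_p_V1 g2
    exact ⟨g1, by tauto, by tauto⟩
  · rintro ⟨g1, g3, g4⟩
    have g2 : e ∈ rcs127E1 Z J := rcs127_mem_E1.2 ⟨hω g1, h0, h1⟩
    have := rcs127_p_V1 g2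
    exact ⟨⟨g1, g2⟩, by tauto, by tauto⟩

/-- steps between faces of `J` -/
theorem rcs127_step_in (hJ : J ⊆ Z.Fc) (a : Bool) {ω : RswCfg} (hω : ω.O ⊆ Z.E) {f g : ℤ × ℤ} (hf : f ∈ J) (hg : g ∈ J) :
    (rcs127In Z J).Step a (rcs127RIn Z J ω) f g ↔ Z.Step a ω f g := by
  constructor
  · rintro ⟨_, _, e, he, hn⟩
    refine ⟨hJ hf, hJ hg, e, he, fun hh => hn ?_⟩
    have he' : ((f = Z.f0 e ∧ g = Z.f1 e) ∨ (g = Z.f0 e ∧ f = Z.f1 e)) := he
    rcases he' with ⟨e1, e2⟩ | ⟨e1, e2⟩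
    · exact (rcs127_good_in a hω (e1 ▸ hf) (e2 ▸ hg)).2 hh
    · exact (rcs127_good_in a hω (e1 ▸ hg) (e2 ▸ hf)).2 hh
  · rintro ⟨_, _, e, he, hn⟩
    refine ⟨hf, hg, e, he, fun hh => hn ?_⟩
    rcases he with ⟨e1, e2⟩ | ⟨e1, e2⟩
    · exact (rcs127_good_in a hω (e1 ▸ hf) (e2 ▸ hg)).1 hh
    · exact (rcs127_good_in a hω (e1 ▸ hg) (e2 ▸ hf)).1 hh

/-- **the event `record = J`** is the cut event and an event of the explored part -/
theorem rcs127_rec_iff (hw : Z.WF) (h : Rcs127Adm Z A₀ J) (a : Bool) {ω : RswCfg} (hω : Z.Cfg ω) :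
    rcs127Rec Z a A₀ ω = J ↔ (rcs127E0 Z J ⊆ ω.O ∧ Rcs127Pin (rcs127V0 Z J) a ω) ∧
      (Rcs127Ph Z J ∧ rcs127Rec (rcs127In Z J) a A₀ (rcs127RIn Z J ω) = J) := by
  have hO := hω.2.2
  constructor
  · intro hr
    have reach : ∀ {f g : ℤ × ℤ}, f ∈ J → Z.Step a ω f g → g ∈ J := by
      intro f g hf hs
      rw [← hr] at hf ⊢
      obtain ⟨_, f0, hf0, hp⟩ := rcs127_mem_rec.1 hf
      exact rcs127_mem_rec.2 ⟨hs.2.1, f0, hf0, hp.tail hs⟩
    have good : ∀ e ∈ rcs127E0 Z J, Z.Good a ω e := by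
      intro e he
      obtain ⟨h1, h2⟩ := rcs127_mem_E0.1 he
      by_contra hn
      by_cases c : Z.f0 e ∈ J
      · exact h2 ⟨fun _ => reach c ⟨hw.f0 e h1, hw.f1 e h1, e, Or.inl ⟨rfl, rfl⟩, hn⟩, fun _ => c⟩
      · by_cases c' : Z.f1 e ∈ J
        · exact c (reach c' ⟨hw.f1 e h1, hw.f0 e h1, e, Or.inr ⟨rfl, rfl⟩, hn⟩)
        · exact h2 ⟨fun x => absurd x c, fun x => absurd x c'⟩
    refine ⟨⟨fun e he => (good e he).1, ?_⟩, ?_, ?_⟩
    · intro v hv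
      rcases Finset.mem_union.1 hv with h' | h'
      · obtain ⟨e, he, rfl⟩ := Finset.mem_image.1 h'
        exact (good e he).2.1
      · obtain ⟨e, he, rfl⟩ := Finset.mem_image.1 h'
        exact (good e he).2.2
    · intro e he
      have hn : ¬ Z.Good a ω e := fun hh => he (hO hh.1)
      exact ⟨fun c c' => reach c ⟨h.subF c, c', e, Or.inl ⟨rfl, rfl⟩, hn⟩, fun c c' => reach c ⟨h.subF c, c', e, Or.inr ⟨rfl, rfl⟩, hn⟩⟩
    · ext g
      rw [rcs127_mem_rec]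
      constructor
      · exact fun x => x.1
      · intro hg
        refine ⟨hg, ?_⟩
        have hg' := hg
        rw [← hr] at hg'
        obtain ⟨_, f0, hf0, hp⟩ := rcs127_mem_rec.1 hg'
        refine ⟨f0, hf0, ?_⟩
        have key : ∀ g, ReflTransGen (Z.Step a ω) f0 g → g ∈ J ∧ ReflTransGen ((rcs127In Z J).Step a (rcs127RIn Z J ω)) f0 g := by
          intro g hp
          induction hp with
          | refl => exact ⟨h.sub0 hf0, ReflTransGen.refl⟩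
          | @tail b c _ hbc ih =>
            have hc := reach ih.1 hbc
            exact ⟨hc, ih.2.tail ((rcs127_step_in h.subF a hO ih.1 hc).2 hbc)⟩
        exact (key g hp).2
  · rintro ⟨⟨c1, c2⟩, ph, hr⟩
    ext g
    rw [rcs127_mem_rec]
    constructor
    · rintro ⟨-, f0, hf0, hp⟩
      induction hp with
      | refl => exact h.sub0 hf0
      | @tail b c _ hbc ih =>
        obtain ⟨hb, hc, e, he, hn⟩ := hbc
        by_contra hcJ
        by_cases heE : e ∈ Z.E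
        · have he0 : e ∈ rcs127E0 Z J := by
            refine rcs127_mem_E0.2 ⟨heE, ?_⟩
            rcases he with ⟨e1, e2⟩ | ⟨e1, e2⟩
            · rw [← e1, ← e2]; exact fun x => hcJ (x.1 ih)
            · rw [← e1, ← e2]; exact fun x => hcJ (x.2 ih)
          exact hn ⟨c1 he0, c2 _ (rcs127_p_V0 he0).1, c2 _ (rcs127_p_V0 he0).2⟩
        · rcases he with ⟨e1, e2⟩ | ⟨e1, e2⟩
          · exact hcJ (e2 ▸ (ph e heE).1 (e1 ▸ ih) (e2 ▸ hc))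
          · exact hcJ (e1 ▸ (ph e heE).2 (e2 ▸ ih) (e1 ▸ hc))
    · intro hg
      refine ⟨h.subF hg, ?_⟩
      have hg' := hg
      rw [← hr] at hg'
      obtain ⟨-, f0, hf0, hp⟩ := rcs127_mem_rec.1 hg'
      refine ⟨f0, hf0, ?_⟩
      clear hg hg'
      induction hp with
      | refl => exact ReflTransGen.refl
      | @tail b c _ hbc ih => exact ih.tail ((rcs127_step_in h.subF a hO hbc.1 hbc.2.1).1 hbc)

/-- the constant of a record: cut pairs and explored part -/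
noncomputable def rcs127C (Z : Rcy162Sys) (t : ℝ) (a : Bool) (A₀ J : Finset (ℤ × ℤ)) (K₁ : RswCfg → Prop) : ℝ :=
  t ^ (rcs127E0 Z J).card * (rcs127In Z J).sum t
    (fun ω => Rcs127Pin (rcs127V0 Z J) a ω ∧ (K₁ ω ∧ Rcs127Ph Z J ∧ rcs127Rec (rcs127In Z J) a A₀ ω = J)) (fun _ => 1)

theorem rcs127_C_nonneg (Z : Rcy162Sys) {t : ℝ} (h0 : 0 ≤ t) (h1 : t ≤ 1) (a : Bool) (A₀ J : Finset (ℤ × ℤ)) (K₁ : RswCfg → Prop) :
    0 ≤ rcs127C Z t a A₀ J K₁ :=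
  mul_nonneg (pow_nonneg h0 _) (rcy162_sum_nonneg _ _ h0 h1 fun _ => zero_le_one)

/-- **THE SEARCH, one record**: on `record = J` the unexplored part has the law of the unexplored system with `s = a` on the endpoints of the cut -/
theorem rcs127_search_one (hw : Z.WF) (h : Rcs127Adm Z A₀ J) (t : ℝ) (a : Bool) (K₁ K₂ : RswCfg → Prop) (X₂ : RswCfg → ℝ) :
    Z.sum t (fun ω => (K₁ (rcs127RIn Z J ω) ∧ K₂ (rcs127ROut Z J ω)) ∧ rcs127Rec Z a A₀ ω = J) (fun ω => X₂ (rcs127ROut Z J ω)) =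
      rcs127C Z t a A₀ J K₁ * (rcs127Out Z J).sum t (fun ω => Rcs127Pin (rcs127V0 Z J) a ω ∧ K₂ ω) X₂ := by
  have cut := rcs127_cut (rcs127_adm_cut hw h) t a (fun ω => K₁ ω ∧ Rcs127Ph Z J ∧ rcs127Rec (rcs127In Z J) a A₀ ω = J) K₂ (fun _ => 1) X₂
  rw [rcs127_V12] at cut
  simp only [one_mul] at cut
  unfold rcs127C
  refine Eq.trans ?_ cut
  refine rcy162_sum_congr_K Z t (fun ω hω => ?_) _
  have e := rcs127_rec_iff hw h a hω
  show (K₁ (rcs127RIn Z J ω) ∧ K₂ (rcs127ROut Z J ω)) ∧ rcs127Rec Z a A₀ ω = J ↔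
    (rcs127E0 Z J ⊆ ω.O ∧ Rcs127Pin (rcs127V0 Z J) a ω) ∧
      (K₁ (rcs127RIn Z J ω) ∧ Rcs127Ph Z J ∧ rcs127Rec (rcs127In Z J) a A₀ (rcs127RIn Z J ω) = J) ∧ K₂ (rcs127ROut Z J ω)
  rw [e]
  tauto

/-- an indicator in the observable = an event in the constraint (any decidability instance) -/
theorem rcs127_sum_ite (Y : Rcy162Sys) (t : ℝ) (K K' : RswCfg → Prop) [DecidablePred K'] (X : RswCfg → ℝ) :
    Y.sum t K (fun ω => if K' ω then X ω else 0) = Y.sum t (fun ω => K ω ∧ K' ω) X := by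
  rw [rcy162_sum_and]
  refine congrArg _ (funext fun ω => ?_)
  by_cases h : K' ω <;> simp [h]

open Classical in
/-- **THE SEARCH, sum over the records** (R291 `cyw_search`, abstract): if in every unexplored system the observable `X ≥ 0` has mean `≥ 1/c`, then the event `B`, which forces the record into the family `𝒥`, has mass `≤ c N(X)` -/
theorem rcs127_search (hw : Z.WF) {t : ℝ} (h0 : 0 ≤ t) (h1 : t ≤ 1) (a : Bool) (𝒥 : Finset (Finset (ℤ × ℤ))) (h𝒥 : ∀ J ∈ 𝒥, Rcs127Adm Z A₀ J)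
    (K K₁ K₂ : RswCfg → Prop) (hK : ∀ J ∈ 𝒥, ∀ ω, Z.Cfg ω → (K ω ↔ K₁ (rcs127RIn Z J ω) ∧ K₂ (rcs127ROut Z J ω)))
    (B : RswCfg → Prop) (hB : ∀ ω, Z.Cfg ω → K ω → B ω → rcs127Rec Z a A₀ ω ∈ 𝒥)
    (X : RswCfg → ℝ) (hX0 : ∀ ω, 0 ≤ X ω) (hX : ∀ J ∈ 𝒥, ∀ ω, X (rcs127ROut Z J ω) = X ω) {c : ℝ} (hc : 0 ≤ c)
    (hper : ∀ J ∈ 𝒥, (rcs127Out Z J).sum t (fun ω => Rcs127Pin (rcs127V0 Z J) a ω ∧ K₂ ω) (fun _ => 1) ≤
      c * (rcs127Out Z J).sum t (fun ω => Rcs127Pin (rcs127V0 Z J) a ω ∧ K₂ ω) X) :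
    Z.sum t K (fun ω => if B ω then 1 else 0) ≤ c * Z.sum t K X := by
  -- one record
  have one : ∀ J ∈ 𝒥, ∀ Y₂ : RswCfg → ℝ, (∀ ω, Y₂ (rcs127ROut Z J ω) = Y₂ ω) →
      Z.sum t K (fun ω => if rcs127Rec Z a A₀ ω = J then Y₂ ω else 0) =
        rcs127C Z t a A₀ J K₁ * (rcs127Out Z J).sum t (fun ω => Rcs127Pin (rcs127V0 Z J) a ω ∧ K₂ ω) Y₂ := by
    intro J hJ Y₂ hY
    rw [← rcs127_search_one hw (h𝒥 J hJ) t a K₁ K₂ Y₂, rcs127_sum_ite]
    simp only [hY]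
    exact rcy162_sum_congr_K Z t (fun ω hω => by rw [hK J hJ ω hω]) _
  have s1 : Z.sum t K (fun ω => if B ω then 1 else 0) ≤ Z.sum t K (fun ω => ∑ J ∈ 𝒥, if rcs127Rec Z a A₀ ω = J then (1 : ℝ) else 0) := by
    refine rcy162_sum_mono' Z K h0 h1 fun ω hω hwt => ?_
    rw [Finset.sum_ite_eq]
    by_cases hb : B ω
    · rw [if_pos hb, if_pos (hB ω hω (rcy162_K_of_wt Z hwt) hb)]
    · rw [if_neg hb]
      split_ifs <;> norm_num
  have s2 : Z.sum t K (fun ω => ∑ J ∈ 𝒥, if rcs127Rec Z a A₀ ω = J then X ω else 0) ≤ Z.sum t K X := by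
    refine rcy162_sum_mono Z K h0 h1 fun ω => ?_
    rw [Finset.sum_ite_eq]
    split_ifs
    · exact le_rfl
    · exact hX0 ω
  rw [rcy162_sum_fsum] at s1 s2
  calc Z.sum t K (fun ω => if B ω then 1 else 0)
      ≤ ∑ J ∈ 𝒥, Z.sum t K (fun ω => if rcs127Rec Z a A₀ ω = J then (1 : ℝ) else 0) := s1
    _ ≤ ∑ J ∈ 𝒥, c * Z.sum t K (fun ω => if rcs127Rec Z a A₀ ω = J then X ω else 0) := by
        refine Finset.sum_le_sum fun J hJ => ?_
        rw [one J hJ (fun _ => 1) (fun _ => rfl), one J hJ X (hX J hJ), mul_left_comm]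
        exact mul_le_mul_of_nonneg_left (hper J hJ) (rcs127_C_nonneg Z h0 h1 a A₀ J K₁)
    _ = c * ∑ J ∈ 𝒥, Z.sum t K (fun ω => if rcs127Rec Z a A₀ ω = J then X ω else 0) := by rw [Finset.mul_sum]
    _ ≤ c * Z.sum t K X := mul_le_mul_of_nonneg_left s2 hc

end search

/-! ## 7. THE KERNEL AND THE TOWER      (R291 `clKer`, `cp_tower`): a test which reads statuses of `s` enters a search in the statuses of `d` as a PAIR function -/

/-- sums over the subsets of `E` of a product of one-pair factors against an observable which reads `O ∩ T` only -/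
theorem rcs127_sum_part {α : Type} [DecidableEq α] (E T : Finset α) (hT : T ⊆ E) (h : α → Prop → ℝ) (φ : Finset α → ℝ) (hφ : ∀ O, φ O = φ (O ∩ T)) :
    ∑ O ∈ E.powerset, (∏ e ∈ E, h e (e ∈ O)) * φ O =
      (∏ e ∈ E \ T, (h e True + h e False)) * ∑ O ∈ T.powerset, (∏ e ∈ T, h e (e ∈ O)) * φ O := by
  rw [am_sum_powerset_split E T hT, ← am_sum_powerset_prod (E \ T) h, Finset.sum_mul]
  refine Finset.sum_congr rfl fun O₁ hO₁ => ?_
  have h1 := Finset.mem_powerset.1 hO₁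
  rw [Finset.mul_sum]
  refine Finset.sum_congr rfl fun O₂ hO₂ => ?_
  have h2 := Finset.mem_powerset.1 hO₂
  have e1 : ∏ y ∈ E \ T, h y (y ∈ O₁ ∪ O₂) = ∏ y ∈ E \ T, h y (y ∈ O₁) :=
    Finset.prod_congr rfl fun y hy => by
      have : (y ∈ O₁ ∪ O₂) = (y ∈ O₁) := propext (by
        rw [Finset.mem_union]
        exact ⟨fun hh => hh.elim id fun h3 => absurd (h2 h3) (Finset.mem_sdiff.1 hy).2, Or.inl⟩)
      rw [this]
  have e2 : ∏ y ∈ T, h y (y ∈ O₁ ∪ O₂) = ∏ y ∈ T, h y (y ∈ O₂) :=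
    Finset.prod_congr rfl fun y hy => by
      have : (y ∈ O₁ ∪ O₂) = (y ∈ O₂) := propext (by
        rw [Finset.mem_union]
        exact ⟨fun hh => hh.elim (fun h3 => absurd hy (Finset.mem_sdiff.1 (h1 h3)).2) id, Or.inr⟩)
      rw [this]
  have e3 : φ (O₁ ∪ O₂) = φ O₂ := by
    rw [hφ (O₁ ∪ O₂), hφ O₂]
    congr 1
    ext v
    have a1 := @h1 v
    have a2 := @h2 v
    simp only [Finset.mem_inter, Finset.mem_union, Finset.mem_sdiff] at a1 ⊢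
    tauto
  rw [← Finset.prod_sdiff hT, e1, e2, e3, mul_assoc]

/-- **the kernel**: conditional expectation of `F` given the pair `(s, d)`; the statuses of the pairs of `T` are drawn with the table `clKw` (`Y` enters through its four maps only) -/
noncomputable def rcs127Ker (Y : Rcy162Sys) (t : ℝ) (T : Finset ((ℤ × ℤ) × Bool)) (F : RswCfg → ℝ) (S D : Finset (ℤ × ℤ)) : ℝ :=
  open Classical in
  ∑ O ∈ T.powerset, (∏ e ∈ T, clKw t (Y.p0 e ∈ S ↔ Y.p1 e ∈ S) (Y.f0 e ∈ D ↔ Y.f1 e ∈ D) (e ∈ O)) * F ⟨S, D, O⟩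

theorem rcs127_ker_nonneg (Y : Rcy162Sys) {t : ℝ} (h0 : 0 ≤ t) (h1 : t ≤ 1) (T : Finset ((ℤ × ℤ) × Bool)) {F : RswCfg → ℝ} (hF : ∀ ω, 0 ≤ F ω)
    (S D : Finset (ℤ × ℤ)) : 0 ≤ rcs127Ker Y t T F S D :=
  Finset.sum_nonneg fun O _ => mul_nonneg (Finset.prod_nonneg fun e _ => cp_kw_nonneg h0 h1 _ _ _) (hF _)

/-- given the pair, the sum over the statuses -/
theorem rcs127_ker_sum (Y : Rcy162Sys) (t : ℝ) {T : Finset ((ℤ × ℤ) × Bool)} (hT : T ⊆ Y.E) (F : RswCfg → ℝ)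
    (hF : ∀ S D O, F ⟨S, D, O⟩ = F ⟨S, D, O ∩ T⟩) (S D : Finset (ℤ × ℤ)) :
    ∑ O ∈ Y.E.powerset, Y.w t ⟨S, D, O⟩ * F ⟨S, D, O⟩ = (∑ O ∈ Y.E.powerset, Y.w t ⟨S, D, O⟩) * rcs127Ker Y t T F S D := by
  classical
  set h : (ℤ × ℤ) × Bool → Prop → ℝ := fun e p => clCellW t (Y.p0 e ∈ S ↔ Y.p1 e ∈ S) (Y.f0 e ∈ D ↔ Y.f1 e ∈ D) p with hh
  have hw : ∀ O, Y.w t ⟨S, D, O⟩ = ∏ e ∈ Y.E, h e (e ∈ O) := fun O => by
    unfold Rcy162Sys.w
    refine Finset.prod_congr rfl fun e _ => ?_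
    simp only [hh]
    unfold Rcy162Sys.fac clCellW
    by_cases c1 : e ∈ O <;> by_cases c2 : (Y.p0 e ∈ S ↔ Y.p1 e ∈ S) <;> by_cases c3 : (Y.f0 e ∈ D ↔ Y.f1 e ∈ D) <;>
      simp only [c1, c2, c3, if_true, if_false]
  have a := rcs127_sum_part Y.E T hT h (fun O => F ⟨S, D, O⟩) (fun O => hF S D O)
  have b := rcs127_sum_part Y.E T hT h (fun _ => 1) (fun _ => rfl)
  simp only [mul_one] at b
  simp only [hw]
  rw [a, b, mul_assoc]
  congr 1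
  rw [am_sum_powerset_prod T h]
  unfold rcs127Ker
  rw [Finset.mul_sum]
  refine Finset.sum_congr rfl fun O _ => ?_
  rw [← mul_assoc, ← Finset.prod_mul_distrib]
  congr 1
  refine Finset.prod_congr rfl fun e _ => ?_
  rw [hh]
  simp only
  unfold clCellW clKw
  by_cases c1 : e ∈ O <;> by_cases c2 : (Y.p0 e ∈ S ↔ Y.p1 e ∈ S) <;> by_cases c3 : (Y.f0 e ∈ D ↔ Y.f1 e ∈ D) <;>
    simp only [c1, c2, c3, if_true, if_false] <;> ring

/-- **TOWER**: a status observable may be replaced by its kernel -/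
theorem rcs127_tower (Y : Rcy162Sys) (t : ℝ) {T : Finset ((ℤ × ℤ) × Bool)} (hT : T ⊆ Y.E) (κ : Finset (ℤ × ℤ) → Finset (ℤ × ℤ) → Prop) (F : RswCfg → ℝ)
    (hF : ∀ S D O, F ⟨S, D, O⟩ = F ⟨S, D, O ∩ T⟩) :
    Y.sum t (fun ω => κ ω.S ω.D) F = Y.sum t (fun ω => κ ω.S ω.D) (fun ω => rcs127Ker Y t T F ω.S ω.D) := by
  classical
  unfold Rcy162Sys.sum
  refine Finset.sum_congr rfl fun S _ => Finset.sum_congr rfl fun D _ => ?_
  simp only [rcy162_wt_eq]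
  by_cases hk : κ S D
  · simp only [if_pos hk]
    rw [rcs127_ker_sum Y t hT F hF S D, Finset.sum_mul]
  · simp only [if_neg hk, zero_mul]

/-- the kernel reads the pair only where the pairs of `T` and `F` read it -/
theorem rcs127_ker_congr (Y : Rcy162Sys) (t : ℝ) (T : Finset ((ℤ × ℤ) × Bool)) (F : RswCfg → ℝ) {AV AF : Finset (ℤ × ℤ)}
    (hp : ∀ e ∈ T, Y.p0 e ∈ AV ∧ Y.p1 e ∈ AV ∧ Y.f0 e ∈ AF ∧ Y.f1 e ∈ AF)
    (hF : ∀ S D S' D' O, (∀ v ∈ AV, (v ∈ S ↔ v ∈ S')) → (∀ f ∈ AF, (f ∈ D ↔ f ∈ D')) → F ⟨S, D, O⟩ = F ⟨S', D', O⟩)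
    {S D S' D' : Finset (ℤ × ℤ)} (hS : ∀ v ∈ AV, (v ∈ S ↔ v ∈ S')) (hD : ∀ f ∈ AF, (f ∈ D ↔ f ∈ D')) :
    rcs127Ker Y t T F S D = rcs127Ker Y t T F S' D' := by
  classical
  unfold rcs127Ker
  refine Finset.sum_congr rfl fun O _ => ?_
  rw [hF S D S' D' O hS hD]
  congr 1
  refine Finset.prod_congr rfl fun e he => ?_
  obtain ⟨a1, a2, a3, a4⟩ := hp e he
  simp only [hS _ a1, hS _ a2, hD _ a3, hD _ a4]

/-- the unexplored system of a search in the statuses of `d`, read again as a system for `s` -/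
def rcs127OutP (Y : Rcy162Sys) (J : Finset (ℤ × ℤ)) : Rcy162Sys := rcs127Sw (rcs127Out (rcs127Sw Y) J)

/-- its boundary condition: `d = +` on the faces of the cut pairs, and the constraint `k₂` on `s` -/
def Rcs127KP (Y : Rcy162Sys) (J : Finset (ℤ × ℤ)) (k₂ : Finset (ℤ × ℤ) → Prop) (ω : RswCfg) : Prop :=
  (∀ f ∈ rcs127V0 (rcs127Sw Y) J, (f ∈ ω.D ↔ true = true)) ∧ k₂ ω.S

open Classical in
/-- **THE SEARCH IN THE STATUSES OF `d` FOR A TEST ON THE STATUSES OF `s`** ((n3) - (n5) of R291 `CylSym`, abstract): `B` = event of `(d, s, O')` which forces the record (a set of SITES of `Y`) into `𝒥`;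
`F ≥ 0` = test on `(s, d, O)` which reads the statuses of `T`, the spins on `AV`, `AF`, all off the explored parts. -/
theorem rcs127_search_sw (Y : Rcy162Sys) (hw : Y.WF) {t : ℝ} (h0 : 0 ≤ t) (h1 : t ≤ 1) (A₀ : Finset (ℤ × ℤ)) (𝒥 : Finset (Finset (ℤ × ℤ)))
    (h𝒥 : ∀ J ∈ 𝒥, Rcs127Adm (rcs127Sw Y) A₀ J) (k k₁ k₂ : Finset (ℤ × ℤ) → Prop)
    (hk : ∀ J ∈ 𝒥, ∀ S, S ⊆ Y.V → (k S ↔ k₁ (S ∩ J) ∧ k₂ (S ∩ (Y.V \ J))))
    (B : RswCfg → Prop) (hB : ∀ ω, (rcs127Sw Y).Cfg ω → k ω.D → B ω → rcs127Rec (rcs127Sw Y) true A₀ ω ∈ 𝒥)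
    (F : RswCfg → ℝ) (hF0 : ∀ ω, 0 ≤ F ω) {T : Finset ((ℤ × ℤ) × Bool)} (hTE : T ⊆ Y.E) (hFT : ∀ S D O, F ⟨S, D, O⟩ = F ⟨S, D, O ∩ T⟩)
    {AV AF : Finset (ℤ × ℤ)} (hp : ∀ e ∈ T, Y.p0 e ∈ AV ∧ Y.p1 e ∈ AV ∧ Y.f0 e ∈ AF ∧ Y.f1 e ∈ AF)
    (hFl : ∀ S D S' D' O, (∀ v ∈ AV, (v ∈ S ↔ v ∈ S')) → (∀ f ∈ AF, (f ∈ D ↔ f ∈ D')) → F ⟨S, D, O⟩ = F ⟨S', D', O⟩)
    (hT : ∀ J ∈ 𝒥, T ⊆ rcs127E2 (rcs127Sw Y) J) (hAV : ∀ J ∈ 𝒥, AV ⊆ Y.V \ J) (hAF : ∀ J ∈ 𝒥, AF ⊆ rcs127V2 (rcs127Sw Y) J)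
    {c : ℝ} (hc : 0 ≤ c)
    (hper : ∀ J ∈ 𝒥, (rcs127OutP Y J).sum t (Rcs127KP Y J k₂) (fun _ => 1) ≤ c * (rcs127OutP Y J).sum t (Rcs127KP Y J k₂) F) :
    (rcs127Sw Y).sum t (fun ω => k ω.D) (fun ω => if B ω then 1 else 0) ≤ c * Y.sum t (fun ω => k ω.S) F := by
  have e1 : Y.sum t (fun ω => k ω.S) F = (rcs127Sw Y).sum t (fun ω => k ω.D) (fun ω => rcs127Ker Y t T F ω.D ω.S) := by
    rw [rcs127_tower Y t hTE (fun S _ => k S) F hFT]
    exact (rcs127_pair_sw Y t (fun S _ => k S) (rcs127Ker Y t T F)).symm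
  rw [e1]
  refine rcs127_search (rcs127_sw_wf hw) h0 h1 true 𝒥 h𝒥 (fun ω => k ω.D) (fun ω => k₁ ω.D) (fun ω => k₂ ω.D) ?_ B hB
    (fun ω => rcs127Ker Y t T F ω.D ω.S) (fun ω => rcs127_ker_nonneg Y h0 h1 T hF0 _ _) ?_ hc ?_
  · intro J hJ ω hω
    exact hk J hJ ω.D hω.2.1
  · intro J hJ ω
    refine rcs127_ker_congr Y t T F hp hFl (fun v hv => ?_) (fun f hf => ?_)
    · show v ∈ ω.D ∩ (Y.V \ J) ↔ v ∈ ω.D
      rw [Finset.mem_inter]
      exact ⟨fun x => x.1, fun x => ⟨x, hAV J hJ hv⟩⟩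
    · show f ∈ ω.S ∩ rcs127V2 (rcs127Sw Y) J ↔ f ∈ ω.S
      rw [Finset.mem_inter]
      exact ⟨fun x => x.1, fun x => ⟨x, hAF J hJ hf⟩⟩
  · intro J hJ
    have a1 := rcs127_Z_sw (rcs127OutP Y J) t (fun S D => (∀ f ∈ rcs127V0 (rcs127Sw Y) J, (f ∈ D ↔ true = true)) ∧ k₂ S)
    have a2 := rcs127_pair_sw (rcs127OutP Y J) t (fun S D => (∀ f ∈ rcs127V0 (rcs127Sw Y) J, (f ∈ D ↔ true = true)) ∧ k₂ S) (rcs127Ker Y t T F)
    have a3 := rcs127_tower (rcs127OutP Y J) t (T := T) (hT J hJ) (fun S D => (∀ f ∈ rcs127V0 (rcs127Sw Y) J, (f ∈ D ↔ true = true)) ∧ k₂ S) F hFT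
    have b := hper J hJ
    have a1' : (rcs127Out (rcs127Sw Y) J).sum t (fun ω => Rcs127Pin (rcs127V0 (rcs127Sw Y) J) true ω ∧ k₂ ω.D) (fun _ => 1) =
        (rcs127OutP Y J).sum t (Rcs127KP Y J k₂) (fun _ => 1) := a1
    have a2' : (rcs127Out (rcs127Sw Y) J).sum t (fun ω => Rcs127Pin (rcs127V0 (rcs127Sw Y) J) true ω ∧ k₂ ω.D) (fun ω => rcs127Ker Y t T F ω.D ω.S) =
        (rcs127OutP Y J).sum t (Rcs127KP Y J k₂) (fun ω => rcs127Ker Y t T F ω.S ω.D) := a2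
    have a3' : (rcs127OutP Y J).sum t (Rcs127KP Y J k₂) F = (rcs127OutP Y J).sum t (Rcs127KP Y J k₂) (fun ω => rcs127Ker Y t T F ω.S ω.D) := a3
    rw [a1', a2', ← a3']
    exact b

/-! ## 8. THE SEARCH ON THE MIXED CYLINDER: `Rcs127Search` FROM ONE INPUT PER RECORD -/

/-- the edge pairs of the cylinder whose refined point lies in the rows `c..d` -/
noncomputable def rcs127T (L : ℕ) (a b c d : ℤ) : Finset ((ℤ × ℤ) × Bool) :=
  (rcy162Cyl L a b).E.filter (fun e => c ≤ (rtd111E e).2 ∧ (rtd111E e).2 ≤ d)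

/-- the sites which a test in the rows `c..d` reads -/
noncomputable def rcs127AV (L : ℕ) (a b c d : ℤ) : Finset (ℤ × ℤ) := (rcy162Cyl L a b).V.filter (fun v => c - 1 ≤ 2 * v.2 ∧ 2 * v.2 ≤ d + 1)

/-- the faces of the edge pairs in the rows `c..d` -/
noncomputable def rcs127AF (L : ℕ) (a b c d : ℤ) : Finset (ℤ × ℤ) := (rcy162Cyl L a b).Fc.filter (fun f => c - 1 ≤ 2 * f.2 + 1 ∧ 2 * f.2 + 1 ≤ d + 1)

theorem rcs127_E_row (e : (ℤ × ℤ) × Bool) : (rtd111E e).2 = if e.2 then 2 * e.1.2 + 1 else 2 * e.1.2 := by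
  obtain ⟨⟨x, y⟩, b⟩ := e
  cases b
  · rw [rtd111_E_f]; rfl
  · rw [rtd111_E_t]; rfl

theorem rcs127_redE_row (L : ℕ) (e : (ℤ × ℤ) × Bool) : (rtd111E (rcy162RedE L e)).2 = (rtd111E e).2 := by
  rw [rcs127_E_row, rcs127_E_row]
  rfl

theorem rcs127_end_row (e : (ℤ × ℤ) × Bool) : (rswEnd e).2 = if e.2 then e.1.2 + 1 else e.1.2 := by
  obtain ⟨⟨x, y⟩, b⟩ := e
  cases b <;> rfl

theorem rcs127_co_row (e : (ℤ × ℤ) × Bool) : (rswCo e).2 = if e.2 then e.1.2 else e.1.2 - 1 := by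
  obtain ⟨⟨x, y⟩, b⟩ := e
  cases b <;> rfl

/-- the rows of the endpoints and of the faces of an edge pair of the cylinder -/
theorem rcs127_cyl_rows (L : ℕ) (a b : ℤ) (e : (ℤ × ℤ) × Bool) :
    ((rcy162Cyl L a b).p0 e).2 = e.1.2 ∧ ((rcy162Cyl L a b).p1 e).2 = (if e.2 then e.1.2 + 1 else e.1.2) ∧
      ((rcy162Cyl L a b).f0 e).2 = e.1.2 ∧ ((rcy162Cyl L a b).f1 e).2 = (if e.2 then e.1.2 else e.1.2 - 1) :=
  ⟨rfl, rcs127_end_row e, rfl, rcs127_co_row e⟩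

theorem rcs127_T_reads {L : ℕ} (hL : 0 < L) (a b c d : ℤ) : ∀ e ∈ rcs127T L a b c d,
    (rcy162Cyl L a b).p0 e ∈ rcs127AV L a b c d ∧ (rcy162Cyl L a b).p1 e ∈ rcs127AV L a b c d ∧
      (rcy162Cyl L a b).f0 e ∈ rcs127AF L a b c d ∧ (rcy162Cyl L a b).f1 e ∈ rcs127AF L a b c d := by
  intro e he
  obtain ⟨h1, h2, h3⟩ := Finset.mem_filter.1 he
  have hw := rcy162_cyl_wf hL a b
  obtain ⟨r0, r1, r2, r3⟩ := rcs127_cyl_rows L a b e
  rw [rcs127_E_row] at h2 h3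
  refine ⟨Finset.mem_filter.2 ⟨hw.p0 e h1, ?_⟩, Finset.mem_filter.2 ⟨hw.p1 e h1, ?_⟩, Finset.mem_filter.2 ⟨hw.f0 e h1, ?_⟩,
    Finset.mem_filter.2 ⟨hw.f1 e h1, ?_⟩⟩
  · rw [r0]; split_ifs at h2 h3 <;> constructor <;> omega
  · rw [r1]; split_ifs at h2 h3 ⊢ <;> constructor <;> omega
  · rw [r2]; split_ifs at h2 h3 <;> constructor <;> omega
  · rw [r3]; split_ifs at h2 h3 ⊢ <;> constructor <;> omega

/-- the field in the rows `c..d` reads the spins on `AV` and the statuses of `T` only -/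
theorem rcs127_fld_agree {L : ℕ} (hL : 0 < L) (a b c d : ℤ) {ω ω' : RswCfg} (hS : ∀ v ∈ rcs127AV L a b c d, (v ∈ ω.S ↔ v ∈ ω'.S))
    (hO : ∀ e ∈ rcs127T L a b c d, (e ∈ ω.O ↔ e ∈ ω'.O)) (u : ℤ × ℤ) (h1 : c ≤ u.2) (h2 : u.2 ≤ d) :
    rcy162Fld L (rcy162Cyl L a b) ω u = rcy162Fld L (rcy162Cyl L a b) ω' u := by
  classical
  rcases rtd111_cases u with ⟨v, rfl⟩ | ⟨f, rfl⟩ | ⟨e, rfl⟩
  · rw [rcy162_fld_P, rcy162_fld_P]
    unfold Rcy162Sys.sgV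
    by_cases hv : rcy162Red L v ∈ (rcy162Cyl L a b).V
    · have e1 : (rtd111P v).2 = 2 * v.2 := rfl
      have hm : rcy162Red L v ∈ rcs127AV L a b c d := Finset.mem_filter.2 ⟨hv, by rw [rcy162_red_snd]; constructor <;> omega⟩
      simp only [if_pos hv, hS _ hm]
    · simp only [if_neg hv]
  · rw [rcy162_fld_F, rcy162_fld_F]
  · rw [rcy162_fld_E, rcy162_fld_E]
    unfold Rcy162Sys.sgE
    by_cases he : rcy162RedE L e ∈ (rcy162Cyl L a b).E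
    · have hm : rcy162RedE L e ∈ rcs127T L a b c d := Finset.mem_filter.2 ⟨he, by rw [rcs127_redE_row]; exact ⟨h1, h2⟩⟩
      obtain ⟨q0, q1, _, _⟩ := rcs127_T_reads hL a b c d _ hm
      have g : ∀ s : Bool, (rcy162Cyl L a b).Good s ω (rcy162RedE L e) ↔ (rcy162Cyl L a b).Good s ω' (rcy162RedE L e) := by
        intro s
        unfold Rcy162Sys.Good
        rw [hO _ hm, hS _ q0, hS _ q1]
      simp only [if_pos he, g]
    · simp only [if_neg he]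

/-- the test: the band `c..d` is crossed or blocked by plus cells (sum of the two indicators) -/
noncomputable def rcs127F (L : ℕ) (a b c d : ℤ) (ω : RswCfg) : ℝ :=
  open Classical in
  (if rcy162Fld L (rcy162Cyl L a b) ω ∈ cyVP 1 c d then 1 else 0) + (if rcy162Fld L (rcy162Cyl L a b) ω ∈ cyBlk 1 c d then 1 else 0)

theorem rcs127_F_nonneg (L : ℕ) (a b c d : ℤ) (ω : RswCfg) : 0 ≤ rcs127F L a b c d ω := by
  classical
  unfold rcs127F
  refine add_nonneg ?_ ?_ <;> split_ifs <;> norm_num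

theorem rcs127_F_congr {L : ℕ} (hL : 0 < L) (a b c d : ℤ) {ω ω' : RswCfg} (hS : ∀ v ∈ rcs127AV L a b c d, (v ∈ ω.S ↔ v ∈ ω'.S))
    (hO : ∀ e ∈ rcs127T L a b c d, (e ∈ ω.O ↔ e ∈ ω'.O)) : rcs127F L a b c d ω = rcs127F L a b c d ω' := by
  classical
  have e1 := cy_sup_VP 1 c d _ _ (fun u h1 h2 => rcs127_fld_agree hL a b c d hS hO u h1 h2)
  have e2 := cy_sup_Blk 1 c d _ _ (fun u h1 h2 => rcs127_fld_agree hL a b c d hS hO u h1 h2)
  unfold rcs127F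
  simp only [e1, e2]

/-- **the input per record** ((perJ) of R291 `CylSym`): `J` = set of sites under the low band which contains the row `0`; in the unexplored system (`d = +` on the faces of the cut pairs, `s = +` on the row `H`)
the high band is crossed or blocked by plus cells with probability `≥ 1/2` -/
def Rcs127PerJ (t : ℝ) (L H : ℕ) : Prop :=
  ∀ k m κ : ℤ, 1 ≤ m → Even m → 3 ≤ k → k + m + 3 ≤ κ → κ + m - 1 ≤ 2 * (H : ℤ) - 4 → 2 * (H : ℤ) + k + m + 7 ≤ 2 * κ →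
    ∀ J : Finset (ℤ × ℤ), rcy162Row L 0 ⊆ J → J ⊆ (rcy162Cyl L 0 H).V → (∀ v ∈ J, 2 * v.2 < k + m - 1) →
      (rcs127OutP (rcy162Cyl L 0 H) J).sum t (Rcs127KP (rcy162Cyl L 0 H) J (fun S => rcy162Row L H ⊆ S)) (fun _ => 1) ≤
        2 * (rcs127OutP (rcy162Cyl L 0 H) J).sum t (Rcs127KP (rcy162Cyl L 0 H) J (fun S => rcy162Row L H ⊆ S)) (rcs127F L 0 H κ (κ + m - 1))

/-- (G1) every set of sites is an admissible record of the search in the statuses of `d` (producer: 111, `rcd111_adm_sw`) -/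
def Rcs127G1 (L H : ℕ) : Prop :=
  ∀ J : Finset (ℤ × ℤ), rcy162Row L 0 ⊆ J → J ⊆ (rcy162Cyl L 0 H).V → Rcs127Adm (rcs127Sw (rcy162Cyl L 0 H)) (rcy162Row L 0) J

/-- (G2) under a plus winding of the statuses of `d` the record stays below the winding (producer: 111) -/
def Rcs127G2 (L H : ℕ) : Prop :=
  ∀ (ω : RswCfg) (c d : ℤ), (rcs127Sw (rcy162Cyl L 0 H)).Cfg ω → 1 ≤ c → c ≤ d → d ≤ 2 * (H : ℤ) - 1 →
    rcs127FldD L (rcs127Sw (rcy162Cyl L 0 H)) ω ∈ cyBlk 1 c d → ∀ v ∈ rcs127Rec (rcs127Sw (rcy162Cyl L 0 H)) true (rcy162Row L 0) ω, 2 * v.2 < d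

/-- a pair with an endpoint in a low set of sites has low faces -/
theorem rcs127_low_faces (L : ℕ) (a b : ℤ) {J : Finset (ℤ × ℤ)} {d₀ : ℤ} (hJ : ∀ v ∈ J, 2 * v.2 < d₀) {e : (ℤ × ℤ) × Bool}
    (he : (rcy162Cyl L a b).p0 e ∈ J ∨ (rcy162Cyl L a b).p1 e ∈ J) :
    2 * ((rcy162Cyl L a b).f0 e).2 + 1 ≤ d₀ ∧ 2 * ((rcy162Cyl L a b).f1 e).2 + 1 ≤ d₀ := by
  obtain ⟨r0, r1, r2, r3⟩ := rcs127_cyl_rows L a b e
  have hy : 2 * e.1.2 < d₀ := by
    rcases he with h | h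
    · have := hJ _ h
      rw [r0] at this
      exact this
    · have := hJ _ h
      rw [r1] at this
      split_ifs at this <;> omega
  rw [r2, r3]
  constructor
  · omega
  · split_ifs <;> omega

/-- **(n3) - (n5) ON THE MIXED CYLINDER**: the search input of the field `sym` from the input per record and the two deterministic facts (G1), (G2) -/
theorem rcs127_search_of_perJ {t : ℝ} (h0 : 0 < t) (h1 : t ≤ 1) {L H : ℕ} (hL : 0 < L) (g1 : Rcs127G1 L H) (g2 : Rcs127G2 L H)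
    (hp : Rcs127PerJ t L H) : Rcs127Search t L H := by
  classical
  intro k m κ hm hme hk hκ hκH hN
  have hH : 0 < H := by
    rcases Nat.eq_zero_or_pos H with h | h
    · subst h
      simp only [Nat.cast_zero] at hκH
      omega
    · exact h
  have hwf := rcy162_cyl_wf hL 0 (H : ℤ)
  set 𝒥 : Finset (Finset (ℤ × ℤ)) :=
    (rcy162Cyl L 0 H).V.powerset.filter (fun J => rcy162Row L 0 ⊆ J ∧ ∀ v ∈ J, 2 * v.2 < k + m - 1) with h𝒥def
  have mem𝒥 : ∀ J, J ∈ 𝒥 ↔ J ⊆ (rcy162Cyl L 0 H).V ∧ rcy162Row L 0 ⊆ J ∧ ∀ v ∈ J, 2 * v.2 < k + m - 1 := by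
    intro J
    rw [h𝒥def, Finset.mem_filter, Finset.mem_powerset]
  have row0V : rcy162Row L 0 ⊆ (rcy162Cyl L 0 H).V := by
    intro v hv
    obtain ⟨a1, a2⟩ := rcy162_mem_row.1 hv
    exact rcy162_mem_cylV.2 ⟨a1, by omega, by rw [a2]; positivity⟩
  have rowHV : rcy162Row L H ⊆ (rcy162Cyl L 0 H).V := by
    intro v hv
    obtain ⟨a1, a2⟩ := rcy162_mem_row.1 hv
    exact rcy162_mem_cylV.2 ⟨a1, by rw [a2]; positivity, by omega⟩
  have AVJ : ∀ J ∈ 𝒥, ∀ v ∈ rcs127AV L 0 H κ (κ + m - 1), v ∉ J := by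
    intro J hJ v hv hvJ
    have a1 := ((mem𝒥 J).1 hJ).2.2 v hvJ
    have a2 := (Finset.mem_filter.1 hv).2.1
    omega
  have key := rcs127_search_sw (rcy162Cyl L 0 H) hwf h0.le h1 (rcy162Row L 0) 𝒥
    (fun J hJ => g1 J ((mem𝒥 J).1 hJ).2.1 ((mem𝒥 J).1 hJ).1)
    (fun S => (∀ v ∈ rcy162Row L 0, v ∉ S) ∧ rcy162Row L H ⊆ S) (fun S => ∀ v ∈ rcy162Row L 0, v ∉ S) (fun S => rcy162Row L H ⊆ S)
    (by
      intro J hJ S hS
      obtain ⟨j1, j2, j3⟩ := (mem𝒥 J).1 hJ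
      constructor
      · rintro ⟨a, b⟩
        refine ⟨fun v hv hm => a v hv (Finset.mem_inter.1 hm).1, fun v hv => Finset.mem_inter.2 ⟨b hv, Finset.mem_sdiff.2 ⟨rowHV hv, fun hvJ => ?_⟩⟩⟩
        have a1 := j3 v hvJ
        have a2 := (rcy162_mem_row.1 hv).2
        omega
      · rintro ⟨a, b⟩
        exact ⟨fun v hv hS' => a v hv (Finset.mem_inter.2 ⟨hS', j2 hv⟩), fun v hv => (Finset.mem_inter.1 (b hv)).1⟩)
    (fun ω => rcs127FldD L (rcs127Sw (rcy162Cyl L 0 H)) ω ∈ cyBlk 1 k (k + m - 1))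
    (by
      intro ω hω _ hB
      refine (mem𝒥 _).2 ⟨fun v hv => (rcs127_mem_rec.1 hv).1, fun v hv => rcs127_mem_rec.2 ⟨row0V hv, v, hv, ReflTransGen.refl⟩, ?_⟩
      exact g2 ω k (k + m - 1) hω (by omega) (by omega) (by omega) hB)
    (rcs127F L 0 H κ (κ + m - 1)) (rcs127_F_nonneg L 0 H κ (κ + m - 1)) (T := rcs127T L 0 H κ (κ + m - 1)) (Finset.filter_subset _ _)
    (fun S D O => rcs127_F_congr hL 0 H κ (κ + m - 1) (fun _ _ => Iff.rfl)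
      (fun e he => ⟨fun x => Finset.mem_inter.2 ⟨x, he⟩, fun x => (Finset.mem_inter.1 x).1⟩))
    (AV := rcs127AV L 0 H κ (κ + m - 1)) (AF := rcs127AF L 0 H κ (κ + m - 1)) (rcs127_T_reads hL 0 H κ (κ + m - 1))
    (fun S D S' D' O hS _ => rcs127_F_congr hL 0 H κ (κ + m - 1) hS (fun _ _ => Iff.rfl))
    (by
      intro J hJ e he
      obtain ⟨q0, q1, _, _⟩ := rcs127_T_reads hL 0 H κ (κ + m - 1) e he
      exact rcs127_mem_E2.2 ⟨(Finset.mem_filter.1 he).1, AVJ J hJ _ q0, AVJ J hJ _ q1⟩)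
    (fun J hJ v hv => Finset.mem_sdiff.2 ⟨(Finset.mem_filter.1 hv).1, AVJ J hJ v hv⟩)
    (by
      intro J hJ f hf
      obtain ⟨f1, f2, _⟩ := Finset.mem_filter.1 hf
      have j3 := ((mem𝒥 J).1 hJ).2.2
      refine Finset.mem_union.2 (Or.inl (Finset.mem_sdiff.2 ⟨f1, fun hV1 => ?_⟩))
      have low : ∀ e, ((rcy162Cyl L 0 H).p0 e ∈ J ∨ (rcy162Cyl L 0 H).p1 e ∈ J) → (rcy162Cyl L 0 H).f0 e ≠ f ∧ (rcy162Cyl L 0 H).f1 e ≠ f := by
        intro e he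
        obtain ⟨l1, l2⟩ := rcs127_low_faces L 0 H j3 he
        constructor
        · rintro rfl; omega
        · rintro rfl; omega
      have c1 : ∀ e ∈ rcs127E1 (rcs127Sw (rcy162Cyl L 0 H)) J, (rcy162Cyl L 0 H).p0 e ∈ J ∨ (rcy162Cyl L 0 H).p1 e ∈ J :=
        fun e he => Or.inl (rcs127_mem_E1.1 he).2.1
      have c0 : ∀ e ∈ rcs127E0 (rcs127Sw (rcy162Cyl L 0 H)) J, (rcy162Cyl L 0 H).p0 e ∈ J ∨ (rcy162Cyl L 0 H).p1 e ∈ J := by
        intro e he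
        have := (rcs127_mem_E0.1 he).2
        by_contra hn
        push Not at hn
        exact this ⟨fun x => absurd x hn.1, fun x => absurd x hn.2⟩
      rcases Finset.mem_union.1 hV1 with h' | h'
      · rcases Finset.mem_union.1 h' with h' | h'
        · obtain ⟨e, he, rfl⟩ := Finset.mem_image.1 h'
          exact (low e (c1 e he)).1 rfl
        · obtain ⟨e, he, rfl⟩ := Finset.mem_image.1 h'
          exact (low e (c1 e he)).2 rfl
      · rcases Finset.mem_union.1 h' with h' | h'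
        · obtain ⟨e, he, rfl⟩ := Finset.mem_image.1 h'
          exact (low e (c0 e he)).1 rfl
        · obtain ⟨e, he, rfl⟩ := Finset.mem_image.1 h'
          exact (low e (c0 e he)).2 rfl)
    (c := 2) (by norm_num)
    (fun J hJ => hp k m κ hm hme hk hκ hκH hN J ((mem𝒥 J).1 hJ).2.1 ((mem𝒥 J).1 hJ).1 ((mem𝒥 J).1 hJ).2.2)
  -- numbers
  have hf : (rcy162Cyl L 0 H).Feas t (Rcy162Mix L 0 H) := rcy162_mix_feas h0 L (by exact_mod_cast hH)
  have hZ := rcy162_Z_pos (rcy162Cyl L 0 H) _ h0.le h1 hf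
  have zsw := rcs127_Z_sw (rcy162Cyl L 0 H) t (fun S _ => (∀ v ∈ rcy162Row L 0, v ∉ S) ∧ rcy162Row L H ⊆ S)
  have eF : (rcy162Cyl L 0 H).sum t (Rcy162Mix L 0 H) (rcs127F L 0 H κ (κ + m - 1)) =
      (rcy162Cyl L 0 H).sum t (Rcy162Mix L 0 H) (fun ω => if rcy162Fld L (rcy162Cyl L 0 H) ω ∈ cyVP 1 κ (κ + m - 1) then 1 else 0) +
        (rcy162Cyl L 0 H).sum t (Rcy162Mix L 0 H) (fun ω => if rcy162Fld L (rcy162Cyl L 0 H) ω ∈ cyBlk 1 κ (κ + m - 1) then 1 else 0) := by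
    rw [← rcy162_sum_add]
    rfl
  have key' : (rcs127Sw (rcy162Cyl L 0 H)).sum t (Rcs127MixD L 0 H)
      (fun ω => if rcs127FldD L (rcs127Sw (rcy162Cyl L 0 H)) ω ∈ cyBlk 1 k (k + m - 1) then 1 else 0) ≤
        2 * (rcy162Cyl L 0 H).sum t (Rcy162Mix L 0 H) (rcs127F L 0 H κ (κ + m - 1)) := key
  have zsw' : (rcs127Sw (rcy162Cyl L 0 H)).sum t (Rcs127MixD L 0 H) (fun _ => 1) = (rcy162Cyl L 0 H).sum t (Rcy162Mix L 0 H) (fun _ => 1) := zsw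
  unfold rcs127QD rcy162Q rcy162PM
  rw [rcy162_P_def, rcy162_P_def, rcy162_P_def]
  unfold Rcy162Sys.Ex
  rw [zsw', ← add_div, ← mul_div_assoc, ← eF]
  exact div_le_div_of_nonneg_right key' hZ.le

/-! ## 9. ONLY CONNECTED RECORDS: the input per record is asked for the sets which can be records -/

/-- `J` is joined to `A₀` by steps inside `J` (a step = the two faces of one edge pair) -/
def Rcs127Conn (Z : Rcy162Sys) (A₀ J : Finset (ℤ × ℤ)) : Prop :=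
  ∀ g ∈ J, ∃ f ∈ A₀, ReflTransGen (fun x y => x ∈ J ∧ y ∈ J ∧ ∃ e, (x = Z.f0 e ∧ y = Z.f1 e) ∨ (y = Z.f0 e ∧ x = Z.f1 e)) f g

/-- a record is connected -/
theorem rcs127_rec_conn (Z : Rcy162Sys) (a : Bool) {A₀ : Finset (ℤ × ℤ)} (hA : A₀ ⊆ Z.Fc) (ω : RswCfg) : Rcs127Conn Z A₀ (rcs127Rec Z a A₀ ω) := by
  intro g hg
  obtain ⟨-, f, hf, hc⟩ := rcs127_mem_rec.1 hg
  refine ⟨f, hf, ?_⟩
  have key : ∀ g, ReflTransGen (Z.Step a ω) f g → g ∈ rcs127Rec Z a A₀ ω ∧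
      ReflTransGen (fun x y => x ∈ rcs127Rec Z a A₀ ω ∧ y ∈ rcs127Rec Z a A₀ ω ∧ ∃ e, (x = Z.f0 e ∧ y = Z.f1 e) ∨ (y = Z.f0 e ∧ x = Z.f1 e)) f g := by
    intro g hc
    induction hc with
    | refl => exact ⟨rcs127_mem_rec.2 ⟨hA hf, f, hf, ReflTransGen.refl⟩, ReflTransGen.refl⟩
    | tail hbc hs ih =>
      obtain ⟨s1, s2, e, he, hg'⟩ := hs
      have hc' := rcs127_mem_rec.2 ⟨s2, f, hf, hbc.tail ⟨s1, s2, e, he, hg'⟩⟩
      exact ⟨hc', ih.2.tail ⟨ih.1, hc', e, he⟩⟩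
  exact (key g hc).2

/-- **the input per CONNECTED record** (= `Rcs127PerJ` asked only for the sets `J` which are joined to the row `0` inside `J`: every record is such a set; for these the faces of the deleted pairs form ONE class, so the
unexplored system with `d = +` on the cut is a planar minor and eq. (3.5) passes to it) -/
def Rcs127PerJc (t : ℝ) (L H : ℕ) : Prop :=
  ∀ k m κ : ℤ, 1 ≤ m → Even m → 3 ≤ k → k + m + 3 ≤ κ → κ + m - 1 ≤ 2 * (H : ℤ) - 4 → 2 * (H : ℤ) + k + m + 7 ≤ 2 * κ →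
    ∀ J : Finset (ℤ × ℤ), rcy162Row L 0 ⊆ J → J ⊆ (rcy162Cyl L 0 H).V → (∀ v ∈ J, 2 * v.2 < k + m - 1) →
      Rcs127Conn (rcs127Sw (rcy162Cyl L 0 H)) (rcy162Row L 0) J →
      (rcs127OutP (rcy162Cyl L 0 H) J).sum t (Rcs127KP (rcy162Cyl L 0 H) J (fun S => rcy162Row L H ⊆ S)) (fun _ => 1) ≤
        2 * (rcs127OutP (rcy162Cyl L 0 H) J).sum t (Rcs127KP (rcy162Cyl L 0 H) J (fun S => rcy162Row L H ⊆ S)) (rcs127F L 0 H κ (κ + m - 1))

theorem rcs127_perJc_of_perJ {t : ℝ} {L H : ℕ} (hp : Rcs127PerJ t L H) : Rcs127PerJc t L H :=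
  fun k m κ hm hme hk hκ hκH hN J h0 hV hl _ => hp k m κ hm hme hk hκ hκH hN J h0 hV hl

/-- **(n3) - (n5) ON THE MIXED CYLINDER, CONNECTED RECORDS ONLY**: the search input of the field `sym` from the input per CONNECTED record and the two deterministic facts (G1), (G2) -/
theorem rcs127_search_of_perJc {t : ℝ} (h0 : 0 < t) (h1 : t ≤ 1) {L H : ℕ} (hL : 0 < L) (g1 : Rcs127G1 L H) (g2 : Rcs127G2 L H)
    (hp : Rcs127PerJc t L H) : Rcs127Search t L H := by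
  classical
  intro k m κ hm hme hk hκ hκH hN
  have hH : 0 < H := by
    rcases Nat.eq_zero_or_pos H with h | h
    · subst h
      simp only [Nat.cast_zero] at hκH
      omega
    · exact h
  have hwf := rcy162_cyl_wf hL 0 (H : ℤ)
  set 𝒥 : Finset (Finset (ℤ × ℤ)) :=
    (rcy162Cyl L 0 H).V.powerset.filter (fun J => rcy162Row L 0 ⊆ J ∧ (∀ v ∈ J, 2 * v.2 < k + m - 1) ∧
      Rcs127Conn (rcs127Sw (rcy162Cyl L 0 H)) (rcy162Row L 0) J) with h𝒥def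
  have mem𝒥 : ∀ J, J ∈ 𝒥 ↔ J ⊆ (rcy162Cyl L 0 H).V ∧ rcy162Row L 0 ⊆ J ∧ (∀ v ∈ J, 2 * v.2 < k + m - 1) ∧
      Rcs127Conn (rcs127Sw (rcy162Cyl L 0 H)) (rcy162Row L 0) J := by
    intro J
    rw [h𝒥def, Finset.mem_filter, Finset.mem_powerset]
  have row0V : rcy162Row L 0 ⊆ (rcy162Cyl L 0 H).V := by
    intro v hv
    obtain ⟨a1, a2⟩ := rcy162_mem_row.1 hv
    exact rcy162_mem_cylV.2 ⟨a1, by omega, by rw [a2]; positivity⟩
  have rowHV : rcy162Row L H ⊆ (rcy162Cyl L 0 H).V := by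
    intro v hv
    obtain ⟨a1, a2⟩ := rcy162_mem_row.1 hv
    exact rcy162_mem_cylV.2 ⟨a1, by rw [a2]; positivity, by omega⟩
  have AVJ : ∀ J ∈ 𝒥, ∀ v ∈ rcs127AV L 0 H κ (κ + m - 1), v ∉ J := by
    intro J hJ v hv hvJ
    have a1 := ((mem𝒥 J).1 hJ).2.2.1 v hvJ
    have a2 := (Finset.mem_filter.1 hv).2.1
    omega
  have key := rcs127_search_sw (rcy162Cyl L 0 H) hwf h0.le h1 (rcy162Row L 0) 𝒥
    (fun J hJ => g1 J ((mem𝒥 J).1 hJ).2.1 ((mem𝒥 J).1 hJ).1)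
    (fun S => (∀ v ∈ rcy162Row L 0, v ∉ S) ∧ rcy162Row L H ⊆ S) (fun S => ∀ v ∈ rcy162Row L 0, v ∉ S) (fun S => rcy162Row L H ⊆ S)
    (by
      intro J hJ S hS
      obtain ⟨j1, j2, j3, -⟩ := (mem𝒥 J).1 hJ
      constructor
      · rintro ⟨a, b⟩
        refine ⟨fun v hv hm => a v hv (Finset.mem_inter.1 hm).1, fun v hv => Finset.mem_inter.2 ⟨b hv, Finset.mem_sdiff.2 ⟨rowHV hv, fun hvJ => ?_⟩⟩⟩
        have a1 := j3 v hvJ
        have a2 := (rcy162_mem_row.1 hv).2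
        omega
      · rintro ⟨a, b⟩
        exact ⟨fun v hv hS' => a v hv (Finset.mem_inter.2 ⟨hS', j2 hv⟩), fun v hv => (Finset.mem_inter.1 (b hv)).1⟩)
    (fun ω => rcs127FldD L (rcs127Sw (rcy162Cyl L 0 H)) ω ∈ cyBlk 1 k (k + m - 1))
    (by
      intro ω hω _ hB
      refine (mem𝒥 _).2 ⟨fun v hv => (rcs127_mem_rec.1 hv).1, fun v hv => rcs127_mem_rec.2 ⟨row0V hv, v, hv, ReflTransGen.refl⟩, ?_,
        rcs127_rec_conn (rcs127Sw (rcy162Cyl L 0 H)) true row0V ω⟩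
      exact g2 ω k (k + m - 1) hω (by omega) (by omega) (by omega) hB)
    (rcs127F L 0 H κ (κ + m - 1)) (rcs127_F_nonneg L 0 H κ (κ + m - 1)) (T := rcs127T L 0 H κ (κ + m - 1)) (Finset.filter_subset _ _)
    (fun S D O => rcs127_F_congr hL 0 H κ (κ + m - 1) (fun _ _ => Iff.rfl)
      (fun e he => ⟨fun x => Finset.mem_inter.2 ⟨x, he⟩, fun x => (Finset.mem_inter.1 x).1⟩))
    (AV := rcs127AV L 0 H κ (κ + m - 1)) (AF := rcs127AF L 0 H κ (κ + m - 1)) (rcs127_T_reads hL 0 H κ (κ + m - 1))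
    (fun S D S' D' O hS _ => rcs127_F_congr hL 0 H κ (κ + m - 1) hS (fun _ _ => Iff.rfl))
    (by
      intro J hJ e he
      obtain ⟨q0, q1, _, _⟩ := rcs127_T_reads hL 0 H κ (κ + m - 1) e he
      exact rcs127_mem_E2.2 ⟨(Finset.mem_filter.1 he).1, AVJ J hJ _ q0, AVJ J hJ _ q1⟩)
    (fun J hJ v hv => Finset.mem_sdiff.2 ⟨(Finset.mem_filter.1 hv).1, AVJ J hJ v hv⟩)
    (by
      intro J hJ f hf
      obtain ⟨f1, f2, _⟩ := Finset.mem_filter.1 hf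
      have j3 := ((mem𝒥 J).1 hJ).2.2.1
      refine Finset.mem_union.2 (Or.inl (Finset.mem_sdiff.2 ⟨f1, fun hV1 => ?_⟩))
      have low : ∀ e, ((rcy162Cyl L 0 H).p0 e ∈ J ∨ (rcy162Cyl L 0 H).p1 e ∈ J) → (rcy162Cyl L 0 H).f0 e ≠ f ∧ (rcy162Cyl L 0 H).f1 e ≠ f := by
        intro e he
        obtain ⟨l1, l2⟩ := rcs127_low_faces L 0 H j3 he
        constructor
        · rintro rfl; omega
        · rintro rfl; omega
      have c1 : ∀ e ∈ rcs127E1 (rcs127Sw (rcy162Cyl L 0 H)) J, (rcy162Cyl L 0 H).p0 e ∈ J ∨ (rcy162Cyl L 0 H).p1 e ∈ J :=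
        fun e he => Or.inl (rcs127_mem_E1.1 he).2.1
      have c0 : ∀ e ∈ rcs127E0 (rcs127Sw (rcy162Cyl L 0 H)) J, (rcy162Cyl L 0 H).p0 e ∈ J ∨ (rcy162Cyl L 0 H).p1 e ∈ J := by
        intro e he
        have := (rcs127_mem_E0.1 he).2
        by_contra hn
        push Not at hn
        exact this ⟨fun x => absurd x hn.1, fun x => absurd x hn.2⟩
      rcases Finset.mem_union.1 hV1 with h' | h'
      · rcases Finset.mem_union.1 h' with h' | h'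
        · obtain ⟨e, he, rfl⟩ := Finset.mem_image.1 h'
          exact (low e (c1 e he)).1 rfl
        · obtain ⟨e, he, rfl⟩ := Finset.mem_image.1 h'
          exact (low e (c1 e he)).2 rfl
      · rcases Finset.mem_union.1 h' with h' | h'
        · obtain ⟨e, he, rfl⟩ := Finset.mem_image.1 h'
          exact (low e (c0 e he)).1 rfl
        · obtain ⟨e, he, rfl⟩ := Finset.mem_image.1 h'
          exact (low e (c0 e he)).2 rfl)
    (c := 2) (by norm_num)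
    (fun J hJ => hp k m κ hm hme hk hκ hκH hN J ((mem𝒥 J).1 hJ).2.1 ((mem𝒥 J).1 hJ).1 ((mem𝒥 J).1 hJ).2.2.1 ((mem𝒥 J).1 hJ).2.2.2)
  -- numbers
  have hf : (rcy162Cyl L 0 H).Feas t (Rcy162Mix L 0 H) := rcy162_mix_feas h0 L (by exact_mod_cast hH)
  have hZ := rcy162_Z_pos (rcy162Cyl L 0 H) _ h0.le h1 hf
  have zsw := rcs127_Z_sw (rcy162Cyl L 0 H) t (fun S _ => (∀ v ∈ rcy162Row L 0, v ∉ S) ∧ rcy162Row L H ⊆ S)
  have eF : (rcy162Cyl L 0 H).sum t (Rcy162Mix L 0 H) (rcs127F L 0 H κ (κ + m - 1)) =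
      (rcy162Cyl L 0 H).sum t (Rcy162Mix L 0 H) (fun ω => if rcy162Fld L (rcy162Cyl L 0 H) ω ∈ cyVP 1 κ (κ + m - 1) then 1 else 0) +
        (rcy162Cyl L 0 H).sum t (Rcy162Mix L 0 H) (fun ω => if rcy162Fld L (rcy162Cyl L 0 H) ω ∈ cyBlk 1 κ (κ + m - 1) then 1 else 0) := by
    rw [← rcy162_sum_add]
    rfl
  have key' : (rcs127Sw (rcy162Cyl L 0 H)).sum t (Rcs127MixD L 0 H)
      (fun ω => if rcs127FldD L (rcs127Sw (rcy162Cyl L 0 H)) ω ∈ cyBlk 1 k (k + m - 1) then 1 else 0) ≤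
        2 * (rcy162Cyl L 0 H).sum t (Rcy162Mix L 0 H) (rcs127F L 0 H κ (κ + m - 1)) := key
  have zsw' : (rcs127Sw (rcy162Cyl L 0 H)).sum t (Rcs127MixD L 0 H) (fun _ => 1) = (rcy162Cyl L 0 H).sum t (Rcy162Mix L 0 H) (fun _ => 1) := zsw
  unfold rcs127QD rcy162Q rcy162PM
  rw [rcy162_P_def, rcy162_P_def, rcy162_P_def]
  unfold Rcy162Sys.Ex
  rw [zsw', ← add_div, ← mul_div_assoc, ← eF]
  exact div_le_div_of_nonneg_right key' hZ.le


/-! ## 10. eq. (3.5) PASSES TO A MINOR (hat form): delete edge pairs, read the faces through a contraction -/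

/-- the hat form of planar exactness of a system with contracted sites (= the two hypotheses `HP`, `HX` of `rci69_dual_of_hat`) -/
def Rcs127Hat (Y : Rcy162Sys) (π : ℤ × ℤ → ℤ × ℤ) : Prop :=
  (∀ (d ρ : ℤ × ℤ → ZMod 2), ∑ e ∈ Y.E, (d (Y.f0 e) + d (Y.f1 e)) * (ρ (π (Y.p0 e)) + ρ (π (Y.p1 e))) = 0) ∧
  (∀ y : (ℤ × ℤ) × Bool → ZMod 2, (∀ ρ : ℤ × ℤ → ZMod 2, ∑ e ∈ Y.E, y e * (ρ (π (Y.p0 e)) + ρ (π (Y.p1 e))) = 0) →
      ∃ d : ℤ × ℤ → ZMod 2, ∀ e ∈ Y.E, y e = d (Y.f0 e) + d (Y.f1 e))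

/-- the minor: only the pairs of `E'` are kept, the faces are read through `c` -/
def rcs127Minor (Y : Rcy162Sys) (V' F' : Finset (ℤ × ℤ)) (E' : Finset ((ℤ × ℤ) × Bool)) (c : ℤ × ℤ → ℤ × ℤ) : Rcy162Sys :=
  ⟨V', F', E', Y.p0, Y.p1, fun e => c (Y.f0 e), fun e => c (Y.f1 e)⟩

/-- **exactness passes to the minor**: `c` identifies the two faces of every deleted pair, and a colouring which is constant across the deleted pairs factors through `c` -/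
theorem rcs127_hat_minor {Y : Rcy162Sys} {π : ℤ × ℤ → ℤ × ℤ} (h : Rcs127Hat Y π) (V' F' : Finset (ℤ × ℤ)) {E' : Finset ((ℤ × ℤ) × Bool)} (hE : E' ⊆ Y.E)
    (c : ℤ × ℤ → ℤ × ℤ) (c1 : ∀ e ∈ Y.E, e ∉ E' → c (Y.f0 e) = c (Y.f1 e))
    (c2 : ∀ d : ℤ × ℤ → ZMod 2, (∀ e ∈ Y.E, e ∉ E' → d (Y.f0 e) = d (Y.f1 e)) →
      ∃ d' : ℤ × ℤ → ZMod 2, ∀ e ∈ E', d (Y.f0 e) = d' (c (Y.f0 e)) ∧ d (Y.f1 e) = d' (c (Y.f1 e))) :
    Rcs127Hat (rcs127Minor Y V' F' E' c) π := by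
  classical
  obtain ⟨HP, HX⟩ := h
  constructor
  · intro d ρ
    show ∑ e ∈ E', (d (c (Y.f0 e)) + d (c (Y.f1 e))) * (ρ (π (Y.p0 e)) + ρ (π (Y.p1 e))) = 0
    rw [← HP (fun f => d (c f)) ρ]
    refine Finset.sum_subset hE fun e he hn => ?_
    rw [c1 e he hn, CharTwo.add_self_eq_zero, zero_mul]
  · intro y hy
    have hsum : ∀ ρ : ℤ × ℤ → ZMod 2, ∑ e ∈ Y.E, (if e ∈ E' then y e else 0) * (ρ (π (Y.p0 e)) + ρ (π (Y.p1 e))) =
        ∑ e ∈ E', y e * (ρ (π (Y.p0 e)) + ρ (π (Y.p1 e))) := by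
      intro ρ
      rw [← Finset.sum_subset hE (fun e he hn => by rw [if_neg hn, zero_mul])]
      exact Finset.sum_congr rfl fun e he => by rw [if_pos he]
    obtain ⟨d, hd⟩ := HX (fun e => if e ∈ E' then y e else 0) (fun ρ => (hsum ρ).trans (hy ρ))
    obtain ⟨d', hd'⟩ := c2 d (fun e he hn => by
      have := hd e he
      simp only [if_neg hn] at this
      exact CharTwo.add_eq_zero.1 this.symm)
    refine ⟨d', fun e he => ?_⟩
    have := hd e (hE he)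
    simp only [if_pos (show e ∈ E' from he)] at this
    show y e = d' (c (Y.f0 e)) + d' (c (Y.f1 e))
    rw [this, (hd' e he).1, (hd' e he).2]

/-- the contraction of a set of faces `T` to the pole `q` -/
def rcs127Ct (T : Finset (ℤ × ℤ)) (q f : ℤ × ℤ) : ℤ × ℤ := if f ∈ T then q else f

/-- **the unexplored system as a minor of `Y`**: the sites of `J` and the pairs with an endpoint in `J` are deleted, the faces of the deleted pairs are contracted to the pole `q` -/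
def rcs127OutC (Y : Rcy162Sys) (J : Finset (ℤ × ℤ)) (q : ℤ × ℤ) : Rcy162Sys :=
  rcs127Minor Y (Y.V \ J) (insert q (Y.Fc \ rcs127V1 (rcs127Sw Y) J)) (rcs127E2 (rcs127Sw Y) J) (rcs127Ct (rcs127V1 (rcs127Sw Y) J) q)

/-- (G3) the faces of the deleted pairs form one class: a colouring which is constant across the deleted pairs is constant on their faces (deterministic; true for a connected record; producer: 111) -/
def Rcs127G3 (Y : Rcy162Sys) (J : Finset (ℤ × ℤ)) (q : ℤ × ℤ) : Prop :=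
  q ∈ rcs127V1 (rcs127Sw Y) J ∧ ∀ d : ℤ × ℤ → ZMod 2, (∀ e ∈ Y.E, (Y.p0 e ∈ J ∨ Y.p1 e ∈ J) → d (Y.f0 e) = d (Y.f1 e)) →
    ∀ e ∈ Y.E, (Y.p0 e ∈ J ∨ Y.p1 e ∈ J) → d (Y.f0 e) = d q

/-- a face of the explored part is a face of a deleted pair -/
theorem rcs127_mem_V1_sw {Y : Rcy162Sys} {J : Finset (ℤ × ℤ)} {f : ℤ × ℤ} (hf : f ∈ rcs127V1 (rcs127Sw Y) J) :
    ∃ e ∈ Y.E, (Y.p0 e ∈ J ∨ Y.p1 e ∈ J) ∧ (f = Y.f0 e ∨ f = Y.f1 e) := by
  have c1 : ∀ e ∈ rcs127E1 (rcs127Sw Y) J, e ∈ Y.E ∧ (Y.p0 e ∈ J ∨ Y.p1 e ∈ J) :=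
    fun e he => ⟨(rcs127_mem_E1.1 he).1, Or.inl (rcs127_mem_E1.1 he).2.1⟩
  have c0 : ∀ e ∈ rcs127E0 (rcs127Sw Y) J, e ∈ Y.E ∧ (Y.p0 e ∈ J ∨ Y.p1 e ∈ J) := by
    intro e he
    refine ⟨(rcs127_mem_E0.1 he).1, ?_⟩
    have := (rcs127_mem_E0.1 he).2
    by_contra hn
    push Not at hn
    exact this ⟨fun x => absurd x hn.1, fun x => absurd x hn.2⟩
  rcases Finset.mem_union.1 hf with h' | h'
  · rcases Finset.mem_union.1 h' with h' | h'
    · obtain ⟨e, he, rfl⟩ := Finset.mem_image.1 h'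
      exact ⟨e, (c1 e he).1, (c1 e he).2, Or.inl rfl⟩
    · obtain ⟨e, he, rfl⟩ := Finset.mem_image.1 h'
      exact ⟨e, (c1 e he).1, (c1 e he).2, Or.inr rfl⟩
  · rcases Finset.mem_union.1 h' with h' | h'
    · obtain ⟨e, he, rfl⟩ := Finset.mem_image.1 h'
      exact ⟨e, (c0 e he).1, (c0 e he).2, Or.inl rfl⟩
    · obtain ⟨e, he, rfl⟩ := Finset.mem_image.1 h'
      exact ⟨e, (c0 e he).1, (c0 e he).2, Or.inr rfl⟩

/-- the two faces of a deleted pair belong to the explored part -/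
theorem rcs127_del_V1 {Y : Rcy162Sys} {J : Finset (ℤ × ℤ)} {e : (ℤ × ℤ) × Bool} (he : e ∈ Y.E) (hn : e ∉ rcs127E2 (rcs127Sw Y) J) :
    (Y.p0 e ∈ J ∨ Y.p1 e ∈ J) ∧ Y.f0 e ∈ rcs127V1 (rcs127Sw Y) J ∧ Y.f1 e ∈ rcs127V1 (rcs127Sw Y) J := by
  by_cases a0 : Y.p0 e ∈ J <;> by_cases a1 : Y.p1 e ∈ J
  · have h1 : e ∈ rcs127E1 (rcs127Sw Y) J := rcs127_mem_E1.2 ⟨he, a0, a1⟩
    exact ⟨Or.inl a0, rcs127_p_V1 h1⟩
  · have h0 : e ∈ rcs127E0 (rcs127Sw Y) J := rcs127_mem_E0.2 ⟨he, fun x => a1 (x.1 a0)⟩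
    exact ⟨Or.inl a0, rcs127_V0_sub_V1 (rcs127_p_V0 h0).1, rcs127_V0_sub_V1 (rcs127_p_V0 h0).2⟩
  · have h0 : e ∈ rcs127E0 (rcs127Sw Y) J := rcs127_mem_E0.2 ⟨he, fun x => a0 (x.2 a1)⟩
    exact ⟨Or.inr a1, rcs127_V0_sub_V1 (rcs127_p_V0 h0).1, rcs127_V0_sub_V1 (rcs127_p_V0 h0).2⟩
  · exact absurd (rcs127_mem_E2 (Z := rcs127Sw Y).2 ⟨he, a0, a1⟩) hn

/-- **exactness passes to the unexplored system of a connected record** -/
theorem rcs127_hat_outC {Y : Rcy162Sys} {π : ℤ × ℤ → ℤ × ℤ} (h : Rcs127Hat Y π) {J : Finset (ℤ × ℤ)} {q : ℤ × ℤ} (g3 : Rcs127G3 Y J q) :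
    Rcs127Hat (rcs127OutC Y J q) π := by
  refine rcs127_hat_minor h _ _ (E' := rcs127E2 (rcs127Sw Y) J) (fun e he => (rcs127_mem_E2.1 he).1) _ ?_ ?_
  · intro e he hn
    obtain ⟨-, a0, a1⟩ := rcs127_del_V1 he hn
    unfold rcs127Ct
    rw [if_pos a0, if_pos a1]
  · intro d hd
    have hd' : ∀ e ∈ Y.E, (Y.p0 e ∈ J ∨ Y.p1 e ∈ J) → d (Y.f0 e) = d (Y.f1 e) := by
      intro e he hJ
      refine hd e he fun h2 => ?_
      obtain ⟨-, b0, b1⟩ := rcs127_mem_E2.1 h2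
      exact hJ.elim b0 b1
    have key : ∀ f, d f = d (rcs127Ct (rcs127V1 (rcs127Sw Y) J) q f) := by
      intro f
      unfold rcs127Ct
      by_cases hf : f ∈ rcs127V1 (rcs127Sw Y) J
      · rw [if_pos hf]
        obtain ⟨e, he, hJ, rfl | rfl⟩ := rcs127_mem_V1_sw hf
        · exact g3.2 d hd' e he hJ
        · rw [← hd' e he hJ]
          exact g3.2 d hd' e he hJ
      · rw [if_neg hf]
    exact ⟨d, fun e _ => ⟨key _, key _⟩⟩

/-! ## 11. the pinned unexplored system and its minor have proportional sums -/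

section outc

variable {Y : Rcy162Sys} {A₀ J : Finset (ℤ × ℤ)} {q : ℤ × ℤ}

theorem rcs127_outC_wf (hw : Y.WF) : (rcs127OutC Y J q).WF := by
  have hc : ∀ f ∈ Y.Fc, rcs127Ct (rcs127V1 (rcs127Sw Y) J) q f ∈ insert q (Y.Fc \ rcs127V1 (rcs127Sw Y) J) := by
    intro f hf
    unfold rcs127Ct
    by_cases h : f ∈ rcs127V1 (rcs127Sw Y) J
    · rw [if_pos h]; exact Finset.mem_insert_self _ _
    · rw [if_neg h]; exact Finset.mem_insert_of_mem (Finset.mem_sdiff.2 ⟨hf, h⟩)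
  refine ⟨fun e he => ?_, fun e he => ?_, fun e he => ?_, fun e he => ?_⟩
  · obtain ⟨a, b0, b1⟩ := rcs127_mem_E2.1 he
    exact Finset.mem_sdiff.2 ⟨hw.p0 e a, b0⟩
  · obtain ⟨a, b0, b1⟩ := rcs127_mem_E2.1 he
    exact Finset.mem_sdiff.2 ⟨hw.p1 e a, b1⟩
  · exact hc _ (hw.f0 e (rcs127_mem_E2.1 he).1)
  · exact hc _ (hw.f1 e (rcs127_mem_E2.1 he).1)

/-- reading a face through the contraction -/
theorem rcs127_ct_mem (hq : q ∈ rcs127V1 (rcs127Sw Y) J) {D₀ : Finset (ℤ × ℤ)} (hD : D₀ ⊆ Y.Fc \ rcs127V1 (rcs127Sw Y) J) {f : ℤ × ℤ}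
    (hf : f ∈ rcs127V1 (rcs127Sw Y) J → f ∈ rcs127V0 (rcs127Sw Y) J) :
    rcs127Ct (rcs127V1 (rcs127Sw Y) J) q f ∈ insert q D₀ ↔ f ∈ D₀ ∪ rcs127V0 (rcs127Sw Y) J := by
  unfold rcs127Ct
  by_cases h : f ∈ rcs127V1 (rcs127Sw Y) J
  · rw [if_pos h]
    exact ⟨fun _ => Finset.mem_union.2 (Or.inr (hf h)), fun _ => Finset.mem_insert_self _ _⟩
  · rw [if_neg h, Finset.mem_insert, Finset.mem_union]
    constructor
    · rintro (rfl | h')
      · exact absurd hq h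
      · exact Or.inl h'
    · rintro (h' | h')
      · exact Or.inr h'
      · exact absurd (rcs127_V0_sub_V1 h') h

/-- **the minor with its pole plus = the unexplored system with `d = +` on the cut** -/
theorem rcs127_outC_pin (ha : Rcs127Adm (rcs127Sw Y) A₀ J) (hq : q ∈ rcs127V1 (rcs127Sw Y) J) (t : ℝ) (k₂ : Finset (ℤ × ℤ) → Prop)
    (X : RswCfg → ℝ) (hX : ∀ S D O, X ⟨S, D, O⟩ = X ⟨S, ∅, O⟩) :
    (rcs127OutC Y J q).sum t (fun ω => k₂ ω.S ∧ q ∈ ω.D) X = (rcs127OutP Y J).sum t (Rcs127KP Y J k₂) X := by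
  classical
  set B := Y.Fc \ rcs127V1 (rcs127Sw Y) J with hB
  set V0 := rcs127V0 (rcs127Sw Y) J with hV0
  have hqB : q ∉ B := fun h => (Finset.mem_sdiff.1 h).2 hq
  have hdis : ∀ D₀, D₀ ⊆ B → Disjoint D₀ V0 := by
    intro D₀ hD
    rw [Finset.disjoint_left]
    intro f h1 h2
    exact (Finset.mem_sdiff.1 (hD h1)).2 (rcs127_V0_sub_V1 h2)
  show ∑ S ∈ (Y.V \ J).powerset, ∑ D ∈ (insert q B).powerset, ∑ O ∈ (rcs127E2 (rcs127Sw Y) J).powerset,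
      (rcs127OutC Y J q).wt t (fun ω => k₂ ω.S ∧ q ∈ ω.D) ⟨S, D, O⟩ * X ⟨S, D, O⟩ =
    ∑ S ∈ (Y.V \ J).powerset, ∑ D ∈ (B ∪ V0).powerset, ∑ O ∈ (rcs127E2 (rcs127Sw Y) J).powerset,
      (rcs127OutP Y J).wt t (Rcs127KP Y J k₂) ⟨S, D, O⟩ * X ⟨S, D, O⟩
  refine Finset.sum_congr rfl fun S _ => ?_
  rw [Finset.sum_powerset_insert hqB]
  have z1 : ∑ D ∈ B.powerset, ∑ O ∈ (rcs127E2 (rcs127Sw Y) J).powerset,
      (rcs127OutC Y J q).wt t (fun ω => k₂ ω.S ∧ q ∈ ω.D) ⟨S, D, O⟩ * X ⟨S, D, O⟩ = 0 := by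
    refine Finset.sum_eq_zero fun D hD => Finset.sum_eq_zero fun O _ => ?_
    rw [rcy162_wt_of_not _ (K := fun ω => k₂ ω.S ∧ q ∈ ω.D) (ω := ⟨S, D, O⟩) (fun h => hqB (Finset.mem_powerset.1 hD h.2)), zero_mul]
  rw [z1, zero_add]
  have hP : ∑ D ∈ (B ∪ V0).powerset, ∑ O ∈ (rcs127E2 (rcs127Sw Y) J).powerset, (rcs127OutP Y J).wt t (Rcs127KP Y J k₂) ⟨S, D, O⟩ * X ⟨S, D, O⟩ =
      ∑ D₀ ∈ B.powerset, ∑ O ∈ (rcs127E2 (rcs127Sw Y) J).powerset, (rcs127OutP Y J).wt t (Rcs127KP Y J k₂) ⟨S, D₀ ∪ V0, O⟩ * X ⟨S, D₀ ∪ V0, O⟩ := by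
    rw [← Finset.sum_filter_of_ne (p := fun D => V0 ⊆ D) (fun D _ hne => by
      by_contra h
      refine hne (Finset.sum_eq_zero fun O _ => ?_)
      rw [rcy162_wt_of_not _ (K := Rcs127KP Y J k₂) (ω := ⟨S, D, O⟩) (fun hk => h fun f hf => (hk.1 f hf).2 rfl), zero_mul])]
    refine Finset.sum_nbij' (fun D => D \ V0) (fun D₀ => D₀ ∪ V0) ?_ ?_ ?_ ?_ ?_
    · intro D hD
      obtain ⟨h1, h2⟩ := Finset.mem_filter.1 hD
      refine Finset.mem_powerset.2 fun f hf => ?_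
      obtain ⟨f1, f2⟩ := Finset.mem_sdiff.1 hf
      exact (Finset.mem_union.1 (Finset.mem_powerset.1 h1 f1)).resolve_right f2
    · intro D₀ hD
      exact Finset.mem_filter.2 ⟨Finset.mem_powerset.2 (Finset.union_subset_union_left (Finset.mem_powerset.1 hD)), Finset.subset_union_right⟩
    · intro D hD
      exact Finset.sdiff_union_of_subset (Finset.mem_filter.1 hD).2
    · intro D₀ hD
      exact Finset.union_sdiff_cancel_right (hdis D₀ (Finset.mem_powerset.1 hD))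
    · intro D hD
      rw [Finset.sdiff_union_of_subset (Finset.mem_filter.1 hD).2]
  rw [hP]
  refine Finset.sum_congr rfl fun D₀ hD => Finset.sum_congr rfl fun O _ => ?_
  have hD' := Finset.mem_powerset.1 hD
  rw [hX S (insert q D₀) O, hX S (D₀ ∪ V0) O]
  congr 1
  by_cases hk : k₂ S
  · rw [rcy162_wt_of _ (K := fun ω => k₂ ω.S ∧ q ∈ ω.D) (ω := ⟨S, insert q D₀, O⟩) ⟨hk, Finset.mem_insert_self _ _⟩,
      rcy162_wt_of _ (K := Rcs127KP Y J k₂) (ω := ⟨S, D₀ ∪ V0, O⟩)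
        ⟨fun f hf => ⟨fun _ => rfl, fun _ => Finset.mem_union.2 (Or.inr hf)⟩, hk⟩]
    refine Finset.prod_congr rfl fun e he => ?_
    have g := ha.geo e he
    have m0 := rcs127_ct_mem hq hD' g.1
    have m1 := rcs127_ct_mem hq hD' g.2
    exact rcs127_fac_congr _ _ t Iff.rfl Iff.rfl Iff.rfl m0 m1
  · rw [rcy162_wt_of_not _ (K := fun ω => k₂ ω.S ∧ q ∈ ω.D) (ω := ⟨S, insert q D₀, O⟩) (fun h => hk h.1),
      rcy162_wt_of_not _ (K := Rcs127KP Y J k₂) (ω := ⟨S, D₀ ∪ V0, O⟩) (fun h => hk h.2)]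

/-- **the free minor = twice the unexplored system with `d = +` on the cut** (observables of `(s, O)`) -/
theorem rcs127_outC_two (hw : Y.WF) (ha : Rcs127Adm (rcs127Sw Y) A₀ J) (hq : q ∈ rcs127V1 (rcs127Sw Y) J) (t : ℝ) (k₂ : Finset (ℤ × ℤ) → Prop)
    (X : RswCfg → ℝ) (hX : ∀ S D O, X ⟨S, D, O⟩ = X ⟨S, ∅, O⟩) :
    (rcs127OutC Y J q).sum t (fun ω => k₂ ω.S) X = 2 * (rcs127OutP Y J).sum t (Rcs127KP Y J k₂) X := by
  classical
  have hwf : (rcs127OutC Y J q).WF := rcs127_outC_wf hw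
  have e0 : X = fun ω => (if q ∈ ω.D then X ω else 0) + (if q ∉ ω.D then X ω else 0) := by
    funext ω
    by_cases h : q ∈ ω.D <;> simp [h]
  have e1 : (rcs127OutC Y J q).sum t (fun ω => k₂ ω.S) X =
      (rcs127OutC Y J q).sum t (fun ω => k₂ ω.S ∧ q ∈ ω.D) X + (rcs127OutC Y J q).sum t (fun ω => k₂ ω.S ∧ q ∉ ω.D) X := by
    conv_lhs => rw [e0]
    rw [rcy162_sum_add, rcs127_sum_ite, rcs127_sum_ite]
  have e2 : (rcs127OutC Y J q).sum t (fun ω => k₂ ω.S ∧ q ∉ ω.D) X = (rcs127OutC Y J q).sum t (fun ω => k₂ ω.S ∧ q ∈ ω.D) X := by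
    rw [rcy162_flipD_sum _ hwf]
    have eX : (fun ω => X ((rcs127OutC Y J q).flipD ω)) = X := by
      funext ω
      obtain ⟨S, D, O⟩ := ω
      show X ⟨S, _, O⟩ = X ⟨S, D, O⟩
      rw [hX, hX S D O]
    rw [eX]
    refine rcy162_sum_congr_K _ _ (fun ω hω => ?_) X
    show (k₂ ω.S ∧ q ∉ (rcs127OutC Y J q).Fc \ ω.D) ↔ (k₂ ω.S ∧ q ∈ ω.D)
    have hqF : q ∈ (rcs127OutC Y J q).Fc := Finset.mem_insert_self _ _
    rw [Finset.mem_sdiff]
    constructor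
    · rintro ⟨a, b⟩
      refine ⟨a, ?_⟩
      by_contra h
      exact b ⟨hqF, h⟩
    · rintro ⟨a, b⟩
      exact ⟨a, fun h => h.2 b⟩
  rw [e1, e2, rcs127_outC_pin ha hq t k₂ X hX]
  ring

end outc

/-! ## 12. eq. (3.5) PASSES TO A CONTRACTION (hat form): contract a connected set of sites, delete the pairs inside it -/

/-- the contraction of the sites of `U` to `u₀`, after `π` -/
def rcs127CtV (π : ℤ × ℤ → ℤ × ℤ) (U : Finset (ℤ × ℤ)) (u₀ v : ℤ × ℤ) : ℤ × ℤ := if π v ∈ U then u₀ else π v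

/-- chain form of connectedness: `v` is joined to `u₀` by a chain of deleted pairs -/
def Rcs127Chain (Y : Rcy162Sys) (π : ℤ × ℤ → ℤ × ℤ) (E' : Finset ((ℤ × ℤ) × Bool)) (u₀ v : ℤ × ℤ) : Prop :=
  ∃ z : (ℤ × ℤ) × Bool → ZMod 2, (∀ e ∈ E', z e = 0) ∧ ∀ ρ : ℤ × ℤ → ZMod 2, ∑ e ∈ Y.E, z e * (ρ (π (Y.p0 e)) + ρ (π (Y.p1 e))) = ρ v + ρ u₀

theorem rcs127_chain_refl (Y : Rcy162Sys) (π : ℤ × ℤ → ℤ × ℤ) (E' : Finset ((ℤ × ℤ) × Bool)) (u₀ : ℤ × ℤ) : Rcs127Chain Y π E' u₀ u₀ :=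
  ⟨fun _ => 0, fun _ _ => rfl, fun ρ => by simp only [zero_mul, Finset.sum_const_zero, CharTwo.add_self_eq_zero]⟩

/-- one more deleted pair -/
theorem rcs127_chain_step {Y : Rcy162Sys} {π : ℤ × ℤ → ℤ × ℤ} {E' : Finset ((ℤ × ℤ) × Bool)} {u₀ v w : ℤ × ℤ} (h : Rcs127Chain Y π E' u₀ v)
    {e : (ℤ × ℤ) × Bool} (he : e ∈ Y.E) (hn : e ∉ E') (hvw : (π (Y.p0 e) = v ∧ π (Y.p1 e) = w) ∨ (π (Y.p0 e) = w ∧ π (Y.p1 e) = v)) :
    Rcs127Chain Y π E' u₀ w := by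
  classical
  obtain ⟨z, z0, hz⟩ := h
  refine ⟨fun e' => z e' + if e' = e then 1 else 0, fun e' he' => ?_, fun ρ => ?_⟩
  · have : e' ≠ e := fun h => hn (h ▸ he')
    simp only [z0 e' he', if_neg this, add_zero]
  · simp only [add_mul, Finset.sum_add_distrib, hz ρ, ite_mul, one_mul, zero_mul, Finset.sum_ite_eq', if_pos he]
    rcases hvw with ⟨a, b⟩ | ⟨a, b⟩
    · rw [a, b]
      have : ρ v + ρ v = 0 := CharTwo.add_self_eq_zero _
      linear_combination this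
    · rw [a, b]
      have : ρ v + ρ v = 0 := CharTwo.add_self_eq_zero _
      linear_combination this

/-- **exactness passes to the contraction**: the deleted pairs have both ends in `U`, every site of `U` is joined to `u₀` by deleted pairs -/
theorem rcs127_hat_contract {Y : Rcy162Sys} {π : ℤ × ℤ → ℤ × ℤ} (h : Rcs127Hat Y π) (V' F' : Finset (ℤ × ℤ)) {E' : Finset ((ℤ × ℤ) × Bool)} (hE : E' ⊆ Y.E)
    {U : Finset (ℤ × ℤ)} {u₀ : ℤ × ℤ} (hu : u₀ ∈ U) (hcon : ∀ e ∈ Y.E, e ∉ E' → π (Y.p0 e) ∈ U ∧ π (Y.p1 e) ∈ U)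
    (hch : ∀ v ∈ U, Rcs127Chain Y π E' u₀ v) :
    Rcs127Hat (rcs127Res Y V' F' E') (rcs127CtV π U u₀) := by
  classical
  obtain ⟨HP, HX⟩ := h
  have hρ : ∀ (ρ : ℤ × ℤ → ZMod 2) (v : ℤ × ℤ), ρ (rcs127CtV π U u₀ v) = (fun w => if w ∈ U then ρ u₀ else ρ w) (π v) := by
    intro ρ v
    unfold rcs127CtV
    by_cases hv : π v ∈ U
    · simp only [if_pos hv]
    · simp only [if_neg hv]
  constructor
  · intro d ρ
    show ∑ e ∈ E', (d (Y.f0 e) + d (Y.f1 e)) * (ρ (rcs127CtV π U u₀ (Y.p0 e)) + ρ (rcs127CtV π U u₀ (Y.p1 e))) = 0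
    rw [← HP d (fun w => if w ∈ U then ρ u₀ else ρ w)]
    simp only [hρ]
    refine Finset.sum_subset hE fun e he hn => ?_
    obtain ⟨a, b⟩ := hcon e he hn
    simp only [if_pos a, if_pos b, CharTwo.add_self_eq_zero, mul_zero]
  · intro y hy
    have hy' : ∀ ρ : ℤ × ℤ → ZMod 2, ∑ e ∈ E', y e * (ρ (rcs127CtV π U u₀ (Y.p0 e)) + ρ (rcs127CtV π U u₀ (Y.p1 e))) = 0 := hy
    -- the functional
    set φ : (ℤ × ℤ → ZMod 2) → ZMod 2 := fun ρ => ∑ e ∈ E', y e * (ρ (π (Y.p0 e)) + ρ (π (Y.p1 e))) with hφ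
    set W : Finset (ℤ × ℤ) := (Y.E.image fun e => π (Y.p0 e)) ∪ (Y.E.image fun e => π (Y.p1 e)) ∪ U with hW
    have hW0 : ∀ e ∈ E', π (Y.p0 e) ∈ W := fun e he =>
      Finset.mem_union.2 (Or.inl (Finset.mem_union.2 (Or.inl (Finset.mem_image_of_mem _ (hE he)))))
    have hW1 : ∀ e ∈ E', π (Y.p1 e) ∈ W := fun e he =>
      Finset.mem_union.2 (Or.inl (Finset.mem_union.2 (Or.inr (Finset.mem_image_of_mem _ (hE he)))))
    have hUW : U ⊆ W := Finset.subset_union_right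
    set a : ℤ × ℤ → ZMod 2 := fun v => φ (fun w => if w = v then 1 else 0) with ha
    have dec : ∀ ρ : ℤ × ℤ → ZMod 2, φ ρ = ∑ v ∈ W, ρ v * a v := by
      intro ρ
      have pt : ∀ w ∈ W, ρ w = ∑ v ∈ W, ρ v * (if w = v then 1 else 0) := by
        intro w hw
        simp only [mul_ite, mul_one, mul_zero, Finset.sum_ite_eq, if_pos hw]
      simp only [ha, hφ, Finset.mul_sum]
      rw [Finset.sum_comm]
      refine Finset.sum_congr rfl fun e he => ?_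
      rw [pt _ (hW0 e he), pt _ (hW1 e he), ← Finset.sum_add_distrib, Finset.mul_sum]
      refine Finset.sum_congr rfl fun v _ => ?_
      ring
    have hy'' : ∀ ρ : ℤ × ℤ → ZMod 2, ∑ e ∈ E', y e * ((if π (Y.p0 e) ∈ U then ρ u₀ else ρ (π (Y.p0 e))) + (if π (Y.p1 e) ∈ U then ρ u₀ else ρ (π (Y.p1 e)))) = 0 := by
      intro ρ
      rw [← hy' ρ]
      refine Finset.sum_congr rfl fun e _ => ?_
      rw [hρ ρ, hρ ρ]
    have a0 : ∀ v, v ∉ U → a v = 0 := by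
      intro v hv
      refine Eq.trans ?_ (hy'' (fun w => if w = v then 1 else 0))
      refine Finset.sum_congr rfl fun e _ => ?_
      have key : ∀ w : ℤ × ℤ, (if w = v then (1 : ZMod 2) else 0) = if w ∈ U then (if u₀ = v then 1 else 0) else (if w = v then 1 else 0) := by
        intro w
        by_cases hw : w ∈ U
        · have n1 : w ≠ v := fun h => hv (h ▸ hw)
          have n2 : u₀ ≠ v := fun h => hv (h ▸ hu)
          rw [if_pos hw, if_neg n1, if_neg n2]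
        · rw [if_neg hw]
      exact congrArg₂ (fun x x' => y e * (x + x')) (key (π (Y.p0 e))) (key (π (Y.p1 e)))
    have aU : ∑ v ∈ U, a v = 0 := by
      have e1 : φ (fun w => if w ∈ U then 1 else 0) = 0 := by
        refine Eq.trans ?_ (hy'' (fun w => if w = u₀ then 1 else 0))
        refine Finset.sum_congr rfl fun e _ => ?_
        have key : ∀ w : ℤ × ℤ, (if w ∈ U then (1 : ZMod 2) else 0) = if w ∈ U then (if u₀ = u₀ then 1 else 0) else (if w = u₀ then 1 else 0) := by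
          intro w
          by_cases hw : w ∈ U
          · rw [if_pos hw, if_pos hw, if_pos rfl]
          · have n1 : w ≠ u₀ := fun h => hw (h ▸ hu)
            rw [if_neg hw, if_neg hw, if_neg n1]
        exact congrArg₂ (fun x x' => y e * (x + x')) (key (π (Y.p0 e))) (key (π (Y.p1 e)))
      have e2 := dec (fun w => if w ∈ U then 1 else 0)
      rw [e1] at e2
      rw [e2, ← Finset.sum_subset hUW (fun v _ hv => by simp only [if_neg hv, zero_mul])]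
      exact Finset.sum_congr rfl fun v hv => by simp only [if_pos hv, one_mul]
    have decU : ∀ ρ : ℤ × ℤ → ZMod 2, φ ρ = ∑ v ∈ U, ρ v * a v := by
      intro ρ
      rw [dec, ← Finset.sum_subset hUW (fun v _ hv => by rw [a0 v hv, mul_zero])]
    -- the chains
    have hch' : ∀ v : ℤ × ℤ, ∃ z : (ℤ × ℤ) × Bool → ZMod 2, v ∈ U → ((∀ e ∈ E', z e = 0) ∧
        ∀ ρ : ℤ × ℤ → ZMod 2, ∑ e ∈ Y.E, z e * (ρ (π (Y.p0 e)) + ρ (π (Y.p1 e))) = ρ v + ρ u₀) := by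
      intro v
      by_cases hv : v ∈ U
      · obtain ⟨z, h1, h2⟩ := hch v hv
        exact ⟨z, fun _ => ⟨h1, h2⟩⟩
      · exact ⟨fun _ => 0, fun h => absurd h hv⟩
    choose zz hzz using hch'
    set z : (ℤ × ℤ) × Bool → ZMod 2 := fun e => ∑ v ∈ U, a v * zz v e with hz
    have z0 : ∀ e ∈ E', z e = 0 := fun e he => Finset.sum_eq_zero fun v hv => by rw [(hzz v hv).1 e he, mul_zero]
    have zs : ∀ ρ : ℤ × ℤ → ZMod 2, ∑ e ∈ Y.E, z e * (ρ (π (Y.p0 e)) + ρ (π (Y.p1 e))) = φ ρ := by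
      intro ρ
      simp only [hz, Finset.sum_mul]
      rw [Finset.sum_comm]
      have : ∀ v ∈ U, ∑ e ∈ Y.E, a v * zz v e * (ρ (π (Y.p0 e)) + ρ (π (Y.p1 e))) = a v * (ρ v + ρ u₀) := by
        intro v hv
        rw [← (hzz v hv).2 ρ, Finset.mul_sum]
        exact Finset.sum_congr rfl fun e _ => by ring
      rw [Finset.sum_congr rfl this, decU ρ]
      simp only [mul_add, Finset.sum_add_distrib]
      rw [← Finset.sum_mul, aU, zero_mul, add_zero]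
      exact Finset.sum_congr rfl fun v _ => mul_comm _ _
    obtain ⟨d, hd⟩ := HX (fun e => if e ∈ E' then y e else z e) (by
      intro ρ
      have e1 : ∀ e ∈ Y.E, (if e ∈ E' then y e else z e) * (ρ (π (Y.p0 e)) + ρ (π (Y.p1 e))) =
          (if e ∈ E' then y e else 0) * (ρ (π (Y.p0 e)) + ρ (π (Y.p1 e))) + z e * (ρ (π (Y.p0 e)) + ρ (π (Y.p1 e))) := by
        intro e _
        by_cases he : e ∈ E'
        · rw [if_pos he, if_pos he, z0 e he, zero_mul, add_zero]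
        · rw [if_neg he, if_neg he, zero_mul, zero_add]
      rw [Finset.sum_congr rfl e1, Finset.sum_add_distrib, zs ρ]
      have e2 : ∑ e ∈ Y.E, (if e ∈ E' then y e else 0) * (ρ (π (Y.p0 e)) + ρ (π (Y.p1 e))) = φ ρ := by
        rw [← Finset.sum_subset hE (fun e he hn => by rw [if_neg hn, zero_mul])]
        exact Finset.sum_congr rfl fun e he => by rw [if_pos he]
      rw [e2, CharTwo.add_self_eq_zero])
    refine ⟨d, fun e he => ?_⟩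
    have := hd e (hE he)
    simp only [if_pos (show e ∈ E' from he)] at this
    exact this

/-- the equation lemmas of the definitions of PART 2 are generated HERE (RULES.md, rule 6) -/
theorem rcs127_eqns_cite : True := by
  have := @rcs127Sw.eq_1
  have := @rcs127Fac2.eq_1
  have := @rcs127Wt2.eq_1
  have := @rcs127N2.eq_1
  have := @rcs127FldD.eq_1
  have := @rcs127Sg.eq_1
  have := @Rcs127MixD.eq_1
  have := @rcs127QD.eq_1
  have := @Rcs127Search.eq_1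
  have := @rcs127Res.eq_1
  have := @rcs127R.eq_1
  have := @Rcs127Pin.eq_1
  have := @rcs127Glue.eq_1
  have := @rcs127Cf.eq_1
  have := @rcs127Rec.eq_1
  have := @rcs127E1.eq_1
  have := @rcs127E2.eq_1
  have := @rcs127E0.eq_1
  have := @rcs127V0.eq_1
  have := @rcs127V1.eq_1
  have := @rcs127V2.eq_1
  have := @rcs127In.eq_1
  have := @rcs127Out.eq_1
  have := @rcs127RIn.eq_1
  have := @rcs127ROut.eq_1
  have := @Rcs127Ph.eq_1
  have := @rcs127C.eq_1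
  have := @rcs127Ker.eq_1
  have := @rcs127OutP.eq_1
  have := @Rcs127KP.eq_1
  have := @rcs127T.eq_1
  have := @rcs127AV.eq_1
  have := @rcs127AF.eq_1
  have := @rcs127F.eq_1
  have := @Rcs127PerJ.eq_1
  have := @Rcs127G1.eq_1
  have := @Rcs127G2.eq_1
  have := @Rcs127Conn.eq_1
  have := @Rcs127PerJc.eq_1
  have := @Rcs127Hat.eq_1
  have := @rcs127Minor.eq_1
  have := @rcs127Ct.eq_1
  have := @rcs127OutC.eq_1
  have := @Rcs127G3.eq_1
  have := @rcs127CtV.eq_1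
  have := @Rcs127Chain.eq_1
  trivial

end Claimed.Agent.R292
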