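import Claimed.Agent.R291.Ann.LenCyl

/-!
# Row 292 (S0540), Rsw/Len182 : R8 CORE, BLOCK A2 = HORIZONTAL LENGTHENING + AVERAGED GLUING, OVER AN ABSTRACT LAW      (owner helper182; block named by 121; prefix `rln182_`, defs `rln182*`, `Rln182*`)

Port of R291 `Ann/Len` Parts 2-3 + `Ann/LenCyl` (193).   R291 typed them over `ClSys V Y`, whose two spins live on the SAME sites: NOT importable for the Ashkin--Teller pairs (s on vertices, d on faces).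
Here the machine is typed over `Rln182Law Ω Y` = ANY finite weighted space whose configurations carry "non-plus cells", an order, and a notion of full agreement on a set of cells.
So it serves the plane problems of Defs/RSW, the abstract edge-pair systems of 162 (Rsw/Sys162) and the cylinder, whatever their final vocabulary; `ClSys` is an instance too.
IMPORTED AS THEY ARE (model free): `Ann/Len` Part 1 + 1b (`LenGeo`, `len_glue`, `len_D_iff`, `len_Q_iff`, `len_Hp_congr`, `len_E3_of_Vp`, ...), the chart `lcyG`, `lcyLift`, `lcy_lift_red`, ... of `Ann/LenCyl` Part 1,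
`lcy_H_tall`, and the set-level events of `Defs/Seed`, `Ann/SeedDet` (`SdH`, `SdV`, `SdE3`, `sd_tr_H`, `sd_e3_vert`, ...), to be read on `ℤ²` through the refinement of 111 / 131 (cells = sites of `TV`).

* Part A  `Rln182Law`, `.Ok`, sums `N Z P`, records `rln182Rec`, stopping property, **`rln182_fibre`**, `Rln182SE` (strip estimate), `Rln182Fkg` (FKG under the records),
          **`rln182_gen`** (spectator form `c P[A₁] P[A₂] ≤ P[C]`), `rln182_gen1`, **`rln182_step`**, **`rln182_iter`**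
* Part B  dictionary chart <-> cover for an arbitrary periodic set (`rln182_Hp_iff`, `rln182_E3`)
* Part C  a family of laws on the cylinders `ℤ/L × [0, H)`: `rln182P`, contracts `Rln182CSE`, `Rln182CFkg`, `Rln182Shift` (EVEN shifts only: warning N2 of CORE_DICT),
          **`rln182_len : Rln182Len`**, **`rln182_glue : Rln182Glue`** (= `SdLen`, `SdGlue` of R291 Defs/Seed, one class of cells).      0 sorry.
-/

set_option autoImplicit false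
set_option linter.unusedSectionVars false
set_option linter.unusedVariables false

namespace Claimed.Agent.R292

open Claims Claims.C0467 Relation Claimed.Agent.R291

/-! ## Part A: the abstract machine -/

/-- a finite weighted space whose configurations carry non-plus cells -/
structure Rln182Law (Ω Y : Type) where
  /-- the configurations -/
  cfgs : Finset Ω
  /-- the weight -/
  wt : Ω → ℝ
  /-- the cells -/
  cells : Finset Y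
  /-- the order of the configurations -/
  le : Ω → Ω → Prop
  /-- the cell is NOT plus -/
  np : Ω → Y → Prop
  /-- full agreement on a set of cells (statuses and all first spins of these cells) -/
  agr : Finset Y → Ω → Ω → Prop

section A

variable {Ω Y : Type}

/-- the axioms -/
structure Rln182Law.Ok (𝓛 : Rln182Law Ω Y) : Prop where
  wt_nonneg : ∀ ω ∈ 𝓛.cfgs, 0 ≤ 𝓛.wt ω
  np_anti : ∀ ω ω', 𝓛.le ω ω' → ∀ y ∈ 𝓛.cells, 𝓛.np ω' y → 𝓛.np ω y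
  agr_refl : ∀ Q ω, 𝓛.agr Q ω ω
  agr_symm : ∀ Q ω ω', 𝓛.agr Q ω ω' → 𝓛.agr Q ω' ω
  agr_trans : ∀ Q ω ω' ω'', 𝓛.agr Q ω ω' → 𝓛.agr Q ω' ω'' → 𝓛.agr Q ω ω''
  agr_np : ∀ Q ω ω', 𝓛.agr Q ω ω' → ∀ y ∈ Q, (𝓛.np ω y ↔ 𝓛.np ω' y)

open Classical in
/-- unnormalised sum under the constraint `K` -/
noncomputable def Rln182Law.N (𝓛 : Rln182Law Ω Y) (K : Ω → Prop) (F : Ω → ℝ) : ℝ :=
  ∑ ω ∈ 𝓛.cfgs, if K ω then 𝓛.wt ω * F ω else 0

/-- partition function under `K` -/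
noncomputable def Rln182Law.Z (𝓛 : Rln182Law Ω Y) (K : Ω → Prop) : ℝ := 𝓛.N K (fun _ => 1)

open Classical in
/-- indicator -/
noncomputable def rln182Ind (L : Ω → Prop) (ω : Ω) : ℝ := if L ω then 1 else 0

/-- probability of `L` under `K` -/
noncomputable def Rln182Law.P (𝓛 : Rln182Law Ω Y) (K L : Ω → Prop) : ℝ := 𝓛.N K (rln182Ind L) / 𝓛.Z K

/-- increasing function -/
def Rln182Law.Mono (𝓛 : Rln182Law Ω Y) (F : Ω → ℝ) : Prop := ∀ ω ω', 𝓛.le ω ω' → F ω ≤ F ω'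

/-- increasing event -/
def Rln182Law.MonoP (𝓛 : Rln182Law Ω Y) (A : Ω → Prop) : Prop := ∀ ω ω', 𝓛.le ω ω' → A ω → A ω'

open Classical in
/-- the cells looked at by the two explorations inside the box `[a, b]` -/
noncomputable def rln182Q (𝓛 : Rln182Law Ω Y) (G : LenGeo Y) (a b : ℤ) (ω : Ω) : Finset Y :=
  𝓛.cells.filter (fun y => G.Q (𝓛.np ω) a b y)

/-- the record of the two explorations of `ω₀`: the constraint `K` and full agreement with `ω₀` on the cells looked at -/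
def rln182Rec (𝓛 : Rln182Law Ω Y) (K : Ω → Prop) (G : LenGeo Y) (a b : ℤ) (ω₀ ω : Ω) : Prop :=
  K ω ∧ 𝓛.agr (rln182Q 𝓛 G a b ω₀) ω₀ ω

/-- **(SE), the strip estimate** -/
def Rln182SE (𝓛 : Rln182Law Ω Y) (K : Ω → Prop) (G : LenGeo Y) (c : ℝ) (a b : ℤ) : Prop :=
  ∀ ω₀ ∈ 𝓛.cfgs, K ω₀ → G.Hp (𝓛.np ω₀) a b →
    c * 𝓛.Z (rln182Rec 𝓛 K G a b ω₀) ≤
      𝓛.N (rln182Rec 𝓛 K G a b ω₀) (rln182Ind fun ω => G.Vp (fun y => 𝓛.np ω y ∧ ¬ G.D (𝓛.np ω₀) a b y) a b)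

/-- **(FKG)** under `K` and under `K` + full observation of a set of cells -/
structure Rln182Fkg (𝓛 : Rln182Law Ω Y) (K : Ω → Prop) : Prop where
  base : ∀ F G : Ω → ℝ, 𝓛.Mono F → 𝓛.Mono G → 𝓛.N K F * 𝓛.N K G ≤ 𝓛.Z K * 𝓛.N K (fun ω => F ω * G ω)
  obs : ∀ (Q : Finset Y) (ω₀ : Ω) (F G : Ω → ℝ), Q ⊆ 𝓛.cells → ω₀ ∈ 𝓛.cfgs → K ω₀ → 𝓛.Mono F → 𝓛.Mono G →
    𝓛.N (fun ω => K ω ∧ 𝓛.agr Q ω₀ ω) F * 𝓛.N (fun ω => K ω ∧ 𝓛.agr Q ω₀ ω) G ≤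
      𝓛.Z (fun ω => K ω ∧ 𝓛.agr Q ω₀ ω) * 𝓛.N (fun ω => K ω ∧ 𝓛.agr Q ω₀ ω) (fun ω => F ω * G ω)

theorem rln182_eqns_cite : True := by
  have := @Rln182Law.N.eq_1
  have := @Rln182Law.Z.eq_1
  have := @rln182Ind.eq_1
  have := @Rln182Law.P.eq_1
  have := @Rln182Law.Mono.eq_1
  have := @Rln182Law.MonoP.eq_1
  have := @rln182Q.eq_1
  have := @rln182Rec.eq_1
  have := @Rln182SE.eq_1
  trivial

/-! ### indicators and sums -/

theorem rln182_ind_nonneg (L : Ω → Prop) (ω : Ω) : 0 ≤ rln182Ind L ω := by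
  unfold rln182Ind; split_ifs <;> norm_num

theorem rln182_ind_le_one (L : Ω → Prop) (ω : Ω) : rln182Ind L ω ≤ 1 := by
  unfold rln182Ind; split_ifs <;> norm_num

theorem rln182_ind_pos {L : Ω → Prop} {ω : Ω} (h : L ω) : rln182Ind L ω = 1 := by
  unfold rln182Ind; rw [if_pos h]

theorem rln182_ind_neg {L : Ω → Prop} {ω : Ω} (h : ¬ L ω) : rln182Ind L ω = 0 := by
  unfold rln182Ind; rw [if_neg h]

theorem rln182_ind_and (A₁ A₂ : Ω → Prop) (ω : Ω) :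
    rln182Ind (fun ω => A₁ ω ∧ A₂ ω) ω = rln182Ind A₁ ω * rln182Ind A₂ ω := by
  by_cases h1 : A₁ ω
  · by_cases h2 : A₂ ω
    · rw [rln182_ind_pos (L := fun ω => A₁ ω ∧ A₂ ω) ⟨h1, h2⟩, rln182_ind_pos h1, rln182_ind_pos h2, mul_one]
    · rw [rln182_ind_neg (L := fun ω => A₁ ω ∧ A₂ ω) (fun h => h2 h.2), rln182_ind_neg h2, mul_zero]
  · rw [rln182_ind_neg (L := fun ω => A₁ ω ∧ A₂ ω) (fun h => h1 h.1), rln182_ind_neg h1, zero_mul]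

variable (𝓛 : Rln182Law Ω Y)

theorem rln182_ind_mono {L : Ω → Prop} (h : 𝓛.MonoP L) : 𝓛.Mono (rln182Ind L) := by
  intro ω ω' h1
  by_cases hL : L ω
  · rw [rln182_ind_pos hL, rln182_ind_pos (h ω ω' h1 hL)]
  · rw [rln182_ind_neg hL]; exact rln182_ind_nonneg _ _

theorem rln182_N_mono (hS : 𝓛.Ok) (K : Ω → Prop) (F F' : Ω → ℝ) (h : ∀ ω, K ω → F ω ≤ F' ω) : 𝓛.N K F ≤ 𝓛.N K F' := by
  classical
  unfold Rln182Law.N
  refine Finset.sum_le_sum fun ω hω => ?_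
  by_cases hK : K ω
  · rw [if_pos hK, if_pos hK]
    exact mul_le_mul_of_nonneg_left (h ω hK) (hS.wt_nonneg ω hω)
  · rw [if_neg hK, if_neg hK]

theorem rln182_N_nonneg (hS : 𝓛.Ok) (K : Ω → Prop) (F : Ω → ℝ) (h : ∀ ω, K ω → 0 ≤ F ω) : 0 ≤ 𝓛.N K F := by
  classical
  unfold Rln182Law.N
  refine Finset.sum_nonneg fun ω hω => ?_
  by_cases hK : K ω
  · rw [if_pos hK]
    exact mul_nonneg (hS.wt_nonneg ω hω) (h ω hK)
  · rw [if_neg hK]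

theorem rln182_N_eq_zero (K : Ω → Prop) (F : Ω → ℝ) (h : ∀ ω, K ω → F ω = 0) : 𝓛.N K F = 0 := by
  classical
  unfold Rln182Law.N
  refine Finset.sum_eq_zero fun ω _ => ?_
  by_cases hK : K ω
  · rw [if_pos hK, h ω hK, mul_zero]
  · rw [if_neg hK]

theorem rln182_Z_nonneg (hS : 𝓛.Ok) (K : Ω → Prop) : 0 ≤ 𝓛.Z K :=
  rln182_N_nonneg 𝓛 hS K _ fun _ _ => zero_le_one

/-- if the partition function vanishes, so does every sum -/
theorem rln182_N_zero (hS : 𝓛.Ok) (K : Ω → Prop) (hZ : 𝓛.Z K = 0) (F : Ω → ℝ) : 𝓛.N K F = 0 := by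
  classical
  unfold Rln182Law.Z Rln182Law.N at hZ
  have h0 : ∀ ω ∈ 𝓛.cfgs, (if K ω then 𝓛.wt ω * 1 else 0) = 0 := by
    refine (Finset.sum_eq_zero_iff_of_nonneg fun ω hω => ?_).1 hZ
    split_ifs
    · rw [mul_one]; exact hS.wt_nonneg ω hω
    · exact le_rfl
  unfold Rln182Law.N
  refine Finset.sum_eq_zero fun ω hω => ?_
  have := h0 ω hω
  by_cases hK : K ω
  · rw [if_pos hK, mul_one] at this
    rw [if_pos hK, this, zero_mul]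
  · rw [if_neg hK]

theorem rln182_P_mono (hS : 𝓛.Ok) (K : Ω → Prop) {A B : Ω → Prop} (h : ∀ ω, A ω → B ω) : 𝓛.P K A ≤ 𝓛.P K B := by
  unfold Rln182Law.P
  refine div_le_div_of_nonneg_right (rln182_N_mono 𝓛 hS K _ _ fun ω _ => ?_) (rln182_Z_nonneg 𝓛 hS K)
  by_cases hA : A ω
  · rw [rln182_ind_pos hA, rln182_ind_pos (h ω hA)]
  · rw [rln182_ind_neg hA]; exact rln182_ind_nonneg _ _

/-! ### the stopping property and the fibre sum -/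

variable (G : LenGeo Y)

theorem rln182_Q_sub (a b : ℤ) (ω : Ω) : rln182Q 𝓛 G a b ω ⊆ 𝓛.cells := by
  classical
  exact Finset.filter_subset _ _

theorem rln182_agr_np (hS : 𝓛.Ok) (hb : ∀ y, G.band y → y ∈ 𝓛.cells) (a b : ℤ) (ω₀ ω : Ω)
    (h : 𝓛.agr (rln182Q 𝓛 G a b ω₀) ω₀ ω) (y : Y) (hy : G.Q (𝓛.np ω₀) a b y) : 𝓛.np ω₀ y ↔ 𝓛.np ω y := by
  classical
  have hm : y ∈ rln182Q 𝓛 G a b ω₀ := Finset.mem_filter.2 ⟨hb y hy.1.1, hy⟩
  exact hS.agr_np _ _ _ h y hm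

theorem rln182_Q_stop (hS : 𝓛.Ok) (hb : ∀ y, G.band y → y ∈ 𝓛.cells) (a b : ℤ) (ω₀ ω : Ω)
    (h : 𝓛.agr (rln182Q 𝓛 G a b ω₀) ω₀ ω) : rln182Q 𝓛 G a b ω = rln182Q 𝓛 G a b ω₀ := by
  classical
  unfold rln182Q
  refine Finset.filter_congr fun y _ => ?_
  exact (len_Q_iff (rln182_agr_np 𝓛 G hS hb a b ω₀ ω h) y).symm

/-- **the fibre sum**: an inequality which holds under every record holds under `K` -/
theorem rln182_fibre (hS : 𝓛.Ok) (hb : ∀ y, G.band y → y ∈ 𝓛.cells) (K : Ω → Prop) (a b : ℤ) (F F' : Ω → ℝ) (c : ℝ)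
    (h : ∀ ω₀ ∈ 𝓛.cfgs, K ω₀ → c * 𝓛.N (rln182Rec 𝓛 K G a b ω₀) F ≤ 𝓛.N (rln182Rec 𝓛 K G a b ω₀) F') :
    c * 𝓛.N K F ≤ 𝓛.N K F' := by
  classical
  set r : Ω → Ω → Prop := fun ω₀ ω => 𝓛.agr (rln182Q 𝓛 G a b ω₀) ω₀ ω with hr
  have rsymm : ∀ ω₀ ω, r ω₀ ω → r ω ω₀ := by
    intro ω₀ ω h1
    show 𝓛.agr (rln182Q 𝓛 G a b ω) ω ω₀
    rw [rln182_Q_stop 𝓛 G hS hb a b ω₀ ω h1]
    exact hS.agr_symm _ _ _ h1
  have rtrans : ∀ ω₀ ω ω', r ω₀ ω → r ω ω' → r ω₀ ω' := by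
    intro ω₀ ω ω' h1 h2
    have h2' : 𝓛.agr (rln182Q 𝓛 G a b ω) ω ω' := h2
    rw [rln182_Q_stop 𝓛 G hS hb a b ω₀ ω h1] at h2'
    exact hS.agr_trans _ _ _ _ h1 h2'
  set A : Finset Ω := 𝓛.cfgs.filter K with hA
  set key : Ω → Finset Ω := fun ω => A.filter (r ω) with hkey
  have hk : ∀ ω₀ ∈ A, ∀ ω ∈ A, (key ω = key ω₀ ↔ r ω₀ ω) := by
    intro ω₀ h0 ω h1
    constructor
    · intro e
      have : ω ∈ key ω := Finset.mem_filter.2 ⟨h1, hS.agr_refl _ _⟩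
      rw [e] at this
      exact (Finset.mem_filter.1 this).2
    · intro e
      refine Finset.filter_congr fun ω' _ => ?_
      exact ⟨fun h2 => rtrans _ _ _ e h2, fun h2 => rtrans _ _ _ (rsymm _ _ e) h2⟩
  have e : ∀ F : Ω → ℝ, 𝓛.N K F = ∑ k ∈ A.image key, ∑ ω ∈ A.filter (fun ω => key ω = k), 𝓛.wt ω * F ω := by
    intro F
    unfold Rln182Law.N
    rw [← Finset.sum_filter, ← Finset.sum_fiberwise_of_maps_to (g := key) (t := A.image key)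
      (fun ω hω => Finset.mem_image_of_mem _ hω)]
  have e' : ∀ (F : Ω → ℝ), ∀ ω₀ ∈ A, ∑ ω ∈ A.filter (fun ω => key ω = key ω₀), 𝓛.wt ω * F ω =
      𝓛.N (rln182Rec 𝓛 K G a b ω₀) F := by
    intro F ω₀ h0
    unfold Rln182Law.N
    rw [← Finset.sum_filter]
    refine Finset.sum_congr ?_ fun _ _ => rfl
    ext ω
    constructor
    · intro h
      obtain ⟨h1, h3⟩ := Finset.mem_filter.1 h
      exact Finset.mem_filter.2 ⟨(Finset.mem_filter.1 h1).1, (Finset.mem_filter.1 h1).2, (hk ω₀ h0 ω h1).1 h3⟩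
    · intro h
      obtain ⟨h1, h2, h3⟩ := Finset.mem_filter.1 h
      exact Finset.mem_filter.2 ⟨Finset.mem_filter.2 ⟨h1, h2⟩, (hk ω₀ h0 ω (Finset.mem_filter.2 ⟨h1, h2⟩)).2 h3⟩
  rw [e F, e F', Finset.mul_sum]
  refine Finset.sum_le_sum fun k hk' => ?_
  obtain ⟨ω₀, hω₀, rfl⟩ := Finset.mem_image.1 hk'
  rw [e' F ω₀ hω₀, e' F' ω₀ hω₀]
  exact h ω₀ (Finset.mem_filter.1 hω₀).1 (Finset.mem_filter.1 hω₀).2

/-! ### monotone events -/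

theorem rln182_Hp_monoP (hS : 𝓛.Ok) (hb : ∀ y, G.band y → y ∈ 𝓛.cells) (a b : ℤ) :
    𝓛.MonoP (fun ω => G.Hp (𝓛.np ω) a b) := by
  intro ω ω' h1 h
  exact len_Hp_anti (fun y hy hn => hS.np_anti ω ω' h1 y (hb y hy) hn) h

theorem rln182_Vp_monoP (hS : 𝓛.Ok) (hb : ∀ y, G.band y → y ∈ 𝓛.cells) (a b : ℤ) (D : Y → Prop) :
    𝓛.MonoP (fun ω => G.Vp (fun y => 𝓛.np ω y ∧ ¬ D y) a b) := by
  intro ω ω' h1 h
  exact len_Vp_anti (fun y hy hn => ⟨hS.np_anti ω ω' h1 y (hb y hy) hn.1, hn.2⟩) h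

/-! ### the spectator form -/

/-- the inequality under one record, general spectator `A` and conclusion `C` -/
theorem rln182_gen_rec (hS : 𝓛.Ok) (K : Ω → Prop) (hK : Rln182Fkg 𝓛 K) (hb : ∀ y, G.band y → y ∈ 𝓛.cells) {c : ℝ} {a b : ℤ}
    (hSE : Rln182SE 𝓛 K G c a b) (A C : Ω → Prop) (hA : 𝓛.MonoP A) (hAO : ∀ ω, A ω → G.Hp (𝓛.np ω) a b)
    (hdet : ∀ ω, A ω → G.E3 (𝓛.np ω) a b → C ω) (ω₀ : Ω) (hω₀ : ω₀ ∈ 𝓛.cfgs) (hK₀ : K ω₀) :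
    c * 𝓛.N (rln182Rec 𝓛 K G a b ω₀) (rln182Ind A) ≤ 𝓛.N (rln182Rec 𝓛 K G a b ω₀) (rln182Ind C) := by
  set R := rln182Rec 𝓛 K G a b ω₀ with hR
  have hagr : ∀ ω, R ω → ∀ y, G.Q (𝓛.np ω₀) a b y → (𝓛.np ω₀ y ↔ 𝓛.np ω y) := by
    intro ω hω
    exact rln182_agr_np 𝓛 G hS hb a b ω₀ ω hω.2
  by_cases hO : G.Hp (𝓛.np ω₀) a b
  · have se := hSE ω₀ hω₀ hK₀ hO
    rw [← hR] at se
    have fk := hK.obs (rln182Q 𝓛 G a b ω₀) ω₀ (rln182Ind A)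
      (rln182Ind fun ω => G.Vp (fun y => 𝓛.np ω y ∧ ¬ G.D (𝓛.np ω₀) a b y) a b)
      (rln182_Q_sub 𝓛 G a b ω₀) hω₀ hK₀ (rln182_ind_mono 𝓛 hA) (rln182_ind_mono 𝓛 (rln182_Vp_monoP 𝓛 G hS hb a b _))
    have fk' : 𝓛.N R (rln182Ind A) * 𝓛.N R (rln182Ind fun ω => G.Vp (fun y => 𝓛.np ω y ∧ ¬ G.D (𝓛.np ω₀) a b y) a b) ≤
        𝓛.Z R * 𝓛.N R (fun ω => rln182Ind A ω *
          rln182Ind (fun ω => G.Vp (fun y => 𝓛.np ω y ∧ ¬ G.D (𝓛.np ω₀) a b y) a b) ω) := fk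
    have pt : 𝓛.N R (fun ω => rln182Ind A ω *
          rln182Ind (fun ω => G.Vp (fun y => 𝓛.np ω y ∧ ¬ G.D (𝓛.np ω₀) a b y) a b) ω) ≤ 𝓛.N R (rln182Ind C) := by
      refine rln182_N_mono 𝓛 hS _ _ _ fun ω hω => ?_
      by_cases hAω : A ω
      · by_cases hE : G.Vp (fun y => 𝓛.np ω y ∧ ¬ G.D (𝓛.np ω₀) a b y) a b
        · have hE' : G.Vp (fun y => 𝓛.np ω y ∧ ¬ G.D (𝓛.np ω) a b y) a b :=
            len_Vp_anti (fun y _ hy => ⟨hy.1, fun hD => hy.2 ((len_D_iff (hagr ω hω) y).1 hD)⟩) hE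
          rw [rln182_ind_pos (L := C) (hdet ω hAω (len_E3_of_Vp hE'))]
          exact mul_le_one₀ (rln182_ind_le_one _ _) (rln182_ind_nonneg _ _) (rln182_ind_le_one _ _)
        · rw [rln182_ind_neg (L := fun ω => G.Vp (fun y => 𝓛.np ω y ∧ ¬ G.D (𝓛.np ω₀) a b y) a b) hE, mul_zero]
          exact rln182_ind_nonneg _ _
      · rw [rln182_ind_neg hAω, zero_mul]
        exact rln182_ind_nonneg _ _
    by_cases hZ : 𝓛.Z R = 0
    · rw [rln182_N_zero 𝓛 hS _ hZ, rln182_N_zero 𝓛 hS _ hZ, mul_zero]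
    · have hZp : 0 < 𝓛.Z R := lt_of_le_of_ne (rln182_Z_nonneg 𝓛 hS _) (Ne.symm hZ)
      have hAB : 0 ≤ 𝓛.N R (rln182Ind A) := rln182_N_nonneg 𝓛 hS _ _ fun ω _ => rln182_ind_nonneg _ _
      refine le_of_mul_le_mul_left ?_ hZp
      calc 𝓛.Z R * (c * 𝓛.N R (rln182Ind A)) = 𝓛.N R (rln182Ind A) * (c * 𝓛.Z R) := by ring
        _ ≤ _ := mul_le_mul_of_nonneg_left se hAB
        _ ≤ _ := fk'
        _ ≤ _ := mul_le_mul_of_nonneg_left pt hZp.le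
  · rw [rln182_N_eq_zero 𝓛 _ _ (fun ω hω => ?_), mul_zero]
    · exact rln182_N_nonneg 𝓛 hS _ _ fun ω _ => rln182_ind_nonneg _ _
    · exact rln182_ind_neg fun hAω => hO ((len_Hp_congr (hagr ω hω)).2 (hAO ω hAω))

/-- the spectator form, one increasing event, unnormalised -/
theorem rln182_gen_N (hS : 𝓛.Ok) (K : Ω → Prop) (hK : Rln182Fkg 𝓛 K) (hb : ∀ y, G.band y → y ∈ 𝓛.cells) {c : ℝ} {a b : ℤ}
    (hSE : Rln182SE 𝓛 K G c a b) (A C : Ω → Prop) (hA : 𝓛.MonoP A) (hAO : ∀ ω, A ω → G.Hp (𝓛.np ω) a b)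
    (hdet : ∀ ω, A ω → G.E3 (𝓛.np ω) a b → C ω) : c * 𝓛.N K (rln182Ind A) ≤ 𝓛.N K (rln182Ind C) :=
  rln182_fibre 𝓛 G hS hb K a b (rln182Ind A) (rln182Ind C) c
    (fun ω₀ hω₀ hK₀ => rln182_gen_rec 𝓛 G hS K hK hb hSE A C hA hAO hdet ω₀ hω₀ hK₀)

/-- the spectator form, one increasing event, normalised -/
theorem rln182_gen1 (hS : 𝓛.Ok) (K : Ω → Prop) (hK : Rln182Fkg 𝓛 K) (hb : ∀ y, G.band y → y ∈ 𝓛.cells) {c : ℝ} {a b : ℤ}
    (hSE : Rln182SE 𝓛 K G c a b) (A C : Ω → Prop) (hA : 𝓛.MonoP A) (hAO : ∀ ω, A ω → G.Hp (𝓛.np ω) a b)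
    (hdet : ∀ ω, A ω → G.E3 (𝓛.np ω) a b → C ω) : c * 𝓛.P K A ≤ 𝓛.P K C := by
  have h := rln182_gen_N 𝓛 G hS K hK hb hSE A C hA hAO hdet
  unfold Rln182Law.P
  rw [← mul_div_assoc]
  exact div_le_div_of_nonneg_right h (rln182_Z_nonneg 𝓛 hS _)

/-- **the spectator form of the machine**: `c · P[A₁] · P[A₂] ≤ P[C]` -/
theorem rln182_gen (hS : 𝓛.Ok) (K : Ω → Prop) (hK : Rln182Fkg 𝓛 K) (hb : ∀ y, G.band y → y ∈ 𝓛.cells) {c : ℝ} (hc : 0 ≤ c)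
    {a b : ℤ} (hSE : Rln182SE 𝓛 K G c a b) (A₁ A₂ C : Ω → Prop) (hA₁ : 𝓛.MonoP A₁) (hA₂ : 𝓛.MonoP A₂)
    (hAO : ∀ ω, A₁ ω → A₂ ω → G.Hp (𝓛.np ω) a b) (hdet : ∀ ω, A₁ ω → A₂ ω → G.E3 (𝓛.np ω) a b → C ω) :
    c * 𝓛.P K A₁ * 𝓛.P K A₂ ≤ 𝓛.P K C := by
  have h1 := hK.base (rln182Ind A₁) (rln182Ind A₂) (rln182_ind_mono 𝓛 hA₁) (rln182_ind_mono 𝓛 hA₂)
  have h2 := rln182_gen_N 𝓛 G hS K hK hb hSE (fun ω => A₁ ω ∧ A₂ ω) C
    (fun ω ω' e1 h => ⟨hA₁ ω ω' e1 h.1, hA₂ ω ω' e1 h.2⟩) (fun ω h => hAO ω h.1 h.2) (fun ω h => hdet ω h.1 h.2)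
  have e : (rln182Ind fun ω => A₁ ω ∧ A₂ ω) = fun ω => rln182Ind A₁ ω * rln182Ind A₂ ω := funext (rln182_ind_and A₁ A₂)
  rw [e] at h2
  unfold Rln182Law.P
  by_cases hZ : 𝓛.Z K = 0
  · rw [hZ]; simp
  · have hZp : 0 < 𝓛.Z K := lt_of_le_of_ne (rln182_Z_nonneg 𝓛 hS _) (Ne.symm hZ)
    rw [le_div_iff₀ hZp]
    have e2 : c * (𝓛.N K (rln182Ind A₁) / 𝓛.Z K) * (𝓛.N K (rln182Ind A₂) / 𝓛.Z K) * 𝓛.Z K =
        c * (𝓛.N K (rln182Ind A₁) * 𝓛.N K (rln182Ind A₂)) / 𝓛.Z K := by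
      field_simp
    rw [e2, div_le_iff₀ hZp]
    calc c * (𝓛.N K (rln182Ind A₁) * 𝓛.N K (rln182Ind A₂))
        ≤ c * (𝓛.Z K * 𝓛.N K (fun ω => rln182Ind A₁ ω * rln182Ind A₂ ω)) := mul_le_mul_of_nonneg_left h1 hc
      _ = (c * 𝓛.N K (fun ω => rln182Ind A₁ ω * rln182Ind A₂ ω)) * 𝓛.Z K := by ring
      _ ≤ _ := mul_le_mul_of_nonneg_right h2 hZp.le

/-- **EXIT 1 of A2**: `c · P[H⁺(R1)] · P[H⁺(R2)] ≤ P[H⁺(R1 ∪ R2)]` -/
theorem rln182_step (hS : 𝓛.Ok) (K : Ω → Prop) (hK : Rln182Fkg 𝓛 K) (hb : ∀ y, G.band y → y ∈ 𝓛.cells) {c : ℝ} (hc : 0 ≤ c)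
    {a1 a2 b1 b2 : ℤ} (ha : a1 ≤ a2) (hab : a2 ≤ b1) (hb12 : b1 ≤ b2) (hSE : Rln182SE 𝓛 K G c a2 b1) :
    c * 𝓛.P K (fun ω => G.Hp (𝓛.np ω) a1 b1) * 𝓛.P K (fun ω => G.Hp (𝓛.np ω) a2 b2) ≤ 𝓛.P K (fun ω => G.Hp (𝓛.np ω) a1 b2) :=
  rln182_gen 𝓛 G hS K hK hb hc hSE _ _ _ (rln182_Hp_monoP 𝓛 G hS hb a1 b1) (rln182_Hp_monoP 𝓛 G hS hb a2 b2)
    (fun ω h1 _ => len_Hp_mono ha le_rfl h1) (fun ω h1 h2 h3 => len_glue ha hab hb12 h1 h2 h3)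

/-- **EXIT 2 of A2**: the iteration.  Boxes of length `L`, shift `s`, origin `a0`. -/
theorem rln182_iter (hS : 𝓛.Ok) (K : Ω → Prop) (hK : Rln182Fkg 𝓛 K) (hb : ∀ y, G.band y → y ∈ 𝓛.cells) {c δ : ℝ} (hc : 0 ≤ c)
    (hδ0 : 0 ≤ δ) (a0 L s : ℤ) (hs : 0 ≤ s) (hsL : s ≤ L) (n : ℕ)
    (hδ : ∀ j : ℕ, j ≤ n → δ ≤ 𝓛.P K (fun ω => G.Hp (𝓛.np ω) (a0 + j * s) (a0 + j * s + L)))
    (hSE : ∀ j : ℕ, j < n → Rln182SE 𝓛 K G c (a0 + (j + 1) * s) (a0 + j * s + L)) :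
    ∀ j : ℕ, j ≤ n → δ * (c * δ) ^ j ≤ 𝓛.P K (fun ω => G.Hp (𝓛.np ω) a0 (a0 + j * s + L)) := by
  intro j
  induction j with
  | zero =>
    intro hj
    have := hδ 0 hj
    simpa using this
  | succ j ih =>
    intro hj
    have h1 := ih (by omega)
    have h2 := hδ (j + 1) hj
    have hjs : 0 ≤ (j : ℤ) * s := mul_nonneg (by positivity) hs
    have h3 := rln182_step 𝓛 G hS K hK hb hc (a1 := a0) (a2 := a0 + (j + 1) * s) (b1 := a0 + j * s + L)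
      (b2 := a0 + (j + 1) * s + L) (by nlinarith) (by nlinarith) (by nlinarith) (hSE j (by omega))
    push_cast at h2 ⊢
    have h4 : 0 ≤ δ * (c * δ) ^ j := mul_nonneg hδ0 (pow_nonneg (mul_nonneg hc hδ0) _)
    calc δ * (c * δ) ^ (j + 1) = c * (δ * (c * δ) ^ j) * δ := by ring
      _ ≤ c * 𝓛.P K (fun ω => G.Hp (𝓛.np ω) a0 (a0 + j * s + L)) * δ :=
          mul_le_mul_of_nonneg_right (mul_le_mul_of_nonneg_left h1 hc) hδ0
      _ ≤ c * 𝓛.P K (fun ω => G.Hp (𝓛.np ω) a0 (a0 + j * s + L)) *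
            𝓛.P K (fun ω => G.Hp (𝓛.np ω) (a0 + (j + 1) * s) (a0 + (j + 1) * s + L)) :=
          mul_le_mul_of_nonneg_left h2 (mul_nonneg hc (h4.trans h1))
      _ ≤ _ := h3

end A

/-! ## Part B: the dictionary chart <-> cover, for an arbitrary lifted set -/

section Dict

variable {L H : ℕ} {w a b c d : ℤ} {X : Set TV} {np : TV → Prop}

/-- `X` is the lifted set of the cells which are not `np` -/
def Rln182Lift (L H : ℕ) (X : Set TV) (np : TV → Prop) : Prop :=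
  ∀ u : TV, 0 ≤ u.2 → u.2 < H → (u ∈ Xᶜ ↔ np (sdRed L u))

theorem rln182_step_down (hX : Rln182Lift L H X np) (hL : 0 < L) (hw : w ≤ a) (hb : b < w + L) (hc : 0 ≤ c) (hd : d < H) {p q : TV}
    (h : TscStep tscG (tscBox a b c d ∩ Xᶜ) p q) : (lcyG L H w c d).st np a b (sdRed L p) (sdRed L q) := by
  obtain ⟨hadj, ⟨hp, hpP⟩, ⟨hq, hqP⟩⟩ := h
  have ep : lcyLift L w (sdRed L p) = p := lcy_lift_red (by have := hp.1; omega) (by have := hp.2.1; omega)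
  have eq' : lcyLift L w (sdRed L q) = q := lcy_lift_red (by have := hq.1; omega) (by have := hq.2.1; omega)
  refine ⟨?_, ?_, ?_, lcy_box_down hL hw hb hc hd hp, lcy_box_down hL hw hb hc hd hq⟩
  · show triAdj (lcyLift L w (sdRed L p)) (lcyLift L w (sdRed L q))
    rw [ep, eq']; exact hadj
  · exact (hX p (by have := hp.2.2.1; omega) (by have := hp.2.2.2; omega)).1 hpP
  · exact (hX q (by have := hq.2.2.1; omega) (by have := hq.2.2.2; omega)).1 hqP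

theorem rln182_mem_up (hX : Rln182Lift L H X np) {p : TV} (hp : (lcyG L H w c d).box a b p) (hn : np p) :
    lcyLift L w p ∈ tscBox a b c d ∩ Xᶜ := by
  obtain ⟨⟨hm, h3, h4⟩, h1, h2⟩ := hp
  obtain ⟨m1, m2, m3, m4⟩ := lcy_mem_cells hm
  refine ⟨⟨h1, h2, h3, h4⟩, ?_⟩
  rw [hX (lcyLift L w p) m3 m4, lcy_red_lift m1 m2]
  exact hn

theorem rln182_step_up (hX : Rln182Lift L H X np) {p q : TV} (h : (lcyG L H w c d).st np a b p q) :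
    TscStep tscG (tscBox a b c d ∩ Xᶜ) (lcyLift L w p) (lcyLift L w q) :=
  ⟨h.1, rln182_mem_up hX h.2.2.2.1 h.2.1, rln182_mem_up hX h.2.2.2.2 h.2.2.1⟩

theorem rln182_R_down (hX : Rln182Lift L H X np) (hL : 0 < L) (hw : w ≤ a) (hb : b < w + L) (hc : 0 ≤ c) (hd : d < H) {p q : TV}
    (h : TscR tscG (tscBox a b c d ∩ Xᶜ) p q) : ReflTransGen ((lcyG L H w c d).st np a b) (sdRed L p) (sdRed L q) :=
  ReflTransGen.lift (sdRed L) (fun _ _ hs => rln182_step_down hX hL hw hb hc hd hs) _ _ h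

theorem rln182_R_up (hX : Rln182Lift L H X np) {p q : TV} (h : ReflTransGen ((lcyG L H w c d).st np a b) p q) :
    TscR tscG (tscBox a b c d ∩ Xᶜ) (lcyLift L w p) (lcyLift L w q) :=
  ReflTransGen.lift (lcyLift L w) (fun _ _ hs => rln182_step_up hX hs) _ _ h

/-- a closure of the chart, seen from the cover -/
theorem rln182_cl_down (hX : Rln182Lift L H X np) (hL : 0 < L) (hw : w ≤ a) (hb : b < w + L) (hc : 0 ≤ c) (hd : d < H)
    {S : TV → Prop} {p q : TV} (hp : S (sdRed L p)) (hq : q ∈ tscBox a b c d ∩ Xᶜ) (h : TscR tscG (tscBox a b c d ∩ Xᶜ) p q) :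
    (lcyG L H w c d).cl np a b S (sdRed L q) :=
  ⟨(hX q (by have := hq.1.2.2.1; omega) (by have := hq.1.2.2.2; omega)).1 hq.2, lcy_box_down hL hw hb hc hd hq.1,
    sdRed L p, hp, rln182_R_down hX hL hw hb hc hd h⟩

/-- **dictionary**: `H⁺(box)` -/
theorem rln182_Hp_iff (hX : Rln182Lift L H X np) (hL : 0 < L) (hw : w ≤ a) (hb : b < w + L) (hc : 0 ≤ c) (hd : d < H) :
    (lcyG L H w c d).Hp np a b ↔ SdH a b c d X := by
  constructor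
  · rintro h ⟨u, v, hu, hu2, hv2, hR⟩
    exact h (sdRed L u) (rln182_cl_down hX hL hw hb hc hd (S := (lcyG L H w c d).top) (p := v) hv2 hu (tsc_R_symm hR)) hu2
  · intro h v hv hbot
    obtain ⟨hn, hbx, u, hu, hR⟩ := hv
    exact h ⟨lcyLift L w v, lcyLift L w u, rln182_mem_up hX hbx hn, hbot, hu, tsc_R_symm (rln182_R_up hX hR)⟩

/-- **dictionary**: (E3) -/
theorem rln182_E3 (hX : Rln182Lift L H X np) (hL : 0 < L) (hw : w ≤ a) (hb : b < w + L) (hc : 0 ≤ c) (hd : d < H)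
    (h : (lcyG L H w c d).E3 np a b) : SdE3 a b c d X := by
  intro l r v hl hla hrb hlv hvr
  have hv := tsc_R_mem hlv hl
  have hr := tsc_R_mem hvr hv
  have el : lcyX L w (sdRed L l) = l.1 :=
    congrArg Prod.fst (lcy_lift_red (L := L) (w := w) (u := l) (by have := hl.1.1; omega) (by have := hl.1.2.1; omega))
  have er : lcyX L w (sdRed L r) = r.1 :=
    congrArg Prod.fst (lcy_lift_red (L := L) (w := w) (u := r) (by have := hr.1.1; omega) (by have := hr.1.2.1; omega))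
  have ev : lcyLift L w (sdRed L v) = v := lcy_lift_red (by have := hv.1.1; omega) (by have := hv.1.2.1; omega)
  have c1 := rln182_cl_down hX hL hw hb hc hd (S := fun u => (lcyG L H w c d).X u = a) (p := l) (el.trans hla) hv hlv
  have c2 := rln182_cl_down hX hL hw hb hc hd (S := fun u => (lcyG L H w c d).X u = b) (p := r) (er.trans hrb) hv (tsc_R_symm hvr)
  rcases h _ c1 c2 with ⟨_, _, u, hu, hR⟩ | ⟨_, _, u, hu, hR⟩
  · refine ⟨lcyLift L w u, Or.inr hu, ?_⟩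
    have := tsc_R_symm (rln182_R_up hX hR)
    rwa [ev] at this
  · refine ⟨lcyLift L w u, Or.inl hu, ?_⟩
    have := tsc_R_symm (rln182_R_up hX hR)
    rwa [ev] at this

end Dict

/-! ## Part C: a family of laws on the cylinders -/

section Cyl

variable {Ω : ℕ → ℕ → Type}

/-- the lifted (periodic) set of the plus cells -/
def rln182Set {Ω₀ : Type} (𝓛 : Rln182Law Ω₀ TV) (L : ℕ) (ω : Ω₀) : Set TV := {y | sdRed L y ∈ 𝓛.cells ∧ ¬ 𝓛.np ω (sdRed L y)}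

/-- `P_{L,H}[E(lifted set of the plus cells)]` -/
noncomputable def rln182P (𝓛 : ∀ L H, Rln182Law (Ω L H) TV) (K : ∀ L H, Ω L H → Prop) (L H : ℕ) (E : Set TV → Prop) : ℝ :=
  (𝓛 L H).P (K L H) (fun ω => E (rln182Set (𝓛 L H) L ω))

/-- the family is a family of laws on the cylinders -/
structure Rln182Cyl (𝓛 : ∀ L H, Rln182Law (Ω L H) TV) : Prop where
  ok : ∀ L H, (𝓛 L H).Ok
  cells : ∀ L H, (𝓛 L H).cells = sdCells L 0 H

/-- **(SE) on the cylinder** (R291 `LcySE`, one class) -/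
def Rln182CSE (𝓛 : ∀ L H, Rln182Law (Ω L H) TV) (K : ∀ L H, Ω L H → Prop) : Prop :=
  ∃ c : ℝ, 0 < c ∧ ∃ r₀ : ℕ, ∀ (L H : ℕ) (k r w a b : ℤ), (r₀ : ℤ) ≤ r → 10 * r ≤ L → 12 + r ≤ 4 * k →
    4 * k + 5 * r ≤ 4 * (H : ℤ) - 16 → w ≤ a → b < w + L → 7 * r ≤ 2 * (b - a) → b - a ≤ 5 * r →
    Rln182SE (𝓛 L H) (K L H) (lcyG L H w k (k + r - 1)) c a b

/-- **FKG under the boundary condition and under every record** (R291 `LcyFkg`) -/
def Rln182CFkg (𝓛 : ∀ L H, Rln182Law (Ω L H) TV) (K : ∀ L H, Ω L H → Prop) : Prop :=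
  ∀ L H : ℕ, 3 ≤ L → 1 ≤ H → Rln182Fkg (𝓛 L H) (K L H)

/-- horizontal translations by EVEN amounts (in the refinement of `ℤ²` an odd shift exchanges vertices and faces) -/
def Rln182Shift (𝓛 : ∀ L H, Rln182Law (Ω L H) TV) (K : ∀ L H, Ω L H → Prop) : Prop :=
  ∀ (L H : ℕ) (a : ℤ) (E : Set TV → Prop), 3 ≤ L → rln182P 𝓛 K L H (sdTr (2 * a, 0) E) = rln182P 𝓛 K L H E

/-- horizontal lengthening (R291 `SdLen`) -/
def Rln182Len (𝓛 : ∀ L H, Rln182Law (Ω L H) TV) (K : ∀ L H, Ω L H → Prop) : Prop :=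
  ∀ (κ : ℕ) (δ : ℝ), 0 < δ → ∃ δ' : ℝ, 0 < δ' ∧ ∃ r₀ : ℕ, ∀ (L H : ℕ) (c r : ℤ), (r₀ : ℤ) ≤ r → ((κ : ℤ) + 10) * r ≤ L → r ≤ c →
    c + 2 * r ≤ (H : ℤ) - 1 → δ ≤ rln182P 𝓛 K L H (SdH 0 (4 * r) c (c + r)) → δ' ≤ rln182P 𝓛 K L H (SdH 0 (κ * r) c (c + r))

/-- averaged gluing (R291 `SdGlue`) -/
def Rln182Glue (𝓛 : ∀ L H, Rln182Law (Ω L H) TV) (K : ∀ L H, Ω L H → Prop) : Prop :=
  ∃ cG : ℝ, 0 < cG ∧ ∃ r₀ : ℕ, ∀ (L H : ℕ) (k m : ℤ), 20 ≤ H → H ≤ L → (r₀ : ℤ) ≤ m → 100 * m ≤ L → 3 + 3 * m ≤ k → k + 13 * m ≤ (H : ℤ) - 4 →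
    cG * rln182P 𝓛 K L H (fun X => SdH 0 (60 * m) (k + 8 * m) (k + 10 * m - 1) X ∧ SdH (10 * m) (70 * m) k (k + 2 * m - 1) X)
      ≤ rln182P 𝓛 K L H (SdV (12 * m) (58 * m) (k + 3 * m) (k + 7 * m))

theorem rln182_eqns_cite2 : True := by
  have := @Rln182Lift.eq_1
  have := @rln182Set.eq_1
  have := @rln182P.eq_1
  have := @Rln182CSE.eq_1
  have := @Rln182CFkg.eq_1
  have := @Rln182Shift.eq_1
  have := @Rln182Len.eq_1
  have := @Rln182Glue.eq_1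
  trivial

variable {𝓛 : ∀ L H, Rln182Law (Ω L H) TV} {K : ∀ L H, Ω L H → Prop}

theorem rln182_lift (hC : Rln182Cyl 𝓛) {L H : ℕ} (hL : 0 < L) (ω : Ω L H) :
    Rln182Lift L H (rln182Set (𝓛 L H) L ω) ((𝓛 L H).np ω) := by
  intro u h1 h2
  have hm : sdRed L u ∈ (𝓛 L H).cells := by rw [hC.cells]; exact lcy_red_mem hL h1 h2
  unfold rln182Set
  simp only [Set.mem_compl_iff, Set.mem_ofPred_eq, hm, true_and, not_not]

theorem rln182_P_H (hC : Rln182Cyl 𝓛) {L H : ℕ} {w a b c d : ℤ} (hL : 0 < L) (hw : w ≤ a) (hb : b < w + L) (hc : 0 ≤ c) (hd : d < H) :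
    rln182P 𝓛 K L H (SdH a b c d) = (𝓛 L H).P (K L H) (fun ω => (lcyG L H w c d).Hp ((𝓛 L H).np ω) a b) := by
  unfold rln182P
  congr 1
  funext ω
  exact propext (rln182_Hp_iff (rln182_lift hC hL ω) hL hw hb hc hd).symm

theorem rln182_set_mono (hC : Rln182Cyl 𝓛) {L H : ℕ} {ω ω' : Ω L H} (h : (𝓛 L H).le ω ω') :
    rln182Set (𝓛 L H) L ω ⊆ rln182Set (𝓛 L H) L ω' := by
  rintro y ⟨hy, ht⟩
  exact ⟨hy, fun hn => ht ((hC.ok L H).np_anti ω ω' h _ hy hn)⟩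

theorem rln182_inc_monoP (hC : Rln182Cyl 𝓛) (L H : ℕ) {E : Set TV → Prop} (hE : SdInc E) :
    (𝓛 L H).MonoP (fun ω => E (rln182Set (𝓛 L H) L ω)) :=
  fun _ _ h1 h => hE _ _ (rln182_set_mono hC h1) h

/-- **the lengthening on the cylinder** (band = index rows `k..k+r`; EVEN step `2 ((r - 7) / 4)`) -/
theorem rln182_len (hC : Rln182Cyl 𝓛) (hSE : Rln182CSE 𝓛 K) (hF : Rln182CFkg 𝓛 K) (hSh : Rln182Shift 𝓛 K) : Rln182Len 𝓛 K := by
  obtain ⟨c, hc, r₀, hSE⟩ := hSE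
  intro κ δ hδ
  refine ⟨δ * (c * δ) ^ (2 * κ), by positivity, max r₀ (max (3 * κ) 16), ?_⟩
  intro L H k r hr hL hk1 hk2 hδP
  have hr' : ((max r₀ (max (3 * κ) 16) : ℕ) : ℤ) ≤ r := hr
  have hr0 : (r₀ : ℤ) ≤ r := le_trans (by exact_mod_cast le_max_left _ _) hr'
  have hrκ : 3 * (κ : ℤ) ≤ r := le_trans (by exact_mod_cast (le_max_left (3 * κ) 16).trans (le_max_right r₀ _)) hr'
  have hr2 : (16 : ℤ) ≤ r := le_trans (by exact_mod_cast (le_max_right (3 * κ) 16).trans (le_max_right r₀ _)) hr'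
  obtain ⟨q, hq⟩ : ∃ q : ℤ, q = (r - 7) / 4 := ⟨_, rfl⟩
  obtain ⟨s, hs⟩ : ∃ s : ℤ, s = 2 * q := ⟨_, rfl⟩
  have hs1 : 1 ≤ s := by omega
  have hs2 : 2 * s ≤ r - 7 := by omega
  have hs3 : r - 10 ≤ 2 * s := by omega
  have hκ0 : (0 : ℤ) ≤ κ := by positivity
  have hκr : 0 ≤ (κ : ℤ) * r := mul_nonneg hκ0 (by omega)
  have hL' : (κ : ℤ) * r + 10 * r ≤ L := by nlinarith
  have hL0 : 0 < L := by omega
  have hL3 : 3 ≤ L := by omega
  have hH1 : 1 ≤ H := by omega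
  have hk0 : 0 ≤ k := by omega
  have hkH : k + r < H := by omega
  have ekr : k + (r + 1) - 1 = k + r := by ring
  have hκs : (κ : ℤ) * (2 * s) ≤ κ * (r - 7) := mul_le_mul_of_nonneg_left hs2 hκ0
  have hκs' : (κ : ℤ) * (r - 10) ≤ κ * (2 * s) := mul_le_mul_of_nonneg_left hs3 hκ0
  have hbc : ∀ y, (lcyG L H 0 k (k + r)).band y → y ∈ (𝓛 L H).cells := fun y hy => by rw [hC.cells]; exact hy.1
  have key := rln182_iter (𝓛 L H) (lcyG L H 0 k (k + r)) (hC.ok L H) (K L H) (hF L H hL3 hH1) hbc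
    hc.le hδ.le 0 (4 * r) s (by omega) (by omega) (2 * κ)
    (by
      intro i hi
      have his : (i : ℤ) * s ≤ ((2 * κ : ℕ) : ℤ) * s := mul_le_mul_of_nonneg_right (by exact_mod_cast hi) (by omega)
      have hi0 : 0 ≤ (i : ℤ) * s := mul_nonneg (by positivity) (by omega)
      push_cast at his
      rw [← rln182_P_H hC hL0 (by omega) (by nlinarith) hk0 hkH]
      have e : SdH (0 + (i : ℤ) * s) (0 + (i : ℤ) * s + 4 * r) k (k + r) = sdTr (2 * ((i : ℤ) * q), 0) (SdH 0 (4 * r) k (k + r)) := by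
        rw [sd_tr_H, hs]
        congr 1 <;> simp <;> ring
      rw [e, hSh L H _ _ hL3]
      exact hδP)
    (by
      intro i hi
      have his : ((i : ℤ) + 1) * s ≤ ((2 * κ : ℕ) : ℤ) * s := mul_le_mul_of_nonneg_right (by exact_mod_cast hi) (by omega)
      have hi0 : 0 ≤ (i : ℤ) * s := mul_nonneg (by positivity) (by omega)
      push_cast at his
      have hκ1 : (1 : ℤ) ≤ κ := by omega
      have hκr1 : r ≤ (κ : ℤ) * r := by nlinarith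
      have := hSE L H k (r + 1) 0 (0 + ((i : ℤ) + 1) * s) (0 + (i : ℤ) * s + 4 * r) (by omega) (by omega) (by omega) (by omega)
        (by nlinarith) (by nlinarith) (by nlinarith) (by nlinarith)
      rwa [ekr] at this)
    (2 * κ) le_rfl
  push_cast at key
  rw [rln182_P_H hC (w := 0) hL0 le_rfl (by nlinarith) hk0 hkH]
  refine key.trans (rln182_P_mono _ (hC.ok L H) _ fun ω h => len_Hp_mono le_rfl (by nlinarith) h)

/-- **two horizontal crossings are joined** (averaged gluing) -/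
theorem rln182_glue (hC : Rln182Cyl 𝓛) (hSE : Rln182CSE 𝓛 K) (hF : Rln182CFkg 𝓛 K) : Rln182Glue 𝓛 K := by
  obtain ⟨c, hc, r₀, hSE⟩ := hSE
  refine ⟨c, hc, max r₀ 1, ?_⟩
  intro L H k m hH hHL hm hL hk1 hk2
  have hm' : ((max r₀ 1 : ℕ) : ℤ) ≤ m := hm
  have hm0 : (r₀ : ℤ) ≤ m := le_trans (by exact_mod_cast le_max_left _ _) hm'
  have hm1 : (1 : ℤ) ≤ m := le_trans (by exact_mod_cast le_max_right r₀ 1) hm'
  have hL0 : 0 < L := by omega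
  have hL3 : 3 ≤ L := by omega
  have hH1 : 1 ≤ H := by omega
  have hk0 : 0 ≤ k := by omega
  have hkH : k + 10 * m - 1 < H := by omega
  have se := hSE L H k (10 * m) 0 (12 * m) (58 * m) (by omega) (by omega) (by omega) (by omega) (by omega) (by omega) (by omega)
    (by omega)
  have hbc : ∀ y, (lcyG L H 0 k (k + 10 * m - 1)).band y → y ∈ (𝓛 L H).cells := fun y hy => by rw [hC.cells]; exact hy.1
  unfold rln182P
  refine rln182_gen1 (𝓛 L H) (lcyG L H 0 k (k + 10 * m - 1)) (hC.ok L H) (K L H) (hF L H hL3 hH1) hbc se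
    _ _ (rln182_inc_monoP hC L H (E := fun X => SdH 0 (60 * m) (k + 8 * m) (k + 10 * m - 1) X ∧ SdH (10 * m) (70 * m) k (k + 2 * m - 1) X)
      (fun X X' hXX h => ⟨sd_H_inc _ _ _ _ X X' hXX h.1, sd_H_inc _ _ _ _ X X' hXX h.2⟩)) ?_ ?_
  · intro ω h
    exact (rln182_Hp_iff (rln182_lift hC hL0 ω) hL0 (by omega) (by omega) hk0 hkH).2
      (lcy_H_tall (by omega) (by omega) le_rfl (sd_H_narrow (by omega) (by omega) h.1))
  · intro ω h h3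
    exact sd_e3_vert (by omega) (by omega) (by omega) (rln182_E3 (rln182_lift hC hL0 ω) hL0 (by omega) (by omega) hk0 hkH h3)
      (lcy_H_tall le_rfl (by omega) (by omega) (sd_H_narrow (by omega) (by omega) h.2))
      (lcy_H_tall (by omega) (by omega) le_rfl (sd_H_narrow (by omega) (by omega) h.1))

end Cyl

end Claimed.Agent.R292

/-!
# PART D (appended 19:50Z; rule ONE PEN = ONE FILE) : R8 CORE, BLOCK A2-(SE) = THE ADAPTER  (SE) ⟸ STRAIGHT (LSS), OVER AN ABSTRACT RECORD OF HISTORIES      (owner helper182; prefix `rse182_`, defs `rse182*`, `Rse182*`)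

Port of the CHAIN of R291 `Ann/LenSE` (20 + 193), TEX[annulus:gluing], over the abstract law `Rln182Law Ω Y` of `Rsw/Len182`.      0 sorry.

ALL FOUR LAWS ARE CONSTRAINTS ON THE SAME AMBIENT LAW:
  `rec ω₀` (full record of the two box closures, `rln182Rec`)   ≥   `h1 ω₀` = the record + a minus wall next to `M`                          field `ord1`   (ORDER of histories: Cmp291 / Model22)
  `h1 ω₀`  ~  `h2 ω₀` = `K` + (everything of the box off `M` plus) + the same wall                                                        field `port`   (PORTS: A1.1, pen 102), constant `C` (R291: 64)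
  `h2 ω₀`  ≥  `h3` = `K` + (top and bottom rows plus) + straight minus walls outside the two short sides; depends on the box only         field `ord3`   (ORDER)
  **`Rse182LSS`** : `c Z(h3) ≤ N(h3; no non-plus left-right walk of the box)`                                                             = THE CONTRACT WITH A1.2 (pen 131)
`M = rse182M` = the fresh (not looked at) cells of the box joined inside the fresh cells to both short sides: MODEL FREE, defined here.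
**`rse182_main : Rse182Hist.Ok → Rse182LSS → Rln182SE 𝓛 K G (c / C) a b`.**
-/

namespace Claimed.Agent.R292

open Claims Relation Claimed.Agent.R291

section abstract

variable {Ω Y : Type}

/-! ## 0. the retained cells (model free) -/

open Classical in
/-- the cells of the box -/
noncomputable def rse182O (𝓛 : Rln182Law Ω Y) (G : LenGeo Y) (a b : ℤ) : Finset Y := 𝓛.cells.filter (fun y => G.box a b y)

open Classical in
/-- the fresh cells: cells of the box which the two explorations did not look at -/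
noncomputable def rse182Fr (𝓛 : Rln182Law Ω Y) (G : LenGeo Y) (a b : ℤ) (ω₀ : Ω) : Finset Y :=
  (rse182O 𝓛 G a b).filter (fun y => y ∉ rln182Q 𝓛 G a b ω₀)

/-- one step inside a set of cells -/
def Rse182St (G : LenGeo Y) (T : Finset Y) (u v : Y) : Prop := G.adj u v ∧ u ∈ T ∧ v ∈ T

open Classical in
/-- **the retained cells**: fresh cells joined inside the fresh cells to both short sides of the box -/
noncomputable def rse182M (𝓛 : Rln182Law Ω Y) (G : LenGeo Y) (a b : ℤ) (ω₀ : Ω) : Finset Y :=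
  (rse182Fr 𝓛 G a b ω₀).filter (fun y =>
    (∃ l ∈ rse182Fr 𝓛 G a b ω₀, G.X l = a ∧ ReflTransGen (Rse182St G (rse182Fr 𝓛 G a b ω₀)) l y) ∧
    (∃ r ∈ rse182Fr 𝓛 G a b ω₀, G.X r = b ∧ ReflTransGen (Rse182St G (rse182Fr 𝓛 G a b ω₀)) y r))

/-- the event which reads the retained cells only -/
def Rse182FM (𝓛 : Rln182Law Ω Y) (G : LenGeo Y) (a b : ℤ) (M : Finset Y) (ω : Ω) : Prop :=
  G.Vp (fun y => 𝓛.np ω y ∧ ¬ y ∉ M) a b

/-- the observable reads only which cells of `M` are plus -/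
def Rse182Loc (𝓛 : Rln182Law Ω Y) (M : Finset Y) (F : Ω → ℝ) : Prop :=
  ∀ ω ω', (∀ y ∈ M, (𝓛.np ω y ↔ 𝓛.np ω' y)) → F ω = F ω'

/-! ## 1. THE RECORD OF HISTORIES -/

/-- the three auxiliary histories, as constraints on the ambient law -/
structure Rse182Hist (Ω : Type) where
  /-- `h1 ω₀` = the record of `ω₀` + the minus wall next to the retained cells -/
  h1 : Ω → Ω → Prop
  /-- `h2 ω₀` = `K` + everything of the box off the retained cells plus + the same wall -/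
  h2 : Ω → Ω → Prop
  /-- `h3` = THE STRAIGHT REFERENCE -/
  h3 : Ω → Prop

/-- the starting points of (SE) -/
def Rse182Start (𝓛 : Rln182Law Ω Y) (K : Ω → Prop) (G : LenGeo Y) (a b : ℤ) (ω₀ : Ω) : Prop :=
  ω₀ ∈ 𝓛.cfgs ∧ K ω₀ ∧ G.Hp (𝓛.np ω₀) a b ∧ 0 < 𝓛.Z (rln182Rec 𝓛 K G a b ω₀)

/-- **what the chain consumes**: producers = ORDER (fields `ord1`, `ord3`), PORTS (field `port`), feasibility (fields `pos*`) -/
structure Rse182Hist.Ok (𝓗 : Rse182Hist Ω) (𝓛 : Rln182Law Ω Y) (K : Ω → Prop) (G : LenGeo Y) (a b : ℤ) (C : ℝ) : Prop where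
  pos1 : ∀ ω₀, Rse182Start 𝓛 K G a b ω₀ → 0 < 𝓛.Z (𝓗.h1 ω₀)
  pos2 : ∀ ω₀, Rse182Start 𝓛 K G a b ω₀ → 0 < 𝓛.Z (𝓗.h2 ω₀)
  pos3 : ∀ ω₀, Rse182Start 𝓛 K G a b ω₀ → 0 < 𝓛.Z 𝓗.h3
  /-- (1) `h1` is below the record -/
  ord1 : ∀ ω₀, Rse182Start 𝓛 K G a b ω₀ → ∀ F : Ω → ℝ, 𝓛.Mono F →
    𝓛.N (𝓗.h1 ω₀) F * 𝓛.Z (rln182Rec 𝓛 K G a b ω₀) ≤ 𝓛.Z (𝓗.h1 ω₀) * 𝓛.N (rln182Rec 𝓛 K G a b ω₀) F
  /-- (2) PORTS: the two histories have the same retained data -/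
  port : ∀ ω₀, Rse182Start 𝓛 K G a b ω₀ → ∀ F : Ω → ℝ, (∀ ω, 0 ≤ F ω) → Rse182Loc 𝓛 (rse182M 𝓛 G a b ω₀) F →
    𝓛.N (𝓗.h2 ω₀) F * 𝓛.Z (𝓗.h1 ω₀) ≤ C * (𝓛.Z (𝓗.h2 ω₀) * 𝓛.N (𝓗.h1 ω₀) F)
  /-- (3) the straight reference is below `h2` -/
  ord3 : ∀ ω₀, Rse182Start 𝓛 K G a b ω₀ → ∀ F : Ω → ℝ, 𝓛.Mono F →
    𝓛.N 𝓗.h3 F * 𝓛.Z (𝓗.h2 ω₀) ≤ 𝓛.Z 𝓗.h3 * 𝓛.N (𝓗.h2 ω₀) F

/-- **THE CONTRACT WITH A1.2**: straight short-direction crossing (TEX[annulus:straight-short]) in the dual form, under the straight reference -/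
def Rse182LSS (𝓗 : Rse182Hist Ω) (𝓛 : Rln182Law Ω Y) (G : LenGeo Y) (c : ℝ) (a b : ℤ) : Prop :=
  c * 𝓛.Z 𝓗.h3 ≤ 𝓛.N 𝓗.h3 (rln182Ind fun ω => G.Vp (𝓛.np ω) a b)

theorem rse182_eqns_cite : True := by
  have := @rse182O.eq_1
  have := @rse182Fr.eq_1
  have := @Rse182St.eq_1
  have := @rse182M.eq_1
  have := @Rse182FM.eq_1
  have := @Rse182Loc.eq_1
  have := @Rse182Start.eq_1
  have := @Rse182LSS.eq_1
  trivial

/-! ## 2. deterministic facts -/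

variable {𝓛 : Rln182Law Ω Y} {K : Ω → Prop} {G : LenGeo Y} {a b : ℤ} {ω₀ : Ω}

theorem rse182_mem_O {y : Y} : y ∈ rse182O 𝓛 G a b ↔ y ∈ 𝓛.cells ∧ G.box a b y := by
  classical
  unfold rse182O; exact Finset.mem_filter

theorem rse182_mem_Q {y : Y} : y ∈ rln182Q 𝓛 G a b ω₀ ↔ y ∈ 𝓛.cells ∧ G.Q (𝓛.np ω₀) a b y := by
  classical
  unfold rln182Q; exact Finset.mem_filter

theorem rse182_mem_Fr {y : Y} : y ∈ rse182Fr 𝓛 G a b ω₀ ↔ y ∈ rse182O 𝓛 G a b ∧ y ∉ rln182Q 𝓛 G a b ω₀ := by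
  classical
  unfold rse182Fr; exact Finset.mem_filter

theorem rse182_Q_sub_O : rln182Q 𝓛 G a b ω₀ ⊆ rse182O 𝓛 G a b := by
  intro y hy
  obtain ⟨h1, h2⟩ := rse182_mem_Q.1 hy
  exact rse182_mem_O.2 ⟨h1, h2.1⟩

/-- FACT0: a cell looked at which is non-plus belongs to one of the two explored clusters -/
theorem rse182_Q_np {y : Y} (hy : y ∈ rln182Q 𝓛 G a b ω₀) (hn : 𝓛.np ω₀ y) : G.D (𝓛.np ω₀) a b y := by
  obtain ⟨_, hbox, h⟩ := rse182_mem_Q.1 hy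
  rcases h with h | h | ⟨z, hz, hzy⟩
  · exact Or.inl (len_cl_self hn hbox h)
  · exact Or.inr (len_cl_self hn hbox h)
  · rcases hz with hz | hz
    · exact Or.inl (len_cl_step hz ⟨hzy, hz.1, hn, hz.2.1, hbox⟩)
    · exact Or.inr (len_cl_step hz ⟨hzy, hz.1, hn, hz.2.1, hbox⟩)

theorem rse182_M_sub_Fr : rse182M 𝓛 G a b ω₀ ⊆ rse182Fr 𝓛 G a b ω₀ := by
  classical
  unfold rse182M; exact Finset.filter_subset _ _

theorem rse182_mem_M {y : Y} : y ∈ rse182M 𝓛 G a b ω₀ ↔ y ∈ rse182Fr 𝓛 G a b ω₀ ∧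
    (∃ l ∈ rse182Fr 𝓛 G a b ω₀, G.X l = a ∧ ReflTransGen (Rse182St G (rse182Fr 𝓛 G a b ω₀)) l y) ∧
    (∃ r ∈ rse182Fr 𝓛 G a b ω₀, G.X r = b ∧ ReflTransGen (Rse182St G (rse182Fr 𝓛 G a b ω₀)) y r) := by
  classical
  unfold rse182M; exact Finset.mem_filter

/-- a fresh neighbour of a retained cell is retained -/
theorem rse182_M_adj {m z : Y} (hm : m ∈ rse182M 𝓛 G a b ω₀) (hz : z ∈ rse182Fr 𝓛 G a b ω₀) (h : G.adj m z) :
    z ∈ rse182M 𝓛 G a b ω₀ := by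
  obtain ⟨hmF, ⟨l, hl, hla, hlm⟩, r, hr, hrb, hmr⟩ := rse182_mem_M.1 hm
  exact rse182_mem_M.2 ⟨hz, ⟨l, hl, hla, hlm.tail ⟨h, hmF, hz⟩⟩, r, hr, hrb, ReflTransGen.head ⟨G.symm _ _ h, hz, hmF⟩ hmr⟩

theorem rse182_M_OnQ {m : Y} (hm : m ∈ rse182M 𝓛 G a b ω₀) : m ∈ rse182O 𝓛 G a b ∧ m ∉ rln182Q 𝓛 G a b ω₀ :=
  rse182_mem_Fr.1 (rse182_M_sub_Fr hm)

/-- FACT1: a cell of the box off `M` which is adjacent to a retained cell has been looked at and is plus -/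
theorem rse182_adj_in {m y : Y} (hm : m ∈ rse182M 𝓛 G a b ω₀) (hy : y ∈ rse182O 𝓛 G a b) (hyM : y ∉ rse182M 𝓛 G a b ω₀) (h : G.adj m y) :
    y ∈ rln182Q 𝓛 G a b ω₀ ∧ ¬ 𝓛.np ω₀ y := by
  have hyQ : y ∈ rln182Q 𝓛 G a b ω₀ := by
    by_contra hc
    exact hyM (rse182_M_adj hm (rse182_mem_Fr.2 ⟨hy, hc⟩) h)
  refine ⟨hyQ, fun hn => ?_⟩
  have hD := rse182_Q_np hyQ hn
  obtain ⟨hmO, hmQ⟩ := rse182_M_OnQ hm
  obtain ⟨hmC, hmb⟩ := rse182_mem_O.1 hmO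
  exact hmQ (rse182_mem_Q.2 ⟨hmC, hmb, Or.inr (Or.inr ⟨y, hD, G.symm _ _ h⟩)⟩)

/-- the top and the bottom rows are not retained -/
theorem rse182_TB_not_M {y : Y} (hy : y ∈ rse182O 𝓛 G a b) (h : G.top y ∨ G.bot y) : y ∉ rse182M 𝓛 G a b ω₀ := by
  intro hm
  obtain ⟨h3, h4⟩ := rse182_mem_O.1 hy
  refine (rse182_M_OnQ hm).2 (rse182_mem_Q.2 ⟨h3, h4, ?_⟩)
  rcases h with h | h
  · exact Or.inl h
  · exact Or.inr (Or.inl h)

/-- under the record, the event on the retained cells implies the event of (SE) -/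
theorem rse182_ev_h (hS : 𝓛.Ok) (hb : ∀ y, G.band y → y ∈ 𝓛.cells) {ω : Ω} (hω : rln182Rec 𝓛 K G a b ω₀ ω)
    (h : Rse182FM 𝓛 G a b (rse182M 𝓛 G a b ω₀) ω) :
    G.Vp (fun y => 𝓛.np ω y ∧ ¬ G.D (𝓛.np ω₀) a b y) a b := by
  have hagr := hS.agr_np _ _ _ hω.2
  -- a non-plus cell of the box off the explored clusters is fresh
  have hfr : ∀ y, (𝓛.np ω y ∧ ¬ G.D (𝓛.np ω₀) a b y) → G.box a b y → y ∈ rse182Fr 𝓛 G a b ω₀ := by
    intro y hy hbx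
    refine rse182_mem_Fr.2 ⟨rse182_mem_O.2 ⟨hb y hbx.1, hbx⟩, fun hQ => ?_⟩
    exact hy.2 (rse182_Q_np hQ ((hagr y hQ).2 hy.1))
  intro v hv hX
  obtain ⟨hv1, hv2, u, hu, hw⟩ := hv
  have hw' : ReflTransGen (Rse182St G (rse182Fr 𝓛 G a b ω₀)) u v :=
    ReflTransGen.mono (fun x y hs => ⟨hs.1, hfr x hs.2.1 hs.2.2.2.1, hfr y hs.2.2.1 hs.2.2.2.2⟩) _ _ hw
  have hvFr := hfr v hv1 hv2
  have hu' : (𝓛.np ω u ∧ ¬ G.D (𝓛.np ω₀) a b u) ∧ G.box a b u := by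
    rcases ReflTransGen.cases_head hw with e | ⟨c, hs, _⟩
    · subst e; exact ⟨hv1, hv2⟩
    · exact ⟨hs.2.1, hs.2.2.2.1⟩
  have huFr := hfr u hu'.1 hu'.2
  have huM : u ∈ rse182M 𝓛 G a b ω₀ :=
    rse182_mem_M.2 ⟨huFr, ⟨u, huFr, hu, ReflTransGen.refl⟩, ⟨v, hvFr, hX, hw'⟩⟩
  have key : ∀ w, ReflTransGen (G.st (fun y => 𝓛.np ω y ∧ ¬ G.D (𝓛.np ω₀) a b y) a b) u w →
      w ∈ rse182M 𝓛 G a b ω₀ ∧ ReflTransGen (G.st (fun y => 𝓛.np ω y ∧ ¬ y ∉ rse182M 𝓛 G a b ω₀) a b) u w := by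
    intro w hw
    induction hw with
    | refl => exact ⟨huM, ReflTransGen.refl⟩
    | @tail x y _ hs ih =>
      have hyM := rse182_M_adj ih.1 (hfr y hs.2.2.1 hs.2.2.2.2) hs.1
      exact ⟨hyM, ih.2.tail ⟨hs.1, ⟨hs.2.1.1, not_not.2 ih.1⟩, ⟨hs.2.2.1.1, not_not.2 hyM⟩, hs.2.2.2.1, hs.2.2.2.2⟩⟩
  obtain ⟨hvM, hwM⟩ := key v hw
  exact h v ⟨⟨hv1.1, not_not.2 hvM⟩, hv2, u, hu, hwM⟩ hX

theorem rse182_ev_M (M : Finset Y) {ω : Ω} (h : G.Vp (𝓛.np ω) a b) : Rse182FM 𝓛 G a b M ω :=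
  len_Vp_anti (fun _ _ hn => hn.1) h

/-- the event on the retained cells reads their statuses only -/
theorem rse182_ev_loc (M : Finset Y) {ω ω' : Ω} (h : ∀ y ∈ M, (𝓛.np ω y ↔ 𝓛.np ω' y)) :
    Rse182FM 𝓛 G a b M ω ↔ Rse182FM 𝓛 G a b M ω' := by
  have e : (fun y => 𝓛.np ω y ∧ ¬ y ∉ M) = (fun y => 𝓛.np ω' y ∧ ¬ y ∉ M) := by
    funext y
    by_cases hy : y ∈ M
    · simp only [hy, not_true_eq_false, not_false_eq_true, and_true]
      exact propext (h y hy)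
    · simp [hy]
  unfold Rse182FM
  rw [e]

theorem rse182_ind_loc (M : Finset Y) : Rse182Loc 𝓛 M (rln182Ind (Rse182FM 𝓛 G a b M)) := by
  intro ω ω' h
  by_cases h' : Rse182FM 𝓛 G a b M ω
  · rw [rln182_ind_pos h', rln182_ind_pos ((rse182_ev_loc M h).1 h')]
  · rw [rln182_ind_neg h', rln182_ind_neg fun h'' => h' ((rse182_ev_loc M h).2 h'')]

/-! ## 3. THE CHAIN -/

/-- **THE ADAPTER**: the strip estimate (SE) of the lengthening from the straight short-direction crossing -/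
theorem rse182_main (hS : 𝓛.Ok) (hb : ∀ y, G.band y → y ∈ 𝓛.cells) (𝓗 : Rse182Hist Ω) {C : ℝ} (hC : 0 < C)
    (hH : 𝓗.Ok 𝓛 K G a b C) {c : ℝ} (hc : 0 ≤ c) (hL : Rse182LSS 𝓗 𝓛 G c a b) : Rln182SE 𝓛 K G (c / C) a b := by
  intro ω₀ hω₀ hK₀ hHp
  have hN0 : 0 ≤ 𝓛.N (rln182Rec 𝓛 K G a b ω₀) (rln182Ind fun ω => G.Vp (fun y => 𝓛.np ω y ∧ ¬ G.D (𝓛.np ω₀) a b y) a b) :=
    rln182_N_nonneg 𝓛 hS _ _ fun ω _ => rln182_ind_nonneg _ ω
  rcases (rln182_Z_nonneg 𝓛 hS (rln182Rec 𝓛 K G a b ω₀)).eq_or_lt with hZ | hZ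
  · rw [← hZ, mul_zero]; exact hN0
  have st : Rse182Start 𝓛 K G a b ω₀ := ⟨hω₀, hK₀, hHp, hZ⟩
  have z1 := hH.pos1 ω₀ st
  have z2 := hH.pos2 ω₀ st
  have z3 := hH.pos3 ω₀ st
  set M := rse182M 𝓛 G a b ω₀ with hM
  have mM : 𝓛.Mono (rln182Ind (Rse182FM 𝓛 G a b M)) := rln182_ind_mono 𝓛 (rln182_Vp_monoP 𝓛 G hS hb a b (fun y => y ∉ M))
  have mT : 𝓛.Mono (rln182Ind fun ω => G.Vp (𝓛.np ω) a b) := by
    refine rln182_ind_mono 𝓛 ?_
    intro ω ω' hle h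
    exact len_Vp_anti (fun y hy hn => hS.np_anti ω ω' hle y (hb y hy) hn) h
  -- (4) + (3)
  have s3 := hH.ord3 ω₀ st _ mT
  have s3' : 𝓛.N (𝓗.h2 ω₀) (rln182Ind fun ω => G.Vp (𝓛.np ω) a b) ≤ 𝓛.N (𝓗.h2 ω₀) (rln182Ind (Rse182FM 𝓛 G a b M)) := by
    refine rln182_N_mono 𝓛 hS _ _ _ fun ω _ => ?_
    by_cases h : G.Vp (𝓛.np ω) a b
    · rw [rln182_ind_pos (L := fun ω => G.Vp (𝓛.np ω) a b) h, rln182_ind_pos (L := Rse182FM 𝓛 G a b M) (rse182_ev_M _ h)]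
    · rw [rln182_ind_neg (L := fun ω => G.Vp (𝓛.np ω) a b) h]; exact rln182_ind_nonneg _ _
  have t2 : c * 𝓛.Z (𝓗.h2 ω₀) ≤ 𝓛.N (𝓗.h2 ω₀) (rln182Ind (Rse182FM 𝓛 G a b M)) := by
    refine le_trans ?_ s3'
    refine le_of_mul_le_mul_left ?_ z3
    calc 𝓛.Z 𝓗.h3 * (c * 𝓛.Z (𝓗.h2 ω₀)) = (c * 𝓛.Z 𝓗.h3) * 𝓛.Z (𝓗.h2 ω₀) := by ring
      _ ≤ 𝓛.N 𝓗.h3 (rln182Ind fun ω => G.Vp (𝓛.np ω) a b) * 𝓛.Z (𝓗.h2 ω₀) := mul_le_mul_of_nonneg_right hL z2.le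
      _ ≤ _ := s3
  -- (2)
  have s2 := hH.port ω₀ st (rln182Ind (Rse182FM 𝓛 G a b M)) (rln182_ind_nonneg _) (rse182_ind_loc M)
  have t1 : c * 𝓛.Z (𝓗.h1 ω₀) ≤ C * 𝓛.N (𝓗.h1 ω₀) (rln182Ind (Rse182FM 𝓛 G a b M)) := by
    refine le_of_mul_le_mul_left ?_ z2
    calc 𝓛.Z (𝓗.h2 ω₀) * (c * 𝓛.Z (𝓗.h1 ω₀)) = (c * 𝓛.Z (𝓗.h2 ω₀)) * 𝓛.Z (𝓗.h1 ω₀) := by ring
      _ ≤ 𝓛.N (𝓗.h2 ω₀) (rln182Ind (Rse182FM 𝓛 G a b M)) * 𝓛.Z (𝓗.h1 ω₀) := mul_le_mul_of_nonneg_right t2 z1.le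
      _ ≤ _ := s2
      _ = _ := by ring
  -- (1)
  have s1 := hH.ord1 ω₀ st _ mM
  have t0 : c * 𝓛.Z (rln182Rec 𝓛 K G a b ω₀) ≤ C * 𝓛.N (rln182Rec 𝓛 K G a b ω₀) (rln182Ind (Rse182FM 𝓛 G a b M)) := by
    refine le_of_mul_le_mul_left ?_ z1
    calc 𝓛.Z (𝓗.h1 ω₀) * (c * 𝓛.Z (rln182Rec 𝓛 K G a b ω₀)) = (c * 𝓛.Z (𝓗.h1 ω₀)) * 𝓛.Z (rln182Rec 𝓛 K G a b ω₀) := by ring
      _ ≤ (C * 𝓛.N (𝓗.h1 ω₀) (rln182Ind (Rse182FM 𝓛 G a b M))) * 𝓛.Z (rln182Rec 𝓛 K G a b ω₀) :=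
          mul_le_mul_of_nonneg_right t1 hZ.le
      _ = C * (𝓛.N (𝓗.h1 ω₀) (rln182Ind (Rse182FM 𝓛 G a b M)) * 𝓛.Z (rln182Rec 𝓛 K G a b ω₀)) := by ring
      _ ≤ C * (𝓛.Z (𝓗.h1 ω₀) * 𝓛.N (rln182Rec 𝓛 K G a b ω₀) (rln182Ind (Rse182FM 𝓛 G a b M))) :=
          mul_le_mul_of_nonneg_left s1 hC.le
      _ = _ := by ring
  have s0 : 𝓛.N (rln182Rec 𝓛 K G a b ω₀) (rln182Ind (Rse182FM 𝓛 G a b M))
      ≤ 𝓛.N (rln182Rec 𝓛 K G a b ω₀) (rln182Ind fun ω => G.Vp (fun y => 𝓛.np ω y ∧ ¬ G.D (𝓛.np ω₀) a b y) a b) := by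
    refine rln182_N_mono 𝓛 hS _ _ _ fun ω hω => ?_
    by_cases h : Rse182FM 𝓛 G a b M ω
    · rw [rln182_ind_pos h, rln182_ind_pos (L := fun ω => G.Vp (fun y => 𝓛.np ω y ∧ ¬ G.D (𝓛.np ω₀) a b y) a b) (rse182_ev_h hS hb hω h)]
    · rw [rln182_ind_neg h]; exact rln182_ind_nonneg _ _
  have h5 : c * 𝓛.Z (rln182Rec 𝓛 K G a b ω₀)
      ≤ C * 𝓛.N (rln182Rec 𝓛 K G a b ω₀) (rln182Ind fun ω => G.Vp (fun y => 𝓛.np ω y ∧ ¬ G.D (𝓛.np ω₀) a b y) a b) :=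
    t0.trans (mul_le_mul_of_nonneg_left s0 hC.le)
  rw [div_mul_eq_mul_div, div_le_iff₀ hC]
  linarith

end abstract

end Claimed.Agent.R292

/-!
# PART E (appended 22:00Z) : THE PARITY FORM OF PART C, FOR THE REFINED SQUARE LATTICE

On the refinement of `ℤ²` (111, 162) the strip estimate (SE) is natural only for the boxes whose top and bottom rows are EVEN (vertex / horizontal edge rows) and whose short sides are ODD columns (the box is a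
rectangle of faces; `h3` of `LenInst182` = plus on the two long sides, minus on the two short sides), and the sizes `L H` are even.      Here: `Rln182CSE2` (only these boxes), `Rln182CFkg2`, `Rln182Shift2`,
`Rln182Ref2` (a non-plus cell of an even row has non-plus cells above and below it: true for every refined field), and
**`rln182_len2 : Rln182Len2`**, **`rln182_glue2 : Rln182Glue2`** = `Rln182Len`, `Rln182Glue` for even `L H` and ALL rows `c r k m` (the rows are rounded to even rows with `Rln182Ref2`, the overlap boxes are shrunk by one column).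
-/

namespace Claimed.Agent.R292

open Claims Claims.C0467 Relation Claimed.Agent.R291

section Par

variable {Ω : ℕ → ℕ → Type}

/-- **(SE) on the cylinder, admissible boxes only**: even sizes, even top and bottom rows, odd short sides, three spare columns in the window -/
def Rln182CSE2 (𝓛 : ∀ L H, Rln182Law (Ω L H) TV) (K : ∀ L H, Ω L H → Prop) : Prop :=
  ∃ c : ℝ, 0 < c ∧ ∃ r₀ : ℕ, ∀ (L H : ℕ) (k r w a b : ℤ), L % 2 = 0 → H % 2 = 0 → k % 2 = 0 → r % 2 = 1 → a % 2 = 1 → b % 2 = 1 →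
    (r₀ : ℤ) ≤ r → 10 * r ≤ L → 12 + r ≤ 4 * k → 4 * k + 5 * r ≤ 4 * (H : ℤ) - 16 → w + 3 ≤ a → b + 3 < w + L → 7 * r ≤ 2 * (b - a) → b - a ≤ 5 * r →
    Rln182SE (𝓛 L H) (K L H) (lcyG L H w k (k + r - 1)) c a b

/-- FKG, even sizes -/
def Rln182CFkg2 (𝓛 : ∀ L H, Rln182Law (Ω L H) TV) (K : ∀ L H, Ω L H → Prop) : Prop :=
  ∀ L H : ℕ, L % 2 = 0 → H % 2 = 0 → 3 ≤ L → 1 ≤ H → Rln182Fkg (𝓛 L H) (K L H)

/-- even shifts, even sizes -/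
def Rln182Shift2 (𝓛 : ∀ L H, Rln182Law (Ω L H) TV) (K : ∀ L H, Ω L H → Prop) : Prop :=
  ∀ (L H : ℕ) (a : ℤ) (E : Set TV → Prop), L % 2 = 0 → H % 2 = 0 → 3 ≤ L → rln182P 𝓛 K L H (sdTr (2 * a, 0) E) = rln182P 𝓛 K L H E

/-- refined fields: a non-plus cell of an even row has non-plus cells above and below it -/
def Rln182Ref2 (𝓛 : ∀ L H, Rln182Law (Ω L H) TV) : Prop :=
  ∀ (L H : ℕ) (ω : Ω L H), L % 2 = 0 → H % 2 = 0 → ∀ u ∈ (𝓛 L H).cells, ∀ u' ∈ (𝓛 L H).cells, u.2 % 2 = 0 → u'.1 = u.1 →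
    (u'.2 = u.2 + 1 ∨ u'.2 = u.2 - 1) → (𝓛 L H).np ω u → (𝓛 L H).np ω u'

/-- horizontal lengthening, even sizes, all rows -/
def Rln182Len2 (𝓛 : ∀ L H, Rln182Law (Ω L H) TV) (K : ∀ L H, Ω L H → Prop) : Prop :=
  ∀ (κ : ℕ) (δ : ℝ), 0 < δ → ∃ δ' : ℝ, 0 < δ' ∧ ∃ r₀ : ℕ, ∀ (L H : ℕ) (c r : ℤ), L % 2 = 0 → H % 2 = 0 → (r₀ : ℤ) ≤ r → ((κ : ℤ) + 10) * r ≤ L → r ≤ c →
    c + 2 * r ≤ (H : ℤ) - 1 → δ ≤ rln182P 𝓛 K L H (SdH 0 (4 * r) c (c + r)) → δ' ≤ rln182P 𝓛 K L H (SdH 0 (κ * r) c (c + r))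

/-- averaged gluing, even sizes, all rows -/
def Rln182Glue2 (𝓛 : ∀ L H, Rln182Law (Ω L H) TV) (K : ∀ L H, Ω L H → Prop) : Prop :=
  ∃ cG : ℝ, 0 < cG ∧ ∃ r₀ : ℕ, ∀ (L H : ℕ) (k m : ℤ), L % 2 = 0 → H % 2 = 0 → 20 ≤ H → H ≤ L → (r₀ : ℤ) ≤ m → 100 * m ≤ L → 3 + 3 * m ≤ k →
    k + 13 * m ≤ (H : ℤ) - 4 →
    cG * rln182P 𝓛 K L H (fun X => SdH 0 (60 * m) (k + 8 * m) (k + 10 * m - 1) X ∧ SdH (10 * m) (70 * m) k (k + 2 * m - 1) X)
      ≤ rln182P 𝓛 K L H (SdV (12 * m) (58 * m) (k + 3 * m) (k + 7 * m))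

theorem rln182_eqns_cite3 : True := by
  have := @Rln182CSE2.eq_1
  have := @Rln182CFkg2.eq_1
  have := @Rln182Shift2.eq_1
  have := @Rln182Ref2.eq_1
  have := @Rln182Len2.eq_1
  have := @Rln182Glue2.eq_1
  trivial

/-! ### rounding the rows -/

section round

variable {L H : ℕ} {w a b c d : ℤ} {np : TV → Prop}

theorem rln182_st_rows {c' d' : ℤ} (h1 : c' ≤ c) (h2 : d ≤ d') {u v : TV} (h : (lcyG L H w c d).st np a b u v) : (lcyG L H w c' d').st np a b u v :=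
  ⟨h.1, h.2.1, h.2.2.1, ⟨⟨h.2.2.2.1.1.1, h1.trans h.2.2.2.1.1.2.1, h.2.2.2.1.1.2.2.trans h2⟩, h.2.2.2.1.2⟩,
    ⟨⟨h.2.2.2.2.1.1, h1.trans h.2.2.2.2.1.2.1, h.2.2.2.2.1.2.2.trans h2⟩, h.2.2.2.2.2⟩⟩

theorem rln182_rtg_rows {c' d' : ℤ} (h1 : c' ≤ c) (h2 : d ≤ d') {u v : TV} (h : ReflTransGen ((lcyG L H w c d).st np a b) u v) :
    ReflTransGen ((lcyG L H w c' d').st np a b) u v :=
  ReflTransGen.mono (fun _ _ hs => rln182_st_rows h1 h2 hs) _ _ h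

/-- vertical neighbours are adjacent in the chart -/
theorem rln182_adj_vert (c' d' : ℤ) {u u' : TV} (h1 : u'.1 = u.1) (h2 : u'.2 = u.2 + 1 ∨ u'.2 = u.2 - 1) : (lcyG L H w c' d').adj u u' := by
  show triAdj (lcyLift L w u) (lcyLift L w u')
  rw [tsc_adj_iff]
  have e1 : (lcyLift L w u').1 = (lcyLift L w u).1 := by
    unfold lcyLift lcyX
    simp only [h1]
  have e2 : (lcyLift L w u').2 = u'.2 := rfl
  have e3 : (lcyLift L w u).2 = u.2 := rfl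
  rw [e1, e2, e3]
  omega

/-- the odd top row is dropped -/
theorem rln182_drop_top (href : ∀ u ∈ sdCells L 0 H, ∀ u' ∈ sdCells L 0 H, u.2 % 2 = 0 → u'.1 = u.1 → (u'.2 = u.2 + 1 ∨ u'.2 = u.2 - 1) → np u → np u')
    (hd : d % 2 = 0) (hd0 : 0 ≤ d) (hdH : d + 1 < H) (hcd : c ≤ d) (h : (lcyG L H w c (d + 1)).Hp np a b) : (lcyG L H w c d).Hp np a b := by
  intro v hv hbot
  obtain ⟨hv1, hv2, u, hu, hR⟩ := hv
  have hu' : np u ∧ (lcyG L H w c d).box a b u := by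
    rcases ReflTransGen.cases_head hR with e | ⟨z, hs, _⟩
    · subst e; exact ⟨hv1, hv2⟩
    · exact ⟨hs.2.1, hs.2.2.2.1⟩
  have hu2 : u.2 = d := hu
  have huC : u ∈ sdCells L 0 H := hu'.2.1.1
  have hupC : ((u.1, d + 1) : TV) ∈ sdCells L 0 H := by
    unfold sdCells at huC ⊢
    simp only [Finset.mem_product, Finset.mem_Ico] at huC ⊢
    exact ⟨huC.1, by omega, hdH⟩
  have hnp : np (u.1, d + 1) := href u huC _ hupC (by rw [hu2]; exact hd) rfl (Or.inl (by simp [hu2])) hu'.1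
  have hbx : (lcyG L H w c (d + 1)).box a b (u.1, d + 1) := ⟨⟨hupC, by show c ≤ d + 1; omega, le_refl _⟩, hu'.2.2⟩
  have hbu : (lcyG L H w c (d + 1)).box a b u := ⟨⟨huC, hu'.2.1.2.1, by have := hu'.2.1.2.2; omega⟩, hu'.2.2⟩
  have hst : (lcyG L H w c (d + 1)).st np a b (u.1, d + 1) u :=
    ⟨rln182_adj_vert _ _ rfl (Or.inr (by simp [hu2])), hnp, hu'.1, hbx, hbu⟩
  refine h v ⟨hv1, ⟨⟨hv2.1.1, hv2.1.2.1, by have := hv2.1.2.2; omega⟩, hv2.2⟩, (u.1, d + 1), rfl, ReflTransGen.head hst (rln182_rtg_rows le_rfl (by omega) hR)⟩ hbot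

/-- the odd bottom row is dropped -/
theorem rln182_drop_bot (href : ∀ u ∈ sdCells L 0 H, ∀ u' ∈ sdCells L 0 H, u.2 % 2 = 0 → u'.1 = u.1 → (u'.2 = u.2 + 1 ∨ u'.2 = u.2 - 1) → np u → np u')
    (hc : c % 2 = 0) (hc0 : 1 ≤ c) (hdH : d < H) (hcd : c ≤ d) (h : (lcyG L H w (c - 1) d).Hp np a b) : (lcyG L H w c d).Hp np a b := by
  intro v hv hbot
  obtain ⟨hv1, hv2, u, hu, hR⟩ := hv
  have hv3 : v.2 = c := hbot
  have hvC : v ∈ sdCells L 0 H := hv2.1.1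
  have hvmC : ((v.1, c - 1) : TV) ∈ sdCells L 0 H := by
    unfold sdCells at hvC ⊢
    simp only [Finset.mem_product, Finset.mem_Ico] at hvC ⊢
    exact ⟨hvC.1, by omega, by omega⟩
  have hnp : np (v.1, c - 1) := href v hvC _ hvmC (by rw [hv3]; exact hc) rfl (Or.inr (by simp [hv3])) hv1
  have hbx : (lcyG L H w (c - 1) d).box a b (v.1, c - 1) := ⟨⟨hvmC, le_refl _, by show c - 1 ≤ d; omega⟩, hv2.2⟩
  have hbv : (lcyG L H w (c - 1) d).box a b v := ⟨⟨hvC, by have := hv2.1.2.1; omega, hv2.1.2.2⟩, hv2.2⟩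
  have hst : (lcyG L H w (c - 1) d).st np a b v (v.1, c - 1) :=
    ⟨rln182_adj_vert _ _ rfl (Or.inr (by simp [hv3])), hv1, hnp, hbv, hbx⟩
  exact h (v.1, c - 1) ⟨hnp, hbx, u, hu, (rln182_rtg_rows (by omega) le_rfl hR).tail hst⟩ rfl

/-- **rounding**: the crossing of a band is a crossing of the band rounded to even rows -/
theorem rln182_round (href : ∀ u ∈ sdCells L 0 H, ∀ u' ∈ sdCells L 0 H, u.2 % 2 = 0 → u'.1 = u.1 → (u'.2 = u.2 + 1 ∨ u'.2 = u.2 - 1) → np u → np u')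
    {k e : ℤ} (hc : c % 2 = 0) (hd : d % 2 = 0) (h1 : k ≤ c) (h2 : c ≤ k + 1) (h3 : d ≤ e) (h4 : e ≤ d + 1) (hk : 0 ≤ k) (he : e < H) (hcd : c ≤ d)
    (h : (lcyG L H w k e).Hp np a b) : (lcyG L H w c d).Hp np a b := by
  have s1 : (lcyG L H w k d).Hp np a b := by
    rcases (by omega : e = d ∨ e = d + 1) with rfl | rfl
    · exact h
    · exact rln182_drop_top href hd (by omega) he (by omega) h
  rcases (by omega : k = c ∨ k = c - 1) with rfl | rfl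
  · exact s1
  · exact rln182_drop_bot href hc (by omega) (by omega) hcd s1

end round

variable {𝓛 : ∀ L H, Rln182Law (Ω L H) TV} {K : ∀ L H, Ω L H → Prop}

/-- the same for the lifted sets -/
theorem rln182_H_round (hC : Rln182Cyl 𝓛) (hR : Rln182Ref2 𝓛) {L H : ℕ} (eL : L % 2 = 0) (eH : H % 2 = 0) (ω : Ω L H) {w a b c d k e : ℤ} (hL : 0 < L)
    (hw : w ≤ a) (hb : b < w + L) (hc : c % 2 = 0) (hd : d % 2 = 0) (h1 : k ≤ c) (h2 : c ≤ k + 1) (h3 : d ≤ e) (h4 : e ≤ d + 1) (hk : 0 ≤ k) (he : e < H)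
    (hcd : c ≤ d) (h : SdH a b k e (rln182Set (𝓛 L H) L ω)) : SdH a b c d (rln182Set (𝓛 L H) L ω) := by
  have href : ∀ u ∈ sdCells L 0 H, ∀ u' ∈ sdCells L 0 H, u.2 % 2 = 0 → u'.1 = u.1 → (u'.2 = u.2 + 1 ∨ u'.2 = u.2 - 1) →
      (𝓛 L H).np ω u → (𝓛 L H).np ω u' := by
    have := hR L H ω eL eH
    rwa [hC.cells] at this
  exact (rln182_Hp_iff (rln182_lift hC hL ω) hL hw hb (by omega) (by omega)).1
    (rln182_round href hc hd h1 h2 h3 h4 hk he hcd ((rln182_Hp_iff (rln182_lift hC hL ω) hL hw hb hk he).2 h))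

/-! ### the step and the iteration with the overlap box shrunk by one column on each side -/

section abs2

variable {Ω₀ Y₀ : Type} (𝓜 : Rln182Law Ω₀ Y₀) (G : LenGeo Y₀)

theorem rln182_P_nonneg (hS : 𝓜.Ok) (K A : Ω₀ → Prop) : 0 ≤ 𝓜.P K A :=
  div_nonneg (rln182_N_nonneg 𝓜 hS _ _ fun ω _ => rln182_ind_nonneg _ ω) (rln182_Z_nonneg 𝓜 hS _)

theorem rln182_step2 (hS : 𝓜.Ok) (K : Ω₀ → Prop) (hK : Rln182Fkg 𝓜 K) (hb : ∀ y, G.band y → y ∈ 𝓜.cells) {c : ℝ} (hc : 0 ≤ c)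
    {a1 a2 b1 b2 : ℤ} (ha : a1 ≤ a2) (hab : a2 + 2 ≤ b1) (hb12 : b1 ≤ b2) (hSE : Rln182SE 𝓜 K G c (a2 + 1) (b1 - 1)) :
    c * 𝓜.P K (fun ω => G.Hp (𝓜.np ω) a1 b1) * 𝓜.P K (fun ω => G.Hp (𝓜.np ω) a2 b2) ≤ 𝓜.P K (fun ω => G.Hp (𝓜.np ω) a1 b2) := by
  have m1 : 𝓜.P K (fun ω => G.Hp (𝓜.np ω) a1 b1) ≤ 𝓜.P K (fun ω => G.Hp (𝓜.np ω) a1 (b1 - 1)) :=
    rln182_P_mono 𝓜 hS K fun ω h => len_Hp_mono le_rfl (by omega) h
  have m2 : 𝓜.P K (fun ω => G.Hp (𝓜.np ω) a2 b2) ≤ 𝓜.P K (fun ω => G.Hp (𝓜.np ω) (a2 + 1) b2) :=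
    rln182_P_mono 𝓜 hS K fun ω h => len_Hp_mono (by omega) le_rfl h
  have h3 := rln182_step 𝓜 G hS K hK hb hc (a1 := a1) (a2 := a2 + 1) (b1 := b1 - 1) (b2 := b2) (by omega) (by omega) (by omega) hSE
  refine le_trans ?_ h3
  exact mul_le_mul (mul_le_mul_of_nonneg_left m1 hc) m2 (rln182_P_nonneg 𝓜 hS _ _) (mul_nonneg hc (rln182_P_nonneg 𝓜 hS _ _))

theorem rln182_iter2 (hS : 𝓜.Ok) (K : Ω₀ → Prop) (hK : Rln182Fkg 𝓜 K) (hb : ∀ y, G.band y → y ∈ 𝓜.cells) {c δ : ℝ} (hc : 0 ≤ c)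
    (hδ0 : 0 ≤ δ) (a0 L s : ℤ) (hs : 0 ≤ s) (hsL : s + 2 ≤ L) (n : ℕ)
    (hδ : ∀ j : ℕ, j ≤ n → δ ≤ 𝓜.P K (fun ω => G.Hp (𝓜.np ω) (a0 + j * s) (a0 + j * s + L)))
    (hSE : ∀ j : ℕ, j < n → Rln182SE 𝓜 K G c (a0 + (j + 1) * s + 1) (a0 + j * s + L - 1)) :
    ∀ j : ℕ, j ≤ n → δ * (c * δ) ^ j ≤ 𝓜.P K (fun ω => G.Hp (𝓜.np ω) a0 (a0 + j * s + L)) := by
  intro j
  induction j with
  | zero =>
    intro hj
    have := hδ 0 hj
    simpa using this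
  | succ j ih =>
    intro hj
    have h1 := ih (by omega)
    have h2 := hδ (j + 1) hj
    have hjs : 0 ≤ (j : ℤ) * s := mul_nonneg (by positivity) hs
    have h3 := rln182_step2 𝓜 G hS K hK hb hc (a1 := a0) (a2 := a0 + (j + 1) * s) (b1 := a0 + j * s + L)
      (b2 := a0 + (j + 1) * s + L) (by nlinarith) (by nlinarith) (by nlinarith) (hSE j (by omega))
    push_cast at h2 ⊢
    have h4 : 0 ≤ δ * (c * δ) ^ j := mul_nonneg hδ0 (pow_nonneg (mul_nonneg hc hδ0) _)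
    calc δ * (c * δ) ^ (j + 1) = c * (δ * (c * δ) ^ j) * δ := by ring
      _ ≤ c * 𝓜.P K (fun ω => G.Hp (𝓜.np ω) a0 (a0 + j * s + L)) * δ :=
          mul_le_mul_of_nonneg_right (mul_le_mul_of_nonneg_left h1 hc) hδ0
      _ ≤ c * 𝓜.P K (fun ω => G.Hp (𝓜.np ω) a0 (a0 + j * s + L)) *
            𝓜.P K (fun ω => G.Hp (𝓜.np ω) (a0 + (j + 1) * s) (a0 + (j + 1) * s + L)) :=
          mul_le_mul_of_nonneg_left h2 (mul_nonneg hc (h4.trans h1))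
      _ ≤ _ := h3

end abs2

theorem rln182_V_wide {a b a' b' c d : ℤ} (h1 : a ≤ a') (h2 : a' ≤ b') (h3 : b' ≤ b) (hcd : c ≤ d) {X : Set TV} (h : SdV a' b' c d X) : SdV a b c d X := by
  obtain ⟨u, v, hu, e1, e2, hR⟩ := (sd_V_iff h2 hcd X).1 h
  have hs : tscBox a' b' c d ∩ X ⊆ tscBox a b c d ∩ X := by
    rintro z ⟨⟨z1, z2, z3, z4⟩, z5⟩
    exact ⟨⟨by omega, by omega, z3, z4⟩, z5⟩
  exact (sd_V_iff (by omega) hcd X).2 ⟨u, v, hs hu, e1, e2, tsc_R_mono hs hR⟩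

/-- **the lengthening on the cylinder, parity form** -/
theorem rln182_len2 (hC : Rln182Cyl 𝓛) (hR : Rln182Ref2 𝓛) (hSE : Rln182CSE2 𝓛 K) (hF : Rln182CFkg2 𝓛 K) (hSh : Rln182Shift2 𝓛 K) : Rln182Len2 𝓛 K := by
  obtain ⟨c, hc, r₀, hSE⟩ := hSE
  intro κ δ hδ
  refine ⟨δ * (c * δ) ^ (2 * κ), by positivity, max (r₀ + 1) (max (4 * κ) 24), ?_⟩
  intro L H k r eL eH hr hL hk1 hk2 hδP
  have hr' : ((max (r₀ + 1) (max (4 * κ) 24) : ℕ) : ℤ) ≤ r := hr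
  have hr0 : (r₀ : ℤ) + 1 ≤ r := le_trans (by exact_mod_cast le_max_left _ _) hr'
  have hrκ : 4 * (κ : ℤ) ≤ r := le_trans (by exact_mod_cast (le_max_left (4 * κ) 24).trans (le_max_right (r₀ + 1) _)) hr'
  have hr2 : (24 : ℤ) ≤ r := le_trans (by exact_mod_cast (le_max_right (4 * κ) 24).trans (le_max_right (r₀ + 1) _)) hr'
  obtain ⟨q, hq⟩ : ∃ q : ℤ, q = (r - 11) / 4 := ⟨_, rfl⟩
  obtain ⟨s, hs⟩ : ∃ s : ℤ, s = 2 * q := ⟨_, rfl⟩
  obtain ⟨c', hc'⟩ : ∃ c' : ℤ, c' = k + k % 2 := ⟨_, rfl⟩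
  obtain ⟨d', hd'⟩ : ∃ d' : ℤ, d' = k + r - (k + r) % 2 := ⟨_, rfl⟩
  have hs1 : 2 ≤ s := by omega
  have hs2 : 2 * s ≤ r - 11 := by omega
  have hs3 : r - 14 ≤ 2 * s := by omega
  have hκ0 : (0 : ℤ) ≤ κ := by positivity
  have hκr : 0 ≤ (κ : ℤ) * r := mul_nonneg hκ0 (by omega)
  have hL' : (κ : ℤ) * r + 10 * r ≤ L := by nlinarith
  have hL0 : 0 < L := by omega
  have hL3 : 3 ≤ L := by omega
  have hH1 : 1 ≤ H := by omega
  have hk0 : 0 ≤ k := by omega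
  have hkH : k + r < H := by omega
  have hc0 : 0 ≤ c' := by omega
  have hdH : d' < H := by omega
  have ekr : c' + (d' - c' + 1) - 1 = d' := by ring
  have hκs : (κ : ℤ) * (2 * s) ≤ κ * (r - 11) := mul_le_mul_of_nonneg_left hs2 hκ0
  have hκs' : (κ : ℤ) * (r - 14) ≤ κ * (2 * s) := mul_le_mul_of_nonneg_left hs3 hκ0
  have hκκ : (κ : ℤ) * 14 ≤ 4 * r := by nlinarith
  have hbc : ∀ y, (lcyG L H 0 c' d').band y → y ∈ (𝓛 L H).cells := fun y hy => by rw [hC.cells]; exact hy.1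
  have hδ' : δ ≤ rln182P 𝓛 K L H (SdH 0 (4 * r) c' d') :=
    hδP.trans (rln182_P_mono _ (hC.ok L H) _ fun ω h =>
      rln182_H_round hC hR eL eH ω (w := 0) hL0 le_rfl (by omega) (by omega) (by omega) (by omega) (by omega) (by omega) (by omega) hk0 hkH (by omega) h)
  have key := rln182_iter2 (𝓛 L H) (lcyG L H 0 c' d') (hC.ok L H) (K L H) (hF L H eL eH hL3 hH1) hbc
    hc.le hδ.le 0 (4 * r) s (by omega) (by omega) (2 * κ)
    (by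
      intro i hi
      have his : (i : ℤ) * s ≤ ((2 * κ : ℕ) : ℤ) * s := mul_le_mul_of_nonneg_right (by exact_mod_cast hi) (by omega)
      have hi0 : 0 ≤ (i : ℤ) * s := mul_nonneg (by positivity) (by omega)
      push_cast at his
      rw [← rln182_P_H hC hL0 (by omega) (by nlinarith) hc0 hdH]
      have e : SdH (0 + (i : ℤ) * s) (0 + (i : ℤ) * s + 4 * r) c' d' = sdTr (2 * ((i : ℤ) * q), 0) (SdH 0 (4 * r) c' d') := by
        rw [sd_tr_H, hs]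
        congr 1 <;> simp <;> ring
      rw [e, hSh L H _ _ eL eH hL3]
      exact hδ')
    (by
      intro i hi
      have his : ((i : ℤ) + 1) * s ≤ ((2 * κ : ℕ) : ℤ) * s := mul_le_mul_of_nonneg_right (by exact_mod_cast hi) (by omega)
      have hi0 : 0 ≤ (i : ℤ) * s := mul_nonneg (by positivity) (by omega)
      push_cast at his
      have hκ1 : (1 : ℤ) ≤ κ := by omega
      have hκr1 : r ≤ (κ : ℤ) * r := by nlinarith
      obtain ⟨p, hp⟩ : ∃ p : ℤ, p = (i : ℤ) * q := ⟨_, rfl⟩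
      have e1 : (i : ℤ) * s = 2 * p := by rw [hs, hp]; ring
      have e2 : ((i : ℤ) + 1) * s = 2 * p + s := by rw [add_mul, e1, one_mul]
      have h9 : ((i : ℤ) + 1) * s ≤ (κ : ℤ) * r := by nlinarith
      have := hSE L H c' (d' - c' + 1) 0 (0 + ((i : ℤ) + 1) * s + 1) (0 + (i : ℤ) * s + 4 * r - 1) eL eH (by omega) (by omega) (by omega) (by omega)
        (by omega) (by omega) (by omega) (by omega) (by omega) (by omega) (by omega) (by omega)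
      rwa [ekr] at this)
    (2 * κ) le_rfl
  push_cast at key
  have fin : δ * (c * δ) ^ (2 * κ) ≤ rln182P 𝓛 K L H (SdH 0 (κ * r) c' d') := by
    rw [rln182_P_H hC (w := 0) hL0 le_rfl (by nlinarith) hc0 hdH]
    exact key.trans (rln182_P_mono _ (hC.ok L H) _ fun ω h => len_Hp_mono le_rfl (by nlinarith) h)
  exact fin.trans (rln182_P_mono _ (hC.ok L H) _ fun ω h => lcy_H_tall (by omega) (by omega) (by omega) h)

/-- **two horizontal crossings are joined** (averaged gluing), parity form -/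
theorem rln182_glue2 (hC : Rln182Cyl 𝓛) (hR : Rln182Ref2 𝓛) (hSE : Rln182CSE2 𝓛 K) (hF : Rln182CFkg2 𝓛 K) : Rln182Glue2 𝓛 K := by
  obtain ⟨c, hc, r₀, hSE⟩ := hSE
  refine ⟨c, hc, max r₀ 1, ?_⟩
  intro L H k m eL eH hH hHL hm hL hk1 hk2
  have hm' : ((max r₀ 1 : ℕ) : ℤ) ≤ m := hm
  have hm0 : (r₀ : ℤ) ≤ m := le_trans (by exact_mod_cast le_max_left _ _) hm'
  have hm1 : (1 : ℤ) ≤ m := le_trans (by exact_mod_cast le_max_right r₀ 1) hm'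
  obtain ⟨c', hc'⟩ : ∃ c' : ℤ, c' = k + k % 2 := ⟨_, rfl⟩
  obtain ⟨d', hd'⟩ : ∃ d' : ℤ, d' = c' + 10 * m - 2 := ⟨_, rfl⟩
  have hL0 : 0 < L := by omega
  have hL3 : 3 ≤ L := by omega
  have hH1 : 1 ≤ H := by omega
  have hk0 : 0 ≤ k := by omega
  have hc0 : 0 ≤ c' := by omega
  have hdH : d' < H := by omega
  have ekr : c' + (10 * m - 1) - 1 = d' := by omega
  have se := hSE L H c' (10 * m - 1) 0 (12 * m + 1) (58 * m - 1) eL eH (by omega) (by omega) (by omega) (by omega) (by omega) (by omega) (by omega)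
    (by omega) (by omega) (by omega) (by omega) (by omega)
  rw [ekr] at se
  have hbc : ∀ y, (lcyG L H 0 c' d').band y → y ∈ (𝓛 L H).cells := fun y hy => by rw [hC.cells]; exact hy.1
  -- the two crossings in even rows, in the shrunk box
  have hhi : ∀ ω, SdH 0 (60 * m) (k + 8 * m) (k + 10 * m - 1) (rln182Set (𝓛 L H) L ω) →
      SdH (12 * m + 1) (58 * m - 1) (c' + 8 * m) d' (rln182Set (𝓛 L H) L ω) := fun ω h =>
    rln182_H_round hC hR eL eH ω (w := 0) hL0 (by omega) (by omega) (by omega) (by omega) (by omega) (by omega) (by omega) (by omega) (by omega) (by omega)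
      (by omega) (sd_H_narrow (by omega) (by omega) h)
  have hlo : ∀ ω, SdH (10 * m) (70 * m) k (k + 2 * m - 1) (rln182Set (𝓛 L H) L ω) →
      SdH (12 * m + 1) (58 * m - 1) c' (c' + 2 * m - 2) (rln182Set (𝓛 L H) L ω) := fun ω h =>
    rln182_H_round hC hR eL eH ω (w := 0) hL0 (by omega) (by omega) (by omega) (by omega) (by omega) (by omega) (by omega) (by omega) (by omega) (by omega)
      (by omega) (sd_H_narrow (by omega) (by omega) h)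
  unfold rln182P
  refine rln182_gen1 (𝓛 L H) (lcyG L H 0 c' d') (hC.ok L H) (K L H) (hF L H eL eH hL3 hH1) hbc se
    _ _ (rln182_inc_monoP hC L H (E := fun X => SdH 0 (60 * m) (k + 8 * m) (k + 10 * m - 1) X ∧ SdH (10 * m) (70 * m) k (k + 2 * m - 1) X)
      (fun X X' hXX h => ⟨sd_H_inc _ _ _ _ X X' hXX h.1, sd_H_inc _ _ _ _ X X' hXX h.2⟩)) ?_ ?_
  · intro ω h
    exact (rln182_Hp_iff (rln182_lift hC hL0 ω) hL0 (by omega) (by omega) hc0 hdH).2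
      (lcy_H_tall (by omega) (by omega) le_rfl (hhi ω h.1))
  · intro ω h h3
    refine rln182_V_wide (by omega) (by omega) (by omega) (by omega) ?_ (a' := 12 * m + 1) (b' := 58 * m - 1)
    exact sd_e3_vert (by omega) (by omega) (by omega) (rln182_E3 (rln182_lift hC hL0 ω) hL0 (by omega) (by omega) hc0 hdH h3)
      (lcy_H_tall le_rfl (by omega) (by omega) (hlo ω h.2))
      (lcy_H_tall (by omega) (by omega) le_rfl (hhi ω h.1))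

end Par

end Claimed.Agent.R292
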