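import Claimed.Agent.R292.Rsw.Sys162
import Claimed.Agent.R292.Rsw.CoreTop121
import Claimed.Agent.R291.Glue.Ports2

/-!
# Row 292 (S0540), Rsw/Ports102 : R8 CORE, BLOCK A1.1 = FINITE BOUNDARY PORTS on the edge-pair systems `Rcy162Sys`      (owner helper102; prefix `rpo102` / `Rpo102`)      0 sorry

Port of R291 `Ann/PortsCl` + `Glue/Ports2` (TEX Triangular 09-annulus l.264-284) to the two-lattice systems of `Rsw/Sys162`: the first spin `s` lives on the primal sites, the second spin `d` on the FACES.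
The counting kit (`prcCnt`, `prc_cnt_mul_le`, `prc_cnt_port`, `prc_cnt_res`, `Prc2Cls`, ...) is generic and IMPORTED from R291.   No planarity; ties = arbitrary pairs of faces.

§0 `rpo102Sv S e` = the two endpoints, `rpo102Sd S e` = the two faces of an edge pair;   histories WITH TIES `Rpo102Con` (`Sp Sm` pins of `s`, `Eq` ties of `d`, `Gp Gm Cl` prescribed good-plus / good-minus / closed edges),
   `Rpo102Con.Holds K S ω`;   `rpo102Of K E` = a history `RswCon` of `CoreTop121` with the ties `E`.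
§1 `rpo102_sum_eq` : `S.sum t (K.Holds S) G` as a sum over `(S, O)` of `1[K] * ∏ kf * cnt * G`   (the face spins summed out).
§2 `Rpo102Split S t K R Q YR ER P` (retained sites `R`, retained faces `Q`, retained edge pairs `YR`, retained ties `ER`, ports `P` = FACES), `rpo102SR`, `rpo102KR`, `rpo102NR`, `rpo102AX`;
   EXITS `rpo102_core` (numerators), `rpo102_two` (two histories of one ambient), `rpo102_two_amb`, `rpo102_two_gen`, `rpo102_two_E` (two ambients), `rpo102_le`, `rpo102_ge`, `rpo102_E_le`, `rpo102_E_ge`,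
   `rpo102_feas` (ambient against the retained closed system);   helpers `rpo102_loc_ind`, `rpo102_good_loc`.
§3 PORTS BY CLASSES (`Glue/Ports2`): `rpo102_core2`, `rpo102_two2`, `rpo102_two2_gen`, `rpo102_two2_amb`, `rpo102_two2_k`, `rpo102_two2_amb_k`, `rpo102_le2`, `rpo102_ge2`.
§4 the plane: the flat problem `(F, b)` under a history of `CoreTop121` IS `rcy162Pl F` under a history with pins on the polygon (`rpo102Pol`, `rpo102Pl F b K E`, `rpo102_pl_holds`, `rpo102_pl_holds'`, `rpo102_pl_sum`, `rpo102_pl_PK`);   EXIT `rpo102_pl_two` : `rswPK t F₁ b₁ K₁ L ≤ 2 ^ (..) * rswPK t F₂ b₂ K₂ L`.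
§5 histories `RswCon` on a system, no ties (`Y.Holds K` of `Sys162`): `rpo102_of_holds`, `rpo102_split_raw`, EXIT **`rpo102_ports_raw`** = the contract `Rse182Ports` of `Rsw/LenInst182` (182), its definitions unfolded.
§6 THE PATCH: `rpo102_lower_closed`, `rpo102_upper_closed` (a bound in the retained closed system passes to the ambient, factor `2 ^ (|P| - 1)`);   `rpo102Res K F`, `rpo102_NR_pl` (the retained closed system of a set of faces with planar incidences IS `rcy162Pl F`),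
   EXITS **`rpo102_lower_pl`**, `rpo102_upper_pl` : after them (LSS) is a statement on the closed planar problem `rcy162Pl F` only.
-/

set_option autoImplicit false
set_option linter.unusedSectionVars false
set_option linter.unusedVariables false
set_option linter.unusedSimpArgs false

namespace Claimed.Agent.R292

open Claims Claims.C0468 Finset Claimed.Agent.R291

/-! ## 0. vocabulary -/

/-- the two endpoints of an edge pair -/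
def rpo102Sv (S : Rcy162Sys) (e : (ℤ × ℤ) × Bool) : Finset (ℤ × ℤ) := {S.p0 e, S.p1 e}

/-- the two faces of an edge pair -/
def rpo102Sd (S : Rcy162Sys) (e : (ℤ × ℤ) × Bool) : Finset (ℤ × ℤ) := {S.f0 e, S.f1 e}

/-- a history with ties of the face spin -/
structure Rpo102Con where
  /-- `s` pinned plus -/
  Sp : Finset (ℤ × ℤ)
  /-- `s` pinned minus -/
  Sm : Finset (ℤ × ℤ)
  /-- ties of the face spin `d` -/
  Eq : Finset ((ℤ × ℤ) × (ℤ × ℤ))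
  /-- edges prescribed open, both endpoints plus -/
  Gp : Finset ((ℤ × ℤ) × Bool)
  /-- edges prescribed open, both endpoints minus -/
  Gm : Finset ((ℤ × ℤ) × Bool)
  /-- edges prescribed closed -/
  Cl : Finset ((ℤ × ℤ) × Bool)

/-- the configuration satisfies the history -/
def Rpo102Con.Holds (K : Rpo102Con) (S : Rcy162Sys) (ω : RswCfg) : Prop :=
  K.Sp ⊆ ω.S ∧ (∀ v ∈ K.Sm, v ∉ ω.S) ∧ (∀ e ∈ K.Eq, (e.1 ∈ ω.D ↔ e.2 ∈ ω.D)) ∧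
    (∀ e ∈ K.Gp, S.Good true ω e) ∧ (∀ e ∈ K.Gm, S.Good false ω e) ∧ ∀ e ∈ K.Cl, e ∉ ω.O

/-- a history of `CoreTop121` with ties -/
def rpo102Of (K : RswCon) (E : Finset ((ℤ × ℤ) × (ℤ × ℤ))) : Rpo102Con := ⟨K.Sp, K.Sm, E, K.Gp, K.Gm, K.Cl⟩

theorem rpo102_voc_eqns_cite : True := by
  have := @rpo102Sv.eq_1
  have := @rpo102Sd.eq_1
  have := @Rpo102Con.Holds.eq_1
  have := @rpo102Of.eq_1
  trivial

theorem rpo102_const_pair (P : Finset (ℤ × ℤ)) (a b : ℤ × ℤ) : ClConst P {a, b} ↔ (a ∈ P ↔ b ∈ P) := by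
  rw [prc_const_iff]
  constructor
  · intro h; exact h a (by simp) b (by simp)
  · intro h u hu v hv
    simp only [mem_insert, mem_singleton] at hu hv
    rcases hu with rfl | rfl <;> rcases hv with rfl | rfl <;> tauto

theorem rpo102_fac_eq (S : Rcy162Sys) (t : ℝ) (ω : RswCfg) (e : (ℤ × ℤ) × Bool) :
    S.fac t ω e = clCellW t (ClConst ω.S (rpo102Sv S e)) (ClConst ω.D (rpo102Sd S e)) (e ∈ ω.O) := by
  classical
  unfold Rcy162Sys.fac clCellW rpo102Sv rpo102Sd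
  have h1 := rpo102_const_pair ω.S (S.p0 e) (S.p1 e)
  have h2 := rpo102_const_pair ω.D (S.f0 e) (S.f1 e)
  by_cases a : e ∈ ω.O <;> by_cases b : (S.p0 e ∈ ω.S ↔ S.p1 e ∈ ω.S) <;> by_cases c : (S.f0 e ∈ ω.D ↔ S.f1 e ∈ ω.D) <;>
    simp only [a, b, c, h1, h2, if_true, if_false]

theorem rpo102_good_true (S : Rcy162Sys) (ω : RswCfg) (e : (ℤ × ℤ) × Bool) : S.Good true ω e ↔ e ∈ ω.O ∧ rpo102Sv S e ⊆ ω.S := by
  unfold Rcy162Sys.Good rpo102Sv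
  simp [insert_subset_iff]

theorem rpo102_good_false (S : Rcy162Sys) (ω : RswCfg) (e : (ℤ × ℤ) × Bool) :
    S.Good false ω e ↔ e ∈ ω.O ∧ ∀ v ∈ rpo102Sv S e, v ∉ ω.S := by
  unfold Rcy162Sys.Good rpo102Sv
  simp

theorem rpo102_dis_congr {B B' s : Finset (ℤ × ℤ)} (h : ∀ v ∈ s, (v ∈ B ↔ v ∈ B')) : (∀ v ∈ s, v ∉ B) ↔ ∀ v ∈ s, v ∉ B' :=
  ⟨fun H v hv hb => H v hv ((h v hv).2 hb), fun H v hv hb => H v hv ((h v hv).1 hb)⟩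

/-! ## 1. The sum over `(S, O)` -/

section BO

/-- the ties of the face spin: the prescribed ones and the pairs of faces of a closed edge pair -/
def rpo102Tie (S : Rcy162Sys) (Cs : Finset ((ℤ × ℤ) × Bool)) (E : Finset ((ℤ × ℤ) × (ℤ × ℤ))) (O : Finset ((ℤ × ℤ) × Bool)) :
    Finset ((ℤ × ℤ) × (ℤ × ℤ)) :=
  E ∪ (Cs \ O).biUnion fun y => rpo102Sd S y ×ˢ rpo102Sd S y

theorem rpo102_resp_tie (S : Rcy162Sys) (Cs : Finset ((ℤ × ℤ) × Bool)) (E : Finset ((ℤ × ℤ) × (ℤ × ℤ))) (O : Finset ((ℤ × ℤ) × Bool))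
    (W : Finset (ℤ × ℤ)) :
    PrcResp (rpo102Tie S Cs E O) W ↔ PrcResp E W ∧ ∀ y ∈ Cs, y ∈ O ∨ ClConst W (rpo102Sd S y) := by
  unfold rpo102Tie
  rw [prc_resp_union]
  refine and_congr Iff.rfl ?_
  constructor
  · intro h y hy
    by_cases hO : y ∈ O
    · exact Or.inl hO
    · refine Or.inr ((prc_const_iff W _).2 fun u hu v hv => h (u, v) ?_)
      rw [mem_biUnion]
      exact ⟨y, mem_sdiff.2 ⟨hy, hO⟩, mem_product.2 ⟨hu, hv⟩⟩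
  · intro h e he
    rw [mem_biUnion] at he
    obtain ⟨y, hy, hey⟩ := he
    rw [mem_sdiff] at hy
    rw [mem_product] at hey
    rcases h y hy.1 with h1 | h1
    · exact absurd h1 hy.2
    · exact (prc_const_iff W _).1 h1 _ hey.1 _ hey.2

/-- the part of a history which reads `(S, O)` -/
def Rpo102KB (K : Rpo102Con) (S : Rcy162Sys) (B : Finset (ℤ × ℤ)) (O : Finset ((ℤ × ℤ) × Bool)) : Prop :=
  K.Sp ⊆ B ∧ (∀ v ∈ K.Sm, v ∉ B) ∧ (∀ y ∈ K.Gp, y ∈ O ∧ rpo102Sv S y ⊆ B) ∧ (∀ y ∈ K.Gm, y ∈ O ∧ ∀ v ∈ rpo102Sv S y, v ∉ B) ∧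
    ∀ y ∈ K.Cl, y ∉ O

theorem rpo102_holds (S : Rcy162Sys) (K : Rpo102Con) (ω : RswCfg) :
    K.Holds S ω ↔ Rpo102KB K S ω.S ω.O ∧ PrcResp K.Eq ω.D := by
  unfold Rpo102Con.Holds Rpo102KB PrcResp
  simp only [rpo102_good_true, rpo102_good_false]
  tauto

open Classical in
/-- the weight of `(S, O)` under the history `K`, face spins summed out -/
noncomputable def rpo102W (S : Rcy162Sys) (t : ℝ) (K : Rpo102Con) (B : Finset (ℤ × ℤ)) (O : Finset ((ℤ × ℤ) × Bool)) : ℝ :=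
  if Rpo102KB K S B O then (∏ y ∈ S.E, prcKf t (ClConst B (rpo102Sv S y)) (y ∈ O)) * (prcCnt S.Fc (rpo102Tie S S.E K.Eq O) : ℝ) else 0

theorem rpo102_bo_eqns_cite : True := by
  have := @rpo102Tie.eq_1
  have := @Rpo102KB.eq_1
  have := @rpo102W.eq_1
  trivial

/-- `G` does not read the face spin -/
def Rpo102NoD (G : RswCfg → ℝ) : Prop := ∀ ω ω' : RswCfg, ω.S = ω'.S → ω.O = ω'.O → G ω = G ω'

/-- **the sum over `(S, O)`** -/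
theorem rpo102_sum_eq (S : Rcy162Sys) (t : ℝ) (K : Rpo102Con) {G : RswCfg → ℝ} (hG : Rpo102NoD G) :
    S.sum t (K.Holds S) G = ∑ B ∈ S.V.powerset, ∑ O ∈ S.E.powerset, rpo102W S t K B O * G ⟨B, ∅, O⟩ := by
  classical
  unfold Rcy162Sys.sum
  refine sum_congr rfl fun B _ => ?_
  rw [sum_comm]
  refine sum_congr rfl fun O _ => ?_
  have e : ∀ W ∈ S.Fc.powerset, S.wt t (K.Holds S) ⟨B, W, O⟩ * G ⟨B, W, O⟩
      = (if Rpo102KB K S B O then (∏ y ∈ S.E, prcKf t (ClConst B (rpo102Sv S y)) (y ∈ O)) * G ⟨B, ∅, O⟩ else 0)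
        * (if PrcResp (rpo102Tie S S.E K.Eq O) W then (1 : ℝ) else 0) := by
    intro W _
    rw [hG ⟨B, W, O⟩ ⟨B, ∅, O⟩ rfl rfl]
    have hw : ∏ y ∈ S.E, S.fac t ⟨B, W, O⟩ y = (∏ y ∈ S.E, prcKf t (ClConst B (rpo102Sv S y)) (y ∈ O))
        * (if ∀ y ∈ S.E, y ∈ O ∨ ClConst W (rpo102Sd S y) then 1 else 0) := by
      simp only [rpo102_fac_eq, prc_cellW]
      rw [prod_mul_distrib, prod_ite_zero]
      simp
    unfold Rcy162Sys.wt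
    rw [hw]
    simp only [rpo102_holds S K, rpo102_resp_tie]
    by_cases h1 : Rpo102KB K S B O <;> by_cases h2 : PrcResp K.Eq W <;> by_cases h3 : ∀ y ∈ S.E, y ∈ O ∨ ClConst W (rpo102Sd S y) <;>
      simp [h1, h2, h3]
  rw [sum_congr rfl e, ← mul_sum, ← prc_cnt_sum]
  unfold rpo102W
  split_ifs <;> ring

end BO

/-! ## 2. Ports -/

section Ports

/-- **retained set with ports** (`PrcSplit` of R291 `Ann/PortsCl`): retained sites `R`, retained faces `Q`, retained edge pairs `YR`, retained ties `ER`, ports `P` (faces) -/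
structure Rpo102Split (S : Rcy162Sys) (t : ℝ) (K : Rpo102Con) (R Q : Finset (ℤ × ℤ)) (YR : Finset ((ℤ × ℤ) × Bool))
    (ER : Finset ((ℤ × ℤ) × (ℤ × ℤ))) (P : Finset (ℤ × ℤ)) : Prop where
  RA : R ⊆ S.V
  QA : Q ⊆ S.Fc
  YC : YR ⊆ S.E
  sub : ∀ y ∈ S.E, rpo102Sd S y ⊆ S.Fc
  q0 : 0 ≤ t
  q1 : t ≤ 1
  cellR : ∀ y ∈ YR, rpo102Sv S y ⊆ R
  cellQ : ∀ y ∈ YR, rpo102Sd S y ⊆ Q
  pinX : ∀ y ∈ S.E, y ∉ YR → rpo102Sv S y ∩ R ⊆ K.Sp ∪ K.Sm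
  portC : ∀ y ∈ S.E, y ∉ YR → y ∈ K.Gp ∪ K.Gm ∨ rpo102Sd S y ∩ Q ⊆ P
  eqR : ER ⊆ K.Eq
  eqR_in : ∀ e ∈ ER, e.1 ∈ Q ∧ e.2 ∈ Q
  portE : ∀ e ∈ K.Eq, e ∉ ER → (e.1 ∈ Q → e.1 ∈ P) ∧ (e.2 ∈ Q → e.2 ∈ P)
  eqA : ∀ e ∈ K.Eq, e.1 ∈ S.Fc ∧ e.2 ∈ S.Fc

/-- the retained system -/
def rpo102SR (S : Rcy162Sys) (R Q : Finset (ℤ × ℤ)) (YR : Finset ((ℤ × ℤ) × Bool)) : Rcy162Sys := ⟨R, Q, YR, S.p0, S.p1, S.f0, S.f1⟩

/-- the retained history -/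
def rpo102KR (K : Rpo102Con) (R : Finset (ℤ × ℤ)) (YR : Finset ((ℤ × ℤ) × Bool)) (ER : Finset ((ℤ × ℤ) × (ℤ × ℤ))) : Rpo102Con :=
  ⟨K.Sp ∩ R, K.Sm ∩ R, ER, K.Gp ∩ YR, K.Gm ∩ YR, K.Cl ∩ YR⟩

/-- `G` is a function of the primal spins on `R` and of the open edges of `YR` -/
def Rpo102Loc (R : Finset (ℤ × ℤ)) (YR : Finset ((ℤ × ℤ) × Bool)) (G : RswCfg → ℝ) : Prop :=
  ∀ ω ω' : RswCfg, ω.S ∩ R = ω'.S ∩ R → ω.O ∩ YR = ω'.O ∩ YR → G ω = G ω'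

/-- the exterior part of the history -/
def Rpo102KX (S : Rcy162Sys) (K : Rpo102Con) (R : Finset (ℤ × ℤ)) (YR : Finset ((ℤ × ℤ) × Bool)) (B₂ : Finset (ℤ × ℤ))
    (O₂ : Finset ((ℤ × ℤ) × Bool)) : Prop :=
  (∀ v ∈ K.Sp, v ∉ R → v ∈ B₂) ∧ (∀ v ∈ K.Sm, v ∉ R → v ∉ B₂) ∧ (∀ y ∈ K.Gp, y ∉ YR → y ∈ O₂ ∧ rpo102Sv S y ⊆ (K.Sp ∩ R) ∪ B₂) ∧
    (∀ y ∈ K.Gm, y ∉ YR → y ∈ O₂ ∧ ∀ v ∈ rpo102Sv S y, v ∉ (K.Sp ∩ R) ∪ B₂) ∧ ∀ y ∈ K.Cl, y ∉ YR → y ∉ O₂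

open Classical in
/-- the exterior weight -/
noncomputable def rpo102WX (S : Rcy162Sys) (t : ℝ) (K : Rpo102Con) (R : Finset (ℤ × ℤ)) (YR : Finset ((ℤ × ℤ) × Bool))
    (ER : Finset ((ℤ × ℤ) × (ℤ × ℤ))) (B₂ : Finset (ℤ × ℤ)) (O₂ : Finset ((ℤ × ℤ) × Bool)) : ℝ :=
  if Rpo102KX S K R YR B₂ O₂ then (∏ y ∈ S.E \ YR, prcKf t (ClConst ((K.Sp ∩ R) ∪ B₂) (rpo102Sv S y)) (y ∈ O₂))
    * (prcCnt S.Fc (rpo102Tie S (S.E \ YR) (K.Eq \ ER) O₂) : ℝ) else 0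

theorem rpo102_ports_eqns_cite : True := by
  have := @Rpo102NoD.eq_1
  have := @rpo102SR.eq_1
  have := @rpo102KR.eq_1
  have := @Rpo102Loc.eq_1
  have := @Rpo102KX.eq_1
  have := @rpo102WX.eq_1
  trivial

variable {S : Rcy162Sys} {t : ℝ} {K : Rpo102Con} {R Q : Finset (ℤ × ℤ)} {YR : Finset ((ℤ × ℤ) × Bool)}
  {ER : Finset ((ℤ × ℤ) × (ℤ × ℤ))} {P : Finset (ℤ × ℤ)}

theorem rpo102_loc_noD {G : RswCfg → ℝ} (h : Rpo102Loc R YR G) : Rpo102NoD G := fun ω ω' h1 h2 => h ω ω' (by rw [h1]) (by rw [h2])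

/-- on an exterior edge pair the primal spin of the retained part is read on the pins -/
theorem rpo102_pin_mem (hs : Rpo102Split S t K R Q YR ER P) {B₁ B₂ : Finset (ℤ × ℤ)} (hB₁ : B₁ ⊆ R) (hp : K.Sp ∩ R ⊆ B₁)
    (hm : ∀ v ∈ K.Sm ∩ R, v ∉ B₁) {y : (ℤ × ℤ) × Bool} (hy : y ∈ S.E) (hyR : y ∉ YR) {v : ℤ × ℤ} (hv : v ∈ rpo102Sv S y) :
    v ∈ B₁ ∪ B₂ ↔ v ∈ (K.Sp ∩ R) ∪ B₂ := by
  by_cases hR : v ∈ R
  · have h1 := hs.pinX y hy hyR (mem_inter.2 ⟨hv, hR⟩)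
    simp only [mem_union, mem_inter]
    rcases mem_union.1 h1 with h2 | h2
    · have := hp (mem_inter.2 ⟨h2, hR⟩)
      tauto
    · have h3 := hm v (mem_inter.2 ⟨h2, hR⟩)
      have h4 : v ∉ K.Sp := fun h5 => h3 (hp (mem_inter.2 ⟨h5, hR⟩))
      tauto
  · simp only [mem_union, mem_inter]
    have : v ∉ B₁ := fun h => hR (hB₁ h)
    tauto

/-- the history splits -/
theorem rpo102_KB_split (hs : Rpo102Split S t K R Q YR ER P) {B₁ B₂ : Finset (ℤ × ℤ)} {O₁ O₂ : Finset ((ℤ × ℤ) × Bool)} (hB₁ : B₁ ⊆ R)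
    (hB₂ : B₂ ⊆ S.V \ R) (hO₁ : O₁ ⊆ YR) (hO₂ : O₂ ⊆ S.E \ YR) :
    Rpo102KB K S (B₁ ∪ B₂) (O₁ ∪ O₂) ↔ Rpo102KB (rpo102KR K R YR ER) (rpo102SR S R Q YR) B₁ O₁ ∧ Rpo102KX S K R YR B₂ O₂ := by
  have svR : ∀ y, rpo102Sv (rpo102SR S R Q YR) y = rpo102Sv S y := fun _ => rfl
  unfold Rpo102KB Rpo102KX rpo102KR
  simp only [svR]
  have mB_in : ∀ {v}, v ∈ R → (v ∈ B₁ ∪ B₂ ↔ v ∈ B₁) := fun hv => prc_mem_in hB₂ hv
  have mB_out : ∀ {v}, v ∉ R → (v ∈ B₁ ∪ B₂ ↔ v ∈ B₂) := fun hv => prc_mem_out hB₁ hv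
  have mO_in : ∀ {y}, y ∈ YR → (y ∈ O₁ ∪ O₂ ↔ y ∈ O₁) := fun hy => prc_mem_in hO₂ hy
  have mO_out : ∀ {y}, y ∉ YR → (y ∈ O₁ ∪ O₂ ↔ y ∈ O₂) := fun hy => prc_mem_out hO₁ hy
  have sv_in : ∀ {y}, y ∈ YR → (rpo102Sv S y ⊆ B₁ ∪ B₂ ↔ rpo102Sv S y ⊆ B₁) := fun hy =>
    prc_sub_congr fun v hv => mB_in (hs.cellR _ hy hv)
  have dj_in : ∀ {y}, y ∈ YR → ((∀ v ∈ rpo102Sv S y, v ∉ B₁ ∪ B₂) ↔ ∀ v ∈ rpo102Sv S y, v ∉ B₁) := fun hy =>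
    rpo102_dis_congr fun v hv => mB_in (hs.cellR _ hy hv)
  constructor
  · rintro ⟨a1, a2, a3, a4, a5⟩
    have hp : K.Sp ∩ R ⊆ B₁ := fun v hv => (mB_in (mem_inter.1 hv).2).1 (a1 (mem_inter.1 hv).1)
    have hm : ∀ v ∈ K.Sm ∩ R, v ∉ B₁ := fun v hv h => a2 v (mem_inter.1 hv).1 (mem_union_left _ h)
    have sv_out : ∀ {y}, y ∈ O₂ → (rpo102Sv S y ⊆ B₁ ∪ B₂ ↔ rpo102Sv S y ⊆ (K.Sp ∩ R) ∪ B₂) := fun hy =>
      prc_sub_congr fun v hv => rpo102_pin_mem hs hB₁ hp hm (mem_sdiff.1 (hO₂ hy)).1 (mem_sdiff.1 (hO₂ hy)).2 hv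
    have dj_out : ∀ {y}, y ∈ O₂ → ((∀ v ∈ rpo102Sv S y, v ∉ B₁ ∪ B₂) ↔ ∀ v ∈ rpo102Sv S y, v ∉ (K.Sp ∩ R) ∪ B₂) := fun hy =>
      rpo102_dis_congr fun v hv => rpo102_pin_mem hs hB₁ hp hm (mem_sdiff.1 (hO₂ hy)).1 (mem_sdiff.1 (hO₂ hy)).2 hv
    refine ⟨⟨hp, hm, ?_, ?_, ?_⟩, ?_, ?_, ?_, ?_, ?_⟩
    · intro y hy
      obtain ⟨h1, h2⟩ := mem_inter.1 hy
      exact ⟨(mO_in h2).1 (a3 y h1).1, (sv_in h2).1 (a3 y h1).2⟩
    · intro y hy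
      obtain ⟨h1, h2⟩ := mem_inter.1 hy
      exact ⟨(mO_in h2).1 (a4 y h1).1, (dj_in h2).1 (a4 y h1).2⟩
    · intro y hy h
      exact a5 y (mem_inter.1 hy).1 (mem_union_left _ h)
    · intro v hv hR
      exact (mB_out hR).1 (a1 hv)
    · intro v hv hR h
      exact a2 v hv (mem_union_right _ h)
    · intro y hy hyR
      have h1 := (mO_out hyR).1 (a3 y hy).1
      exact ⟨h1, (sv_out h1).1 (a3 y hy).2⟩
    · intro y hy hyR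
      have h1 := (mO_out hyR).1 (a4 y hy).1
      exact ⟨h1, (dj_out h1).1 (a4 y hy).2⟩
    · intro y hy hyR h
      exact a5 y hy (mem_union_right _ h)
  · rintro ⟨⟨hp, hm, b3, b4, b5⟩, c1, c2, c3, c4, c5⟩
    have sv_out : ∀ {y}, y ∈ O₂ → (rpo102Sv S y ⊆ B₁ ∪ B₂ ↔ rpo102Sv S y ⊆ (K.Sp ∩ R) ∪ B₂) := fun hy =>
      prc_sub_congr fun v hv => rpo102_pin_mem hs hB₁ hp hm (mem_sdiff.1 (hO₂ hy)).1 (mem_sdiff.1 (hO₂ hy)).2 hv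
    have dj_out : ∀ {y}, y ∈ O₂ → ((∀ v ∈ rpo102Sv S y, v ∉ B₁ ∪ B₂) ↔ ∀ v ∈ rpo102Sv S y, v ∉ (K.Sp ∩ R) ∪ B₂) := fun hy =>
      rpo102_dis_congr fun v hv => rpo102_pin_mem hs hB₁ hp hm (mem_sdiff.1 (hO₂ hy)).1 (mem_sdiff.1 (hO₂ hy)).2 hv
    refine ⟨?_, ?_, ?_, ?_, ?_⟩
    · intro v hv
      by_cases hR : v ∈ R
      · exact mem_union_left _ (hp (mem_inter.2 ⟨hv, hR⟩))
      · exact mem_union_right _ (c1 v hv hR)
    · intro v hv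
      by_cases hR : v ∈ R
      · rw [mB_in hR]; exact hm v (mem_inter.2 ⟨hv, hR⟩)
      · rw [mB_out hR]; exact c2 v hv hR
    · intro y hy
      by_cases hyR : y ∈ YR
      · have := b3 y (mem_inter.2 ⟨hy, hyR⟩)
        exact ⟨(mO_in hyR).2 this.1, (sv_in hyR).2 this.2⟩
      · have := c3 y hy hyR
        exact ⟨(mO_out hyR).2 this.1, (sv_out this.1).2 this.2⟩
    · intro y hy
      by_cases hyR : y ∈ YR
      · have := b4 y (mem_inter.2 ⟨hy, hyR⟩)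
        exact ⟨(mO_in hyR).2 this.1, (dj_in hyR).2 this.2⟩
      · have := c4 y hy hyR
        exact ⟨(mO_out hyR).2 this.1, (dj_out this.1).2 this.2⟩
    · intro y hy
      by_cases hyR : y ∈ YR
      · rw [mO_in hyR]; exact b5 y (mem_inter.2 ⟨hy, hyR⟩)
      · rw [mO_out hyR]; exact c5 y hy hyR

/-- the edge factors split -/
theorem rpo102_kf_split (hs : Rpo102Split S t K R Q YR ER P) {B₁ B₂ : Finset (ℤ × ℤ)} {O₁ O₂ : Finset ((ℤ × ℤ) × Bool)} (hB₁ : B₁ ⊆ R)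
    (hB₂ : B₂ ⊆ S.V \ R) (hO₁ : O₁ ⊆ YR) (hO₂ : O₂ ⊆ S.E \ YR) (hp : K.Sp ∩ R ⊆ B₁) (hm : ∀ v ∈ K.Sm ∩ R, v ∉ B₁) :
    ∏ y ∈ S.E, prcKf t (ClConst (B₁ ∪ B₂) (rpo102Sv S y)) (y ∈ O₁ ∪ O₂)
      = (∏ y ∈ YR, prcKf t (ClConst B₁ (rpo102Sv S y)) (y ∈ O₁))
        * ∏ y ∈ S.E \ YR, prcKf t (ClConst ((K.Sp ∩ R) ∪ B₂) (rpo102Sv S y)) (y ∈ O₂) := by
  rw [← prod_sdiff hs.YC, mul_comm]
  congr 1
  · refine prod_congr rfl fun y hy => prc_kf_congr _ ?_ (prc_mem_in hO₂ hy)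
    exact prc_const_congr fun v hv => prc_mem_in hB₂ (hs.cellR y hy hv)
  · refine prod_congr rfl fun y hy => ?_
    obtain ⟨h1, h2⟩ := mem_sdiff.1 hy
    exact prc_kf_congr _ (prc_const_congr fun v hv => rpo102_pin_mem hs hB₁ hp hm h1 h2 hv) (prc_mem_out hO₁ h2)

/-- the ties split -/
theorem rpo102_tie_split (hs : Rpo102Split S t K R Q YR ER P) {O₁ O₂ : Finset ((ℤ × ℤ) × Bool)} (hO₁ : O₁ ⊆ YR) (hO₂ : O₂ ⊆ S.E \ YR)
    (W : Finset (ℤ × ℤ)) :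
    PrcResp (rpo102Tie S S.E K.Eq (O₁ ∪ O₂)) W ↔ PrcResp (rpo102Tie S YR ER O₁ ∪ rpo102Tie S (S.E \ YR) (K.Eq \ ER) O₂) W := by
  rw [prc_resp_union, rpo102_resp_tie, rpo102_resp_tie, rpo102_resp_tie]
  constructor
  · rintro ⟨h1, h2⟩
    refine ⟨⟨fun e he => h1 e (hs.eqR he), fun y hy => ?_⟩, ⟨fun e he => h1 e (mem_sdiff.1 he).1, fun y hy => ?_⟩⟩
    · rcases h2 y (hs.YC hy) with h | h
      · exact Or.inl ((prc_mem_in hO₂ hy).1 h)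
      · exact Or.inr h
    · obtain ⟨a, b⟩ := mem_sdiff.1 hy
      rcases h2 y a with h | h
      · exact Or.inl ((prc_mem_out hO₁ b).1 h)
      · exact Or.inr h
  · rintro ⟨⟨a1, a2⟩, ⟨b1, b2⟩⟩
    refine ⟨fun e he => ?_, fun y hy => ?_⟩
    · by_cases h : e ∈ ER
      · exact a1 e h
      · exact b1 e (mem_sdiff.2 ⟨he, h⟩)
    · by_cases h : y ∈ YR
      · exact (a2 y h).imp (mem_union_left _) id
      · exact (b2 y (mem_sdiff.2 ⟨hy, h⟩)).imp (mem_union_right _) id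

theorem rpo102_tieR_in (hs : Rpo102Split S t K R Q YR ER P) (O₁ : Finset ((ℤ × ℤ) × Bool)) :
    ∀ e ∈ rpo102Tie S YR ER O₁, e.1 ∈ Q ∧ e.2 ∈ Q := by
  intro e he
  unfold rpo102Tie at he
  rcases mem_union.1 he with h | h
  · exact hs.eqR_in e h
  · obtain ⟨y, hy, hey⟩ := mem_biUnion.1 h
    have := hs.cellQ y (mem_sdiff.1 hy).1
    exact ⟨this (mem_product.1 hey).1, this (mem_product.1 hey).2⟩

theorem rpo102_tieX_in (hs : Rpo102Split S t K R Q YR ER P) (O₂ : Finset ((ℤ × ℤ) × Bool)) :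
    ∀ e ∈ rpo102Tie S (S.E \ YR) (K.Eq \ ER) O₂, e.1 ∈ S.Fc ∧ e.2 ∈ S.Fc := by
  intro e he
  unfold rpo102Tie at he
  rcases mem_union.1 he with h | h
  · exact hs.eqA e (mem_sdiff.1 h).1
  · obtain ⟨y, hy, hey⟩ := mem_biUnion.1 h
    have := hs.sub y (mem_sdiff.1 (mem_sdiff.1 hy).1).1
    exact ⟨this (mem_product.1 hey).1, this (mem_product.1 hey).2⟩

/-- the exterior ties touch the retained faces at the ports only -/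
theorem rpo102_tieX_port (hs : Rpo102Split S t K R Q YR ER P) {B₂ : Finset (ℤ × ℤ)} {O₂ : Finset ((ℤ × ℤ) × Bool)}
    (hk : Rpo102KX S K R YR B₂ O₂) {v : ℤ × ℤ} (hv : PrcTouch (rpo102Tie S (S.E \ YR) (K.Eq \ ER) O₂) v) (hR : v ∈ Q) : v ∈ P := by
  obtain ⟨e, he, hev⟩ := hv
  unfold rpo102Tie at he
  have key : (e.1 ∈ Q → e.1 ∈ P) ∧ (e.2 ∈ Q → e.2 ∈ P) := by
    rcases mem_union.1 he with h | h
    · exact hs.portE e (mem_sdiff.1 h).1 (mem_sdiff.1 h).2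
    · obtain ⟨y, hy, hey⟩ := mem_biUnion.1 h
      obtain ⟨hy1, hy2⟩ := mem_sdiff.1 hy
      obtain ⟨hyC, hyR⟩ := mem_sdiff.1 hy1
      rcases hs.portC y hyC hyR with h1 | h1
      · rcases mem_union.1 h1 with h2 | h2
        · exact absurd (hk.2.2.1 y h2 hyR).1 hy2
        · exact absurd (hk.2.2.2.1 y h2 hyR).1 hy2
      · exact ⟨fun h2 => h1 (mem_inter.2 ⟨(mem_product.1 hey).1, h2⟩), fun h2 => h1 (mem_inter.2 ⟨(mem_product.1 hey).2, h2⟩)⟩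
  rcases hev with rfl | rfl
  · exact key.1 hR
  · exact key.2 hR

theorem rpo102_WX_nonneg (hs : Rpo102Split S t K R Q YR ER P) (B₂ : Finset (ℤ × ℤ)) (O₂ : Finset ((ℤ × ℤ) × Bool)) :
    0 ≤ rpo102WX S t K R YR ER B₂ O₂ := by
  classical
  unfold rpo102WX
  split_ifs
  · exact mul_nonneg (prod_nonneg fun y hy => prc_kf_nonneg hs.q0 hs.q1 _ _) (Nat.cast_nonneg _)
  · exact le_rfl

theorem rpo102_WR_nonneg (hs : Rpo102Split S t K R Q YR ER P) (B₁ : Finset (ℤ × ℤ)) (O₁ : Finset ((ℤ × ℤ) × Bool)) :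
    0 ≤ rpo102W (rpo102SR S R Q YR) t (rpo102KR K R YR ER) B₁ O₁ := by
  classical
  unfold rpo102W
  split_ifs
  · exact mul_nonneg (prod_nonneg fun y hy => prc_kf_nonneg hs.q0 hs.q1 _ _) (Nat.cast_nonneg _)
  · exact le_rfl

/-- **one configuration** -/
theorem rpo102_pt (hs : Rpo102Split S t K R Q YR ER P) {B₁ B₂ : Finset (ℤ × ℤ)} {O₁ O₂ : Finset ((ℤ × ℤ) × Bool)} (hB₁ : B₁ ⊆ R)
    (hB₂ : B₂ ⊆ S.V \ R) (hO₁ : O₁ ⊆ YR) (hO₂ : O₂ ⊆ S.E \ YR) :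
    rpo102W (rpo102SR S R Q YR) t (rpo102KR K R YR ER) B₁ O₁ * rpo102WX S t K R YR ER B₂ O₂
      ≤ rpo102W S t K (B₁ ∪ B₂) (O₁ ∪ O₂) * 2 ^ Q.card ∧
    rpo102W S t K (B₁ ∪ B₂) (O₁ ∪ O₂) * 2 ^ Q.card
      ≤ 2 ^ (P.card - 1) * (rpo102W (rpo102SR S R Q YR) t (rpo102KR K R YR ER) B₁ O₁ * rpo102WX S t K R YR ER B₂ O₂) := by
  classical
  have hsplit := rpo102_KB_split hs hB₁ hB₂ hO₁ hO₂
  unfold rpo102W rpo102WX
  by_cases c1 : Rpo102KB (rpo102KR K R YR ER) (rpo102SR S R Q YR) B₁ O₁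
  swap
  · rw [if_neg c1, if_neg fun h => c1 (hsplit.1 h).1]; simp
  by_cases c2 : Rpo102KX S K R YR B₂ O₂
  swap
  · rw [if_neg c2, if_neg fun h => c2 (hsplit.1 h).2]; simp
  rw [if_pos c1, if_pos c2, if_pos (hsplit.2 ⟨c1, c2⟩), rpo102_kf_split hs hB₁ hB₂ hO₁ hO₂ c1.1 c1.2.1,
    prc_cnt_congr S.Fc (rpo102_tie_split hs hO₁ hO₂)]
  show (∏ y ∈ YR, prcKf t (ClConst B₁ (rpo102Sv S y)) (y ∈ O₁)) * (prcCnt Q (rpo102Tie S YR ER O₁) : ℝ) * _ ≤ _ ∧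
    _ ≤ _ * ((∏ y ∈ YR, prcKf t (ClConst B₁ (rpo102Sv S y)) (y ∈ O₁)) * (prcCnt Q (rpo102Tie S YR ER O₁) : ℝ) * _)
  obtain ⟨a, ha⟩ : ∃ a, a = ∏ y ∈ YR, prcKf t (ClConst B₁ (rpo102Sv S y)) (y ∈ O₁) := ⟨_, rfl⟩
  obtain ⟨b, hb⟩ : ∃ b, b = ∏ y ∈ S.E \ YR, prcKf t (ClConst ((K.Sp ∩ R) ∪ B₂) (rpo102Sv S y)) (y ∈ O₂) := ⟨_, rfl⟩
  have ha0 : 0 ≤ a := by rw [ha]; exact prod_nonneg fun y hy => prc_kf_nonneg hs.q0 hs.q1 _ _
  have hb0 : 0 ≤ b := by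
    rw [hb]; exact prod_nonneg fun y hy => prc_kf_nonneg hs.q0 hs.q1 _ _
  rw [← ha, ← hb]
  have tR := rpo102_tieR_in hs O₁
  have tRA : ∀ e ∈ rpo102Tie S YR ER O₁, e.1 ∈ S.Fc ∧ e.2 ∈ S.Fc := fun e he => ⟨hs.QA (tR e he).1, hs.QA (tR e he).2⟩
  have tX := rpo102_tieX_in hs O₂
  have n1 := prc_cnt_mul_le S.Fc _ _ tRA tX
  have n2 := prc_cnt_port S.Fc _ _ tRA tX P (fun v hv1 hv2 => by
    refine rpo102_tieX_port hs c2 hv2 ?_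
    obtain ⟨e, he, hev⟩ := hv1
    rcases hev with rfl | rfl
    · exact (tR e he).1
    · exact (tR e he).2)
  have n3 := prc_cnt_res hs.QA _ tR
  obtain ⟨nR, hnR⟩ : ∃ n : ℝ, n = prcCnt Q (rpo102Tie S YR ER O₁) := ⟨_, rfl⟩
  obtain ⟨nX, hnX⟩ : ∃ n : ℝ, n = prcCnt S.Fc (rpo102Tie S (S.E \ YR) (K.Eq \ ER) O₂) := ⟨_, rfl⟩
  obtain ⟨nU, hnU⟩ : ∃ n : ℝ, n = prcCnt S.Fc (rpo102Tie S YR ER O₁ ∪ rpo102Tie S (S.E \ YR) (K.Eq \ ER) O₂) := ⟨_, rfl⟩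
  have hcard : (2 : ℝ) ^ S.Fc.card = 2 ^ (S.Fc \ Q).card * 2 ^ Q.card := by
    rw [← pow_add, card_sdiff_add_card_eq_card hs.QA]
  have n1' : (2 : ℝ) ^ (S.Fc \ Q).card * nR * nX ≤ nU * (2 ^ (S.Fc \ Q).card * 2 ^ Q.card) := by
    rw [hnR, hnX, hnU, ← n3, ← hcard]; exact_mod_cast n1
  have n2' : nU * ((2 : ℝ) ^ (S.Fc \ Q).card * 2 ^ Q.card) ≤ 2 ^ (P.card - 1) * (2 ^ (S.Fc \ Q).card * nR * nX) := by
    rw [hnR, hnX, hnU, ← n3, ← hcard]; exact_mod_cast n2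
  have hpos : (0 : ℝ) < 2 ^ (S.Fc \ Q).card := by positivity
  have m1 : nR * nX ≤ nU * 2 ^ Q.card := by
    refine le_of_mul_le_mul_left ?_ hpos
    calc _ = (2 : ℝ) ^ (S.Fc \ Q).card * nR * nX := by ring
      _ ≤ _ := n1'
      _ = _ := by ring
  have m2 : nU * 2 ^ Q.card ≤ 2 ^ (P.card - 1) * (nR * nX) := by
    refine le_of_mul_le_mul_left ?_ hpos
    calc _ = nU * ((2 : ℝ) ^ (S.Fc \ Q).card * 2 ^ Q.card) := by ring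
      _ ≤ _ := n2'
      _ = _ := by ring
  rw [← hnR, ← hnX, ← hnU]
  have hab := mul_nonneg ha0 hb0
  constructor
  · calc a * nR * (b * nX) = a * b * (nR * nX) := by ring
      _ ≤ a * b * (nU * 2 ^ Q.card) := mul_le_mul_of_nonneg_left m1 hab
      _ = _ := by ring
  · calc a * b * nU * 2 ^ Q.card = a * b * (nU * 2 ^ Q.card) := by ring
      _ ≤ a * b * (2 ^ (P.card - 1) * (nR * nX)) := mul_le_mul_of_nonneg_left m2 hab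
      _ = _ := by ring

/-- the exterior constant -/
noncomputable def rpo102AX (S : Rcy162Sys) (t : ℝ) (K : Rpo102Con) (R : Finset (ℤ × ℤ)) (YR : Finset ((ℤ × ℤ) × Bool))
    (ER : Finset ((ℤ × ℤ) × (ℤ × ℤ))) : ℝ :=
  ∑ B₂ ∈ (S.V \ R).powerset, ∑ O₂ ∈ (S.E \ YR).powerset, rpo102WX S t K R YR ER B₂ O₂

/-- the retained numerator -/
noncomputable def rpo102NR (S : Rcy162Sys) (t : ℝ) (K : Rpo102Con) (R Q : Finset (ℤ × ℤ)) (YR : Finset ((ℤ × ℤ) × Bool))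
    (ER : Finset ((ℤ × ℤ) × (ℤ × ℤ))) (G : RswCfg → ℝ) : ℝ :=
  (rpo102SR S R Q YR).sum t ((rpo102KR K R YR ER).Holds (rpo102SR S R Q YR)) G

theorem rpo102_core_eqns_cite : True := by
  have := @rpo102AX.eq_1
  have := @rpo102NR.eq_1
  trivial

theorem rpo102_AX_nonneg (hs : Rpo102Split S t K R Q YR ER P) : 0 ≤ rpo102AX S t K R YR ER :=
  sum_nonneg fun B₂ _ => sum_nonneg fun O₂ _ => rpo102_WX_nonneg hs B₂ O₂

theorem rpo102_loc_union {G : RswCfg → ℝ} (hG : Rpo102Loc R YR G) {B₁ B₂ : Finset (ℤ × ℤ)} {O₁ O₂ : Finset ((ℤ × ℤ) × Bool)}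
    (hB₂ : B₂ ⊆ S.V \ R) (hO₂ : O₂ ⊆ S.E \ YR) : G ⟨B₁ ∪ B₂, ∅, O₁ ∪ O₂⟩ = G ⟨B₁, ∅, O₁⟩ :=
  hG _ _ (prc_union_inter hB₂) (prc_union_inter hO₂)

/-- the numerator of the ambient, the retained variables outside -/
theorem rpo102_sum_split (hs : Rpo102Split S t K R Q YR ER P) {G : RswCfg → ℝ} (hG : Rpo102Loc R YR G) :
    S.sum t (K.Holds S) G = ∑ B₁ ∈ R.powerset, ∑ O₁ ∈ YR.powerset,
      (∑ B₂ ∈ (S.V \ R).powerset, ∑ O₂ ∈ (S.E \ YR).powerset, rpo102W S t K (B₁ ∪ B₂) (O₁ ∪ O₂)) * G ⟨B₁, ∅, O₁⟩ := by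
  rw [rpo102_sum_eq S t K (rpo102_loc_noD hG), prc_sum_powerset hs.RA]
  refine sum_congr rfl fun B₁ _ => ?_
  have e : ∀ B₂ ∈ (S.V \ R).powerset, ∑ O ∈ S.E.powerset, rpo102W S t K (B₁ ∪ B₂) O * G ⟨B₁ ∪ B₂, ∅, O⟩
      = ∑ O₁ ∈ YR.powerset, ∑ O₂ ∈ (S.E \ YR).powerset, rpo102W S t K (B₁ ∪ B₂) (O₁ ∪ O₂) * G ⟨B₁, ∅, O₁⟩ := by
    intro B₂ hB₂
    rw [prc_sum_powerset hs.YC]
    refine sum_congr rfl fun O₁ _ => sum_congr rfl fun O₂ hO₂ => ?_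
    rw [rpo102_loc_union hG (mem_powerset.1 hB₂) (mem_powerset.1 hO₂)]
  rw [sum_congr rfl e, sum_comm]
  refine sum_congr rfl fun O₁ _ => ?_
  rw [sum_mul]
  refine sum_congr rfl fun B₂ _ => ?_
  rw [sum_mul]

theorem rpo102_NR_eq (S : Rcy162Sys) (t : ℝ) (K : Rpo102Con) (R Q : Finset (ℤ × ℤ)) (YR : Finset ((ℤ × ℤ) × Bool))
    (ER : Finset ((ℤ × ℤ) × (ℤ × ℤ))) {G : RswCfg → ℝ} (hG : Rpo102Loc R YR G) :
    rpo102NR S t K R Q YR ER G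
      = ∑ B₁ ∈ R.powerset, ∑ O₁ ∈ YR.powerset, rpo102W (rpo102SR S R Q YR) t (rpo102KR K R YR ER) B₁ O₁ * G ⟨B₁, ∅, O₁⟩ :=
  rpo102_sum_eq (rpo102SR S R Q YR) t (rpo102KR K R YR ER) (rpo102_loc_noD hG)

/-- **PORTS, numerators** : up to the exterior constant and `2 ^ (|P| - 1)` the ambient numerator is the retained one -/
theorem rpo102_core (hs : Rpo102Split S t K R Q YR ER P) {G : RswCfg → ℝ} (hG : Rpo102Loc R YR G) (h0 : ∀ ω, 0 ≤ G ω) :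
    rpo102NR S t K R Q YR ER G * rpo102AX S t K R YR ER ≤ S.sum t (K.Holds S) G * 2 ^ Q.card ∧
    S.sum t (K.Holds S) G * 2 ^ Q.card ≤ 2 ^ (P.card - 1) * (rpo102NR S t K R Q YR ER G * rpo102AX S t K R YR ER) := by
  have key : ∀ B₁ ∈ R.powerset, ∀ O₁ ∈ YR.powerset,
      rpo102W (rpo102SR S R Q YR) t (rpo102KR K R YR ER) B₁ O₁ * rpo102AX S t K R YR ER
        ≤ (∑ B₂ ∈ (S.V \ R).powerset, ∑ O₂ ∈ (S.E \ YR).powerset, rpo102W S t K (B₁ ∪ B₂) (O₁ ∪ O₂)) * 2 ^ Q.card ∧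
      (∑ B₂ ∈ (S.V \ R).powerset, ∑ O₂ ∈ (S.E \ YR).powerset, rpo102W S t K (B₁ ∪ B₂) (O₁ ∪ O₂)) * 2 ^ Q.card
        ≤ 2 ^ (P.card - 1) * (rpo102W (rpo102SR S R Q YR) t (rpo102KR K R YR ER) B₁ O₁ * rpo102AX S t K R YR ER) := by
    intro B₁ hB₁ O₁ hO₁
    unfold rpo102AX
    constructor
    · rw [mul_sum, sum_mul]
      refine sum_le_sum fun B₂ hB₂ => ?_
      rw [mul_sum, sum_mul]
      exact sum_le_sum fun O₂ hO₂ =>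
        (rpo102_pt hs (mem_powerset.1 hB₁) (mem_powerset.1 hB₂) (mem_powerset.1 hO₁) (mem_powerset.1 hO₂)).1
    · rw [mul_sum, mul_sum, sum_mul]
      refine sum_le_sum fun B₂ hB₂ => ?_
      rw [mul_sum, mul_sum, sum_mul]
      exact sum_le_sum fun O₂ hO₂ =>
        (rpo102_pt hs (mem_powerset.1 hB₁) (mem_powerset.1 hB₂) (mem_powerset.1 hO₁) (mem_powerset.1 hO₂)).2
  rw [rpo102_sum_split hs hG, rpo102_NR_eq S t K R Q YR ER hG]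
  constructor
  · rw [sum_mul, sum_mul]
    refine sum_le_sum fun B₁ hB₁ => ?_
    rw [sum_mul, sum_mul]
    refine sum_le_sum fun O₁ hO₁ => ?_
    calc _ = rpo102W (rpo102SR S R Q YR) t (rpo102KR K R YR ER) B₁ O₁ * rpo102AX S t K R YR ER * G ⟨B₁, ∅, O₁⟩ := by ring
      _ ≤ _ := mul_le_mul_of_nonneg_right (key B₁ hB₁ O₁ hO₁).1 (h0 _)
      _ = _ := by ring
  · rw [sum_mul, sum_mul, mul_sum]
    refine sum_le_sum fun B₁ hB₁ => ?_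
    rw [sum_mul, sum_mul, mul_sum]
    refine sum_le_sum fun O₁ hO₁ => ?_
    calc _ = (∑ B₂ ∈ (S.V \ R).powerset, ∑ O₂ ∈ (S.E \ YR).powerset, rpo102W S t K (B₁ ∪ B₂) (O₁ ∪ O₂)) * 2 ^ Q.card * G ⟨B₁, ∅, O₁⟩ := by
          ring
      _ ≤ _ := mul_le_mul_of_nonneg_right (key B₁ hB₁ O₁ hO₁).2 (h0 _)
      _ = _ := by ring

theorem rpo102_NR_nonneg (hs : Rpo102Split S t K R Q YR ER P) {G : RswCfg → ℝ} (hG : Rpo102Loc R YR G) (h0 : ∀ ω, 0 ≤ G ω) :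
    0 ≤ rpo102NR S t K R Q YR ER G := by
  rw [rpo102_NR_eq S t K R Q YR ER hG]
  exact sum_nonneg fun B₁ _ => sum_nonneg fun O₁ _ => mul_nonneg (rpo102_WR_nonneg hs B₁ O₁) (h0 _)

theorem rpo102_N_nonneg (hs : Rpo102Split S t K R Q YR ER P) {G : RswCfg → ℝ} (h0 : ∀ ω, 0 ≤ G ω) :
    0 ≤ S.sum t (K.Holds S) G := rcy162_sum_nonneg S _ hs.q0 hs.q1 h0

theorem rpo102_loc_one : Rpo102Loc R YR (fun _ : RswCfg => (1 : ℝ)) := fun _ _ _ _ => rfl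

/-- **PORTS, two histories / two ambients** with the same retained numerators -/
theorem rpo102_two_gen {S₁ S₂ : Rcy162Sys} {K₁ K₂ : Rpo102Con} {P₁ P₂ : Finset (ℤ × ℤ)} (h₁ : Rpo102Split S₁ t K₁ R Q YR ER P₁)
    (h₂ : Rpo102Split S₂ t K₂ R Q YR ER P₂)
    (hN : ∀ G, Rpo102Loc R YR G → rpo102NR S₁ t K₁ R Q YR ER G = rpo102NR S₂ t K₂ R Q YR ER G)
    {F : RswCfg → ℝ} (hF : Rpo102Loc R YR F) (h0 : ∀ ω, 0 ≤ F ω) :
    S₁.sum t (K₁.Holds S₁) F * S₂.sum t (K₂.Holds S₂) (fun _ => 1)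
      ≤ 2 ^ ((P₁.card - 1) + (P₂.card - 1)) * (S₁.sum t (K₁.Holds S₁) (fun _ => 1) * S₂.sum t (K₂.Holds S₂) F) := by
  have o0 : ∀ ω : RswCfg, (0 : ℝ) ≤ (fun _ => 1) ω := fun _ => zero_le_one
  have a1 := rpo102_core h₁ hF h0
  have a2 := rpo102_core h₁ rpo102_loc_one o0
  have b1 := rpo102_core h₂ hF h0
  have b2 := rpo102_core h₂ rpo102_loc_one o0
  rw [← hN F hF] at b1
  rw [← hN _ rpo102_loc_one] at b2
  rw [pow_add]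
  exact prc_cross_alg (by positivity) (by positivity) (by positivity) (rpo102_NR_nonneg h₁ hF h0) (rpo102_NR_nonneg h₁ rpo102_loc_one o0)
    (rpo102_AX_nonneg h₁) (rpo102_AX_nonneg h₂) (rpo102_N_nonneg h₂ o0) a1.2 a2.1 b2.2 b1.1

/-- **PORTS, two histories of ONE ambient** (the form of R291 `Ann/LenSE`; field `port` of `Rse182Hist.Ok`) -/
theorem rpo102_two {K₁ K₂ : Rpo102Con} {P₁ P₂ : Finset (ℤ × ℤ)} (h₁ : Rpo102Split S t K₁ R Q YR ER P₁) (h₂ : Rpo102Split S t K₂ R Q YR ER P₂)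
    (hBp : K₁.Sp ∩ R = K₂.Sp ∩ R) (hBm : K₁.Sm ∩ R = K₂.Sm ∩ R) (hOp : K₁.Gp ∩ YR = K₂.Gp ∩ YR) (hOm : K₁.Gm ∩ YR = K₂.Gm ∩ YR)
    (hCl : K₁.Cl ∩ YR = K₂.Cl ∩ YR) {F : RswCfg → ℝ} (hF : Rpo102Loc R YR F) (h0 : ∀ ω, 0 ≤ F ω) :
    S.sum t (K₁.Holds S) F * S.sum t (K₂.Holds S) (fun _ => 1)
      ≤ 2 ^ ((P₁.card - 1) + (P₂.card - 1)) * (S.sum t (K₁.Holds S) (fun _ => 1) * S.sum t (K₂.Holds S) F) := by
  refine rpo102_two_gen h₁ h₂ (fun G _ => ?_) hF h0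
  unfold rpo102NR rpo102KR
  rw [hBp, hBm, hOp, hOm, hCl]

/-- **PORTS, ambient against the retained closed system**, cross-multiplied, upper bound -/
theorem rpo102_le (hs : Rpo102Split S t K R Q YR ER P) {G : RswCfg → ℝ} (hG : Rpo102Loc R YR G) (h0 : ∀ ω, 0 ≤ G ω) :
    S.sum t (K.Holds S) G * rpo102NR S t K R Q YR ER (fun _ => 1)
      ≤ 2 ^ (P.card - 1) * (rpo102NR S t K R Q YR ER G * S.sum t (K.Holds S) (fun _ => 1)) := by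
  have o0 : ∀ ω : RswCfg, (0 : ℝ) ≤ (fun _ => 1) ω := fun _ => zero_le_one
  have a1 := rpo102_core hs hG h0
  have a2 := rpo102_core hs rpo102_loc_one o0
  exact prc2_alg_le (c := 2 ^ Q.card) (by positivity) (rpo102_AX_nonneg hs) (by positivity) (rpo102_N_nonneg hs h0) (rpo102_N_nonneg hs o0)
    (rpo102_NR_nonneg hs hG h0) (rpo102_NR_nonneg hs rpo102_loc_one o0) a1.2 a2.1

/-- **PORTS, ambient against the retained closed system**, cross-multiplied, lower bound -/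
theorem rpo102_ge (hs : Rpo102Split S t K R Q YR ER P) {G : RswCfg → ℝ} (hG : Rpo102Loc R YR G) (h0 : ∀ ω, 0 ≤ G ω) :
    rpo102NR S t K R Q YR ER G * S.sum t (K.Holds S) (fun _ => 1)
      ≤ 2 ^ (P.card - 1) * (S.sum t (K.Holds S) G * rpo102NR S t K R Q YR ER (fun _ => 1)) := by
  have o0 : ∀ ω : RswCfg, (0 : ℝ) ≤ (fun _ => 1) ω := fun _ => zero_le_one
  have a1 := rpo102_core hs hG h0
  have a2 := rpo102_core hs rpo102_loc_one o0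
  exact prc2_alg_ge (c := 2 ^ Q.card) (by positivity) (rpo102_AX_nonneg hs) (by positivity) (rpo102_N_nonneg hs h0) (rpo102_N_nonneg hs o0)
    (rpo102_NR_nonneg hs hG h0) (rpo102_NR_nonneg hs rpo102_loc_one o0) a1.1 a2.2

/-- feasibility passes to the retained closed system -/
theorem rpo102_feas (hs : Rpo102Split S t K R Q YR ER P) (hZ : 0 < S.sum t (K.Holds S) (fun _ => 1)) :
    0 < rpo102NR S t K R Q YR ER (fun _ => 1) := by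
  have o0 : ∀ ω : RswCfg, (0 : ℝ) ≤ (fun _ => 1) ω := fun _ => zero_le_one
  have a2 := (rpo102_core hs rpo102_loc_one o0).2
  have hz := rpo102_NR_nonneg hs rpo102_loc_one o0
  rcases hz.eq_or_lt with h | h
  · rw [← h] at a2
    have hc : (0 : ℝ) < 2 ^ Q.card := by positivity
    have := mul_pos hZ hc
    simp only [zero_mul, mul_zero] at a2
    linarith
  · exact h

/-- **PORTS, normalised**, upper bound -/
theorem rpo102_E_le (hs : Rpo102Split S t K R Q YR ER P) {G : RswCfg → ℝ} (hG : Rpo102Loc R YR G) (h0 : ∀ ω, 0 ≤ G ω) :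
    S.Ex t (K.Holds S) G ≤ 2 ^ (P.card - 1) * (rpo102SR S R Q YR).Ex t ((rpo102KR K R YR ER).Holds (rpo102SR S R Q YR)) G := by
  have o0 : ∀ ω : RswCfg, (0 : ℝ) ≤ (fun _ => 1) ω := fun _ => zero_le_one
  show S.sum t (K.Holds S) G / S.sum t (K.Holds S) (fun _ => 1)
    ≤ 2 ^ (P.card - 1) * (rpo102NR S t K R Q YR ER G / rpo102NR S t K R Q YR ER (fun _ => 1))
  have hn := rpo102_NR_nonneg hs hG h0
  have hz := rpo102_NR_nonneg hs rpo102_loc_one o0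
  have hZ0 : 0 ≤ S.sum t (K.Holds S) (fun _ => 1) := rpo102_N_nonneg hs o0
  have hp : (0 : ℝ) ≤ 2 ^ (P.card - 1) := by positivity
  rcases hZ0.eq_or_lt with h | h
  · rw [← h, div_zero]
    exact mul_nonneg hp (div_nonneg hn hz)
  · have hzR := rpo102_feas hs h
    have := rpo102_le hs hG h0
    rw [div_le_iff₀ h, mul_assoc, div_mul_eq_mul_div, mul_div_assoc', le_div_iff₀ hzR]
    exact this

/-- **PORTS, normalised**, lower bound -/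
theorem rpo102_E_ge (hs : Rpo102Split S t K R Q YR ER P) (hZ : 0 < S.sum t (K.Holds S) (fun _ => 1)) {G : RswCfg → ℝ}
    (hG : Rpo102Loc R YR G) (h0 : ∀ ω, 0 ≤ G ω) :
    (rpo102SR S R Q YR).Ex t ((rpo102KR K R YR ER).Holds (rpo102SR S R Q YR)) G ≤ 2 ^ (P.card - 1) * S.Ex t (K.Holds S) G := by
  show rpo102NR S t K R Q YR ER G / rpo102NR S t K R Q YR ER (fun _ => 1)
    ≤ 2 ^ (P.card - 1) * (S.sum t (K.Holds S) G / S.sum t (K.Holds S) (fun _ => 1))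
  have hzR := rpo102_feas hs hZ
  have := rpo102_ge hs hG h0
  rw [div_le_iff₀ hzR, mul_assoc, div_mul_eq_mul_div, mul_div_assoc', le_div_iff₀ hZ]
  exact this

/-- the retained weight reads the edge pairs of `YR` only -/
theorem rpo102_WR_congr {S₁ S₂ : Rcy162Sys} {K₁ K₂ : Rpo102Con} (hsv : ∀ y ∈ YR, rpo102Sv S₁ y = rpo102Sv S₂ y)
    (hsd : ∀ y ∈ YR, rpo102Sd S₁ y = rpo102Sd S₂ y) (hK : rpo102KR K₁ R YR ER = rpo102KR K₂ R YR ER) (B : Finset (ℤ × ℤ))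
    (O : Finset ((ℤ × ℤ) × Bool)) :
    rpo102W (rpo102SR S₁ R Q YR) t (rpo102KR K₁ R YR ER) B O = rpo102W (rpo102SR S₂ R Q YR) t (rpo102KR K₂ R YR ER) B O := by
  classical
  rw [hK]
  have sv1 : ∀ y, rpo102Sv (rpo102SR S₁ R Q YR) y = rpo102Sv S₁ y := fun _ => rfl
  have sv2 : ∀ y, rpo102Sv (rpo102SR S₂ R Q YR) y = rpo102Sv S₂ y := fun _ => rfl
  have e1 : Rpo102KB (rpo102KR K₂ R YR ER) (rpo102SR S₁ R Q YR) B O ↔ Rpo102KB (rpo102KR K₂ R YR ER) (rpo102SR S₂ R Q YR) B O := by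
    unfold Rpo102KB rpo102KR
    simp only [sv1, sv2]
    refine and_congr Iff.rfl (and_congr Iff.rfl (and_congr ?_ (and_congr ?_ Iff.rfl)))
    · refine forall_congr' fun y => forall_congr' fun hy => ?_
      rw [hsv y (mem_inter.1 hy).2]
    · refine forall_congr' fun y => forall_congr' fun hy => ?_
      rw [hsv y (mem_inter.1 hy).2]
  have e2 : ∏ y ∈ (rpo102SR S₁ R Q YR).E, prcKf t (ClConst B (rpo102Sv (rpo102SR S₁ R Q YR) y)) (y ∈ O)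
      = ∏ y ∈ (rpo102SR S₂ R Q YR).E, prcKf t (ClConst B (rpo102Sv (rpo102SR S₂ R Q YR) y)) (y ∈ O) := by
    refine prod_congr rfl fun y hy => ?_
    have hy' : y ∈ YR := hy
    rw [sv1, sv2]
    exact prc_kf_congr _ (by rw [hsv y hy']) Iff.rfl
  have e3 : rpo102Tie (rpo102SR S₁ R Q YR) (rpo102SR S₁ R Q YR).E (rpo102KR K₂ R YR ER).Eq O
      = rpo102Tie (rpo102SR S₂ R Q YR) (rpo102SR S₂ R Q YR).E (rpo102KR K₂ R YR ER).Eq O := by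
    unfold rpo102Tie
    congr 1
    refine biUnion_congr rfl fun y hy => ?_
    have hy' : y ∈ YR := (mem_sdiff.1 hy).1
    show rpo102Sd S₁ y ×ˢ rpo102Sd S₁ y = rpo102Sd S₂ y ×ˢ rpo102Sd S₂ y
    rw [hsd y hy']
  unfold rpo102W
  rw [e2, e3]
  by_cases h : Rpo102KB (rpo102KR K₂ R YR ER) (rpo102SR S₂ R Q YR) B O
  · rw [if_pos h, if_pos (e1.2 h)]; rfl
  · rw [if_neg h, if_neg fun h' => h (e1.1 h')]

theorem rpo102_NR_congr {S₁ S₂ : Rcy162Sys} {K₁ K₂ : Rpo102Con} (hsv : ∀ y ∈ YR, rpo102Sv S₁ y = rpo102Sv S₂ y)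
    (hsd : ∀ y ∈ YR, rpo102Sd S₁ y = rpo102Sd S₂ y) (hK : rpo102KR K₁ R YR ER = rpo102KR K₂ R YR ER) {G : RswCfg → ℝ}
    (hG : Rpo102Loc R YR G) : rpo102NR S₁ t K₁ R Q YR ER G = rpo102NR S₂ t K₂ R Q YR ER G := by
  rw [rpo102_NR_eq S₁ t K₁ R Q YR ER hG, rpo102_NR_eq S₂ t K₂ R Q YR ER hG]
  exact sum_congr rfl fun B _ => sum_congr rfl fun O _ => by rw [rpo102_WR_congr hsv hsd hK]

/-- **PORTS, two ambients** which agree on the retained edge pairs -/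
theorem rpo102_two_amb {S₁ S₂ : Rcy162Sys} {K₁ K₂ : Rpo102Con} {P₁ P₂ : Finset (ℤ × ℤ)} (h₁ : Rpo102Split S₁ t K₁ R Q YR ER P₁)
    (h₂ : Rpo102Split S₂ t K₂ R Q YR ER P₂) (hsv : ∀ y ∈ YR, rpo102Sv S₁ y = rpo102Sv S₂ y)
    (hsd : ∀ y ∈ YR, rpo102Sd S₁ y = rpo102Sd S₂ y) (hK : rpo102KR K₁ R YR ER = rpo102KR K₂ R YR ER) {F : RswCfg → ℝ}
    (hF : Rpo102Loc R YR F) (h0 : ∀ ω, 0 ≤ F ω) :
    S₁.sum t (K₁.Holds S₁) F * S₂.sum t (K₂.Holds S₂) (fun _ => 1)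
      ≤ 2 ^ ((P₁.card - 1) + (P₂.card - 1)) * (S₁.sum t (K₁.Holds S₁) (fun _ => 1) * S₂.sum t (K₂.Holds S₂) F) :=
  rpo102_two_gen h₁ h₂ (fun _ hG => rpo102_NR_congr hsv hsd hK hG) hF h0

/-- normalised form of `rpo102_two_gen` -/
theorem rpo102_two_E {S₁ S₂ : Rcy162Sys} {K₁ K₂ : Rpo102Con} {P₁ P₂ : Finset (ℤ × ℤ)} (h₁ : Rpo102Split S₁ t K₁ R Q YR ER P₁)
    (h₂ : Rpo102Split S₂ t K₂ R Q YR ER P₂)
    (hN : ∀ G, Rpo102Loc R YR G → rpo102NR S₁ t K₁ R Q YR ER G = rpo102NR S₂ t K₂ R Q YR ER G)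
    (hZ₂ : 0 < S₂.sum t (K₂.Holds S₂) (fun _ => 1)) {F : RswCfg → ℝ} (hF : Rpo102Loc R YR F) (h0 : ∀ ω, 0 ≤ F ω) :
    S₁.Ex t (K₁.Holds S₁) F ≤ 2 ^ ((P₁.card - 1) + (P₂.card - 1)) * S₂.Ex t (K₂.Holds S₂) F := by
  have o0 : ∀ ω : RswCfg, (0 : ℝ) ≤ (fun _ => 1) ω := fun _ => zero_le_one
  unfold Rcy162Sys.Ex
  have hZ0 : 0 ≤ S₁.sum t (K₁.Holds S₁) (fun _ => 1) := rpo102_N_nonneg h₁ o0
  rcases hZ0.eq_or_lt with h | h
  · rw [← h, div_zero]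
    exact mul_nonneg (by positivity) (div_nonneg (rpo102_N_nonneg h₂ h0) hZ₂.le)
  · have := rpo102_two_gen h₁ h₂ hN hF h0
    rw [div_le_iff₀ h, mul_assoc, div_mul_eq_mul_div, mul_div_assoc', le_div_iff₀ hZ₂]
    calc _ ≤ _ := this
      _ = _ := by ring

/-- the indicator of an event which reads `(S ∩ R, O ∩ YR)` is local -/
theorem rpo102_loc_ind {L : RswCfg → Prop} (hL : ∀ ω ω' : RswCfg, ω.S ∩ R = ω'.S ∩ R → ω.O ∩ YR = ω'.O ∩ YR → (L ω ↔ L ω')) :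
    Rpo102Loc R YR (fun ω => open Classical in if L ω then (1 : ℝ) else 0) := by
  classical
  intro ω ω' h1 h2
  have := hL ω ω' h1 h2
  by_cases h : L ω
  · simp only [if_pos h, if_pos (this.1 h)]
  · simp only [if_neg h, if_neg fun h' => h (this.2 h')]

/-- the state (good of colour `a`) of a retained edge pair is local -/
theorem rpo102_good_loc (hc : ∀ y ∈ YR, rpo102Sv S y ⊆ R) {ω ω' : RswCfg} (h1 : ω.S ∩ R = ω'.S ∩ R) (h2 : ω.O ∩ YR = ω'.O ∩ YR)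
    {y : (ℤ × ℤ) × Bool} (hy : y ∈ YR) (a : Bool) : S.Good a ω y ↔ S.Good a ω' y := by
  have e1 : y ∈ ω.O ↔ y ∈ ω'.O := by
    have : y ∈ ω.O ∩ YR ↔ y ∈ ω'.O ∩ YR := by rw [h2]
    simpa [hy] using this
  have e0 : ∀ v ∈ rpo102Sv S y, (v ∈ ω.S ↔ v ∈ ω'.S) := fun v hv => by
    have : v ∈ ω.S ∩ R ↔ v ∈ ω'.S ∩ R := by rw [h1]
    simpa [hc y hy hv] using this
  unfold Rcy162Sys.Good
  rw [e1, e0 (S.p0 y) (by simp [rpo102Sv]), e0 (S.p1 y) (by simp [rpo102Sv])]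

/-! ## 3. Ports by classes (R291 `Glue/Ports2`) -/

open Classical in
/-- the exterior weight, ties rerouted -/
noncomputable def rpo102WX2 (S : Rcy162Sys) (t : ℝ) (K : Rpo102Con) (R : Finset (ℤ × ℤ)) (YR : Finset ((ℤ × ℤ) × Bool))
    (ER : Finset ((ℤ × ℤ) × (ℤ × ℤ))) (ρ : ℤ × ℤ → ℤ × ℤ) (B₂ : Finset (ℤ × ℤ)) (O₂ : Finset ((ℤ × ℤ) × Bool)) : ℝ :=
  if Rpo102KX S K R YR B₂ O₂ then (∏ y ∈ S.E \ YR, prcKf t (ClConst ((K.Sp ∩ R) ∪ B₂) (rpo102Sv S y)) (y ∈ O₂))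
    * (prcCnt S.Fc (prc2Map ρ (rpo102Tie S (S.E \ YR) (K.Eq \ ER) O₂)) : ℝ) else 0

/-- the exterior constant, ties rerouted -/
noncomputable def rpo102AX2 (S : Rcy162Sys) (t : ℝ) (K : Rpo102Con) (R : Finset (ℤ × ℤ)) (YR : Finset ((ℤ × ℤ) × Bool))
    (ER : Finset ((ℤ × ℤ) × (ℤ × ℤ))) (ρ : ℤ × ℤ → ℤ × ℤ) : ℝ :=
  ∑ B₂ ∈ (S.V \ R).powerset, ∑ O₂ ∈ (S.E \ YR).powerset, rpo102WX2 S t K R YR ER ρ B₂ O₂

theorem rpo102_wx2_eqns_cite : True := by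
  have := @rpo102WX2.eq_1
  have := @rpo102AX2.eq_1
  trivial

variable {P' : Finset (ℤ × ℤ)} {ρ : ℤ × ℤ → ℤ × ℤ}

theorem rpo102_WX2_nonneg (hs : Rpo102Split S t K R Q YR ER P) (ρ : ℤ × ℤ → ℤ × ℤ) (B₂ : Finset (ℤ × ℤ)) (O₂ : Finset ((ℤ × ℤ) × Bool)) :
    0 ≤ rpo102WX2 S t K R YR ER ρ B₂ O₂ := by
  classical
  unfold rpo102WX2
  split_ifs
  · exact mul_nonneg (prod_nonneg fun y hy => prc_kf_nonneg hs.q0 hs.q1 _ _) (Nat.cast_nonneg _)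
  · exact le_rfl

theorem rpo102_AX2_nonneg (hs : Rpo102Split S t K R Q YR ER P) (ρ : ℤ × ℤ → ℤ × ℤ) : 0 ≤ rpo102AX2 S t K R YR ER ρ :=
  sum_nonneg fun B₂ _ => sum_nonneg fun O₂ _ => rpo102_WX2_nonneg hs ρ B₂ O₂

/-- the ties of the ambient, exterior ties rerouted -/
theorem rpo102_tie_split2 (hs : Rpo102Split S t K R Q YR ER P) (hc : Prc2Cls Q ER P P' ρ) {O₁ O₂ : Finset ((ℤ × ℤ) × Bool)} (hO₁ : O₁ ⊆ YR)
    (hO₂ : O₂ ⊆ S.E \ YR) (W : Finset (ℤ × ℤ)) :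
    PrcResp (rpo102Tie S S.E K.Eq (O₁ ∪ O₂)) W
      ↔ PrcResp (rpo102Tie S YR ER O₁ ∪ prc2Map ρ (rpo102Tie S (S.E \ YR) (K.Eq \ ER) O₂)) W := by
  rw [rpo102_tie_split hs hO₁ hO₂, prc_resp_union, prc_resp_union]
  refine and_congr_right fun h1 => ?_
  have h2 : PrcResp ER W := ((rpo102_resp_tie S YR ER O₁ W).1 h1).1
  exact (prc2_resp_map (prc2_cls_mem hc h2)).symm

theorem rpo102_tieX_in2 (hs : Rpo102Split S t K R Q YR ER P) (hc : Prc2Cls Q ER P P' ρ) (O₂ : Finset ((ℤ × ℤ) × Bool)) :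
    ∀ e ∈ prc2Map ρ (rpo102Tie S (S.E \ YR) (K.Eq \ ER) O₂), e.1 ∈ S.Fc ∧ e.2 ∈ S.Fc := by
  have key : ∀ v ∈ S.Fc, ρ v ∈ S.Fc := by
    intro v hv
    by_cases h : v ∈ P
    · exact hs.QA (hc.sub (hc.rep v h))
    · rw [hc.fix v h]; exact hv
  intro e he
  obtain ⟨e', he', rfl⟩ := mem_image.1 he
  have := rpo102_tieX_in hs O₂ e' he'
  exact ⟨key _ this.1, key _ this.2⟩

/-- the rerouted exterior ties touch the retained faces at the representatives only -/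
theorem rpo102_tieX_port2 (hs : Rpo102Split S t K R Q YR ER P) (hc : Prc2Cls Q ER P P' ρ) {B₂ : Finset (ℤ × ℤ)}
    {O₂ : Finset ((ℤ × ℤ) × Bool)} (hk : Rpo102KX S K R YR B₂ O₂) {v : ℤ × ℤ}
    (hv : PrcTouch (prc2Map ρ (rpo102Tie S (S.E \ YR) (K.Eq \ ER) O₂)) v) (hR : v ∈ Q) : v ∈ P' := by
  have key : ∀ u, PrcTouch (rpo102Tie S (S.E \ YR) (K.Eq \ ER) O₂) u → ρ u ∈ Q → ρ u ∈ P' := by
    intro u hu hRu
    by_cases h : u ∈ P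
    · exact hc.rep u h
    · rw [hc.fix u h] at hRu
      exact absurd (rpo102_tieX_port hs hk hu hRu) h
  obtain ⟨e, he, hev⟩ := hv
  obtain ⟨e', he', rfl⟩ := mem_image.1 he
  rcases hev with h | h
  · simp only at h
    rw [← h] at hR ⊢
    exact key _ ⟨e', he', Or.inl rfl⟩ hR
  · simp only at h
    rw [← h] at hR ⊢
    exact key _ ⟨e', he', Or.inr rfl⟩ hR

/-- **one configuration**, ports by classes -/
theorem rpo102_pt2 (hs : Rpo102Split S t K R Q YR ER P) (hc : Prc2Cls Q ER P P' ρ) {B₁ B₂ : Finset (ℤ × ℤ)}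
    {O₁ O₂ : Finset ((ℤ × ℤ) × Bool)} (hB₁ : B₁ ⊆ R) (hB₂ : B₂ ⊆ S.V \ R) (hO₁ : O₁ ⊆ YR) (hO₂ : O₂ ⊆ S.E \ YR) :
    rpo102W (rpo102SR S R Q YR) t (rpo102KR K R YR ER) B₁ O₁ * rpo102WX2 S t K R YR ER ρ B₂ O₂
      ≤ rpo102W S t K (B₁ ∪ B₂) (O₁ ∪ O₂) * 2 ^ Q.card ∧
    rpo102W S t K (B₁ ∪ B₂) (O₁ ∪ O₂) * 2 ^ Q.card
      ≤ 2 ^ (P'.card - 1) * (rpo102W (rpo102SR S R Q YR) t (rpo102KR K R YR ER) B₁ O₁ * rpo102WX2 S t K R YR ER ρ B₂ O₂) := by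
  classical
  have hsplit := rpo102_KB_split hs hB₁ hB₂ hO₁ hO₂
  unfold rpo102W rpo102WX2
  by_cases c1 : Rpo102KB (rpo102KR K R YR ER) (rpo102SR S R Q YR) B₁ O₁
  swap
  · rw [if_neg c1, if_neg fun h => c1 (hsplit.1 h).1]; simp
  by_cases c2 : Rpo102KX S K R YR B₂ O₂
  swap
  · rw [if_neg c2, if_neg fun h => c2 (hsplit.1 h).2]; simp
  rw [if_pos c1, if_pos c2, if_pos (hsplit.2 ⟨c1, c2⟩), rpo102_kf_split hs hB₁ hB₂ hO₁ hO₂ c1.1 c1.2.1,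
    prc_cnt_congr S.Fc (rpo102_tie_split2 hs hc hO₁ hO₂)]
  show (∏ y ∈ YR, prcKf t (ClConst B₁ (rpo102Sv S y)) (y ∈ O₁)) * (prcCnt Q (rpo102Tie S YR ER O₁) : ℝ) * _ ≤ _ ∧
    _ ≤ _ * ((∏ y ∈ YR, prcKf t (ClConst B₁ (rpo102Sv S y)) (y ∈ O₁)) * (prcCnt Q (rpo102Tie S YR ER O₁) : ℝ) * _)
  obtain ⟨a, ha⟩ : ∃ a, a = ∏ y ∈ YR, prcKf t (ClConst B₁ (rpo102Sv S y)) (y ∈ O₁) := ⟨_, rfl⟩
  obtain ⟨b, hb⟩ : ∃ b, b = ∏ y ∈ S.E \ YR, prcKf t (ClConst ((K.Sp ∩ R) ∪ B₂) (rpo102Sv S y)) (y ∈ O₂) := ⟨_, rfl⟩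
  have ha0 : 0 ≤ a := by rw [ha]; exact prod_nonneg fun y hy => prc_kf_nonneg hs.q0 hs.q1 _ _
  have hb0 : 0 ≤ b := by
    rw [hb]; exact prod_nonneg fun y hy => prc_kf_nonneg hs.q0 hs.q1 _ _
  rw [← ha, ← hb]
  have tR := rpo102_tieR_in hs O₁
  have tRA : ∀ e ∈ rpo102Tie S YR ER O₁, e.1 ∈ S.Fc ∧ e.2 ∈ S.Fc := fun e he => ⟨hs.QA (tR e he).1, hs.QA (tR e he).2⟩
  have tX := rpo102_tieX_in2 hs hc O₂
  have n1 := prc_cnt_mul_le S.Fc _ _ tRA tX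
  have n2 := prc_cnt_port S.Fc _ _ tRA tX P' (fun v hv1 hv2 => by
    refine rpo102_tieX_port2 hs hc c2 hv2 ?_
    obtain ⟨e, he, hev⟩ := hv1
    rcases hev with rfl | rfl
    · exact (tR e he).1
    · exact (tR e he).2)
  have n3 := prc_cnt_res hs.QA _ tR
  obtain ⟨nR, hnR⟩ : ∃ n : ℝ, n = prcCnt Q (rpo102Tie S YR ER O₁) := ⟨_, rfl⟩
  obtain ⟨nX, hnX⟩ : ∃ n : ℝ, n = prcCnt S.Fc (prc2Map ρ (rpo102Tie S (S.E \ YR) (K.Eq \ ER) O₂)) := ⟨_, rfl⟩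
  obtain ⟨nU, hnU⟩ : ∃ n : ℝ, n = prcCnt S.Fc (rpo102Tie S YR ER O₁ ∪ prc2Map ρ (rpo102Tie S (S.E \ YR) (K.Eq \ ER) O₂)) := ⟨_, rfl⟩
  have hcard : (2 : ℝ) ^ S.Fc.card = 2 ^ (S.Fc \ Q).card * 2 ^ Q.card := by
    rw [← pow_add, card_sdiff_add_card_eq_card hs.QA]
  have n1' : (2 : ℝ) ^ (S.Fc \ Q).card * nR * nX ≤ nU * (2 ^ (S.Fc \ Q).card * 2 ^ Q.card) := by
    rw [hnR, hnX, hnU, ← n3, ← hcard]; exact_mod_cast n1
  have n2' : nU * ((2 : ℝ) ^ (S.Fc \ Q).card * 2 ^ Q.card) ≤ 2 ^ (P'.card - 1) * (2 ^ (S.Fc \ Q).card * nR * nX) := by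
    rw [hnR, hnX, hnU, ← n3, ← hcard]; exact_mod_cast n2
  have hpos : (0 : ℝ) < 2 ^ (S.Fc \ Q).card := by positivity
  have m1 : nR * nX ≤ nU * 2 ^ Q.card := by
    refine le_of_mul_le_mul_left ?_ hpos
    calc _ = (2 : ℝ) ^ (S.Fc \ Q).card * nR * nX := by ring
      _ ≤ _ := n1'
      _ = _ := by ring
  have m2 : nU * 2 ^ Q.card ≤ 2 ^ (P'.card - 1) * (nR * nX) := by
    refine le_of_mul_le_mul_left ?_ hpos
    calc _ = nU * ((2 : ℝ) ^ (S.Fc \ Q).card * 2 ^ Q.card) := by ring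
      _ ≤ _ := n2'
      _ = _ := by ring
  rw [← hnR, ← hnX, ← hnU]
  have hab := mul_nonneg ha0 hb0
  constructor
  · calc a * nR * (b * nX) = a * b * (nR * nX) := by ring
      _ ≤ a * b * (nU * 2 ^ Q.card) := mul_le_mul_of_nonneg_left m1 hab
      _ = _ := by ring
  · calc a * b * nU * 2 ^ Q.card = a * b * (nU * 2 ^ Q.card) := by ring
      _ ≤ a * b * (2 ^ (P'.card - 1) * (nR * nX)) := mul_le_mul_of_nonneg_left m2 hab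
      _ = _ := by ring

/-- **PORTS BY CLASSES, numerators** -/
theorem rpo102_core2 (hs : Rpo102Split S t K R Q YR ER P) (hc : Prc2Cls Q ER P P' ρ) {G : RswCfg → ℝ} (hG : Rpo102Loc R YR G)
    (h0 : ∀ ω, 0 ≤ G ω) :
    rpo102NR S t K R Q YR ER G * rpo102AX2 S t K R YR ER ρ ≤ S.sum t (K.Holds S) G * 2 ^ Q.card ∧
    S.sum t (K.Holds S) G * 2 ^ Q.card ≤ 2 ^ (P'.card - 1) * (rpo102NR S t K R Q YR ER G * rpo102AX2 S t K R YR ER ρ) := by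
  have key : ∀ B₁ ∈ R.powerset, ∀ O₁ ∈ YR.powerset,
      rpo102W (rpo102SR S R Q YR) t (rpo102KR K R YR ER) B₁ O₁ * rpo102AX2 S t K R YR ER ρ
        ≤ (∑ B₂ ∈ (S.V \ R).powerset, ∑ O₂ ∈ (S.E \ YR).powerset, rpo102W S t K (B₁ ∪ B₂) (O₁ ∪ O₂)) * 2 ^ Q.card ∧
      (∑ B₂ ∈ (S.V \ R).powerset, ∑ O₂ ∈ (S.E \ YR).powerset, rpo102W S t K (B₁ ∪ B₂) (O₁ ∪ O₂)) * 2 ^ Q.card
        ≤ 2 ^ (P'.card - 1) * (rpo102W (rpo102SR S R Q YR) t (rpo102KR K R YR ER) B₁ O₁ * rpo102AX2 S t K R YR ER ρ) := by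
    intro B₁ hB₁ O₁ hO₁
    unfold rpo102AX2
    constructor
    · rw [mul_sum, sum_mul]
      refine sum_le_sum fun B₂ hB₂ => ?_
      rw [mul_sum, sum_mul]
      exact sum_le_sum fun O₂ hO₂ =>
        (rpo102_pt2 hs hc (mem_powerset.1 hB₁) (mem_powerset.1 hB₂) (mem_powerset.1 hO₁) (mem_powerset.1 hO₂)).1
    · rw [mul_sum, mul_sum, sum_mul]
      refine sum_le_sum fun B₂ hB₂ => ?_
      rw [mul_sum, mul_sum, sum_mul]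
      exact sum_le_sum fun O₂ hO₂ =>
        (rpo102_pt2 hs hc (mem_powerset.1 hB₁) (mem_powerset.1 hB₂) (mem_powerset.1 hO₁) (mem_powerset.1 hO₂)).2
  rw [rpo102_sum_split hs hG, rpo102_NR_eq S t K R Q YR ER hG]
  constructor
  · rw [sum_mul, sum_mul]
    refine sum_le_sum fun B₁ hB₁ => ?_
    rw [sum_mul, sum_mul]
    refine sum_le_sum fun O₁ hO₁ => ?_
    calc _ = rpo102W (rpo102SR S R Q YR) t (rpo102KR K R YR ER) B₁ O₁ * rpo102AX2 S t K R YR ER ρ * G ⟨B₁, ∅, O₁⟩ := by ring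
      _ ≤ _ := mul_le_mul_of_nonneg_right (key B₁ hB₁ O₁ hO₁).1 (h0 _)
      _ = _ := by ring
  · rw [sum_mul, sum_mul, mul_sum]
    refine sum_le_sum fun B₁ hB₁ => ?_
    rw [sum_mul, sum_mul, mul_sum]
    refine sum_le_sum fun O₁ hO₁ => ?_
    calc _ = (∑ B₂ ∈ (S.V \ R).powerset, ∑ O₂ ∈ (S.E \ YR).powerset, rpo102W S t K (B₁ ∪ B₂) (O₁ ∪ O₂)) * 2 ^ Q.card * G ⟨B₁, ∅, O₁⟩ := by
          ring
      _ ≤ _ := mul_le_mul_of_nonneg_right (key B₁ hB₁ O₁ hO₁).2 (h0 _)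
      _ = _ := by ring

/-- **PORTS BY CLASSES, two histories / two ambients** with the same retained numerators -/
theorem rpo102_two2_gen {S₁ S₂ : Rcy162Sys} {K₁ K₂ : Rpo102Con} {P₁ P₂ P₁' P₂' : Finset (ℤ × ℤ)} {ρ₁ ρ₂ : ℤ × ℤ → ℤ × ℤ}
    (h₁ : Rpo102Split S₁ t K₁ R Q YR ER P₁) (h₂ : Rpo102Split S₂ t K₂ R Q YR ER P₂) (c₁ : Prc2Cls Q ER P₁ P₁' ρ₁)
    (c₂ : Prc2Cls Q ER P₂ P₂' ρ₂) (hN : ∀ G, Rpo102Loc R YR G → rpo102NR S₁ t K₁ R Q YR ER G = rpo102NR S₂ t K₂ R Q YR ER G)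
    {F : RswCfg → ℝ} (hF : Rpo102Loc R YR F) (h0 : ∀ ω, 0 ≤ F ω) :
    S₁.sum t (K₁.Holds S₁) F * S₂.sum t (K₂.Holds S₂) (fun _ => 1)
      ≤ 2 ^ ((P₁'.card - 1) + (P₂'.card - 1)) * (S₁.sum t (K₁.Holds S₁) (fun _ => 1) * S₂.sum t (K₂.Holds S₂) F) := by
  have o0 : ∀ ω : RswCfg, (0 : ℝ) ≤ (fun _ => 1) ω := fun _ => zero_le_one
  have a1 := rpo102_core2 h₁ c₁ hF h0
  have a2 := rpo102_core2 h₁ c₁ rpo102_loc_one o0
  have b1 := rpo102_core2 h₂ c₂ hF h0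
  have b2 := rpo102_core2 h₂ c₂ rpo102_loc_one o0
  rw [← hN F hF] at b1
  rw [← hN _ rpo102_loc_one] at b2
  rw [pow_add]
  exact prc_cross_alg (by positivity) (by positivity) (by positivity) (rpo102_NR_nonneg h₁ hF h0) (rpo102_NR_nonneg h₁ rpo102_loc_one o0)
    (rpo102_AX2_nonneg h₁ ρ₁) (rpo102_AX2_nonneg h₂ ρ₂) (rpo102_N_nonneg h₂ o0) a1.2 a2.1 b2.2 b1.1

/-- **PORTS BY CLASSES, two histories of ONE ambient** -/
theorem rpo102_two2 {K₁ K₂ : Rpo102Con} {P₁ P₂ P₁' P₂' : Finset (ℤ × ℤ)} {ρ₁ ρ₂ : ℤ × ℤ → ℤ × ℤ} (h₁ : Rpo102Split S t K₁ R Q YR ER P₁)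
    (h₂ : Rpo102Split S t K₂ R Q YR ER P₂) (c₁ : Prc2Cls Q ER P₁ P₁' ρ₁) (c₂ : Prc2Cls Q ER P₂ P₂' ρ₂)
    (hBp : K₁.Sp ∩ R = K₂.Sp ∩ R) (hBm : K₁.Sm ∩ R = K₂.Sm ∩ R) (hOp : K₁.Gp ∩ YR = K₂.Gp ∩ YR) (hOm : K₁.Gm ∩ YR = K₂.Gm ∩ YR)
    (hCl : K₁.Cl ∩ YR = K₂.Cl ∩ YR) {F : RswCfg → ℝ} (hF : Rpo102Loc R YR F) (h0 : ∀ ω, 0 ≤ F ω) :
    S.sum t (K₁.Holds S) F * S.sum t (K₂.Holds S) (fun _ => 1)
      ≤ 2 ^ ((P₁'.card - 1) + (P₂'.card - 1)) * (S.sum t (K₁.Holds S) (fun _ => 1) * S.sum t (K₂.Holds S) F) := by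
  refine rpo102_two2_gen h₁ h₂ c₁ c₂ (fun G _ => ?_) hF h0
  unfold rpo102NR rpo102KR
  rw [hBp, hBm, hOp, hOm, hCl]

/-- **PORTS BY CLASSES, two ambients** which agree on the retained edge pairs -/
theorem rpo102_two2_amb {S₁ S₂ : Rcy162Sys} {K₁ K₂ : Rpo102Con} {P₁ P₂ P₁' P₂' : Finset (ℤ × ℤ)} {ρ₁ ρ₂ : ℤ × ℤ → ℤ × ℤ}
    (h₁ : Rpo102Split S₁ t K₁ R Q YR ER P₁) (h₂ : Rpo102Split S₂ t K₂ R Q YR ER P₂) (c₁ : Prc2Cls Q ER P₁ P₁' ρ₁)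
    (c₂ : Prc2Cls Q ER P₂ P₂' ρ₂) (hsv : ∀ y ∈ YR, rpo102Sv S₁ y = rpo102Sv S₂ y) (hsd : ∀ y ∈ YR, rpo102Sd S₁ y = rpo102Sd S₂ y)
    (hK : rpo102KR K₁ R YR ER = rpo102KR K₂ R YR ER) {F : RswCfg → ℝ} (hF : Rpo102Loc R YR F) (h0 : ∀ ω, 0 ≤ F ω) :
    S₁.sum t (K₁.Holds S₁) F * S₂.sum t (K₂.Holds S₂) (fun _ => 1)
      ≤ 2 ^ ((P₁'.card - 1) + (P₂'.card - 1)) * (S₁.sum t (K₁.Holds S₁) (fun _ => 1) * S₂.sum t (K₂.Holds S₂) F) :=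
  rpo102_two2_gen h₁ h₂ c₁ c₂ (fun _ hG => rpo102_NR_congr hsv hsd hK hG) hF h0

/-- the form with bounds on the numbers of classes: classes of the ports of `Kᵢ` given by `κᵢ`, at most `kᵢ` values; TWO AMBIENTS -/
theorem rpo102_two2_amb_k {ι₁ ι₂ : Type} [DecidableEq ι₁] [DecidableEq ι₂] {S₁ S₂ : Rcy162Sys} {K₁ K₂ : Rpo102Con}
    {P₁ P₂ : Finset (ℤ × ℤ)} (h₁ : Rpo102Split S₁ t K₁ R Q YR ER P₁) (h₂ : Rpo102Split S₂ t K₂ R Q YR ER P₂) (hP₁ : P₁ ⊆ Q) (hP₂ : P₂ ⊆ Q)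
    (κ₁ : ℤ × ℤ → ι₁) (κ₂ : ℤ × ℤ → ι₂)
    (ch₁ : ∀ u ∈ P₁, ∀ v ∈ P₁, κ₁ u = κ₁ v → Relation.ReflTransGen (Prc2Step ER) u v)
    (ch₂ : ∀ u ∈ P₂, ∀ v ∈ P₂, κ₂ u = κ₂ v → Relation.ReflTransGen (Prc2Step ER) u v)
    (k₁ k₂ : ℕ) (hk₁ : (P₁.image κ₁).card ≤ k₁) (hk₂ : (P₂.image κ₂).card ≤ k₂)
    (hsv : ∀ y ∈ YR, rpo102Sv S₁ y = rpo102Sv S₂ y) (hsd : ∀ y ∈ YR, rpo102Sd S₁ y = rpo102Sd S₂ y)
    (hK : rpo102KR K₁ R YR ER = rpo102KR K₂ R YR ER) {F : RswCfg → ℝ} (hF : Rpo102Loc R YR F) (h0 : ∀ ω, 0 ≤ F ω) :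
    S₁.sum t (K₁.Holds S₁) F * S₂.sum t (K₂.Holds S₂) (fun _ => 1)
      ≤ 2 ^ ((k₁ - 1) + (k₂ - 1)) * (S₁.sum t (K₁.Holds S₁) (fun _ => 1) * S₂.sum t (K₂.Holds S₂) F) := by
  obtain ⟨ρ₁, P₁', c₁, d₁⟩ := prc2_cls_of_map κ₁ hP₁ ch₁
  obtain ⟨ρ₂, P₂', c₂, d₂⟩ := prc2_cls_of_map κ₂ hP₂ ch₂
  have o0 : ∀ ω : RswCfg, (0 : ℝ) ≤ (fun _ => 1) ω := fun _ => zero_le_one
  refine (rpo102_two2_amb h₁ h₂ c₁ c₂ hsv hsd hK hF h0).trans ?_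
  refine mul_le_mul_of_nonneg_right (pow_le_pow_right₀ (by norm_num) (by omega)) ?_
  exact mul_nonneg (rpo102_N_nonneg h₁ o0) (rpo102_N_nonneg h₂ h0)

/-- the form with bounds on the numbers of classes, ONE ambient -/
theorem rpo102_two2_k {ι₁ ι₂ : Type} [DecidableEq ι₁] [DecidableEq ι₂] {K₁ K₂ : Rpo102Con} {P₁ P₂ : Finset (ℤ × ℤ)}
    (h₁ : Rpo102Split S t K₁ R Q YR ER P₁) (h₂ : Rpo102Split S t K₂ R Q YR ER P₂) (hP₁ : P₁ ⊆ Q) (hP₂ : P₂ ⊆ Q)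
    (κ₁ : ℤ × ℤ → ι₁) (κ₂ : ℤ × ℤ → ι₂)
    (ch₁ : ∀ u ∈ P₁, ∀ v ∈ P₁, κ₁ u = κ₁ v → Relation.ReflTransGen (Prc2Step ER) u v)
    (ch₂ : ∀ u ∈ P₂, ∀ v ∈ P₂, κ₂ u = κ₂ v → Relation.ReflTransGen (Prc2Step ER) u v)
    (k₁ k₂ : ℕ) (hk₁ : (P₁.image κ₁).card ≤ k₁) (hk₂ : (P₂.image κ₂).card ≤ k₂)
    (hBp : K₁.Sp ∩ R = K₂.Sp ∩ R) (hBm : K₁.Sm ∩ R = K₂.Sm ∩ R) (hOp : K₁.Gp ∩ YR = K₂.Gp ∩ YR) (hOm : K₁.Gm ∩ YR = K₂.Gm ∩ YR)
    (hCl : K₁.Cl ∩ YR = K₂.Cl ∩ YR) {F : RswCfg → ℝ} (hF : Rpo102Loc R YR F) (h0 : ∀ ω, 0 ≤ F ω) :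
    S.sum t (K₁.Holds S) F * S.sum t (K₂.Holds S) (fun _ => 1)
      ≤ 2 ^ ((k₁ - 1) + (k₂ - 1)) * (S.sum t (K₁.Holds S) (fun _ => 1) * S.sum t (K₂.Holds S) F) :=
  rpo102_two2_amb_k h₁ h₂ hP₁ hP₂ κ₁ κ₂ ch₁ ch₂ k₁ k₂ hk₁ hk₂ (fun _ _ => rfl) (fun _ _ => rfl)
    (by unfold rpo102KR; rw [hBp, hBm, hOp, hOm, hCl]) hF h0

/-- **PORTS BY CLASSES, ambient against the retained closed system**, cross-multiplied, upper bound -/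
theorem rpo102_le2 (hs : Rpo102Split S t K R Q YR ER P) (hc : Prc2Cls Q ER P P' ρ) {G : RswCfg → ℝ} (hG : Rpo102Loc R YR G)
    (h0 : ∀ ω, 0 ≤ G ω) :
    S.sum t (K.Holds S) G * rpo102NR S t K R Q YR ER (fun _ => 1)
      ≤ 2 ^ (P'.card - 1) * (rpo102NR S t K R Q YR ER G * S.sum t (K.Holds S) (fun _ => 1)) := by
  have o0 : ∀ ω : RswCfg, (0 : ℝ) ≤ (fun _ => 1) ω := fun _ => zero_le_one
  exact prc2_alg_le (c := 2 ^ Q.card) (by positivity) (rpo102_AX2_nonneg hs ρ) (by positivity) (rpo102_N_nonneg hs h0) (rpo102_N_nonneg hs o0)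
    (rpo102_NR_nonneg hs hG h0) (rpo102_NR_nonneg hs rpo102_loc_one o0) (rpo102_core2 hs hc hG h0).2 (rpo102_core2 hs hc rpo102_loc_one o0).1

/-- **PORTS BY CLASSES, ambient against the retained closed system**, cross-multiplied, lower bound -/
theorem rpo102_ge2 (hs : Rpo102Split S t K R Q YR ER P) (hc : Prc2Cls Q ER P P' ρ) {G : RswCfg → ℝ} (hG : Rpo102Loc R YR G)
    (h0 : ∀ ω, 0 ≤ G ω) :
    rpo102NR S t K R Q YR ER G * S.sum t (K.Holds S) (fun _ => 1)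
      ≤ 2 ^ (P'.card - 1) * (S.sum t (K.Holds S) G * rpo102NR S t K R Q YR ER (fun _ => 1)) := by
  have o0 : ∀ ω : RswCfg, (0 : ℝ) ≤ (fun _ => 1) ω := fun _ => zero_le_one
  exact prc2_alg_ge (c := 2 ^ Q.card) (by positivity) (rpo102_AX2_nonneg hs ρ) (by positivity) (rpo102_N_nonneg hs h0) (rpo102_N_nonneg hs o0)
    (rpo102_NR_nonneg hs hG h0) (rpo102_NR_nonneg hs rpo102_loc_one o0) (rpo102_core2 hs hc hG h0).1 (rpo102_core2 hs hc rpo102_loc_one o0).2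

end Ports

/-! ## 4. The plane: the flat problem `(F, b)` under a history of `CoreTop121` -/

open Classical in
/-- the polygon of `F` -/
noncomputable def rpo102Pol (F : Finset (ℤ × ℤ)) : Finset (ℤ × ℤ) := (cornersOf F).filter (OnPolygon F)

/-- the history `K` of the flat problem `(F, b)`, ties `E`: the polygon is pinned -/
noncomputable def rpo102Pl (F : Finset (ℤ × ℤ)) (b : Bool) (K : RswCon) (E : Finset ((ℤ × ℤ) × (ℤ × ℤ))) : Rpo102Con :=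
  ⟨K.Sp ∪ (if b = true then rpo102Pol F else ∅), K.Sm ∪ (if b = true then ∅ else rpo102Pol F), E, K.Gp, K.Gm, K.Cl⟩

theorem rpo102_pl_eqns_cite : True := by
  have := @rpo102Pol.eq_1
  have := @rpo102Pl.eq_1
  trivial

theorem rpo102_mem_pol {F : Finset (ℤ × ℤ)} {v : ℤ × ℤ} : v ∈ rpo102Pol F ↔ v ∈ cornersOf F ∧ OnPolygon F v := by
  classical
  unfold rpo102Pol; exact mem_filter

/-- the pinned history says: boundary condition + history + ties -/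
theorem rpo102_pl_holds' (F : Finset (ℤ × ℤ)) (b : Bool) (K : RswCon) (E : Finset ((ℤ × ℤ) × (ℤ × ℤ))) (ω : RswCfg) :
    (rpo102Pl F b K E).Holds (rcy162Pl F) ω ↔ (RswBc F b ω ∧ K.Holds ω) ∧ ∀ e ∈ E, (e.1 ∈ ω.D ↔ e.2 ∈ ω.D) := by
  unfold Rpo102Con.Holds rpo102Pl RswCon.Holds RswBc
  simp only [rcy162_pl_good]
  cases b
  · simp only [Bool.false_eq_true, if_false, union_empty, mem_union, iff_false]
    constructor
    · rintro ⟨a1, a2, a3, a4, a5, a6⟩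
      exact ⟨⟨fun v hv hp => a2 v (Or.inr (rpo102_mem_pol.2 ⟨hv, hp⟩)), a1, fun v hv => a2 v (Or.inl hv), a4, a5, a6⟩, a3⟩
    · rintro ⟨⟨b0, a1, a2, a4, a5, a6⟩, a3⟩
      refine ⟨a1, fun v hv => ?_, a3, a4, a5, a6⟩
      rcases hv with h | h
      · exact a2 v h
      · exact b0 v (rpo102_mem_pol.1 h).1 (rpo102_mem_pol.1 h).2
  · simp only [if_true, union_empty, iff_true]
    constructor
    · rintro ⟨a1, a2, a3, a4, a5, a6⟩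
      exact ⟨⟨fun v hv hp => a1 (mem_union_right _ (rpo102_mem_pol.2 ⟨hv, hp⟩)), fun v hv => a1 (mem_union_left _ hv), a2, a4, a5, a6⟩, a3⟩
    · rintro ⟨⟨b0, a1, a2, a4, a5, a6⟩, a3⟩
      refine ⟨fun v hv => ?_, a2, a3, a4, a5, a6⟩
      rcases mem_union.1 hv with h | h
      · exact a1 h
      · exact b0 v (rpo102_mem_pol.1 h).1 (rpo102_mem_pol.1 h).2

theorem rpo102_pl_holds (F : Finset (ℤ × ℤ)) (b : Bool) (K : RswCon) (ω : RswCfg) :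
    (rpo102Pl F b K ∅).Holds (rcy162Pl F) ω ↔ RswBc F b ω ∧ K.Holds ω := by
  rw [rpo102_pl_holds']
  simp

/-- sums of the flat problem restricted to a history -/
theorem rpo102_pl_sum (t : ℝ) (F : Finset (ℤ × ℤ)) (b : Bool) (K : RswCon) (X : RswCfg → ℝ) :
    (rcy162Pl F).sum t ((rpo102Pl F b K ∅).Holds (rcy162Pl F)) X
      = rswSum t F b (fun ω => open Classical in if K.Holds ω then X ω else 0) := by
  rw [← rcy162_pl_sum, ← rcy162_sum_and]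
  exact rcy162_sum_congr_K _ t (fun ω _ => rpo102_pl_holds F b K ω) X

/-- `rswPK` is a probability of the pinned system -/
theorem rpo102_pl_PK (t : ℝ) (F : Finset (ℤ × ℤ)) (b : Bool) (K : RswCon) (L : RswCfg → Prop) :
    rswPK t F b K L = (rcy162Pl F).Pr t ((rpo102Pl F b K ∅).Holds (rcy162Pl F)) L := by
  classical
  unfold rswPK Rcy162Sys.Pr Rcy162Sys.Ex
  rw [rpo102_pl_sum, rpo102_pl_sum]
  congr 2
  funext ω
  by_cases h1 : K.Holds ω <;> by_cases h2 : L ω <;> simp [h1, h2]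

/-- **PORTS in the plane**: two flat problems `(F₁, b₁, K₁)`, `(F₂, b₂, K₂)` which share the retained data -/
theorem rpo102_pl_two {t : ℝ} {R Q : Finset (ℤ × ℤ)} {YR : Finset ((ℤ × ℤ) × Bool)} {F₁ F₂ : Finset (ℤ × ℤ)} {b₁ b₂ : Bool}
    {K₁ K₂ : RswCon} {P₁ P₂ : Finset (ℤ × ℤ)} (h₁ : Rpo102Split (rcy162Pl F₁) t (rpo102Pl F₁ b₁ K₁ ∅) R Q YR ∅ P₁)
    (h₂ : Rpo102Split (rcy162Pl F₂) t (rpo102Pl F₂ b₂ K₂ ∅) R Q YR ∅ P₂)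
    (hK : rpo102KR (rpo102Pl F₁ b₁ K₁ ∅) R YR ∅ = rpo102KR (rpo102Pl F₂ b₂ K₂ ∅) R YR ∅) (hZ₂ : K₂.Feas t F₂ b₂)
    {L : RswCfg → Prop} (hL : ∀ ω ω' : RswCfg, ω.S ∩ R = ω'.S ∩ R → ω.O ∩ YR = ω'.O ∩ YR → (L ω ↔ L ω')) :
    rswPK t F₁ b₁ K₁ L ≤ 2 ^ ((P₁.card - 1) + (P₂.card - 1)) * rswPK t F₂ b₂ K₂ L := by
  classical
  rw [rpo102_pl_PK, rpo102_pl_PK]
  unfold Rcy162Sys.Pr
  refine rpo102_two_E h₁ h₂ (fun _ hG => rpo102_NR_congr (fun _ _ => rfl) (fun _ _ => rfl) hK hG) ?_ (rpo102_loc_ind hL) ?_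
  · rw [rpo102_pl_sum]
    exact hZ₂
  · intro ω
    split_ifs <;> norm_num

/-! ## 5. Histories `RswCon` on a system (no ties): the form consumed by `Rsw/LenInst182` (contract `Rse182Ports`) -/

theorem rpo102_of_holds (Y : Rcy162Sys) (K : RswCon) (ω : RswCfg) : (rpo102Of K ∅).Holds Y ω ↔ Y.Holds K ω := by
  unfold Rpo102Con.Holds rpo102Of Rcy162Sys.Holds
  simp

/-- the split in the words of 182 (`Rse182Split`, fields unfolded) gives a split of this file; retained sites `RV ∩ Y.V`, retained faces `RF ∩ Y.Fc` -/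
theorem rpo102_split_raw {Y : Rcy162Sys} (hw : Y.WF) {t : ℝ} (h0 : 0 ≤ t) (h1 : t ≤ 1) {K : RswCon} {RV RF : Finset (ℤ × ℤ)}
    {ME : Finset ((ℤ × ℤ) × Bool)} {P : Finset (ℤ × ℤ)}
    (cellR : ∀ e ∈ ME, e ∈ Y.E ∧ (∀ v, (v = Y.p0 e ∨ v = Y.p1 e) → v ∈ RV) ∧ ∀ f, (f = Y.f0 e ∨ f = Y.f1 e) → f ∈ RF)
    (pinX : ∀ w ∈ Y.E, w ∉ ME → ∀ v, (v = Y.p0 w ∨ v = Y.p1 w) → v ∈ RV → v ∈ K.Sp ∪ K.Sm)
    (portC : ∀ w ∈ Y.E, w ∉ ME → (w ∈ K.Gp ∪ K.Gm) ∨ ∀ f, (f = Y.f0 w ∨ f = Y.f1 w) → f ∈ RF → f ∈ P) :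
    Rpo102Split Y t (rpo102Of K ∅) (RV ∩ Y.V) (RF ∩ Y.Fc) ME ∅ P where
  RA := inter_subset_right
  QA := inter_subset_right
  YC := fun e he => (cellR e he).1
  sub := by
    intro y hy f hf
    simp only [rpo102Sd, mem_insert, mem_singleton] at hf
    rcases hf with rfl | rfl
    · exact hw.f0 y hy
    · exact hw.f1 y hy
  q0 := h0
  q1 := h1
  cellR := by
    intro y hy v hv
    simp only [rpo102Sv, mem_insert, mem_singleton] at hv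
    refine mem_inter.2 ⟨(cellR y hy).2.1 v hv, ?_⟩
    rcases hv with rfl | rfl
    · exact hw.p0 y (cellR y hy).1
    · exact hw.p1 y (cellR y hy).1
  cellQ := by
    intro y hy f hf
    simp only [rpo102Sd, mem_insert, mem_singleton] at hf
    refine mem_inter.2 ⟨(cellR y hy).2.2 f hf, ?_⟩
    rcases hf with rfl | rfl
    · exact hw.f0 y (cellR y hy).1
    · exact hw.f1 y (cellR y hy).1
  pinX := by
    intro y hy hyR v hv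
    obtain ⟨hv1, hv2⟩ := mem_inter.1 hv
    simp only [rpo102Sv, mem_insert, mem_singleton] at hv1
    exact pinX y hy hyR v hv1 (mem_inter.1 hv2).1
  portC := by
    intro y hy hyR
    rcases portC y hy hyR with h | h
    · exact Or.inl h
    · refine Or.inr fun f hf => ?_
      obtain ⟨hf1, hf2⟩ := mem_inter.1 hf
      simp only [rpo102Sd, mem_insert, mem_singleton] at hf1
      exact h f hf1 (mem_inter.1 hf2).1
  eqR := Subset.refl _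
  eqR_in := fun e he => absurd he (notMem_empty e)
  portE := fun e he => absurd he (notMem_empty e)
  eqA := fun e he => absurd he (notMem_empty e)

/-- **PORTS for two histories `RswCon` of one system** : the statement of the contract `Rse182Ports` of `Rsw/LenInst182`, its definitions unfolded, sums of `Sys162` -/
theorem rpo102_ports_raw {Y : Rcy162Sys} (hw : Y.WF) {t : ℝ} (h0 : 0 ≤ t) (h1 : t ≤ 1) (K₁ K₂ : RswCon) (RV RF : Finset (ℤ × ℤ))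
    (ME : Finset ((ℤ × ℤ) × Bool)) (P₁ P₂ : Finset (ℤ × ℤ))
    (cellR : ∀ e ∈ ME, e ∈ Y.E ∧ (∀ v, (v = Y.p0 e ∨ v = Y.p1 e) → v ∈ RV) ∧ ∀ f, (f = Y.f0 e ∨ f = Y.f1 e) → f ∈ RF)
    (pinX₁ : ∀ w ∈ Y.E, w ∉ ME → ∀ v, (v = Y.p0 w ∨ v = Y.p1 w) → v ∈ RV → v ∈ K₁.Sp ∪ K₁.Sm)
    (portC₁ : ∀ w ∈ Y.E, w ∉ ME → (w ∈ K₁.Gp ∪ K₁.Gm) ∨ ∀ f, (f = Y.f0 w ∨ f = Y.f1 w) → f ∈ RF → f ∈ P₁)
    (pinX₂ : ∀ w ∈ Y.E, w ∉ ME → ∀ v, (v = Y.p0 w ∨ v = Y.p1 w) → v ∈ RV → v ∈ K₂.Sp ∪ K₂.Sm)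
    (portC₂ : ∀ w ∈ Y.E, w ∉ ME → (w ∈ K₂.Gp ∪ K₂.Gm) ∨ ∀ f, (f = Y.f0 w ∨ f = Y.f1 w) → f ∈ RF → f ∈ P₂)
    (hSp : ∀ v ∈ RV, (v ∈ K₁.Sp ↔ v ∈ K₂.Sp)) (hSm : ∀ v ∈ RV, (v ∈ K₁.Sm ↔ v ∈ K₂.Sm))
    (hE : ∀ e ∈ ME, (e ∈ K₁.Gp ↔ e ∈ K₂.Gp) ∧ (e ∈ K₁.Gm ↔ e ∈ K₂.Gm) ∧ (e ∈ K₁.Cl ↔ e ∈ K₂.Cl))
    (F : RswCfg → ℝ) (hF0 : ∀ ω, 0 ≤ F ω)
    (hF : ∀ ω ω' : RswCfg, (∀ v ∈ RV, (v ∈ ω.S ↔ v ∈ ω'.S)) → (∀ e ∈ ME, (e ∈ ω.O ↔ e ∈ ω'.O)) → F ω = F ω') :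
    Y.sum t (Y.Holds K₁) F * Y.sum t (Y.Holds K₂) (fun _ => 1)
      ≤ 2 ^ ((P₁.card - 1) + (P₂.card - 1)) * (Y.sum t (Y.Holds K₁) (fun _ => 1) * Y.sum t (Y.Holds K₂) F) := by
  have s₁ := rpo102_split_raw hw h0 h1 cellR pinX₁ portC₁
  have s₂ := rpo102_split_raw hw h0 h1 cellR pinX₂ portC₂
  -- the observable, made local for ALL configurations
  obtain ⟨F', hF'⟩ : ∃ F' : RswCfg → ℝ, F' = fun ω => F ⟨ω.S ∩ (RV ∩ Y.V), ∅, ω.O ∩ ME⟩ := ⟨_, rfl⟩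
  have hloc : Rpo102Loc (RV ∩ Y.V) ME F' := by
    intro ω ω' e1 e2
    rw [hF']
    simp only [e1, e2]
  have hF'0 : ∀ ω, 0 ≤ F' ω := fun ω => by rw [hF']; exact hF0 _
  have hsame : ∀ ω : RswCfg, Y.Cfg ω → F ω = F' ω := by
    intro ω hω
    rw [hF']
    refine hF _ _ (fun v hv => ?_) (fun e he => ?_)
    · simp only [mem_inter]
      exact ⟨fun h => ⟨h, hv, hω.1 h⟩, fun h => h.1⟩
    · simp only [mem_inter]
      exact ⟨fun h => ⟨h, he⟩, fun h => h.1⟩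
  have hK : ∀ (K : RswCon) (X : RswCfg → ℝ), Y.sum t (Y.Holds K) X = Y.sum t ((rpo102Of K ∅).Holds Y) X := fun K X =>
    rcy162_sum_congr_K Y t (fun ω _ => (rpo102_of_holds Y K ω).symm) X
  have hFF : ∀ K : RswCon, Y.sum t (Y.Holds K) F = Y.sum t ((rpo102Of K ∅).Holds Y) F' := fun K => by
    rw [hK]
    exact rcy162_sum_congr Y t _ fun ω hω _ => hsame ω hω
  rw [hFF, hFF, hK, hK]
  refine rpo102_two s₁ s₂ ?_ ?_ ?_ ?_ ?_ hloc hF'0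
  · ext v
    simp only [rpo102Of, mem_inter]
    exact ⟨fun h => ⟨(hSp v h.2.1).1 h.1, h.2⟩, fun h => ⟨(hSp v h.2.1).2 h.1, h.2⟩⟩
  · ext v
    simp only [rpo102Of, mem_inter]
    exact ⟨fun h => ⟨(hSm v h.2.1).1 h.1, h.2⟩, fun h => ⟨(hSm v h.2.1).2 h.1, h.2⟩⟩
  · ext e
    simp only [rpo102Of, mem_inter]
    exact ⟨fun h => ⟨(hE e h.2).1.1 h.1, h.2⟩, fun h => ⟨(hE e h.2).1.2 h.1, h.2⟩⟩
  · ext e
    simp only [rpo102Of, mem_inter]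
    exact ⟨fun h => ⟨(hE e h.2).2.1.1 h.1, h.2⟩, fun h => ⟨(hE e h.2).2.1.2 h.1, h.2⟩⟩
  · ext e
    simp only [rpo102Of, mem_inter]
    exact ⟨fun h => ⟨(hE e h.2).2.2.1 h.1, h.2⟩, fun h => ⟨(hE e h.2).2.2.2 h.1, h.2⟩⟩

/-! ## 6. THE PATCH: a bound in the retained CLOSED system passes to the ambient -/

section Patch

variable {S : Rcy162Sys} {t : ℝ} {K : Rpo102Con} {R Q : Finset (ℤ × ℤ)} {YR : Finset ((ℤ × ℤ) × Bool)}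
  {ER : Finset ((ℤ × ℤ) × (ℤ × ℤ))} {P : Finset (ℤ × ℤ)}

/-- **PATCH, lower bound** : `c Z_R ≤ N_R(G)` in the retained closed system ⟹ `c Z ≤ 2 ^ (|P| - 1) N(G)` in the ambient -/
theorem rpo102_lower_closed (hs : Rpo102Split S t K R Q YR ER P) {G : RswCfg → ℝ} (hG : Rpo102Loc R YR G) (h0 : ∀ ω, 0 ≤ G ω) {c : ℝ}
    (hc : c * rpo102NR S t K R Q YR ER (fun _ => 1) ≤ rpo102NR S t K R Q YR ER G) :
    c * S.sum t (K.Holds S) (fun _ => 1) ≤ 2 ^ (P.card - 1) * S.sum t (K.Holds S) G := by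
  have o0 : ∀ ω : RswCfg, (0 : ℝ) ≤ (fun _ => 1) ω := fun _ => zero_le_one
  have hZ0 : 0 ≤ S.sum t (K.Holds S) (fun _ => 1) := rpo102_N_nonneg hs o0
  have hn0 : 0 ≤ S.sum t (K.Holds S) G := rpo102_N_nonneg hs h0
  rcases hZ0.eq_or_lt with h | h
  · rw [← h, mul_zero]
    exact mul_nonneg (by positivity) hn0
  · have hzR := rpo102_feas hs h
    have h1 := rpo102_ge hs hG h0
    refine le_of_mul_le_mul_right ?_ hzR
    calc c * S.sum t (K.Holds S) (fun _ => 1) * rpo102NR S t K R Q YR ER (fun _ => 1)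
        = (c * rpo102NR S t K R Q YR ER (fun _ => 1)) * S.sum t (K.Holds S) (fun _ => 1) := by ring
      _ ≤ rpo102NR S t K R Q YR ER G * S.sum t (K.Holds S) (fun _ => 1) := mul_le_mul_of_nonneg_right hc hZ0
      _ ≤ _ := h1
      _ = _ := by ring

/-- **PATCH, upper bound** : `N_R(G) ≤ c Z_R` in the retained closed system ⟹ `N(G) ≤ 2 ^ (|P| - 1) c Z` in the ambient (feasible ambient) -/
theorem rpo102_upper_closed (hs : Rpo102Split S t K R Q YR ER P) (hZ : 0 < S.sum t (K.Holds S) (fun _ => 1)) {G : RswCfg → ℝ}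
    (hG : Rpo102Loc R YR G) (h0 : ∀ ω, 0 ≤ G ω) {c : ℝ}
    (hc : rpo102NR S t K R Q YR ER G ≤ c * rpo102NR S t K R Q YR ER (fun _ => 1)) :
    S.sum t (K.Holds S) G ≤ 2 ^ (P.card - 1) * (c * S.sum t (K.Holds S) (fun _ => 1)) := by
  have hzR := rpo102_feas hs hZ
  have h1 := rpo102_le hs hG h0
  have hp : (0 : ℝ) ≤ 2 ^ (P.card - 1) := by positivity
  refine le_of_mul_le_mul_right ?_ hzR
  calc S.sum t (K.Holds S) G * rpo102NR S t K R Q YR ER (fun _ => 1)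
      ≤ 2 ^ (P.card - 1) * (rpo102NR S t K R Q YR ER G * S.sum t (K.Holds S) (fun _ => 1)) := h1
    _ ≤ 2 ^ (P.card - 1) * ((c * rpo102NR S t K R Q YR ER (fun _ => 1)) * S.sum t (K.Holds S) (fun _ => 1)) :=
        mul_le_mul_of_nonneg_left (mul_le_mul_of_nonneg_right hc hZ.le) hp
    _ = _ := by ring

end Patch

/-- the restriction of a history to the planar problem of the faces `F` -/
def rpo102Res (K : RswCon) (F : Finset (ℤ × ℤ)) : RswCon :=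
  ⟨K.Sp ∩ cornersOf F, K.Sm ∩ cornersOf F, K.Gp ∩ rswInt F, K.Gm ∩ rswInt F, K.Cl ∩ rswInt F⟩

theorem rpo102_res_eqns_cite : True := by
  have := @rpo102Res.eq_1
  trivial

/-- the retained closed system of a set of faces `F` on which the ambient has the incidences of the plane IS the planar system `rcy162Pl F` -/
theorem rpo102_NR_pl {Y : Rcy162Sys} (t : ℝ) (K : RswCon) (F : Finset (ℤ × ℤ))
    (hsv : ∀ y ∈ rswInt F, rpo102Sv Y y = rpo102Sv (rcy162Pl F) y) (hsd : ∀ y ∈ rswInt F, rpo102Sd Y y = rpo102Sd (rcy162Pl F) y)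
    {G : RswCfg → ℝ} (hG : Rpo102Loc (cornersOf F) (rswInt F) G) :
    rpo102NR Y t (rpo102Of K ∅) (cornersOf F) F (rswInt F) ∅ G = (rcy162Pl F).sum t ((rcy162Pl F).Holds (rpo102Res K F)) G := by
  rw [rpo102_NR_congr (S₂ := rcy162Pl F) (K₂ := rpo102Of K ∅) hsv hsd rfl hG]
  show (rcy162Pl F).sum t ((rpo102Of (rpo102Res K F) ∅).Holds (rcy162Pl F)) G = _
  exact rcy162_sum_congr_K _ t (fun ω _ => rpo102_of_holds _ _ ω) G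

/-- **PATCH TO THE PLANE, lower bound** (the form for (LSS)): a bound for the CLOSED planar problem of the faces `F` under the restricted history passes to any ambient system -/
theorem rpo102_lower_pl {Y : Rcy162Sys} {t : ℝ} {K : RswCon} {F P : Finset (ℤ × ℤ)}
    (hs : Rpo102Split Y t (rpo102Of K ∅) (cornersOf F) F (rswInt F) ∅ P)
    (hsv : ∀ y ∈ rswInt F, rpo102Sv Y y = rpo102Sv (rcy162Pl F) y) (hsd : ∀ y ∈ rswInt F, rpo102Sd Y y = rpo102Sd (rcy162Pl F) y)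
    {G : RswCfg → ℝ} (hG : Rpo102Loc (cornersOf F) (rswInt F) G) (h0 : ∀ ω, 0 ≤ G ω) {c : ℝ}
    (hc : c * (rcy162Pl F).sum t ((rcy162Pl F).Holds (rpo102Res K F)) (fun _ => 1)
      ≤ (rcy162Pl F).sum t ((rcy162Pl F).Holds (rpo102Res K F)) G) :
    c * Y.sum t (Y.Holds K) (fun _ => 1) ≤ 2 ^ (P.card - 1) * Y.sum t (Y.Holds K) G := by
  have hK : ∀ X : RswCfg → ℝ, Y.sum t (Y.Holds K) X = Y.sum t ((rpo102Of K ∅).Holds Y) X := fun X =>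
    rcy162_sum_congr_K Y t (fun ω _ => (rpo102_of_holds Y K ω).symm) X
  rw [hK, hK]
  refine rpo102_lower_closed hs hG h0 ?_
  rw [rpo102_NR_pl t K F hsv hsd hG, rpo102_NR_pl t K F hsv hsd rpo102_loc_one]
  exact hc

/-- **PATCH TO THE PLANE, upper bound** -/
theorem rpo102_upper_pl {Y : Rcy162Sys} {t : ℝ} {K : RswCon} {F P : Finset (ℤ × ℤ)}
    (hs : Rpo102Split Y t (rpo102Of K ∅) (cornersOf F) F (rswInt F) ∅ P) (hZ : 0 < Y.sum t (Y.Holds K) (fun _ => 1))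
    (hsv : ∀ y ∈ rswInt F, rpo102Sv Y y = rpo102Sv (rcy162Pl F) y) (hsd : ∀ y ∈ rswInt F, rpo102Sd Y y = rpo102Sd (rcy162Pl F) y)
    {G : RswCfg → ℝ} (hG : Rpo102Loc (cornersOf F) (rswInt F) G) (h0 : ∀ ω, 0 ≤ G ω) {c : ℝ}
    (hc : (rcy162Pl F).sum t ((rcy162Pl F).Holds (rpo102Res K F)) G
      ≤ c * (rcy162Pl F).sum t ((rcy162Pl F).Holds (rpo102Res K F)) (fun _ => 1)) :
    Y.sum t (Y.Holds K) G ≤ 2 ^ (P.card - 1) * (c * Y.sum t (Y.Holds K) (fun _ => 1)) := by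
  have hK : ∀ X : RswCfg → ℝ, Y.sum t (Y.Holds K) X = Y.sum t ((rpo102Of K ∅).Holds Y) X := fun X =>
    rcy162_sum_congr_K Y t (fun ω _ => (rpo102_of_holds Y K ω).symm) X
  rw [hK] at hZ
  rw [hK, hK]
  refine rpo102_upper_closed hs hZ hG h0 ?_
  rw [rpo102_NR_pl t K F hsv hsd hG, rpo102_NR_pl t K F hsv hsd rpo102_loc_one]
  exact hc

end Claimed.Agent.R292
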