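import Claimed.Agent.R292.Rsw.Len182
import Claimed.Agent.R292.Rsw.Sys162
import Claimed.Agent.R292.Rsw.CoreTop121
import Claimed.Agent.R292.Rsw.Ports102

/-!
# Row 292 (S0540), Rsw/LenInst182 : R8 CORE, BLOCK A2-(SE), THE ASHKIN--TELLER LEVEL: THE FOUR HISTORIES ON AN EDGE-PAIR SYSTEM      (owner helper182; prefix `rse182_`, defs `rse182*`, `Rse182*`)

Second file of the pen (import layer: `Sys162` + `CoreTop121`; `Len182` stays model free).   Port of R291 `Ann/LenSE` §0-§4 to the edge-pair systems `Rcy162Sys` of 162, histories `RswCon` of 121,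
cells = the refined lattice of 111 (`rtd111P v`: plus iff `s(v) = +`;  `rtd111F f`: never plus;  `rtd111E e`: plus iff `e` is good plus) = the status field `rcy162Fld` of 162.

WHAT IS NEW WITH RESPECT TO R291 (there both spins sit on the same sites, cells which share a site are adjacent):
* a cell CARRIES vertices (`Rse182Car`: a vertex point carries its vertex, an edge point its two endpoints, a face point nothing);
* two edges at one vertex are NOT adjacent in the refined lattice: FACT1 is used through links of length two (`Rse182LinkV`: through the vertex point or a face point; `Rse182LinkF`: through a face point);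
* **THE PORTS ARE FACES** (`d`-sites): the retained part = (vertices `RV` carried by `M`, faces `RF` of the retained edges, retained edges `ME`); the first spins shared with the rest are pinned (`pinX`);
  an edge off `ME` is prescribed good (open: no `d`-constraint) or its faces in `RF` are ports (`portC`).      Sum over `d` = `2 ^ #components`: the factor is `2 ^ ((|P₁| - 1) + (|P₂| - 1))` as in R291.

CONTRACTS (Props, consumed here):  `Rse182Ord` (ORDER of legal histories; Cmp291 / Model22),  `Rse182Ports` (PORTS; A1.1, pen 102),  `Rse182Geo` (local geometry of the chart near the box),  ports `≤ 4`,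
`Rse182LSS` for `h3 = rse182H3` (A1.2, pen 131).      **`rse182_at_main`** : these ⟹ `Rln182SE 𝓛 (Holds K) G (c / 64) a b`.      0 sorry.

STATE OF THE CONTRACTS ON THE MIXED CYLINDER `rse182Cyl t` (par. 5-9):   PROVED HERE: `rse182_cgeo : Rse182CGeo t` (par. 7, lifts + planar arithmetic), `rse182_cports : Rse182CPorts t` (par. 7, from `rpo102_ports_raw` of 102),
`rse182_p4_of` (par. 8: classification and count of the ports; with the dictionary of 31, `Rsw/LenP4x31`, it gives `Rse182CP4 t`), `rse182_p3_raw`, `rse182_det_raw` (par. 9: the four corner ports and (J) of the straight reference, raw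
forms for the adapter `Rsw/LssAd282` of 282).      PROVED ABOVE THIS FILE: `lo292_COrd : Rse182COrd t`, `lo292_CFkg2 : Rln182CFkg2 (rse182Cyl t) rse182K` (292, `Rsw/LenOrd292`).
NOT PROVED ANYWHERE: `Rse182CLSS t` (straight short crossing under `h3`; after par. 9 + `LssAd282` it is the planar statement in the closed rectangle, rows plus, short sides minus): the exits `rse182_cyl_len4`, `rse182_cyl_glue4` keep it as a hypothesis.
-/

set_option autoImplicit false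
set_option linter.unusedSectionVars false
set_option linter.unusedVariables false

namespace Claimed.Agent.R292

open Claims Claims.C0468 Relation Claimed.Agent.R291

/-! ## 0. vocabulary -/

/-- `v` is an endpoint of `e` -/
def Rse182End (Y : Rcy162Sys) (e : (ℤ × ℤ) × Bool) (v : ℤ × ℤ) : Prop := v = Y.p0 e ∨ v = Y.p1 e

/-- `f` is a face of `e` -/
def Rse182Fac (Y : Rcy162Sys) (e : (ℤ × ℤ) × Bool) (f : ℤ × ℤ) : Prop := f = Y.f0 e ∨ f = Y.f1 e

/-- the refined cell `y` carries the vertex `v` -/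
def Rse182Car (Y : Rcy162Sys) (y : TV) (v : ℤ × ℤ) : Prop := y = rtd111P v ∨ ∃ e ∈ Y.E, y = rtd111E e ∧ Rse182End Y e v

open Classical in
/-- the vertices carried by a set of cells -/
noncomputable def rse182Sv (Y : Rcy162Sys) (T : Finset TV) : Finset (ℤ × ℤ) := Y.V.filter (fun v => ∃ y ∈ T, Rse182Car Y y v)

open Classical in
/-- the edges of a set of cells -/
noncomputable def rse182Ed (Y : Rcy162Sys) (T : Finset TV) : Finset ((ℤ × ℤ) × Bool) := Y.E.filter (fun e => rtd111E e ∈ T)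

open Classical in
/-- the endpoints of a set of edges -/
noncomputable def rse182Ev (Y : Rcy162Sys) (X : Finset ((ℤ × ℤ) × Bool)) : Finset (ℤ × ℤ) := Y.V.filter (fun v => ∃ e ∈ X, Rse182End Y e v)

open Classical in
/-- the faces of a set of edges -/
noncomputable def rse182Ef (Y : Rcy162Sys) (X : Finset ((ℤ × ℤ) × Bool)) : Finset (ℤ × ℤ) := Y.Fc.filter (fun f => ∃ e ∈ X, Rse182Fac Y e f)

/-- the edges `w`, `m` have a common face -/
def Rse182Touch (Y : Rcy162Sys) (w m : (ℤ × ℤ) × Bool) : Prop := ∃ f, Rse182Fac Y w f ∧ Rse182Fac Y m f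

/-- the configuration satisfies the history, on a system (`RswCon.Holds` of 121 for the plane) -/
def rse182Holds (Y : Rcy162Sys) (K : RswCon) (ω : RswCfg) : Prop :=
  K.Sp ⊆ ω.S ∧ (∀ v ∈ K.Sm, v ∉ ω.S) ∧ (∀ e ∈ K.Gp, Y.Good true ω e) ∧ (∀ e ∈ K.Gm, Y.Good false ω e) ∧ ∀ e ∈ K.Cl, e ∉ ω.O

/-- legal history of a system: only edges of the system are observed, and an observed edge has its two spins pinned -/
structure Rse182Legal (Y : Rcy162Sys) (K : RswCon) : Prop where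
  ed : ∀ e ∈ K.Gp ∪ K.Gm ∪ K.Cl, e ∈ Y.E
  full : ∀ e ∈ K.Gp ∪ K.Gm ∪ K.Cl, ∀ v, Rse182End Y e v → v ∈ K.Sp ∪ K.Sm

/-- order of histories, `K₁` below `K₂` (R291 `ClLe`) -/
structure Rse182Le (K₁ K₂ : RswCon) : Prop where
  sp : K₁.Sp ⊆ K₂.Sp
  sm : K₂.Sm ⊆ K₁.Sm
  gp : K₁.Gp ⊆ K₂.Gp
  gm : K₂.Gm ⊆ K₁.Gm
  cl1 : K₁.Cl ⊆ K₂.Cl ∪ K₂.Gp
  cl2 : K₂.Cl ⊆ K₁.Cl ∪ K₁.Gm

/-- local criterion of feasibility (R291 `ClFeas`) -/
structure Rse182Feas (Y : Rcy162Sys) (K : RswCon) : Prop where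
  spV : K.Sp ⊆ Y.V
  dis : Disjoint K.Sp K.Sm
  gp : ∀ e ∈ K.Gp, e ∈ Y.E ∧ ∀ v, Rse182End Y e v → v ∈ K.Sp
  gm : ∀ e ∈ K.Gm, e ∈ Y.E ∧ ∀ v, Rse182End Y e v → v ∈ K.Sm
  d2 : Disjoint K.Gp K.Cl
  d3 : Disjoint K.Gm K.Cl

/-- add pins and good edges to a history -/
def rse182Add (K : RswCon) (sp sm : Finset (ℤ × ℤ)) (gp gm : Finset ((ℤ × ℤ) × Bool)) : RswCon :=
  ⟨K.Sp ∪ sp, K.Sm ∪ sm, K.Gp ∪ gp, K.Gm ∪ gm, K.Cl⟩

open Classical in
/-- `K` + the full observation of the cells `Q` of `ω₀` -/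
noncomputable def rse182Obs (Y : Rcy162Sys) (K : RswCon) (Q : Finset TV) (ω₀ : RswCfg) : RswCon :=
  ⟨K.Sp ∪ (rse182Sv Y Q).filter (fun v => v ∈ ω₀.S), K.Sm ∪ (rse182Sv Y Q).filter (fun v => v ∉ ω₀.S),
   K.Gp ∪ (rse182Ed Y Q).filter (fun e => Y.Good true ω₀ e), K.Gm ∪ (rse182Ed Y Q).filter (fun e => Y.Good false ω₀ e),
   K.Cl ∪ (rse182Ed Y Q).filter (fun e => ¬ Y.Good true ω₀ e ∧ ¬ Y.Good false ω₀ e)⟩

/-- the refined cell is a point of the system -/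
def Rse182Pt (Y : Rcy162Sys) (y : TV) : Prop := (∃ v ∈ Y.V, y = rtd111P v) ∨ (∃ f, y = rtd111F f) ∨ ∃ e ∈ Y.E, y = rtd111E e

/-- **the law `𝓛` is the law of the system `Y` read on the refined lattice** (for the cylinder: `rcy162Fld`, `rcy162Agr` of 162) -/
structure Rse182Link (Y : Rcy162Sys) (t : ℝ) (𝓛 : Rln182Law RswCfg TV) : Prop where
  cfgs : 𝓛.cfgs = Y.cfgs
  wt : 𝓛.wt = Y.w t
  npE : ∀ ω, ∀ e ∈ Y.E, (𝓛.np ω (rtd111E e) ↔ ¬ Y.Good true ω e)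
  npP : ∀ ω, ∀ v ∈ Y.V, (𝓛.np ω (rtd111P v) ↔ v ∉ ω.S)
  npF : ∀ ω f, 𝓛.np ω (rtd111F f)
  agr : ∀ Q : Finset TV, (∀ y ∈ Q, Rse182Pt Y y) → ∀ ω ω',
    (𝓛.agr Q ω ω' ↔ (∀ v ∈ rse182Sv Y Q, (v ∈ ω.S ↔ v ∈ ω'.S)) ∧ ∀ e ∈ rse182Ed Y Q, Y.sgE ω e = Y.sgE ω' e)

theorem rse182_eqns_cite2 : True := by
  have := @Rse182End.eq_1
  have := @Rse182Fac.eq_1
  have := @Rse182Car.eq_1
  have := @rse182Sv.eq_1
  have := @rse182Ed.eq_1
  have := @rse182Ev.eq_1
  have := @rse182Ef.eq_1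
  have := @Rse182Touch.eq_1
  have := @Rse182Pt.eq_1
  have := @rse182Holds.eq_1
  have := @rse182Add.eq_1
  have := @rse182Obs.eq_1
  trivial

/-! ## 1. generic lemmas -/

section generic

variable {Y : Rcy162Sys} {t : ℝ} {𝓛 : Rln182Law RswCfg TV}

theorem rse182_mem_Sv {T : Finset TV} {v : ℤ × ℤ} : v ∈ rse182Sv Y T ↔ v ∈ Y.V ∧ ∃ y ∈ T, Rse182Car Y y v := by
  classical
  unfold rse182Sv; exact Finset.mem_filter

theorem rse182_mem_Ed {T : Finset TV} {e : (ℤ × ℤ) × Bool} : e ∈ rse182Ed Y T ↔ e ∈ Y.E ∧ rtd111E e ∈ T := by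
  classical
  unfold rse182Ed; exact Finset.mem_filter

theorem rse182_mem_Ev {X : Finset ((ℤ × ℤ) × Bool)} {v : ℤ × ℤ} : v ∈ rse182Ev Y X ↔ v ∈ Y.V ∧ ∃ e ∈ X, Rse182End Y e v := by
  classical
  unfold rse182Ev; exact Finset.mem_filter

theorem rse182_mem_Ef {X : Finset ((ℤ × ℤ) × Bool)} {f : ℤ × ℤ} : f ∈ rse182Ef Y X ↔ f ∈ Y.Fc ∧ ∃ e ∈ X, Rse182Fac Y e f := by
  classical
  unfold rse182Ef; exact Finset.mem_filter

theorem rse182_Sv_mono {T T' : Finset TV} (h : T ⊆ T') : rse182Sv Y T ⊆ rse182Sv Y T' := by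
  intro v hv
  obtain ⟨h1, y, hy, h2⟩ := rse182_mem_Sv.1 hv
  exact rse182_mem_Sv.2 ⟨h1, y, h hy, h2⟩

theorem rse182_Ed_mono {T T' : Finset TV} (h : T ⊆ T') : rse182Ed Y T ⊆ rse182Ed Y T' := by
  intro e he
  obtain ⟨h1, h2⟩ := rse182_mem_Ed.1 he
  exact rse182_mem_Ed.2 ⟨h1, h h2⟩

theorem rse182_Ev_mono {X X' : Finset ((ℤ × ℤ) × Bool)} (h : X ⊆ X') : rse182Ev Y X ⊆ rse182Ev Y X' := by
  intro v hv
  obtain ⟨h1, e, he, h2⟩ := rse182_mem_Ev.1 hv
  exact rse182_mem_Ev.2 ⟨h1, e, h he, h2⟩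

theorem rse182_end_V (hw : Y.WF) {e : (ℤ × ℤ) × Bool} (he : e ∈ Y.E) {v : ℤ × ℤ} (h : Rse182End Y e v) : v ∈ Y.V := by
  rcases h with h | h
  · rw [h]; exact hw.p0 e he
  · rw [h]; exact hw.p1 e he

theorem rse182_fac_F (hw : Y.WF) {e : (ℤ × ℤ) × Bool} (he : e ∈ Y.E) {f : ℤ × ℤ} (h : Rse182Fac Y e f) : f ∈ Y.Fc := by
  rcases h with h | h
  · rw [h]; exact hw.f0 e he
  · rw [h]; exact hw.f1 e he

/-- the endpoints of the edges of a set of cells are carried by it -/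
theorem rse182_Ed_Sv (hw : Y.WF) {T : Finset TV} {e : (ℤ × ℤ) × Bool} (he : e ∈ rse182Ed Y T) {v : ℤ × ℤ} (h : Rse182End Y e v) :
    v ∈ rse182Sv Y T := by
  obtain ⟨h1, h2⟩ := rse182_mem_Ed.1 he
  exact rse182_mem_Sv.2 ⟨rse182_end_V hw h1 h, _, h2, Or.inr ⟨e, h1, rfl, h⟩⟩

theorem rse182_good_end {a : Bool} {ω : RswCfg} {e : (ℤ × ℤ) × Bool} (h : Y.Good a ω e) {v : ℤ × ℤ} (hv : Rse182End Y e v) :
    (v ∈ ω.S ↔ a = true) := by
  rcases hv with hv | hv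
  · rw [hv]; exact h.2.1
  · rw [hv]; exact h.2.2

/-- the sums depend on the constraint only through the configurations of nonzero weight -/
theorem rse182_N_congr {Ω Y' : Type} (𝓛 : Rln182Law Ω Y') {K K' : Ω → Prop} (h : ∀ ω ∈ 𝓛.cfgs, 𝓛.wt ω ≠ 0 → (K ω ↔ K' ω)) (F : Ω → ℝ) :
    𝓛.N K F = 𝓛.N K' F := by
  classical
  unfold Rln182Law.N
  refine Finset.sum_congr rfl fun ω hω => ?_
  by_cases hw : 𝓛.wt ω = 0
  · simp [hw]
  · by_cases hK : K ω
    · rw [if_pos hK, if_pos ((h ω hω hw).1 hK)]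
    · rw [if_neg hK, if_neg fun hh => hK ((h ω hω hw).2 hh)]

theorem rse182_N_sum (hl : Rse182Link Y t 𝓛) (K : RswCfg → Prop) (F : RswCfg → ℝ) : 𝓛.N K F = Y.sum t K F := by
  classical
  rw [rcy162_sum_cfgs']
  unfold Rln182Law.N
  rw [hl.cfgs, hl.wt]

/-- an open edge of a configuration of nonzero weight is good -/
theorem rse182_open_good {ω : RswCfg} (hw : Y.w t ω ≠ 0) {e : (ℤ × ℤ) × Bool} (he : e ∈ Y.E) (ho : e ∈ ω.O) :
    Y.Good true ω e ∨ Y.Good false ω e := by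
  have hf : Y.fac t ω e ≠ 0 := fun h0 => hw (Finset.prod_eq_zero he h0)
  unfold Rcy162Sys.fac at hf
  rw [if_pos ho] at hf
  by_cases hs : (Y.p0 e ∈ ω.S ↔ Y.p1 e ∈ ω.S)
  · by_cases h0 : Y.p0 e ∈ ω.S
    · exact Or.inl ⟨ho, by simp [h0], by simp [hs.1 h0]⟩
    · have h1 : Y.p1 e ∉ ω.S := fun h => h0 (hs.2 h)
      exact Or.inr ⟨ho, by simp [h0], by simp [h1]⟩
  · rw [if_neg hs] at hf
    exact absurd rfl hf

theorem rse182_sgE_zero {ω : RswCfg} {e : (ℤ × ℤ) × Bool} (h1 : ¬ Y.Good true ω e) (h2 : ¬ Y.Good false ω e) : Y.sgE ω e = 0 := by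
  unfold Rcy162Sys.sgE
  split_ifs <;> rfl

/-- **the record is a history** (on the configurations of nonzero weight) -/
theorem rse182_obs_holds (hl : Rse182Link Y t 𝓛) (K : RswCon) (Q : Finset TV) (hQ : ∀ y ∈ Q, Rse182Pt Y y) (ω₀ ω : RswCfg) (hw : Y.w t ω ≠ 0) :
    rse182Holds Y (rse182Obs Y K Q ω₀) ω ↔ rse182Holds Y K ω ∧ 𝓛.agr Q ω₀ ω := by
  classical
  rw [hl.agr Q hQ]
  constructor
  · rintro ⟨h1, h2, h3, h4, h5⟩
    refine ⟨⟨fun v hv => h1 (Finset.mem_union_left _ hv), fun v hv => h2 v (Finset.mem_union_left _ hv),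
      fun e he => h3 e (Finset.mem_union_left _ he), fun e he => h4 e (Finset.mem_union_left _ he),
      fun e he => h5 e (Finset.mem_union_left _ he)⟩, fun v hv => ?_, fun e he => ?_⟩
    · by_cases h0 : v ∈ ω₀.S
      · exact ⟨fun _ => h1 (Finset.mem_union_right _ (Finset.mem_filter.2 ⟨hv, h0⟩)), fun _ => h0⟩
      · exact ⟨fun h => absurd h h0, fun h => absurd h (h2 v (Finset.mem_union_right _ (Finset.mem_filter.2 ⟨hv, h0⟩)))⟩
    · have heE := (rse182_mem_Ed.1 he).1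
      by_cases g1 : Y.Good true ω₀ e
      · rw [rcy162_sgE_one.2 ⟨heE, g1⟩, rcy162_sgE_one.2 ⟨heE, h3 e (Finset.mem_union_right _ (Finset.mem_filter.2 ⟨he, g1⟩))⟩]
      · by_cases g2 : Y.Good false ω₀ e
        · rw [rcy162_sgE_neg.2 ⟨heE, g2⟩, rcy162_sgE_neg.2 ⟨heE, h4 e (Finset.mem_union_right _ (Finset.mem_filter.2 ⟨he, g2⟩))⟩]
        · have hc := h5 e (Finset.mem_union_right _ (Finset.mem_filter.2 ⟨he, g1, g2⟩))
          rw [rse182_sgE_zero g1 g2, rse182_sgE_zero (fun h => hc h.1) (fun h => hc h.1)]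
  · rintro ⟨⟨h1, h2, h3, h4, h5⟩, a1, a2⟩
    refine ⟨fun v hv => ?_, fun v hv => ?_, fun e he => ?_, fun e he => ?_, fun e he => ?_⟩
    · rcases Finset.mem_union.1 hv with h | h
      · exact h1 h
      · obtain ⟨q1, q2⟩ := Finset.mem_filter.1 h
        exact (a1 v q1).1 q2
    · rcases Finset.mem_union.1 hv with h | h
      · exact h2 v h
      · obtain ⟨q1, q2⟩ := Finset.mem_filter.1 h
        exact fun hh => q2 ((a1 v q1).2 hh)
    · rcases Finset.mem_union.1 he with h | h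
      · exact h3 e h
      · obtain ⟨q1, q2⟩ := Finset.mem_filter.1 h
        have := a2 e q1
        rw [rcy162_sgE_one.2 ⟨(rse182_mem_Ed.1 q1).1, q2⟩] at this
        exact (rcy162_sgE_one.1 this.symm).2
    · rcases Finset.mem_union.1 he with h | h
      · exact h4 e h
      · obtain ⟨q1, q2⟩ := Finset.mem_filter.1 h
        have := a2 e q1
        rw [rcy162_sgE_neg.2 ⟨(rse182_mem_Ed.1 q1).1, q2⟩] at this
        exact (rcy162_sgE_neg.1 this.symm).2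
    · rcases Finset.mem_union.1 he with h | h
      · exact h5 e h
      · obtain ⟨q1, q2, q3⟩ := Finset.mem_filter.1 h
        have heE := (rse182_mem_Ed.1 q1).1
        have := a2 e q1
        rw [rse182_sgE_zero q2 q3] at this
        intro ho
        rcases rse182_open_good hw heE ho with g | g
        · rw [rcy162_sgE_one.2 ⟨heE, g⟩] at this
          exact absurd this (by decide)
        · rw [rcy162_sgE_neg.2 ⟨heE, g⟩] at this
          exact absurd this (by decide)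

theorem rse182_obs_legal (hw : Y.WF) {K : RswCon} (hK : Rse182Legal Y K) (Q : Finset TV) (ω₀ : RswCfg) :
    Rse182Legal Y (rse182Obs Y K Q ω₀) := by
  classical
  have key : ∀ e ∈ (rse182Obs Y K Q ω₀).Gp ∪ (rse182Obs Y K Q ω₀).Gm ∪ (rse182Obs Y K Q ω₀).Cl,
      e ∈ K.Gp ∪ K.Gm ∪ K.Cl ∨ e ∈ rse182Ed Y Q := by
    intro e he
    simp only [rse182Obs, Finset.mem_union, Finset.mem_filter] at he ⊢
    tauto
  refine ⟨fun e he => ?_, fun e he v hv => ?_⟩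
  · rcases key e he with h | h
    · exact hK.ed e h
    · exact (rse182_mem_Ed.1 h).1
  · rcases key e he with h | h
    · rcases Finset.mem_union.1 (hK.full e h v hv) with h' | h'
      · exact Finset.mem_union_left _ (Finset.mem_union_left _ h')
      · exact Finset.mem_union_right _ (Finset.mem_union_left _ h')
    · have hs := rse182_Ed_Sv hw h hv
      by_cases h0 : v ∈ ω₀.S
      · exact Finset.mem_union_left _ (Finset.mem_union_right _ (Finset.mem_filter.2 ⟨hs, h0⟩))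
      · exact Finset.mem_union_right _ (Finset.mem_union_right _ (Finset.mem_filter.2 ⟨hs, h0⟩))

/-- legality of an extension by good edges with their endpoints pinned -/
theorem rse182_add_legal {K : RswCon} (hK : Rse182Legal Y K) {sp sm : Finset (ℤ × ℤ)} {gp gm : Finset ((ℤ × ℤ) × Bool)}
    (hgp : ∀ e ∈ gp, e ∈ Y.E ∧ ∀ v, Rse182End Y e v → v ∈ sp) (hgm : ∀ e ∈ gm, e ∈ Y.E ∧ ∀ v, Rse182End Y e v → v ∈ sm) :
    Rse182Legal Y (rse182Add K sp sm gp gm) := by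
  classical
  have key : ∀ e ∈ (rse182Add K sp sm gp gm).Gp ∪ (rse182Add K sp sm gp gm).Gm ∪ (rse182Add K sp sm gp gm).Cl,
      e ∈ K.Gp ∪ K.Gm ∪ K.Cl ∨ e ∈ gp ∨ e ∈ gm := by
    intro e he
    simp only [rse182Add, Finset.mem_union] at he ⊢
    tauto
  refine ⟨fun e he => ?_, fun e he v hv => ?_⟩
  · rcases key e he with h | h | h
    · exact hK.ed e h
    · exact (hgp e h).1
    · exact (hgm e h).1
  · rcases key e he with h | h | h
    · rcases Finset.mem_union.1 (hK.full e h v hv) with h' | h'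
      · exact Finset.mem_union_left _ (Finset.mem_union_left _ h')
      · exact Finset.mem_union_right _ (Finset.mem_union_left _ h')
    · exact Finset.mem_union_left _ (Finset.mem_union_right _ ((hgp e h).2 v hv))
    · exact Finset.mem_union_right _ (Finset.mem_union_right _ ((hgm e h).2 v hv))

/-- feasibility of an extension by good edges -/
theorem rse182_add_feas {K : RswCon} (hf : Rse182Feas Y K) {sp sm : Finset (ℤ × ℤ)} {gp gm : Finset ((ℤ × ℤ) × Bool)}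
    (hsp : sp ⊆ Y.V) (hgp : ∀ e ∈ gp, e ∈ Y.E ∧ ∀ v, Rse182End Y e v → v ∈ sp) (hgm : ∀ e ∈ gm, e ∈ Y.E ∧ ∀ v, Rse182End Y e v → v ∈ sm)
    (d1 : Disjoint (K.Sp ∪ sp) (K.Sm ∪ sm)) (d2 : ∀ e ∈ gp ∪ gm, e ∉ K.Cl) : Rse182Feas Y (rse182Add K sp sm gp gm) := by
  classical
  refine ⟨Finset.union_subset hf.spV hsp, d1, fun e he => ?_, fun e he => ?_, ?_, ?_⟩
  · rcases Finset.mem_union.1 he with h | h
    · exact ⟨(hf.gp e h).1, fun v hv => Finset.mem_union_left _ ((hf.gp e h).2 v hv)⟩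
    · exact ⟨(hgp e h).1, fun v hv => Finset.mem_union_right _ ((hgp e h).2 v hv)⟩
  · rcases Finset.mem_union.1 he with h | h
    · exact ⟨(hf.gm e h).1, fun v hv => Finset.mem_union_left _ ((hf.gm e h).2 v hv)⟩
    · exact ⟨(hgm e h).1, fun v hv => Finset.mem_union_right _ ((hgm e h).2 v hv)⟩
  · refine Finset.disjoint_left.2 fun e h1 h2 => ?_
    rcases Finset.mem_union.1 h1 with h | h
    · exact Finset.disjoint_left.1 hf.d2 h h2
    · exact d2 e (Finset.mem_union_left _ h) h2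
  · refine Finset.disjoint_left.2 fun e h1 h2 => ?_
    rcases Finset.mem_union.1 h1 with h | h
    · exact Finset.disjoint_left.1 hf.d3 h h2
    · exact d2 e (Finset.mem_union_right _ h) h2

open Classical in
/-- the witness of a feasible history: plus exactly on the plus pins, all faces minus, `W` open on the edges along which `s` agrees, except the prescribed closed ones -/
noncomputable def rse182Wit (Y : Rcy162Sys) (K : RswCon) : RswCfg :=
  ⟨K.Sp, ∅, Y.E.filter fun e => (Y.p0 e ∈ K.Sp ↔ Y.p1 e ∈ K.Sp) ∧ e ∉ K.Cl⟩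

/-- **feasibility** (R291 `dis_feas`) -/
theorem rse182_feas (hl : Rse182Link Y t 𝓛) (hS : 𝓛.Ok) (h0 : 0 < t) (h1 : t < 1) {K : RswCon} (hf : Rse182Feas Y K) :
    0 < 𝓛.Z (rse182Holds Y K) := by
  classical
  unfold Rln182Law.Z
  rw [rse182_N_sum hl]
  refine rcy162_Z_pos Y _ h0.le h1.le ⟨rse182Wit Y K, ⟨hf.spV, Finset.empty_subset _, Finset.filter_subset _ _⟩, ?_⟩
  have hO : ∀ e, e ∈ (rse182Wit Y K).O ↔ e ∈ Y.E ∧ (Y.p0 e ∈ K.Sp ↔ Y.p1 e ∈ K.Sp) ∧ e ∉ K.Cl := fun e => Finset.mem_filter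
  have hH : rse182Holds Y K (rse182Wit Y K) := by
    refine ⟨Finset.Subset.refl _, fun v hv hv' => Finset.disjoint_left.1 hf.dis hv' hv, fun e he => ?_, fun e he => ?_, fun e he ho => ?_⟩
    · obtain ⟨q1, q2⟩ := hf.gp e he
      have a0 : Y.p0 e ∈ K.Sp := q2 _ (Or.inl rfl)
      have a1 : Y.p1 e ∈ K.Sp := q2 _ (Or.inr rfl)
      refine ⟨(hO e).2 ⟨q1, ⟨fun _ => a1, fun _ => a0⟩, fun hc => Finset.disjoint_left.1 hf.d2 he hc⟩, ?_, ?_⟩
      · exact ⟨fun _ => rfl, fun _ => a0⟩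
      · exact ⟨fun _ => rfl, fun _ => a1⟩
    · obtain ⟨q1, q2⟩ := hf.gm e he
      have a0 : Y.p0 e ∉ K.Sp := fun h => Finset.disjoint_left.1 hf.dis h (q2 _ (Or.inl rfl))
      have a1 : Y.p1 e ∉ K.Sp := fun h => Finset.disjoint_left.1 hf.dis h (q2 _ (Or.inr rfl))
      refine ⟨(hO e).2 ⟨q1, ⟨fun h => absurd h a0, fun h => absurd h a1⟩, fun hc => Finset.disjoint_left.1 hf.d3 he hc⟩, ?_, ?_⟩
      · exact ⟨fun h => absurd h a0, fun h => absurd h (by decide)⟩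
      · exact ⟨fun h => absurd h a1, fun h => absurd h (by decide)⟩
    · exact ((hO e).1 ho).2.2 he
  rw [rcy162_wt_of Y hH]
  refine Finset.prod_ne_zero_iff.2 fun e he => ?_
  have hD : (Y.f0 e ∈ (rse182Wit Y K).D ↔ Y.f1 e ∈ (rse182Wit Y K).D) := by
    show (Y.f0 e ∈ (∅ : Finset (ℤ × ℤ)) ↔ Y.f1 e ∈ (∅ : Finset (ℤ × ℤ)))
    simp
  have hSS : (Y.p0 e ∈ (rse182Wit Y K).S ↔ Y.p1 e ∈ (rse182Wit Y K).S) ↔ (Y.p0 e ∈ K.Sp ↔ Y.p1 e ∈ K.Sp) := Iff.rfl
  unfold Rcy162Sys.fac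
  by_cases ho : e ∈ (rse182Wit Y K).O
  · rw [if_pos ho, if_pos (hSS.2 ((hO e).1 ho).2.1)]
    exact h0.ne'
  · rw [if_neg ho, if_pos hD]
    split_ifs
    · linarith
    · exact h0.ne'

/-- converse (R291 `dis_feas_conv`) -/
theorem rse182_feas_conv (hl : Rse182Link Y t 𝓛) {K : RswCon} (hK : Rse182Legal Y K) (hZ : 0 < 𝓛.Z (rse182Holds Y K)) : Rse182Feas Y K := by
  classical
  have hex : ∃ ω ∈ 𝓛.cfgs, rse182Holds Y K ω := by
    by_contra hc
    have : 𝓛.Z (rse182Holds Y K) = 0 := by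
      unfold Rln182Law.Z Rln182Law.N
      refine Finset.sum_eq_zero fun ω hω => ?_
      rw [if_neg fun h => hc ⟨ω, hω, h⟩]
    linarith
  obtain ⟨ω, hω, h1, h2, h3, h4, h5⟩ := hex
  rw [hl.cfgs, rcy162_mem_cfgs] at hω
  refine ⟨h1.trans hω.1, Finset.disjoint_left.2 fun v a b => h2 v b (h1 a), fun e he => ?_, fun e he => ?_,
    Finset.disjoint_left.2 fun e a b => h5 e b (h3 e a).1, Finset.disjoint_left.2 fun e a b => h5 e b (h4 e a).1⟩
  · refine ⟨hω.2.2 (h3 e he).1, fun v hv => ?_⟩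
    have hm : v ∈ ω.S := (rse182_good_end (h3 e he) hv).2 rfl
    rcases Finset.mem_union.1 (hK.full e (Finset.mem_union_left _ (Finset.mem_union_left _ he)) v hv) with h | h
    · exact h
    · exact absurd hm (h2 v h)
  · refine ⟨hω.2.2 (h4 e he).1, fun v hv => ?_⟩
    have hm : v ∉ ω.S := fun h => absurd ((rse182_good_end (h4 e he) hv).1 h) (by decide)
    rcases Finset.mem_union.1 (hK.full e (Finset.mem_union_left _ (Finset.mem_union_right _ he)) v hv) with h | h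
    · exact absurd (h1 h) hm
    · exact h

end generic

/-! ## 2. THE FOUR HISTORIES -/

section defs

variable (Y : Rcy162Sys) (𝓛 : Rln182Law RswCfg TV) (K : RswCon) (G : LenGeo TV) (a b : ℤ) (ω₀ : RswCfg)

/-- the record of the two explorations, as a history -/
noncomputable def rse182Rc : RswCon := rse182Obs Y K (rln182Q 𝓛 G a b ω₀) ω₀

/-- the retained edges -/
noncomputable def rse182ME : Finset ((ℤ × ℤ) × Bool) := rse182Ed Y (rse182M 𝓛 G a b ω₀)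

/-- the retained vertices -/
noncomputable def rse182RV : Finset (ℤ × ℤ) := rse182Sv Y (rse182M 𝓛 G a b ω₀)

/-- the retained faces -/
noncomputable def rse182RF : Finset (ℤ × ℤ) := rse182Ef Y (rse182ME Y 𝓛 G a b ω₀)

open Classical in
/-- the cells of the box off the retained cells -/
noncomputable def rse182OM : Finset TV := (rse182O 𝓛 G a b).filter (fun y => y ∉ rse182M 𝓛 G a b ω₀)

open Classical in
/-- the edges outside the box -/
noncomputable def rse182Out : Finset ((ℤ × ℤ) × Bool) := Y.E.filter (fun w => rtd111E w ∉ rse182O 𝓛 G a b)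

open Classical in
/-- the edges outside the box which have a common face with a retained edge -/
noncomputable def rse182Eo : Finset ((ℤ × ℤ) × Bool) :=
  (rse182Out Y 𝓛 G a b).filter (fun w => ∃ m ∈ rse182ME Y 𝓛 G a b ω₀, Rse182Touch Y w m)

open Classical in
/-- the WALL: outer edges with a retained face, without any plus pin of the record -/
noncomputable def rse182Xw : Finset ((ℤ × ℤ) × Bool) :=
  (rse182Eo Y 𝓛 G a b ω₀).filter (fun w => ∀ v, Rse182End Y w v → v ∉ (rse182Rc Y 𝓛 K G a b ω₀).Sp)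

open Classical in
/-- the outer edges with a retained face which have a plus pin of the record (they stay unobserved) -/
noncomputable def rse182Xp : Finset ((ℤ × ℤ) × Bool) :=
  (rse182Eo Y 𝓛 G a b ω₀).filter (fun w => w ∉ rse182Xw Y 𝓛 K G a b ω₀)

/-- the new minus pins: the endpoints of the wall, and the retained vertices shared with outer edges which the record does not pin plus -/
noncomputable def rse182Nm : Finset (ℤ × ℤ) :=
  rse182Ev Y (rse182Xw Y 𝓛 K G a b ω₀) ∪ ((rse182RV Y 𝓛 G a b ω₀ ∩ rse182Ev Y (rse182Out Y 𝓛 G a b)) \ (rse182Rc Y 𝓛 K G a b ω₀).Sp)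

/-- **the ports: FACES** -/
noncomputable def rse182P : Finset (ℤ × ℤ) := rse182RF Y 𝓛 G a b ω₀ ∩ rse182Ef Y (rse182Xp Y 𝓛 K G a b ω₀)

/-- `h1` = the record + the wall -/
noncomputable def rse182H1 : RswCon := rse182Add (rse182Rc Y 𝓛 K G a b ω₀) ∅ (rse182Nm Y 𝓛 K G a b ω₀) ∅ (rse182Xw Y 𝓛 K G a b ω₀)

/-- `h2` = everything of the box off `M` plus + the wall -/
noncomputable def rse182H2 : RswCon :=
  rse182Add K (rse182Sv Y (rse182OM 𝓛 G a b ω₀)) (rse182Nm Y 𝓛 K G a b ω₀) (rse182Ed Y (rse182OM 𝓛 G a b ω₀)) (rse182Xw Y 𝓛 K G a b ω₀)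

open Classical in
/-- the top and the bottom row of the box -/
noncomputable def rse182TB : Finset TV := (rse182O 𝓛 G a b).filter (fun y => G.top y ∨ G.bot y)

open Classical in
/-- the cells of the box off its top and bottom rows -/
noncomputable def rse182OT : Finset TV := (rse182O 𝓛 G a b).filter (fun y => ¬ (G.top y ∨ G.bot y))

open Classical in
/-- the straight walls: edges outside the box which have a common face with an edge of the box off its top and bottom rows, and no endpoint carried by these rows -/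
noncomputable def rse182W3 : Finset ((ℤ × ℤ) × Bool) :=
  (rse182Out Y 𝓛 G a b).filter (fun w => (∃ m ∈ rse182Ed Y (rse182OT 𝓛 G a b), Rse182Touch Y w m) ∧
    ∀ v, Rse182End Y w v → v ∉ rse182Sv Y (rse182TB 𝓛 G a b))

/-- the minus pins of the straight reference -/
noncomputable def rse182N3 : Finset (ℤ × ℤ) :=
  rse182Ev Y (rse182W3 Y 𝓛 G a b) ∪ ((rse182Sv Y (rse182O 𝓛 G a b) ∩ rse182Ev Y (rse182Out Y 𝓛 G a b)) \ rse182Sv Y (rse182TB 𝓛 G a b))

/-- **`h3` = THE STRAIGHT REFERENCE**: the vertices and the edges of the top and bottom rows plus / good plus; the vertices of the two short sides minus, good minus walls outside; it depends on the box only -/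
noncomputable def rse182H3 : RswCon :=
  rse182Add K (rse182Sv Y (rse182TB 𝓛 G a b)) (rse182N3 Y 𝓛 G a b) (rse182Ed Y (rse182TB 𝓛 G a b)) (rse182W3 Y 𝓛 G a b)

/-- the record of histories of `Len182` Part D -/
noncomputable def rse182Hs : Rse182Hist RswCfg :=
  ⟨fun ω₀ => rse182Holds Y (rse182H1 Y 𝓛 K G a b ω₀), fun ω₀ => rse182Holds Y (rse182H2 Y 𝓛 K G a b ω₀), rse182Holds Y (rse182H3 Y 𝓛 K G a b)⟩

/-- link of length at most two which transports a plus pin at `v` -/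
def Rse182LinkV (O : Finset TV) (x y : TV) (v : ℤ × ℤ) : Prop :=
  x = y ∨ G.adj x y ∨ ∃ z ∈ O, G.adj x z ∧ ((∃ f, z = rtd111F f) ∨ z = rtd111P v) ∧ (z = y ∨ G.adj z y)

/-- link of length at most two through a face point -/
def Rse182LinkF (O : Finset TV) (x y : TV) : Prop :=
  x = y ∨ G.adj x y ∨ ∃ z ∈ O, (∃ f, z = rtd111F f) ∧ G.adj x z ∧ G.adj z y

/-- **what the adapter needs to know about the chart near the box** (all fields are local facts of the refined lattice) -/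
structure Rse182Geo : Prop where
  /-- the band consists of cells of the law -/
  band : ∀ y, G.band y → y ∈ 𝓛.cells
  /-- the cells of the box are points of the system -/
  pts : ∀ y ∈ rse182O 𝓛 G a b, Rse182Pt Y y
  /-- (H1) two cells of the box which carry one vertex -/
  inV : ∀ x ∈ rse182O 𝓛 G a b, ∀ y ∈ rse182O 𝓛 G a b, ∀ v, Rse182Car Y x v → Rse182Car Y y v → Rse182LinkV G (rse182O 𝓛 G a b) x y v
  /-- (G1) an edge of the box with a common face with an outer edge, a cell of the box which carries an endpoint of this outer edge -/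
  outV : ∀ w ∈ rse182Out Y 𝓛 G a b, ∀ m ∈ rse182Ed Y (rse182O 𝓛 G a b), Rse182Touch Y w m → ∀ v, Rse182End Y w v → ∀ y ∈ rse182O 𝓛 G a b,
    Rse182Car Y y v → Rse182LinkV G (rse182O 𝓛 G a b) (rtd111E m) y v
  /-- (H1') two edges of the box with a common face -/
  inF : ∀ m ∈ Y.E, ∀ w ∈ Y.E, rtd111E m ∈ rse182O 𝓛 G a b → rtd111E w ∈ rse182O 𝓛 G a b → ∀ f, Rse182Fac Y m f → Rse182Fac Y w f →
    Rse182LinkF G (rse182O 𝓛 G a b) (rtd111E m) (rtd111E w)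
  /-- (H2) `K` is clear near the box -/
  clrV : ∀ v, (v ∈ rse182Sv Y (rse182O 𝓛 G a b) ∨ ∃ w ∈ Y.E, (∃ m ∈ rse182Ed Y (rse182O 𝓛 G a b), Rse182Touch Y w m) ∧ Rse182End Y w v) →
    v ∉ K.Sp ∧ v ∉ K.Sm
  clrE : ∀ w ∈ Y.E, (∃ m ∈ rse182Ed Y (rse182O 𝓛 G a b), Rse182Touch Y w m) → w ∉ K.Gp ∧ w ∉ K.Gm ∧ w ∉ K.Cl

end defs

/-- retained part with ports (AT copy of R291 `LseSplit`; the ports are faces) -/
structure Rse182Split (Y : Rcy162Sys) (K : RswCon) (RV RF : Finset (ℤ × ℤ)) (ME : Finset ((ℤ × ℤ) × Bool)) (P : Finset (ℤ × ℤ)) : Prop where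
  cellR : ∀ e ∈ ME, e ∈ Y.E ∧ (∀ v, Rse182End Y e v → v ∈ RV) ∧ ∀ f, Rse182Fac Y e f → f ∈ RF
  pinX : ∀ w ∈ Y.E, w ∉ ME → ∀ v, Rse182End Y w v → v ∈ RV → v ∈ K.Sp ∪ K.Sm
  portC : ∀ w ∈ Y.E, w ∉ ME → (w ∈ K.Gp ∪ K.Gm) ∨ ∀ f, Rse182Fac Y w f → f ∈ RF → f ∈ P

/-- **(ORD)** conditional order between the legal histories which keep the pins of `K` (R291 `LseOrd`).      PRODUCER: Cmp291 / Model22 -/
def Rse182Ord (Y : Rcy162Sys) (𝓛 : Rln182Law RswCfg TV) (K : RswCon) : Prop :=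
  ∀ K₁ K₂ : RswCon, Rse182Legal Y K₁ → Rse182Legal Y K₂ → K.Sp ⊆ K₁.Sp → K.Sm ⊆ K₁.Sm → K.Sp ⊆ K₂.Sp → K.Sm ⊆ K₂.Sm → Rse182Le K₁ K₂ →
    ∀ F : RswCfg → ℝ, 𝓛.Mono F → 𝓛.N (rse182Holds Y K₁) F * 𝓛.Z (rse182Holds Y K₂) ≤ 𝓛.Z (rse182Holds Y K₁) * 𝓛.N (rse182Holds Y K₂) F

/-- **(PORTS)** two histories of one ambient with the same retained data (TEX[annulus:ports], R291 `lse_ports`).      PRODUCER: A1.1, pen 102 -/
def Rse182Ports (Y : Rcy162Sys) (𝓛 : Rln182Law RswCfg TV) : Prop :=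
  ∀ (K₁ K₂ : RswCon), Rse182Legal Y K₁ → Rse182Legal Y K₂ → ∀ (RV RF : Finset (ℤ × ℤ)) (ME : Finset ((ℤ × ℤ) × Bool)) (P₁ P₂ : Finset (ℤ × ℤ)),
    Rse182Split Y K₁ RV RF ME P₁ → Rse182Split Y K₂ RV RF ME P₂ →
    (∀ v ∈ RV, (v ∈ K₁.Sp ↔ v ∈ K₂.Sp)) → (∀ v ∈ RV, (v ∈ K₁.Sm ↔ v ∈ K₂.Sm)) →
    (∀ e ∈ ME, (e ∈ K₁.Gp ↔ e ∈ K₂.Gp) ∧ (e ∈ K₁.Gm ↔ e ∈ K₂.Gm) ∧ (e ∈ K₁.Cl ↔ e ∈ K₂.Cl)) →
    ∀ F : RswCfg → ℝ, (∀ ω, 0 ≤ F ω) → (∀ ω ω' : RswCfg, (∀ v ∈ RV, (v ∈ ω.S ↔ v ∈ ω'.S)) → (∀ e ∈ ME, (e ∈ ω.O ↔ e ∈ ω'.O)) → F ω = F ω') →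
    𝓛.N (rse182Holds Y K₁) F * 𝓛.Z (rse182Holds Y K₂)
      ≤ 2 ^ ((P₁.card - 1) + (P₂.card - 1)) * (𝓛.Z (rse182Holds Y K₁) * 𝓛.N (rse182Holds Y K₂) F)

theorem rse182_eqns_cite3 : True := by
  have := @rse182Wit.eq_1
  have := @rse182Rc.eq_1
  have := @rse182ME.eq_1
  have := @rse182RV.eq_1
  have := @rse182RF.eq_1
  have := @rse182OM.eq_1
  have := @rse182Out.eq_1
  have := @rse182Eo.eq_1
  have := @rse182Xw.eq_1
  have := @rse182Xp.eq_1
  have := @rse182Nm.eq_1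
  have := @rse182P.eq_1
  have := @rse182H1.eq_1
  have := @rse182H2.eq_1
  have := @rse182TB.eq_1
  have := @rse182OT.eq_1
  have := @rse182W3.eq_1
  have := @rse182N3.eq_1
  have := @rse182H3.eq_1
  have := @rse182Hs.eq_1
  have := @Rse182LinkV.eq_1
  have := @Rse182LinkF.eq_1
  have := @Rse182Ord.eq_1
  have := @Rse182Ports.eq_1
  trivial

/-! ## 3. deterministic facts -/

section facts

variable {Y : Rcy162Sys} {t : ℝ} {𝓛 : Rln182Law RswCfg TV} {K : RswCon} {G : LenGeo TV} {a b : ℤ} {ω₀ : RswCfg}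

theorem rse182_mem_OM {y : TV} : y ∈ rse182OM 𝓛 G a b ω₀ ↔ y ∈ rse182O 𝓛 G a b ∧ y ∉ rse182M 𝓛 G a b ω₀ := by
  classical
  unfold rse182OM; exact Finset.mem_filter

theorem rse182_mem_Out {w : (ℤ × ℤ) × Bool} : w ∈ rse182Out Y 𝓛 G a b ↔ w ∈ Y.E ∧ rtd111E w ∉ rse182O 𝓛 G a b := by
  classical
  unfold rse182Out; exact Finset.mem_filter

theorem rse182_mem_Eo {w : (ℤ × ℤ) × Bool} :
    w ∈ rse182Eo Y 𝓛 G a b ω₀ ↔ w ∈ rse182Out Y 𝓛 G a b ∧ ∃ m ∈ rse182ME Y 𝓛 G a b ω₀, Rse182Touch Y w m := by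
  classical
  unfold rse182Eo; exact Finset.mem_filter

theorem rse182_mem_Xw {w : (ℤ × ℤ) × Bool} :
    w ∈ rse182Xw Y 𝓛 K G a b ω₀ ↔ w ∈ rse182Eo Y 𝓛 G a b ω₀ ∧ ∀ v, Rse182End Y w v → v ∉ (rse182Rc Y 𝓛 K G a b ω₀).Sp := by
  classical
  unfold rse182Xw; exact Finset.mem_filter

theorem rse182_mem_Xp {w : (ℤ × ℤ) × Bool} :
    w ∈ rse182Xp Y 𝓛 K G a b ω₀ ↔ w ∈ rse182Eo Y 𝓛 G a b ω₀ ∧ w ∉ rse182Xw Y 𝓛 K G a b ω₀ := by
  classical
  unfold rse182Xp; exact Finset.mem_filter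

theorem rse182_mem_TB {y : TV} : y ∈ rse182TB 𝓛 G a b ↔ y ∈ rse182O 𝓛 G a b ∧ (G.top y ∨ G.bot y) := by
  classical
  unfold rse182TB; exact Finset.mem_filter

theorem rse182_mem_OT {y : TV} : y ∈ rse182OT 𝓛 G a b ↔ y ∈ rse182O 𝓛 G a b ∧ ¬ (G.top y ∨ G.bot y) := by
  classical
  unfold rse182OT; exact Finset.mem_filter

theorem rse182_mem_W3 {w : (ℤ × ℤ) × Bool} :
    w ∈ rse182W3 Y 𝓛 G a b ↔ w ∈ rse182Out Y 𝓛 G a b ∧ (∃ m ∈ rse182Ed Y (rse182OT 𝓛 G a b), Rse182Touch Y w m) ∧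
      ∀ v, Rse182End Y w v → v ∉ rse182Sv Y (rse182TB 𝓛 G a b) := by
  classical
  unfold rse182W3; exact Finset.mem_filter

theorem rse182_M_sub_O : rse182M 𝓛 G a b ω₀ ⊆ rse182O 𝓛 G a b := fun _ hy => (rse182_M_OnQ hy).1

theorem rse182_TB_sub_OM : rse182TB 𝓛 G a b ⊆ rse182OM 𝓛 G a b ω₀ := by
  intro y hy
  obtain ⟨h1, h2⟩ := rse182_mem_TB.1 hy
  exact rse182_mem_OM.2 ⟨h1, rse182_TB_not_M h1 h2⟩

theorem rse182_M_sub_OT : rse182M 𝓛 G a b ω₀ ⊆ rse182OT 𝓛 G a b := by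
  intro y hy
  exact rse182_mem_OT.2 ⟨rse182_M_sub_O hy, fun h => rse182_TB_not_M (rse182_M_sub_O hy) h hy⟩

theorem rse182_OM_sub_O : rse182OM 𝓛 G a b ω₀ ⊆ rse182O 𝓛 G a b := fun _ hy => (rse182_mem_OM.1 hy).1

theorem rse182_OT_sub_O : rse182OT 𝓛 G a b ⊆ rse182O 𝓛 G a b := fun _ hy => (rse182_mem_OT.1 hy).1

theorem rse182_Q_sub_OM : rln182Q 𝓛 G a b ω₀ ⊆ rse182OM 𝓛 G a b ω₀ :=
  fun _ hy => rse182_mem_OM.2 ⟨rse182_Q_sub_O hy, fun h => (rse182_M_OnQ h).2 hy⟩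

theorem rse182_rc_sp {v : ℤ × ℤ} :
    v ∈ (rse182Rc Y 𝓛 K G a b ω₀).Sp ↔ v ∈ K.Sp ∨ (v ∈ rse182Sv Y (rln182Q 𝓛 G a b ω₀) ∧ v ∈ ω₀.S) := by
  classical
  unfold rse182Rc rse182Obs
  simp only [Finset.mem_union, Finset.mem_filter]

theorem rse182_rc_sm {v : ℤ × ℤ} :
    v ∈ (rse182Rc Y 𝓛 K G a b ω₀).Sm ↔ v ∈ K.Sm ∨ (v ∈ rse182Sv Y (rln182Q 𝓛 G a b ω₀) ∧ v ∉ ω₀.S) := by
  classical
  unfold rse182Rc rse182Obs
  simp only [Finset.mem_union, Finset.mem_filter]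

theorem rse182_rc_gp {e : (ℤ × ℤ) × Bool} :
    e ∈ (rse182Rc Y 𝓛 K G a b ω₀).Gp ↔ e ∈ K.Gp ∨ (e ∈ rse182Ed Y (rln182Q 𝓛 G a b ω₀) ∧ Y.Good true ω₀ e) := by
  classical
  unfold rse182Rc rse182Obs
  simp only [Finset.mem_union, Finset.mem_filter]

theorem rse182_rc_gm {e : (ℤ × ℤ) × Bool} :
    e ∈ (rse182Rc Y 𝓛 K G a b ω₀).Gm ↔ e ∈ K.Gm ∨ (e ∈ rse182Ed Y (rln182Q 𝓛 G a b ω₀) ∧ Y.Good false ω₀ e) := by
  classical
  unfold rse182Rc rse182Obs
  simp only [Finset.mem_union, Finset.mem_filter]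

theorem rse182_rc_cl {e : (ℤ × ℤ) × Bool} :
    e ∈ (rse182Rc Y 𝓛 K G a b ω₀).Cl ↔ e ∈ K.Cl ∨ (e ∈ rse182Ed Y (rln182Q 𝓛 G a b ω₀) ∧ ¬ Y.Good true ω₀ e ∧ ¬ Y.Good false ω₀ e) := by
  classical
  unfold rse182Rc rse182Obs
  simp only [Finset.mem_union, Finset.mem_filter]

/-- the vertices carried by a looked at plus cell are plus pins of the record -/
theorem rse182_plus_sp (hl : Rse182Link Y t 𝓛) {y : TV} (hy : y ∈ rln182Q 𝓛 G a b ω₀) (hp : ¬ 𝓛.np ω₀ y) {v : ℤ × ℤ} (hv : v ∈ Y.V)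
    (hc : Rse182Car Y y v) : v ∈ (rse182Rc Y 𝓛 K G a b ω₀).Sp := by
  refine rse182_rc_sp.2 (Or.inr ⟨rse182_mem_Sv.2 ⟨hv, y, hy, hc⟩, ?_⟩)
  rcases hc with rfl | ⟨e, he, rfl, hev⟩
  · by_contra hn
    exact hp ((hl.npP ω₀ v hv).2 hn)
  · have hg : Y.Good true ω₀ e := by
      by_contra hn
      exact hp ((hl.npE ω₀ e he).2 hn)
    exact (rse182_good_end hg hev).2 rfl

/-- use of a link which transports a plus pin -/
theorem rse182_linkV_use (hl : Rse182Link Y t 𝓛) {x y : TV} (hx : x ∈ rse182M 𝓛 G a b ω₀) (hy : y ∈ rse182O 𝓛 G a b) {v : ℤ × ℤ} (hv : v ∈ Y.V)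
    (hc : Rse182Car Y y v) (h : Rse182LinkV G (rse182O 𝓛 G a b) x y v) :
    y ∈ rse182M 𝓛 G a b ω₀ ∨ v ∈ (rse182Rc Y 𝓛 K G a b ω₀).Sp := by
  have step : ∀ x' ∈ rse182M 𝓛 G a b ω₀, G.adj x' y → y ∈ rse182M 𝓛 G a b ω₀ ∨ v ∈ (rse182Rc Y 𝓛 K G a b ω₀).Sp := by
    intro x' hx' hadj
    by_cases hyM : y ∈ rse182M 𝓛 G a b ω₀
    · exact Or.inl hyM
    · obtain ⟨q1, q2⟩ := rse182_adj_in hx' hy hyM hadj
      exact Or.inr (rse182_plus_sp hl q1 q2 hv hc)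
  rcases h with rfl | h | ⟨z, hz, hxz, hzt, hzy⟩
  · exact Or.inl hx
  · exact step x hx h
  · by_cases hzM : z ∈ rse182M 𝓛 G a b ω₀
    · rcases hzy with rfl | hzy
      · exact Or.inl hzM
      · exact step z hzM hzy
    · obtain ⟨q1, q2⟩ := rse182_adj_in hx hz hzM hxz
      rcases hzt with ⟨f, rfl⟩ | rfl
      · exact absurd (hl.npF ω₀ f) q2
      · exact Or.inr (rse182_plus_sp hl q1 q2 hv (Or.inl rfl))

/-- use of a link through a face point -/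
theorem rse182_linkF_use (hl : Rse182Link Y t 𝓛) {x y : TV} (hx : x ∈ rse182M 𝓛 G a b ω₀) (hy : y ∈ rse182O 𝓛 G a b)
    (h : Rse182LinkF G (rse182O 𝓛 G a b) x y) :
    y ∈ rse182M 𝓛 G a b ω₀ ∨ (y ∈ rln182Q 𝓛 G a b ω₀ ∧ ¬ 𝓛.np ω₀ y) := by
  have step : ∀ x' ∈ rse182M 𝓛 G a b ω₀, G.adj x' y → y ∈ rse182M 𝓛 G a b ω₀ ∨ (y ∈ rln182Q 𝓛 G a b ω₀ ∧ ¬ 𝓛.np ω₀ y) := by
    intro x' hx' hadj
    by_cases hyM : y ∈ rse182M 𝓛 G a b ω₀
    · exact Or.inl hyM
    · exact Or.inr (rse182_adj_in hx' hy hyM hadj)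
  rcases h with rfl | h | ⟨z, hz, ⟨f, rfl⟩, hxz, hzy⟩
  · exact Or.inl hx
  · exact step x hx h
  · by_cases hzM : rtd111F f ∈ rse182M 𝓛 G a b ω₀
    · exact step _ hzM hzy
    · exact absurd (hl.npF ω₀ f) (rse182_adj_in hx hz hzM hxz).2

theorem rse182_mem_RV {v : ℤ × ℤ} : v ∈ rse182RV Y 𝓛 G a b ω₀ ↔ v ∈ Y.V ∧ ∃ x ∈ rse182M 𝓛 G a b ω₀, Rse182Car Y x v := by
  unfold rse182RV; exact rse182_mem_Sv

theorem rse182_mem_ME {e : (ℤ × ℤ) × Bool} : e ∈ rse182ME Y 𝓛 G a b ω₀ ↔ e ∈ Y.E ∧ rtd111E e ∈ rse182M 𝓛 G a b ω₀ := by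
  unfold rse182ME; exact rse182_mem_Ed

theorem rse182_mem_RF {f : ℤ × ℤ} : f ∈ rse182RF Y 𝓛 G a b ω₀ ↔ f ∈ Y.Fc ∧ ∃ m ∈ rse182ME Y 𝓛 G a b ω₀, Rse182Fac Y m f := by
  unfold rse182RF; exact rse182_mem_Ef

theorem rse182_RV_sub_O : rse182RV Y 𝓛 G a b ω₀ ⊆ rse182Sv Y (rse182O 𝓛 G a b) := rse182_Sv_mono rse182_M_sub_O

theorem rse182_ME_sub_O : rse182ME Y 𝓛 G a b ω₀ ⊆ rse182Ed Y (rse182O 𝓛 G a b) := rse182_Ed_mono rse182_M_sub_O

/-- the plus pins of the record on the retained vertices -/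
theorem rse182_R_sp (hl : Rse182Link Y t 𝓛) (hG : Rse182Geo Y 𝓛 K G a b) {v : ℤ × ℤ} (hv : v ∈ rse182RV Y 𝓛 G a b ω₀) :
    v ∈ (rse182Rc Y 𝓛 K G a b ω₀).Sp ↔ v ∈ rse182Sv Y (rse182OM 𝓛 G a b ω₀) := by
  obtain ⟨hvV, x, hx, hxc⟩ := rse182_mem_RV.1 hv
  constructor
  · intro h
    rcases rse182_rc_sp.1 h with h | ⟨h, _⟩
    · exact absurd h (hG.clrV v (Or.inl (rse182_RV_sub_O hv))).1
    · exact rse182_Sv_mono rse182_Q_sub_OM h
  · intro h
    obtain ⟨_, y, hy, hyc⟩ := rse182_mem_Sv.1 h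
    obtain ⟨hyO, hyM⟩ := rse182_mem_OM.1 hy
    exact (rse182_linkV_use hl hx hyO hvV hyc (hG.inV x (rse182_M_sub_O hx) y hyO v hxc hyc)).resolve_left hyM

/-- the record has no minus pin on the retained vertices -/
theorem rse182_R_sm (hl : Rse182Link Y t 𝓛) (hG : Rse182Geo Y 𝓛 K G a b) {v : ℤ × ℤ} (hv : v ∈ rse182RV Y 𝓛 G a b ω₀) :
    v ∉ (rse182Rc Y 𝓛 K G a b ω₀).Sm := by
  intro h
  rcases rse182_rc_sm.1 h with h | ⟨h, hn⟩
  · exact (hG.clrV v (Or.inl (rse182_RV_sub_O hv))).2 h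
  · have h2 := (rse182_R_sp (K := K) hl hG hv).2 (rse182_Sv_mono rse182_Q_sub_OM h)
    rcases rse182_rc_sp.1 h2 with h3 | ⟨_, h3⟩
    · exact (hG.clrV v (Or.inl (rse182_RV_sub_O hv))).1 h3
    · exact hn h3

/-- an endpoint of a wall edge is not carried by the box off `M` -/
theorem rse182_Xw_OM (hl : Rse182Link Y t 𝓛) (hw : Y.WF) (hG : Rse182Geo Y 𝓛 K G a b) {w : (ℤ × ℤ) × Bool} (hx : w ∈ rse182Xw Y 𝓛 K G a b ω₀)
    {v : ℤ × ℤ} (hv : Rse182End Y w v) : v ∉ rse182Sv Y (rse182OM 𝓛 G a b ω₀) := by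
  intro h
  obtain ⟨hvV, y, hy, hyc⟩ := rse182_mem_Sv.1 h
  obtain ⟨hyO, hyM⟩ := rse182_mem_OM.1 hy
  obtain ⟨hE, hp⟩ := rse182_mem_Xw.1 hx
  obtain ⟨hO, m, hm, ht⟩ := rse182_mem_Eo.1 hE
  exact hp v hv ((rse182_linkV_use hl (rse182_mem_ME.1 hm).2 hyO hvV hyc (hG.outV w hO m (rse182_ME_sub_O hm) ht v hv y hyO hyc)).resolve_left hyM)

/-- the wall is part of the straight wall -/
theorem rse182_Xw_sub (hl : Rse182Link Y t 𝓛) (hw : Y.WF) (hG : Rse182Geo Y 𝓛 K G a b) : rse182Xw Y 𝓛 K G a b ω₀ ⊆ rse182W3 Y 𝓛 G a b := by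
  intro w hx
  obtain ⟨hE, hp⟩ := rse182_mem_Xw.1 hx
  obtain ⟨hO, m, hm, ht⟩ := rse182_mem_Eo.1 hE
  exact rse182_mem_W3.2 ⟨hO, ⟨m, rse182_Ed_mono rse182_M_sub_OT hm, ht⟩,
    fun v hv h => rse182_Xw_OM hl hw hG hx hv (rse182_Sv_mono rse182_TB_sub_OM h)⟩

/-- the new minus pins are minus pins of the straight reference -/
theorem rse182_Nm_sub (hl : Rse182Link Y t 𝓛) (hw : Y.WF) (hG : Rse182Geo Y 𝓛 K G a b) : rse182Nm Y 𝓛 K G a b ω₀ ⊆ rse182N3 Y 𝓛 G a b := by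
  classical
  intro v hv
  rcases Finset.mem_union.1 hv with h | h
  · exact Finset.mem_union_left _ (rse182_Ev_mono (rse182_Xw_sub hl hw hG) h)
  · obtain ⟨h1, hsp⟩ := Finset.mem_sdiff.1 h
    obtain ⟨hR, hE⟩ := Finset.mem_inter.1 h1
    refine Finset.mem_union_right _ (Finset.mem_sdiff.2 ⟨Finset.mem_inter.2 ⟨rse182_RV_sub_O hR, hE⟩, fun hT => ?_⟩)
    exact hsp ((rse182_R_sp hl hG hR).2 (rse182_Sv_mono rse182_TB_sub_OM hT))

/-- the new minus pins avoid the box off `M` -/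
theorem rse182_Nm_disj (hl : Rse182Link Y t 𝓛) (hw : Y.WF) (hG : Rse182Geo Y 𝓛 K G a b) :
    Disjoint (rse182Sv Y (rse182OM 𝓛 G a b ω₀)) (rse182Nm Y 𝓛 K G a b ω₀) := by
  classical
  rw [Finset.disjoint_left]
  intro v hv hN
  rcases Finset.mem_union.1 hN with h | h
  · obtain ⟨_, w, hx, hwv⟩ := rse182_mem_Ev.1 h
    exact rse182_Xw_OM hl hw hG hx hwv hv
  · obtain ⟨h1, hsp⟩ := Finset.mem_sdiff.1 h
    exact hsp ((rse182_R_sp hl hG (Finset.mem_inter.1 h1).1).2 hv)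

theorem rse182_Nm_not_sp {v : ℤ × ℤ} (hv : v ∈ rse182Nm Y 𝓛 K G a b ω₀) : v ∉ (rse182Rc Y 𝓛 K G a b ω₀).Sp := by
  classical
  rcases Finset.mem_union.1 hv with h | h
  · obtain ⟨_, w, hx, hwv⟩ := rse182_mem_Ev.1 h
    exact (rse182_mem_Xw.1 hx).2 v hwv
  · exact (Finset.mem_sdiff.1 h).2

theorem rse182_Xw_E {w : (ℤ × ℤ) × Bool} (hx : w ∈ rse182Xw Y 𝓛 K G a b ω₀) :
    w ∈ Y.E ∧ rtd111E w ∉ rse182O 𝓛 G a b ∧ ∃ m ∈ rse182Ed Y (rse182O 𝓛 G a b), Rse182Touch Y w m := by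
  obtain ⟨hO, m, hm, ht⟩ := rse182_mem_Eo.1 (rse182_mem_Xw.1 hx).1
  exact ⟨(rse182_mem_Out.1 hO).1, (rse182_mem_Out.1 hO).2, m, rse182_ME_sub_O hm, ht⟩

theorem rse182_Xw_Nm (hw : Y.WF) : ∀ e ∈ rse182Xw Y 𝓛 K G a b ω₀, e ∈ Y.E ∧ ∀ v, Rse182End Y e v → v ∈ rse182Nm Y 𝓛 K G a b ω₀ := by
  classical
  intro e he
  have hE := (rse182_Xw_E he).1
  exact ⟨hE, fun v hv => Finset.mem_union_left _ (rse182_mem_Ev.2 ⟨rse182_end_V hw hE hv, e, he, hv⟩)⟩

theorem rse182_clr_Nm (hG : Rse182Geo Y 𝓛 K G a b) {v : ℤ × ℤ} (hv : v ∈ rse182Nm Y 𝓛 K G a b ω₀) : v ∉ K.Sp ∧ v ∉ K.Sm := by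
  classical
  rcases Finset.mem_union.1 hv with h | h
  · obtain ⟨_, w, hx, hwv⟩ := rse182_mem_Ev.1 h
    obtain ⟨h1, _, h3⟩ := rse182_Xw_E hx
    exact hG.clrV v (Or.inr ⟨w, h1, h3, hwv⟩)
  · exact hG.clrV v (Or.inl (rse182_RV_sub_O (Finset.mem_inter.1 (Finset.mem_sdiff.1 h).1).1))

theorem rse182_touch_self (e : (ℤ × ℤ) × Bool) : Rse182Touch Y e e := ⟨Y.f0 e, Or.inl rfl, Or.inl rfl⟩

/-! ### the four histories: legality, order, feasibility -/

theorem rse182_legal0 (hw : Y.WF) (hK : Rse182Legal Y K) : Rse182Legal Y (rse182Rc Y 𝓛 K G a b ω₀) := rse182_obs_legal hw hK _ _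

theorem rse182_legal1 (hw : Y.WF) (hK : Rse182Legal Y K) : Rse182Legal Y (rse182H1 Y 𝓛 K G a b ω₀) :=
  rse182_add_legal (rse182_legal0 hw hK) (fun e he => absurd he (Finset.notMem_empty e)) (rse182_Xw_Nm hw)

theorem rse182_Ed_ok (hw : Y.WF) (T : Finset TV) : ∀ e ∈ rse182Ed Y T, e ∈ Y.E ∧ ∀ v, Rse182End Y e v → v ∈ rse182Sv Y T :=
  fun e he => ⟨(rse182_mem_Ed.1 he).1, fun _ hv => rse182_Ed_Sv hw he hv⟩

theorem rse182_legal2 (hw : Y.WF) (hK : Rse182Legal Y K) : Rse182Legal Y (rse182H2 Y 𝓛 K G a b ω₀) :=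
  rse182_add_legal hK (rse182_Ed_ok hw _) (rse182_Xw_Nm hw)

theorem rse182_W3_N3 (hw : Y.WF) : ∀ e ∈ rse182W3 Y 𝓛 G a b, e ∈ Y.E ∧ ∀ v, Rse182End Y e v → v ∈ rse182N3 Y 𝓛 G a b := by
  classical
  intro e he
  have hE := (rse182_mem_Out.1 (rse182_mem_W3.1 he).1).1
  exact ⟨hE, fun v hv => Finset.mem_union_left _ (rse182_mem_Ev.2 ⟨rse182_end_V hw hE hv, e, he, hv⟩)⟩

theorem rse182_legal3 (hw : Y.WF) (hK : Rse182Legal Y K) : Rse182Legal Y (rse182H3 Y 𝓛 K G a b) :=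
  rse182_add_legal hK (rse182_Ed_ok hw _) (rse182_W3_N3 hw)

/-- (1) `h1` is below the record -/
theorem rse182_le1 : Rse182Le (rse182H1 Y 𝓛 K G a b ω₀) (rse182Rc Y 𝓛 K G a b ω₀) where
  sp := by
    show (rse182Rc Y 𝓛 K G a b ω₀).Sp ∪ ∅ ⊆ _
    rw [Finset.union_empty]
  sm := Finset.subset_union_left
  gp := by
    show (rse182Rc Y 𝓛 K G a b ω₀).Gp ∪ ∅ ⊆ _
    rw [Finset.union_empty]
  gm := Finset.subset_union_left
  cl1 := Finset.subset_union_left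
  cl2 := Finset.subset_union_left

/-- (3) the straight reference is below `h2` -/
theorem rse182_le3 (hl : Rse182Link Y t 𝓛) (hw : Y.WF) (hG : Rse182Geo Y 𝓛 K G a b) :
    Rse182Le (rse182H3 Y 𝓛 K G a b) (rse182H2 Y 𝓛 K G a b ω₀) where
  sp := Finset.union_subset_union_right (rse182_Sv_mono rse182_TB_sub_OM)
  sm := Finset.union_subset_union_right (rse182_Nm_sub hl hw hG)
  gp := Finset.union_subset_union_right (rse182_Ed_mono rse182_TB_sub_OM)
  gm := Finset.union_subset_union_right (rse182_Xw_sub hl hw hG)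
  cl1 := Finset.subset_union_left
  cl2 := Finset.subset_union_left

theorem rse182_Sv_V (T : Finset TV) : rse182Sv Y T ⊆ Y.V := fun _ hv => (rse182_mem_Sv.1 hv).1

theorem rse182_feas1 (hl : Rse182Link Y t 𝓛) (hS : 𝓛.Ok) (hw : Y.WF) (h0 : 0 < t) (h1 : t < 1) (hK : Rse182Legal Y K) (hG : Rse182Geo Y 𝓛 K G a b)
    (hZ : 0 < 𝓛.Z (rse182Holds Y (rse182Rc Y 𝓛 K G a b ω₀))) : 0 < 𝓛.Z (rse182Holds Y (rse182H1 Y 𝓛 K G a b ω₀)) := by
  classical
  have f0 : Rse182Feas Y (rse182Rc Y 𝓛 K G a b ω₀) := rse182_feas_conv hl (rse182_legal0 hw hK) hZ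
  refine rse182_feas hl hS h0 h1 ?_
  refine rse182_add_feas f0 (Finset.empty_subset _) (fun e he => absurd he (Finset.notMem_empty e)) (rse182_Xw_Nm hw) ?_ ?_
  · rw [Finset.union_empty, Finset.disjoint_union_right]
    exact ⟨f0.dis, Finset.disjoint_right.2 fun v hv => rse182_Nm_not_sp hv⟩
  · intro e he
    rw [Finset.empty_union] at he
    obtain ⟨q1, q2, q3⟩ := rse182_Xw_E he
    intro hc
    rcases rse182_rc_cl.1 hc with h | ⟨h, _⟩
    · exact (hG.clrE e q1 q3).2.2 h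
    · exact q2 (rse182_Q_sub_O (rse182_mem_Ed.1 h).2)

theorem rse182_feas2 (hl : Rse182Link Y t 𝓛) (hS : 𝓛.Ok) (hw : Y.WF) (h0 : 0 < t) (h1 : t < 1) (hK : Rse182Legal Y K) (hG : Rse182Geo Y 𝓛 K G a b)
    (hZ : 0 < 𝓛.Z (rse182Holds Y K)) : 0 < 𝓛.Z (rse182Holds Y (rse182H2 Y 𝓛 K G a b ω₀)) := by
  classical
  have f0 : Rse182Feas Y K := rse182_feas_conv hl hK hZ
  refine rse182_feas hl hS h0 h1 ?_
  refine rse182_add_feas f0 (rse182_Sv_V _) (rse182_Ed_ok hw _) (rse182_Xw_Nm hw) ?_ ?_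
  · rw [Finset.disjoint_union_left, Finset.disjoint_union_right, Finset.disjoint_union_right]
    exact ⟨⟨f0.dis, Finset.disjoint_right.2 fun v hv => (rse182_clr_Nm hG hv).1⟩,
      Finset.disjoint_left.2 fun v hv => (hG.clrV v (Or.inl (rse182_Sv_mono rse182_OM_sub_O hv))).2, rse182_Nm_disj hl hw hG⟩
  · intro e he
    rcases Finset.mem_union.1 he with h | h
    · have h' := rse182_Ed_mono rse182_OM_sub_O h
      exact (hG.clrE e (rse182_mem_Ed.1 h).1 ⟨e, h', rse182_touch_self e⟩).2.2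
    · obtain ⟨q1, _, q3⟩ := rse182_Xw_E h
      exact (hG.clrE e q1 q3).2.2

theorem rse182_feas3 (hl : Rse182Link Y t 𝓛) (hS : 𝓛.Ok) (hw : Y.WF) (h0 : 0 < t) (h1 : t < 1) (hK : Rse182Legal Y K) (hG : Rse182Geo Y 𝓛 K G a b)
    (hZ : 0 < 𝓛.Z (rse182Holds Y K)) : 0 < 𝓛.Z (rse182Holds Y (rse182H3 Y 𝓛 K G a b)) := by
  classical
  have f0 : Rse182Feas Y K := rse182_feas_conv hl hK hZ
  have hTB : rse182TB 𝓛 G a b ⊆ rse182O 𝓛 G a b := fun _ hy => (rse182_mem_TB.1 hy).1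
  have hW : ∀ w ∈ rse182W3 Y 𝓛 G a b, w ∈ Y.E ∧ ∃ m ∈ rse182Ed Y (rse182O 𝓛 G a b), Rse182Touch Y w m := by
    intro w hx
    obtain ⟨q1, ⟨m, hm, ht⟩, _⟩ := rse182_mem_W3.1 hx
    exact ⟨(rse182_mem_Out.1 q1).1, m, rse182_Ed_mono rse182_OT_sub_O hm, ht⟩
  have hN3 : ∀ v ∈ rse182N3 Y 𝓛 G a b, (v ∉ K.Sp ∧ v ∉ K.Sm) ∧ v ∉ rse182Sv Y (rse182TB 𝓛 G a b) := by
    intro v hv
    rcases Finset.mem_union.1 hv with h | h
    · obtain ⟨_, w, hx, hwv⟩ := rse182_mem_Ev.1 h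
      exact ⟨hG.clrV v (Or.inr ⟨w, (hW w hx).1, (hW w hx).2, hwv⟩), (rse182_mem_W3.1 hx).2.2 v hwv⟩
    · obtain ⟨q1, q2⟩ := Finset.mem_sdiff.1 h
      exact ⟨hG.clrV v (Or.inl (Finset.mem_inter.1 q1).1), q2⟩
  refine rse182_feas hl hS h0 h1 ?_
  refine rse182_add_feas f0 (rse182_Sv_V _) (rse182_Ed_ok hw _) (rse182_W3_N3 hw) ?_ ?_
  · rw [Finset.disjoint_union_left, Finset.disjoint_union_right, Finset.disjoint_union_right]
    exact ⟨⟨f0.dis, Finset.disjoint_right.2 fun v hv => (hN3 v hv).1.1⟩,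
      Finset.disjoint_left.2 fun v hv => (hG.clrV v (Or.inl (rse182_Sv_mono hTB hv))).2, Finset.disjoint_right.2 fun v hv => (hN3 v hv).2⟩
  · intro e he
    rcases Finset.mem_union.1 he with h | h
    · exact (hG.clrE e (rse182_mem_Ed.1 h).1 ⟨e, rse182_Ed_mono hTB h, rse182_touch_self e⟩).2.2
    · exact (hG.clrE e (hW e h).1 (hW e h).2).2.2

/-! ### the two splits -/

theorem rse182_cellR (hw : Y.WF) : ∀ e ∈ rse182ME Y 𝓛 G a b ω₀, e ∈ Y.E ∧ (∀ v, Rse182End Y e v → v ∈ rse182RV Y 𝓛 G a b ω₀) ∧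
    ∀ f, Rse182Fac Y e f → f ∈ rse182RF Y 𝓛 G a b ω₀ := by
  intro e he
  have hE := (rse182_mem_ME.1 he).1
  exact ⟨hE, fun v hv => rse182_Ed_Sv hw he hv, fun f hf => rse182_mem_RF.2 ⟨rse182_fac_F hw hE hf, e, he, hf⟩⟩

/-- an edge off `ME`: an edge of the box off `M`, or an outer edge -/
theorem rse182_ext_cases {w : (ℤ × ℤ) × Bool} (hE : w ∈ Y.E) (hM : w ∉ rse182ME Y 𝓛 G a b ω₀) :
    w ∈ rse182Ed Y (rse182OM 𝓛 G a b ω₀) ∨ w ∈ rse182Out Y 𝓛 G a b := by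
  by_cases hO : rtd111E w ∈ rse182O 𝓛 G a b
  · exact Or.inl (rse182_mem_Ed.2 ⟨hE, rse182_mem_OM.2 ⟨hO, fun h => hM (rse182_mem_ME.2 ⟨hE, h⟩)⟩⟩)
  · exact Or.inr (rse182_mem_Out.2 ⟨hE, hO⟩)

/-- the faces of an outer edge: wall, or ports, or not retained -/
theorem rse182_port_out {w : (ℤ × ℤ) × Bool} (hO : w ∈ rse182Out Y 𝓛 G a b) :
    w ∈ rse182Xw Y 𝓛 K G a b ω₀ ∨ ∀ f, Rse182Fac Y w f → f ∈ rse182RF Y 𝓛 G a b ω₀ → f ∈ rse182P Y 𝓛 K G a b ω₀ := by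
  classical
  by_cases hx : w ∈ rse182Xw Y 𝓛 K G a b ω₀
  · exact Or.inl hx
  · refine Or.inr fun f hf hR => ?_
    obtain ⟨hfF, m, hm, hmf⟩ := rse182_mem_RF.1 hR
    have hE : w ∈ rse182Eo Y 𝓛 G a b ω₀ := rse182_mem_Eo.2 ⟨hO, m, hm, f, hf, hmf⟩
    exact Finset.mem_inter.2 ⟨hR, rse182_mem_Ef.2 ⟨hfF, w, rse182_mem_Xp.2 ⟨hE, hx⟩, hf⟩⟩

/-- a retained vertex shared with an outer edge is pinned: plus by the record, or minus -/
theorem rse182_pin_out (hw : Y.WF) {w : (ℤ × ℤ) × Bool} (hO : w ∈ rse182Out Y 𝓛 G a b) {v : ℤ × ℤ} (hv : Rse182End Y w v)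
    (hR : v ∈ rse182RV Y 𝓛 G a b ω₀) : v ∈ (rse182Rc Y 𝓛 K G a b ω₀).Sp ∨ v ∈ rse182Nm Y 𝓛 K G a b ω₀ := by
  classical
  by_cases hb : v ∈ (rse182Rc Y 𝓛 K G a b ω₀).Sp
  · exact Or.inl hb
  · exact Or.inr (Finset.mem_union_right _ (Finset.mem_sdiff.2 ⟨Finset.mem_inter.2 ⟨hR,
      rse182_mem_Ev.2 ⟨rse182_end_V hw (rse182_mem_Out.1 hO).1 hv, w, hO, hv⟩⟩, hb⟩))

theorem rse182_split1 (hl : Rse182Link Y t 𝓛) (hw : Y.WF) (hG : Rse182Geo Y 𝓛 K G a b) :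
    Rse182Split Y (rse182H1 Y 𝓛 K G a b ω₀) (rse182RV Y 𝓛 G a b ω₀) (rse182RF Y 𝓛 G a b ω₀) (rse182ME Y 𝓛 G a b ω₀) (rse182P Y 𝓛 K G a b ω₀) where
  cellR := rse182_cellR hw
  pinX := by
    intro w hE hM v hv hR
    show v ∈ ((rse182Rc Y 𝓛 K G a b ω₀).Sp ∪ ∅) ∪ ((rse182Rc Y 𝓛 K G a b ω₀).Sm ∪ rse182Nm Y 𝓛 K G a b ω₀)
    rw [Finset.union_empty]
    rcases rse182_ext_cases hE hM with h | h
    · exact Finset.mem_union_left _ ((rse182_R_sp hl hG hR).2 (rse182_Ed_Sv hw h hv))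
    · rcases rse182_pin_out (K := K) hw h hv hR with h' | h'
      · exact Finset.mem_union_left _ h'
      · exact Finset.mem_union_right _ (Finset.mem_union_right _ h')
  portC := by
    intro w hE hM
    rcases rse182_ext_cases hE hM with h | h
    · by_cases ht : ∃ f, Rse182Fac Y w f ∧ f ∈ rse182RF Y 𝓛 G a b ω₀
      · obtain ⟨f, hf, hR⟩ := ht
        obtain ⟨_, m, hm, hmf⟩ := rse182_mem_RF.1 hR
        obtain ⟨hmE, hmM⟩ := rse182_mem_ME.1 hm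
        obtain ⟨hwO, hwM⟩ := rse182_mem_OM.1 (rse182_mem_Ed.1 h).2
        obtain ⟨q1, q2⟩ := (rse182_linkF_use hl hmM hwO (hG.inF m hmE w hE (rse182_M_sub_O hmM) hwO f hmf hf)).resolve_left hwM
        have hg : Y.Good true ω₀ w := by
          by_contra hn
          exact q2 ((hl.npE ω₀ w hE).2 hn)
        refine Or.inl (Finset.mem_union_left _ ?_)
        show w ∈ (rse182Rc Y 𝓛 K G a b ω₀).Gp ∪ ∅
        rw [Finset.union_empty]
        exact rse182_rc_gp.2 (Or.inr ⟨rse182_mem_Ed.2 ⟨hE, q1⟩, hg⟩)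
      · exact Or.inr fun f hf hR => absurd ⟨f, hf, hR⟩ ht
    · rcases rse182_port_out (K := K) (ω₀ := ω₀) h with h' | h'
      · exact Or.inl (Finset.mem_union_right _ (Finset.mem_union_right _ h'))
      · exact Or.inr h'

theorem rse182_split2 (hl : Rse182Link Y t 𝓛) (hw : Y.WF) (hG : Rse182Geo Y 𝓛 K G a b) :
    Rse182Split Y (rse182H2 Y 𝓛 K G a b ω₀) (rse182RV Y 𝓛 G a b ω₀) (rse182RF Y 𝓛 G a b ω₀) (rse182ME Y 𝓛 G a b ω₀) (rse182P Y 𝓛 K G a b ω₀) where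
  cellR := rse182_cellR hw
  pinX := by
    intro w hE hM v hv hR
    show v ∈ (K.Sp ∪ rse182Sv Y (rse182OM 𝓛 G a b ω₀)) ∪ (K.Sm ∪ rse182Nm Y 𝓛 K G a b ω₀)
    rcases rse182_ext_cases hE hM with h | h
    · exact Finset.mem_union_left _ (Finset.mem_union_right _ (rse182_Ed_Sv hw h hv))
    · rcases rse182_pin_out (K := K) hw h hv hR with h' | h'
      · exact Finset.mem_union_left _ (Finset.mem_union_right _ ((rse182_R_sp hl hG hR).1 h'))
      · exact Finset.mem_union_right _ (Finset.mem_union_right _ h')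
  portC := by
    intro w hE hM
    rcases rse182_ext_cases hE hM with h | h
    · exact Or.inl (Finset.mem_union_left _ (Finset.mem_union_right _ h))
    · rcases rse182_port_out (K := K) (ω₀ := ω₀) h with h' | h'
      · exact Or.inl (Finset.mem_union_right _ (Finset.mem_union_right _ h'))
      · exact Or.inr h'

/-- the two histories have the same retained data -/
theorem rse182_same (hl : Rse182Link Y t 𝓛) (hG : Rse182Geo Y 𝓛 K G a b) :
    (∀ v ∈ rse182RV Y 𝓛 G a b ω₀, (v ∈ (rse182H2 Y 𝓛 K G a b ω₀).Sp ↔ v ∈ (rse182H1 Y 𝓛 K G a b ω₀).Sp)) ∧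
    (∀ v ∈ rse182RV Y 𝓛 G a b ω₀, (v ∈ (rse182H2 Y 𝓛 K G a b ω₀).Sm ↔ v ∈ (rse182H1 Y 𝓛 K G a b ω₀).Sm)) ∧
    ∀ e ∈ rse182ME Y 𝓛 G a b ω₀, (e ∈ (rse182H2 Y 𝓛 K G a b ω₀).Gp ↔ e ∈ (rse182H1 Y 𝓛 K G a b ω₀).Gp) ∧
      (e ∈ (rse182H2 Y 𝓛 K G a b ω₀).Gm ↔ e ∈ (rse182H1 Y 𝓛 K G a b ω₀).Gm) ∧ (e ∈ (rse182H2 Y 𝓛 K G a b ω₀).Cl ↔ e ∈ (rse182H1 Y 𝓛 K G a b ω₀).Cl) := by
  classical
  refine ⟨fun v hv => ?_, fun v hv => ?_, fun e he => ?_⟩
  · show v ∈ K.Sp ∪ rse182Sv Y (rse182OM 𝓛 G a b ω₀) ↔ v ∈ (rse182Rc Y 𝓛 K G a b ω₀).Sp ∪ ∅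
    rw [Finset.union_empty, rse182_R_sp hl hG hv, Finset.mem_union]
    exact ⟨fun h => h.resolve_left (hG.clrV v (Or.inl (rse182_RV_sub_O hv))).1, Or.inr⟩
  · show v ∈ K.Sm ∪ rse182Nm Y 𝓛 K G a b ω₀ ↔ v ∈ (rse182Rc Y 𝓛 K G a b ω₀).Sm ∪ rse182Nm Y 𝓛 K G a b ω₀
    rw [Finset.mem_union, Finset.mem_union]
    exact ⟨fun h => Or.inr (h.resolve_left (hG.clrV v (Or.inl (rse182_RV_sub_O hv))).2), fun h => Or.inr (h.resolve_left (rse182_R_sm hl hG hv))⟩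
  · obtain ⟨hE, hM⟩ := rse182_mem_ME.1 he
    have nQ : e ∉ rse182Ed Y (rln182Q 𝓛 G a b ω₀) := fun h => (rse182_M_OnQ hM).2 (rse182_mem_Ed.1 h).2
    have nOM : e ∉ rse182Ed Y (rse182OM 𝓛 G a b ω₀) := fun h => (rse182_mem_OM.1 (rse182_mem_Ed.1 h).2).2 hM
    refine ⟨?_, ?_, ?_⟩
    · show e ∈ K.Gp ∪ rse182Ed Y (rse182OM 𝓛 G a b ω₀) ↔ e ∈ (rse182Rc Y 𝓛 K G a b ω₀).Gp ∪ ∅
      rw [Finset.union_empty, rse182_rc_gp, Finset.mem_union]
      exact ⟨fun h => Or.inl (h.resolve_right nOM), fun h => Or.inl (h.resolve_right fun h' => nQ h'.1)⟩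
    · show e ∈ K.Gm ∪ rse182Xw Y 𝓛 K G a b ω₀ ↔ e ∈ (rse182Rc Y 𝓛 K G a b ω₀).Gm ∪ rse182Xw Y 𝓛 K G a b ω₀
      rw [Finset.mem_union, Finset.mem_union, rse182_rc_gm]
      constructor
      · rintro (h | h)
        · exact Or.inl (Or.inl h)
        · exact Or.inr h
      · rintro ((h | h) | h)
        · exact Or.inl h
        · exact absurd h.1 nQ
        · exact Or.inr h
    · show e ∈ K.Cl ↔ e ∈ (rse182Rc Y 𝓛 K G a b ω₀).Cl
      rw [rse182_rc_cl]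
      exact ⟨Or.inl, fun h => h.resolve_right fun h' => nQ h'.1⟩

/-- an observable which reads only which cells of `M` are plus reads only the retained data -/
theorem rse182_loc (hl : Rse182Link Y t 𝓛) (hw : Y.WF) (hG : Rse182Geo Y 𝓛 K G a b) {F : RswCfg → ℝ} (hF : Rse182Loc 𝓛 (rse182M 𝓛 G a b ω₀) F) :
    ∀ ω ω' : RswCfg, (∀ v ∈ rse182RV Y 𝓛 G a b ω₀, (v ∈ ω.S ↔ v ∈ ω'.S)) → (∀ e ∈ rse182ME Y 𝓛 G a b ω₀, (e ∈ ω.O ↔ e ∈ ω'.O)) → F ω = F ω' := by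
  intro ω ω' hs ho
  refine hF ω ω' fun y hy => ?_
  rcases hG.pts y (rse182_M_sub_O hy) with ⟨v, hv, rfl⟩ | ⟨f, rfl⟩ | ⟨e, he, rfl⟩
  · rw [hl.npP ω v hv, hl.npP ω' v hv, hs v (rse182_mem_RV.2 ⟨hv, _, hy, Or.inl rfl⟩)]
  · exact ⟨fun _ => hl.npF ω' f, fun _ => hl.npF ω f⟩
  · have hm : e ∈ rse182ME Y 𝓛 G a b ω₀ := rse182_mem_ME.2 ⟨he, hy⟩
    obtain ⟨_, q2, _⟩ := rse182_cellR hw e hm
    rw [hl.npE ω e he, hl.npE ω' e he]
    unfold Rcy162Sys.Good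
    rw [ho e hm, hs _ (q2 _ (Or.inl rfl)), hs _ (q2 _ (Or.inr rfl))]

end facts

/-! ## 4. THE CHAIN -/

section chain

variable {Y : Rcy162Sys} {t : ℝ} {𝓛 : Rln182Law RswCfg TV} {K : RswCon} {G : LenGeo TV} {a b : ℤ}

/-- the sums under the record of `Len182` are the sums under the history `rse182Rc` -/
theorem rse182_rec_N (hl : Rse182Link Y t 𝓛) (hG : Rse182Geo Y 𝓛 K G a b) (ω₀ : RswCfg) (F : RswCfg → ℝ) :
    𝓛.N (rln182Rec 𝓛 (rse182Holds Y K) G a b ω₀) F = 𝓛.N (rse182Holds Y (rse182Rc Y 𝓛 K G a b ω₀)) F := by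
  refine rse182_N_congr 𝓛 (fun ω _ hw => ?_) F
  rw [hl.wt] at hw
  exact (rse182_obs_holds hl K _ (fun y hy => hG.pts y (rse182_Q_sub_O hy)) ω₀ ω hw).symm

/-- **the record of histories is met** -/
theorem rse182_hist_ok (hl : Rse182Link Y t 𝓛) (hS : 𝓛.Ok) (hw : Y.WF) (h0 : 0 < t) (h1 : t < 1) (hK : Rse182Legal Y K)
    (hO : Rse182Ord Y 𝓛 K) (hPo : Rse182Ports Y 𝓛) (hG : Rse182Geo Y 𝓛 K G a b)
    (hP : ∀ ω₀, Rse182Start 𝓛 (rse182Holds Y K) G a b ω₀ → (rse182P Y 𝓛 K G a b ω₀).card ≤ 4) :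
    (rse182Hs Y 𝓛 K G a b).Ok 𝓛 (rse182Holds Y K) G a b 64 := by
  have hZK : ∀ ω₀, Rse182Start 𝓛 (rse182Holds Y K) G a b ω₀ → 0 < 𝓛.Z (rse182Holds Y K) := by
    intro ω₀ st
    refine st.2.2.2.trans_le ?_
    classical
    unfold Rln182Law.Z Rln182Law.N
    refine Finset.sum_le_sum fun ω hω => ?_
    by_cases hh : rln182Rec 𝓛 (rse182Holds Y K) G a b ω₀ ω
    · rw [if_pos hh, if_pos hh.1]
    · rw [if_neg hh]
      split_ifs
      · rw [mul_one]; exact hS.wt_nonneg ω hω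
      · exact le_rfl
  have hZR : ∀ ω₀, Rse182Start 𝓛 (rse182Holds Y K) G a b ω₀ → 0 < 𝓛.Z (rse182Holds Y (rse182Rc Y 𝓛 K G a b ω₀)) := by
    intro ω₀ st
    have := st.2.2.2
    unfold Rln182Law.Z at this ⊢
    rwa [rse182_rec_N hl hG] at this
  refine ⟨fun ω₀ st => rse182_feas1 hl hS hw h0 h1 hK hG (hZR ω₀ st), fun ω₀ st => rse182_feas2 hl hS hw h0 h1 hK hG (hZK ω₀ st),
    fun ω₀ st => rse182_feas3 hl hS hw h0 h1 hK hG (hZK ω₀ st), fun ω₀ st F hF => ?_, fun ω₀ st F hF0 hF => ?_, fun ω₀ st F hF => ?_⟩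
  · have := hO _ _ (rse182_legal1 (𝓛 := 𝓛) (G := G) (a := a) (b := b) (ω₀ := ω₀) hw hK) (rse182_legal0 (𝓛 := 𝓛) (G := G) (a := a) (b := b) (ω₀ := ω₀) hw hK)
      (Finset.subset_union_left.trans Finset.subset_union_left) (Finset.subset_union_left.trans Finset.subset_union_left)
      Finset.subset_union_left Finset.subset_union_left rse182_le1 F hF
    unfold Rln182Law.Z at this ⊢
    rw [rse182_rec_N hl hG, rse182_rec_N hl hG]
    exact this
  · obtain ⟨e1, e2, e3⟩ := rse182_same (ω₀ := ω₀) hl hG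
    have s2 := hPo _ _ (rse182_legal2 (𝓛 := 𝓛) (G := G) (a := a) (b := b) (ω₀ := ω₀) hw hK) (rse182_legal1 (𝓛 := 𝓛) (G := G) (a := a) (b := b) (ω₀ := ω₀) hw hK)
      _ _ _ _ _ (rse182_split2 (ω₀ := ω₀) hl hw hG) (rse182_split1 (ω₀ := ω₀) hl hw hG) e1 e2 e3 F hF0 (rse182_loc hl hw hG hF)
    refine s2.trans (mul_le_mul_of_nonneg_right ?_ (mul_nonneg (rln182_Z_nonneg 𝓛 hS _) (rln182_N_nonneg 𝓛 hS _ _ fun ω _ => hF0 ω)))
    have h4 := hP ω₀ st
    calc (2 : ℝ) ^ (((rse182P Y 𝓛 K G a b ω₀).card - 1) + ((rse182P Y 𝓛 K G a b ω₀).card - 1)) ≤ 2 ^ 6 :=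
          pow_le_pow_right₀ (by norm_num) (by omega)
      _ = 64 := by norm_num
  · exact hO _ _ (rse182_legal3 (𝓛 := 𝓛) (G := G) (a := a) (b := b) hw hK) (rse182_legal2 (𝓛 := 𝓛) (G := G) (a := a) (b := b) (ω₀ := ω₀) hw hK)
      Finset.subset_union_left Finset.subset_union_left Finset.subset_union_left Finset.subset_union_left (rse182_le3 hl hw hG) F hF

/-- **THE ADAPTER ON AN EDGE-PAIR SYSTEM**: the strip estimate (SE) from (ORD), (PORTS), at most four ports and the straight short crossing under `h3 = rse182H3` -/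
theorem rse182_at_main (hl : Rse182Link Y t 𝓛) (hS : 𝓛.Ok) (hw : Y.WF) (h0 : 0 < t) (h1 : t < 1) (hK : Rse182Legal Y K)
    (hO : Rse182Ord Y 𝓛 K) (hPo : Rse182Ports Y 𝓛) (hG : Rse182Geo Y 𝓛 K G a b)
    (hP : ∀ ω₀, Rse182Start 𝓛 (rse182Holds Y K) G a b ω₀ → (rse182P Y 𝓛 K G a b ω₀).card ≤ 4)
    {c : ℝ} (hc : 0 ≤ c) (hL : Rse182LSS (rse182Hs Y 𝓛 K G a b) 𝓛 G c a b) : Rln182SE 𝓛 (rse182Holds Y K) G (c / 64) a b :=
  rse182_main hS hG.band _ (by norm_num) (rse182_hist_ok hl hS hw h0 h1 hK hO hPo hG hP) hc hL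

end chain

/-! ## 5. THE MIXED CYLINDER -/

section cylinder

/-- the cylinder of REFINED circumference `L` and REFINED height `H` (both even): base sizes `L / 2`, `H / 2`; refined rows `0..H` -/
noncomputable def rse182Y (L H : ℕ) : Rcy162Sys := rcy162Cyl (L / 2) 0 ((H / 2 : ℕ) : ℤ)

/-- **the law of the cylinder read on the refined lattice** (the five names of 162); cells = refined rows `0..H-1` -/
noncomputable def rse182Cyl (t : ℝ) (L H : ℕ) : Rln182Law RswCfg TV where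
  cfgs := (rse182Y L H).cfgs
  wt := (rse182Y L H).w t
  cells := sdCells L 0 H
  le := (rse182Y L H).Le
  np ω y := rcy162Fld (L / 2) (rse182Y L H) ω y ≠ 1
  agr := rcy162Agr (L / 2) (rse182Y L H)

/-- the mixed boundary condition as a history: `s` plus on the top row, minus on the bottom row -/
noncomputable def rse182KM (L H : ℕ) : RswCon := ⟨rcy162Row (L / 2) ((H / 2 : ℕ) : ℤ), rcy162Row (L / 2) 0, ∅, ∅, ∅⟩

theorem rse182_eqns_cite4 : True := by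
  have := @rse182Y.eq_1
  have := @rse182Cyl.eq_1
  have := @rse182KM.eq_1
  trivial

theorem rse182_KM_holds (L H : ℕ) (ω : RswCfg) : rse182Holds (rse182Y L H) (rse182KM L H) ω ↔ Rcy162Mix (L / 2) 0 ((H / 2 : ℕ) : ℤ) ω := by
  unfold rse182Holds rse182KM Rcy162Mix
  simp only [Finset.notMem_empty, false_imp_iff, implies_true, and_true]
  exact ⟨fun h => ⟨h.2, h.1⟩, fun h => ⟨h.2, h.1⟩⟩

theorem rse182_KM_legal (L H : ℕ) : Rse182Legal (rse182Y L H) (rse182KM L H) :=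
  ⟨fun e he => by simp [rse182KM] at he, fun e he => by simp [rse182KM] at he⟩

theorem rse182_cyl_ok {t : ℝ} (h0 : 0 ≤ t) (h1 : t ≤ 1) (L H : ℕ) : (rse182Cyl t L H).Ok where
  wt_nonneg := fun ω _ => rcy162_w_nonneg _ h0 h1 ω
  np_anti := by
    intro ω ω' hle y _ hn h1'
    have := rcy162_fld_mono (L / 2) hle y
    rw [h1'] at this
    exact hn (le_antisymm (by exact SignType.le_one _) this)
  agr_refl := fun Q ω => rcy162_agr_refl _ _ Q ω
  agr_symm := fun Q ω ω' h => rcy162_agr_symm h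
  agr_trans := fun Q ω ω' ω'' h h' => rcy162_agr_trans h h'
  agr_np := by
    intro Q ω ω' h y hy
    show rcy162Fld _ _ ω y ≠ 1 ↔ rcy162Fld _ _ ω' y ≠ 1
    rw [rcy162_agr_fld h hy]

theorem rse182_red_V {L H : ℕ} {v : ℤ × ℤ} (hv : v ∈ (rse182Y L H).V) : rcy162Red (L / 2) v = v := by
  obtain ⟨h1, _⟩ := rcy162_mem_cylV.1 hv
  exact rcy162_red_of_range h1.1 h1.2

theorem rse182_red_E {L H : ℕ} {e : (ℤ × ℤ) × Bool} (he : e ∈ (rse182Y L H).E) : rcy162RedE (L / 2) e = e := by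
  obtain ⟨h1, _⟩ := rcy162_mem_cylE.1 he
  unfold rcy162RedE
  rw [rcy162_red_of_range h1.1 h1.2]

theorem rse182_sgV_iff {Y : Rcy162Sys} {ω ω' : RswCfg} {v : ℤ × ℤ} (hv : v ∈ Y.V) : Y.sgV ω v = Y.sgV ω' v ↔ (v ∈ ω.S ↔ v ∈ ω'.S) := by
  unfold Rcy162Sys.sgV
  by_cases h1 : v ∈ ω.S <;> by_cases h2 : v ∈ ω'.S <;> simp [hv, h1, h2]

/-- **the law of the cylinder is linked to the edge-pair system** -/
theorem rse182_cyl_link (t : ℝ) {L H : ℕ} (hL : 0 < L / 2) : Rse182Link (rse182Y L H) t (rse182Cyl t L H) where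
  cfgs := rfl
  wt := rfl
  npE := by
    intro ω e he
    show rcy162Fld _ _ ω (rtd111E e) ≠ 1 ↔ _
    rw [rcy162_fld_E, rse182_red_E he, Ne, rcy162_sgE_one]
    exact ⟨fun h hg => h ⟨he, hg⟩, fun h hg => h hg.2⟩
  npP := by
    intro ω v hv
    show rcy162Fld _ _ ω (rtd111P v) ≠ 1 ↔ _
    rw [rcy162_fld_P, rse182_red_V hv, Ne, rcy162_sgV_one]
    exact ⟨fun h hg => h ⟨hv, hg⟩, fun h hg => h hg.2⟩
  npF := by
    intro ω f
    show rcy162Fld _ _ ω (rtd111F f) ≠ 1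
    rw [rcy162_fld_F]
    decide
  agr := by
    intro Q hQ ω ω'
    have hw : (rse182Y L H).WF := rcy162_cyl_wf hL 0 _
    have fP : ∀ (ω : RswCfg) (v : ℤ × ℤ), v ∈ (rse182Y L H).V → rcy162Fld (L / 2) (rse182Y L H) ω (rtd111P v) = (rse182Y L H).sgV ω v := by
      intro ω v hv
      rw [rcy162_fld_P, rse182_red_V hv]
    have fE : ∀ (ω : RswCfg) (e : (ℤ × ℤ) × Bool), e ∈ (rse182Y L H).E → rcy162Fld (L / 2) (rse182Y L H) ω (rtd111E e) = (rse182Y L H).sgE ω e := by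
      intro ω e he
      rw [rcy162_fld_E, rse182_red_E he]
    have fP1 : ∀ (ω : RswCfg) (e : (ℤ × ℤ) × Bool), rcy162Fld (L / 2) (rse182Y L H) ω (rtd111P (rswEnd e)) = (rse182Y L H).sgV ω ((rse182Y L H).p1 e) := by
      intro ω e
      rw [rcy162_fld_P]
      rfl
    constructor
    · intro h
      refine ⟨fun v hv => ?_, fun e he => ?_⟩
      · obtain ⟨hvV, y, hy, hc⟩ := rse182_mem_Sv.1 hv
        rcases hc with rfl | ⟨e, he, rfl, hev | hev⟩
        · have := (h _ hy).1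
          rw [fP ω v hvV, fP ω' v hvV] at this
          exact (rse182_sgV_iff hvV).1 this
        · have := ((h _ hy).2 e rfl).1
          have e0 : e.1 = v := hev.symm
          rw [e0, fP ω v hvV, fP ω' v hvV] at this
          exact (rse182_sgV_iff hvV).1 this
        · have := ((h _ hy).2 e rfl).2
          rw [fP1, fP1, ← hev] at this
          exact (rse182_sgV_iff hvV).1 this
      · obtain ⟨heE, heQ⟩ := rse182_mem_Ed.1 he
        have := (h _ heQ).1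
        rwa [fE ω e heE, fE ω' e heE] at this
    · rintro ⟨a1, a2⟩ y hy
      rcases hQ y hy with ⟨v, hv, rfl⟩ | ⟨f, rfl⟩ | ⟨e, he, rfl⟩
      · refine ⟨?_, fun e he => absurd he (rtd111_P_ne_E v e)⟩
        rw [fP ω v hv, fP ω' v hv]
        exact (rse182_sgV_iff hv).2 (a1 v (rse182_mem_Sv.2 ⟨hv, _, hy, Or.inl rfl⟩))
      · refine ⟨?_, fun e he => absurd he (rtd111_F_ne_E f e)⟩
        rw [rcy162_fld_F, rcy162_fld_F]
      · refine ⟨?_, fun e' he' => ?_⟩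
        · rw [fE ω e he, fE ω' e he]
          exact a2 e (rse182_mem_Ed.2 ⟨he, hy⟩)
        · have ee : e' = e := (rtd111_E_inj he').symm
          subst ee
          have hp0 : e'.1 ∈ (rse182Y L H).V := hw.p0 e' he
          have hp1 : (rse182Y L H).p1 e' ∈ (rse182Y L H).V := hw.p1 e' he
          refine ⟨?_, ?_⟩
          · rw [fP ω _ hp0, fP ω' _ hp0]
            exact (rse182_sgV_iff hp0).2 (a1 _ (rse182_mem_Sv.2 ⟨hp0, _, hy, Or.inr ⟨e', he, rfl, Or.inl rfl⟩⟩))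
          · rw [fP1, fP1]
            exact (rse182_sgV_iff hp1).2 (a1 _ (rse182_mem_Sv.2 ⟨hp1, _, hy, Or.inr ⟨e', he, rfl, Or.inr rfl⟩⟩))

/-! ## 6. THE EXITS OF A2 ON THE MIXED CYLINDER, FROM CLOSED CONTRACTS -/

/-- the constraint of the family: the mixed boundary condition -/
def rse182K (L H : ℕ) : RswCfg → Prop := rse182Holds (rse182Y L H) (rse182KM L H)

/-- the plus cells of a status field, refined rows `0..H-1` -/
def rse182Plus (H : ℕ) (τ : CyF) : Set TV := {y | 0 ≤ y.2 ∧ y.2 < H ∧ τ y = 1}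

/-- **the admissible boxes of (SE)**: refined sizes even, rows `k`, `k + r - 1` even, columns `a`, `b` odd, the inequalities of `Rln182CSE2` -/
structure Rse182Box (L H : ℕ) (k r w a b : ℤ) : Prop where
  eL : L % 2 = 0
  eH : H % 2 = 0
  ek : k % 2 = 0
  er : r % 2 = 1
  ea : a % 2 = 1
  eb : b % 2 = 1
  h1 : 10 * r ≤ L
  h2 : 12 + r ≤ 4 * k
  h3 : 4 * k + 5 * r ≤ 4 * (H : ℤ) - 16
  h4 : w + 3 ≤ a
  h5 : b + 3 < w + L
  h6 : 7 * r ≤ 2 * (b - a)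
  h7 : b - a ≤ 5 * r

/-- CONTRACT (geometry of the chart; pen 262) -/
def Rse182CGeo (t : ℝ) : Prop :=
  ∀ (L H : ℕ) (k r w a b : ℤ), Rse182Box L H k r w a b →
    Rse182Geo (rse182Y L H) (rse182Cyl t L H) (rse182KM L H) (lcyG L H w k (k + r - 1)) a b

/-- CONTRACT (at most four ports; pen 31) -/
def Rse182CP4 (t : ℝ) : Prop :=
  ∀ (L H : ℕ) (k r w a b : ℤ), Rse182Box L H k r w a b → ∀ ω₀, Rse182Start (rse182Cyl t L H) (rse182K L H) (lcyG L H w k (k + r - 1)) a b ω₀ →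
    (rse182P (rse182Y L H) (rse182Cyl t L H) (rse182KM L H) (lcyG L H w k (k + r - 1)) a b ω₀).card ≤ 4

/-- CONTRACT (order of legal histories; pen 12) -/
def Rse182COrd (t : ℝ) : Prop :=
  ∀ L H : ℕ, L % 2 = 0 → H % 2 = 0 → 3 ≤ L → 1 ≤ H → Rse182Ord (rse182Y L H) (rse182Cyl t L H) (rse182KM L H)

/-- CONTRACT (ports; pen 102) -/
def Rse182CPorts (t : ℝ) : Prop :=
  ∀ L H : ℕ, L % 2 = 0 → H % 2 = 0 → 3 ≤ L → 1 ≤ H → Rse182Ports (rse182Y L H) (rse182Cyl t L H)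

/-- CONTRACT (straight short crossing under `h3`; pens 131 291) -/
def Rse182CLSS (t : ℝ) : Prop :=
  ∃ c : ℝ, 0 < c ∧ ∃ r₀ : ℕ, ∀ (L H : ℕ) (k r w a b : ℤ), Rse182Box L H k r w a b → (r₀ : ℤ) ≤ r →
    Rse182LSS (rse182Hs (rse182Y L H) (rse182Cyl t L H) (rse182KM L H) (lcyG L H w k (k + r - 1)) a b) (rse182Cyl t L H) (lcyG L H w k (k + r - 1)) c a b

theorem rse182_eqns_cite5 : True := by
  have := @rse182K.eq_1
  have := @rse182Plus.eq_1
  have := @Rse182CGeo.eq_1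
  have := @Rse182CP4.eq_1
  have := @Rse182COrd.eq_1
  have := @Rse182CPorts.eq_1
  have := @Rse182CLSS.eq_1
  trivial

theorem rse182_cyl_fam {t : ℝ} (h0 : 0 ≤ t) (h1 : t ≤ 1) : Rln182Cyl (rse182Cyl t) := ⟨fun L H => rse182_cyl_ok h0 h1 L H, fun _ _ => rfl⟩

/-- **(SE) on the mixed cylinder** -/
theorem rse182_cse {t : ℝ} (h0 : 0 < t) (h1 : t < 1) (hG : Rse182CGeo t) (hP : Rse182CP4 t) (hO : Rse182COrd t) (hPo : Rse182CPorts t)
    (hL : Rse182CLSS t) : Rln182CSE2 (rse182Cyl t) rse182K := by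
  obtain ⟨c, hc, r₀, hL⟩ := hL
  refine ⟨c / 64, by positivity, max r₀ 1, ?_⟩
  intro L H k r w a b eL eH ek er ea eb hr q1 q2 q3 q4 q5 q6 q7
  have hr' : ((max r₀ 1 : ℕ) : ℤ) ≤ r := hr
  have hr0 : (r₀ : ℤ) ≤ r := le_trans (by exact_mod_cast le_max_left _ _) hr'
  have hr1 : (1 : ℤ) ≤ r := le_trans (by exact_mod_cast le_max_right r₀ 1) hr'
  have hB : Rse182Box L H k r w a b := ⟨eL, eH, ek, er, ea, eb, q1, q2, q3, q4, q5, q6, q7⟩
  have hL3 : 3 ≤ L := by omega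
  have hH1 : 1 ≤ H := by omega
  have hL2 : 0 < L / 2 := by omega
  exact rse182_at_main (rse182_cyl_link t hL2) (rse182_cyl_ok h0.le h1.le L H) (rcy162_cyl_wf hL2 0 _) h0 h1 (rse182_KM_legal L H)
    (hO L H eL eH hL3 hH1) (hPo L H eL eH hL3 hH1) (hG L H k r w a b hB) (hP L H k r w a b hB) hc.le (hL L H k r w a b hB hr0)

theorem rse182_per_mul {P : ℤ} {τ : CyF} (h : CyPer P τ) (k : ℤ) (u : ℤ × ℤ) : τ (u + (k * P, 0)) = τ u := by
  induction k using Int.induction_on with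
  | zero =>
    have : u + ((0 : ℤ) * P, (0 : ℤ)) = u := by ext <;> simp
    rw [this]
  | succ i ih =>
    have := h (u + ((i : ℤ) * P, 0))
    rw [ih] at this
    rw [← this]
    congr 1
    ext <;> simp <;> ring
  | pred i ih =>
    have := h (u + ((-(i : ℤ) - 1) * P, 0))
    rw [← ih, ← this]
    congr 1
    ext <;> simp <;> ring

/-- the lifted set of the plus cells is the set of the plus cells of the status field of 162 -/
theorem rse182_set_eq (t : ℝ) {L : ℕ} (H : ℕ) (eL : L % 2 = 0) (hL : 0 < L) (ω : RswCfg) :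
    rln182Set (rse182Cyl t L H) L ω = rse182Plus H (rcy162Fld (L / 2) (rse182Y L H) ω) := by
  have hper : CyPer (L : ℤ) (rcy162Fld (L / 2) (rse182Y L H) ω) := by
    have := rcy162_fld_per (L / 2) (rse182Y L H) ω
    have e : 2 * ((L / 2 : ℕ) : ℤ) = (L : ℤ) := by omega
    rwa [e] at this
  ext y
  have hred : rcy162Fld (L / 2) (rse182Y L H) ω (sdRed L y) = rcy162Fld (L / 2) (rse182Y L H) ω y := by
    have := rse182_per_mul hper (-(y.1 / (L : ℤ))) y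
    rw [← this]
    congr 1
    unfold sdRed
    ext
    · simp only [Prod.fst_add]
      have := Int.emod_add_mul_ediv y.1 (L : ℤ)
      linarith
    · simp
  have hL' : (0 : ℤ) < L := by exact_mod_cast hL
  show (sdRed L y ∈ sdCells L 0 H ∧ ¬ rcy162Fld (L / 2) (rse182Y L H) ω (sdRed L y) ≠ 1) ↔ (0 ≤ y.2 ∧ y.2 < H ∧ rcy162Fld (L / 2) (rse182Y L H) ω y = 1)
  rw [hred, not_not]
  unfold sdCells sdRed
  simp only [Finset.mem_product, Finset.mem_Ico]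
  constructor
  · rintro ⟨⟨_, q1, q2⟩, q3⟩
    exact ⟨q1, q2, q3⟩
  · rintro ⟨q1, q2, q3⟩
    exact ⟨⟨⟨Int.emod_nonneg _ hL'.ne', Int.emod_lt_of_pos _ hL'⟩, q1, q2⟩, q3⟩

/-- **BRIDGE to the law of the field of 162** -/
theorem rse182_P_Q (t : ℝ) {L : ℕ} (H : ℕ) (eL : L % 2 = 0) (hL : 0 < L) (E : Set TV → Prop) :
    rln182P (rse182Cyl t) rse182K L H E = rcy162Q t (L / 2) (H / 2) {τ | E (rse182Plus H τ)} := by
  classical
  have hL2 : 0 < L / 2 := by omega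
  have hK : rse182K L H = Rcy162Mix (L / 2) 0 ((H / 2 : ℕ) : ℤ) := funext fun ω => propext (rse182_KM_holds L H ω)
  have hQ : rcy162Q t (L / 2) (H / 2) {τ | E (rse182Plus H τ)} =
      (rse182Y L H).Pr t (Rcy162Mix (L / 2) 0 ((H / 2 : ℕ) : ℤ)) (fun ω => E (rse182Plus H (rcy162Fld (L / 2) (rse182Y L H) ω))) := rfl
  have e : (rln182Ind fun ω => E (rln182Set (rse182Cyl t L H) L ω)) =
      fun ω => if E (rse182Plus H (rcy162Fld (L / 2) (rse182Y L H) ω)) then (1 : ℝ) else 0 := by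
    funext ω
    unfold rln182Ind
    simp only [rse182_set_eq t H eL hL ω]
  rw [hQ, rcy162_P_def]
  unfold rln182P Rln182Law.P Rln182Law.Z Rcy162Sys.Ex
  rw [rse182_N_sum (rse182_cyl_link t hL2), rse182_N_sum (rse182_cyl_link t hL2), hK, e]

/-- even shifts -/
theorem rse182_cyl_shift (t : ℝ) : Rln182Shift2 (rse182Cyl t) rse182K := by
  intro L H a E eL eH hL3
  have hL : 0 < L := by omega
  rw [rse182_P_Q t H eL hL, rse182_P_Q t H eL hL, ← rcy162_Q_shift t (by omega : 0 < L / 2) (H / 2) a {τ | E (rse182Plus H τ)}]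
  congr 1
  ext τ
  show E {y | y + (2 * a, 0) ∈ rse182Plus H τ} ↔ E (rse182Plus H fun u => τ (u + (2 * a, 0)))
  have : {y | y + (2 * a, 0) ∈ rse182Plus H τ} = rse182Plus H fun u => τ (u + (2 * a, 0)) := by
    ext y
    unfold rse182Plus
    simp
  rw [this]

/-- refined fields: a non-plus cell of an even row has non-plus cells above and below it -/
theorem rse182_cyl_ref (t : ℝ) : Rln182Ref2 (rse182Cyl t) := by
  intro L H ω eL eH u hu u' hu' h2 e1 e2 hn h1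
  have huL : 0 < L := by
    have : u ∈ sdCells L 0 H := hu
    unfold sdCells at this
    simp only [Finset.mem_product, Finset.mem_Ico] at this
    omega
  have href := rcy162_ref_fld (by omega : 0 < L / 2) 0 ((H / 2 : ℕ) : ℤ) ω
  have h1' : rcy162Fld (L / 2) (rcy162Cyl (L / 2) 0 ((H / 2 : ℕ) : ℤ)) ω u' = 1 := h1
  refine hn ?_
  show rcy162Fld (L / 2) (rcy162Cyl (L / 2) 0 ((H / 2 : ℕ) : ℤ)) ω u = 1
  obtain ⟨x, y⟩ := u
  obtain ⟨x', y'⟩ := u'
  simp only at h2 e1 e2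
  have e1' : x = x' := e1.symm
  subst e1'
  rcases Int.emod_two_eq_zero_or_one x with hx | hx
  · -- `u` is a vertex point, `u'` the point of a vertical edge
    rcases e2 with rfl | rfl
    · have eE : ((x, y + 1) : ℤ × ℤ) = rtd111E ((x / 2, y / 2), true) := by
        rw [rtd111_E_t]; ext <;> simp <;> omega
      have eP : ((x, y) : ℤ × ℤ) = rtd111P ((x / 2, y / 2), true).1 := by
        unfold rtd111P; ext <;> simp <;> omega
      rw [eE] at h1'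
      have := (href.2 _ (by rw [h1']; decide)).1
      rw [eP, this, h1']
    · have eE : ((x, y - 1) : ℤ × ℤ) = rtd111E ((x / 2, y / 2 - 1), true) := by
        rw [rtd111_E_t]; ext <;> simp <;> omega
      have eP : ((x, y) : ℤ × ℤ) = rtd111P (rswEnd ((x / 2, y / 2 - 1), true)) := by
        rw [rtd111_end_t]; unfold rtd111P; ext <;> simp <;> omega
      rw [eE] at h1'
      have := (href.2 _ (by rw [h1']; decide)).2
      rw [eP, this, h1']
  · -- `u'` is a face point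
    exfalso
    have eF : ((x, y') : ℤ × ℤ) = rtd111F (x / 2, (y' - 1) / 2) := by
      unfold rtd111F; ext <;> simp <;> omega
    rw [eF, href.1] at h1'
    exact absurd h1' (by decide)

/-- **EXIT: horizontal lengthening on the mixed cylinder** (even refined sizes, all rows) -/
theorem rse182_cyl_len {t : ℝ} (h0 : 0 < t) (h1 : t < 1) (hG : Rse182CGeo t) (hP : Rse182CP4 t) (hO : Rse182COrd t) (hPo : Rse182CPorts t)
    (hL : Rse182CLSS t) (hF : Rln182CFkg2 (rse182Cyl t) rse182K) : Rln182Len2 (rse182Cyl t) rse182K :=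
  rln182_len2 (rse182_cyl_fam h0.le h1.le) (rse182_cyl_ref t) (rse182_cse h0 h1 hG hP hO hPo hL) hF (rse182_cyl_shift t)

/-- **EXIT: averaged gluing on the mixed cylinder** (even refined sizes, all rows) -/
theorem rse182_cyl_glue {t : ℝ} (h0 : 0 < t) (h1 : t < 1) (hG : Rse182CGeo t) (hP : Rse182CP4 t) (hO : Rse182COrd t) (hPo : Rse182CPorts t)
    (hL : Rse182CLSS t) (hF : Rln182CFkg2 (rse182Cyl t) rse182K) : Rln182Glue2 (rse182Cyl t) rse182K :=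
  rln182_glue2 (rse182_cyl_fam h0.le h1.le) (rse182_cyl_ref t) (rse182_cse h0 h1 hG hP hO hPo hL) hF

end cylinder

open Claims.C0467 (triAdj)

/-! ## 7. THE CLOSED CONTRACTS WHICH ARE PROVED: (PORTS) AND THE GEOMETRY OF THE CHART -/

/-- **(PORTS) holds** (producer: `rpo102_ports_raw` of `Rsw/Ports102`) -/
theorem rse182_ports_holds {Y : Rcy162Sys} {t : ℝ} {𝓛 : Rln182Law RswCfg TV} (hl : Rse182Link Y t 𝓛) (hw : Y.WF) (h0 : 0 ≤ t) (h1 : t ≤ 1) :
    Rse182Ports Y 𝓛 := by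
  intro K₁ K₂ _ _ RV RF ME P₁ P₂ s₁ s₂ hSp hSm hE F hF0 hF
  unfold Rln182Law.Z
  rw [rse182_N_sum hl, rse182_N_sum hl, rse182_N_sum hl, rse182_N_sum hl]
  exact rpo102_ports_raw hw h0 h1 K₁ K₂ RV RF ME P₁ P₂ s₁.cellR s₁.pinX s₁.portC s₂.pinX s₂.portC hSp hSm hE F hF0 hF

/-- **the contract (PORTS) of the cylinder is closed** -/
theorem rse182_cports {t : ℝ} (h0 : 0 ≤ t) (h1 : t ≤ 1) : Rse182CPorts t := by
  intro L H eL eH hL3 hH1
  have hL2 : 0 < L / 2 := by omega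
  exact rse182_ports_holds (rse182_cyl_link t hL2) (rcy162_cyl_wf hL2 0 _) h0 h1

/-- arithmetic form of: the refined point `u` carries the vertex `v` -/
def Rse182PC (u v : ℤ × ℤ) : Prop :=
  (u.1 = 2 * v.1 ∧ u.2 = 2 * v.2) ∨ (u.1 = 2 * v.1 + 1 ∧ u.2 = 2 * v.2) ∨ (u.1 = 2 * v.1 - 1 ∧ u.2 = 2 * v.2) ∨
    (u.1 = 2 * v.1 ∧ u.2 = 2 * v.2 + 1) ∨ (u.1 = 2 * v.1 ∧ u.2 = 2 * v.2 - 1)

/-- arithmetic form of: `u` is the refined point of an edge of the face `f` -/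
def Rse182PF (u f : ℤ × ℤ) : Prop :=
  (u.1 = 2 * f.1 + 1 ∧ u.2 = 2 * f.2) ∨ (u.1 = 2 * f.1 + 1 ∧ u.2 = 2 * f.2 + 2) ∨ (u.1 = 2 * f.1 ∧ u.2 = 2 * f.2 + 1) ∨
    (u.1 = 2 * f.1 + 2 ∧ u.2 = 2 * f.2 + 1)

theorem rse182_eqns_cite6 : True := by
  have := @Rse182PC.eq_1
  have := @Rse182PF.eq_1
  trivial

theorem rse182_emod_two {l : ℤ} (hl : 0 < l) (x c : ℤ) (hc0 : 0 ≤ c) (hc : c < 2) : (2 * x + c) % (2 * l) = 2 * (x % l) + c := by
  have h1 := Int.emod_add_mul_ediv x l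
  have h2 := Int.emod_nonneg x hl.ne'
  have h3 := Int.emod_lt_of_pos x hl
  have e : 2 * x + c = (2 * (x % l) + c) + (2 * l) * (x / l) := by linear_combination (-2) * h1
  rw [e, Int.add_mul_emod_self_left, Int.emod_eq_of_lt (by omega) (by omega)]

theorem rse182_mod_eq {l x y : ℤ} (h : x % l = y % l) (h1 : x - y < l) (h2 : y - x < l) : x = y := by
  have e1 := Int.emod_add_mul_ediv x l
  have e2 := Int.emod_add_mul_ediv y l
  have e3 : x - y = l * (x / l - y / l) := by linear_combination e2 - e1 + h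
  by_contra hne
  have hq : x / l - y / l ≠ 0 := by
    intro h0
    rw [h0, mul_zero] at e3
    exact hne (by omega)
  rcases lt_or_gt_of_ne hq with hq | hq
  · have hl : 0 < l := by omega
    nlinarith
  · have hl : 0 < l := by omega
    nlinarith

section red

variable {L : ℕ}

theorem rse182_red_P (eL : L % 2 = 0) (hL : 0 < L) (v : ℤ × ℤ) : sdRed L (rtd111P v) = rtd111P (rcy162Red (L / 2) v) := by
  have e : (L : ℤ) = 2 * ((L / 2 : ℕ) : ℤ) := by omega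
  have hl : (0 : ℤ) < ((L / 2 : ℕ) : ℤ) := by omega
  have := rse182_emod_two hl v.1 0 le_rfl (by norm_num)
  unfold sdRed rtd111P rcy162Red
  ext
  · simp only
    rw [e]
    simp only [add_zero] at this
    exact this
  · rfl

theorem rse182_red_F (eL : L % 2 = 0) (hL : 0 < L) (f : ℤ × ℤ) : sdRed L (rtd111F f) = rtd111F (rcy162Red (L / 2) f) := by
  have e : (L : ℤ) = 2 * ((L / 2 : ℕ) : ℤ) := by omega
  have hl : (0 : ℤ) < ((L / 2 : ℕ) : ℤ) := by omega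
  have := rse182_emod_two hl f.1 1 (by norm_num) (by norm_num)
  unfold sdRed rtd111F rcy162Red
  ext
  · simp only
    rw [e]
    exact this
  · rfl

theorem rse182_red_Ee (eL : L % 2 = 0) (hL : 0 < L) (e : (ℤ × ℤ) × Bool) : sdRed L (rtd111E e) = rtd111E (rcy162RedE (L / 2) e) := by
  have e' : (L : ℤ) = 2 * ((L / 2 : ℕ) : ℤ) := by omega
  have hl : (0 : ℤ) < ((L / 2 : ℕ) : ℤ) := by omega
  obtain ⟨⟨x, y⟩, bb⟩ := e
  cases bb
  · have := rse182_emod_two hl x 1 (by norm_num) (by norm_num)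
    show ((2 * x + 1) % (L : ℤ), 2 * y) = (2 * (x % ((L / 2 : ℕ) : ℤ)) + 1, 2 * y)
    rw [e', this]
  · have := rse182_emod_two hl x 0 le_rfl (by norm_num)
    show ((2 * x) % (L : ℤ), 2 * y + 1) = (2 * (x % ((L / 2 : ℕ) : ℤ)), 2 * y + 1)
    rw [e']
    simp only [add_zero] at this
    rw [this]

theorem rse182_red_inj {l : ℕ} {u v : ℤ × ℤ} (h : rcy162Red l u = rcy162Red l v) (h1 : u.1 - v.1 < l) (h2 : v.1 - u.1 < l) : u = v := by
  unfold rcy162Red at h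
  simp only [Prod.mk.injEq] at h
  exact Prod.ext (rse182_mod_eq h.1 h1 h2) h.2

end red

/-! ### the planar lemmas (pure arithmetic) -/

theorem rse182_pl_inV {a b c d : ℤ} {u u' v : ℤ × ℤ} (hu : u ∈ tscBox a b c d) (hu' : u' ∈ tscBox a b c d) (a1 : Rse182PC u v) (a2 : Rse182PC u' v) :
    u = u' ∨ triAdj u u' ∨ (rtd111P v ∈ tscBox a b c d ∧ triAdj u (rtd111P v) ∧ triAdj (rtd111P v) u') := by
  obtain ⟨p1, p2, p3, p4⟩ := hu
  obtain ⟨q1, q2, q3, q4⟩ := hu'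
  simp only [tsc_adj_iff, rtd111_mem_box, rtd111P]
  rcases a1 with ⟨x1, x2⟩ | ⟨x1, x2⟩ | ⟨x1, x2⟩ | ⟨x1, x2⟩ | ⟨x1, x2⟩ <;>
  rcases a2 with ⟨y1, y2⟩ | ⟨y1, y2⟩ | ⟨y1, y2⟩ | ⟨y1, y2⟩ | ⟨y1, y2⟩ <;>
  first
    | exact Or.inl (Prod.ext (by omega) (by omega))
    | exact Or.inr (Or.inl (by omega))
    | exact Or.inr (Or.inr ⟨by omega, by omega, by omega⟩)

theorem rse182_pl_inF {a b c d : ℤ} {u u' f : ℤ × ℤ} (hu : u ∈ tscBox a b c d) (hu' : u' ∈ tscBox a b c d) (a1 : Rse182PF u f) (a2 : Rse182PF u' f) :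
    u = u' ∨ (rtd111F f ∈ tscBox a b c d ∧ triAdj u (rtd111F f) ∧ triAdj (rtd111F f) u') := by
  obtain ⟨p1, p2, p3, p4⟩ := hu
  obtain ⟨q1, q2, q3, q4⟩ := hu'
  simp only [tsc_adj_iff, rtd111_mem_box, rtd111F]
  rcases a1 with ⟨x1, x2⟩ | ⟨x1, x2⟩ | ⟨x1, x2⟩ | ⟨x1, x2⟩ <;>
  rcases a2 with ⟨y1, y2⟩ | ⟨y1, y2⟩ | ⟨y1, y2⟩ | ⟨y1, y2⟩ <;>
  first
    | exact Or.inl (Prod.ext (by omega) (by omega))
    | exact Or.inr ⟨by omega, by omega, by omega⟩

theorem rse182_pl_outV {a b c d : ℤ} (ea : a % 2 = 1) (eb : b % 2 = 1) (ec : c % 2 = 0) (ed : d % 2 = 0) {m w y f v : ℤ × ℤ}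
    (hm : m ∈ tscBox a b c d) (hy : y ∈ tscBox a b c d) (hw : w ∉ tscBox a b c d) (a1 : Rse182PF m f) (a2 : Rse182PF w f) (a3 : Rse182PC w v)
    (a4 : Rse182PC y v) :
    m = y ∨ (rtd111F f ∈ tscBox a b c d ∧ triAdj m (rtd111F f) ∧ triAdj (rtd111F f) y) ∨
      (rtd111P v ∈ tscBox a b c d ∧ triAdj m (rtd111P v) ∧ (rtd111P v = y ∨ triAdj (rtd111P v) y)) := by
  obtain ⟨p1, p2, p3, p4⟩ := hm
  obtain ⟨q1, q2, q3, q4⟩ := hy
  have hw' : ¬ (a ≤ w.1 ∧ w.1 ≤ b ∧ c ≤ w.2 ∧ w.2 ≤ d) := hw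
  have cor : (v.1 = f.1 ∨ v.1 = f.1 + 1) ∧ (v.2 = f.2 ∨ v.2 = f.2 + 1) := by
    unfold Rse182PF at a2
    unfold Rse182PC at a3
    omega
  have key : (a ≤ 2 * f.1 + 1 ∧ 2 * f.1 + 1 ≤ b ∧ c ≤ 2 * f.2 + 1 ∧ 2 * f.2 + 1 ≤ d) → (2 * f.1 + 1 = a ∧ v.1 = f.1) ∨ (2 * f.1 + 1 = b ∧ v.1 = f.1 + 1) := by
    unfold Rse182PF at a2
    unfold Rse182PC at a3
    omega
  clear a2 a3 hw hw'
  obtain ⟨c1, c2⟩ := cor
  simp only [tsc_adj_iff, rtd111_mem_box, rtd111F, rtd111P]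
  rcases a1 with ⟨x1, x2⟩ | ⟨x1, x2⟩ | ⟨x1, x2⟩ | ⟨x1, x2⟩ <;>
  rcases a4 with ⟨y1, y2⟩ | ⟨y1, y2⟩ | ⟨y1, y2⟩ | ⟨y1, y2⟩ | ⟨y1, y2⟩ <;>
  rcases c1 with c1 | c1 <;> rcases c2 with c2 | c2 <;>
  first
    | (exfalso; omega)
    | exact Or.inl (Prod.ext (by omega) (by omega))
    | exact Or.inr (Or.inl ⟨by omega, by omega, by omega⟩)
    | exact Or.inr (Or.inr ⟨by omega, by omega, Or.inl (Prod.ext (by omega) (by omega))⟩)
    | exact Or.inr (Or.inr ⟨by omega, by omega, Or.inr (by omega)⟩)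

/-! ### lifts -/

section lifts

variable {t : ℝ} {L H : ℕ} {k r w a b : ℤ}

theorem rse182_box_pos (hB : Rse182Box L H k r w a b) : 1 ≤ r ∧ 10 ≤ L ∧ 4 ≤ k ∧ k + r - 1 ≤ (H : ℤ) - 5 := by
  obtain ⟨eL, eH, ek, er, ea, eb, h1, h2, h3, h4, h5, h6, h7⟩ := hB
  omega

/-- a lifted point of the box goes down to a cell of the box -/
theorem rse182_O_down (hB : Rse182Box L H k r w a b) {u : TV} (hu : u ∈ tscBox a b k (k + r - 1)) :
    sdRed L u ∈ rse182O (rse182Cyl t L H) (lcyG L H w k (k + r - 1)) a b ∧ lcyLift L w (sdRed L u) = u := by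
  obtain ⟨q1, q2, q3, q4⟩ := rse182_box_pos hB
  have hb := lcy_box_down (L := L) (H := H) (w := w) (a := a) (b := b) (c := k) (d := k + r - 1) (by omega) (by have := hB.h4; omega)
    (by have := hB.h5; omega) (by omega) (by omega) hu
  obtain ⟨u1, u2, u3, u4⟩ := hu
  exact ⟨rse182_mem_O.2 ⟨hb.1.1, hb⟩, lcy_lift_red (by have := hB.h4; omega) (by have := hB.h5; omega)⟩

/-- a cell of the box is the reduction of its lift -/
theorem rse182_O_up (hB : Rse182Box L H k r w a b) {y : TV} (hy : y ∈ rse182O (rse182Cyl t L H) (lcyG L H w k (k + r - 1)) a b) :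
    ∃ u, u ∈ tscBox a b k (k + r - 1) ∧ y = sdRed L u ∧ lcyLift L w y = u := by
  obtain ⟨_, ⟨hc, h3, h4⟩, h1, h2⟩ := rse182_mem_O.1 hy
  obtain ⟨c1, c2, _, _⟩ := lcy_mem_cells hc
  exact ⟨lcyLift L w y, ⟨h1, h2, h3, h4⟩, (lcy_red_lift c1 c2).symm, rfl⟩

/-- the vertices carried by the reduction of a lifted point -/
theorem rse182_car_up (eL : L % 2 = 0) (hL : 0 < L) {u : TV} {v : ℤ × ℤ} (h : Rse182Car (rse182Y L H) (sdRed L u) v) :
    ∃ v' : ℤ × ℤ, v = rcy162Red (L / 2) v' ∧ Rse182PC u v' := by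
  rcases rtd111_cases u with ⟨v', rfl⟩ | ⟨f', rfl⟩ | ⟨e', rfl⟩
  · rw [rse182_red_P eL hL] at h
    rcases h with h | ⟨e, _, h, _⟩
    · exact ⟨v', (rtd111_P_inj h).symm, Or.inl ⟨rfl, rfl⟩⟩
    · exact absurd h (rtd111_P_ne_E _ _)
  · rw [rse182_red_F eL hL] at h
    rcases h with h | ⟨e, _, h, _⟩
    · exact absurd h.symm (rtd111_P_ne_F _ _)
    · exact absurd h (rtd111_F_ne_E _ _)
  · rw [rse182_red_Ee eL hL] at h
    rcases h with h | ⟨e, _, h, hv⟩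
    · exact absurd h.symm (rtd111_P_ne_E _ _)
    · have ee := rtd111_E_inj h
      subst ee
      obtain ⟨⟨x, y⟩, bb⟩ := e'
      rcases hv with hv | hv
      · refine ⟨(x, y), hv, ?_⟩
        cases bb
        · exact Or.inr (Or.inl ⟨rfl, rfl⟩)
        · exact Or.inr (Or.inr (Or.inr (Or.inl ⟨rfl, rfl⟩)))
      · refine ⟨rswEnd ((x, y), bb), hv.trans (rcy162_red_end _ _), ?_⟩
        cases bb
        · refine Or.inr (Or.inr (Or.inl ⟨?_, rfl⟩))
          show 2 * x + 1 = 2 * (x + 1) - 1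
          ring
        · refine Or.inr (Or.inr (Or.inr (Or.inr ⟨rfl, ?_⟩)))
          show 2 * y + 1 = 2 * (y + 1) - 1
          ring

/-- the faces of an edge whose point is the reduction of a lifted point -/
theorem rse182_fac_up (eL : L % 2 = 0) (hL : 0 < L) {u : TV} {m : (ℤ × ℤ) × Bool} (hm : rtd111E m = sdRed L u) {f : ℤ × ℤ}
    (h : Rse182Fac (rse182Y L H) m f) : ∃ f' : ℤ × ℤ, f = rcy162Red (L / 2) f' ∧ Rse182PF u f' := by
  rcases rtd111_cases u with ⟨v', rfl⟩ | ⟨f', rfl⟩ | ⟨e', rfl⟩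
  · rw [rse182_red_P eL hL] at hm
    exact absurd hm.symm (rtd111_P_ne_E _ _)
  · rw [rse182_red_F eL hL] at hm
    exact absurd hm.symm (rtd111_F_ne_E _ _)
  · rw [rse182_red_Ee eL hL] at hm
    have ee := rtd111_E_inj hm
    subst ee
    obtain ⟨⟨x, y⟩, bb⟩ := e'
    rcases h with h | h
    · refine ⟨(x, y), h, ?_⟩
      cases bb
      · exact Or.inl ⟨rfl, rfl⟩
      · exact Or.inr (Or.inr (Or.inl ⟨rfl, rfl⟩))
    · refine ⟨rswCo ((x, y), bb), h.trans (rcy162_red_co _ _), ?_⟩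
      cases bb
      · refine Or.inr (Or.inl ⟨rfl, ?_⟩)
        show 2 * y = 2 * (y - 1) + 2
        ring
      · refine Or.inr (Or.inr (Or.inr ⟨?_, rfl⟩))
        show 2 * x = 2 * (x - 1) + 2
        ring

/-- an edge of the cylinder with a given face is lifted next to any lift of this face -/
theorem rse182_fac_down (eL : L % 2 = 0) (hL : 0 < L) {e : (ℤ × ℤ) × Bool} (he : e ∈ (rse182Y L H).E) {f' : ℤ × ℤ}
    (h : Rse182Fac (rse182Y L H) e (rcy162Red (L / 2) f')) : ∃ u : TV, rtd111E e = sdRed L u ∧ Rse182PF u f' := by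
  have hr := rse182_red_E he
  obtain ⟨⟨x, y⟩, bb⟩ := e
  obtain ⟨fx, fy⟩ := f'
  rcases h with h | h
  · have h' : rcy162Red (L / 2) (fx, fy) = (x, y) := h
    refine ⟨rtd111E ((fx, fy), bb), ?_, ?_⟩
    · rw [rse182_red_Ee eL hL]
      unfold rcy162RedE
      rw [h']
    · cases bb
      · exact Or.inl ⟨rfl, rfl⟩
      · exact Or.inr (Or.inr (Or.inl ⟨rfl, rfl⟩))
  · have hx : x % ((L / 2 : ℕ) : ℤ) = x := by
      have := congrArg (fun q => q.1.1) hr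
      exact this
    cases bb
    · have h' : (fx % ((L / 2 : ℕ) : ℤ), fy) = (x % ((L / 2 : ℕ) : ℤ), y - 1) := h
      simp only [Prod.mk.injEq] at h'
      refine ⟨rtd111E ((fx, fy + 1), false), ?_, Or.inr (Or.inl ⟨rfl, ?_⟩)⟩
      · rw [rse182_red_Ee eL hL]
        show rtd111E ((x, y), false) = rtd111E ((fx % ((L / 2 : ℕ) : ℤ), fy + 1), false)
        rw [h'.1, hx, h'.2]
        congr 3
        ring
      · show 2 * (fy + 1) = 2 * fy + 2
        ring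
    · have h' : (fx % ((L / 2 : ℕ) : ℤ), fy) = ((x - 1) % ((L / 2 : ℕ) : ℤ), y) := h
      simp only [Prod.mk.injEq] at h'
      refine ⟨rtd111E ((fx + 1, fy), true), ?_, Or.inr (Or.inr (Or.inr ⟨?_, rfl⟩))⟩
      · rw [rse182_red_Ee eL hL]
        show rtd111E ((x, y), true) = rtd111E (((fx + 1) % ((L / 2 : ℕ) : ℤ), fy), true)
        have e1 : (fx + 1) % ((L / 2 : ℕ) : ℤ) = x := by
          rw [← Int.emod_add_emod, h'.1, Int.emod_add_emod, sub_add_cancel, hx]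
        rw [e1, h'.2]
      · show 2 * (fx + 1) = 2 * fx + 2
        ring

theorem rse182_PC_bd {u v : ℤ × ℤ} (h : Rse182PC u v) : 2 * v.1 - 1 ≤ u.1 ∧ u.1 ≤ 2 * v.1 + 1 ∧ 2 * v.2 - 1 ≤ u.2 ∧ u.2 ≤ 2 * v.2 + 1 := by
  unfold Rse182PC at h
  omega

theorem rse182_PF_bd {u f : ℤ × ℤ} (h : Rse182PF u f) : 2 * f.1 ≤ u.1 ∧ u.1 ≤ 2 * f.1 + 2 ∧ 2 * f.2 ≤ u.2 ∧ u.2 ≤ 2 * f.2 + 2 := by
  unfold Rse182PF at h
  omega

/-- **THE CONTRACT (GEOMETRY OF THE CHART) IS CLOSED** -/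
theorem rse182_cgeo (t : ℝ) : Rse182CGeo t := by
  intro L H k r w a b hB
  obtain ⟨q1, q2, q3, q4⟩ := rse182_box_pos hB
  have eL := hB.eL
  have hL : 0 < L := by omega
  have hl2 : (L : ℤ) = 2 * ((L / 2 : ℕ) : ℤ) := by omega
  have hH2 : (H : ℤ) = 2 * ((H / 2 : ℕ) : ℤ) := by have := hB.eH; omega
  have hba : b - a + 4 < L := by have := hB.h7; have := hB.h1; omega
  have ed : (k + r - 1) % 2 = 0 := by have := hB.ek; have := hB.er; omega
  refine ⟨fun y h => h.1, ?_, ?_, ?_, ?_, ?_, ?_⟩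
  · -- pts
    intro y hy
    obtain ⟨_, ⟨hc, h3, h4⟩, _, _⟩ := rse182_mem_O.1 hy
    obtain ⟨c1, c2, c3, c4⟩ := lcy_mem_cells hc
    rcases rtd111_cases y with ⟨v, rfl⟩ | ⟨f, rfl⟩ | ⟨e, rfl⟩
    · refine Or.inl ⟨v, rcy162_mem_cylV.2 ?_, rfl⟩
      simp only [rtd111P] at c1 c2 c3 c4
      omega
    · exact Or.inr (Or.inl ⟨f, rfl⟩)
    · refine Or.inr (Or.inr ⟨e, rcy162_mem_cylE.2 ?_, rfl⟩)
      obtain ⟨⟨x, y⟩, bb⟩ := e
      cases bb
      · simp only [rtd111_E_f] at c1 c2 c3 c4 h3 h4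
        simp only [true_and, false_and, or_false, reduceCtorEq]
        omega
      · simp only [rtd111_E_t] at c1 c2 c3 c4 h3 h4
        simp only [true_and, false_and, false_or, reduceCtorEq]
        omega
  · -- inV
    intro x hx y hy v cx cy
    obtain ⟨u, hu, rfl, lu⟩ := rse182_O_up hB hx
    obtain ⟨u', hu', rfl, lu'⟩ := rse182_O_up hB hy
    obtain ⟨v1, rfl, a1⟩ := rse182_car_up eL hL cx
    obtain ⟨v2, e2, a2⟩ := rse182_car_up eL hL cy
    have ev : v1 = v2 := by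
      have b1 := rse182_PC_bd a1
      have b2 := rse182_PC_bd a2
      obtain ⟨p1, p2, _, _⟩ := hu
      obtain ⟨p1', p2', _, _⟩ := hu'
      exact rse182_red_inj e2 (by omega) (by omega)
    subst ev
    rcases rse182_pl_inV hu hu' a1 a2 with h | h | ⟨h1, h2, h3⟩
    · exact Or.inl (by rw [h])
    · refine Or.inr (Or.inl ?_)
      show triAdj (lcyLift L w (sdRed L u)) (lcyLift L w (sdRed L u'))
      rw [lu, lu']; exact h
    · obtain ⟨z1, z2⟩ := rse182_O_down (t := t) hB h1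
      refine Or.inr (Or.inr ⟨sdRed L (rtd111P v1), z1, ?_, Or.inr (rse182_red_P eL hL v1), Or.inr ?_⟩)
      · show triAdj (lcyLift L w (sdRed L u)) (lcyLift L w (sdRed L (rtd111P v1)))
        rw [lu, z2]; exact h2
      · show triAdj (lcyLift L w (sdRed L (rtd111P v1))) (lcyLift L w (sdRed L u'))
        rw [lu', z2]; exact h3
  · -- outV
    intro e he m hm ht v hv y hy cy
    obtain ⟨heE, heO⟩ := rse182_mem_Out.1 he
    obtain ⟨hmE, hmO⟩ := rse182_mem_Ed.1 hm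
    obtain ⟨f, hf1, hf2⟩ := ht
    obtain ⟨um, hum, em, lm⟩ := rse182_O_up hB hmO
    obtain ⟨uy, huy, rfl, ly⟩ := rse182_O_up hB hy
    obtain ⟨f', rfl, a1⟩ := rse182_fac_up eL hL em hf2
    obtain ⟨ue, ee, a2⟩ := rse182_fac_down eL hL heE hf1
    have hue : ue ∉ tscBox a b k (k + r - 1) := fun h => heO (by rw [ee]; exact (rse182_O_down hB h).1)
    have ce : Rse182Car (rse182Y L H) (sdRed L ue) v := by rw [← ee]; exact Or.inr ⟨e, heE, rfl, hv⟩
    obtain ⟨v1, rfl, a3⟩ := rse182_car_up eL hL ce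
    obtain ⟨v2, e2, a4⟩ := rse182_car_up eL hL cy
    have ev : v1 = v2 := by
      have b1 := rse182_PF_bd a1
      have b2 := rse182_PF_bd a2
      have b3 := rse182_PC_bd a3
      have b4 := rse182_PC_bd a4
      obtain ⟨p1, p2, _, _⟩ := hum
      obtain ⟨p1', p2', _, _⟩ := huy
      exact rse182_red_inj e2 (by omega) (by omega)
    subst ev
    rcases rse182_pl_outV hB.ea hB.eb hB.ek ed hum huy hue a1 a2 a3 a4 with h | ⟨h1, h2, h3⟩ | ⟨h1, h2, h3⟩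
    · exact Or.inl (by rw [em, h])
    · obtain ⟨z1, z2⟩ := rse182_O_down (t := t) hB h1
      refine Or.inr (Or.inr ⟨sdRed L (rtd111F f'), z1, ?_, Or.inl ⟨_, rse182_red_F eL hL f'⟩, Or.inr ?_⟩)
      · show triAdj (lcyLift L w (rtd111E m)) (lcyLift L w (sdRed L (rtd111F f')))
        rw [lm, z2]; exact h2
      · show triAdj (lcyLift L w (sdRed L (rtd111F f'))) (lcyLift L w (sdRed L uy))
        rw [ly, z2]; exact h3
    · obtain ⟨z1, z2⟩ := rse182_O_down (t := t) hB h1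
      refine Or.inr (Or.inr ⟨sdRed L (rtd111P v1), z1, ?_, Or.inr (rse182_red_P eL hL v1), ?_⟩)
      · show triAdj (lcyLift L w (rtd111E m)) (lcyLift L w (sdRed L (rtd111P v1)))
        rw [lm, z2]; exact h2
      · rcases h3 with h3 | h3
        · exact Or.inl (by rw [h3])
        · refine Or.inr ?_
          show triAdj (lcyLift L w (sdRed L (rtd111P v1))) (lcyLift L w (sdRed L uy))
          rw [ly, z2]; exact h3
  · -- inF
    intro m hm e he hmO heO f hf1 hf2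
    obtain ⟨um, hum, em, lm⟩ := rse182_O_up hB hmO
    obtain ⟨ue, hue, ee, le⟩ := rse182_O_up hB heO
    obtain ⟨f1, rfl, a1⟩ := rse182_fac_up eL hL em hf1
    obtain ⟨f2, e2, a2⟩ := rse182_fac_up eL hL ee hf2
    have ef : f1 = f2 := by
      have b1 := rse182_PF_bd a1
      have b2 := rse182_PF_bd a2
      obtain ⟨p1, p2, _, _⟩ := hum
      obtain ⟨p1', p2', _, _⟩ := hue
      exact rse182_red_inj e2 (by omega) (by omega)
    subst ef
    rcases rse182_pl_inF hum hue a1 a2 with h | ⟨h1, h2, h3⟩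
    · exact Or.inl (by rw [em, ee, h])
    · obtain ⟨z1, z2⟩ := rse182_O_down (t := t) hB h1
      refine Or.inr (Or.inr ⟨sdRed L (rtd111F f1), z1, ⟨_, rse182_red_F eL hL f1⟩, ?_, ?_⟩)
      · show triAdj (lcyLift L w (rtd111E m)) (lcyLift L w (sdRed L (rtd111F f1)))
        rw [lm, z2]; exact h2
      · show triAdj (lcyLift L w (sdRed L (rtd111F f1))) (lcyLift L w (rtd111E e))
        rw [le, z2]; exact h3
  · -- clrV
    intro v hv
    have hv2 : 0 < v.2 ∧ v.2 < ((H / 2 : ℕ) : ℤ) := by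
      rcases hv with hv | ⟨e, heE, ⟨m, hm, f, hf1, hf2⟩, hv⟩
      · obtain ⟨_, y, hy, cy⟩ := rse182_mem_Sv.1 hv
        obtain ⟨uy, huy, rfl, ly⟩ := rse182_O_up hB hy
        obtain ⟨v2, rfl, a4⟩ := rse182_car_up eL hL cy
        have b4 := rse182_PC_bd a4
        obtain ⟨_, _, p3, p4⟩ := huy
        show 0 < v2.2 ∧ v2.2 < ((H / 2 : ℕ) : ℤ)
        omega
      · obtain ⟨hmE, hmO⟩ := rse182_mem_Ed.1 hm
        obtain ⟨um, hum, em, lm⟩ := rse182_O_up hB hmO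
        obtain ⟨f', rfl, a1⟩ := rse182_fac_up eL hL em hf2
        obtain ⟨ue, ee, a2⟩ := rse182_fac_down eL hL heE hf1
        have ce : Rse182Car (rse182Y L H) (sdRed L ue) v := by rw [← ee]; exact Or.inr ⟨e, heE, rfl, hv⟩
        obtain ⟨v1, rfl, a3⟩ := rse182_car_up eL hL ce
        have b1 := rse182_PF_bd a1
        have b2 := rse182_PF_bd a2
        have b3 := rse182_PC_bd a3
        obtain ⟨_, _, p3, p4⟩ := hum
        show 0 < v1.2 ∧ v1.2 < ((H / 2 : ℕ) : ℤ)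
        omega
    constructor
    · intro h
      have := (rcy162_mem_row.1 h).2
      omega
    · intro h
      have := (rcy162_mem_row.1 h).2
      omega
  · -- clrE
    intro e _ _
    simp [rse182KM]

end lifts

/-- **EXIT (four contracts left): horizontal lengthening on the mixed cylinder** -/
theorem rse182_cyl_len4 {t : ℝ} (h0 : 0 < t) (h1 : t < 1) (hP : Rse182CP4 t) (hO : Rse182COrd t) (hL : Rse182CLSS t)
    (hF : Rln182CFkg2 (rse182Cyl t) rse182K) : Rln182Len2 (rse182Cyl t) rse182K :=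
  rse182_cyl_len h0 h1 (rse182_cgeo t) hP hO (rse182_cports h0.le h1.le) hL hF

/-- **EXIT (four contracts left): averaged gluing on the mixed cylinder** -/
theorem rse182_cyl_glue4 {t : ℝ} (h0 : 0 < t) (h1 : t < 1) (hP : Rse182CP4 t) (hO : Rse182COrd t) (hL : Rse182CLSS t)
    (hF : Rln182CFkg2 (rse182Cyl t) rse182K) : Rln182Glue2 (rse182Cyl t) rse182K :=
  rse182_cyl_glue h0 h1 (rse182_cgeo t) hP hO (rse182_cports h0.le h1.le) hL hF

/-! ## 8. AT MOST FOUR PORTS: CLASSIFICATION AND COUNT -/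

/-- the plane: a face of a retained edge and of an outer edge with an endpoint carried by a cell `q` of the box -/
theorem rse182_pl_port {a b c d : ℤ} (ea : a % 2 = 1) (eb : b % 2 = 1) (ec : c % 2 = 0) (ed : d % 2 = 0) {m e q f v : ℤ × ℤ}
    (hm : m ∈ tscBox a b c d) (hm1 : m.2 ≠ c) (hm2 : m.2 ≠ d) (hq : q ∈ tscBox a b c d) (he : e ∉ tscBox a b c d)
    (a1 : Rse182PF m f) (a2 : Rse182PF e f) (a3 : Rse182PC e v) (a4 : Rse182PC q v) :
    rtd111F f ∈ tscBox a b c d ∧ triAdj m (rtd111F f) ∧ (2 * f.1 + 1 = a ∨ 2 * f.1 + 1 = b) ∧ q.1 = 2 * f.1 + 1 ∧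
      (q.2 = 2 * f.2 + 1 + 1 ∨ q.2 = 2 * f.2 + 1 + -1) := by
  obtain ⟨p1, p2, p3, p4⟩ := hm
  obtain ⟨q1, q2, q3, q4⟩ := hq
  have he' : ¬ (a ≤ e.1 ∧ e.1 ≤ b ∧ c ≤ e.2 ∧ e.2 ≤ d) := he
  have hF : a ≤ 2 * f.1 + 1 ∧ 2 * f.1 + 1 ≤ b ∧ c ≤ 2 * f.2 + 1 ∧ 2 * f.2 + 1 ≤ d := by
    unfold Rse182PF at a1
    omega
  have cor : (v.1 = f.1 ∨ v.1 = f.1 + 1) ∧ (v.2 = f.2 ∨ v.2 = f.2 + 1) := by
    unfold Rse182PF at a2
    unfold Rse182PC at a3
    omega
  have key : (2 * f.1 + 1 = a ∧ v.1 = f.1) ∨ (2 * f.1 + 1 = b ∧ v.1 = f.1 + 1) := by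
    unfold Rse182PF at a2
    unfold Rse182PC at a3
    omega
  clear a2 a3 he he'
  refine ⟨hF, ?_, ?_, ?_, ?_⟩
  · rw [tsc_adj_iff]
    simp only [rtd111F]
    unfold Rse182PF at a1
    omega
  · omega
  · unfold Rse182PC at a4
    omega
  · unfold Rse182PC at a4
    omega

/-- a port at a corner: the face whose point `(col, j)` is the last retained cell of the column `col` in the direction `δ` -/
def Rse182Cor (L : ℕ) (Mt : Set TV) (col δ : ℤ) (f : ℤ × ℤ) : Prop :=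
  ∃ j : ℤ, (col, j) ∈ Mt ∧ (col, j + δ) ∉ Mt ∧ f = rcy162Red (L / 2) ((col - 1) / 2, (j - 1) / 2)

theorem rse182_eqns_cite7 : True := by
  have := @Rse182Cor.eq_1
  trivial

/-- one port per corner -/
theorem rse182_cor_uniq {L : ℕ} {Mt : Set TV} {col δ : ℤ} {f f' : ℤ × ℤ}
    (hint : ∀ j1 j j2 : ℤ, (col, j1) ∈ Mt → (col, j2) ∈ Mt → j1 ≤ j → j ≤ j2 → (col, j) ∈ Mt) (hδ : δ = 1 ∨ δ = -1)
    (h : Rse182Cor L Mt col δ f) (h' : Rse182Cor L Mt col δ f') : f = f' := by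
  obtain ⟨j, h1, h2, rfl⟩ := h
  obtain ⟨j', h1', h2', rfl⟩ := h'
  have hjj : j = j' := by
    rcases hδ with rfl | rfl
    · rcases lt_trichotomy j j' with hlt | heq | hlt
      · exact absurd (hint j (j + 1) j' h1 h1' (by omega) (by omega)) h2
      · exact heq
      · exact absurd (hint j' (j' + 1) j h1' h1 (by omega) (by omega)) h2'
    · rcases lt_trichotomy j j' with hlt | heq | hlt
      · exact absurd (hint j (j' + -1) j' h1 h1' (by omega) (by omega)) h2'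
      · exact heq
      · exact absurd (hint j' (j + -1) j h1' h1 (by omega) (by omega)) h2
  rw [hjj]

section p4

variable {t : ℝ} {L H : ℕ} {k r w a b : ℤ}

/-- **classification of the ports** -/
theorem rse182_port_class (hB : Rse182Box L H k r w a b) (ω₀ : RswCfg) (Mt : Set TV)
    (hup : ∀ y ∈ rse182M (rse182Cyl t L H) (lcyG L H w k (k + r - 1)) a b ω₀, lcyLift L w y ∈ Mt)
    (hQ : ∀ u ∈ Mt, sdRed L u ∉ rln182Q (rse182Cyl t L H) (lcyG L H w k (k + r - 1)) a b ω₀) {f : ℤ × ℤ}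
    (hf : f ∈ rse182P (rse182Y L H) (rse182Cyl t L H) (rse182KM L H) (lcyG L H w k (k + r - 1)) a b ω₀) :
    Rse182Cor L Mt a 1 f ∨ Rse182Cor L Mt a (-1) f ∨ Rse182Cor L Mt b 1 f ∨ Rse182Cor L Mt b (-1) f := by
  classical
  obtain ⟨q1, q2, q3, q4⟩ := rse182_box_pos hB
  have eL := hB.eL
  have hL : 0 < L := by omega
  have hl2 : (L : ℤ) = 2 * ((L / 2 : ℕ) : ℤ) := by omega
  have hba : b - a + 4 < L := by have := hB.h7; have := hB.h1; omega
  have ed : (k + r - 1) % 2 = 0 := by have := hB.ek; have := hB.er; omega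
  have hG := rse182_cgeo t L H k r w a b hB
  have hlk := rse182_cyl_link t (L := L) (H := H) (by omega : 0 < L / 2)
  unfold rse182P at hf
  obtain ⟨hfR, hfX⟩ := Finset.mem_inter.1 hf
  obtain ⟨_, m, hm, hmf⟩ := rse182_mem_RF.1 hfR
  obtain ⟨hmE, hmM⟩ := rse182_mem_ME.1 hm
  obtain ⟨_, e, he, hef⟩ := rse182_mem_Ef.1 hfX
  obtain ⟨heo, hexw⟩ := rse182_mem_Xp.1 he
  obtain ⟨heOut, m', hm', htm'⟩ := rse182_mem_Eo.1 heo
  obtain ⟨heE, heO⟩ := rse182_mem_Out.1 heOut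
  have hpin : ∃ v, Rse182End (rse182Y L H) e v ∧
      v ∈ (rse182Rc (rse182Y L H) (rse182Cyl t L H) (rse182KM L H) (lcyG L H w k (k + r - 1)) a b ω₀).Sp := by
    by_contra hn
    push Not at hn
    exact hexw (rse182_mem_Xw.2 ⟨heo, hn⟩)
  obtain ⟨v, hve, hvS⟩ := hpin
  have hvQ : v ∈ rse182Sv (rse182Y L H) (rln182Q (rse182Cyl t L H) (lcyG L H w k (k + r - 1)) a b ω₀) := by
    rcases rse182_rc_sp.1 hvS with h | h
    · exact absurd h (hG.clrV v (Or.inr ⟨e, heE, ⟨m', rse182_ME_sub_O hm', htm'⟩, hve⟩)).1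
    · exact h.1
  obtain ⟨_, q, hq, cq⟩ := rse182_mem_Sv.1 hvQ
  have hmO := rse182_M_sub_O hmM
  obtain ⟨um, hum, em, lm⟩ := rse182_O_up hB hmO
  obtain ⟨uq, huq, eq, lq⟩ := rse182_O_up hB (rse182_Q_sub_O hq)
  have hr1 : um.2 ≠ k := fun h => rse182_TB_not_M hmO (Or.inr (by show (rtd111E m).2 = k; rw [em]; exact h)) hmM
  have hr2 : um.2 ≠ k + r - 1 := fun h => rse182_TB_not_M hmO (Or.inl (by show (rtd111E m).2 = k + r - 1; rw [em]; exact h)) hmM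
  obtain ⟨f', rfl, a1⟩ := rse182_fac_up eL hL em hmf
  obtain ⟨ue, ee, a2⟩ := rse182_fac_down eL hL heE hef
  have hue : ue ∉ tscBox a b k (k + r - 1) := fun h => heO (by rw [ee]; exact (rse182_O_down hB h).1)
  have ce : Rse182Car (rse182Y L H) (sdRed L ue) v := by rw [← ee]; exact Or.inr ⟨e, heE, rfl, hve⟩
  obtain ⟨v1, rfl, a3⟩ := rse182_car_up eL hL ce
  rw [eq] at cq
  obtain ⟨v2, e2, a4⟩ := rse182_car_up eL hL cq
  have ev : v1 = v2 := by
    have b1 := rse182_PF_bd a1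
    have b2 := rse182_PF_bd a2
    have b3 := rse182_PC_bd a3
    have b4 := rse182_PC_bd a4
    obtain ⟨p1, p2, _, _⟩ := hum
    obtain ⟨p1', p2', _, _⟩ := huq
    exact rse182_red_inj e2 (by omega) (by omega)
  subst ev
  obtain ⟨hF, hadj, hcol, hq1, hq2⟩ := rse182_pl_port hB.ea hB.eb hB.ek ed hum hr1 hr2 huq hue a1 a2 a3 a4
  obtain ⟨z1, z2⟩ := rse182_O_down (t := t) hB hF
  have hzM : sdRed L (rtd111F f') ∈ rse182M (rse182Cyl t L H) (lcyG L H w k (k + r - 1)) a b ω₀ := by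
    by_contra hn
    have hadj' : (lcyG L H w k (k + r - 1)).adj (rtd111E m) (sdRed L (rtd111F f')) := by
      show triAdj (lcyLift L w (rtd111E m)) (lcyLift L w (sdRed L (rtd111F f')))
      rw [lm, z2]; exact hadj
    apply (rse182_adj_in hmM z1 hn hadj').2
    rw [rse182_red_F eL hL]
    exact hlk.npF ω₀ _
  have hFM : ((2 * f'.1 + 1, 2 * f'.2 + 1) : TV) ∈ Mt := by
    have := hup _ hzM
    rwa [z2] at this
  have hqM : uq ∉ Mt := fun h => hQ uq h (by rw [← eq]; exact hq)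
  have key : ∀ col δ : ℤ, 2 * f'.1 + 1 = col → uq.2 = 2 * f'.2 + 1 + δ → Rse182Cor L Mt col δ (rcy162Red (L / 2) f') := by
    intro col δ hc hd
    refine ⟨2 * f'.2 + 1, by rw [← hc]; exact hFM, ?_, ?_⟩
    · have : uq = (col, 2 * f'.2 + 1 + δ) := Prod.ext (by simp only; omega) hd
      rw [← this]; exact hqM
    · congr 1
      exact Prod.ext (by simp only; omega) (by simp only; omega)
  rcases hcol with hc | hc <;> rcases hq2 with hq2 | hq2
  · exact Or.inl (key a 1 hc hq2)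
  · exact Or.inr (Or.inl (key a (-1) hc hq2))
  · exact Or.inr (Or.inr (Or.inl (key b 1 hc hq2)))
  · exact Or.inr (Or.inr (Or.inr (key b (-1) hc hq2)))

/-- **AT MOST FOUR PORTS**, from the interval property of the lifted retained cells -/
theorem rse182_p4_of (hB : Rse182Box L H k r w a b) (ω₀ : RswCfg) (Mt : Set TV)
    (hup : ∀ y ∈ rse182M (rse182Cyl t L H) (lcyG L H w k (k + r - 1)) a b ω₀, lcyLift L w y ∈ Mt)
    (hQ : ∀ u ∈ Mt, sdRed L u ∉ rln182Q (rse182Cyl t L H) (lcyG L H w k (k + r - 1)) a b ω₀)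
    (iL : ∀ j1 j j2 : ℤ, (a, j1) ∈ Mt → (a, j2) ∈ Mt → j1 ≤ j → j ≤ j2 → (a, j) ∈ Mt)
    (iR : ∀ j1 j j2 : ℤ, (b, j1) ∈ Mt → (b, j2) ∈ Mt → j1 ≤ j → j ≤ j2 → (b, j) ∈ Mt) :
    (rse182P (rse182Y L H) (rse182Cyl t L H) (rse182KM L H) (lcyG L H w k (k + r - 1)) a b ω₀).card ≤ 4 := by
  classical
  have hcl := fun f hf => rse182_port_class (t := t) (f := f) hB ω₀ Mt hup hQ hf
  generalize rse182P (rse182Y L H) (rse182Cyl t L H) (rse182KM L H) (lcyG L H w k (k + r - 1)) a b ω₀ = P at hcl ⊢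
  have hsub : P ⊆ ((P.filter (Rse182Cor L Mt a 1) ∪ P.filter (Rse182Cor L Mt a (-1))) ∪ P.filter (Rse182Cor L Mt b 1)) ∪
      P.filter (Rse182Cor L Mt b (-1)) := by
    intro v hv
    simp only [Finset.mem_union, Finset.mem_filter]
    rcases hcl v hv with h | h | h | h
    · exact Or.inl (Or.inl (Or.inl ⟨hv, h⟩))
    · exact Or.inl (Or.inl (Or.inr ⟨hv, h⟩))
    · exact Or.inl (Or.inr ⟨hv, h⟩)
    · exact Or.inr ⟨hv, h⟩
  have c1 : (P.filter (Rse182Cor L Mt a 1)).card ≤ 1 := Finset.card_le_one.2 fun v hv v' hv' =>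
    rse182_cor_uniq iL (Or.inl rfl) (Finset.mem_filter.1 hv).2 (Finset.mem_filter.1 hv').2
  have c2 : (P.filter (Rse182Cor L Mt a (-1))).card ≤ 1 := Finset.card_le_one.2 fun v hv v' hv' =>
    rse182_cor_uniq iL (Or.inr rfl) (Finset.mem_filter.1 hv).2 (Finset.mem_filter.1 hv').2
  have c3 : (P.filter (Rse182Cor L Mt b 1)).card ≤ 1 := Finset.card_le_one.2 fun v hv v' hv' =>
    rse182_cor_uniq iR (Or.inl rfl) (Finset.mem_filter.1 hv).2 (Finset.mem_filter.1 hv').2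
  have c4 : (P.filter (Rse182Cor L Mt b (-1))).card ≤ 1 := Finset.card_le_one.2 fun v hv v' hv' =>
    rse182_cor_uniq iR (Or.inr rfl) (Finset.mem_filter.1 hv).2 (Finset.mem_filter.1 hv').2
  have k1 := Finset.card_le_card hsub
  have k2 := Finset.card_union_le ((P.filter (Rse182Cor L Mt a 1) ∪ P.filter (Rse182Cor L Mt a (-1))) ∪ P.filter (Rse182Cor L Mt b 1))
    (P.filter (Rse182Cor L Mt b (-1)))
  have k3 := Finset.card_union_le (P.filter (Rse182Cor L Mt a 1) ∪ P.filter (Rse182Cor L Mt a (-1))) (P.filter (Rse182Cor L Mt b 1))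
  have k4 := Finset.card_union_le (P.filter (Rse182Cor L Mt a 1)) (P.filter (Rse182Cor L Mt a (-1)))
  omega

end p4

/-! ## 9. THE STRAIGHT REFERENCE ON THE CYLINDER: THE FOUR CORNER PORTS AND (J), IN RAW FORM (for the adapter `LssAd282` of 282, which is above this file) -/

section lss

variable {t : ℝ} {L H : ℕ} {k r w a b : ℤ}

/-- **the ports of the straight reference are the four corner faces** (raw form of `lsa282P ⊆ corners`) -/
theorem rse182_p3_raw (hB : Rse182Box L H k r w a b) {f : ℤ × ℤ}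
    (hm : ∃ m ∈ rse182Ed (rse182Y L H) (rse182OT (rse182Cyl t L H) (lcyG L H w k (k + r - 1)) a b), Rse182Fac (rse182Y L H) m f)
    (he : ∃ e ∈ rse182Out (rse182Y L H) (rse182Cyl t L H) (lcyG L H w k (k + r - 1)) a b,
      e ∉ rse182W3 (rse182Y L H) (rse182Cyl t L H) (lcyG L H w k (k + r - 1)) a b ∧ Rse182Fac (rse182Y L H) e f) :
    f = rcy162Red (L / 2) ((a - 1) / 2, k / 2) ∨ f = rcy162Red (L / 2) ((a - 1) / 2, (k + r - 1) / 2 - 1) ∨
      f = rcy162Red (L / 2) ((b - 1) / 2, k / 2) ∨ f = rcy162Red (L / 2) ((b - 1) / 2, (k + r - 1) / 2 - 1) := by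
  classical
  obtain ⟨q1, q2, q3, q4⟩ := rse182_box_pos hB
  have eL := hB.eL
  have hL : 0 < L := by omega
  have hl2 : (L : ℤ) = 2 * ((L / 2 : ℕ) : ℤ) := by omega
  have hba : b - a + 4 < L := by have := hB.h7; have := hB.h1; omega
  have ed : (k + r - 1) % 2 = 0 := by have := hB.ek; have := hB.er; omega
  obtain ⟨m, hm, hmf⟩ := hm
  obtain ⟨e, heOut, heW, hef⟩ := he
  obtain ⟨hmE, hmOT⟩ := rse182_mem_Ed.1 hm
  obtain ⟨hmO, hmTB⟩ := rse182_mem_OT.1 hmOT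
  obtain ⟨heE, heO⟩ := rse182_mem_Out.1 heOut
  have hpin : ∃ v, Rse182End (rse182Y L H) e v ∧
      v ∈ rse182Sv (rse182Y L H) (rse182TB (rse182Cyl t L H) (lcyG L H w k (k + r - 1)) a b) := by
    by_contra hn
    push Not at hn
    exact heW (rse182_mem_W3.2 ⟨heOut, ⟨m, hm, f, hef, hmf⟩, hn⟩)
  obtain ⟨v, hve, hvS⟩ := hpin
  obtain ⟨_, q, hq, cq⟩ := rse182_mem_Sv.1 hvS
  obtain ⟨hqO, hqTB⟩ := rse182_mem_TB.1 hq
  obtain ⟨um, hum, em, lm⟩ := rse182_O_up hB hmO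
  obtain ⟨uq, huq, eq, lq⟩ := rse182_O_up hB hqO
  have hr1 : um.2 ≠ k := fun h => hmTB (Or.inr (by show (rtd111E m).2 = k; rw [em]; exact h))
  have hr2 : um.2 ≠ k + r - 1 := fun h => hmTB (Or.inl (by show (rtd111E m).2 = k + r - 1; rw [em]; exact h))
  have hq2' : uq.2 = k + r - 1 ∨ uq.2 = k := by
    rcases hqTB with h | h
    · left
      have : q.2 = k + r - 1 := h
      rw [eq] at this; exact this
    · right
      have : q.2 = k := h
      rw [eq] at this; exact this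
  obtain ⟨f', rfl, a1⟩ := rse182_fac_up eL hL em hmf
  obtain ⟨ue, ee, a2⟩ := rse182_fac_down eL hL heE hef
  have hue : ue ∉ tscBox a b k (k + r - 1) := fun h => heO (by rw [ee]; exact (rse182_O_down hB h).1)
  have ce : Rse182Car (rse182Y L H) (sdRed L ue) v := by rw [← ee]; exact Or.inr ⟨e, heE, rfl, hve⟩
  obtain ⟨v1, rfl, a3⟩ := rse182_car_up eL hL ce
  rw [eq] at cq
  obtain ⟨v2, e2, a4⟩ := rse182_car_up eL hL cq
  have ev : v1 = v2 := by
    have b1 := rse182_PF_bd a1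
    have b2 := rse182_PF_bd a2
    have b3 := rse182_PC_bd a3
    have b4 := rse182_PC_bd a4
    obtain ⟨p1, p2, _, _⟩ := hum
    obtain ⟨p1', p2', _, _⟩ := huq
    exact rse182_red_inj e2 (by omega) (by omega)
  subst ev
  obtain ⟨hF, hadj, hcol, hq1, hq2⟩ := rse182_pl_port hB.ea hB.eb hB.ek ed hum hr1 hr2 huq hue a1 a2 a3 a4
  obtain ⟨_, _, g3, g4⟩ := hF
  simp only [rtd111F] at g3 g4
  have hk := hB.ek
  have key : ∀ x y : ℤ, f'.1 = x → f'.2 = y → rcy162Red (L / 2) f' = rcy162Red (L / 2) (x, y) := by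
    intro x y h1 h2
    congr 1
    exact Prod.ext h1 h2
  have hrow : f'.2 = k / 2 ∨ f'.2 = (k + r - 1) / 2 - 1 := by omega
  rcases hcol with hc | hc <;> rcases hrow with hr | hr
  · exact Or.inl (key _ _ (by omega) hr)
  · exact Or.inr (Or.inl (key _ _ (by omega) hr))
  · exact Or.inr (Or.inr (Or.inl (key _ _ (by omega) hr)))
  · exact Or.inr (Or.inr (Or.inr (key _ _ (by omega) hr)))

/-- an edge whose point is the reduction of a lifted point -/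
theorem rse182_edge_up (eL : L % 2 = 0) (hL : 0 < L) {u : TV} {e : (ℤ × ℤ) × Bool} (he : rtd111E e = sdRed L u) :
    ∃ e' : (ℤ × ℤ) × Bool, u = rtd111E e' ∧ e = rcy162RedE (L / 2) e' := by
  rcases rtd111_cases u with ⟨v', rfl⟩ | ⟨f', rfl⟩ | ⟨e', rfl⟩
  · rw [rse182_red_P eL hL] at he
    exact absurd he.symm (rtd111_P_ne_E _ _)
  · rw [rse182_red_F eL hL] at he
    exact absurd he.symm (rtd111_F_ne_E _ _)
  · rw [rse182_red_Ee eL hL] at he
    exact ⟨e', rfl, rtd111_E_inj he⟩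

theorem rse182_sdred_inj {p q : TV} (h : sdRed L p = sdRed L q) (h1 : p.1 - q.1 < L) (h2 : q.1 - p.1 < L) : p = q := by
  unfold sdRed at h
  simp only [Prod.mk.injEq] at h
  exact Prod.ext (rse182_mod_eq h.1 h1 h2) h.2

/-- a lifted point next to the box, off the box, goes down off the box -/
theorem rse182_not_O (hB : Rse182Box L H k r w a b) {u : TV} (hu : u ∉ tscBox a b k (k + r - 1)) (h1 : a - 3 ≤ u.1) (h2 : u.1 ≤ b + 3) :
    sdRed L u ∉ rse182O (rse182Cyl t L H) (lcyG L H w k (k + r - 1)) a b := by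
  intro h
  obtain ⟨q1, q2, q3, q4⟩ := rse182_box_pos hB
  have hba : b - a + 4 < L := by have := hB.h7; have := hB.h1; omega
  obtain ⟨u', hu', e, _⟩ := rse182_O_up hB h
  have e' : u = u' := by
    obtain ⟨p1, p2, _, _⟩ := hu'
    exact rse182_sdred_inj e (by omega) (by omega)
  exact hu (e' ▸ hu')

theorem rse182_E_mem (hl : 0 < L / 2) {e' : (ℤ × ℤ) × Bool}
    (h : (e'.2 = false ∧ 0 < e'.1.2 ∧ e'.1.2 < ((H / 2 : ℕ) : ℤ)) ∨ (e'.2 = true ∧ 0 ≤ e'.1.2 ∧ e'.1.2 < ((H / 2 : ℕ) : ℤ))) :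
    rcy162RedE (L / 2) e' ∈ (rse182Y L H).E := rcy162_mem_cylE.2 ⟨rcy162_red_range hl _, h⟩

/-- **under the straight reference the vertices next to the short sides, off the two rows, are minus** -/
theorem rse182_h3_side (hB : Rse182Box L H k r w a b) {ω : RswCfg}
    (hH : rse182Holds (rse182Y L H) (rse182H3 (rse182Y L H) (rse182Cyl t L H) (rse182KM L H) (lcyG L H w k (k + r - 1)) a b) ω) {x : ℤ × ℤ}
    (hx1 : 2 * x.1 = a - 1 ∨ 2 * x.1 = b + 1) (hx2 : k < 2 * x.2) (hx3 : 2 * x.2 < k + r - 1) : rcy162Red (L / 2) x ∉ ω.S := by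
  classical
  obtain ⟨q1, q2, q3, q4⟩ := rse182_box_pos hB
  have eL := hB.eL
  have hL : 0 < L := by omega
  have hl : 0 < L / 2 := by omega
  have hl2 : (L : ℤ) = 2 * ((L / 2 : ℕ) : ℤ) := by omega
  have hH2 : (H : ℤ) = 2 * ((H / 2 : ℕ) : ℤ) := by have := hB.eH; omega
  have hba : b - a + 4 < L := by have := hB.h7; have := hB.h1; omega
  have hab : a ≤ b := by have := hB.h6; omega
  obtain ⟨x1, x2⟩ := x
  simp only at hx1 hx2 hx3
  have hV : rcy162Red (L / 2) (x1, x2) ∈ (rse182Y L H).V :=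
    rcy162_mem_cylV.2 ⟨rcy162_red_range hl _, by show (0 : ℤ) ≤ x2 ∧ x2 ≤ ((H / 2 : ℕ) : ℤ); omega⟩
  refine hH.2.1 _ (Finset.mem_union_right _ ?_)
  unfold rse182N3
  refine Finset.mem_union_right _ (Finset.mem_sdiff.2 ⟨Finset.mem_inter.2 ⟨?_, ?_⟩, ?_⟩)
  · -- carried by a cell of the box
    rcases hx1 with hx1 | hx1
    · have he : rcy162RedE (L / 2) ((x1, x2), false) ∈ (rse182Y L H).E := rse182_E_mem hl (Or.inl ⟨rfl, by simp only; omega, by simp only; omega⟩)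
      refine rse182_mem_Sv.2 ⟨hV, rtd111E (rcy162RedE (L / 2) ((x1, x2), false)), ?_, Or.inr ⟨_, he, rfl, Or.inl rfl⟩⟩
      rw [← rse182_red_Ee eL hL]
      refine (rse182_O_down hB ?_).1
      show a ≤ 2 * x1 + 1 ∧ 2 * x1 + 1 ≤ b ∧ k ≤ 2 * x2 ∧ 2 * x2 ≤ k + r - 1
      omega
    · have he : rcy162RedE (L / 2) ((x1 - 1, x2), false) ∈ (rse182Y L H).E := rse182_E_mem hl (Or.inl ⟨rfl, by simp only; omega, by simp only; omega⟩)
      refine rse182_mem_Sv.2 ⟨hV, rtd111E (rcy162RedE (L / 2) ((x1 - 1, x2), false)), ?_, Or.inr ⟨_, he, rfl, Or.inr ?_⟩⟩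
      · rw [← rse182_red_Ee eL hL]
        refine (rse182_O_down hB ?_).1
        show a ≤ 2 * (x1 - 1) + 1 ∧ 2 * (x1 - 1) + 1 ≤ b ∧ k ≤ 2 * x2 ∧ 2 * x2 ≤ k + r - 1
        omega
      · show rcy162Red (L / 2) (x1, x2) = rcy162Red (L / 2) (rswEnd (rcy162RedE (L / 2) ((x1 - 1, x2), false)))
        rw [rcy162_red_end, rtd111_end_f, sub_add_cancel]
  · -- endpoint of an outer edge
    have he : rcy162RedE (L / 2) ((x1, x2), true) ∈ (rse182Y L H).E := rse182_E_mem hl (Or.inr ⟨rfl, by simp only; omega, by simp only; omega⟩)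
    refine rse182_mem_Ev.2 ⟨hV, _, rse182_mem_Out.2 ⟨he, ?_⟩, Or.inl rfl⟩
    rw [← rse182_red_Ee eL hL]
    refine rse182_not_O hB ?_ ?_ ?_
    · intro hc
      have hc' : a ≤ 2 * x1 ∧ 2 * x1 ≤ b ∧ k ≤ 2 * x2 + 1 ∧ 2 * x2 + 1 ≤ k + r - 1 := hc
      omega
    · show a - 3 ≤ 2 * x1
      omega
    · show 2 * x1 ≤ b + 3
      omega
  · -- not carried by the two rows
    intro hc
    obtain ⟨_, q, hq, cq⟩ := rse182_mem_Sv.1 hc
    obtain ⟨hqO, hqTB⟩ := rse182_mem_TB.1 hq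
    obtain ⟨uq, huq, eq, lq⟩ := rse182_O_up hB hqO
    have hq2' : uq.2 = k + r - 1 ∨ uq.2 = k := by
      rcases hqTB with h | h
      · left
        have : q.2 = k + r - 1 := h
        rw [eq] at this; exact this
      · right
        have : q.2 = k := h
        rw [eq] at this; exact this
    rw [eq] at cq
    obtain ⟨v2, e2, a4⟩ := rse182_car_up eL hL cq
    have b4 := rse182_PC_bd a4
    have e3 : x2 = v2.2 := congrArg Prod.snd e2
    have hk := hB.ek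
    have hr := hB.er
    omega

/-- the lifted plus cells of the box -/
def rse182Pl (t : ℝ) (L H : ℕ) (a b c d : ℤ) (ω : RswCfg) : Set TV := {z | z ∈ tscBox a b c d ∧ ¬ (rse182Cyl t L H).np ω (sdRed L z)}

/-- the lifted non-plus cells of the box -/
def rse182Np (t : ℝ) (L H : ℕ) (a b c d : ℤ) (ω : RswCfg) : Set TV := {z | z ∈ tscBox a b c d ∧ (rse182Cyl t L H).np ω (sdRed L z)}

theorem rse182_eqns_cite9 : True := by
  have := @rse182Pl.eq_1
  have := @rse182Np.eq_1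
  trivial

/-- **one good plus retained edge under the straight reference, lifted**: its two vertex points and its edge point are plus cells of the box -/
theorem rse182_h3_step (hB : Rse182Box L H k r w a b) {ω : RswCfg}
    (hH : rse182Holds (rse182Y L H) (rse182H3 (rse182Y L H) (rse182Cyl t L H) (rse182KM L H) (lcyG L H w k (k + r - 1)) a b) ω)
    {e : (ℤ × ℤ) × Bool} (he : e ∈ rse182Ed (rse182Y L H) (rse182OT (rse182Cyl t L H) (lcyG L H w k (k + r - 1)) a b))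
    (hg : (rse182Y L H).Good true ω e) :
    ∃ x y : ℤ × ℤ, (rse182Y L H).p0 e = rcy162Red (L / 2) x ∧ (rse182Y L H).p1 e = rcy162Red (L / 2) y ∧
      rtd111P x ∈ rse182Pl t L H a b k (k + r - 1) ω ∧ rtd111P y ∈ rse182Pl t L H a b k (k + r - 1) ω ∧
      TscR tscG (rse182Pl t L H a b k (k + r - 1) ω) (rtd111P x) (rtd111P y) := by
  obtain ⟨q1, q2, q3, q4⟩ := rse182_box_pos hB
  have eL := hB.eL
  have hL : 0 < L := by omega
  have hl : 0 < L / 2 := by omega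
  have hlk := rse182_cyl_link t (L := L) (H := H) hl
  have hwf : (rse182Y L H).WF := rcy162_cyl_wf hl 0 _
  obtain ⟨heE, heOT⟩ := rse182_mem_Ed.1 he
  obtain ⟨heO, heTB⟩ := rse182_mem_OT.1 heOT
  obtain ⟨ue, hue, ee, le⟩ := rse182_O_up hB heO
  have hr1 : ue.2 ≠ k := fun h => heTB (Or.inr (by show (rtd111E e).2 = k; rw [ee]; exact h))
  have hr2 : ue.2 ≠ k + r - 1 := fun h => heTB (Or.inl (by show (rtd111E e).2 = k + r - 1; rw [ee]; exact h))
  obtain ⟨e', rfl, rfl⟩ := rse182_edge_up eL hL ee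
  have p0 : (rse182Y L H).p0 (rcy162RedE (L / 2) e') = rcy162Red (L / 2) e'.1 := rfl
  have p1 : (rse182Y L H).p1 (rcy162RedE (L / 2) e') = rcy162Red (L / 2) (rswEnd e') := rcy162_red_end _ _
  have s0 : rcy162Red (L / 2) e'.1 ∈ ω.S := by rw [← p0]; exact (rse182_good_end hg (Or.inl rfl)).2 rfl
  have s1 : rcy162Red (L / 2) (rswEnd e') ∈ ω.S := by rw [← p1]; exact (rse182_good_end hg (Or.inr rfl)).2 rfl
  have v0 : rcy162Red (L / 2) e'.1 ∈ (rse182Y L H).V := by rw [← p0]; exact hwf.p0 _ heE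
  have v1 : rcy162Red (L / 2) (rswEnd e') ∈ (rse182Y L H).V := by rw [← p1]; exact hwf.p1 _ heE
  have n0 : ¬ (rse182Cyl t L H).np ω (sdRed L (rtd111P e'.1)) := by
    rw [rse182_red_P eL hL, hlk.npP ω _ v0]; exact fun h => h s0
  have n1 : ¬ (rse182Cyl t L H).np ω (sdRed L (rtd111P (rswEnd e'))) := by
    rw [rse182_red_P eL hL, hlk.npP ω _ v1]; exact fun h => h s1
  have nE : ¬ (rse182Cyl t L H).np ω (sdRed L (rtd111E e')) := by
    rw [rse182_red_Ee eL hL, hlk.npE ω _ heE]; exact fun h => h hg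
  have hk := hB.ek
  have hr := hB.er
  have ha := hB.ea
  have hb := hB.eb
  have side := fun x h1 h2 h3 => rse182_h3_side (t := t) (x := x) hB hH h1 h2 h3
  have bx : rtd111P e'.1 ∈ tscBox a b k (k + r - 1) ∧ rtd111P (rswEnd e') ∈ tscBox a b k (k + r - 1) := by
    obtain ⟨⟨x, y⟩, bb⟩ := e'
    obtain ⟨g1, g2, g3, g4⟩ := hue
    cases bb
    · simp only [rtd111_E_f] at g1 g2 g3 g4 hr1 hr2
      have c0 : 2 * x ≠ a - 1 := fun h => side (x, y) (Or.inl h) (by simp only; omega) (by simp only; omega) s0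
      have c1 : 2 * (x + 1) ≠ b + 1 := fun h => side (x + 1, y) (Or.inr h) (by simp only; omega) (by simp only; omega) s1
      constructor
      · show a ≤ 2 * x ∧ 2 * x ≤ b ∧ k ≤ 2 * y ∧ 2 * y ≤ k + r - 1
        omega
      · show a ≤ 2 * (x + 1) ∧ 2 * (x + 1) ≤ b ∧ k ≤ 2 * y ∧ 2 * y ≤ k + r - 1
        omega
    · simp only [rtd111_E_t] at g1 g2 g3 g4 hr1 hr2
      constructor
      · show a ≤ 2 * x ∧ 2 * x ≤ b ∧ k ≤ 2 * y ∧ 2 * y ≤ k + r - 1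
        omega
      · show a ≤ 2 * x ∧ 2 * x ≤ b ∧ k ≤ 2 * (y + 1) ∧ 2 * (y + 1) ≤ k + r - 1
        omega
  refine ⟨e'.1, rswEnd e', p0, p1, ⟨bx.1, n0⟩, ⟨bx.2, n1⟩, ?_⟩
  have mE : rtd111E e' ∈ rse182Pl t L H a b k (k + r - 1) ω := ⟨hue, nE⟩
  have m0 : rtd111P e'.1 ∈ rse182Pl t L H a b k (k + r - 1) ω := ⟨bx.1, n0⟩
  have m1 : rtd111P (rswEnd e') ∈ rse182Pl t L H a b k (k + r - 1) ω := ⟨bx.2, n1⟩
  have g0 : TscR tscG (rse182Pl t L H a b k (k + r - 1) ω) (rtd111P e'.1) (rtd111E e') := tsc_R_step (rtd111_adj_P1 e') m0 mE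
  have g1 : TscR tscG (rse182Pl t L H a b k (k + r - 1) ω) (rtd111E e') (rtd111P (rswEnd e')) :=
    tsc_R_step (rtd111_adj_symm (rtd111_adj_P2 e')) mE m1
  exact g0.trans g1

/-- **(J) ON THE CYLINDER, RAW FORM**: on the straight reference a chain of good plus retained edges from the bottom row to the top row stops every left-right walk of non-plus cells of the box -/
theorem rse182_det_raw (hB : Rse182Box L H k r w a b) (hr3 : 3 ≤ r) {ω : RswCfg}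
    (hH : rse182Holds (rse182Y L H) (rse182H3 (rse182Y L H) (rse182Cyl t L H) (rse182KM L H) (lcyG L H w k (k + r - 1)) a b) ω) {u0 v0 : ℤ × ℤ}
    (hu : ∃ y ∈ rse182O (rse182Cyl t L H) (lcyG L H w k (k + r - 1)) a b, (lcyG L H w k (k + r - 1)).bot y ∧ Rse182Car (rse182Y L H) y u0)
    (hv : ∃ y ∈ rse182O (rse182Cyl t L H) (lcyG L H w k (k + r - 1)) a b, (lcyG L H w k (k + r - 1)).top y ∧ Rse182Car (rse182Y L H) y v0)
    (hch : ReflTransGen (fun u v => ∃ e ∈ rse182Ed (rse182Y L H) (rse182OT (rse182Cyl t L H) (lcyG L H w k (k + r - 1)) a b),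
      (rse182Y L H).Good true ω e ∧ ((u = (rse182Y L H).p0 e ∧ v = (rse182Y L H).p1 e) ∨ (v = (rse182Y L H).p0 e ∧ u = (rse182Y L H).p1 e))) u0 v0) :
    (lcyG L H w k (k + r - 1)).Vp ((rse182Cyl t L H).np ω) a b := by
  obtain ⟨q1, q2, q3, q4⟩ := rse182_box_pos hB
  have eL := hB.eL
  have hL : 0 < L := by omega
  have hl2 : (L : ℤ) = 2 * ((L / 2 : ℕ) : ℤ) := by omega
  have hba : b - a + 4 < L := by have := hB.h7; have := hB.h1; omega
  have hk := hB.ek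
  have hr := hB.er
  -- the rows of the two ends
  have row : ∀ (y : TV) (x : ℤ × ℤ), y ∈ rse182O (rse182Cyl t L H) (lcyG L H w k (k + r - 1)) a b → Rse182Car (rse182Y L H) y x →
      2 * x.2 - 1 ≤ y.2 ∧ y.2 ≤ 2 * x.2 + 1 := by
    intro y x hy cy
    obtain ⟨uy, huy, rfl, ly⟩ := rse182_O_up hB hy
    obtain ⟨v2, rfl, a4⟩ := rse182_car_up eL hL cy
    have b4 := rse182_PC_bd a4
    exact ⟨b4.2.2.1, b4.2.2.2⟩
  obtain ⟨yu, hyu, byu, cyu⟩ := hu
  obtain ⟨yv, hyv, byv, cyv⟩ := hv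
  have ru := row yu u0 hyu cyu
  have rv := row yv v0 hyv cyv
  have byu' : yu.2 = k := byu
  have byv' : yv.2 = k + r - 1 := byv
  have ru2 : 2 * u0.2 = k := by omega
  have rv2 : 2 * v0.2 = k + r - 1 := by omega
  -- the chain, lifted
  have one : ∀ x y : ℤ × ℤ, (∃ e ∈ rse182Ed (rse182Y L H) (rse182OT (rse182Cyl t L H) (lcyG L H w k (k + r - 1)) a b),
      (rse182Y L H).Good true ω e ∧ ((x = (rse182Y L H).p0 e ∧ y = (rse182Y L H).p1 e) ∨ (y = (rse182Y L H).p0 e ∧ x = (rse182Y L H).p1 e))) →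
      ∃ x' y' : ℤ × ℤ, x = rcy162Red (L / 2) x' ∧ y = rcy162Red (L / 2) y' ∧ rtd111P x' ∈ rse182Pl t L H a b k (k + r - 1) ω ∧
        rtd111P y' ∈ rse182Pl t L H a b k (k + r - 1) ω ∧ TscR tscG (rse182Pl t L H a b k (k + r - 1) ω) (rtd111P x') (rtd111P y') := by
    rintro x y ⟨e, he, hg, hxy⟩
    obtain ⟨x', y', e0, e1, m0, m1, hR⟩ := rse182_h3_step hB hH he hg
    rcases hxy with ⟨rfl, rfl⟩ | ⟨rfl, rfl⟩
    · exact ⟨x', y', e0, e1, m0, m1, hR⟩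
    · exact ⟨y', x', e1, e0, m1, m0, tsc_R_symm hR⟩
  have many : ∀ x y : ℤ × ℤ, TransGen (fun u v => ∃ e ∈ rse182Ed (rse182Y L H) (rse182OT (rse182Cyl t L H) (lcyG L H w k (k + r - 1)) a b),
      (rse182Y L H).Good true ω e ∧ ((u = (rse182Y L H).p0 e ∧ v = (rse182Y L H).p1 e) ∨ (v = (rse182Y L H).p0 e ∧ u = (rse182Y L H).p1 e))) x y →
      ∃ x' y' : ℤ × ℤ, x = rcy162Red (L / 2) x' ∧ y = rcy162Red (L / 2) y' ∧ rtd111P x' ∈ rse182Pl t L H a b k (k + r - 1) ω ∧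
        rtd111P y' ∈ rse182Pl t L H a b k (k + r - 1) ω ∧ TscR tscG (rse182Pl t L H a b k (k + r - 1) ω) (rtd111P x') (rtd111P y') := by
    intro x y h
    induction h with
    | single hs => exact one _ _ hs
    | tail _ hs ih =>
      obtain ⟨x', y', e0, e1, m0, m1, hR⟩ := ih
      obtain ⟨y'', z', e2, e3, m2, m3, hR'⟩ := one _ _ hs
      have ey : y' = y'' := by
        obtain ⟨g1, g2, _, _⟩ := m1.1
        obtain ⟨g1', g2', _, _⟩ := m2.1
        simp only [rtd111P] at g1 g2 g1' g2'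
        exact rse182_red_inj (e1.symm.trans e2) (by omega) (by omega)
      subst ey
      exact ⟨x', z', e0, e3, m0, m3, hR.trans hR'⟩
  have htg : TransGen (fun u v => ∃ e ∈ rse182Ed (rse182Y L H) (rse182OT (rse182Cyl t L H) (lcyG L H w k (k + r - 1)) a b),
      (rse182Y L H).Good true ω e ∧ ((u = (rse182Y L H).p0 e ∧ v = (rse182Y L H).p1 e) ∨ (v = (rse182Y L H).p0 e ∧ u = (rse182Y L H).p1 e))) u0 v0 := by
    rcases (reflTransGen_iff_eq_or_transGen).1 hch with h | h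
    · rw [h] at rv2; omega
    · exact h
  obtain ⟨x', y', e0, e1, m0, m1, hR⟩ := many _ _ htg
  have rx : (rtd111P x').2 = k := by
    have : u0.2 = (rcy162Red (L / 2) x').2 := congrArg Prod.snd e0
    rw [rcy162_red_snd] at this
    show 2 * x'.2 = k
    omega
  have ry : (rtd111P y').2 = k + r - 1 := by
    have : v0.2 = (rcy162Red (L / 2) y').2 := congrArg Prod.snd e1
    rw [rcy162_red_snd] at this
    show 2 * y'.2 = k + r - 1
    omega
  -- the walk, lifted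
  intro v hcl hXb
  obtain ⟨k1, k2, u, k3, k4⟩ := hcl
  have hub : (rse182Cyl t L H).np ω u ∧ (lcyG L H w k (k + r - 1)).box a b u := by
    rcases ReflTransGen.cases_head k4 with e | ⟨u', hst, -⟩
    · subst e; exact ⟨k1, k2⟩
    · exact ⟨hst.2.1, hst.2.2.2.1⟩
  have lift : ∀ p : TV, (rse182Cyl t L H).np ω p → (lcyG L H w k (k + r - 1)).box a b p → lcyLift L w p ∈ rse182Np t L H a b k (k + r - 1) ω := by
    intro p hn hb
    obtain ⟨up, hup, ep, lp⟩ := rse182_O_up (t := t) hB (rse182_mem_O.2 ⟨hb.1.1, hb⟩)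
    rw [lp]
    exact ⟨hup, by rw [← ep]; exact hn⟩
  have up : ∀ p q : TV, (lcyG L H w k (k + r - 1)).st ((rse182Cyl t L H).np ω) a b p q →
      TscStep tscG (rse182Np t L H a b k (k + r - 1) ω) (lcyLift L w p) (lcyLift L w q) :=
    fun p q hs => ⟨hs.1, lift p hs.2.1 hs.2.2.2.1, lift q hs.2.2.1 hs.2.2.2.2⟩
  have hS : TscR tscG (rse182Np t L H a b k (k + r - 1) ω) (lcyLift L w u) (lcyLift L w v) := ReflTransGen.lift (lcyLift L w) up _ _ k4
  obtain ⟨z, hz1, hz2⟩ := pls_rect (a := a) (b := b) (c := k) (d := k + r - 1) (lift u hub.1 hub.2) hS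
    (fun z hz => ⟨hz.1.2.2.1, hz.1.2.2.2⟩) (le_of_eq k3) (le_of_eq hXb.symm) m0 hR (fun z hz => ⟨hz.1.1, hz.1.2.1⟩) rx.le ry.ge
  exact hz2.2 hz1.2

end lss

end Claimed.Agent.R292
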