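import Claimed.Agent.R292.Rsw.Rsw86
import Claimed.Agent.R292.Rsw.Sys162
import Claimed.Agent.R292.Rsw.Len182
import Claimed.Agent.R292.Rsw.LenInst182
import Claimed.Agent.R291.Ann.RswRec

/-!
# Row 292 (S0540), Rsw/RswCyl86 : BLOCK A3, THE ADAPTER = the mixed cylinder law of `Rsw/Sys162` is an `Rrw86Law`; the exit (56) from `rrw86_main` + PART II      (owner helper86; prefix `rrc86_`, `rrc86`, `Rrc86`)

Port of R291 `Ann/RswCyl` §6 - §8 (255) on the field of 162.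
    rrc86P t L H E  = rcy162Q t L H {τ | E (cyOn 1 τ)}  = P_mix[ E (plus cells of the lifted status field) ]      (BASE sizes `L`, `H`; the refined cylinder has circumference `2 L`, rows `0..2 H`)
§1 the plus cells of the field are a refined set (`Rrw86Ref`).   §2 the soft fields, shift, mirror (`rcy162_Q_shift`, `rcy162_Q_mirror` of 162).
§3 the instance `rrc86Law` (ONE tool as a hypothesis: `Rrc86Fkg` = FKG of `rcy162Q` for increasing events).   §4 the exit `rrc86_rsw : Rrc86Glue t ⟹ Rrc86Rsw t`, in the events `cyV`, `cyH` of the kit of 127.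
§5 NO SEAM: TIP, TUBE at two centres only.
§6 - §9 PART II (a) = port of R291 `Ann/RswRec` over `Rln182Law` of 182: stopping rules, records, total probability, the two extremal crossings, `rrc86_glue` : (SE-TIP) + (SE-TUBE) ⟹ `Rrw86Glue`.
§10 THE REALISATION: `rrc86L t L H : Rln182Law RswCfg TV` = the cylinder of 162, `rrc86_L_ok`, `rrc86_L_link : Rse182Link ..` (182), `rrc86_L_Y` (lifted plus set = plus cells of the field), `rrc86_L_P`, `rrc86_L_law`;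
    closed contract `Rrc86SEc t`, **`rrc86_glue_c`**, **`rrc86_rsw_c : Rrc86SEc t ⟹ Rrc86Rsw t`**.
§11 PART II (T) (J) (W) = port of R291 `Ann/RswF` §1 - §3 + `rwl_chain` of `Ann/RswWall`: layers `rrc86A`, `rrc86C`, `Rrc86Touch`, `Rrc86Link`, `rrc86_link_rec` (LINK ⟹ F), `rrc86_touch`, `rrc86_one`, `rrc86_sure`,
    `Rrc86LK` (link estimate under ONE non-touching record), `rrc86_SE_of_LK`, `Rrc86Join`, `rrc86_join_loc`, `rrc86_join_link`, `Rrc86Chain`, **`rrc86_chain`**, `Rrc86Strip`, **`rrc86_LK_of_strip`**,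
    closed contract **`Rrc86LKc t`** = EXIT OF THE ROWS TIP / TUBE, `rrc86_SEc_of_LKc`, **`rrc86_rsw_LK : Rrc86LKc t ⟹ Rrc86Rsw t`**.
-/

set_option autoImplicit false

namespace Claimed.Agent.R292

open Claims Claims.C0467 Relation Claimed.Agent.R291

/-! ## §1 the plus cells of the field are a refined set -/

theorem rrc86_pt_P {z : ℤ × ℤ} (h1 : z.1 % 2 = 0) (h2 : z.2 % 2 = 0) : rtd111P (z.1 / 2, z.2 / 2) = z := by
  unfold rtd111P; ext <;> dsimp only <;> omega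

theorem rrc86_pt_F {z : ℤ × ℤ} (h1 : z.1 % 2 = 1) (h2 : z.2 % 2 = 1) : rtd111F (z.1 / 2, z.2 / 2) = z := by
  unfold rtd111F; ext <;> dsimp only <;> omega

theorem rrc86_pt_Ef {z : ℤ × ℤ} (h1 : z.1 % 2 = 1) (h2 : z.2 % 2 = 0) : rtd111E ((z.1 / 2, z.2 / 2), false) = z := by
  rw [rtd111_E_f]; ext <;> dsimp only <;> omega

theorem rrc86_pt_Et {z : ℤ × ℤ} (h1 : z.1 % 2 = 0) (h2 : z.2 % 2 = 1) : rtd111E ((z.1 / 2, z.2 / 2), true) = z := by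
  rw [rtd111_E_t]; ext <;> dsimp only <;> omega

/-- the two end points of a plus edge cell are plus -/
theorem rrc86_fld_ends {L : ℕ} (hL : 0 < L) (a b : ℤ) (ω : RswCfg) {e : (ℤ × ℤ) × Bool} (h : rcy162Fld L (rcy162Cyl L a b) ω (rtd111E e) = 1) :
    rcy162Fld L (rcy162Cyl L a b) ω (rtd111P e.1) = 1 ∧ rcy162Fld L (rcy162Cyl L a b) ω (rtd111P (rswEnd e)) = 1 := by
  rw [rcy162_fld_E, rcy162_sgE_one] at h
  obtain ⟨hE, -, g0, g1⟩ := h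
  have hw := rcy162_cyl_wf hL a b
  rw [rcy162_fld_P, rcy162_fld_P, rcy162_sgV_one, rcy162_sgV_one]
  have e1 : rcy162Red L (rswEnd e) = (rcy162Cyl L a b).p1 (rcy162RedE L e) := by
    obtain ⟨⟨x, y⟩, c⟩ := e
    rw [rcy162_cyl_p1]
    cases c
    · show rcy162Red L (x + 1, y) = rcy162Red L (x % (L : ℤ) + 1, y)
      unfold rcy162Red
      simp only [Int.emod_add_emod]
    · show rcy162Red L (x, y + 1) = rcy162Red L (x % (L : ℤ), y + 1)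
      unfold rcy162Red
      simp only [Int.emod_emod]
  refine ⟨⟨hw.p0 _ hE, g0.2 rfl⟩, ?_⟩
  rw [e1]
  exact ⟨hw.p1 _ hE, g1.2 rfl⟩

/-- **the plus cells of the status field are a refined set** -/
theorem rrc86_ref {L : ℕ} (hL : 0 < L) (a b : ℤ) (ω : RswCfg) : Rrw86Ref (cyOn 1 (rcy162Fld L (rcy162Cyl L a b) ω)) := by
  constructor
  · rintro z hz ⟨h1, h2⟩
    have hz' : rcy162Fld L (rcy162Cyl L a b) ω z = 1 := hz
    rw [← rrc86_pt_F h1 h2, rcy162_fld_F] at hz'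
    exact absurd hz' (by decide)
  · intro z hz z' h1 h2 hn
    have hz' : rcy162Fld L (rcy162Cyl L a b) ω z = 1 := hz
    show rcy162Fld L (rcy162Cyl L a b) ω z' = 1
    unfold Rrw86Nb at hn
    by_cases hp : z.1 % 2 = 0
    · have hq : z.2 % 2 = 1 := by omega
      rw [← rrc86_pt_Et hp hq] at hz'
      obtain ⟨g0, g1⟩ := rrc86_fld_ends hL a b ω hz'
      have c1 : z' = rtd111P (z.1 / 2, z.2 / 2) ∨ z' = rtd111P (rswEnd ((z.1 / 2, z.2 / 2), true)) := by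
        rw [rtd111_end_t]
        unfold rtd111P
        simp only [Prod.ext_iff]
        omega
      rcases c1 with c1 | c1
      · rw [c1]; exact g0
      · rw [c1]; exact g1
    · have hp' : z.1 % 2 = 1 := by omega
      have hq : z.2 % 2 = 0 := by omega
      rw [← rrc86_pt_Ef hp' hq] at hz'
      obtain ⟨g0, g1⟩ := rrc86_fld_ends hL a b ω hz'
      have c1 : z' = rtd111P (z.1 / 2, z.2 / 2) ∨ z' = rtd111P (rswEnd ((z.1 / 2, z.2 / 2), false)) := by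
        rw [rtd111_end_f]
        unfold rtd111P
        simp only [Prod.ext_iff]
        omega
      rcases c1 with c1 | c1
      · rw [c1]; exact g0
      · rw [c1]; exact g1

/-! ## §2 the law of the plus cells -/

/-- the law of the set of the plus cells under the mixed law of the cylinder (base sizes `L`, `H`) -/
noncomputable def rrc86P (t : ℝ) (L H : ℕ) (E : Set (ℤ × ℤ) → Prop) : ℝ := rcy162Q t L H {τ | E (cyOn 1 τ)}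

theorem rrc86_P_mono {t : ℝ} (h0 : 0 ≤ t) (h1 : t ≤ 1) (L H : ℕ) (E E' : Set (ℤ × ℤ) → Prop) (h : ∀ Y, E Y → E' Y) : rrc86P t L H E ≤ rrc86P t L H E' :=
  rcy162_Q_mono h0 h1 L H fun τ _ hτ => h _ hτ

theorem rrc86_P_bot (t : ℝ) (L H : ℕ) : rrc86P t L H (fun _ => False) = 0 := rcy162_Q_empty t L H

theorem rrc86_P_top {t : ℝ} (h0 : 0 < t) (h1 : t ≤ 1) (L : ℕ) {H : ℕ} (hH : 0 < H) : rrc86P t L H (fun _ => True) = 1 := rcy162_Q_univ h0 h1 L hH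

theorem rrc86_P_union {t : ℝ} (h0 : 0 ≤ t) (h1 : t ≤ 1) (L H : ℕ) (E E' : Set (ℤ × ℤ) → Prop) :
    rrc86P t L H (fun Y => E Y ∨ E' Y) ≤ rrc86P t L H E + rrc86P t L H E' := rcy162_Q_union h0 h1 L H _ _

theorem rrc86_P_shift (t : ℝ) {L : ℕ} (hL : 0 < L) (H : ℕ) (σ : ℤ) (E : Set (ℤ × ℤ) → Prop) : rrc86P t L H (fun Y => E (rrw86Sh σ Y)) = rrc86P t L H E := by
  unfold rrc86P
  rw [← rcy162_Q_shift t hL H (-σ) {τ | E (cyOn 1 τ)}]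
  congr 1
  ext τ
  have : rrw86Sh σ (cyOn 1 τ) = cyOn 1 (fun u : ℤ × ℤ => τ (u + (2 * -σ, 0))) := by
    ext p
    show τ (p.1 - 2 * σ, p.2) = 1 ↔ τ (p + (2 * -σ, 0)) = 1
    have e : p + (2 * -σ, 0) = (p.1 - 2 * σ, p.2) := by
      ext
      · show p.1 + 2 * -σ = p.1 - 2 * σ
        ring
      · show p.2 + 0 = p.2
        ring
    rw [e]
  show E (rrw86Sh σ (cyOn 1 τ)) ↔ E (cyOn 1 (fun u : ℤ × ℤ => τ (u + (2 * -σ, 0))))
  rw [this]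

theorem rrc86_P_mirror (t : ℝ) {L : ℕ} (hL : 0 < L) (H : ℕ) (μ : ℤ) (E : Set (ℤ × ℤ) → Prop) : rrc86P t L H (fun Y => E (rrw86Mi μ Y)) = rrc86P t L H E :=
  rcy162_Q_mirror t hL H μ {τ | E (cyOn 1 τ)}

theorem rrc86_P_supp (t : ℝ) {L : ℕ} (hL : 0 < L) (H : ℕ) : rrc86P t L H (fun Y => ¬ Rrw86Ref Y) = 0 := by
  unfold rrc86P rcy162Q rcy162PM
  rw [← rcy162_P_false (rcy162Cyl L 0 H) (Rcy162Mix L 0 H) t]
  refine rcy162_P_congr _ _ t fun ω _ _ => ?_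
  exact ⟨fun h => h (rrc86_ref hL 0 H ω), fun h => h.elim⟩

/-! ## §3 the instance -/

/-- an increasing event of the set of the plus cells is an increasing event of the field -/
theorem rrc86_inc {E : Set (ℤ × ℤ) → Prop} (hE : R291.RswInc E) : CyInc {τ | E (cyOn 1 τ)} := by
  intro τ τ' h hτ
  refine hE _ _ (fun u hu => ?_) hτ
  have h1 : τ u = 1 := hu
  have h2 := h u
  rw [h1] at h2
  exact le_antisymm (SignType.le_one _) h2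

/-- **THE TOOL** (T1): FKG of the mixed law of the field -/
def Rrc86Fkg (t : ℝ) (L H : ℕ) : Prop :=
  ∀ E E' : Set CyF, CyInc E → CyInc E' → rcy162Q t L H E * rcy162Q t L H E' ≤ rcy162Q t L H (E ∩ E')

/-- **the mixed cylinder law of the plus cells is an `Rrw86Law`** -/
noncomputable def rrc86Law (t : ℝ) (h0 : 0 < t) (h1 : t ≤ 1) (L H : ℕ) (hL : 0 < L) (hH : 0 < H) (hF : Rrc86Fkg t L H) : Rrw86Law where
  P := rrc86P t L H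
  mono := rrc86_P_mono h0.le h1 L H
  bot := rrc86_P_bot t L H
  top := rrc86_P_top h0 h1 L hH
  union := rrc86_P_union h0.le h1 L H
  fkg := fun E E' hE hE' => hF _ _ (rrc86_inc hE) (rrc86_inc hE')
  shift := rrc86_P_shift t hL H
  mirror := rrc86_P_mirror t hL H
  supp := rrc86_P_supp t hL H

theorem rrc86_law_P (t : ℝ) (h0 : 0 < t) (h1 : t ≤ 1) (L H : ℕ) (hL : 0 < L) (hH : 0 < H) (hF : Rrc86Fkg t L H) (E : Set (ℤ × ℤ) → Prop) :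
    (rrc86Law t h0 h1 L H hL hH hF).P E = rrc86P t L H E := rfl

/-! ## §4 the exit -/

/-- **THE CLOSED CONTRACT OF PART II** (TIP + TUBE on the mixed cylinder): ONE constant `cg` for all circumferences `16 r ≤ 2 L`, heights, bands `[c, c + r]` of refined rows with room `r` below and above -/
def Rrc86Glue (t : ℝ) (h0 : 0 < t) (h1 : t ≤ 1) : Prop :=
  ∃ cg : ℝ, 0 < cg ∧ ∀ (L H : ℕ) (hL : 0 < L) (hH : 0 < H) (hF : Rrc86Fkg t L H) (c r w : ℤ), 10 ≤ w → 12500 * w ≤ r → r ≤ 25000 * w → 16 * r ≤ 2 * L → r ≤ c →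
    c + 2 * r ≤ 2 * (H : ℤ) - 1 → Rrw86Glue (rrc86Law t h0 h1 L H hL hH hF) cg c r w

/-- the events of the kit (127, R291 `Ann/CylKit`) read on the plus cells -/
theorem rrc86_V_iff (a b c d : ℤ) (τ : CyF) : τ ∈ cyV 1 a b c d ↔ RswV a b c d (cyOn 1 τ) := Iff.rfl

theorem rrc86_H_iff {a b c d : ℤ} (hab : a ≤ b) (hcd : c ≤ d) (τ : CyF) : τ ∈ cyH 1 a b c d ↔ RswH a b c d (cyOn 1 τ) :=
  (pls_box_iff hab hcd (cyOn 1 τ)).symm

theorem rrc86_Q_V (t : ℝ) (L H : ℕ) (a b c d : ℤ) : rcy162Q t L H (cyV 1 a b c d) = rrc86P t L H (RswV a b c d) := rfl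

theorem rrc86_Q_H (t : ℝ) (L H : ℕ) {a b c d : ℤ} (hab : a ≤ b) (hcd : c ≤ d) : rcy162Q t L H (cyH 1 a b c d) = rrc86P t L H (RswH a b c d) := by
  unfold rrc86P
  congr 1
  ext τ
  exact rrc86_H_iff hab hcd τ

/-- TEX[annulus:RSW] **(56) on the mixed cylinder**, from PART I (`rrw86_main_gen`) and PART II (`Rrc86Glue`); flexible widths -/
theorem rrc86_exit (t : ℝ) (h0 : 0 < t) (h1 : t ≤ 1) (hG : Rrc86Glue t h0 h1) (δ : ℝ) (hδ : 0 < δ) :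
    ∃ ψ : ℝ, 0 < ψ ∧ ∀ (L H : ℕ) (c r a a' A B : ℤ), Rrc86Fkg t L H → 125000 ≤ r → 16 * r ≤ 2 * L → r ≤ c → c + 2 * r ≤ 2 * (H : ℤ) - 1 →
      0 ≤ A → A ≤ 6 * r + 6 → 0 ≤ B → B ≤ 4 * r + 4 →
      δ ≤ rcy162Q t L H (cyV 1 a (a + A) c (c + r)) → ψ ≤ rcy162Q t L H (cyH 1 a' (a' + B) c (c + r)) := by
  obtain ⟨cg, hcg, G⟩ := hG
  obtain ⟨ψ, hψ, M⟩ := rrw86_main_gen cg δ hcg hδ
  refine ⟨ψ, hψ, fun L H c r a a' A B hF hr hL hc hcH hA0 hA hB0 hB hV => ?_⟩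
  have hL2 : 0 < L := by omega
  have hH1 : 0 < H := by omega
  have hw1 : 10 ≤ r / 12500 := by omega
  have hw2 : 12500 * (r / 12500) ≤ r := by omega
  have hw3 : r ≤ 25000 * (r / 12500) := by omega
  rw [rrc86_Q_H t L H (by omega) (by omega)]
  rw [rrc86_Q_V] at hV
  exact M (rrc86Law t h0 h1 L H hL2 hH1 hF) c r (r / 12500) hw1 hw2 hw3 (G L H hL2 hH1 hF c r (r / 12500) hw1 hw2 hw3 hL hc hcH) a a' A B hA0 hA hB0 hB hV

/-- (56) in the shape of `SdRsw` of R291 `Defs/Seed`, on the field of 162 (refined rows and columns) -/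
def Rrc86Rsw (t : ℝ) : Prop :=
  ∀ δ : ℝ, 0 < δ → ∃ ψ : ℝ, 0 < ψ ∧ ∃ r₀ : ℕ, ∀ (L H : ℕ) (c r : ℤ), Rrc86Fkg t L H → (r₀ : ℤ) ≤ r → 16 * r ≤ 2 * L → r ≤ c → c + 2 * r ≤ 2 * (H : ℤ) - 1 →
    δ ≤ rcy162Q t L H (cyV 1 0 (6 * r) c (c + r)) → ψ ≤ rcy162Q t L H (cyH 1 0 (4 * r) c (c + r))

theorem rrc86_rsw (t : ℝ) (h0 : 0 < t) (h1 : t ≤ 1) (hG : Rrc86Glue t h0 h1) : Rrc86Rsw t := by
  intro δ hδ
  obtain ⟨ψ, hψ, M⟩ := rrc86_exit t h0 h1 hG δ hδ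
  refine ⟨ψ, hψ, 125000, fun L H c r hF hr hL hc hcH hV => ?_⟩
  have h := M L H c r 0 0 (6 * r) (4 * r) hF (by exact_mod_cast hr) hL hc hcH (by omega) (by omega) (by omega) (by omega) (by rw [zero_add]; exact hV)
  rwa [zero_add] at h

/-! ## §5 NO SEAM: the contract of PART II at two centres -/

theorem rrc86_E_sh (t c d w m l ρ : ℤ) (Y : Set (ℤ × ℤ)) : Rrw86E c d w (m + 2 * t) l ρ (rrw86Sh t Y) ↔ Rrw86E c d w m l ρ Y := by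
  unfold Rrw86E
  have e1 : m + 2 * t - l = m - l + 2 * t := by ring
  have e2 : m + 2 * t + ρ = m + ρ + 2 * t := by ring
  rw [e1, e2]
  exact rrw86_cr_sh t _ _ c d m m w Y

/-- every integer is `m₀` or `m₀ + 1` up to an even shift -/
theorem rrc86_two (m₀ m : ℤ) : ∃ t m' : ℤ, (m' = m₀ ∨ m' = m₀ + 1) ∧ m = m' + 2 * t :=
  ⟨(m - m₀) / 2, m - 2 * ((m - m₀) / 2), by omega, by ring⟩

/-- **NO SEAM (TIP)**: the inequality at the centres `m₀`, `m₀ + 1` gives it at all centres (shift of the law) -/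
theorem rrc86_tip_of_two (𝔏 : Rrw86Law) (cg : ℝ) (c d w σ e e2 m₀ : ℤ)
    (h : ∀ m : ℤ, (m = m₀ ∨ m = m₀ + 1) → cg * 𝔏.P (fun Y => Rrw86E c d w m e e Y ∧ Rrw86E c d w (m + σ) e e Y ∧ ¬ Rrw86E c d w m e e2 Y ∧ ¬ Rrw86E c d w m e2 e Y ∧
      ¬ Rrw86E c d w (m + σ) e e2 Y ∧ ¬ Rrw86E c d w (m + σ) e2 e Y) ≤ 𝔏.P (Rrw86F c d w σ m)) : Rrw86Tip 𝔏 cg c d w σ e e2 := by
  intro m
  obtain ⟨t, m', hm', rfl⟩ := rrc86_two m₀ m
  have e0 : m' + 2 * t + σ = m' + σ + 2 * t := by ring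
  rw [← 𝔏.shift t (Rrw86F c d w σ (m' + 2 * t)), ← 𝔏.shift t (fun Y => Rrw86E c d w (m' + 2 * t) e e Y ∧ Rrw86E c d w (m' + 2 * t + σ) e e Y ∧ ¬ Rrw86E c d w (m' + 2 * t) e e2 Y ∧
    ¬ Rrw86E c d w (m' + 2 * t) e2 e Y ∧ ¬ Rrw86E c d w (m' + 2 * t + σ) e e2 Y ∧ ¬ Rrw86E c d w (m' + 2 * t + σ) e2 e Y)]
  simp only [e0, rrc86_E_sh, rrw86_F_sh]
  exact h m' hm'

/-- **NO SEAM (TUBE)** -/
theorem rrc86_tube_of_two (𝔏 : Rrw86Law) (cg : ℝ) (c d w σ e m₀ : ℤ)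
    (h : ∀ m : ℤ, (m = m₀ ∨ m = m₀ + 1) → cg * 𝔏.P (fun Y => Rrw86E c d w m e e Y ∧ Rrw86E c d w (m + σ) e e Y) ≤ 𝔏.P (Rrw86F c d w σ m)) : Rrw86Tube 𝔏 cg c d w σ e := by
  intro m
  obtain ⟨t, m', hm', rfl⟩ := rrc86_two m₀ m
  have e0 : m' + 2 * t + σ = m' + σ + 2 * t := by ring
  rw [← 𝔏.shift t (Rrw86F c d w σ (m' + 2 * t)), ← 𝔏.shift t (fun Y => Rrw86E c d w (m' + 2 * t) e e Y ∧ Rrw86E c d w (m' + 2 * t + σ) e e Y)]
  simp only [e0, rrc86_E_sh, rrw86_F_sh]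
  exact h m' hm'

/-! ## §6 PART II (a): stopping rules, records, total probability      (port of R291 `Ann/RswRec` §1 (269) over the abstract law `Rln182Law` of 182) -/

section abs

variable {Ω Y : Type}

/-- a stopping rule: the set of the cells looked at is determined by what is seen on it -/
def Rrc86Stop (𝓛 : Rln182Law Ω Y) (Q : Ω → Finset Y) : Prop := ∀ ω₀ ω : Ω, 𝓛.agr (Q ω₀) ω₀ ω → Q ω = Q ω₀

/-- the record of `ω₀`: `K` + full agreement with `ω₀` on the cells looked at -/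
def rrc86Rec (𝓛 : Rln182Law Ω Y) (K : Ω → Prop) (Q : Ω → Finset Y) (ω₀ ω : Ω) : Prop := K ω ∧ 𝓛.agr (Q ω₀) ω₀ ω

/-- the event is read off the record -/
def Rrc86Meas (𝓛 : Rln182Law Ω Y) (Q : Ω → Finset Y) (G : Ω → Prop) : Prop := ∀ ω₀ ω : Ω, 𝓛.agr (Q ω₀) ω₀ ω → (G ω₀ ↔ G ω)

/-- **(SE) the estimate under ONE record**: for every record in `G`, the conditional probability of `F` is at least `cg` -/
def Rrc86SE (𝓛 : Rln182Law Ω Y) (K : Ω → Prop) (Q : Ω → Finset Y) (cg : ℝ) (G F : Ω → Prop) : Prop :=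
  ∀ ω₀ ∈ 𝓛.cfgs, K ω₀ → G ω₀ → cg * 𝓛.Z (rrc86Rec 𝓛 K Q ω₀) ≤ 𝓛.N (rrc86Rec 𝓛 K Q ω₀) (rln182Ind F)

/-- **the fibre sum** for ANY stopping rule: an inequality which holds under every record holds under `K`      (proof of `rln182_fibre` of 182) -/
theorem rrc86_fibre (𝓛 : Rln182Law Ω Y) (hS : 𝓛.Ok) (K : Ω → Prop) (Q : Ω → Finset Y) (hQ : Rrc86Stop 𝓛 Q) (F F' : Ω → ℝ) (c : ℝ)
    (h : ∀ ω₀ ∈ 𝓛.cfgs, K ω₀ → c * 𝓛.N (rrc86Rec 𝓛 K Q ω₀) F ≤ 𝓛.N (rrc86Rec 𝓛 K Q ω₀) F') :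
    c * 𝓛.N K F ≤ 𝓛.N K F' := by
  classical
  set r : Ω → Ω → Prop := fun ω₀ ω => 𝓛.agr (Q ω₀) ω₀ ω with hr
  have rsymm : ∀ ω₀ ω, r ω₀ ω → r ω ω₀ := by
    intro ω₀ ω h1
    show 𝓛.agr (Q ω) ω ω₀
    rw [hQ ω₀ ω h1]
    exact hS.agr_symm _ _ _ h1
  have rtrans : ∀ ω₀ ω ω', r ω₀ ω → r ω ω' → r ω₀ ω' := by
    intro ω₀ ω ω' h1 h2
    have h2' : 𝓛.agr (Q ω) ω ω' := h2
    rw [hQ ω₀ ω h1] at h2'
    exact hS.agr_trans _ _ _ _ h1 h2'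
  set A : Finset Ω := 𝓛.cfgs.filter K with hA
  set key : Ω → Finset Ω := fun ω => A.filter (r ω) with hkey
  have hk : ∀ ω₀ ∈ A, ∀ ω ∈ A, (key ω = key ω₀ ↔ r ω₀ ω) := by
    intro ω₀ h0 ω h1
    constructor
    · intro e
      have : ω ∈ key ω := Finset.mem_filter.2 ⟨h1, hS.agr_refl _ _⟩
      rw [e] at this
      exact (Finset.mem_filter.1 this).2
    · intro e
      refine Finset.filter_congr fun ω' _ => ?_
      exact ⟨fun h2 => rtrans _ _ _ e h2, fun h2 => rtrans _ _ _ (rsymm _ _ e) h2⟩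
  have e : ∀ F : Ω → ℝ, 𝓛.N K F = ∑ k ∈ A.image key, ∑ ω ∈ A.filter (fun ω => key ω = k), 𝓛.wt ω * F ω := by
    intro F
    unfold Rln182Law.N
    rw [← Finset.sum_filter, ← Finset.sum_fiberwise_of_maps_to (g := key) (t := A.image key)
      (fun ω hω => Finset.mem_image_of_mem _ hω)]
  have e' : ∀ (F : Ω → ℝ), ∀ ω₀ ∈ A, ∑ ω ∈ A.filter (fun ω => key ω = key ω₀), 𝓛.wt ω * F ω =
      𝓛.N (rrc86Rec 𝓛 K Q ω₀) F := by
    intro F ω₀ h0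
    unfold Rln182Law.N
    rw [← Finset.sum_filter]
    refine Finset.sum_congr ?_ fun _ _ => rfl
    ext ω
    constructor
    · intro h
      obtain ⟨h1, h3⟩ := Finset.mem_filter.1 h
      exact Finset.mem_filter.2 ⟨(Finset.mem_filter.1 h1).1, (Finset.mem_filter.1 h1).2, (hk ω₀ h0 ω h1).1 h3⟩
    · intro h
      obtain ⟨h1, h2, h3⟩ := Finset.mem_filter.1 h
      exact Finset.mem_filter.2 ⟨Finset.mem_filter.2 ⟨h1, h2⟩, (hk ω₀ h0 ω (Finset.mem_filter.2 ⟨h1, h2⟩)).2 h3⟩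
  rw [e F, e F', Finset.mul_sum]
  refine Finset.sum_le_sum fun k hk' => ?_
  obtain ⟨ω₀, hω₀, rfl⟩ := Finset.mem_image.1 hk'
  rw [e' F ω₀ hω₀, e' F' ω₀ hω₀]
  exact h ω₀ (Finset.mem_filter.1 hω₀).1 (Finset.mem_filter.1 hω₀).2

/-- total probability, unnormalised -/
theorem rrc86_sum_N (𝓛 : Rln182Law Ω Y) (hS : 𝓛.Ok) (K : Ω → Prop) (Q : Ω → Finset Y) (hQ : Rrc86Stop 𝓛 Q) {cg : ℝ}
    {G F : Ω → Prop} (hG : Rrc86Meas 𝓛 Q G) (h : Rrc86SE 𝓛 K Q cg G F) :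
    cg * 𝓛.N K (rln182Ind G) ≤ 𝓛.N K (rln182Ind F) := by
  refine rrc86_fibre 𝓛 hS K Q hQ _ _ cg fun ω₀ hω₀ hK₀ => ?_
  by_cases hG₀ : G ω₀
  · have e : 𝓛.N (rrc86Rec 𝓛 K Q ω₀) (rln182Ind G) = 𝓛.Z (rrc86Rec 𝓛 K Q ω₀) := by
      classical
      unfold Rln182Law.Z Rln182Law.N
      refine Finset.sum_congr rfl fun ω _ => ?_
      by_cases hω : rrc86Rec 𝓛 K Q ω₀ ω
      · rw [if_pos hω, if_pos hω, rln182_ind_pos ((hG ω₀ ω hω.2).1 hG₀)]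
      · rw [if_neg hω, if_neg hω]
    rw [e]
    exact h ω₀ hω₀ hK₀ hG₀
  · have e : 𝓛.N (rrc86Rec 𝓛 K Q ω₀) (rln182Ind G) = 0 := by
      refine rln182_N_eq_zero 𝓛 _ _ fun ω hω => ?_
      exact rln182_ind_neg fun hGω => hG₀ ((hG ω₀ ω hω.2).2 hGω)
    rw [e, mul_zero]
    exact rln182_N_nonneg 𝓛 hS _ _ fun ω _ => rln182_ind_nonneg _ _

/-- **total probability**: the estimate under every record of `G` gives `cg · P[G] ≤ P[F]` -/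
theorem rrc86_sum (𝓛 : Rln182Law Ω Y) (hS : 𝓛.Ok) (K : Ω → Prop) (Q : Ω → Finset Y) (hQ : Rrc86Stop 𝓛 Q) {cg : ℝ}
    {G F : Ω → Prop} (hG : Rrc86Meas 𝓛 Q G) (h : Rrc86SE 𝓛 K Q cg G F) : cg * 𝓛.P K G ≤ 𝓛.P K F := by
  unfold Rln182Law.P
  rw [← mul_div_assoc]
  exact div_le_div_of_nonneg_right (rrc86_sum_N 𝓛 hS K Q hQ hG h) (rln182_Z_nonneg 𝓛 hS _)

end abs

/-! ## §7 exploration in the lift      (R291 `Ann/RswRec` §2) -/

section lift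

variable {Ω Y : Type}

/-- the LIFTED set of the plus cells: `ι z` = the cell of the law with the (lifted) index `z`.      (`rln182Set 𝓛 L ω = rrc86Y 𝓛 (sdRed L) ω` by `rfl`.) -/
def rrc86Y (𝓛 : Rln182Law Ω Y) (ι : TV → Y) (ω : Ω) : Set TV := {z | ι z ∈ 𝓛.cells ∧ ¬ 𝓛.np ω (ι z)}

open Classical in
/-- the cells of the law looked at by the exploration of the non-plus cluster of the seeds `σ` inside `R` (`rsrLook` of R291) -/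
noncomputable def rrc86Q (𝓛 : Rln182Law Ω Y) (ι : TV → Y) (R σ : Set TV) (ω : Ω) : Finset Y :=
  𝓛.cells.filter (fun y => ∃ z ∈ rsrLook R σ (rrc86Y 𝓛 ι ω), ι z = y)

/-- agreement on the cells looked at: the plus sets agree on the look set -/
theorem rrc86_agr_P (𝓛 : Rln182Law Ω Y) (hS : 𝓛.Ok) (ι : TV → Y) (R σ : Set TV) (ω₀ ω : Ω) (h : 𝓛.agr (rrc86Q 𝓛 ι R σ ω₀) ω₀ ω) (z : TV)
    (hz : z ∈ rsrLook R σ (rrc86Y 𝓛 ι ω₀)) : z ∈ rrc86Y 𝓛 ι ω₀ ↔ z ∈ rrc86Y 𝓛 ι ω := by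
  classical
  unfold rrc86Y
  simp only [Set.mem_ofPred_eq]
  refine and_congr_right fun hC => ?_
  have hm : ι z ∈ rrc86Q 𝓛 ι R σ ω₀ := Finset.mem_filter.2 ⟨hC, z, hz, rfl⟩
  rw [hS.agr_np _ _ _ h _ hm]

/-- **one-sided measurability**: the cluster of a part `σ₁` of the seeds is read off the record -/
theorem rrc86_I_meas (𝓛 : Rln182Law Ω Y) (hS : 𝓛.Ok) (ι : TV → Y) (R σ σ₁ : Set TV) (hσ : σ₁ ⊆ σ) (ω₀ ω : Ω) (h : 𝓛.agr (rrc86Q 𝓛 ι R σ ω₀) ω₀ ω) :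
    pleI tscG (R \ rrc86Y 𝓛 ι ω) σ₁ = pleI tscG (R \ rrc86Y 𝓛 ι ω₀) σ₁ := by
  have hsub : pleI tscG (R \ rrc86Y 𝓛 ι ω₀) σ₁ ⊆ pleI tscG (R \ rrc86Y 𝓛 ι ω₀) σ := by
    rintro z ⟨t, ht, hts, htz⟩
    exact ⟨t, ht, hσ hts, htz⟩
  refine ple_I_local_P fun z hzR hz => rrc86_agr_P 𝓛 hS ι R σ ω₀ ω h z ⟨hzR, ?_⟩
  rcases hz with hz | hz | ⟨i, hi, hiz⟩
  · exact Or.inl (hσ hz)
  · exact Or.inr (Or.inl (hsub hz))
  · exact Or.inr (Or.inr ⟨i, hsub hi, hiz⟩)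

/-- the exploration is a stopping rule -/
theorem rrc86_stop (𝓛 : Rln182Law Ω Y) (hS : 𝓛.Ok) (ι : TV → Y) (R σ : Set TV) : Rrc86Stop 𝓛 (rrc86Q 𝓛 ι R σ) := by
  classical
  intro ω₀ ω h
  have e := rrc86_I_meas 𝓛 hS ι R σ σ subset_rfl ω₀ ω h
  unfold rrc86Q rsrLook
  rw [e]

/-- an event which is a function of the clusters of two parts of the seeds is read off the record -/
theorem rrc86_meas (𝓛 : Rln182Law Ω Y) (hS : 𝓛.Ok) (ι : TV → Y) (R σ σ₁ σ₂ : Set TV) (h₁ : σ₁ ⊆ σ) (h₂ : σ₂ ⊆ σ) (G : Set TV → Set TV → Prop) :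
    Rrc86Meas 𝓛 (rrc86Q 𝓛 ι R σ) (fun ω => G (pleI tscG (R \ rrc86Y 𝓛 ι ω) σ₁) (pleI tscG (R \ rrc86Y 𝓛 ι ω) σ₂)) := by
  intro ω₀ ω h
  beta_reduce
  rw [rrc86_I_meas 𝓛 hS ι R σ σ₁ h₁ ω₀ ω h, rrc86_I_meas 𝓛 hS ι R σ σ₂ h₂ ω₀ ω h]

end lift

/-! ## §8 the two extremal crossings      (R291 `Ann/RswRec` §3; boxes of the refined lattice, `pla_quad_box_L/_R` of 112) -/

/-- landing interval on the row `j` -/
def rrc86Lam (j i w : ℤ) : Set TV := {p | p.2 = j ∧ i - w ≤ rrw86X p ∧ rrw86X p ≤ i + w}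

/-- the LEFT arc of the box `rrw86Rect A B c d` at the centre `i`: the left side and the parts of the extreme rows on the left of the landing intervals (ONE common cell with each of them) -/
def rrc86SgL (A c d i w : ℤ) : Set TV := {p | rrw86X p ≤ A ∨ ((p.2 = c ∨ p.2 = d) ∧ rrw86X p ≤ i - w)}

/-- the RIGHT arc at the centre `i` -/
def rrc86SgR (B c d i w : ℤ) : Set TV := {p | B ≤ rrw86X p ∨ ((p.2 = c ∨ p.2 = d) ∧ i + w ≤ rrw86X p)}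

/-- the layer `a` of the cluster `I` of the left arc at `m` (= the leftmost crossing, as a set) -/
def rrc86Ga (A B c d w m : ℤ) (I : Set TV) : Set TV := pleGam tscG (rrw86Rect A B c d) (rrc86SgL A c d m w) (rrc86SgR B c d m w) I

/-- the layer `c` of the cluster `J` of the right arc at `m'` (= the rightmost crossing, as a set) -/
def rrc86Gc (A B c d w m' : ℤ) (J : Set TV) : Set TV := pleGam tscG (rrw86Rect A B c d) (rrc86SgR B c d m' w) (rrc86SgL A c d m' w) J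

/-- both crossings exist -/
def Rrc86G0 (A B c d w m m' : ℤ) (I J : Set TV) : Prop :=
  (∀ z ∈ rrw86Rect A B c d ∩ rrc86SgR B c d m w, z ∉ I) ∧ (∀ z ∈ rrw86Rect A B c d ∩ rrc86SgL A c d m' w, z ∉ J)

/-- the tips: `a` reaches `X > ta`, `c` reaches `X < tc` -/
def Rrc86G1 (A B c d w m m' ta tc : ℤ) (I J : Set TV) : Prop :=
  Rrc86G0 A B c d w m m' I J ∧ (∃ z ∈ rrc86Ga A B c d w m I, ta < rrw86X z) ∧ (∃ z ∈ rrc86Gc A B c d w m' J, rrw86X z < tc)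

theorem rrc86_rect_box (A B c d : ℤ) : rrw86Rect A B c d = tscBox A B c d := rfl

/-- the box with landing intervals is a quadrilateral, explored from the left -/
theorem rrc86_quad_L {A B c d i w : ℤ} (hcd : c < d) (hw : 0 ≤ w) (hA : A ≤ i - w) (hB : i + w ≤ B) :
    PleQuad tscG (rrw86Rect A B c d) (rrc86SgL A c d i w) (rrc86SgR B c d i w) (rrc86Lam c i w) (rrc86Lam d i w) := by
  have h := pla_quad_box_L (a := A) (b := B) (c := c) (d := d) (x1 := i - w) (x2 := i + w) (x1' := i - w) (x2' := i + w) hcd.le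
    hA (by omega) hB hA (by omega) hB
  rw [rrc86_rect_box]
  refine ple_quad_congr h (fun z hz => ?_) (fun z hz => ?_) (fun z _ => Iff.rfl) (fun z _ => Iff.rfl)
  · obtain ⟨z1, z2, z3, z4⟩ := hz
    simp only [plaArcL, rrc86SgL, rrw86X, Set.mem_ofPred_eq]
    omega
  · obtain ⟨z1, z2, z3, z4⟩ := hz
    simp only [plaArcR, rrc86SgR, rrw86X, Set.mem_ofPred_eq]
    omega

/-- the same, explored from the right -/
theorem rrc86_quad_R {A B c d i w : ℤ} (hcd : c < d) (hw : 0 ≤ w) (hA : A ≤ i - w) (hB : i + w ≤ B) :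
    PleQuad tscG (rrw86Rect A B c d) (rrc86SgR B c d i w) (rrc86SgL A c d i w) (rrc86Lam c i w) (rrc86Lam d i w) := by
  have h := pla_quad_box_R (a := A) (b := B) (c := c) (d := d) (x1 := i - w) (x2 := i + w) (x1' := i - w) (x2' := i + w) hcd.le
    hA (by omega) hB hA (by omega) hB
  rw [rrc86_rect_box]
  refine ple_quad_congr h (fun z hz => ?_) (fun z hz => ?_) (fun z _ => Iff.rfl) (fun z _ => Iff.rfl)
  · obtain ⟨z1, z2, z3, z4⟩ := hz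
    simp only [plaArcR, rrc86SgR, rrw86X, Set.mem_ofPred_eq]
    omega
  · obtain ⟨z1, z2, z3, z4⟩ := hz
    simp only [plaArcL, rrc86SgL, rrw86X, Set.mem_ofPred_eq]
    omega

/-- a crossing between the landing intervals blocks the cluster of the arc `σ` -/
theorem rrc86_block {R R₀ σ σ' P : Set TV} {c d i w : ℤ} (hq : PleQuad tscG R σ σ' (rrc86Lam c i w) (rrc86Lam d i w)) (hR : R₀ ⊆ R)
    (hE : Rrw86Cr R₀ c d i i w P) : ∀ z ∈ R ∩ σ', z ∉ pleI tscG (R \ P) σ := by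
  obtain ⟨p, q, hp, hpc, hqd, hpi, hqi, hpq⟩ := hE
  refine ple_hyp ?_
  rintro ⟨u, v, hu, huσ, hvσ, huv⟩
  obtain ⟨z, hz1, hz2⟩ := hq.jordan (P ∩ R₀) (R \ P) (fun z hz => hR hz.2) Set.sdiff_subset p q u v hp ⟨hpc, hpi⟩ ⟨hqd, hqi⟩ hpq hu huσ hvσ huv
  exact hz2.2 hz1.1

/-- the layer contains a crossing between the landing intervals: if it stays inside `R₁` there is a crossing inside `R₁` -/
theorem rrc86_layer_cr {R R₁ σ σ' P : Set TV} {c d i w : ℤ} (hq : PleQuad tscG R σ σ' (rrc86Lam c i w) (rrc86Lam d i w))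
    (hI : ∀ z ∈ R ∩ σ', z ∉ pleI tscG (R \ P) σ) (h : pleGam tscG R σ σ' (pleI tscG (R \ P) σ) ⊆ R₁) : Rrw86Cr R₁ c d i i w P := by
  obtain ⟨l, r, hl, hll, hrr, hlr⟩ := ple_gam_cross hq hI
  have hsub : pleGam tscG R σ σ' (pleI tscG (R \ P) σ) ⊆ P ∩ R₁ := fun z hz => ⟨(ple_gam_sub hz).2, h hz⟩
  exact ⟨l, r, hsub hl, hll.1, hrr.1, hll.2, hrr.2, tsc_R_mono hsub hlr⟩

/-- the event of `Rrw86Tube` implies `Rrc86G0` -/
theorem rrc86_good0 {c d w σ m e : ℤ} (hcd : c < d) (hw : 0 ≤ w) (hσ : 0 ≤ σ) (he : w ≤ e) {P : Set TV}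
    (h1 : Rrw86E c d w m e e P) (h2 : Rrw86E c d w (m + σ) e e P) :
    Rrc86G0 (m - e) (m + σ + e) c d w m (m + σ) (pleI tscG (rrw86Rect (m - e) (m + σ + e) c d \ P) (rrc86SgL (m - e) c d m w))
      (pleI tscG (rrw86Rect (m - e) (m + σ + e) c d \ P) (rrc86SgR (m + σ + e) c d (m + σ) w)) := by
  constructor
  · refine rrc86_block (rrc86_quad_L hcd hw (by omega) (by omega)) ?_ h1
    rintro z ⟨h1, h2, h3, h4⟩
    exact ⟨h1, by omega, h3, h4⟩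
  · refine rrc86_block (rrc86_quad_R hcd hw (by omega) (by omega)) ?_ h2
    rintro z ⟨h1, h2, h3, h4⟩
    exact ⟨by omega, h2, h3, h4⟩

/-- the event of `Rrw86Tip` implies `Rrc86G1` -/
theorem rrc86_good1 {c d w σ m e e2 : ℤ} (hcd : c < d) (hw : 0 ≤ w) (hσ : 0 ≤ σ) (he : w ≤ e) {P : Set TV}
    (h1 : Rrw86E c d w m e e P) (h2 : Rrw86E c d w (m + σ) e e P) (h3 : ¬ Rrw86E c d w m e e2 P) (h4 : ¬ Rrw86E c d w (m + σ) e2 e P) :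
    Rrc86G1 (m - e) (m + σ + e) c d w m (m + σ) (m + e2) (m + σ - e2) (pleI tscG (rrw86Rect (m - e) (m + σ + e) c d \ P) (rrc86SgL (m - e) c d m w))
      (pleI tscG (rrw86Rect (m - e) (m + σ + e) c d \ P) (rrc86SgR (m + σ + e) c d (m + σ) w)) := by
  have h0 := rrc86_good0 hcd hw hσ he h1 h2
  refine ⟨h0, ?_, ?_⟩
  · by_contra hn
    push Not at hn
    refine h3 (rrc86_layer_cr (rrc86_quad_L hcd hw (by omega) (by omega)) h0.1 fun z hz => ?_)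
    have hzR := (ple_gam_sub hz).1
    exact ⟨hzR.1, hn z hz, hzR.2.2.1, hzR.2.2.2⟩
  · by_contra hn
    push Not at hn
    refine h4 (rrc86_layer_cr (rrc86_quad_R hcd hw (by omega) (by omega)) h0.2 fun z hz => ?_)
    have hzR := (ple_gam_sub hz).1
    exact ⟨hn z hz, by have := hzR.2.1; omega, hzR.2.2.1, hzR.2.2.2⟩

/-! ## §9 the contract of PART II from the strip estimate      (R291 `Ann/RswRec` §4) -/

section contract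

variable {Ω Y : Type}

/-- the seeds of the two explorations -/
def rrc86Seed (c d w σ m e : ℤ) : Set TV := rrc86SgL (m - e) c d m w ∪ rrc86SgR (m + σ + e) c d (m + σ) w

/-- the cluster `I` of the left arc -/
def rrc86I (𝓛 : Rln182Law Ω Y) (ι : TV → Y) (c d w σ m e : ℤ) (ω : Ω) : Set TV :=
  pleI tscG (rrw86Rect (m - e) (m + σ + e) c d \ rrc86Y 𝓛 ι ω) (rrc86SgL (m - e) c d m w)

/-- the cluster `J` of the right arc -/
def rrc86J (𝓛 : Rln182Law Ω Y) (ι : TV → Y) (c d w σ m e : ℤ) (ω : Ω) : Set TV :=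
  pleI tscG (rrw86Rect (m - e) (m + σ + e) c d \ rrc86Y 𝓛 ι ω) (rrc86SgR (m + σ + e) c d (m + σ) w)

/-- the stopping rule of the two explorations -/
noncomputable def rrc86Q2 (𝓛 : Rln182Law Ω Y) (ι : TV → Y) (c d w σ m e : ℤ) : Ω → Finset Y :=
  rrc86Q 𝓛 ι (rrw86Rect (m - e) (m + σ + e) c d) (rrc86Seed c d w σ m e)

/-- **(SE-TIP)** = what PART II (b) + (c) must prove: under every record whose two extremal crossings exist and have long tips, `F` has conditional probability at least `cg` -/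
def Rrc86SETip (𝓛 : Rln182Law Ω Y) (K : Ω → Prop) (ι : TV → Y) (cg : ℝ) (c d w σ m e e2 : ℤ) : Prop :=
  Rrc86SE 𝓛 K (rrc86Q2 𝓛 ι c d w σ m e) cg
    (fun ω => Rrc86G1 (m - e) (m + σ + e) c d w m (m + σ) (m + e2) (m + σ - e2) (rrc86I 𝓛 ι c d w σ m e ω) (rrc86J 𝓛 ι c d w σ m e ω))
    (fun ω => Rrw86F c d w σ m (rrc86Y 𝓛 ι ω))

/-- **(SE-TUBE)** -/
def Rrc86SETube (𝓛 : Rln182Law Ω Y) (K : Ω → Prop) (ι : TV → Y) (cg : ℝ) (c d w σ m e : ℤ) : Prop :=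
  Rrc86SE 𝓛 K (rrc86Q2 𝓛 ι c d w σ m e) cg
    (fun ω => Rrc86G0 (m - e) (m + σ + e) c d w m (m + σ) (rrc86I 𝓛 ι c d w σ m e ω) (rrc86J 𝓛 ι c d w σ m e ω))
    (fun ω => Rrw86F c d w σ m (rrc86Y 𝓛 ι ω))

/-- **TIP** from (SE-TIP) -/
theorem rrc86_tip (𝓛 : Rln182Law Ω Y) (hS : 𝓛.Ok) (K : Ω → Prop) (ι : TV → Y) {cg : ℝ} (hcg : 0 ≤ cg) {c d w σ m e e2 : ℤ} (hcd : c < d) (hw : 0 ≤ w)
    (hσ : 0 ≤ σ) (he : w ≤ e) (h : Rrc86SETip 𝓛 K ι cg c d w σ m e e2) :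
    cg * 𝓛.P K (fun ω => Rrw86E c d w m e e (rrc86Y 𝓛 ι ω) ∧ Rrw86E c d w (m + σ) e e (rrc86Y 𝓛 ι ω) ∧ ¬ Rrw86E c d w m e e2 (rrc86Y 𝓛 ι ω) ∧
      ¬ Rrw86E c d w m e2 e (rrc86Y 𝓛 ι ω) ∧ ¬ Rrw86E c d w (m + σ) e e2 (rrc86Y 𝓛 ι ω) ∧ ¬ Rrw86E c d w (m + σ) e2 e (rrc86Y 𝓛 ι ω)) ≤
    𝓛.P K (fun ω => Rrw86F c d w σ m (rrc86Y 𝓛 ι ω)) := by
  refine le_trans (mul_le_mul_of_nonneg_left (rln182_P_mono 𝓛 hS K fun ω hω => ?_) hcg)
    (rrc86_sum 𝓛 hS K _ (rrc86_stop 𝓛 hS ι _ _) (rrc86_meas 𝓛 hS ι _ _ _ _ Set.subset_union_left Set.subset_union_right _) h)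
  exact rrc86_good1 hcd hw hσ he hω.1 hω.2.1 hω.2.2.1 hω.2.2.2.2.2

/-- **TUBE** from (SE-TUBE) -/
theorem rrc86_tube (𝓛 : Rln182Law Ω Y) (hS : 𝓛.Ok) (K : Ω → Prop) (ι : TV → Y) {cg : ℝ} (hcg : 0 ≤ cg) {c d w σ m e : ℤ} (hcd : c < d) (hw : 0 ≤ w)
    (hσ : 0 ≤ σ) (he : w ≤ e) (h : Rrc86SETube 𝓛 K ι cg c d w σ m e) :
    cg * 𝓛.P K (fun ω => Rrw86E c d w m e e (rrc86Y 𝓛 ι ω) ∧ Rrw86E c d w (m + σ) e e (rrc86Y 𝓛 ι ω)) ≤
    𝓛.P K (fun ω => Rrw86F c d w σ m (rrc86Y 𝓛 ι ω)) := by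
  refine le_trans (mul_le_mul_of_nonneg_left (rln182_P_mono 𝓛 hS K fun ω hω => ?_) hcg)
    (rrc86_sum 𝓛 hS K _ (rrc86_stop 𝓛 hS ι _ _) (rrc86_meas 𝓛 hS ι _ _ _ _ Set.subset_union_left Set.subset_union_right _) h)
  exact rrc86_good0 hcd hw hσ he hω.1 hω.2

/-- **THE CONTRACT OF PART II** (`Rrw86Glue`) for any `Rrw86Law` whose probability is the law of the lifted plus set of `(𝓛, K, ι)`, from (SE-TIP) and (SE-TUBE), AT TWO CENTRES `m₀`, `m₀ + 1` ONLY (no seam).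
A narrow box (`e < ws`) is enlarged (`rrw86_cr_mono`). -/
theorem rrc86_glue (𝓛 : Rln182Law Ω Y) (hS : 𝓛.Ok) (K : Ω → Prop) (ι : TV → Y) (𝔏 : Rrw86Law) (h𝔏 : ∀ E, 𝔏.P E = 𝓛.P K (fun ω => E (rrc86Y 𝓛 ι ω)))
    {cg : ℝ} (hcg : 0 ≤ cg) {c r w : ℤ} (hr : 0 < r) (hw : 0 ≤ w) (m₀ : ℤ)
    (htip : ∀ m e e2 : ℤ, (m = m₀ ∨ m = m₀ + 1) → e2 ≤ e → e + 3 * (20 * w + 8) + (5 * w + 1) + 8 ≤ 2 * e2 → e ≤ 7 * r →
      Rrc86SETip 𝓛 K ι cg c (c + r) (5 * w + 1) (20 * w + 8) m e e2)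
    (htube : ∀ m e : ℤ, (m = m₀ ∨ m = m₀ + 1) → 5 * w + 1 ≤ e → e ≤ 20 * (20 * w + 8) → Rrc86SETube 𝓛 K ι cg c (c + r) (5 * w + 1) (20 * w + 8) m e) :
    Rrw86Glue 𝔏 cg c r w where
  tip := by
    intro e e2 h1 h2 h3
    refine rrc86_tip_of_two 𝔏 cg _ _ _ _ _ _ m₀ fun m hm => ?_
    rw [h𝔏, h𝔏]
    exact rrc86_tip 𝓛 hS K ι hcg (by omega) (by omega) (by omega) (by omega) (htip m e e2 hm h1 h2 h3)
  tube := by
    intro e h1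
    refine rrc86_tube_of_two 𝔏 cg _ _ _ _ _ m₀ fun m hm => ?_
    have key := rrc86_tube 𝓛 hS K ι hcg (c := c) (d := c + r) (w := 5 * w + 1) (σ := 20 * w + 8) (m := m) (e := max e (5 * w + 1))
      (by omega) (by omega) (by omega) (le_max_right _ _) (htube m _ hm (le_max_right _ _) (max_le h1 (by omega)))
    rw [← h𝔏 (fun Y => Rrw86E c (c + r) (5 * w + 1) m (max e (5 * w + 1)) (max e (5 * w + 1)) Y ∧
      Rrw86E c (c + r) (5 * w + 1) (m + (20 * w + 8)) (max e (5 * w + 1)) (max e (5 * w + 1)) Y), ← h𝔏 (Rrw86F c (c + r) (5 * w + 1) (20 * w + 8) m)] at key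
    refine le_trans (mul_le_mul_of_nonneg_left (𝔏.mono _ _ fun Y hY => ?_) hcg) key
    have hsub : ∀ m' : ℤ, rrw86Rect (m' - e) (m' + e) c (c + r) ⊆ rrw86Rect (m' - max e (5 * w + 1)) (m' + max e (5 * w + 1)) c (c + r) := by
      rintro m' z ⟨g1, g2, g3, g4⟩
      have := le_max_left e (5 * w + 1)
      exact ⟨by omega, by omega, g3, g4⟩
    exact ⟨rrw86_cr_mono (hsub m) hY.1, rrw86_cr_mono (hsub _) hY.2⟩

end contract

/-! ## §10 THE REALISATION: the mixed cylinder of 162 is an `Rln182Law`, linked (`Rse182Link` of 182) -/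

/-- **the law of the cylinder `rcy162Cyl L 0 H` read on the refined lattice** (base sizes `L`, `H`; cells = the fundamental domain `[0, 2 L) × [0, 2 H]`; agreement in the words of `Rse182Link`) -/
noncomputable def rrc86L (t : ℝ) (L H : ℕ) : Rln182Law RswCfg TV where
  cfgs := (rcy162Cyl L 0 H).cfgs
  wt := (rcy162Cyl L 0 H).w t
  cells := sdCells (2 * L) 0 (2 * H + 1)
  le := (rcy162Cyl L 0 H).Le
  np := fun ω y => ¬ (y ∈ sdCells (2 * L) 0 (2 * H + 1) ∧ rcy162Fld L (rcy162Cyl L 0 H) ω y = 1)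
  agr := fun Q ω ω' => (∀ v ∈ rse182Sv (rcy162Cyl L 0 H) Q, (v ∈ ω.S ↔ v ∈ ω'.S)) ∧
    ∀ e ∈ rse182Ed (rcy162Cyl L 0 H) Q, (rcy162Cyl L 0 H).sgE ω e = (rcy162Cyl L 0 H).sgE ω' e

theorem rrc86_mem_cells {L H : ℕ} {y : TV} : y ∈ sdCells (2 * L) 0 (2 * H + 1) ↔ (0 ≤ y.1 ∧ y.1 < 2 * (L : ℤ)) ∧ 0 ≤ y.2 ∧ y.2 ≤ 2 * (H : ℤ) := by
  unfold sdCells
  rw [Finset.mem_product, Finset.mem_Ico, Finset.mem_Ico]
  push_cast
  omega

/-- the field at a vertex of the system -/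
theorem rrc86_fld_V {L : ℕ} {a b : ℤ} (ω : RswCfg) {v : ℤ × ℤ} (hv : v ∈ (rcy162Cyl L a b).V) :
    rcy162Fld L (rcy162Cyl L a b) ω (rtd111P v) = (rcy162Cyl L a b).sgV ω v := by
  have h := rcy162_mem_cylV.1 hv
  rw [rcy162_fld_P, rcy162_red_of_range h.1.1 h.1.2]

/-- the field at an edge with its base point in the fundamental domain -/
theorem rrc86_fld_Ed {L : ℕ} {a b : ℤ} (ω : RswCfg) {e : (ℤ × ℤ) × Bool} (h0 : 0 ≤ e.1.1) (h1 : e.1.1 < L) :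
    rcy162Fld L (rcy162Cyl L a b) ω (rtd111E e) = (rcy162Cyl L a b).sgE ω e := by
  rw [rcy162_fld_E]
  unfold rcy162RedE
  rw [rcy162_red_of_range h0 h1]

theorem rrc86_sgV_congr {Y : Rcy162Sys} {ω ω' : RswCfg} {v : ℤ × ℤ} (h : v ∈ ω.S ↔ v ∈ ω'.S) : Y.sgV ω v = Y.sgV ω' v := by
  unfold Rcy162Sys.sgV
  simp only [h]

theorem rrc86_L_ok {t : ℝ} (h0 : 0 ≤ t) (h1 : t ≤ 1) (L H : ℕ) : (rrc86L t L H).Ok where
  wt_nonneg := fun ω _ => rcy162_w_nonneg _ h0 h1 ω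
  np_anti := by
    intro ω ω' h y _ hn hy
    refine hn ⟨hy.1, ?_⟩
    have h2 := rcy162_fld_mono L h y
    rw [hy.2] at h2
    exact le_antisymm (SignType.le_one _) h2
  agr_refl := fun _ _ => ⟨fun _ _ => Iff.rfl, fun _ _ => rfl⟩
  agr_symm := fun _ _ _ h => ⟨fun v hv => (h.1 v hv).symm, fun e he => (h.2 e he).symm⟩
  agr_trans := fun _ _ _ _ h h' => ⟨fun v hv => (h.1 v hv).trans (h'.1 v hv), fun e he => (h.2 e he).trans (h'.2 e he)⟩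
  agr_np := by
    intro Q ω ω' h y hy
    show ¬ (y ∈ sdCells (2 * L) 0 (2 * H + 1) ∧ rcy162Fld L (rcy162Cyl L 0 H) ω y = 1) ↔
      ¬ (y ∈ sdCells (2 * L) 0 (2 * H + 1) ∧ rcy162Fld L (rcy162Cyl L 0 H) ω' y = 1)
    refine not_congr (and_congr_right fun hc => ?_)
    have hc' := rrc86_mem_cells.1 hc
    suffices e : rcy162Fld L (rcy162Cyl L 0 H) ω y = rcy162Fld L (rcy162Cyl L 0 H) ω' y by rw [e]
    rcases rtd111_cases y with ⟨v, rfl⟩ | ⟨f, rfl⟩ | ⟨e, rfl⟩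
    · have hv : v ∈ (rcy162Cyl L 0 H).V := by
        unfold rtd111P at hc'
        exact rcy162_mem_cylV.2 (by dsimp only at hc'; omega)
      rw [rrc86_fld_V ω hv, rrc86_fld_V ω' hv]
      exact rrc86_sgV_congr (h.1 v (rse182_mem_Sv.2 ⟨hv, _, hy, Or.inl rfl⟩))
    · rw [rcy162_fld_F, rcy162_fld_F]
    · have hr : 0 ≤ e.1.1 ∧ e.1.1 < L := by
        obtain ⟨⟨x, y⟩, b⟩ := e
        cases b
        · rw [rtd111_E_f] at hc'; dsimp only at hc' ⊢; omega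
        · rw [rtd111_E_t] at hc'; dsimp only at hc' ⊢; omega
      rw [rrc86_fld_Ed ω hr.1 hr.2, rrc86_fld_Ed ω' hr.1 hr.2]
      by_cases he : e ∈ (rcy162Cyl L 0 H).E
      · exact h.2 e (rse182_mem_Ed.2 ⟨he, hy⟩)
      · rw [rcy162_sgE_of_not ω he, rcy162_sgE_of_not ω' he]

/-- **the link of 182** -/
theorem rrc86_L_link (t : ℝ) (L H : ℕ) : Rse182Link (rcy162Cyl L 0 H) t (rrc86L t L H) where
  cfgs := rfl
  wt := rfl
  npE := by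
    intro ω e he
    show ¬ (rtd111E e ∈ sdCells (2 * L) 0 (2 * H + 1) ∧ rcy162Fld L (rcy162Cyl L 0 H) ω (rtd111E e) = 1) ↔ _
    have h := rcy162_mem_cylE.1 he
    have hc : rtd111E e ∈ sdCells (2 * L) 0 (2 * H + 1) := by
      rw [rrc86_mem_cells]
      obtain ⟨⟨x, y⟩, b⟩ := e
      cases b
      · rw [rtd111_E_f]; dsimp only at h ⊢; simp at h; omega
      · rw [rtd111_E_t]; dsimp only at h ⊢; simp at h; omega
    rw [rrc86_fld_Ed ω h.1.1 h.1.2, rcy162_sgE_one]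
    tauto
  npP := by
    intro ω v hv
    show ¬ (rtd111P v ∈ sdCells (2 * L) 0 (2 * H + 1) ∧ rcy162Fld L (rcy162Cyl L 0 H) ω (rtd111P v) = 1) ↔ _
    have h := rcy162_mem_cylV.1 hv
    have hc : rtd111P v ∈ sdCells (2 * L) 0 (2 * H + 1) := by
      rw [rrc86_mem_cells]
      unfold rtd111P
      dsimp only
      omega
    rw [rrc86_fld_V ω hv, rcy162_sgV_one]
    tauto
  npF := by
    intro ω f h
    have := h.2
    rw [rcy162_fld_F] at this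
    exact absurd this (by decide)
  agr := fun _ _ _ _ => Iff.rfl

/-- reduction mod the refined circumference does not change the field -/
theorem rrc86_fld_red (L : ℕ) (Y : Rcy162Sys) (ω : RswCfg) (z : TV) : rcy162Fld L Y ω (sdRed (2 * L) z) = rcy162Fld L Y ω z := by
  obtain ⟨x, y⟩ := z
  have hx : x = 2 * ((L : ℤ) * (x / (2 * L))) + x % (2 * L) := by
    have := Int.mul_ediv_add_emod x (2 * (L : ℤ))
    linarith
  have e1 : (x % (2 * (L : ℤ))) % 2 = x % 2 := by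
    generalize (L : ℤ) * (x / (2 * L)) = k at hx
    omega
  have e2 : x / 2 = (x % (2 * (L : ℤ))) / 2 + (L : ℤ) * (x / (2 * L)) := by
    generalize (L : ℤ) * (x / (2 * L)) = k at hx
    omega
  have e3 : rcy162Red L ((x % (2 * (L : ℤ))) / 2, y / 2) = rcy162Red L (x / 2, y / 2) := by
    unfold rcy162Red
    rw [e2, Int.add_mul_emod_self_left]
  unfold rcy162Fld sdRed rcy162RedE
  push_cast
  simp only [e1, e3]

/-- a plus cell of the field lies in the rows `0..2 H` -/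
theorem rrc86_fld_rows {L H : ℕ} (ω : RswCfg) {z : TV} (h : rcy162Fld L (rcy162Cyl L 0 H) ω z = 1) : 0 ≤ z.2 ∧ z.2 ≤ 2 * (H : ℤ) := by
  rcases rtd111_cases z with ⟨v, rfl⟩ | ⟨f, rfl⟩ | ⟨e, rfl⟩
  · rw [rcy162_fld_P, rcy162_sgV_one] at h
    have := (rcy162_mem_cylV.1 h.1).2
    rw [rcy162_red_snd] at this
    unfold rtd111P
    dsimp only
    omega
  · rw [rcy162_fld_F] at h
    exact absurd h (by decide)
  · rw [rcy162_fld_E, rcy162_sgE_one] at h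
    have := (rcy162_mem_cylE.1 h.1).2
    obtain ⟨⟨x, y⟩, b⟩ := e
    unfold rcy162RedE rcy162Red at this
    cases b
    · rw [rtd111_E_f]; simp at this; dsimp only; omega
    · rw [rtd111_E_t]; simp at this; dsimp only; omega

/-- **the lifted plus set of the law = the plus cells of the field of 162** -/
theorem rrc86_L_Y (t : ℝ) {L : ℕ} (hL : 0 < L) (H : ℕ) (ω : RswCfg) :
    rrc86Y (rrc86L t L H) (sdRed (2 * L)) ω = cyOn 1 (rcy162Fld L (rcy162Cyl L 0 H) ω) := by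
  ext z
  show (sdRed (2 * L) z ∈ sdCells (2 * L) 0 (2 * H + 1) ∧
    ¬ ¬ (sdRed (2 * L) z ∈ sdCells (2 * L) 0 (2 * H + 1) ∧ rcy162Fld L (rcy162Cyl L 0 H) ω (sdRed (2 * L) z) = 1)) ↔ rcy162Fld L (rcy162Cyl L 0 H) ω z = 1
  rw [not_not, rrc86_fld_red]
  constructor
  · exact fun h => h.2.2
  · intro h
    have hr := rrc86_fld_rows ω h
    have hc : sdRed (2 * L) z ∈ sdCells (2 * L) 0 (2 * H + 1) := by
      rw [rrc86_mem_cells]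
      unfold sdRed
      have hL' : (0 : ℤ) < ((2 * L : ℕ) : ℤ) := by exact_mod_cast (by omega : 0 < 2 * L)
      have a1 := Int.emod_nonneg z.1 hL'.ne'
      have a2 := Int.emod_lt_of_pos z.1 hL'
      push_cast at a1 a2 ⊢
      exact ⟨⟨a1, a2⟩, hr⟩
    exact ⟨hc, hc, h⟩

/-- the probabilities are those of 162 -/
theorem rrc86_L_P (t : ℝ) (L H : ℕ) (K A : RswCfg → Prop) : (rrc86L t L H).P K A = (rcy162Cyl L 0 H).Pr t K A := by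
  classical
  unfold Rln182Law.P Rln182Law.Z
  rw [rse182_N_sum (rrc86_L_link t L H), rse182_N_sum (rrc86_L_link t L H), rcy162_P_def]
  unfold Rcy162Sys.Ex
  congr 2

/-- **the law of PART I is the law of the lifted plus set** -/
theorem rrc86_L_law (t : ℝ) {L : ℕ} (hL : 0 < L) (H : ℕ) (E : Set (ℤ × ℤ) → Prop) :
    rrc86P t L H E = (rrc86L t L H).P (Rcy162Mix L 0 H) (fun ω => E (rrc86Y (rrc86L t L H) (sdRed (2 * L)) ω)) := by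
  rw [rrc86_L_P]
  simp only [rrc86_L_Y t hL H]
  rfl

/-- **THE CLOSED CONTRACT (SE)** = what PART II (b) + (c) must prove on the mixed cylinder: (SE-TIP), (SE-TUBE) with ONE constant, AT THE TWO CENTRES `7 r`, `7 r + 1` ONLY:
the box `[m - e, m + σ + e] ⊆ [0, 14 r + σ + 1]` lies inside the fundamental domain `[0, 2 L)`, where the chart `sdRed (2 L)` is the identity (NO SEAM). -/
def Rrc86SEc (t : ℝ) : Prop :=
  ∃ cg : ℝ, 0 < cg ∧ ∀ (L H : ℕ) (c r w : ℤ), 10 ≤ w → 12500 * w ≤ r → r ≤ 25000 * w → 16 * r ≤ 2 * L → r ≤ c → c + 2 * r ≤ 2 * (H : ℤ) - 1 →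
    (∀ m e e2 : ℤ, (m = 7 * r ∨ m = 7 * r + 1) → e2 ≤ e → e + 3 * (20 * w + 8) + (5 * w + 1) + 8 ≤ 2 * e2 → e ≤ 7 * r →
      Rrc86SETip (rrc86L t L H) (Rcy162Mix L 0 H) (sdRed (2 * L)) cg c (c + r) (5 * w + 1) (20 * w + 8) m e e2) ∧
    (∀ m e : ℤ, (m = 7 * r ∨ m = 7 * r + 1) → 5 * w + 1 ≤ e → e ≤ 20 * (20 * w + 8) →
      Rrc86SETube (rrc86L t L H) (Rcy162Mix L 0 H) (sdRed (2 * L)) cg c (c + r) (5 * w + 1) (20 * w + 8) m e)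

/-- **(SE) ⟹ the contract of PART II** -/
theorem rrc86_glue_c (t : ℝ) (h0 : 0 < t) (h1 : t ≤ 1) (h : Rrc86SEc t) : Rrc86Glue t h0 h1 := by
  obtain ⟨cg, hcg, M⟩ := h
  refine ⟨cg, hcg, fun L H hL hH hF c r w hw hr1 hr2 hL2 hc hcH => ?_⟩
  obtain ⟨m1, m2⟩ := M L H c r w hw hr1 hr2 hL2 hc hcH
  exact rrc86_glue (rrc86L t L H) (rrc86_L_ok h0.le h1 L H) (Rcy162Mix L 0 H) (sdRed (2 * L)) (rrc86Law t h0 h1 L H hL hH hF)
    (fun E => rrc86_L_law t hL H E) hcg.le (by omega) (by omega) (7 * r) m1 m2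

/-- **(56) on the mixed cylinder from (SE)** -/
theorem rrc86_rsw_c (t : ℝ) (h0 : 0 < t) (h1 : t ≤ 1) (h : Rrc86SEc t) : Rrc86Rsw t := rrc86_rsw t h0 h1 (rrc86_glue_c t h0 h1 h)

/-! ## §11 PART II (T), (J): THE TWO LAYERS ARE LINKED ⟹ F      (port of R291 `Ann/RswF` §1, §2 (206); deterministic) -/

theorem rrc86_rect_band {A B c d : ℤ} : rrw86Rect A B c d ⊆ plsBand c d := fun _ h => ⟨h.2.2.1, h.2.2.2⟩

/-- **LINK ⟹ F** (lift, deterministic): both layers exist, a cell of the layer `a` is joined to a cell of the layer `c` by plus cells of the band -/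
theorem rrc86_link {c d w σ m e : ℤ} (hcd : c < d) (hw : 0 ≤ w) (hσ : 0 ≤ σ) (he : w ≤ e) {P : Set TV}
    (h0 : Rrc86G0 (m - e) (m + σ + e) c d w m (m + σ) (pleI tscG (rrw86Rect (m - e) (m + σ + e) c d \ P) (rrc86SgL (m - e) c d m w))
      (pleI tscG (rrw86Rect (m - e) (m + σ + e) c d \ P) (rrc86SgR (m + σ + e) c d (m + σ) w)))
    {z z' : TV} (hz : z ∈ rrc86Ga (m - e) (m + σ + e) c d w m (pleI tscG (rrw86Rect (m - e) (m + σ + e) c d \ P) (rrc86SgL (m - e) c d m w)))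
    (hz' : z' ∈ rrc86Gc (m - e) (m + σ + e) c d w (m + σ) (pleI tscG (rrw86Rect (m - e) (m + σ + e) c d \ P) (rrc86SgR (m + σ + e) c d (m + σ) w)))
    (hl : TscR tscG (P ∩ plsBand c d) z z') : Rrw86F c d w σ m P := by
  have qL := rrc86_quad_L (A := m - e) (B := m + σ + e) (c := c) (d := d) (i := m) (w := w) hcd hw (by omega) (by omega)
  have qR := rrc86_quad_R (A := m - e) (B := m + σ + e) (c := c) (d := d) (i := m + σ) (w := w) hcd hw (by omega) (by omega)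
  obtain ⟨l, r, hl1, hl2, hr2, hlr⟩ := ple_gam_cross qL h0.1
  obtain ⟨l', r', hl1', hl2', hr2', hlr'⟩ := ple_gam_cross qR h0.2
  have sa : pleGam tscG (rrw86Rect (m - e) (m + σ + e) c d) (rrc86SgL (m - e) c d m w) (rrc86SgR (m + σ + e) c d m w)
      (pleI tscG (rrw86Rect (m - e) (m + σ + e) c d \ P) (rrc86SgL (m - e) c d m w)) ⊆ P ∩ plsBand c d :=
    fun u hu => ⟨(ple_gam_sub hu).2, rrc86_rect_band (ple_gam_sub hu).1⟩
  have sc : pleGam tscG (rrw86Rect (m - e) (m + σ + e) c d) (rrc86SgR (m + σ + e) c d (m + σ) w) (rrc86SgL (m - e) c d (m + σ) w)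
      (pleI tscG (rrw86Rect (m - e) (m + σ + e) c d \ P) (rrc86SgR (m + σ + e) c d (m + σ) w)) ⊆ P ∩ plsBand c d :=
    fun u hu => ⟨(ple_gam_sub hu).2, rrc86_rect_band (ple_gam_sub hu).1⟩
  have ca := ple_gam_conn qL.side qL.opp h0.1
  have cc := ple_gam_conn qR.side qR.opp h0.2
  refine ⟨l, r, l', r', sa hl1, hl2.1, hr2.1, hl2'.1, hr2'.1, hl2.2, hr2.2, hl2'.2, hr2'.2, tsc_R_mono sa hlr, ?_, tsc_R_mono sc hlr'⟩
  exact tsc_R_trans (tsc_R_mono sa (ca l hl1 z hz)) (tsc_R_trans hl (tsc_R_mono sc (cc z' hz' l' hl1')))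

/-- one step or none -/
theorem rrc86_R_of_adj {X : Set TV} {z z' : TV} (hz : z ∈ X) (hz' : z' ∈ X) (h : z = z' ∨ tscG.Adj z z') : TscR tscG X z z' := by
  rcases h with rfl | h
  · exact tsc_R_refl _
  · exact tsc_R_step h hz hz'

section model

variable {Ω Y : Type}

/-- the layer `a` (leftmost crossing at `m`) of the configuration `ω` -/
def rrc86A (𝓛 : Rln182Law Ω Y) (ι : TV → Y) (c d w σ m e : ℤ) (ω : Ω) : Set TV :=
  rrc86Ga (m - e) (m + σ + e) c d w m (rrc86I 𝓛 ι c d w σ m e ω)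

/-- the layer `c` (rightmost crossing at `m + σ`) of the configuration `ω` -/
def rrc86C (𝓛 : Rln182Law Ω Y) (ι : TV → Y) (c d w σ m e : ℤ) (ω : Ω) : Set TV :=
  rrc86Gc (m - e) (m + σ + e) c d w (m + σ) (rrc86J 𝓛 ι c d w σ m e ω)

/-- the two layers touch: a common index or two adjacent indices -/
def Rrc86Touch (a c : Set TV) : Prop := ∃ z ∈ a, ∃ z' ∈ c, z = z' ∨ tscG.Adj z z'

/-- the two layers of `ω₀` are linked by plus cells of `ω` inside the band -/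
def Rrc86Link (𝓛 : Rln182Law Ω Y) (ι : TV → Y) (c d w σ m e : ℤ) (ω₀ ω : Ω) : Prop :=
  ∃ z ∈ rrc86A 𝓛 ι c d w σ m e ω₀, ∃ z' ∈ rrc86C 𝓛 ι c d w σ m e ω₀, TscR tscG (rrc86Y 𝓛 ι ω ∩ plsBand c d) z z'

variable (𝓛 : Rln182Law Ω Y) (hS : 𝓛.Ok) (ι : TV → Y) {c d w σ m e : ℤ}

include hS

/-- the cluster `I` is read off the record -/
theorem rrc86_I_agr {ω₀ ω : Ω} (h : 𝓛.agr (rrc86Q2 𝓛 ι c d w σ m e ω₀) ω₀ ω) : rrc86I 𝓛 ι c d w σ m e ω = rrc86I 𝓛 ι c d w σ m e ω₀ :=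
  rrc86_I_meas 𝓛 hS ι _ _ _ Set.subset_union_left ω₀ ω h

/-- the cluster `J` is read off the record -/
theorem rrc86_J_agr {ω₀ ω : Ω} (h : 𝓛.agr (rrc86Q2 𝓛 ι c d w σ m e ω₀) ω₀ ω) : rrc86J 𝓛 ι c d w σ m e ω = rrc86J 𝓛 ι c d w σ m e ω₀ :=
  rrc86_I_meas 𝓛 hS ι _ _ _ Set.subset_union_right ω₀ ω h

theorem rrc86_A_agr {ω₀ ω : Ω} (h : 𝓛.agr (rrc86Q2 𝓛 ι c d w σ m e ω₀) ω₀ ω) : rrc86A 𝓛 ι c d w σ m e ω = rrc86A 𝓛 ι c d w σ m e ω₀ := by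
  unfold rrc86A; rw [rrc86_I_agr 𝓛 hS ι h]

theorem rrc86_C_agr {ω₀ ω : Ω} (h : 𝓛.agr (rrc86Q2 𝓛 ι c d w σ m e ω₀) ω₀ ω) : rrc86C 𝓛 ι c d w σ m e ω = rrc86C 𝓛 ι c d w σ m e ω₀ := by
  unfold rrc86C; rw [rrc86_J_agr 𝓛 hS ι h]

omit hS in
/-- the layer `a` consists of plus cells of the box -/
theorem rrc86_A_sub (ω : Ω) : rrc86A 𝓛 ι c d w σ m e ω ⊆ rrw86Rect (m - e) (m + σ + e) c d ∩ rrc86Y 𝓛 ι ω := ple_gam_sub

omit hS in
theorem rrc86_C_sub (ω : Ω) : rrc86C 𝓛 ι c d w σ m e ω ⊆ rrw86Rect (m - e) (m + σ + e) c d ∩ rrc86Y 𝓛 ι ω := ple_gam_sub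

/-- under the record of `ω₀` the layer `a` of `ω₀` is plus -/
theorem rrc86_A_plus {ω₀ ω : Ω} (h : 𝓛.agr (rrc86Q2 𝓛 ι c d w σ m e ω₀) ω₀ ω) : rrc86A 𝓛 ι c d w σ m e ω₀ ⊆ rrc86Y 𝓛 ι ω ∩ plsBand c d := by
  rw [← rrc86_A_agr 𝓛 hS ι h]
  exact fun z hz => ⟨(rrc86_A_sub 𝓛 ι ω hz).2, rrc86_rect_band (rrc86_A_sub 𝓛 ι ω hz).1⟩

theorem rrc86_C_plus {ω₀ ω : Ω} (h : 𝓛.agr (rrc86Q2 𝓛 ι c d w σ m e ω₀) ω₀ ω) : rrc86C 𝓛 ι c d w σ m e ω₀ ⊆ rrc86Y 𝓛 ι ω ∩ plsBand c d := by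
  rw [← rrc86_C_agr 𝓛 hS ι h]
  exact fun z hz => ⟨(rrc86_C_sub 𝓛 ι ω hz).2, rrc86_rect_band (rrc86_C_sub 𝓛 ι ω hz).1⟩

/-- **LINK ⟹ F under a record** -/
theorem rrc86_link_rec (hcd : c < d) (hw : 0 ≤ w) (hσ : 0 ≤ σ) (he : w ≤ e) {ω₀ ω : Ω} (h : 𝓛.agr (rrc86Q2 𝓛 ι c d w σ m e ω₀) ω₀ ω)
    (h0 : Rrc86G0 (m - e) (m + σ + e) c d w m (m + σ) (rrc86I 𝓛 ι c d w σ m e ω₀) (rrc86J 𝓛 ι c d w σ m e ω₀))
    (hl : Rrc86Link 𝓛 ι c d w σ m e ω₀ ω) : Rrw86F c d w σ m (rrc86Y 𝓛 ι ω) := by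
  obtain ⟨z, hz, z', hz', hl⟩ := hl
  rw [← rrc86_I_agr 𝓛 hS ι h, ← rrc86_J_agr 𝓛 hS ι h] at h0
  rw [← rrc86_A_agr 𝓛 hS ι h] at hz
  rw [← rrc86_C_agr 𝓛 hS ι h] at hz'
  exact rrc86_link hcd hw hσ he h0 hz hz' hl

/-- **(T) TOUCH ⟹ LINK** -/
theorem rrc86_touch {ω₀ ω : Ω} (h : 𝓛.agr (rrc86Q2 𝓛 ι c d w σ m e ω₀) ω₀ ω)
    (ht : Rrc86Touch (rrc86A 𝓛 ι c d w σ m e ω₀) (rrc86C 𝓛 ι c d w σ m e ω₀)) : Rrc86Link 𝓛 ι c d w σ m e ω₀ ω := by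
  obtain ⟨z, hz, z', hz', hzz⟩ := ht
  exact ⟨z, hz, z', hz', rrc86_R_of_adj (rrc86_A_plus 𝓛 hS ι h hz) (rrc86_C_plus 𝓛 hS ι h hz') hzz⟩

/-- **(C), deterministic half**: ONE plus cell of the band adjacent to both layers ⟹ LINK -/
theorem rrc86_one {ω₀ ω : Ω} (h : 𝓛.agr (rrc86Q2 𝓛 ι c d w σ m e ω₀) ω₀ ω) {y z z' : TV} (hy : y ∈ rrc86Y 𝓛 ι ω ∩ plsBand c d)
    (hz : z ∈ rrc86A 𝓛 ι c d w σ m e ω₀) (hz' : z' ∈ rrc86C 𝓛 ι c d w σ m e ω₀) (h1 : z = y ∨ tscG.Adj z y) (h2 : y = z' ∨ tscG.Adj y z') :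
    Rrc86Link 𝓛 ι c d w σ m e ω₀ ω :=
  ⟨z, hz, z', hz', tsc_R_trans (rrc86_R_of_adj (rrc86_A_plus 𝓛 hS ι h hz) hy h1) (rrc86_R_of_adj hy (rrc86_C_plus 𝓛 hS ι h hz') h2)⟩

/-- an event which holds under the whole record has conditional probability one -/
theorem rrc86_sure (K : Ω → Prop) (Q : Ω → Finset Y) (ω₀ : Ω) {F : Ω → Prop} (hF : ∀ ω, 𝓛.agr (Q ω₀) ω₀ ω → F ω) {cg : ℝ} (hcg : cg ≤ 1) :
    cg * 𝓛.Z (rrc86Rec 𝓛 K Q ω₀) ≤ 𝓛.N (rrc86Rec 𝓛 K Q ω₀) (rln182Ind F) := by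
  have e : 𝓛.N (rrc86Rec 𝓛 K Q ω₀) (rln182Ind F) = 𝓛.Z (rrc86Rec 𝓛 K Q ω₀) := by
    classical
    unfold Rln182Law.Z Rln182Law.N
    refine Finset.sum_congr rfl fun ω _ => ?_
    by_cases hω : rrc86Rec 𝓛 K Q ω₀ ω
    · rw [if_pos hω, if_pos hω, rln182_ind_pos (hF ω hω.2)]
    · rw [if_neg hω, if_neg hω]
  rw [e]
  have := rln182_Z_nonneg 𝓛 hS (rrc86Rec 𝓛 K Q ω₀)
  nlinarith

/-- **(LK) THE LINK ESTIMATE UNDER ONE RECORD** = the only probabilistic input of PART II: for a record in `G` whose two layers do NOT touch, they are linked with conditional probability at least `cg` -/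
def Rrc86LK (𝓛 : Rln182Law Ω Y) (K : Ω → Prop) (ι : TV → Y) (cg : ℝ) (c d w σ m e : ℤ) (G : Ω → Prop) : Prop :=
  ∀ ω₀ ∈ 𝓛.cfgs, K ω₀ → G ω₀ → ¬ Rrc86Touch (rrc86A 𝓛 ι c d w σ m e ω₀) (rrc86C 𝓛 ι c d w σ m e ω₀) →
    cg * 𝓛.Z (rrc86Rec 𝓛 K (rrc86Q2 𝓛 ι c d w σ m e) ω₀) ≤ 𝓛.N (rrc86Rec 𝓛 K (rrc86Q2 𝓛 ι c d w σ m e) ω₀) (rln182Ind (Rrc86Link 𝓛 ι c d w σ m e ω₀))

/-- **(SE) from (LK)**, for any event `G` of the record which contains `G0` -/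
theorem rrc86_SE_of_LK (K : Ω → Prop) {cg : ℝ} (hcg : cg ≤ 1) (hcd : c < d) (hw : 0 ≤ w) (hσ : 0 ≤ σ) (he : w ≤ e) {G : Ω → Prop}
    (hG : ∀ ω, G ω → Rrc86G0 (m - e) (m + σ + e) c d w m (m + σ) (rrc86I 𝓛 ι c d w σ m e ω) (rrc86J 𝓛 ι c d w σ m e ω))
    (h : Rrc86LK 𝓛 K ι cg c d w σ m e G) : Rrc86SE 𝓛 K (rrc86Q2 𝓛 ι c d w σ m e) cg G (fun ω => Rrw86F c d w σ m (rrc86Y 𝓛 ι ω)) := by
  intro ω₀ hω₀ hK₀ hG₀
  by_cases ht : Rrc86Touch (rrc86A 𝓛 ι c d w σ m e ω₀) (rrc86C 𝓛 ι c d w σ m e ω₀)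
  · exact rrc86_sure 𝓛 hS K _ ω₀ (fun ω hω => rrc86_link_rec 𝓛 hS ι hcd hw hσ he hω (hG ω₀ hG₀) (rrc86_touch 𝓛 hS ι hω ht)) hcg
  · refine (h ω₀ hω₀ hK₀ hG₀ ht).trans ?_
    classical
    unfold Rln182Law.N
    refine Finset.sum_le_sum fun ω hω => ?_
    by_cases hr : rrc86Rec 𝓛 K (rrc86Q2 𝓛 ι c d w σ m e) ω₀ ω
    · rw [if_pos hr, if_pos hr]
      refine mul_le_mul_of_nonneg_left ?_ (hS.wt_nonneg ω hω)
      by_cases hl : Rrc86Link 𝓛 ι c d w σ m e ω₀ ω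
      · rw [rln182_ind_pos hl, rln182_ind_pos (L := fun ω => Rrw86F c d w σ m (rrc86Y 𝓛 ι ω)) (rrc86_link_rec 𝓛 hS ι hcd hw hσ he hr.2 (hG ω₀ hG₀) hl)]
      · rw [rln182_ind_neg hl]; exact rln182_ind_nonneg _ _
    · rw [if_neg hr, if_neg hr]

/-! ### (J) the join inside a window, (W) the chain under one record      (R291 `Ann/RswF` §3, `Ann/RswWall` §1 `rwl_chain`, abstract) -/

/-- **JOIN**: a path of plus cells inside the window `W` (the lifted strip between the two layers) from a neighbour of `a` to a neighbour of `c'` -/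
def Rrc86Join (𝓛 : Rln182Law Ω Y) (ι : TV → Y) (W a c' : Set TV) (ω : Ω) : Prop :=
  ∃ z ∈ a, ∃ z' ∈ c', ∃ u u', u ∈ rrc86Y 𝓛 ι ω ∩ W ∧ u' ∈ rrc86Y 𝓛 ι ω ∩ W ∧ (z = u ∨ tscG.Adj z u) ∧ (u' = z' ∨ tscG.Adj u' z') ∧
    TscR tscG (rrc86Y 𝓛 ι ω ∩ W) u u'

omit hS in
/-- the join reads only the statuses of the cells of the window -/
theorem rrc86_join_loc {W a c' : Set TV} {M : Finset Y} (hM : ∀ z ∈ W, ι z ∈ 𝓛.cells → ι z ∈ M) : Rse182Loc 𝓛 M (rln182Ind (Rrc86Join 𝓛 ι W a c')) := by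
  intro ω ω' h
  have e : rrc86Y 𝓛 ι ω ∩ W = rrc86Y 𝓛 ι ω' ∩ W := by
    ext z
    constructor
    · rintro ⟨⟨h1, h2⟩, hW⟩
      exact ⟨⟨h1, fun hn => h2 ((h _ (hM z hW h1)).2 hn)⟩, hW⟩
    · rintro ⟨⟨h1, h2⟩, hW⟩
      exact ⟨⟨h1, fun hn => h2 ((h _ (hM z hW h1)).1 hn)⟩, hW⟩
  have e2 : Rrc86Join 𝓛 ι W a c' ω ↔ Rrc86Join 𝓛 ι W a c' ω' := by
    unfold Rrc86Join
    rw [e]
  by_cases hj : Rrc86Join 𝓛 ι W a c' ω
  · rw [rln182_ind_pos hj, rln182_ind_pos (e2.1 hj)]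
  · rw [rln182_ind_neg hj, rln182_ind_neg fun h' => hj (e2.2 h')]

/-- **(J) JOIN ⟹ LINK** under the record -/
theorem rrc86_join_link {ω₀ ω : Ω} (h : 𝓛.agr (rrc86Q2 𝓛 ι c d w σ m e ω₀) ω₀ ω) {W : Set TV} (hW : W ⊆ plsBand c d)
    (hj : Rrc86Join 𝓛 ι W (rrc86A 𝓛 ι c d w σ m e ω₀) (rrc86C 𝓛 ι c d w σ m e ω₀) ω) : Rrc86Link 𝓛 ι c d w σ m e ω₀ ω := by
  obtain ⟨z, hz, z', hz', u, u', hu, hu', h1, h2, hR⟩ := hj
  have hsub : rrc86Y 𝓛 ι ω ∩ W ⊆ rrc86Y 𝓛 ι ω ∩ plsBand c d := fun x hx => ⟨hx.1, hW hx.2⟩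
  exact ⟨z, hz, z', hz', tsc_R_trans (rrc86_R_of_adj (rrc86_A_plus 𝓛 hS ι h hz) (hsub hu) h1)
    (tsc_R_trans (tsc_R_mono hsub hR) (rrc86_R_of_adj (hsub hu') (rrc86_C_plus 𝓛 hS ι h hz') h2))⟩

/-- the link is an increasing event -/
theorem rrc86_link_mono (ω₀ : Ω) : 𝓛.MonoP (Rrc86Link 𝓛 ι c d w σ m e ω₀) := by
  rintro ω ω' hle ⟨z, hz, z', hz', hR⟩
  refine ⟨z, hz, z', hz', tsc_R_mono ?_ hR⟩
  rintro x ⟨⟨h1, h2⟩, hb⟩
  exact ⟨⟨h1, fun hn => h2 (hS.np_anti ω ω' hle _ h1 hn)⟩, hb⟩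

/-- **what the chain under one record consumes** (R291 `rwl_chain`): `rec ≥ h1` = the record + the minus wall next to the strip (ORDER);   `h1 ~ (𝓛Q, H0)` = the CLOSED STRIP LAW (PORTS, two ambients; constant `C = 2 ^ (ports)`);
feasibility.      Producers: ORDER = Holley (12 / 189 / 291), PORTS = `rpo102_two_amb` (102), wall = port of `Ann/RswWall` §2. -/
structure Rrc86Chain (𝓛 𝓛Q : Rln182Law Ω Y) (rec h1 H0 : Ω → Prop) (M : Finset Y) (C : ℝ) : Prop where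
  pos1 : 0 < 𝓛.Z rec → 0 < 𝓛.Z h1
  posQ : 0 < 𝓛Q.Z H0
  ord : ∀ F : Ω → ℝ, 𝓛.Mono F → 𝓛.N h1 F * 𝓛.Z rec ≤ 𝓛.Z h1 * 𝓛.N rec F
  port : ∀ J : Ω → ℝ, (∀ ω, 0 ≤ J ω) → Rse182Loc 𝓛 M J → 𝓛Q.N H0 J * 𝓛.Z h1 ≤ C * (𝓛Q.Z H0 * 𝓛.N h1 J)

/-- **THE CHAIN under one record** -/
theorem rrc86_chain {𝓛Q : Rln182Law Ω Y} {rec h1 H0 : Ω → Prop} {M : Finset Y} {C : ℝ} (hC : 0 < C) (hch : Rrc86Chain 𝓛 𝓛Q rec h1 H0 M C)
    {J : Ω → ℝ} (hJ0 : ∀ ω, 0 ≤ J ω) (hJl : Rse182Loc 𝓛 M J) {c₀ : ℝ} (h3 : c₀ * 𝓛Q.Z H0 ≤ 𝓛Q.N H0 J)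
    {F : Ω → ℝ} (hF : 𝓛.Mono F) (hF0 : ∀ ω, 0 ≤ F ω) (hJF : ∀ ω ∈ 𝓛.cfgs, h1 ω → J ω ≤ F ω) : c₀ / C * 𝓛.Z rec ≤ 𝓛.N rec F := by
  rcases (rln182_Z_nonneg 𝓛 hS rec).eq_or_lt with hz | hZr
  · rw [← hz, mul_zero]
    exact rln182_N_nonneg 𝓛 hS _ _ fun ω _ => hF0 ω
  have hZ1 := hch.pos1 hZr
  have z1 := hch.posQ
  have p := hch.port J hJ0 hJl
  have a1 : c₀ * 𝓛.Z h1 ≤ C * 𝓛.N h1 J := by
    have : (c₀ * 𝓛.Z h1) * 𝓛Q.Z H0 ≤ (C * 𝓛.N h1 J) * 𝓛Q.Z H0 := by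
      calc (c₀ * 𝓛.Z h1) * 𝓛Q.Z H0 = (c₀ * 𝓛Q.Z H0) * 𝓛.Z h1 := by ring
        _ ≤ 𝓛Q.N H0 J * 𝓛.Z h1 := mul_le_mul_of_nonneg_right h3 hZ1.le
        _ ≤ C * (𝓛Q.Z H0 * 𝓛.N h1 J) := p
        _ = (C * 𝓛.N h1 J) * 𝓛Q.Z H0 := by ring
    exact le_of_mul_le_mul_right this z1
  have a2 : 𝓛.N h1 J ≤ 𝓛.N h1 F := by
    classical
    unfold Rln182Law.N
    refine Finset.sum_le_sum fun ω hω => ?_
    by_cases hh : h1 ω
    · rw [if_pos hh, if_pos hh]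
      exact mul_le_mul_of_nonneg_left (hJF ω hω hh) (hS.wt_nonneg ω hω)
    · rw [if_neg hh, if_neg hh]
  have o := hch.ord F hF
  have a3 : (c₀ / C * 𝓛.Z rec) * 𝓛.Z h1 ≤ 𝓛.N rec F * 𝓛.Z h1 := by
    calc (c₀ / C * 𝓛.Z rec) * 𝓛.Z h1 = (c₀ * 𝓛.Z h1) / C * 𝓛.Z rec := by ring
      _ ≤ (C * 𝓛.N h1 J) / C * 𝓛.Z rec := mul_le_mul_of_nonneg_right (div_le_div_of_nonneg_right a1 hC.le) hZr.le
      _ = 𝓛.N h1 J * 𝓛.Z rec := by field_simp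
      _ ≤ 𝓛.N h1 F * 𝓛.Z rec := mul_le_mul_of_nonneg_right a2 hZr.le
      _ ≤ 𝓛.Z h1 * 𝓛.N rec F := o
      _ = 𝓛.N rec F * 𝓛.Z h1 := by ring
  exact le_of_mul_le_mul_right a3 hZ1

/-- **(ST) THE STRIP DATA OF ONE RECORD** = (E) entrance + (L) estimate: a window `W` of the band, its cells `M`, a wall history `h1 ⟹ rec`, a closed strip law `(𝓛Q, H0)`, the chain with constant `C`, and
the estimate `c₀ Z_Q(H0) ≤ N_Q(H0; join of the two layers inside W)` IN THE CLOSED STRIP LAW -/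
def Rrc86Strip (𝓛 : Rln182Law Ω Y) (K : Ω → Prop) (ι : TV → Y) (c₀ C : ℝ) (c d w σ m e : ℤ) (ω₀ : Ω) : Prop :=
  ∃ (W : Set TV) (M : Finset Y) (𝓛Q : Rln182Law Ω Y) (h1 H0 : Ω → Prop), W ⊆ plsBand c d ∧ (∀ z ∈ W, ι z ∈ 𝓛.cells → ι z ∈ M) ∧
    (∀ ω, h1 ω → rrc86Rec 𝓛 K (rrc86Q2 𝓛 ι c d w σ m e) ω₀ ω) ∧ Rrc86Chain 𝓛 𝓛Q (rrc86Rec 𝓛 K (rrc86Q2 𝓛 ι c d w σ m e) ω₀) h1 H0 M C ∧
    c₀ * 𝓛Q.Z H0 ≤ 𝓛Q.N H0 (rln182Ind (Rrc86Join 𝓛 ι W (rrc86A 𝓛 ι c d w σ m e ω₀) (rrc86C 𝓛 ι c d w σ m e ω₀)))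

/-- **(LK) from (ST)** at one record -/
theorem rrc86_LK_of_strip (K : Ω → Prop) {c₀ C : ℝ} (hC : 0 < C) {ω₀ : Ω} (h : Rrc86Strip 𝓛 K ι c₀ C c d w σ m e ω₀) :
    c₀ / C * 𝓛.Z (rrc86Rec 𝓛 K (rrc86Q2 𝓛 ι c d w σ m e) ω₀) ≤ 𝓛.N (rrc86Rec 𝓛 K (rrc86Q2 𝓛 ι c d w σ m e) ω₀) (rln182Ind (Rrc86Link 𝓛 ι c d w σ m e ω₀)) := by
  obtain ⟨W, M, 𝓛Q, h1, H0, hW, hM, hrec, hch, hest⟩ := h
  refine rrc86_chain 𝓛 hS hC hch (fun ω => rln182_ind_nonneg _ ω) (rrc86_join_loc 𝓛 ι hM) hest (rln182_ind_mono 𝓛 (rrc86_link_mono 𝓛 hS ι ω₀))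
    (fun ω => rln182_ind_nonneg _ ω) fun ω _ hh => ?_
  by_cases hj : Rrc86Join 𝓛 ι W (rrc86A 𝓛 ι c d w σ m e ω₀) (rrc86C 𝓛 ι c d w σ m e ω₀) ω
  · rw [rln182_ind_pos hj, rln182_ind_pos (rrc86_join_link 𝓛 hS ι (hrec ω hh).2 hW hj)]
  · rw [rln182_ind_neg hj]; exact rln182_ind_nonneg _ _

end model

/-- **THE CLOSED CONTRACT (LK)** on the mixed cylinder = EXIT OF THE ROWS TIP AND TUBE: the link estimate under every NON-TOUCHING record with long tips (TIP) / in a narrow box (TUBE), one constant, two centres -/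
def Rrc86LKc (t : ℝ) : Prop :=
  ∃ cg : ℝ, 0 < cg ∧ cg ≤ 1 ∧ ∀ (L H : ℕ) (c r w : ℤ), 10 ≤ w → 12500 * w ≤ r → r ≤ 25000 * w → 16 * r ≤ 2 * L → r ≤ c → c + 2 * r ≤ 2 * (H : ℤ) - 1 →
    (∀ m e e2 : ℤ, (m = 7 * r ∨ m = 7 * r + 1) → e2 ≤ e → e + 3 * (20 * w + 8) + (5 * w + 1) + 8 ≤ 2 * e2 → e ≤ 7 * r →
      Rrc86LK (rrc86L t L H) (Rcy162Mix L 0 H) (sdRed (2 * L)) cg c (c + r) (5 * w + 1) (20 * w + 8) m e
        (fun ω => Rrc86G1 (m - e) (m + (20 * w + 8) + e) c (c + r) (5 * w + 1) m (m + (20 * w + 8)) (m + e2) (m + (20 * w + 8) - e2)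
          (rrc86I (rrc86L t L H) (sdRed (2 * L)) c (c + r) (5 * w + 1) (20 * w + 8) m e ω) (rrc86J (rrc86L t L H) (sdRed (2 * L)) c (c + r) (5 * w + 1) (20 * w + 8) m e ω))) ∧
    (∀ m e : ℤ, (m = 7 * r ∨ m = 7 * r + 1) → 5 * w + 1 ≤ e → e ≤ 20 * (20 * w + 8) →
      Rrc86LK (rrc86L t L H) (Rcy162Mix L 0 H) (sdRed (2 * L)) cg c (c + r) (5 * w + 1) (20 * w + 8) m e
        (fun ω => Rrc86G0 (m - e) (m + (20 * w + 8) + e) c (c + r) (5 * w + 1) m (m + (20 * w + 8))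
          (rrc86I (rrc86L t L H) (sdRed (2 * L)) c (c + r) (5 * w + 1) (20 * w + 8) m e ω) (rrc86J (rrc86L t L H) (sdRed (2 * L)) c (c + r) (5 * w + 1) (20 * w + 8) m e ω)))

/-- **(LK) ⟹ (SE)** -/
theorem rrc86_SEc_of_LKc {t : ℝ} (h0 : 0 ≤ t) (h1 : t ≤ 1) (h : Rrc86LKc t) : Rrc86SEc t := by
  obtain ⟨cg, hcg, hcg1, M⟩ := h
  refine ⟨cg, hcg, fun L H c r w hw hr1 hr2 hL2 hc hcH => ?_⟩
  obtain ⟨m1, m2⟩ := M L H c r w hw hr1 hr2 hL2 hc hcH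
  refine ⟨fun m e e2 hm a1 a2 a3 => ?_, fun m e hm a1 a2 => ?_⟩
  · exact rrc86_SE_of_LK (rrc86L t L H) (rrc86_L_ok h0 h1 L H) (sdRed (2 * L)) (Rcy162Mix L 0 H) hcg1 (by omega) (by omega) (by omega) (by omega)
      (fun ω hω => hω.1) (m1 m e e2 hm a1 a2 a3)
  · exact rrc86_SE_of_LK (rrc86L t L H) (rrc86_L_ok h0 h1 L H) (sdRed (2 * L)) (Rcy162Mix L 0 H) hcg1 (by omega) (by omega) (by omega) a1
      (fun ω hω => hω) (m2 m e hm a1 a2)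

/-- **(56) on the mixed cylinder from (LK)** -/
theorem rrc86_rsw_LK (t : ℝ) (h0 : 0 < t) (h1 : t ≤ 1) (h : Rrc86LKc t) : Rrc86Rsw t := rrc86_rsw_c t h0 h1 (rrc86_SEc_of_LKc h0.le h1 h)

/-- the equation lemmas of the definitions of this file are generated HERE -/
theorem rrc86_eqns_cite : True := by
  have := @rrc86P.eq_1
  have := @Rrc86Fkg.eq_1
  have := @rrc86Law.eq_1
  have := @Rrc86Glue.eq_1
  have := @Rrc86Rsw.eq_1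
  have := @Rrc86Stop.eq_1
  have := @rrc86Rec.eq_1
  have := @Rrc86Meas.eq_1
  have := @Rrc86SE.eq_1
  have := @rrc86Y.eq_1
  have := @rrc86Q.eq_1
  have := @rrc86Lam.eq_1
  have := @rrc86SgL.eq_1
  have := @rrc86SgR.eq_1
  have := @rrc86Ga.eq_1
  have := @rrc86Gc.eq_1
  have := @Rrc86G0.eq_1
  have := @Rrc86G1.eq_1
  have := @rrc86Seed.eq_1
  have := @rrc86I.eq_1
  have := @rrc86J.eq_1
  have := @rrc86Q2.eq_1
  have := @Rrc86SETip.eq_1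
  have := @Rrc86SETube.eq_1
  have := @rrc86L.eq_1
  have := @Rrc86SEc.eq_1
  have := @rrc86A.eq_1
  have := @rrc86C.eq_1
  have := @Rrc86Touch.eq_1
  have := @Rrc86Link.eq_1
  have := @Rrc86LK.eq_1
  have := @Rrc86Join.eq_1
  have := @Rrc86Strip.eq_1
  have := @Rrc86LKc.eq_1
  trivial

end Claimed.Agent.R292
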