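-- KEEP (row 292, R8 CORE, c1_post id 2; pen helper96)
import Claimed.Agent.R292.Rsw.CylTop127
import Claimed.Agent.R292.Rsw.RswCyl86
import Claimed.Agent.R292.Rsw.Len182
import Claimed.Agent.R292.Rsw.LenInst182

/-!
# Row 292 (S0540), Rsw/KitRswl96 : R8 CORE, block A4, THE HARD FIELD `rswl` OF THE KIT OF 127      (pen helper96; prefix `krl96_`, `Krl96`)      0 sorry

Port of R291 `Ann/CylBridge` par. 4 (`cyb_rswl`).   Kit sizes `L`, `H` (both even) = REFINED sizes; base sizes `L / 2`, `H / 2`; law `rcy162Q t (L / 2) (H / 2)` of 162 (no classes: `S`, `T` are ignored).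
INPUTS, typed as `Prop`s in the field language `cyV`, `cyH`:
* `Krl96Rsw t` = (56) on the mixed cylinder, band of `r + 1` rows, widths `6 r + 6`, `4 r + 4`.      PRODUCER: `krl96_rsw_of_86` from `rrc86_exit` of 86 (`Rrc86Fkg` + `Rrc86Glue`).
* `Krl96Len t` = horizontal lengthening.      PRODUCER: `krl96_len_of_182` from `Rln182Len 𝓛 K` of 182 and the dictionary `rln182P 𝓛 K (2 L) (hh H) E = rrc86P t L H E` (any height convention `2 H ≤ hh H + 1`).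
              v2: `krl96_len_of_len2` from the ACTUAL exit of 182 on the mixed cylinder, `Rln182Len2 (rse182Cyl t) rse182K` (`rse182_cyl_len` of `Rsw/LenInst182`), through his bridge `rse182_P_Q`; `krl96_rswl_of_exits` = the field from the two exits.
EXIT: **`krl96_rswl`** = the field `rswl` of `Rct127Kit (fun L H => Even L ∧ Even H) (fun L H _ _ => rcy162Q t (L / 2) (H / 2))` VERBATIM; `krl96_kit` = the record from its three fields (shows that the exit fits).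
OFF BY ONE.  The kit uses bands `k .. k + r - 1` and widths `6 r`, `4 r`; with `q = r - 1` these are the band `k .. k + q` and the widths `6 q + 6`, `4 q + 4` of the flexible exit of 86: no splitting lemma is needed.
Lengthening is used at `κ + 1`: `κ r ≤ (κ + 1) q` for `q ≥ κ`.
-/

set_option autoImplicit false

namespace Claimed.Agent.R292

open Claimed.Agent.R291

/-! ## 0. the two inputs -/

/-- (56) on the mixed cylinder in the field language (base sizes `L`, `H`; refined rows and columns), band of `r + 1` rows -/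
def Krl96Rsw (t : ℝ) : Prop :=
  ∀ δ : ℝ, 0 < δ → ∃ ψ : ℝ, 0 < ψ ∧ ∃ r₀ : ℕ, ∀ (L H : ℕ) (c r : ℤ), (r₀ : ℤ) ≤ r → 16 * r ≤ 2 * L → r ≤ c → c + 2 * r ≤ 2 * (H : ℤ) - 1 →
    δ ≤ rcy162Q t L H (cyV 1 0 (6 * r + 6) c (c + r)) → ψ ≤ rcy162Q t L H (cyH 1 0 (4 * r + 4) c (c + r))

/-- horizontal lengthening on the mixed cylinder in the field language (base sizes `L`, `H`) -/
def Krl96Len (t : ℝ) : Prop :=
  ∀ (κ : ℕ) (δ : ℝ), 0 < δ → ∃ δ' : ℝ, 0 < δ' ∧ ∃ r₀ : ℕ, ∀ (L H : ℕ) (c r : ℤ), (r₀ : ℤ) ≤ r → ((κ : ℤ) + 10) * r ≤ 2 * L → r ≤ c →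
    c + 2 * r ≤ 2 * (H : ℤ) - 2 → δ ≤ rcy162Q t L H (cyH 1 0 (4 * r) c (c + r)) → δ' ≤ rcy162Q t L H (cyH 1 0 (κ * r) c (c + r))

/-- the equation lemmas of the definitions of this file are generated HERE (RULES.md, rule 6) -/
theorem krl96_eqns_cite : True := by
  have := @Krl96Rsw.eq_1
  have := @Krl96Len.eq_1
  trivial

/-! ## 1. the producers -/

/-- (56) from the exit of 86 -/
theorem krl96_rsw_of_86 (t : ℝ) (h0 : 0 < t) (h1 : t ≤ 1) (hF : ∀ L H : ℕ, 0 < L → 0 < H → Rrc86Fkg t L H) (hG : Rrc86Glue t h0 h1) : Krl96Rsw t := by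
  intro δ hδ
  obtain ⟨ψ, hψ, M⟩ := rrc86_exit t h0 h1 hG δ hδ
  refine ⟨ψ, hψ, 125000, fun L H c r hr hL hc hcH hV => ?_⟩
  have hr' : (125000 : ℤ) ≤ r := by exact_mod_cast hr
  have h := M L H c r 0 0 (6 * r + 6) (4 * r + 4) (hF L H (by omega) (by omega)) hr' hL hc hcH (by omega) le_rfl (by omega) le_rfl
    (by rw [zero_add]; exact hV)
  rwa [zero_add] at h

/-- the event `cyH` is the event `SdH` of the plus cells -/
theorem krl96_Q_H (t : ℝ) (L H : ℕ) (a b c d : ℤ) : rcy162Q t L H (cyH 1 a b c d) = rrc86P t L H (SdH a b c d) := rfl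

/-- lengthening from the exit of 182 and the dictionary between his family of laws and the law of 162 -/
theorem krl96_len_of_182 (t : ℝ) {Ω : ℕ → ℕ → Type} (𝓛 : ∀ L H, Rln182Law (Ω L H) TV) (K : ∀ L H, Ω L H → Prop) (hh : ℕ → ℕ) (hhh : ∀ H, 2 * H ≤ hh H + 1)
    (hD : ∀ (L H : ℕ) (E : Set TV → Prop), rln182P 𝓛 K (2 * L) (hh H) E = rrc86P t L H E) (hLen : Rln182Len 𝓛 K) : Krl96Len t := by
  intro κ δ hδ
  obtain ⟨δ', hδ', r₀, M⟩ := hLen κ δ hδ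
  refine ⟨δ', hδ', r₀, fun L H c r hr hL hc hcH hS => ?_⟩
  rw [krl96_Q_H, ← hD] at hS ⊢
  have h2 := hhh H
  exact M (2 * L) (hh H) c r hr (by push_cast; exact hL) hc (by omega) hS

/-! ## 2. the field -/

/-- **the field `rswl` of `Rct127Kit (both even) (fun L H _ _ => rcy162Q t (L / 2) (H / 2))`**, VERBATIM -/
theorem krl96_rswl (t : ℝ) (h0 : 0 < t) (h1 : t ≤ 1) (hR : Krl96Rsw t) (hLen : Krl96Len t) :
    ∀ (κ : ℕ) (δ : ℝ), 0 < δ → ∃ δ' : ℝ, 0 < δ' ∧ ∃ r0 : ℕ, ∀ (L H : ℕ) (T : Bool) (k r : ℤ), (fun L H : ℕ => Even L ∧ Even H) L H →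
    20 ≤ H → H ≤ L → (r0 : ℤ) ≤ r → Even r → ((κ : ℤ) + 20) * r ≤ L → 3 + r ≤ k → k + 2 * r ≤ (H : ℤ) - 4 →
    (δ ≤ (fun (L H : ℕ) (_ _ : Bool) => rcy162Q t (L / 2) (H / 2)) L H T T (cyV 1 0 (6 * r) k (k + r - 1)) ∨
      δ ≤ (fun (L H : ℕ) (_ _ : Bool) => rcy162Q t (L / 2) (H / 2)) L H T T (cyH 1 0 (4 * r) k (k + r - 1))) →
    δ' ≤ (fun (L H : ℕ) (_ _ : Bool) => rcy162Q t (L / 2) (H / 2)) L H T T (cyH 1 0 (κ * r) k (k + r - 1)) := by
  intro κ δ hδ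
  obtain ⟨ψ, hψ, r₁, hR'⟩ := hR δ hδ
  obtain ⟨δ', hδ', r₂, hL'⟩ := hLen (κ + 1) (min δ ψ) (lt_min hδ hψ)
  refine ⟨δ', hδ', max (r₁ + 1) (max (r₂ + 1) (κ + 4)), ?_⟩
  rintro L H T k r ⟨⟨L', rfl⟩, ⟨H', rfl⟩⟩ hH hHL hr - hκL hk hkH hor
  have eL : (L' + L') / 2 = L' := by omega
  have eH : (H' + H') / 2 = H' := by omega
  simp only [eL, eH] at hor ⊢
  have hr1 : ((r₁ : ℤ) + 1) ≤ r := by
    have : ((r₁ + 1 : ℕ) : ℤ) ≤ ((max (r₁ + 1) (max (r₂ + 1) (κ + 4)) : ℕ) : ℤ) := by exact_mod_cast le_max_left _ _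
    push_cast at this hr ⊢
    omega
  have hr2 : ((r₂ : ℤ) + 1) ≤ r := by
    have : ((r₂ + 1 : ℕ) : ℤ) ≤ ((max (r₁ + 1) (max (r₂ + 1) (κ + 4)) : ℕ) : ℤ) := by
      exact_mod_cast (le_max_left _ _).trans (le_max_right _ _)
    push_cast at this hr ⊢
    omega
  have hr3 : ((κ : ℤ) + 4) ≤ r := by
    have : ((κ + 4 : ℕ) : ℤ) ≤ ((max (r₁ + 1) (max (r₂ + 1) (κ + 4)) : ℕ) : ℤ) := by
      exact_mod_cast (le_max_right _ _).trans (le_max_right _ _)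
    push_cast at this hr ⊢
    omega
  have hκ0 : (0 : ℤ) ≤ κ := Int.natCast_nonneg κ
  obtain ⟨q, hq⟩ : ∃ q : ℤ, r = q + 1 := ⟨r - 1, by ring⟩
  subst hq
  have eband : k + (q + 1) - 1 = k + q := by ring
  rw [eband] at hor ⊢
  have hq3 : 3 ≤ q := by omega
  have hκq : 0 ≤ (κ : ℤ) * q := mul_nonneg hκ0 (by omega)
  push_cast at hκL hkH
  have hκL' : (κ : ℤ) * q + κ + 20 * q + 20 ≤ (L' : ℤ) + L' := by
    have : ((κ : ℤ) + 20) * (q + 1) = (κ : ℤ) * q + κ + 20 * q + 20 := by ring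
    omega
  -- the horizontal crossing of width `4 q + 4`
  have wide : min δ ψ ≤ rcy162Q t L' H' (cyH 1 0 (4 * q + 4) k (k + q)) := by
    rcases hor with hV | hHh
    · have e6 : 6 * (q + 1) = 6 * q + 6 := by ring
      rw [e6] at hV
      exact (min_le_right _ _).trans (hR' L' H' k q (by omega) (by omega) (by omega) (by omega) hV)
    · have e4 : 4 * (q + 1) = 4 * q + 4 := by ring
      rw [e4] at hHh
      exact (min_le_left _ _).trans hHh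
  -- the seed at the scale `q`
  have seed : min δ ψ ≤ rcy162Q t L' H' (cyH 1 0 (4 * q) k (k + q)) :=
    wide.trans (rcy162_Q_mono h0.le h1 L' H' fun τ _ hτ =>
      cy_H_narrow 1 (a := 0) (b := 4 * q + 4) (a' := 0) (b' := 4 * q) k (k + q) le_rfl (by omega) hτ)
  have long := hL' L' H' k q (by omega) (by push_cast; nlinarith) (by omega) (by omega) seed
  have hnar : (κ : ℤ) * (q + 1) ≤ ((κ + 1 : ℕ) : ℤ) * q := by
    push_cast
    nlinarith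
  exact long.trans (rcy162_Q_mono h0.le h1 L' H' fun τ _ hτ =>
    cy_H_narrow 1 (a := 0) (b := ((κ + 1 : ℕ) : ℤ) * q) (a' := 0) (b' := (κ : ℤ) * (q + 1)) k (k + q) le_rfl hnar hτ)

/-- the exit fits: the kit from its three fields -/
theorem krl96_kit (t : ℝ) (h0 : 0 < t) (h1 : t ≤ 1) (hR : Krl96Rsw t) (hLen : Krl96Len t)
    (hlaw : ∀ L H : ℕ, (Even L ∧ Even H) → 20 ≤ H → H ≤ L → Rct127Law L H ((fun (L H : ℕ) (_ _ : Bool) => rcy162Q t (L / 2) (H / 2)) L H))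
    (hglue : ∃ cG : ℝ, 0 < cG ∧ ∃ r0 : ℕ, ∀ (L H : ℕ) (_T : Bool) (k m : ℤ), (Even L ∧ Even H) →
      20 ≤ H → H ≤ L → (r0 : ℤ) ≤ m → Even m → 100 * m ≤ L → 3 + 3 * m ≤ k → k + 13 * m ≤ (H : ℤ) - 4 →
      cG * rcy162Q t (L / 2) (H / 2) (cyH 1 0 (60 * m) (k + 8 * m) (k + 10 * m - 1) ∩ cyH 1 (10 * m) (70 * m) k (k + 2 * m - 1))
        ≤ rcy162Q t (L / 2) (H / 2) (cyV 1 (12 * m) (58 * m) (k + 3 * m) (k + 7 * m))) :
    Rct127Kit (fun L H : ℕ => Even L ∧ Even H) (fun (L H : ℕ) (_ _ : Bool) => rcy162Q t (L / 2) (H / 2)) where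
  law := hlaw
  rswl := krl96_rswl t h0 h1 hR hLen
  glue := hglue

/-! ## 3. wiring on the exits of 86 and 182 (v2) -/

/-- the bridge of 182 read on a horizontal crossing of the rows `c..d`, `0 ≤ c`, `d < 2 H` -/
theorem krl96_P_H (t : ℝ) {L : ℕ} (hL : 0 < L) (H : ℕ) (a b : ℤ) {c d : ℤ} (hc : 0 ≤ c) (hd : d < 2 * (H : ℤ)) :
    rln182P (rse182Cyl t) rse182K (2 * L) (2 * H) (SdH a b c d) = rcy162Q t L H (cyH 1 a b c d) := by
  have eL : 2 * L / 2 = L := by omega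
  have eH : 2 * H / 2 = H := by omega
  rw [rse182_P_Q t (2 * H) (by omega : 2 * L % 2 = 0) (by omega), eL, eH]
  congr 1
  ext τ
  show SdH a b c d (rse182Plus (2 * H) τ) ↔ SdH a b c d (cyOn 1 τ)
  refine sd_H_rows a b c d _ _ ?_
  ext y
  constructor
  · rintro ⟨⟨-, -, h3⟩, hb⟩
    exact ⟨h3, hb⟩
  · rintro ⟨h3, hb⟩
    have hb' : c ≤ y.2 ∧ y.2 ≤ d := hb
    refine ⟨⟨by omega, ?_, h3⟩, hb⟩
    push_cast
    omega

/-- lengthening in the field language from the exit of 182 on the mixed cylinder -/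
theorem krl96_len_of_len2 (t : ℝ) (hLen : Rln182Len2 (rse182Cyl t) rse182K) : Krl96Len t := by
  intro κ δ hδ
  obtain ⟨δ', hδ', r₀, M⟩ := hLen κ δ hδ
  refine ⟨δ', hδ', r₀ + 1, fun L H c r hr hL hc hcH hS => ?_⟩
  push_cast at hr
  have hr0 : (0 : ℤ) ≤ r₀ := Int.natCast_nonneg r₀
  have hκ0 : (0 : ℤ) ≤ κ := Int.natCast_nonneg κ
  have hL0 : 0 < L := by
    by_contra hcon
    have : (L : ℤ) = 0 := by omega
    rw [this] at hL
    nlinarith
  rw [← krl96_P_H t hL0 H _ _ (by omega) (by omega)] at hS ⊢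
  exact M (2 * L) (2 * H) c r (by omega) (by omega) (by omega) (by push_cast; exact hL) hc (by push_cast; omega) hS

/-- **the field `rswl`** from the exit of 86 (`Rrc86Fkg`, `Rrc86Glue`) and the exit of 182 (`Rln182Len2` of his mixed cylinder) -/
theorem krl96_rswl_of_exits (t : ℝ) (h0 : 0 < t) (h1 : t ≤ 1) (hF : ∀ L H : ℕ, 0 < L → 0 < H → Rrc86Fkg t L H) (hG : Rrc86Glue t h0 h1)
    (hLen : Rln182Len2 (rse182Cyl t) rse182K) :
    ∀ (κ : ℕ) (δ : ℝ), 0 < δ → ∃ δ' : ℝ, 0 < δ' ∧ ∃ r0 : ℕ, ∀ (L H : ℕ) (T : Bool) (k r : ℤ), (fun L H : ℕ => Even L ∧ Even H) L H →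
    20 ≤ H → H ≤ L → (r0 : ℤ) ≤ r → Even r → ((κ : ℤ) + 20) * r ≤ L → 3 + r ≤ k → k + 2 * r ≤ (H : ℤ) - 4 →
    (δ ≤ (fun (L H : ℕ) (_ _ : Bool) => rcy162Q t (L / 2) (H / 2)) L H T T (cyV 1 0 (6 * r) k (k + r - 1)) ∨
      δ ≤ (fun (L H : ℕ) (_ _ : Bool) => rcy162Q t (L / 2) (H / 2)) L H T T (cyH 1 0 (4 * r) k (k + r - 1))) →
    δ' ≤ (fun (L H : ℕ) (_ _ : Bool) => rcy162Q t (L / 2) (H / 2)) L H T T (cyH 1 0 (κ * r) k (k + r - 1)) :=
  krl96_rswl t h0 h1 (krl96_rsw_of_86 t h0 h1 hF hG) (krl96_len_of_len2 t hLen)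

end Claimed.Agent.R292
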