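import Claimed.Agent.R292.Rsw.CylTop127
import Claimed.Agent.R292.Rsw.Sys162
import Claimed.Agent.R292.Rsw.CmpInst291

/-!
# Row 292 (S0540), Rsw/CylInst69 : R8 CORE, block A4-INST.1 = ASSOCIATION (T1) ON SYSTEMS AND ON THE CYLINDER; THE SOFT FIELDS OF `Rct127Law`      (owner helper69; prefix `rci69_` / `Rci69`)      0 sorry

Order of 121 (19:33Z), split with 162 (19:50Z): 162 typed the field `rcy162Fld`, the law `rcy162Q` and its symmetries (shift, mirror, reversal of the rows, field `refl`) in `Sys162`; HERE the field `fkg` and the record.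
* par.1  ASSOCIATION (T1) ON AN ABSTRACT SYSTEM `Rcy162Sys` with pins (port of `CmpInst291` to systems): `Rci69Ctr Y π` (contraction of the pinned classes to representatives), `Rci69Dual` (eq. (3.5) of the AT paper),
         `rci69_sum_AT` (the constrained sums = `cmp291AT` sums), **`rci69_fkg_sum`**, **`rci69_fkg_Pr`** (order `Y.Le`; constraint = any `KS : Finset (ℤ × ℤ) → Prop` on the plus set which is closed under `∩`, `∪` and constant on the classes of `π`),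
         `rci69_dual_of_hat` (eq. (3.5) from exactness stated with functions on `ℤ × ℤ`, no subtypes; `mdl141e_duality_bool`).
* par.2  EXACTNESS ON THE CYLINDER `rcy162Cyl L a b` with the two boundary rows contracted (`rci69Pi a b`): `rci69_sbp` (summation by parts), `rci69_cyl_HP`, `rci69_cyl_HX` (integration of a closed 1-cochain along the bottom row and up the columns),
         **`rci69_cyl_dual`**.   No Euler formula, no Jordan curve.
* par.3  **`rci69_cyl_fkg`** (mixed law on `rcy162Cyl L a b`, events increasing for `Y.Le`), **`rci69_Q_fkg`** (`CyInc` events of the field; NO support condition is needed).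
* par.4  **`rci69_law`** : `Rct127Law (2 * L) (2 * H) (fun _ _ => rcy162Q t L H)` from the three HARD fields `slide`, `sym`, `recov` (hypotheses, other pens).
* par.5  field forms on EVERY cylinder: `rci69QM t L a b E`, **`rci69_QM_fkg`** (inc, inc), **`rci69_QM_fkg_dec`** (inc, dec), `rci69_QM_fkg_dd` (dec, dec), `rci69_QM_split`, `rci69_QM_compl`      (= (iii') of the plan of 162 for `slide`).
* par.7  THE CAPPED SELF-DUAL CYLINDER `rci69Cap L a b` (sites: rows `a..b-1` + top pole; faces: rows `a..b-1` + bottom pole; the poles are in the maps `p1`, `f1`; no constraint) = reference law of `recov`: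
         `rci69_cap_wf`, `rci69_cap_HP/_HX`, **`rci69_cap_dual`**, **`rci69_cap_fkg`** (FREE law).
* par.6  ORDER (T2) ON AN ABSTRACT SYSTEM: **`rci69_holley_sum`**, **`rci69_holley_Pr`** (two pin constraints `KS₁`, `KS₂` with `KS₁ S → KS₂ S' → KS₁ (S ∩ S') ∧ KS₂ (S ∪ S')`).
-/

set_option autoImplicit false
set_option linter.unusedVariables false
set_option linter.unusedSectionVars false
set_option linter.unusedSimpArgs false
set_option linter.unnecessarySeqFocus false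
set_option linter.deprecated false

namespace Claimed.Agent.R292

open Claimed.Agent.R291 Claims Claims.C0468 Relation

/-! ## 1. association (T1) on an abstract system with contracted pins -/

/-- contraction data: `π` sends every site to the representative of its class -/
structure Rci69Ctr (Y : Rcy162Sys) (π : ℤ × ℤ → ℤ × ℤ) : Prop where
  wf : Y.WF
  pi : ∀ v ∈ Y.V, π v ∈ Y.V

section Abs

variable {Y : Rcy162Sys} {π : ℤ × ℤ → ℤ × ℤ}

/-- contracted endpoints and faces of an edge pair -/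
def rci69Ep0 (hc : Rci69Ctr Y π) (i : ↥Y.E) : ↥Y.V := ⟨π (Y.p0 i.1), hc.pi _ (hc.wf.p0 _ i.2)⟩
def rci69Ep1 (hc : Rci69Ctr Y π) (i : ↥Y.E) : ↥Y.V := ⟨π (Y.p1 i.1), hc.pi _ (hc.wf.p1 _ i.2)⟩
def rci69Ef0 (hc : Rci69Ctr Y π) (i : ↥Y.E) : ↥Y.Fc := ⟨Y.f0 i.1, hc.wf.f0 _ i.2⟩
def rci69Ef1 (hc : Rci69Ctr Y π) (i : ↥Y.E) : ↥Y.Fc := ⟨Y.f1 i.1, hc.wf.f1 _ i.2⟩

/-- plus sites of a generic spin configuration, read at the representatives -/
noncomputable def rci69S (hc : Rci69Ctr Y π) (s : ↥Y.V → Bool) : Finset (ℤ × ℤ) :=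
  open Classical in Y.V.filter (fun v => ∃ h : v ∈ Y.V, s ⟨π v, hc.pi v h⟩ = true)

/-- plus sites of a generic spin configuration -/
noncomputable def rci69S0 (Y : Rcy162Sys) (s : ↥Y.V → Bool) : Finset (ℤ × ℤ) :=
  open Classical in Y.V.filter (fun v => ∃ h : v ∈ Y.V, s ⟨v, h⟩ = true)

theorem rci69_mem_S (hc : Rci69Ctr Y π) (s : ↥Y.V → Bool) {v : ℤ × ℤ} (hv : v ∈ Y.V) : v ∈ rci69S hc s ↔ s ⟨π v, hc.pi v hv⟩ = true := by
  classical
  unfold rci69S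
  rw [Finset.mem_filter]
  exact ⟨fun h => h.2.2, fun h => ⟨hv, hv, h⟩⟩

theorem rci69_mem_S0 (s : ↥Y.V → Bool) {v : ℤ × ℤ} (hv : v ∈ Y.V) : v ∈ rci69S0 Y s ↔ s ⟨v, hv⟩ = true := by
  classical
  unfold rci69S0
  rw [Finset.mem_filter]
  exact ⟨fun h => h.2.2, fun h => ⟨hv, hv, h⟩⟩

theorem rci69_S_sub (hc : Rci69Ctr Y π) (s : ↥Y.V → Bool) : rci69S hc s ⊆ Y.V := by
  classical
  exact Finset.filter_subset _ _

theorem rci69_S0_sub (s : ↥Y.V → Bool) : rci69S0 Y s ⊆ Y.V := by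
  classical
  exact Finset.filter_subset _ _

/-- on the configurations which are constant on the classes the two readings agree -/
theorem rci69_S_eq (hc : Rci69Ctr Y π) (s : ↥Y.V → Bool) (h : ∀ v ∈ Y.V, (π v ∈ rci69S0 Y s ↔ v ∈ rci69S0 Y s)) : rci69S hc s = rci69S0 Y s := by
  ext v
  by_cases hv : v ∈ Y.V
  · rw [rci69_mem_S hc s hv, ← h v hv, rci69_mem_S0 s (hc.pi v hv)]
  · exact ⟨fun hh => absurd (rci69_S_sub hc s hh) hv, fun hh => absurd (rci69_S0_sub s hh) hv⟩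

/-- the open edges -/
def rci69O (Y : Rcy162Sys) (W : Finset ↥Y.E) : Finset ((ℤ × ℤ) × Bool) := W.map (Function.Embedding.subtype _)

theorem rci69_mem_O {W : Finset ↥Y.E} (i : ↥Y.E) : i.1 ∈ rci69O Y W ↔ i ∈ W := by
  unfold rci69O
  simp

/-- reindexing of the sum over `S` -/
theorem rci69_sum_S (Y : Rcy162Sys) (h : Finset (ℤ × ℤ) → ℝ) : ∑ S ∈ Y.V.powerset, h S = ∑ s : ↥Y.V → Bool, h (rci69S0 Y s) := by
  classical
  refine Finset.sum_nbij' (fun S => fun v : ↥Y.V => decide (v.1 ∈ S)) (rci69S0 Y) ?_ ?_ ?_ ?_ ?_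
  · intro S _
    exact Finset.mem_univ _
  · intro s _
    exact Finset.mem_powerset.2 (rci69_S0_sub s)
  · intro S hS
    have hS' := Finset.mem_powerset.1 hS
    ext v
    by_cases hv : v ∈ Y.V
    · rw [rci69_mem_S0 _ hv, decide_eq_true_iff]
    · exact ⟨fun hh => absurd (rci69_S0_sub _ hh) hv, fun hh => absurd (hS' hh) hv⟩
  · intro s _
    funext v
    have := rci69_mem_S0 s v.2
    cases h : s v
    · rw [decide_eq_false_iff_not, this]
      show ¬ s v = true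
      rw [h]; exact Bool.false_ne_true
    · rw [decide_eq_true_iff, this]
      exact h
  · intro S hS
    have hS' := Finset.mem_powerset.1 hS
    congr 1
    ext v
    by_cases hv : v ∈ Y.V
    · rw [rci69_mem_S0 _ hv, decide_eq_true_iff]
    · exact ⟨fun hh => absurd (hS' hh) hv, fun hh => absurd (rci69_S0_sub _ hh) hv⟩

/-- number of face colourings which are constant across the closed edges -/
noncomputable def rci69Cnt (Y : Rcy162Sys) (O : Finset ((ℤ × ℤ) × Bool)) : ℕ :=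
  open Classical in
  (Y.Fc.powerset.filter (fun D => ∀ e ∈ Y.E, e ∉ O → (Y.f0 e ∈ D ↔ Y.f1 e ∈ D))).card

/-- the `(S, O)` part of the factor of an edge pair -/
noncomputable def rci69CB (Y : Rcy162Sys) (t : ℝ) (S : Finset (ℤ × ℤ)) (O : Finset ((ℤ × ℤ) × Bool)) (e : (ℤ × ℤ) × Bool) : ℝ :=
  if e ∈ O then (if (Y.p0 e ∈ S ↔ Y.p1 e ∈ S) then t else 0)
  else (if (Y.p0 e ∈ S ↔ Y.p1 e ∈ S) then 1 - t else t)

theorem rci69_fac (Y : Rcy162Sys) (t : ℝ) (S D : Finset (ℤ × ℤ)) (O : Finset ((ℤ × ℤ) × Bool)) (e : (ℤ × ℤ) × Bool) :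
    Y.fac t ⟨S, D, O⟩ e
      = open Classical in
        rci69CB Y t S O e * (if (e ∉ O → (Y.f0 e ∈ D ↔ Y.f1 e ∈ D)) then 1 else 0) := by
  classical
  unfold Rcy162Sys.fac rci69CB
  by_cases h1 : e ∈ O
  · simp only [h1, if_true, not_true_eq_false, false_imp_iff, mul_one]
  · by_cases h2 : (Y.f0 e ∈ D ↔ Y.f1 e ∈ D)
    · simp only [h1, if_false, h2, if_true, not_false_eq_true, true_imp_iff, mul_one]
    · simp only [h1, if_false, h2, not_false_eq_true, true_imp_iff, mul_zero]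

theorem rci69_sum_D (Y : Rcy162Sys) (t : ℝ) (KS : Finset (ℤ × ℤ) → Prop) (S : Finset (ℤ × ℤ))
    (O : Finset ((ℤ × ℤ) × Bool)) (hK : KS S) (X : RswCfg → ℝ) (hX : ∀ D, X ⟨S, D, O⟩ = X ⟨S, ∅, O⟩) :
    ∑ D ∈ Y.Fc.powerset, Y.wt t (fun ω => KS ω.S) ⟨S, D, O⟩ * X ⟨S, D, O⟩
      = (∏ e ∈ Y.E, rci69CB Y t S O e) * (rci69Cnt Y O : ℝ) * X ⟨S, ∅, O⟩ := by
  classical
  have hw : ∀ D, Y.wt t (fun ω => KS ω.S) ⟨S, D, O⟩ = (∏ e ∈ Y.E, rci69CB Y t S O e)
      * (if ∀ e ∈ Y.E, e ∉ O → (Y.f0 e ∈ D ↔ Y.f1 e ∈ D) then 1 else 0) := by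
    intro D
    rw [rcy162_wt_of Y (K := fun ω => KS ω.S) (ω := ⟨S, D, O⟩) hK]
    simp_rw [rci69_fac]
    rw [Finset.prod_mul_distrib, Finset.prod_ite_zero, Finset.prod_const_one]
  simp_rw [hw, hX]
  rw [← Finset.sum_mul, ← Finset.mul_sum, Finset.sum_boole]
  unfold rci69Cnt
  congr!

/-- the count of face colourings in the vocabulary of `IsingZ` -/
theorem rci69_cnt_eq (hc : Rci69Ctr Y π) (W : Finset ↥Y.E) :
    rci69Cnt Y (rci69O Y W) = iszN Bool (rci69Ef0 hc) (rci69Ef1 hc) (Finset.univ \ W) := by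
  classical
  unfold rci69Cnt iszN
  refine Finset.card_nbij' (fun D => fun f : ↥Y.Fc => decide (f.1 ∈ D))
    (fun σ => (Finset.univ.filter (fun f : ↥Y.Fc => σ f = true)).map (Function.Embedding.subtype _)) ?_ ?_ ?_ ?_
  · intro D hD
    simp only [Finset.coe_filter, Set.mem_ofPred_eq, Finset.mem_powerset, Finset.mem_univ, true_and] at hD ⊢
    intro i hi
    have hi' : i ∉ W := (Finset.mem_sdiff.1 hi).2
    have := hD.2 i.1 i.2 (fun h => hi' ((rci69_mem_O i).1 h))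
    exact decide_eq_decide.2 this
  · intro σ hσ
    simp only [Finset.coe_filter, Set.mem_ofPred_eq, Finset.mem_powerset, Finset.mem_univ, true_and] at hσ ⊢
    refine ⟨Finset.map_subtype_subset _, fun e he hO => ?_⟩
    have hi : (⟨e, he⟩ : ↥Y.E) ∈ Finset.univ \ W :=
      Finset.mem_sdiff.2 ⟨Finset.mem_univ _, fun h => hO ((rci69_mem_O ⟨e, he⟩).2 h)⟩
    have h1 := hσ ⟨e, he⟩ hi
    have m1 : ∀ (f : ℤ × ℤ) (hf : f ∈ Y.Fc),
        f ∈ (Finset.univ.filter (fun f : ↥Y.Fc => σ f = true)).map (Function.Embedding.subtype _) ↔ σ ⟨f, hf⟩ = true := by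
      intro f hf
      simp [hf]
    rw [m1 (Y.f0 e) (hc.wf.f0 e he), m1 (Y.f1 e) (hc.wf.f1 e he)]
    have h2 : σ ⟨Y.f0 e, hc.wf.f0 e he⟩ = σ ⟨Y.f1 e, hc.wf.f1 e he⟩ := h1
    rw [h2]
  · intro D hD
    simp only [Finset.coe_filter, Set.mem_ofPred_eq, Finset.mem_powerset] at hD
    ext f
    simp only [Finset.mem_map, Finset.mem_filter, Finset.mem_univ, true_and, decide_eq_true_eq,
      Function.Embedding.coe_subtype, Subtype.exists, exists_and_left, exists_prop, exists_eq_right_right]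
    exact ⟨fun h => h.1, fun h => ⟨h, hD.1 h⟩⟩
  · intro σ _
    funext f
    have : f.1 ∈ (Finset.univ.filter (fun f : ↥Y.Fc => σ f = true)).map (Function.Embedding.subtype _) ↔ σ f = true := by
      simp
    cases h : σ f
    · rw [decide_eq_false_iff_not, this, h]
      exact Bool.false_ne_true
    · rw [decide_eq_true_iff, this, h]

theorem rci69_mono_iff (hc : Rci69Ctr Y π) (s : ↥Y.V → Bool) (i : ↥Y.E) :
    (Y.p0 i.1 ∈ rci69S hc s ↔ Y.p1 i.1 ∈ rci69S hc s) ↔ s (rci69Ep0 hc i) = s (rci69Ep1 hc i) := by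
  rw [rci69_mem_S hc s (hc.wf.p0 _ i.2), rci69_mem_S hc s (hc.wf.p1 _ i.2)]
  exact Bool.eq_iff_iff.symm

theorem rci69_prod_CB (hc : Rci69Ctr Y π) (t : ℝ) (s : ↥Y.V → Bool) (W : Finset ↥Y.E) :
    ∏ e ∈ Y.E, rci69CB Y t (rci69S hc s) (rci69O Y W) e = ∏ i, cmi291Base (rci69Ep0 hc) (rci69Ep1 hc) t s W i := by
  rw [← Finset.prod_coe_sort]
  refine Finset.prod_congr rfl fun i _ => ?_
  unfold rci69CB cmi291Base
  by_cases h1 : i ∈ W
  · rw [if_pos ((rci69_mem_O i).2 h1), if_pos h1]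
    by_cases h2 : s (rci69Ep0 hc i) = s (rci69Ep1 hc i)
    · rw [if_pos ((rci69_mono_iff hc s i).2 h2), if_pos h2]
    · rw [if_neg (fun h => h2 ((rci69_mono_iff hc s i).1 h)), if_neg h2]
  · rw [if_neg (fun h => h1 ((rci69_mem_O i).1 h)), if_neg h1]
    by_cases h2 : s (rci69Ep0 hc i) = s (rci69Ep1 hc i)
    · rw [if_pos ((rci69_mono_iff hc s i).2 h2), if_pos h2]
    · rw [if_neg (fun h => h2 ((rci69_mono_iff hc s i).1 h)), if_neg h2]

open Classical in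
/-- **the constrained sums in generic variables** (observables which do not read the face spins) -/
theorem rci69_sum_eq (hc : Rci69Ctr Y π) (t : ℝ) (KS : Finset (ℤ × ℤ) → Prop)
    (k1 : ∀ S, KS S → ∀ v ∈ Y.V, (π v ∈ S ↔ v ∈ S)) (X : RswCfg → ℝ) (hX : ∀ S D O, X ⟨S, D, O⟩ = X ⟨S, ∅, O⟩) :
    Y.sum t (fun ω => KS ω.S) X = ∑ s : ↥Y.V → Bool, ∑ W : Finset ↥Y.E,
      (if KS (rci69S0 Y s) then 1 else 0)
        * ((∏ i, cmi291Base (rci69Ep0 hc) (rci69Ep1 hc) t s W i) * (iszN Bool (rci69Ef0 hc) (rci69Ef1 hc) (Finset.univ \ W) : ℝ))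
        * X ⟨rci69S hc s, ∅, rci69O Y W⟩ := by
  unfold Rcy162Sys.sum
  rw [rci69_sum_S Y]
  refine Finset.sum_congr rfl fun s _ => ?_
  by_cases hs : KS (rci69S0 Y s)
  · have e := rci69_S_eq hc s (k1 _ hs)
    rw [← e] at hs ⊢
    rw [Finset.sum_comm, cmi291_sum_powerset]
    refine Finset.sum_congr rfl fun W _ => ?_
    have := rci69_sum_D Y t KS (rci69S hc s) (rci69O Y W) hs X (fun D => hX _ D _)
    rw [if_pos hs, one_mul, ← rci69_prod_CB, ← rci69_cnt_eq]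
    exact this
  · symm
    rw [Finset.sum_eq_zero fun W _ => by rw [if_neg hs, zero_mul, zero_mul]]
    symm
    refine Finset.sum_eq_zero fun D _ => Finset.sum_eq_zero fun O _ => ?_
    rw [rcy162_wt_of_not Y (K := fun ω => KS ω.S) (ω := ⟨rci69S0 Y s, D, O⟩) hs, zero_mul]

/-- eq. (3.5) for the contracted graph of the system -/
def Rci69Dual (hc : Rci69Ctr Y π) : Prop :=
  ∀ W : Finset ↥Y.E,
    iszN Bool (rci69Ep0 hc) (rci69Ep1 hc) W * 2 ^ W.card * iszN Bool (rci69Ef0 hc) (rci69Ef1 hc) Finset.univ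
      = 2 ^ Fintype.card ↥Y.V * iszN Bool (rci69Ef0 hc) (rci69Ef1 hc) (Finset.univ \ W)

/-- the vertex factor -/
noncomputable def rci69Phi (Y : Rcy162Sys) (KS : Finset (ℤ × ℤ) → Prop) (s : ↥Y.V → Bool) : ℝ :=
  open Classical in if KS (rci69S0 Y s) then 1 else 0

/-- the constant of the dictionary -/
noncomputable def rci69K (hc : Rci69Ctr Y π) (t : ℝ) : ℝ :=
  (iszN Bool (rci69Ef0 hc) (rci69Ef1 hc) Finset.univ : ℝ) * t ^ Fintype.card ↥Y.E

theorem rci69_K_pos (hc : Rci69Ctr Y π) {t : ℝ} (ht : 0 < t) : 0 < rci69K hc t := by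
  unfold rci69K
  refine mul_pos ?_ (pow_pos ht _)
  have : 0 < iszN Bool (rci69Ef0 hc) (rci69Ef1 hc) Finset.univ := by
    unfold iszN
    refine Finset.card_pos.2 ⟨fun _ => true, ?_⟩
    rw [Finset.mem_filter]
    exact ⟨Finset.mem_univ _, fun _ _ => rfl⟩
  exact_mod_cast this

theorem rci69_sum_AT (hc : Rci69Ctr Y π) {t : ℝ} (ht : t ≠ 0) (hF : Rci69Dual hc) (KS : Finset (ℤ × ℤ) → Prop)
    (k1 : ∀ S, KS S → ∀ v ∈ Y.V, (π v ∈ S ↔ v ∈ S)) (X : RswCfg → ℝ) (hX : ∀ S D O, X ⟨S, D, O⟩ = X ⟨S, ∅, O⟩) :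
    (2 : ℝ) ^ Fintype.card ↥Y.V * Y.sum t (fun ω => KS ω.S) X
      = rci69K hc t * ∑ s : ↥Y.V → Bool, ∑ W : Finset ↥Y.E,
          rci69Phi Y KS s * cmp291AT (rci69Ep0 hc) (rci69Ep1 hc) ((1 - t) / t) s W * X ⟨rci69S hc s, ∅, rci69O Y W⟩ := by
  classical
  rw [rci69_sum_eq hc t KS k1 X hX, Finset.mul_sum, Finset.mul_sum]
  refine Finset.sum_congr rfl fun s _ => ?_
  rw [Finset.mul_sum, Finset.mul_sum]
  refine Finset.sum_congr rfl fun W _ => ?_
  have h1 := cmi291_base_AT (rci69Ep0 hc) (rci69Ep1 hc) ht s W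
  have h2 : (iszN Bool (rci69Ep0 hc) (rci69Ep1 hc) W : ℝ) * 2 ^ W.card * (iszN Bool (rci69Ef0 hc) (rci69Ef1 hc) Finset.univ : ℝ)
      = 2 ^ Fintype.card ↥Y.V * (iszN Bool (rci69Ef0 hc) (rci69Ef1 hc) (Finset.univ \ W) : ℝ) := by
    exact_mod_cast hF W
  unfold rci69Phi rci69K
  linear_combination
    (-((if KS (rci69S0 Y s) then (1:ℝ) else 0) * (X ⟨rci69S hc s, ∅, rci69O Y W⟩)
        * ∏ i, cmi291Base (rci69Ep0 hc) (rci69Ep1 hc) t s W i)) * h2
    + ((if KS (rci69S0 Y s) then (1:ℝ) else 0) * (X ⟨rci69S hc s, ∅, rci69O Y W⟩)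
        * (iszN Bool (rci69Ef0 hc) (rci69Ef1 hc) Finset.univ : ℝ)) * h1

/-- increasing observable (order `(s, W⁺, -W⁻)` of the system) -/
def Rci69Inc (Y : Rcy162Sys) (X : RswCfg → ℝ) : Prop := ∀ ω ω', Y.Le ω ω' → X ω ≤ X ω'

theorem Rci69Inc.noD {X : RswCfg → ℝ} (hX : Rci69Inc Y X) (S D : Finset (ℤ × ℤ)) (O : Finset ((ℤ × ℤ) × Bool)) :
    X ⟨S, D, O⟩ = X ⟨S, ∅, O⟩ :=
  le_antisymm (hX _ _ ⟨Finset.Subset.refl _, fun _ h => h, fun _ h => h⟩) (hX _ _ ⟨Finset.Subset.refl _, fun _ h => h, fun _ h => h⟩)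

theorem rci69_S_mono (hc : Rci69Ctr Y π) {s s' : ↥Y.V → Bool} (h : s ≤ s') : rci69S hc s ⊆ rci69S hc s' := by
  intro v hv
  have hvV := rci69_S_sub hc s hv
  rw [rci69_mem_S hc _ hvV] at hv ⊢
  exact le_antisymm le_top (hv ▸ h _)

theorem rci69_S0_inf (s s' : ↥Y.V → Bool) : rci69S0 Y (s ⊓ s') = rci69S0 Y s ∩ rci69S0 Y s' := by
  ext v
  by_cases hv : v ∈ Y.V
  · rw [Finset.mem_inter, rci69_mem_S0 _ hv, rci69_mem_S0 _ hv, rci69_mem_S0 _ hv, Pi.inf_apply]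
    cases s ⟨v, hv⟩ <;> cases s' ⟨v, hv⟩ <;> simp
  · exact ⟨fun hh => absurd (rci69_S0_sub _ hh) hv, fun hh => absurd (rci69_S0_sub _ (Finset.mem_inter.1 hh).1) hv⟩

theorem rci69_S0_sup (s s' : ↥Y.V → Bool) : rci69S0 Y (s ⊔ s') = rci69S0 Y s ∪ rci69S0 Y s' := by
  ext v
  by_cases hv : v ∈ Y.V
  · rw [Finset.mem_union, rci69_mem_S0 _ hv, rci69_mem_S0 _ hv, rci69_mem_S0 _ hv, Pi.sup_apply]
    cases s ⟨v, hv⟩ <;> cases s' ⟨v, hv⟩ <;> simp
  · refine ⟨fun hh => absurd (rci69_S0_sub _ hh) hv, fun hh => ?_⟩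
    rcases Finset.mem_union.1 hh with hh | hh <;> exact absurd (rci69_S0_sub _ hh) hv

/-- an increasing observable is increasing in the generic order -/
theorem rci69_inc_gen (hc : Rci69Ctr Y π) {X : RswCfg → ℝ} (hX : Rci69Inc Y X) :
    cmp291Inc (rci69Ep0 hc) (rci69Ep1 hc) (fun s W => X ⟨rci69S hc s, ∅, rci69O Y W⟩) := by
  intro s s' W W' hs h1 h2
  refine hX _ _ ⟨rci69_S_mono hc hs, ?_, ?_⟩
  · rintro e ⟨he, ha, hb⟩
    obtain ⟨i, hi, rfl⟩ := Finset.mem_map.1 he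
    have ha' := (rci69_mem_S hc s (hc.wf.p0 _ i.2)).1 (ha.2 rfl)
    have hb' := (rci69_mem_S hc s (hc.wf.p1 _ i.2)).1 (hb.2 rfl)
    have : i ∈ W ∩ cmp291Ep (rci69Ep0 hc) (rci69Ep1 hc) s :=
      Finset.mem_inter.2 ⟨hi, (cmp291_mem_Ep _ _ _ _).2 ⟨ha', hb'⟩⟩
    have h3 := Finset.mem_inter.1 (h1 this)
    have h4 := (cmp291_mem_Ep _ _ _ _).1 h3.2
    exact ⟨(rci69_mem_O i).2 h3.1, ⟨fun _ => rfl, fun _ => (rci69_mem_S hc s' (hc.wf.p0 _ i.2)).2 h4.1⟩,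
      ⟨fun _ => rfl, fun _ => (rci69_mem_S hc s' (hc.wf.p1 _ i.2)).2 h4.2⟩⟩
  · rintro e ⟨he, ha, hb⟩
    obtain ⟨i, hi, rfl⟩ := Finset.mem_map.1 he
    have ha' : s' (rci69Ep0 hc i) = false := by
      by_contra hcn
      exact Bool.false_ne_true (ha.1 ((rci69_mem_S hc s' (hc.wf.p0 _ i.2)).2 (Bool.eq_true_of_not_eq_false hcn)))
    have hb' : s' (rci69Ep1 hc i) = false := by
      by_contra hcn
      exact Bool.false_ne_true (hb.1 ((rci69_mem_S hc s' (hc.wf.p1 _ i.2)).2 (Bool.eq_true_of_not_eq_false hcn)))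
    have : i ∈ W' ∩ cmp291Em (rci69Ep0 hc) (rci69Ep1 hc) s' :=
      Finset.mem_inter.2 ⟨hi, (cmp291_mem_Em _ _ _ _).2 ⟨ha', hb'⟩⟩
    have h3 := Finset.mem_inter.1 (h2 this)
    have h4 := (cmp291_mem_Em _ _ _ _).1 h3.2
    refine ⟨(rci69_mem_O i).2 h3.1, ⟨fun hh => ?_, fun hh => absurd hh Bool.false_ne_true⟩, ⟨fun hh => ?_, fun hh => absurd hh Bool.false_ne_true⟩⟩
    · have := (rci69_mem_S hc s (hc.wf.p0 _ i.2)).1 hh
      exact (h4.1.symm.trans this)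
    · have := (rci69_mem_S hc s (hc.wf.p1 _ i.2)).1 hh
      exact (h4.2.symm.trans this)

theorem rci69_Phi_nonneg (KS : Finset (ℤ × ℤ) → Prop) (s : ↥Y.V → Bool) : 0 ≤ rci69Phi Y KS s := by
  unfold rci69Phi
  split_ifs
  · exact zero_le_one
  · exact le_rfl

theorem rci69_Phi_holley {KS : Finset (ℤ × ℤ) → Prop} (k2 : ∀ S S', KS S → KS S' → KS (S ∩ S') ∧ KS (S ∪ S')) (s s' : ↥Y.V → Bool) :
    rci69Phi Y KS s * rci69Phi Y KS s' ≤ rci69Phi Y KS (s ⊓ s') * rci69Phi Y KS (s ⊔ s') := by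
  unfold rci69Phi
  rw [rci69_S0_inf, rci69_S0_sup]
  by_cases e1 : KS (rci69S0 Y s)
  · by_cases e2 : KS (rci69S0 Y s')
    · rw [if_pos e1, if_pos e2, if_pos (k2 _ _ e1 e2).1, if_pos (k2 _ _ e1 e2).2]
    · rw [if_neg e2, mul_zero]
      refine mul_nonneg ?_ ?_ <;> split_ifs <;> norm_num
  · rw [if_neg e1, zero_mul]
    refine mul_nonneg ?_ ?_ <;> split_ifs <;> norm_num

/-- **association on a system** (unnormalised) -/
theorem rci69_fkg_sum (hc : Rci69Ctr Y π) {t : ℝ} (h0 : 0 < t) (h1 : t ≤ 1) (hF : Rci69Dual hc) {KS : Finset (ℤ × ℤ) → Prop}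
    (k1 : ∀ S, KS S → ∀ v ∈ Y.V, (π v ∈ S ↔ v ∈ S)) (k2 : ∀ S S', KS S → KS S' → KS (S ∩ S') ∧ KS (S ∪ S'))
    {X X' : RswCfg → ℝ} (hX : Rci69Inc Y X) (hX' : Rci69Inc Y X') :
    Y.sum t (fun ω => KS ω.S) X * Y.sum t (fun ω => KS ω.S) X'
      ≤ Y.sum t (fun ω => KS ω.S) (fun _ => 1) * Y.sum t (fun ω => KS ω.S) (fun ω => X ω * X' ω) := by
  have key := cmp291_AT_fkg (rci69Ep0 hc) (rci69Ep1 hc) (cmi291_r_nonneg h0 h1)
    (rci69_Phi_nonneg (Y := Y) KS) (rci69_Phi_holley k2) (rci69_inc_gen hc hX) (rci69_inc_gen hc hX')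
  have a1 := rci69_sum_AT hc h0.ne' hF KS k1 X hX.noD
  have a2 := rci69_sum_AT hc h0.ne' hF KS k1 X' hX'.noD
  have a3 := rci69_sum_AT hc h0.ne' hF KS k1 (fun _ => 1) (fun _ _ _ => rfl)
  have a4 := rci69_sum_AT hc h0.ne' hF KS k1 (fun ω => X ω * X' ω) (fun S D O => by rw [hX.noD S D O, hX'.noD S D O])
  simp only [mul_one] at a3
  have hK := rci69_K_pos hc h0
  have hcc : (0 : ℝ) < (2 : ℝ) ^ Fintype.card ↥Y.V := by positivity
  refine le_of_mul_le_mul_left ?_ (mul_pos hcc hcc)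
  calc (2 : ℝ) ^ Fintype.card ↥Y.V * (2 : ℝ) ^ Fintype.card ↥Y.V
        * (Y.sum t (fun ω => KS ω.S) X * Y.sum t (fun ω => KS ω.S) X')
      = ((2 : ℝ) ^ Fintype.card ↥Y.V * Y.sum t (fun ω => KS ω.S) X)
        * ((2 : ℝ) ^ Fintype.card ↥Y.V * Y.sum t (fun ω => KS ω.S) X') := by ring
    _ ≤ ((2 : ℝ) ^ Fintype.card ↥Y.V * Y.sum t (fun ω => KS ω.S) (fun _ => 1))
        * ((2 : ℝ) ^ Fintype.card ↥Y.V * Y.sum t (fun ω => KS ω.S) (fun ω => X ω * X' ω)) := by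
        rw [a1, a2, a3, a4]
        have := mul_le_mul_of_nonneg_left key (mul_pos hK hK).le
        nlinarith [this]
    _ = _ := by ring

/-- **association on a system, events** -/
theorem rci69_fkg_Pr (hc : Rci69Ctr Y π) {t : ℝ} (h0 : 0 < t) (h1 : t ≤ 1) (hF : Rci69Dual hc) {KS : Finset (ℤ × ℤ) → Prop}
    (k1 : ∀ S, KS S → ∀ v ∈ Y.V, (π v ∈ S ↔ v ∈ S)) (k2 : ∀ S S', KS S → KS S' → KS (S ∩ S') ∧ KS (S ∪ S'))
    (hf : Y.Feas t (fun ω => KS ω.S))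
    {A A' : RswCfg → Prop} (hA : ∀ ω ω', Y.Le ω ω' → A ω → A ω') (hA' : ∀ ω ω', Y.Le ω ω' → A' ω → A' ω') :
    Y.Pr t (fun ω => KS ω.S) A * Y.Pr t (fun ω => KS ω.S) A' ≤ Y.Pr t (fun ω => KS ω.S) (fun ω => A ω ∧ A' ω) := by
  classical
  have ind : ∀ B : RswCfg → Prop, (∀ ω ω', Y.Le ω ω' → B ω → B ω') → Rci69Inc Y (fun ω => if B ω then (1 : ℝ) else 0) := by
    intro B hB ω ω' h
    show (if B ω then (1 : ℝ) else 0) ≤ (if B ω' then (1 : ℝ) else 0)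
    by_cases hb : B ω
    · rw [if_pos hb, if_pos (hB ω ω' h hb)]
    · rw [if_neg hb]
      split_ifs
      · exact zero_le_one
      · exact le_rfl
  have key := rci69_fkg_sum hc h0 h1 hF k1 k2 (ind A hA) (ind A' hA')
  have hZ := rcy162_Z_pos Y (fun ω => KS ω.S) h0.le h1 hf
  have e : (fun ω => (if A ω then (1 : ℝ) else 0) * (if A' ω then (1 : ℝ) else 0)) =
      fun ω => @ite ℝ (A ω ∧ A' ω) (Classical.propDecidable _) 1 0 := by
    funext ω
    by_cases a : A ω <;> by_cases a' : A' ω <;> simp [a, a']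
  rw [e] at key
  rw [rcy162_P_def, rcy162_P_def, rcy162_P_def]
  unfold Rcy162Sys.Ex
  rw [div_mul_div_comm, div_le_div_iff₀ (mul_pos hZ hZ) hZ]
  refine (mul_le_mul_of_nonneg_right key hZ.le).trans (le_of_eq ?_)
  ring

/-- the hat form of planar exactness gives eq. (3.5) -/
theorem rci69_dual_of_hat (hc : Rci69Ctr Y π)
    (HP : ∀ (d ρ : ℤ × ℤ → ZMod 2), ∑ e ∈ Y.E, (d (Y.f0 e) + d (Y.f1 e)) * (ρ (π (Y.p0 e)) + ρ (π (Y.p1 e))) = 0)
    (HX : ∀ y : (ℤ × ℤ) × Bool → ZMod 2, (∀ ρ : ℤ × ℤ → ZMod 2, ∑ e ∈ Y.E, y e * (ρ (π (Y.p0 e)) + ρ (π (Y.p1 e))) = 0) →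
      ∃ d : ℤ × ℤ → ZMod 2, ∀ e ∈ Y.E, y e = d (Y.f0 e) + d (Y.f1 e)) : Rci69Dual hc := by
  classical
  intro W
  refine mdl141e_duality_bool (rci69Ep0 hc) (rci69Ep1 hc) (rci69Ef0 hc) (rci69Ef1 hc) ?_ ?_ W
  · intro d ρ
    have := HP (fun f => if h : f ∈ Y.Fc then d ⟨f, h⟩ else 0) (fun v => if h : v ∈ Y.V then ρ ⟨v, h⟩ else 0)
    rw [← Finset.sum_coe_sort] at this
    rw [← this]
    refine Finset.sum_congr rfl fun i _ => ?_
    unfold mdl141e_d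
    rw [dif_pos (hc.wf.f0 _ i.2), dif_pos (hc.wf.f1 _ i.2), dif_pos (hc.pi _ (hc.wf.p0 _ i.2)), dif_pos (hc.pi _ (hc.wf.p1 _ i.2))]
    rfl
  · intro y hy
    obtain ⟨d, hd⟩ := HX (fun e => if h : e ∈ Y.E then y ⟨e, h⟩ else 0) (by
      intro ρ
      have := hy (fun v => ρ v.1)
      rw [← Finset.sum_coe_sort]
      rw [← this]
      refine Finset.sum_congr rfl fun i _ => ?_
      unfold mdl141e_d
      rw [dif_pos i.2]
      rfl)
    refine ⟨fun f => d f.1, fun i => ?_⟩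
    have := hd i.1 i.2
    rw [dif_pos i.2] at this
    exact this

end Abs

/-! ## 2. exactness on the cylinder with the two boundary rows contracted -/

/-- contraction of the two boundary rows to the representatives `(0, a)`, `(0, b)` -/
def rci69Pi (a b : ℤ) (v : ℤ × ℤ) : ℤ × ℤ := if v.2 = a then (0, a) else if v.2 = b then (0, b) else v

/-- cyclic reindexing -/
theorem rci69_sum_cyc {M : Type*} [AddCommMonoid M] {L : ℕ} (hL : 0 < L) (c : ℤ) (g : ℤ → M) :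
    ∑ x ∈ Finset.Ico (0 : ℤ) L, g ((x + c) % L) = ∑ x ∈ Finset.Ico (0 : ℤ) L, g x := by
  have hL' : (0 : ℤ) < L := by exact_mod_cast hL
  refine Finset.sum_nbij' (fun x => (x + c) % L) (fun x => (x - c) % L) ?_ ?_ ?_ ?_ (fun _ _ => rfl)
  · intro x _
    exact Finset.mem_Ico.2 ⟨Int.emod_nonneg _ hL'.ne', Int.emod_lt_of_pos _ hL'⟩
  · intro x _
    exact Finset.mem_Ico.2 ⟨Int.emod_nonneg _ hL'.ne', Int.emod_lt_of_pos _ hL'⟩
  · intro x hx
    obtain ⟨h1, h2⟩ := Finset.mem_Ico.1 hx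
    show ((x + c) % L - c) % L = x
    rw [Int.emod_sub_emod, add_sub_cancel_right, Int.emod_eq_of_lt h1 h2]
  · intro x hx
    obtain ⟨h1, h2⟩ := Finset.mem_Ico.1 hx
    show ((x - c) % L + c) % L = x
    rw [Int.emod_add_emod, sub_add_cancel, Int.emod_eq_of_lt h1 h2]

/-- the sum over the edge pairs of a cylinder -/
theorem rci69_sum_E {M : Type*} [AddCommMonoid M] (L : ℕ) (a b : ℤ) (G : (ℤ × ℤ) × Bool → M) :
    ∑ e ∈ (rcy162Cyl L a b).E, G e = ∑ x ∈ Finset.Ico (0 : ℤ) L, ∑ j ∈ Finset.Ioo a b, G ((x, j), false)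
      + ∑ x ∈ Finset.Ico (0 : ℤ) L, ∑ j ∈ Finset.Ico a b, G ((x, j), true) := by
  show ∑ e ∈ rcy162CylE L a b, G e = _
  unfold rcy162CylE
  rw [Finset.sum_union]
  · simp only [Finset.sum_product, Finset.sum_singleton]
  · rw [Finset.disjoint_left]
    intro e h1 h2
    simp only [Finset.mem_product, Finset.mem_singleton] at h1 h2
    rw [h1.2] at h2
    exact Bool.false_ne_true h2.2

theorem rci69_sum_Ico_left {M : Type*} [AddCommMonoid M] {a b : ℤ} (hab : a < b) (g : ℤ → M) :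
    ∑ j ∈ Finset.Ico a b, g j = g a + ∑ j ∈ Finset.Ioo a b, g j := by
  rw [← Finset.Ioo_insert_left hab, Finset.sum_insert Finset.left_notMem_Ioo]

theorem rci69_sum_Ico_shift {M : Type*} [AddCommMonoid M] {a b : ℤ} (hab : a < b) (g : ℤ → M) :
    ∑ j ∈ Finset.Ico a b, g (j + 1) = ∑ j ∈ Finset.Ioo a b, g j + g b := by
  have e : ∑ j ∈ Finset.Ico a b, g (j + 1) = ∑ j ∈ Finset.Ioc a b, g j := by
    refine Finset.sum_nbij' (fun j => j + 1) (fun j => j - 1) ?_ ?_ ?_ ?_ (fun _ _ => rfl)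
    · intro j hj
      rw [Finset.mem_Ico] at hj
      rw [Finset.mem_Ioc]
      omega
    · intro j hj
      rw [Finset.mem_Ioc] at hj
      rw [Finset.mem_Ico]
      omega
    · intro j _
      show j + 1 - 1 = j
      omega
    · intro j _
      show j - 1 + 1 = j
      omega
  rw [e, ← Finset.Ioo_insert_right hab, Finset.sum_insert Finset.right_notMem_Ioo, add_comm]

theorem rci69_sum_Ioc_succ {M : Type*} [AddCommMonoid M] {a j : ℤ} (haj : a ≤ j) (g : ℤ → M) :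
    ∑ l ∈ Finset.Ioc a (j + 1), g l = ∑ l ∈ Finset.Ioc a j, g l + g (j + 1) := by
  have e : Finset.Ioc a (j + 1) = insert (j + 1) (Finset.Ioc a j) := by
    ext l
    simp only [Finset.mem_Ioc, Finset.mem_insert]
    omega
  rw [e, Finset.sum_insert (by simp), add_comm]

/-- **summation by parts on the cylinder** -/
theorem rci69_sbp {L : ℕ} (hL : 0 < L) {a b : ℤ} (hab : a < b) (Yh Yv R : ℤ → ℤ → ZMod 2) :
    ∑ x ∈ Finset.Ico (0 : ℤ) L, ∑ j ∈ Finset.Ioo a b, Yh x j * (R x j + R ((x + 1) % L) j)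
      + ∑ x ∈ Finset.Ico (0 : ℤ) L, ∑ j ∈ Finset.Ico a b, Yv x j * (R x j + R x (j + 1))
    = ∑ x ∈ Finset.Ico (0 : ℤ) L, ∑ j ∈ Finset.Ioo a b, (Yh x j + Yh ((x - 1) % L) j + Yv x j + Yv x (j - 1)) * R x j
      + ∑ x ∈ Finset.Ico (0 : ℤ) L, Yv x a * R x a + ∑ x ∈ Finset.Ico (0 : ℤ) L, Yv x (b - 1) * R x b := by
  have i1 : ∑ x ∈ Finset.Ico (0 : ℤ) L, ∑ j ∈ Finset.Ioo a b, Yh x j * R ((x + 1) % L) j
      = ∑ x ∈ Finset.Ico (0 : ℤ) L, ∑ j ∈ Finset.Ioo a b, Yh ((x - 1) % L) j * R x j := by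
    rw [← rci69_sum_cyc hL (-1) (fun x => ∑ j ∈ Finset.Ioo a b, Yh x j * R ((x + 1) % L) j)]
    refine Finset.sum_congr rfl fun x hx => ?_
    obtain ⟨h1, h2⟩ := Finset.mem_Ico.1 hx
    have e : ((x + -1) % L + 1) % L = x := by
      rw [Int.emod_add_emod, neg_add_cancel_right, Int.emod_eq_of_lt h1 h2]
    simp only [e]
    rfl
  have i2 : ∀ x, ∑ j ∈ Finset.Ico a b, Yv x j * R x j = Yv x a * R x a + ∑ j ∈ Finset.Ioo a b, Yv x j * R x j :=
    fun x => rci69_sum_Ico_left hab _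
  have i3 : ∀ x, ∑ j ∈ Finset.Ico a b, Yv x j * R x (j + 1) = ∑ j ∈ Finset.Ioo a b, Yv x (j - 1) * R x j + Yv x (b - 1) * R x b := by
    intro x
    have := rci69_sum_Ico_shift hab (fun j => Yv x (j - 1) * R x j)
    simp only [add_sub_cancel_right] at this
    exact this
  simp only [mul_add, add_mul, Finset.sum_add_distrib, i1, i2, i3]
  ring

theorem rci69_pi_a (a b x : ℤ) : rci69Pi a b (x, a) = (0, a) := by
  unfold rci69Pi
  rw [if_pos rfl]

theorem rci69_pi_b {a b : ℤ} (hab : a < b) (x : ℤ) : rci69Pi a b (x, b) = (0, b) := by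
  unfold rci69Pi
  rw [if_neg (show ¬ (x, b).2 = a from ne_of_gt hab), if_pos rfl]

theorem rci69_pi_in {a b j : ℤ} (h1 : j ≠ a) (h2 : j ≠ b) (x : ℤ) : rci69Pi a b (x, j) = (x, j) := by
  unfold rci69Pi
  rw [if_neg (show ¬ (x, j).2 = a from h1), if_neg (show ¬ (x, j).2 = b from h2)]

theorem rci69_two : (2 : ZMod 2) = 0 := rfl

/-- the pairing of a 1-cochain with the coboundary of `ρ`, in coordinates -/
theorem rci69_pairing (L : ℕ) (a b : ℤ) (y : (ℤ × ℤ) × Bool → ZMod 2) (ρ : ℤ × ℤ → ZMod 2) :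
    ∑ e ∈ (rcy162Cyl L a b).E, y e * (ρ (rci69Pi a b ((rcy162Cyl L a b).p0 e)) + ρ (rci69Pi a b ((rcy162Cyl L a b).p1 e)))
    = ∑ x ∈ Finset.Ico (0 : ℤ) L, ∑ j ∈ Finset.Ioo a b, y ((x, j), false) * (ρ (rci69Pi a b (x, j)) + ρ (rci69Pi a b ((x + 1) % L, j)))
      + ∑ x ∈ Finset.Ico (0 : ℤ) L, ∑ j ∈ Finset.Ico a b, y ((x, j), true) * (ρ (rci69Pi a b (x, j)) + ρ (rci69Pi a b (x, j + 1))) := by
  rw [rci69_sum_E]
  congr 1
  refine Finset.sum_congr rfl fun x hx => Finset.sum_congr rfl fun j _ => ?_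
  obtain ⟨h1, h2⟩ := Finset.mem_Ico.1 hx
  show y ((x, j), true) * (ρ (rci69Pi a b (x, j)) + ρ (rci69Pi a b (x % L, j + 1))) = _
  rw [Int.emod_eq_of_lt h1 h2]

/-- the pairing after summation by parts -/
theorem rci69_pairing' {L : ℕ} (hL : 0 < L) {a b : ℤ} (hab : a < b) (y : (ℤ × ℤ) × Bool → ZMod 2) (ρ : ℤ × ℤ → ZMod 2) :
    ∑ e ∈ (rcy162Cyl L a b).E, y e * (ρ (rci69Pi a b ((rcy162Cyl L a b).p0 e)) + ρ (rci69Pi a b ((rcy162Cyl L a b).p1 e)))
    = ∑ x ∈ Finset.Ico (0 : ℤ) L, ∑ j ∈ Finset.Ioo a b,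
        (y ((x, j), false) + y (((x - 1) % L, j), false) + y ((x, j), true) + y ((x, j - 1), true)) * ρ (x, j)
      + (∑ x ∈ Finset.Ico (0 : ℤ) L, y ((x, a), true)) * ρ (0, a) + (∑ x ∈ Finset.Ico (0 : ℤ) L, y ((x, b - 1), true)) * ρ (0, b) := by
  rw [rci69_pairing, rci69_sbp hL hab (fun x j => y ((x, j), false)) (fun x j => y ((x, j), true)) (fun x j => ρ (rci69Pi a b (x, j)))]
  simp only [rci69_pi_a, rci69_pi_b hab, Finset.sum_mul]
  congr 2
  refine Finset.sum_congr rfl fun x _ => Finset.sum_congr rfl fun j hj => ?_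
  obtain ⟨h1, h2⟩ := Finset.mem_Ioo.1 hj
  rw [rci69_pi_in (ne_of_gt h1) (ne_of_lt h2)]

/-- **(HP)** coboundaries of face colourings are orthogonal to coboundaries of vertex colourings -/
theorem rci69_cyl_HP {L : ℕ} (hL : 0 < L) {a b : ℤ} (hab : a < b) (d ρ : ℤ × ℤ → ZMod 2) :
    ∑ e ∈ (rcy162Cyl L a b).E, (d ((rcy162Cyl L a b).f0 e) + d ((rcy162Cyl L a b).f1 e))
      * (ρ (rci69Pi a b ((rcy162Cyl L a b).p0 e)) + ρ (rci69Pi a b ((rcy162Cyl L a b).p1 e))) = 0 := by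
  have hL' : (0 : ℤ) < L := by exact_mod_cast hL
  rw [rci69_pairing' hL hab (fun e => d ((rcy162Cyl L a b).f0 e) + d ((rcy162Cyl L a b).f1 e)) ρ]
  have f0 : ∀ e, (rcy162Cyl L a b).f0 e = e.1 := fun _ => rfl
  have f1f : ∀ x j : ℤ, (rcy162Cyl L a b).f1 ((x, j), false) = (x % L, j - 1) := fun _ _ => rfl
  have f1t : ∀ x j : ℤ, (rcy162Cyl L a b).f1 ((x, j), true) = ((x - 1) % L, j) := fun _ _ => rfl
  simp only [f0, f1f, f1t]
  have cyc : ∀ j : ℤ, ∑ x ∈ Finset.Ico (0 : ℤ) L, (d (x, j) + d ((x - 1) % L, j)) = 0 := by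
    intro j
    have := rci69_sum_cyc hL (-1) (fun x => d (x, j))
    rw [Finset.sum_add_distrib]
    simp only [sub_eq_add_neg]
    rw [this]
    exact CharTwo.add_self_eq_zero _
  rw [cyc a, cyc (b - 1), zero_mul, zero_mul, add_zero, add_zero]
  refine Finset.sum_eq_zero fun x hx => Finset.sum_eq_zero fun j _ => ?_
  obtain ⟨h1, h2⟩ := Finset.mem_Ico.1 hx
  rw [Int.emod_eq_of_lt h1 h2, Int.emod_emod_of_dvd _ (dvd_refl _)]
  linear_combination (d (x, j) + d (x, j - 1) + d ((x - 1) % L, j) + d ((x - 1) % L, j - 1)) * ρ (x, j) * rci69_two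

/-- **(HX)** every 1-cochain orthogonal to the coboundaries of the (contracted) vertex colourings is the coboundary of a face colouring -/
theorem rci69_cyl_HX {L : ℕ} (hL : 0 < L) {a b : ℤ} (hab : a < b) (y : (ℤ × ℤ) × Bool → ZMod 2)
    (hy : ∀ ρ : ℤ × ℤ → ZMod 2, ∑ e ∈ (rcy162Cyl L a b).E,
      y e * (ρ (rci69Pi a b ((rcy162Cyl L a b).p0 e)) + ρ (rci69Pi a b ((rcy162Cyl L a b).p1 e))) = 0) :
    ∃ d : ℤ × ℤ → ZMod 2, ∀ e ∈ (rcy162Cyl L a b).E, y e = d ((rcy162Cyl L a b).f0 e) + d ((rcy162Cyl L a b).f1 e) := by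
  classical
  have hL' : (0 : ℤ) < L := by exact_mod_cast hL
  have VR : ∀ x0 j0 : ℤ, 0 ≤ x0 → x0 < L → a < j0 → j0 < b →
      y ((x0, j0), false) + y (((x0 - 1) % L, j0), false) + y ((x0, j0), true) + y ((x0, j0 - 1), true) = 0 := by
    intro x0 j0 h1 h2 h3 h4
    have h0 := hy (fun v => if v = (x0, j0) then 1 else 0)
    have := (rci69_pairing' hL hab y (fun v => if v = (x0, j0) then 1 else 0)).symm.trans h0
    beta_reduce at this
    have e1 : ((0 : ℤ), a) ≠ (x0, j0) := by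
      intro h
      have := congrArg Prod.snd h
      simp only at this
      omega
    have e2 : ((0 : ℤ), b) ≠ (x0, j0) := by
      intro h
      have := congrArg Prod.snd h
      simp only at this
      omega
    simp only [if_neg e1, if_neg e2, mul_zero, add_zero] at this
    rw [Finset.sum_eq_single x0, Finset.sum_eq_single j0] at this
    · simpa using this
    · intro j _ hj
      rw [if_neg (by simp [hj]), mul_zero]
    · intro hj
      exact absurd (Finset.mem_Ioo.2 ⟨h3, h4⟩) hj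
    · intro x _ hx
      refine Finset.sum_eq_zero fun j _ => ?_
      rw [if_neg (by simp [hx]), mul_zero]
    · intro hx
      exact absurd (Finset.mem_Ico.2 ⟨h1, h2⟩) hx
  have BR : ∑ x ∈ Finset.Ico (0 : ℤ) L, y ((x, a), true) = 0 := by
    have h0 := hy (fun v => if v = (0, a) then 1 else 0)
    have := (rci69_pairing' hL hab y (fun v => if v = (0, a) then 1 else 0)).symm.trans h0
    beta_reduce at this
    have e2 : ((0 : ℤ), b) ≠ (0, a) := by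
      intro h
      have := congrArg Prod.snd h
      simp only at this
      omega
    rw [if_pos rfl, if_neg e2, mul_one, mul_zero, add_zero, Finset.sum_eq_zero, zero_add] at this
    · exact this
    · intro x _
      refine Finset.sum_eq_zero fun j hj => ?_
      have hj' := (Finset.mem_Ioo.1 hj).1
      rw [if_neg (by
        intro h
        have := congrArg Prod.snd h
        simp only at this
        omega), mul_zero]
  let c : ℤ → ZMod 2 := fun x => ∑ k ∈ Finset.Ioc 0 x, y ((k, a), true)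
  let d : ℤ × ℤ → ZMod 2 := fun f => c f.1 + ∑ l ∈ Finset.Ioc a f.2, y ((f.1, l), false)
  have dstep : ∀ x j : ℤ, a ≤ j → d (x, j + 1) = d (x, j) + y ((x, j + 1), false) := by
    intro x j hj
    show c x + ∑ l ∈ Finset.Ioc a (j + 1), y ((x, l), false) = c x + ∑ l ∈ Finset.Ioc a j, y ((x, l), false) + y ((x, j + 1), false)
    rw [rci69_sum_Ioc_succ hj, add_assoc]
  have base : ∀ x : ℤ, 0 ≤ x → x < L → d (x, a) + d ((x - 1) % L, a) = y ((x, a), true) := by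
    intro x h1 h2
    have da : ∀ x' : ℤ, d (x', a) = c x' := by
      intro x'
      show c x' + ∑ l ∈ Finset.Ioc a a, y ((x', l), false) = c x'
      rw [Finset.Ioc_self, Finset.sum_empty, add_zero]
    rw [da, da]
    rcases eq_or_lt_of_le h1 with h | h
    · subst h
      have e : ((0 : ℤ) - 1) % L = L - 1 := by
        rw [← Int.add_emod_right, Int.emod_eq_of_lt (by omega) (by omega)]
        ring
      rw [e]
      have c0 : c 0 = 0 := by
        show ∑ k ∈ Finset.Ioc (0 : ℤ) 0, y ((k, a), true) = 0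
        rw [Finset.Ioc_self, Finset.sum_empty]
      have cL : y ((0, a), true) + c (L - 1) = 0 := by
        rw [rci69_sum_Ico_left hL'] at BR
        have e3 : Finset.Ioo (0 : ℤ) L = Finset.Ioc 0 ((L : ℤ) - 1) := by
          ext k
          simp only [Finset.mem_Ioo, Finset.mem_Ioc]
          omega
        rw [e3] at BR
        exact BR
      rw [c0]
      linear_combination cL - y ((0, a), true) * rci69_two
    · have e : (x - 1) % L = x - 1 := Int.emod_eq_of_lt (by omega) (by omega)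
      rw [e]
      have cx : c x = c (x - 1) + y ((x, a), true) := by
        have := rci69_sum_Ioc_succ (a := 0) (j := x - 1) (by omega) (fun k => y ((k, a), true))
        rw [sub_add_cancel] at this
        exact this
      rw [cx]
      linear_combination c (x - 1) * rci69_two
  have vert : ∀ j : ℤ, a ≤ j → j < b → ∀ x : ℤ, 0 ≤ x → x < L → d (x, j) + d ((x - 1) % L, j) = y ((x, j), true) := by
    intro j hj
    induction j, hj using Int.le_induction with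
    | base =>
      intro _ x h1 h2
      exact base x h1 h2
    | succ j hj ih =>
      intro hjb x h1 h2
      have ih' := ih (by omega) x h1 h2
      rw [dstep x j hj, dstep _ j hj]
      have vr := VR x (j + 1) h1 h2 (by omega) hjb
      rw [add_sub_cancel_right] at vr
      linear_combination ih' + vr - y ((x, j + 1), true) * rci69_two
  refine ⟨d, fun e he => ?_⟩
  obtain ⟨⟨x, j⟩, bb⟩ := e
  obtain ⟨⟨h1, h2⟩, h3⟩ := rcy162_mem_cylE.1 he
  simp only at h1 h2 h3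
  rcases h3 with ⟨hb, h3, h4⟩ | ⟨hb, h3, h4⟩
  · subst hb
    show y ((x, j), false) = d (x, j) + d (x % L, j - 1)
    rw [Int.emod_eq_of_lt h1 h2]
    have := dstep x (j - 1) (by omega)
    rw [sub_add_cancel] at this
    rw [this]
    linear_combination (- d (x, j - 1)) * rci69_two
  · subst hb
    exact (vert j h3 h4 x h1 h2).symm

theorem rci69_cyl_ctr {L : ℕ} (hL : 0 < L) {a b : ℤ} (hab : a < b) : Rci69Ctr (rcy162Cyl L a b) (rci69Pi a b) := by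
  have hL' : (0 : ℤ) < L := by exact_mod_cast hL
  refine ⟨rcy162_cyl_wf hL a b, fun v hv => ?_⟩
  unfold rci69Pi
  split_ifs
  · exact rcy162_mem_cylV.2 ⟨⟨le_rfl, hL'⟩, le_rfl, hab.le⟩
  · exact rcy162_mem_cylV.2 ⟨⟨le_rfl, hL'⟩, hab.le, le_rfl⟩
  · exact hv

/-- **eq. (3.5) on the cylinder** -/
theorem rci69_cyl_dual {L : ℕ} (hL : 0 < L) {a b : ℤ} (hab : a < b) : Rci69Dual (rci69_cyl_ctr hL hab) :=
  rci69_dual_of_hat _ (rci69_cyl_HP hL hab) (rci69_cyl_HX hL hab)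

/-! ## 3. association for the mixed law -/

/-- the mixed boundary condition as a condition on the plus set -/
def Rci69MixS (L : ℕ) (a b : ℤ) (S : Finset (ℤ × ℤ)) : Prop := (∀ v ∈ rcy162Row L a, v ∉ S) ∧ rcy162Row L b ⊆ S

theorem rci69_mix_eq (L : ℕ) (a b : ℤ) : Rcy162Mix L a b = fun ω => Rci69MixS L a b ω.S := rfl

theorem rci69_mix_k1 {L : ℕ} (hL : 0 < L) {a b : ℤ} (hab : a < b) (S : Finset (ℤ × ℤ)) (hS : Rci69MixS L a b S) (v : ℤ × ℤ)
    (hv : v ∈ (rcy162Cyl L a b).V) : rci69Pi a b v ∈ S ↔ v ∈ S := by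
  have hL' : (0 : ℤ) < L := by exact_mod_cast hL
  obtain ⟨h1, h2⟩ := rcy162_mem_cylV.1 hv
  unfold rci69Pi
  split_ifs with ha hb
  · have e1 : ((0 : ℤ), a) ∉ S := hS.1 _ (rcy162_mem_row.2 ⟨⟨le_rfl, hL'⟩, rfl⟩)
    have e2 : v ∉ S := hS.1 _ (rcy162_mem_row.2 ⟨h1, ha⟩)
    exact ⟨fun h => absurd h e1, fun h => absurd h e2⟩
  · have e1 : ((0 : ℤ), b) ∈ S := hS.2 (rcy162_mem_row.2 ⟨⟨le_rfl, hL'⟩, rfl⟩)
    have e2 : v ∈ S := hS.2 (rcy162_mem_row.2 ⟨h1, hb⟩)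
    exact ⟨fun _ => e2, fun _ => e1⟩
  · exact Iff.rfl

theorem rci69_mix_k2 (L : ℕ) (a b : ℤ) (S S' : Finset (ℤ × ℤ)) (h : Rci69MixS L a b S) (h' : Rci69MixS L a b S') :
    Rci69MixS L a b (S ∩ S') ∧ Rci69MixS L a b (S ∪ S') := by
  refine ⟨⟨fun v hv hh => h.1 v hv (Finset.mem_inter.1 hh).1, fun v hv => Finset.mem_inter.2 ⟨h.2 hv, h'.2 hv⟩⟩,
    ⟨fun v hv hh => ?_, fun v hv => Finset.mem_union_left _ (h.2 hv)⟩⟩
  rcases Finset.mem_union.1 hh with hh | hh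
  · exact h.1 v hv hh
  · exact h'.1 v hv hh

/-- **T1 for the mixed law on a cylinder** -/
theorem rci69_cyl_fkg {t : ℝ} (h0 : 0 < t) (h1 : t ≤ 1) {L : ℕ} (hL : 0 < L) {a b : ℤ} (hab : a < b) {A A' : RswCfg → Prop}
    (hA : ∀ ω ω', (rcy162Cyl L a b).Le ω ω' → A ω → A ω') (hA' : ∀ ω ω', (rcy162Cyl L a b).Le ω ω' → A' ω → A' ω') :
    (rcy162Cyl L a b).Pr t (Rcy162Mix L a b) A * (rcy162Cyl L a b).Pr t (Rcy162Mix L a b) A'
      ≤ (rcy162Cyl L a b).Pr t (Rcy162Mix L a b) (fun ω => A ω ∧ A' ω) := by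
  rw [rci69_mix_eq]
  exact rci69_fkg_Pr (rci69_cyl_ctr hL hab) h0 h1 (rci69_cyl_dual hL hab) (rci69_mix_k1 hL hab) (rci69_mix_k2 L a b)
    (by rw [← rci69_mix_eq]; exact rcy162_mix_feas h0 L hab) hA hA'

/-- **field `fkg` of `Rct127Law`** (no support condition) -/
theorem rci69_Q_fkg {t : ℝ} (h0 : 0 < t) (h1 : t ≤ 1) {L H : ℕ} (hL : 0 < L) (hH : 0 < H) {E E' : Set CyF} (hE : CyInc E) (hE' : CyInc E') :
    rcy162Q t L H E * rcy162Q t L H E' ≤ rcy162Q t L H (E ∩ E') := by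
  have hH' : (0 : ℤ) < H := by exact_mod_cast hH
  exact rci69_cyl_fkg h0 h1 hL hH' (fun ω ω' h hω => hE _ _ (rcy162_fld_mono L h) hω) (fun ω ω' h hω => hE' _ _ (rcy162_fld_mono L h) hω)

/-! ## 4. the record -/

/-- **the law record of 127 on the cylinder of 162**: the soft fields are proved, the three hard fields are hypotheses -/
theorem rci69_law {t : ℝ} (h0 : 0 < t) (h1 : t ≤ 1) {L H : ℕ} (hL : 0 < L) (hH : 0 < H)
    (slide : ∀ (c d s : ℤ) (E : Set CyF), CyInc E → CySup c d E → 3 ≤ c → 3 ≤ s → Even s → d + s ≤ ((2 * H : ℕ) : ℤ) - 4 →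
      rcy162Q t L H E ≤ rcy162Q t L H (cyMv (0, s) E))
    (sym : ∀ (k m κ : ℤ), 1 ≤ m → Even m → 3 ≤ k → k + m + 3 ≤ κ → κ + m - 1 ≤ ((2 * H : ℕ) : ℤ) - 4 → ((2 * H : ℕ) : ℤ) + k + m + 7 ≤ 2 * κ →
      1 ≤ rcy162Q t L H (cyVP 1 k (k + m - 1)) + rcy162Q t L H (cyVP (-1) k (k + m - 1))
        + 4 * (rcy162Q t L H (cyVP 1 κ (κ + m - 1)) + rcy162Q t L H (cyBlk 1 κ (κ + m - 1))))
    (recov : ∀ (c d κ m : ℤ), 3 ≤ c → c ≤ d → d + 3 ≤ κ → 1 ≤ m → Even m → κ + m - 1 ≤ ((2 * H : ℕ) : ℤ) - 4 →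
      rcy162Q t L H (cyBlk 1 c d) ≤ 2 * (rcy162Q t L H (cyVP 1 κ (κ + m - 1)) + rcy162Q t L H (cyBlk 1 κ (κ + m - 1)))) :
    Rct127Law (2 * L) (2 * H) (fun _ _ => rcy162Q t L H) where
  nonneg := fun _ _ E => rcy162_Q_nonneg h0.le h1 L H E
  one := fun _ _ => rcy162_Q_univ h0 h1 L hH
  zero := fun _ _ => rcy162_Q_empty t L H
  mono := fun _ _ E E' h => rcy162_Q_mono h0.le h1 L H h
  union := fun _ _ E E' => rcy162_Q_union h0.le h1 L H E E'
  fkg := fun _ _ E E' hE hE' _ _ => rci69_Q_fkg h0 h1 hL hH hE hE'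
  shift := fun _ _ a E ha => rcy162_Q_shift' t hL H ha E
  slide := fun _ _ _ c d s E => slide c d s E
  refl := ⟨2 * (H : ℤ), by push_cast; omega, by push_cast; omega, fun _ _ c d => ⟨rcy162_Q_refl_VP t hL H c d, rcy162_Q_refl_Blk t hL H c d⟩⟩
  sym := fun _ k m κ => sym k m κ
  recov := fun _ _ c d κ m => recov c d κ m

/-- the equation lemmas of the definitions of this file are generated HERE (RULES.md, rule 6) -/
theorem rci69_eqns_cite : True := by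
  have := @rci69Ep0.eq_1
  have := @rci69Ep1.eq_1
  have := @rci69Ef0.eq_1
  have := @rci69Ef1.eq_1
  have := @rci69S.eq_1
  have := @rci69S0.eq_1
  have := @rci69O.eq_1
  have := @rci69Cnt.eq_1
  have := @rci69CB.eq_1
  have := @Rci69Dual.eq_1
  have := @rci69Phi.eq_1
  have := @rci69K.eq_1
  have := @Rci69Inc.eq_1
  have := @rci69Pi.eq_1
  have := @Rci69MixS.eq_1
  trivial

/-! ## 5. field forms on every cylinder `rcy162Cyl L a b` (input (iii') of the plan of 162 for `slide`) -/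

/-- the law of the field under the mixed law on `rcy162Cyl L a b` -/
noncomputable def rci69QM (t : ℝ) (L : ℕ) (a b : ℤ) (E : Set CyF) : ℝ :=
  (rcy162Cyl L a b).Pr t (Rcy162Mix L a b) (fun ω => rcy162Fld L (rcy162Cyl L a b) ω ∈ E)

theorem rci69_QM_Q (t : ℝ) (L H : ℕ) (E : Set CyF) : rci69QM t L 0 H E = rcy162Q t L H E := rfl

theorem rci69_QM_nonneg {t : ℝ} (h0 : 0 ≤ t) (h1 : t ≤ 1) (L : ℕ) (a b : ℤ) (E : Set CyF) : 0 ≤ rci69QM t L a b E :=
  rcy162_P_nonneg _ _ h0 h1 _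

theorem rci69_QM_compl {t : ℝ} (h0 : 0 < t) (h1 : t ≤ 1) (L : ℕ) {a b : ℤ} (hab : a < b) (E : Set CyF) :
    rci69QM t L a b Eᶜ = 1 - rci69QM t L a b E :=
  rcy162_P_compl _ _ h0.le h1 (rcy162_mix_feas h0 L hab) _

/-- additivity -/
theorem rci69_QM_split {t : ℝ} (h0 : 0 < t) (h1 : t ≤ 1) (L : ℕ) {a b : ℤ} (hab : a < b) (E E' : Set CyF) :
    rci69QM t L a b E = rci69QM t L a b (E ∩ E') + rci69QM t L a b (E ∩ E'ᶜ) := by
  classical
  unfold rci69QM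
  rw [rcy162_P_def, rcy162_P_def, rcy162_P_def, ← rcy162_E_add]
  congr 1
  funext ω
  by_cases h : rcy162Fld L (rcy162Cyl L a b) ω ∈ E <;> by_cases h' : rcy162Fld L (rcy162Cyl L a b) ω ∈ E' <;> simp [h, h']

/-- **FKG, two increasing events of the field, any support** -/
theorem rci69_QM_fkg {t : ℝ} (h0 : 0 < t) (h1 : t ≤ 1) {L : ℕ} (hL : 0 < L) {a b : ℤ} (hab : a < b) {E E' : Set CyF} (hE : CyInc E) (hE' : CyInc E') :
    rci69QM t L a b E * rci69QM t L a b E' ≤ rci69QM t L a b (E ∩ E') :=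
  rci69_cyl_fkg h0 h1 hL hab (fun ω ω' h hω => hE _ _ (rcy162_fld_mono L h) hω) (fun ω ω' h hω => hE' _ _ (rcy162_fld_mono L h) hω)

/-- **FKG, an increasing and a decreasing event** -/
theorem rci69_QM_fkg_dec {t : ℝ} (h0 : 0 < t) (h1 : t ≤ 1) {L : ℕ} (hL : 0 < L) {a b : ℤ} (hab : a < b) {E E' : Set CyF} (hE : CyInc E) (hE' : CyInc E'ᶜ) :
    rci69QM t L a b (E ∩ E') ≤ rci69QM t L a b E * rci69QM t L a b E' := by
  have f := rci69_QM_fkg h0 h1 hL hab hE hE'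
  have s := rci69_QM_split h0 h1 L hab E E'
  have c := rci69_QM_compl h0 h1 L hab E'
  rw [c] at f
  nlinarith [f, s]

/-- **FKG, two decreasing events** -/
theorem rci69_QM_fkg_dd {t : ℝ} (h0 : 0 < t) (h1 : t ≤ 1) {L : ℕ} (hL : 0 < L) {a b : ℤ} (hab : a < b) {E E' : Set CyF} (hE : CyInc Eᶜ) (hE' : CyInc E'ᶜ) :
    rci69QM t L a b E * rci69QM t L a b E' ≤ rci69QM t L a b (E ∩ E') := by
  have f := rci69_QM_fkg_dec h0 h1 hL hab (E := E'ᶜ) (E' := E) hE' hE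
  have s := rci69_QM_split h0 h1 L hab E E'
  have c := rci69_QM_compl h0 h1 L hab E'
  rw [c, Set.inter_comm] at f
  nlinarith [f, s]

theorem rci69_eqns_cite2 : True := by
  have := @rci69QM.eq_1
  trivial

/-! ## 6. order (T2) on an abstract system: raising the pins raises the law -/

section Abs2

variable {Y : Rcy162Sys} {π : ℤ × ℤ → ℤ × ℤ}

theorem rci69_Phi_holley2 {KS₁ KS₂ : Finset (ℤ × ℤ) → Prop} (k12 : ∀ S S', KS₁ S → KS₂ S' → KS₁ (S ∩ S') ∧ KS₂ (S ∪ S')) (s s' : ↥Y.V → Bool) :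
    rci69Phi Y KS₁ s * rci69Phi Y KS₂ s' ≤ rci69Phi Y KS₁ (s ⊓ s') * rci69Phi Y KS₂ (s ⊔ s') := by
  unfold rci69Phi
  rw [rci69_S0_inf, rci69_S0_sup]
  by_cases e1 : KS₁ (rci69S0 Y s)
  · by_cases e2 : KS₂ (rci69S0 Y s')
    · rw [if_pos e1, if_pos e2, if_pos (k12 _ _ e1 e2).1, if_pos (k12 _ _ e1 e2).2]
    · rw [if_neg e2, mul_zero]
      refine mul_nonneg ?_ ?_ <;> split_ifs <;> norm_num
  · rw [if_neg e1, zero_mul]
    refine mul_nonneg ?_ ?_ <;> split_ifs <;> norm_num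

/-- **order on a system** (unnormalised) -/
theorem rci69_holley_sum (hc : Rci69Ctr Y π) {t : ℝ} (h0 : 0 < t) (h1 : t ≤ 1) (hF : Rci69Dual hc) {KS₁ KS₂ : Finset (ℤ × ℤ) → Prop}
    (k1 : ∀ S, KS₁ S → ∀ v ∈ Y.V, (π v ∈ S ↔ v ∈ S)) (k2 : ∀ S, KS₂ S → ∀ v ∈ Y.V, (π v ∈ S ↔ v ∈ S))
    (k12 : ∀ S S', KS₁ S → KS₂ S' → KS₁ (S ∩ S') ∧ KS₂ (S ∪ S')) {X : RswCfg → ℝ} (hX : Rci69Inc Y X) :
    Y.sum t (fun ω => KS₁ ω.S) X * Y.sum t (fun ω => KS₂ ω.S) (fun _ => 1)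
      ≤ Y.sum t (fun ω => KS₁ ω.S) (fun _ => 1) * Y.sum t (fun ω => KS₂ ω.S) X := by
  have key := cmp291_AT_holley (rci69Ep0 hc) (rci69Ep1 hc) (cmi291_r_nonneg h0 h1)
    (rci69_Phi_nonneg (Y := Y) KS₁) (rci69_Phi_nonneg (Y := Y) KS₂) (rci69_Phi_holley2 k12) (rci69_inc_gen hc hX)
  have a1 := rci69_sum_AT hc h0.ne' hF KS₁ k1 X hX.noD
  have a2 := rci69_sum_AT hc h0.ne' hF KS₂ k2 X hX.noD
  have a3 := rci69_sum_AT hc h0.ne' hF KS₁ k1 (fun _ => 1) (fun _ _ _ => rfl)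
  have a4 := rci69_sum_AT hc h0.ne' hF KS₂ k2 (fun _ => 1) (fun _ _ _ => rfl)
  simp only [mul_one] at a3 a4
  have hK := rci69_K_pos hc h0
  have hcc : (0 : ℝ) < (2 : ℝ) ^ Fintype.card ↥Y.V := by positivity
  refine le_of_mul_le_mul_left ?_ (mul_pos hcc hcc)
  calc (2 : ℝ) ^ Fintype.card ↥Y.V * (2 : ℝ) ^ Fintype.card ↥Y.V
        * (Y.sum t (fun ω => KS₁ ω.S) X * Y.sum t (fun ω => KS₂ ω.S) (fun _ => 1))
      = ((2 : ℝ) ^ Fintype.card ↥Y.V * Y.sum t (fun ω => KS₁ ω.S) X)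
        * ((2 : ℝ) ^ Fintype.card ↥Y.V * Y.sum t (fun ω => KS₂ ω.S) (fun _ => 1)) := by ring
    _ ≤ ((2 : ℝ) ^ Fintype.card ↥Y.V * Y.sum t (fun ω => KS₁ ω.S) (fun _ => 1))
        * ((2 : ℝ) ^ Fintype.card ↥Y.V * Y.sum t (fun ω => KS₂ ω.S) X) := by
        rw [a1, a2, a3, a4]
        have := mul_le_mul_of_nonneg_left key (mul_pos hK hK).le
        nlinarith [this]
    _ = _ := by ring

/-- **order on a system, events** -/
theorem rci69_holley_Pr (hc : Rci69Ctr Y π) {t : ℝ} (h0 : 0 < t) (h1 : t ≤ 1) (hF : Rci69Dual hc) {KS₁ KS₂ : Finset (ℤ × ℤ) → Prop}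
    (k1 : ∀ S, KS₁ S → ∀ v ∈ Y.V, (π v ∈ S ↔ v ∈ S)) (k2 : ∀ S, KS₂ S → ∀ v ∈ Y.V, (π v ∈ S ↔ v ∈ S))
    (k12 : ∀ S S', KS₁ S → KS₂ S' → KS₁ (S ∩ S') ∧ KS₂ (S ∪ S'))
    (hf1 : Y.Feas t (fun ω => KS₁ ω.S)) (hf2 : Y.Feas t (fun ω => KS₂ ω.S))
    {A : RswCfg → Prop} (hA : ∀ ω ω', Y.Le ω ω' → A ω → A ω') :
    Y.Pr t (fun ω => KS₁ ω.S) A ≤ Y.Pr t (fun ω => KS₂ ω.S) A := by
  classical
  have ind : Rci69Inc Y (fun ω => if A ω then (1 : ℝ) else 0) := by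
    intro ω ω' h
    show (if A ω then (1 : ℝ) else 0) ≤ (if A ω' then (1 : ℝ) else 0)
    by_cases hb : A ω
    · rw [if_pos hb, if_pos (hA ω ω' h hb)]
    · rw [if_neg hb]
      split_ifs
      · exact zero_le_one
      · exact le_rfl
  have key := rci69_holley_sum hc h0 h1 hF k1 k2 k12 ind
  have hZ1 := rcy162_Z_pos Y (fun ω => KS₁ ω.S) h0.le h1 hf1
  have hZ2 := rcy162_Z_pos Y (fun ω => KS₂ ω.S) h0.le h1 hf2
  rw [rcy162_P_def, rcy162_P_def]
  unfold Rcy162Sys.Ex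
  rw [div_le_div_iff₀ hZ1 hZ2]
  refine key.trans (le_of_eq ?_)
  ring

end Abs2

/-! ## 7. the capped self-dual cylinder: reference law of `recov` -/

/-- the top pole of the sites -/
def rci69TopV (b : ℤ) (v : ℤ × ℤ) : ℤ × ℤ := if v.2 = b then (0, b) else v

/-- the bottom pole of the faces -/
def rci69BotF (a : ℤ) (f : ℤ × ℤ) : ℤ × ℤ := if f.2 = a - 1 then (0, a - 1) else f

/-- **the capped cylinder**: sites = rows `a..b-1` and the top pole `(0, b)`; faces = rows `a..b-1` and the bottom pole `(0, a-1)`; all horizontal and vertical edge pairs `((x, j), ·)`, `a ≤ j < b` -/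
noncomputable def rci69Cap (L : ℕ) (a b : ℤ) : Rcy162Sys where
  V := (Finset.Ico (0 : ℤ) L ×ˢ Finset.Ico a b) ∪ {(0, b)}
  Fc := (Finset.Ico (0 : ℤ) L ×ˢ Finset.Ico a b) ∪ {(0, a - 1)}
  E := (Finset.Ico (0 : ℤ) L ×ˢ Finset.Ico a b) ×ˢ (Finset.univ : Finset Bool)
  p0 := fun e => e.1
  p1 := fun e => rci69TopV b (rcy162Red L (rswEnd e))
  f0 := fun e => e.1
  f1 := fun e => rci69BotF a (rcy162Red L (rswCo e))

theorem rci69_mem_capV {L : ℕ} {a b : ℤ} {v : ℤ × ℤ} : v ∈ (rci69Cap L a b).V ↔ ((0 ≤ v.1 ∧ v.1 < L) ∧ a ≤ v.2 ∧ v.2 < b) ∨ v = (0, b) := by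
  show v ∈ (Finset.Ico (0 : ℤ) L ×ˢ Finset.Ico a b) ∪ {(0, b)} ↔ _
  rw [Finset.mem_union, Finset.mem_product, Finset.mem_Ico, Finset.mem_Ico, Finset.mem_singleton]

theorem rci69_mem_capF {L : ℕ} {a b : ℤ} {v : ℤ × ℤ} : v ∈ (rci69Cap L a b).Fc ↔ ((0 ≤ v.1 ∧ v.1 < L) ∧ a ≤ v.2 ∧ v.2 < b) ∨ v = (0, a - 1) := by
  show v ∈ (Finset.Ico (0 : ℤ) L ×ˢ Finset.Ico a b) ∪ {(0, a - 1)} ↔ _
  rw [Finset.mem_union, Finset.mem_product, Finset.mem_Ico, Finset.mem_Ico, Finset.mem_singleton]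

theorem rci69_mem_capE {L : ℕ} {a b : ℤ} {e : (ℤ × ℤ) × Bool} : e ∈ (rci69Cap L a b).E ↔ (0 ≤ e.1.1 ∧ e.1.1 < L) ∧ a ≤ e.1.2 ∧ e.1.2 < b := by
  show e ∈ (Finset.Ico (0 : ℤ) L ×ˢ Finset.Ico a b) ×ˢ (Finset.univ : Finset Bool) ↔ _
  rw [Finset.mem_product, Finset.mem_product, Finset.mem_Ico, Finset.mem_Ico]
  simp

theorem rci69_cap_wf {L : ℕ} (hL : 0 < L) (a b : ℤ) : (rci69Cap L a b).WF := by
  refine ⟨fun e he => ?_, fun e he => ?_, fun e he => ?_, fun e he => ?_⟩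
  · exact rci69_mem_capV.2 (Or.inl (rci69_mem_capE.1 he))
  · obtain ⟨h1, h2, h3⟩ := rci69_mem_capE.1 he
    obtain ⟨⟨x, j⟩, bb⟩ := e
    simp only at h1 h2 h3
    have hr := fun u => rcy162_red_range hL u
    show rci69TopV b (rcy162Red L (rswEnd ((x, j), bb))) ∈ _
    unfold rci69TopV
    split_ifs with hb
    · exact rci69_mem_capV.2 (Or.inr rfl)
    · refine rci69_mem_capV.2 (Or.inl ⟨hr _, ?_⟩)
      rw [rcy162_red_snd] at hb ⊢
      cases bb
      · rw [rtd111_end_f] at hb ⊢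
        exact ⟨h2, h3⟩
      · rw [rtd111_end_t] at hb ⊢
        simp only at hb ⊢
        omega
  · exact rci69_mem_capF.2 (Or.inl (rci69_mem_capE.1 he))
  · obtain ⟨h1, h2, h3⟩ := rci69_mem_capE.1 he
    obtain ⟨⟨x, j⟩, bb⟩ := e
    simp only at h1 h2 h3
    have hr := fun u => rcy162_red_range hL u
    show rci69BotF a (rcy162Red L (rswCo ((x, j), bb))) ∈ _
    unfold rci69BotF
    split_ifs with hb
    · exact rci69_mem_capF.2 (Or.inr rfl)
    · refine rci69_mem_capF.2 (Or.inl ⟨hr _, ?_⟩)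
      rw [rcy162_red_snd] at hb ⊢
      cases bb
      · rw [rtd111_co_f] at hb ⊢
        simp only at hb ⊢
        omega
      · rw [rtd111_co_t] at hb ⊢
        exact ⟨h2, h3⟩

theorem rci69_cap_sum_E {M : Type*} [AddCommMonoid M] (L : ℕ) (a b : ℤ) (G : (ℤ × ℤ) × Bool → M) :
    ∑ e ∈ (rci69Cap L a b).E, G e = ∑ x ∈ Finset.Ico (0 : ℤ) L, ∑ j ∈ Finset.Ico a b, G ((x, j), false)
      + ∑ x ∈ Finset.Ico (0 : ℤ) L, ∑ j ∈ Finset.Ico a b, G ((x, j), true) := by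
  show ∑ e ∈ (Finset.Ico (0 : ℤ) L ×ˢ Finset.Ico a b) ×ˢ (Finset.univ : Finset Bool), G e = _
  simp only [Finset.sum_product, Fintype.sum_bool, Finset.sum_add_distrib]
  rw [add_comm]

/-- the vertical part of a 1-cochain, extended by `0` to the row `a - 1` -/
def rci69Yv (a : ℤ) (y : (ℤ × ℤ) × Bool → ZMod 2) (x j : ℤ) : ZMod 2 := if j = a - 1 then 0 else y ((x, j), true)

theorem rci69_Ioo_pred (a b : ℤ) : Finset.Ioo (a - 1) b = Finset.Ico a b := by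
  ext j
  simp only [Finset.mem_Ioo, Finset.mem_Ico]
  omega

/-- the pairing on the capped cylinder after summation by parts -/
theorem rci69_cap_pairing {L : ℕ} (hL : 0 < L) {a b : ℤ} (hab : a < b) (y : (ℤ × ℤ) × Bool → ZMod 2) (ρ : ℤ × ℤ → ZMod 2) :
    ∑ e ∈ (rci69Cap L a b).E, y e * (ρ ((rci69Cap L a b).p0 e) + ρ ((rci69Cap L a b).p1 e))
    = ∑ x ∈ Finset.Ico (0 : ℤ) L, ∑ j ∈ Finset.Ico a b,
        (y ((x, j), false) + y (((x - 1) % L, j), false) + rci69Yv a y x j + rci69Yv a y x (j - 1)) * ρ (x, j)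
      + (∑ x ∈ Finset.Ico (0 : ℤ) L, y ((x, b - 1), true)) * ρ (0, b) := by
  have key := rci69_sbp hL (a := a - 1) (b := b) (by omega) (fun x j => y ((x, j), false)) (rci69Yv a y) (fun x j => ρ (rci69TopV b (x, j)))
  have t1 : ∀ x j : ℤ, j < b → rci69TopV b (x, j) = (x, j) := by
    intro x j hj
    unfold rci69TopV
    rw [if_neg (show ¬ (x, j).2 = b from ne_of_lt hj)]
  have t2 : ∀ x : ℤ, rci69TopV b (x, b) = (0, b) := by
    intro x
    unfold rci69TopV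
    rw [if_pos rfl]
  have y0 : ∀ x : ℤ, rci69Yv a y x (a - 1) = 0 := by
    intro x
    unfold rci69Yv
    rw [if_pos rfl]
  have y1 : ∀ x j : ℤ, a ≤ j → rci69Yv a y x j = y ((x, j), true) := by
    intro x j hj
    unfold rci69Yv
    rw [if_neg (by omega)]
  rw [rci69_cap_sum_E]
  have lhs : ∑ x ∈ Finset.Ico (0 : ℤ) L, ∑ j ∈ Finset.Ico a b, y ((x, j), false) * (ρ ((rci69Cap L a b).p0 ((x, j), false)) + ρ ((rci69Cap L a b).p1 ((x, j), false)))
      + ∑ x ∈ Finset.Ico (0 : ℤ) L, ∑ j ∈ Finset.Ico a b, y ((x, j), true) * (ρ ((rci69Cap L a b).p0 ((x, j), true)) + ρ ((rci69Cap L a b).p1 ((x, j), true)))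
      = ∑ x ∈ Finset.Ico (0 : ℤ) L, ∑ j ∈ Finset.Ioo (a - 1) b, y ((x, j), false) * (ρ (rci69TopV b (x, j)) + ρ (rci69TopV b ((x + 1) % L, j)))
      + ∑ x ∈ Finset.Ico (0 : ℤ) L, ∑ j ∈ Finset.Ico (a - 1) b, rci69Yv a y x j * (ρ (rci69TopV b (x, j)) + ρ (rci69TopV b (x, j + 1))) := by
    rw [rci69_Ioo_pred]
    congr 1
    · refine Finset.sum_congr rfl fun x _ => Finset.sum_congr rfl fun j hj => ?_
      rw [t1 x j (Finset.mem_Ico.1 hj).2]
      rfl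
    · refine Finset.sum_congr rfl fun x hx => ?_
      obtain ⟨h1, h2⟩ := Finset.mem_Ico.1 hx
      rw [rci69_sum_Ico_left (show a - 1 < b by omega), y0, zero_mul, zero_add, rci69_Ioo_pred]
      refine Finset.sum_congr rfl fun j hj => ?_
      rw [t1 x j (Finset.mem_Ico.1 hj).2, y1 x j (Finset.mem_Ico.1 hj).1]
      show y ((x, j), true) * (ρ (x, j) + ρ (rci69TopV b (x % L, j + 1))) = _
      rw [Int.emod_eq_of_lt h1 h2]
  rw [lhs, key, rci69_Ioo_pred]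
  simp only [y0, zero_mul, Finset.sum_const_zero, add_zero, t2, Finset.sum_mul]
  congr 1
  · refine Finset.sum_congr rfl fun x _ => Finset.sum_congr rfl fun j hj => ?_
    rw [t1 x j (Finset.mem_Ico.1 hj).2]
  · refine Finset.sum_congr rfl fun x _ => ?_
    rw [y1 x (b - 1) (by omega)]

theorem rci69_cap_HP {L : ℕ} (hL : 0 < L) {a b : ℤ} (hab : a < b) (d ρ : ℤ × ℤ → ZMod 2) :
    ∑ e ∈ (rci69Cap L a b).E, (d ((rci69Cap L a b).f0 e) + d ((rci69Cap L a b).f1 e))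
      * (ρ (id ((rci69Cap L a b).p0 e)) + ρ (id ((rci69Cap L a b).p1 e))) = 0 := by
  have hL' : (0 : ℤ) < L := by exact_mod_cast hL
  simp only [id]
  rw [rci69_cap_pairing hL hab (fun e => d ((rci69Cap L a b).f0 e) + d ((rci69Cap L a b).f1 e)) ρ]
  have f0 : ∀ e, (rci69Cap L a b).f0 e = e.1 := fun _ => rfl
  have f1f : ∀ x j : ℤ, (rci69Cap L a b).f1 ((x, j), false) = rci69BotF a (x % L, j - 1) := fun _ _ => rfl
  have f1t : ∀ x j : ℤ, (rci69Cap L a b).f1 ((x, j), true) = rci69BotF a ((x - 1) % L, j) := fun _ _ => rfl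
  have b1 : ∀ x j : ℤ, a ≤ j → rci69BotF a (x, j) = (x, j) := by
    intro x j hj
    unfold rci69BotF
    rw [if_neg (show ¬ (x, j).2 = a - 1 by simp only; omega)]
  have b2 : ∀ x : ℤ, rci69BotF a (x, a - 1) = (0, a - 1) := by
    intro x
    unfold rci69BotF
    rw [if_pos rfl]
  have cyc : ∀ j : ℤ, ∑ x ∈ Finset.Ico (0 : ℤ) L, (d (x, j) + d ((x - 1) % L, j)) = 0 := by
    intro j
    have := rci69_sum_cyc hL (-1) (fun x => d (x, j))
    rw [Finset.sum_add_distrib]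
    simp only [sub_eq_add_neg]
    rw [this]
    exact CharTwo.add_self_eq_zero _
  simp only [f0, f1t]
  have top : ∑ x ∈ Finset.Ico (0 : ℤ) L, (d (x, b - 1) + d (rci69BotF a ((x - 1) % L, b - 1))) = 0 := by
    rw [← cyc (b - 1)]
    refine Finset.sum_congr rfl fun x _ => ?_
    rw [b1 _ (b - 1) (by omega)]
  rw [top, zero_mul, add_zero]
  refine Finset.sum_eq_zero fun x hx => Finset.sum_eq_zero fun j hj => ?_
  obtain ⟨h1, h2⟩ := Finset.mem_Ico.1 hx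
  obtain ⟨h3, h4⟩ := Finset.mem_Ico.1 hj
  unfold rci69Yv
  simp only [f0, f1f, f1t]
  rw [Int.emod_eq_of_lt h1 h2, Int.emod_emod_of_dvd _ (dvd_refl _), if_neg (by omega), b1 _ j h3]
  rcases eq_or_lt_of_le h3 with h | h
  · subst h
    rw [if_pos rfl, b2, b2]
    linear_combination (d (x, a) + d (0, a - 1) + d ((x - 1) % L, a)) * ρ (x, a) * rci69_two
  · rw [if_neg (by omega), b1 _ (j - 1) (by omega), b1 _ (j - 1) (by omega)]
    linear_combination (d (x, j) + d (x, j - 1) + d ((x - 1) % L, j) + d ((x - 1) % L, j - 1)) * ρ (x, j) * rci69_two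

theorem rci69_cap_HX {L : ℕ} (hL : 0 < L) {a b : ℤ} (hab : a < b) (y : (ℤ × ℤ) × Bool → ZMod 2)
    (hy : ∀ ρ : ℤ × ℤ → ZMod 2, ∑ e ∈ (rci69Cap L a b).E,
      y e * (ρ (id ((rci69Cap L a b).p0 e)) + ρ (id ((rci69Cap L a b).p1 e))) = 0) :
    ∃ d : ℤ × ℤ → ZMod 2, ∀ e ∈ (rci69Cap L a b).E, y e = d ((rci69Cap L a b).f0 e) + d ((rci69Cap L a b).f1 e) := by
  classical
  have hL' : (0 : ℤ) < L := by exact_mod_cast hL
  simp only [id] at hy
  have VR : ∀ x0 j0 : ℤ, 0 ≤ x0 → x0 < L → a ≤ j0 → j0 < b →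
      y ((x0, j0), false) + y (((x0 - 1) % L, j0), false) + rci69Yv a y x0 j0 + rci69Yv a y x0 (j0 - 1) = 0 := by
    intro x0 j0 h1 h2 h3 h4
    have h0 := hy (fun v => if v = (x0, j0) then 1 else 0)
    have := (rci69_cap_pairing hL hab y (fun v => if v = (x0, j0) then 1 else 0)).symm.trans h0
    beta_reduce at this
    have e2 : ((0 : ℤ), b) ≠ (x0, j0) := by
      intro h
      have := congrArg Prod.snd h
      simp only at this
      omega
    simp only [if_neg e2, mul_zero, add_zero] at this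
    rw [Finset.sum_eq_single x0, Finset.sum_eq_single j0] at this
    · simpa using this
    · intro j _ hj
      rw [if_neg (by simp [hj]), mul_zero]
    · intro hj
      exact absurd (Finset.mem_Ico.2 ⟨h3, h4⟩) hj
    · intro x _ hx
      refine Finset.sum_eq_zero fun j _ => ?_
      rw [if_neg (by simp [hx]), mul_zero]
    · intro hx
      exact absurd (Finset.mem_Ico.2 ⟨h1, h2⟩) hx
  let d : ℤ × ℤ → ZMod 2 := fun f => ∑ l ∈ Finset.Ioc (a - 1) f.2, y ((f.1, l), false)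
  have dstep : ∀ x j : ℤ, a - 1 ≤ j → d (x, j + 1) = d (x, j) + y ((x, j + 1), false) := by
    intro x j hj
    exact rci69_sum_Ioc_succ hj _
  have d0 : ∀ x : ℤ, d (x, a - 1) = 0 := by
    intro x
    show ∑ l ∈ Finset.Ioc (a - 1) (a - 1), y ((x, l), false) = 0
    rw [Finset.Ioc_self, Finset.sum_empty]
  have dB : ∀ x j : ℤ, d (rci69BotF a (x, j)) = d (x, j) := by
    intro x j
    unfold rci69BotF
    split_ifs with h
    · have h' : j = a - 1 := h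
      rw [h', d0, d0]
    · rfl
  have vert : ∀ j : ℤ, a - 1 ≤ j → j < b → ∀ x : ℤ, 0 ≤ x → x < L → d (x, j) + d ((x - 1) % L, j) = rci69Yv a y x j := by
    intro j hj
    induction j, hj using Int.le_induction with
    | base =>
      intro _ x h1 h2
      rw [d0, d0]
      unfold rci69Yv
      rw [if_pos rfl, add_zero]
    | succ j hj ih =>
      intro hjb x h1 h2
      have ih' := ih (by omega) x h1 h2
      rw [dstep x j hj, dstep _ j hj]
      have vr := VR x (j + 1) h1 h2 (by omega) hjb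
      rw [add_sub_cancel_right] at vr
      linear_combination ih' + vr - rci69Yv a y x (j + 1) * rci69_two
  refine ⟨d, fun e he => ?_⟩
  obtain ⟨⟨x, j⟩, bb⟩ := e
  obtain ⟨⟨h1, h2⟩, h3, h4⟩ := rci69_mem_capE.1 he
  simp only at h1 h2 h3 h4
  cases bb
  · show y ((x, j), false) = d (x, j) + d (rci69BotF a (x % L, j - 1))
    rw [Int.emod_eq_of_lt h1 h2, dB]
    have := dstep x (j - 1) (by omega)
    rw [sub_add_cancel] at this
    rw [this]
    linear_combination (- d (x, j - 1)) * rci69_two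
  · show y ((x, j), true) = d (x, j) + d (rci69BotF a ((x - 1) % L, j))
    rw [dB, vert j (by omega) h4 x h1 h2]
    unfold rci69Yv
    rw [if_neg (by omega)]

theorem rci69_cap_ctr {L : ℕ} (hL : 0 < L) (a b : ℤ) : Rci69Ctr (rci69Cap L a b) id := ⟨rci69_cap_wf hL a b, fun _ h => h⟩

/-- **eq. (3.5) on the capped cylinder** (no contraction: the poles are in the maps) -/
theorem rci69_cap_dual {L : ℕ} (hL : 0 < L) {a b : ℤ} (hab : a < b) : Rci69Dual (rci69_cap_ctr hL a b) :=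
  rci69_dual_of_hat _ (rci69_cap_HP hL hab) (rci69_cap_HX hL hab)

theorem rci69_cap_feas {t : ℝ} (ht : 0 < t) (L : ℕ) (a b : ℤ) : (rci69Cap L a b).Feas t (fun _ => True) :=
  rcy162_feas_of _ ht (S := ∅) (Finset.empty_subset _) trivial

/-- **T1 for the FREE law of the capped cylinder** -/
theorem rci69_cap_fkg {t : ℝ} (h0 : 0 < t) (h1 : t ≤ 1) {L : ℕ} (hL : 0 < L) {a b : ℤ} (hab : a < b) {A A' : RswCfg → Prop}
    (hA : ∀ ω ω', (rci69Cap L a b).Le ω ω' → A ω → A ω') (hA' : ∀ ω ω', (rci69Cap L a b).Le ω ω' → A' ω → A' ω') :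
    (rci69Cap L a b).Pr t (fun _ => True) A * (rci69Cap L a b).Pr t (fun _ => True) A'
      ≤ (rci69Cap L a b).Pr t (fun _ => True) (fun ω => A ω ∧ A' ω) :=
  rci69_fkg_Pr (rci69_cap_ctr hL a b) h0 h1 (rci69_cap_dual hL hab) (KS := fun _ => True) (fun _ _ _ _ => Iff.rfl)
    (fun _ _ _ _ => ⟨trivial, trivial⟩) (rci69_cap_feas h0 L a b) hA hA'

theorem rci69_eqns_cite3 : True := by
  have := @rci69TopV.eq_1
  have := @rci69BotF.eq_1
  have := @rci69Cap.eq_1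
  have := @rci69Yv.eq_1
  trivial

/-! ## par.8  `slide` plugged -/

/-- FKG on every cylinder, in the form `Rcy162Fkg` of `Sys162` -/
theorem rci69_Fkg {t : ℝ} (h0 : 0 < t) (h1 : t ≤ 1) {L : ℕ} (hL : 0 < L) (a b : ℤ) (hab : a < b) : Rcy162Fkg t L a b :=
  fun _ _ hE hE' => rci69_QM_fkg h0 h1 hL hab hE hE'

/-- **the law of the cylinder, `slide` plugged** (`rcy162_slide` + `rci69_Fkg`): only `sym` and `recov` remain -/
theorem rci69_law2 {t : ℝ} (h0 : 0 < t) (h1 : t ≤ 1) {L H : ℕ} (hL : 0 < L) (hH : 0 < H)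
    (sym : ∀ (k m κ : ℤ), 1 ≤ m → Even m → 3 ≤ k → k + m + 3 ≤ κ → κ + m - 1 ≤ ((2 * H : ℕ) : ℤ) - 4 → ((2 * H : ℕ) : ℤ) + k + m + 7 ≤ 2 * κ →
      1 ≤ rcy162Q t L H (cyVP 1 k (k + m - 1)) + rcy162Q t L H (cyVP (-1) k (k + m - 1))
        + 4 * (rcy162Q t L H (cyVP 1 κ (κ + m - 1)) + rcy162Q t L H (cyBlk 1 κ (κ + m - 1))))
    (recov : ∀ (c d κ m : ℤ), 3 ≤ c → c ≤ d → d + 3 ≤ κ → 1 ≤ m → Even m → κ + m - 1 ≤ ((2 * H : ℕ) : ℤ) - 4 →
      rcy162Q t L H (cyBlk 1 c d) ≤ 2 * (rcy162Q t L H (cyVP 1 κ (κ + m - 1)) + rcy162Q t L H (cyBlk 1 κ (κ + m - 1)))) :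
    Rct127Law (2 * L) (2 * H) (fun _ _ => rcy162Q t L H) :=
  rci69_law h0 h1 hL hH (rcy162_slide h0 h1 hL (rci69_Fkg h0 h1 hL) hH) sym recov

/-! ## par.9  Markov property and DOMINATION across an abstract cut -/

/-- Markov property across an abstract cut, in probabilities -/
theorem rci69_markov {Y Y' : Rcy162Sys} {C : Finset (ℤ × ℤ)} (h : Rcy162Sub Y Y' C) {t : ℝ} {K : RswCfg → Prop}
    (hK : ∀ ω, K (rcy162Out Y' C ω) ↔ K ω) (A : Finset (ℤ × ℤ)) (hp : Y'.sum t (Rcy162Pin Y' C A) (fun _ => 1) ≠ 0) (B : RswCfg → Prop) :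
    Y.Pr t K (fun ω => Rcy162Cut Y Y' C A ω ∧ B (rcy162In Y' ω)) = Y'.Pr t (Rcy162Pin Y' C A) B * Y.Pr t K (Rcy162Cut Y Y' C A) := by
  have key := rcy162_cut_comp h (t := t) (K := K) hK A hp (rcy162Ind B) (fun _ => 1)
  have e1 : rcy162Ind (fun ω : RswCfg => Rcy162Cut Y Y' C A ω ∧ B (rcy162In Y' ω)) =
      fun ω => rcy162CutI Y Y' C A ω * rcy162Ind B (rcy162In Y' ω) * 1 := by
    funext ω
    rw [rcy162_ind_and, mul_one, rcy162_ind_iff (L := fun ω => B (rcy162In Y' ω)) (L' := B) (ω := ω) (ω' := rcy162In Y' ω) Iff.rfl]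
    rfl
  have e2 : rcy162Ind (Rcy162Cut Y Y' C A) = fun ω => rcy162CutI Y Y' C A ω * 1 := by
    funext ω
    rw [mul_one]
    rfl
  rw [rcy162_P_ind, rcy162_P_ind, rcy162_P_ind, e1, e2, key]
  unfold Rcy162Sys.Ex
  ring

/-- the all plus cut is an increasing event when the pairs of the cut end on the rim -/
theorem rci69_cut_inc {Y Y' : Rcy162Sys} {C : Finset (ℤ × ℤ)}
    (hrim : ∀ e ∈ Y.E \ Y'.E, (Y.f0 e ∈ Y'.Fc ∨ Y.f1 e ∈ Y'.Fc) → Y.p0 e ∈ Y'.V \ C ∧ Y.p1 e ∈ Y'.V \ C)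
    (ω ω' : RswCfg) (hle : Y.Le ω ω') (hc : Rcy162Cut Y Y' C Y'.V ω) : Rcy162Cut Y Y' C Y'.V ω' := by
  obtain ⟨c1, c2⟩ := hc
  refine ⟨fun v hv => ⟨fun _ => (Finset.mem_sdiff.1 hv).1, fun _ => hle.1 ((c1 v hv).2 (Finset.mem_sdiff.1 hv).1)⟩, fun e he hf => ?_⟩
  obtain ⟨r0, r1⟩ := hrim e he hf
  have g : Y.Good true ω e := ⟨c2 e he hf, ⟨fun _ => rfl, fun _ => (c1 _ r0).2 (Finset.mem_sdiff.1 r0).1⟩,
    ⟨fun _ => rfl, fun _ => (c1 _ r1).2 (Finset.mem_sdiff.1 r1).1⟩⟩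
  exact (hle.2.1 e g).1

/-- **DOM (abstract)**: the law of a subsystem with the all plus rim dominates the law of the system -/
theorem rci69_dom {Y Y' : Rcy162Sys} {C : Finset (ℤ × ℤ)} (h : Rcy162Sub Y Y' C) {t : ℝ} (h0 : 0 < t) (h1 : t ≤ 1) {K : RswCfg → Prop}
    (hK : ∀ ω, K (rcy162Out Y' C ω) ↔ K ω)
    (hfkg : ∀ A A' : RswCfg → Prop, (∀ ω ω', Y.Le ω ω' → A ω → A ω') → (∀ ω ω', Y.Le ω ω' → A' ω → A' ω') →
      Y.Pr t K A * Y.Pr t K A' ≤ Y.Pr t K (fun ω => A ω ∧ A' ω))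
    (hrim : ∀ e ∈ Y.E \ Y'.E, (Y.f0 e ∈ Y'.Fc ∨ Y.f1 e ∈ Y'.Fc) → Y.p0 e ∈ Y'.V \ C ∧ Y.p1 e ∈ Y'.V \ C)
    (hw : Y.WF) (hKV : K (rcy162Wit Y Y.V))
    {B : RswCfg → Prop} (hB : ∀ ω ω', Y.Le ω ω' → B (rcy162In Y' ω) → B (rcy162In Y' ω')) :
    Y.Pr t K (fun ω => B (rcy162In Y' ω)) ≤ Y'.Pr t (Rcy162Pin Y' C Y'.V) B := by
  classical
  have hp : Y'.sum t (Rcy162Pin Y' C Y'.V) (fun _ => 1) ≠ 0 :=
    (rcy162_Z_pos Y' _ h0.le h1 (rcy162_feas_of Y' h0 (S := Y'.V) (Finset.Subset.refl _)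
      (fun v hv => ⟨fun _ => (Finset.mem_sdiff.1 hv).1, fun x => x⟩))).ne'
  have hm := rci69_markov h hK Y'.V hp B
  have hf := hfkg _ _ (rci69_cut_inc hrim) hB
  rw [hm] at hf
  have hpos : 0 < Y.Pr t K (Rcy162Cut Y Y' C Y'.V) := by
    have hwt : Y.wt t K (rcy162Wit Y Y.V) ≠ 0 := by
      rw [rcy162_wt_of Y hKV, Finset.prod_congr rfl fun e he => rcy162_wit_fac Y t Y.V he, Finset.prod_const]
      exact (pow_pos h0 _).ne'
    refine rcy162_P_pos Y h0.le h1 (ω := rcy162Wit Y Y.V) ⟨Finset.Subset.refl _, Finset.empty_subset _, Finset.filter_subset _ _⟩ hwt ?_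
    refine ⟨fun v hv => ⟨fun _ => (Finset.mem_sdiff.1 hv).1, fun x => h.sV x⟩, fun e he _ => ?_⟩
    have heE := (Finset.mem_sdiff.1 he).1
    exact Finset.mem_filter.2 ⟨heE, ⟨fun _ => hw.p1 e heE, fun _ => hw.p0 e heE⟩⟩
  rw [mul_comm] at hf
  exact le_of_mul_le_mul_right hf hpos

end Claimed.Agent.R292
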