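import Claimed.Agent.R292.Rsw.LenInst182
import Claimed.Agent.R292.Rsw.CylInst69
import Claimed.Agent.R292.Rsw.Holley12

/-!
# Row 292 (S0540), Rsw/LenOrd292 : R8 CORE, BLOCK A2, (ORD) = THE ORDER OF LEGAL HISTORIES ON AN EDGE-PAIR SYSTEM      (owner helper292; row 9 of c1_post; prefix `lo292_` / `Lo292` / `lo292`)      0 sorry

The contract `Rse182Ord Y 𝓛 K` of `Rsw/LenInst182` (182), which feeds the fields `ord1`, `ord3` of `Rse182Hist.Ok` (`rse182_hist_ok`), PROVED on every system with eq. (3.5) (`Rci69Dual`, 69), in particular on the mixed cylinder.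
Tools: the dictionary `rci69_sum_AT` of 69 (systems with contracted pins = `cmp291AT` sums) and the generic comparison with forced edges `hol12_AT_holley` of 12.

* `lo292_cons_of_holds` : a legal history which is met by ONE configuration is consistent (good plus edges have plus pinned ends, good minus edges minus pinned ends, no edge is prescribed open and closed)
* `lo292_holds_iff`, `lo292_sum` : under consistency the history = (vertex pins) ∧ (forced open / closed edges)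
* **`lo292_holley`** : `sum(K₁; X) sum(K₂; 1) ≤ sum(K₁; 1) sum(K₂; X)` for legal `K₁ ≤ K₂` (`Rse182Le`), `X` increasing for `Y.Le`; infeasible histories allowed
* **`lo292_ord : Rse182Ord Y 𝓛 K`** (any law linked to `Y` whose order contains `Y.Le`; the pins of `K` make the classes of `π` constant)
* **`lo292_cyl_ord`** : the cylinder `rcy162Cyl L a b`, `K` pins the row `a` minus and the row `b` plus.
* **`lo292_fkg`** (association under ONE legal history, `cmq291_AT_fkg` of 291), **`lo292_lnfkg : Rln182Fkg 𝓛 (rse182Holds Y K)`** (the contract (FKG) of `Len182`: under `K` and under `K` + full observation), `lo292_cyl_lnfkg`.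
* PART 2 (22:20Z): **`lo292_COrd : Rse182COrd t`** and **`lo292_CFkg2 : Rln182CFkg2 (rse182Cyl t) rse182K`** = the two closed contracts hO, hF of `rse182_cyl_len` / `rse182_cyl_glue` (`LenInst182` par. 6), for `0 < t ≤ 1`. (`lo292_lnfkg_red`: the observed set may be reduced under `K`; `lo292_cell_cases`: the only cells which are not points of the system are the midpoints of the horizontal edges of the row `0`, whose status is `0` and whose ends are pinned minus.)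
-/

set_option autoImplicit false
set_option linter.unusedSectionVars false
set_option linter.unusedVariables false

namespace Claimed.Agent.R292

open Claims Claims.C0468 Claimed.Agent.R291

section sys

variable {Y : Rcy162Sys} {π : ℤ × ℤ → ℤ × ℤ}

/-- the vertex pins of a history, as a condition on the plus set -/
def lo292KS (K : RswCon) (S : Finset (ℤ × ℤ)) : Prop := K.Sp ⊆ S ∧ ∀ v ∈ K.Sm, v ∉ S

/-- the edges prescribed open -/
def lo292Oo (Y : Rcy162Sys) (K : RswCon) : Finset ↥Y.E := (K.Gp ∪ K.Gm).subtype (· ∈ Y.E)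

/-- the edges prescribed closed -/
def lo292Oc (Y : Rcy162Sys) (K : RswCon) : Finset ↥Y.E := K.Cl.subtype (· ∈ Y.E)

open Classical in
/-- the indicator of the edge prescriptions -/
noncomputable def lo292Pi (K : RswCon) (ω : RswCfg) : ℝ := if (K.Gp ∪ K.Gm ⊆ ω.O ∧ ∀ e ∈ K.Cl, e ∉ ω.O) then 1 else 0

/-- consistent history -/
structure Lo292Cons (Y : Rcy162Sys) (K : RswCon) : Prop where
  gp : ∀ e ∈ K.Gp, ∀ v, Rse182End Y e v → v ∈ K.Sp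
  gm : ∀ e ∈ K.Gm, ∀ v, Rse182End Y e v → v ∈ K.Sm
  dis : ∀ e ∈ K.Gp ∪ K.Gm, e ∉ K.Cl

/-- generic plus pins -/
def lo292Pp (Y : Rcy162Sys) (π : ℤ × ℤ → ℤ × ℤ) (K : RswCon) (v : ↥Y.V) : Prop := ∃ w ∈ K.Sp, w ∈ Y.V ∧ π w = v.1

/-- generic minus pins -/
def lo292Pm (Y : Rcy162Sys) (π : ℤ × ℤ → ℤ × ℤ) (K : RswCon) (v : ↥Y.V) : Prop := ∃ w ∈ K.Sm, w ∈ Y.V ∧ π w = v.1

theorem lo292_eqns_cite : True := by
  have := @lo292KS.eq_1
  have := @lo292Oo.eq_1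
  have := @lo292Oc.eq_1
  have := @lo292Pi.eq_1
  have := @lo292Pp.eq_1
  have := @lo292Pm.eq_1
  trivial

theorem lo292_cons_of_holds {K : RswCon} (hK : Rse182Legal Y K) {ω : RswCfg} (h : rse182Holds Y K ω) : Lo292Cons Y K := by
  obtain ⟨h1, h2, h3, h4, h5⟩ := h
  refine ⟨fun e he v hv => ?_, fun e he v hv => ?_, fun e he hc => ?_⟩
  · have hm := hK.full e (Finset.mem_union_left _ (Finset.mem_union_left _ he)) v hv
    rcases Finset.mem_union.1 hm with a | a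
    · exact a
    · exact absurd ((rse182_good_end (h3 e he) hv).2 rfl) (h2 v a)
  · have hm := hK.full e (Finset.mem_union_left _ (Finset.mem_union_right _ he)) v hv
    rcases Finset.mem_union.1 hm with a | a
    · exact absurd ((rse182_good_end (h4 e he) hv).1 (h1 a)) Bool.false_ne_true
    · exact a
  · rcases Finset.mem_union.1 he with a | a
    · exact h5 e hc (h3 e a).1
    · exact h5 e hc (h4 e a).1

theorem lo292_holds_iff {K : RswCon} (hC : Lo292Cons Y K) (ω : RswCfg) :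
    rse182Holds Y K ω ↔ lo292KS K ω.S ∧ (K.Gp ∪ K.Gm ⊆ ω.O ∧ ∀ e ∈ K.Cl, e ∉ ω.O) := by
  constructor
  · rintro ⟨h1, h2, h3, h4, h5⟩
    refine ⟨⟨h1, h2⟩, fun e he => ?_, h5⟩
    rcases Finset.mem_union.1 he with a | a
    · exact (h3 e a).1
    · exact (h4 e a).1
  · rintro ⟨⟨h1, h2⟩, h3, h5⟩
    refine ⟨h1, h2, fun e he => ?_, fun e he => ?_, h5⟩
    · exact ⟨h3 (Finset.mem_union_left _ he), ⟨fun _ => rfl, fun _ => h1 (hC.gp e he _ (Or.inl rfl))⟩,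
        ⟨fun _ => rfl, fun _ => h1 (hC.gp e he _ (Or.inr rfl))⟩⟩
    · exact ⟨h3 (Finset.mem_union_right _ he),
        ⟨fun h => absurd h (h2 _ (hC.gm e he _ (Or.inl rfl))), fun h => absurd h Bool.false_ne_true⟩,
        ⟨fun h => absurd h (h2 _ (hC.gm e he _ (Or.inr rfl))), fun h => absurd h Bool.false_ne_true⟩⟩

theorem lo292_sum {K : RswCon} (hC : Lo292Cons Y K) (t : ℝ) (X : RswCfg → ℝ) :
    Y.sum t (rse182Holds Y K) X = Y.sum t (fun ω => lo292KS K ω.S) (fun ω => lo292Pi K ω * X ω) := by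
  classical
  rw [rcy162_sum_cfgs', rcy162_sum_cfgs']
  refine Finset.sum_congr rfl fun ω _ => ?_
  unfold lo292Pi
  by_cases a : lo292KS K ω.S
  · by_cases b : (K.Gp ∪ K.Gm ⊆ ω.O ∧ ∀ e ∈ K.Cl, e ∉ ω.O)
    · rw [if_pos ((lo292_holds_iff hC ω).2 ⟨a, b⟩), if_pos a, if_pos b, one_mul]
    · rw [if_neg (fun h => b ((lo292_holds_iff hC ω).1 h).2), if_pos a, if_neg b, zero_mul, mul_zero]
  · rw [if_neg (fun h => a ((lo292_holds_iff hC ω).1 h).1), if_neg a]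

theorem lo292_sum_zero {K : RswCon} (h : ∀ ω, ¬ rse182Holds Y K ω) (t : ℝ) (X : RswCfg → ℝ) : Y.sum t (rse182Holds Y K) X = 0 := by
  classical
  rw [rcy162_sum_cfgs']
  exact Finset.sum_eq_zero fun ω _ => if_neg (h ω)

theorem lo292_Pi_eq {K : RswCon} (hK : Rse182Legal Y K) (S D : Finset (ℤ × ℤ)) (W : Finset ↥Y.E) :
    lo292Pi K ⟨S, D, rci69O Y W⟩ = cmq291Pi (lo292Oo Y K) (lo292Oc Y K) W := by
  classical
  have hiff : (K.Gp ∪ K.Gm ⊆ rci69O Y W ∧ ∀ e ∈ K.Cl, e ∉ rci69O Y W) ↔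
      ∀ i : ↥Y.E, (i ∈ lo292Oo Y K → i ∈ W) ∧ (i ∈ lo292Oc Y K → i ∉ W) := by
    constructor
    · rintro ⟨h1, h2⟩ i
      exact ⟨fun hi => (rci69_mem_O i).1 (h1 (Finset.mem_subtype.1 hi)), fun hi hw => h2 i.1 (Finset.mem_subtype.1 hi) ((rci69_mem_O i).2 hw)⟩
    · intro h
      refine ⟨fun e he => ?_, fun e he hw => ?_⟩
      · have heE : e ∈ Y.E := hK.ed e (Finset.mem_union_left _ he)
        exact (rci69_mem_O ⟨e, heE⟩).2 ((h ⟨e, heE⟩).1 (Finset.mem_subtype.2 he))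
      · have heE : e ∈ Y.E := hK.ed e (Finset.mem_union_right _ he)
        exact (h ⟨e, heE⟩).2 (Finset.mem_subtype.2 he) ((rci69_mem_O ⟨e, heE⟩).1 hw)
  unfold lo292Pi cmq291Pi
  by_cases h : (K.Gp ∪ K.Gm ⊆ rci69O Y W ∧ ∀ e ∈ K.Cl, e ∉ rci69O Y W)
  · rw [if_pos h, if_pos (hiff.1 h)]
  · rw [if_neg h, if_neg fun h' => h (hiff.2 h')]

theorem lo292_pins_spec {K : RswCon} (k1 : ∀ S, lo292KS K S → ∀ v ∈ Y.V, (π v ∈ S ↔ v ∈ S)) (s : ↥Y.V → Bool)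
    (hs : rci69Phi Y (lo292KS K) s ≠ 0) : (∀ v, lo292Pp Y π K v → s v = true) ∧ ∀ v, lo292Pm Y π K v → s v = false := by
  classical
  have hKS : lo292KS K (rci69S0 Y s) := by
    by_contra hc
    exact hs (by unfold rci69Phi; rw [if_neg hc])
  refine ⟨?_, ?_⟩
  · rintro v ⟨w, hw, hwV, e⟩
    have h1 : π w ∈ rci69S0 Y s := (k1 _ hKS w hwV).2 (hKS.1 hw)
    rw [e] at h1
    exact (rci69_mem_S0 s v.2).1 h1
  · rintro v ⟨w, hw, hwV, e⟩
    have h1 : π w ∉ rci69S0 Y s := fun h => hKS.2 w hw ((k1 _ hKS w hwV).1 h)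
    rw [e] at h1
    by_contra hne
    exact h1 ((rci69_mem_S0 s v.2).2 (Bool.eq_true_of_not_eq_false hne))

theorem lo292_KS_holley {K₁ K₂ : RswCon} (hsp : K₁.Sp ⊆ K₂.Sp) (hsm : K₂.Sm ⊆ K₁.Sm) (S S' : Finset (ℤ × ℤ))
    (h : lo292KS K₁ S) (h' : lo292KS K₂ S') : lo292KS K₁ (S ∩ S') ∧ lo292KS K₂ (S ∪ S') :=
  ⟨⟨Finset.subset_inter h.1 (hsp.trans h'.1), fun v hv hm => h.2 v hv (Finset.mem_inter.1 hm).1⟩,
    ⟨h'.1.trans Finset.subset_union_right, fun v hv hm => by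
      rcases Finset.mem_union.1 hm with a | a
      · exact h.2 v (hsm hv) a
      · exact h'.2 v hv a⟩⟩

theorem lo292_ok_gen (hc : Rci69Ctr Y π) {K : RswCon} (hK : Rse182Legal Y K) (i : ↥Y.E) (hi : i ∈ lo292Oo Y K ∪ lo292Oc Y K) :
    (lo292Pp Y π K (rci69Ep0 hc i) ∨ lo292Pm Y π K (rci69Ep0 hc i)) ∧ (lo292Pp Y π K (rci69Ep1 hc i) ∨ lo292Pm Y π K (rci69Ep1 hc i)) := by
  have hi' : i.1 ∈ K.Gp ∪ K.Gm ∪ K.Cl := by
    rcases Finset.mem_union.1 hi with h | h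
    · exact Finset.mem_union_left _ (Finset.mem_subtype.1 h)
    · exact Finset.mem_union_right _ (Finset.mem_subtype.1 h)
  have a := hK.full i.1 hi' (Y.p0 i.1) (Or.inl rfl)
  have b := hK.full i.1 hi' (Y.p1 i.1) (Or.inr rfl)
  exact ⟨(Finset.mem_union.1 a).imp (fun h => ⟨_, h, hc.wf.p0 _ i.2, rfl⟩) (fun h => ⟨_, h, hc.wf.p0 _ i.2, rfl⟩),
    (Finset.mem_union.1 b).imp (fun h => ⟨_, h, hc.wf.p1 _ i.2, rfl⟩) (fun h => ⟨_, h, hc.wf.p1 _ i.2, rfl⟩)⟩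

/-- **(T2) HOLLEY FOR LEGAL HISTORIES ON A SYSTEM** (infeasible histories allowed) -/
theorem lo292_holley (hc : Rci69Ctr Y π) {t : ℝ} (h0 : 0 < t) (h1 : t ≤ 1) (hF : Rci69Dual hc) {K₁ K₂ : RswCon}
    (l₁ : Rse182Legal Y K₁) (l₂ : Rse182Legal Y K₂)
    (k1 : ∀ S, lo292KS K₁ S → ∀ v ∈ Y.V, (π v ∈ S ↔ v ∈ S)) (k2 : ∀ S, lo292KS K₂ S → ∀ v ∈ Y.V, (π v ∈ S ↔ v ∈ S))
    (hle : Rse182Le K₁ K₂) {X : RswCfg → ℝ} (hX : Rci69Inc Y X) :
    Y.sum t (rse182Holds Y K₁) X * Y.sum t (rse182Holds Y K₂) (fun _ => 1)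
      ≤ Y.sum t (rse182Holds Y K₁) (fun _ => 1) * Y.sum t (rse182Holds Y K₂) X := by
  classical
  by_cases f1 : ∃ ω, rse182Holds Y K₁ ω
  swap
  · rw [lo292_sum_zero (fun ω h => f1 ⟨ω, h⟩) t X, lo292_sum_zero (fun ω h => f1 ⟨ω, h⟩) t (fun _ => 1), zero_mul, zero_mul]
  by_cases f2 : ∃ ω, rse182Holds Y K₂ ω
  swap
  · rw [lo292_sum_zero (K := K₂) (fun ω h => f2 ⟨ω, h⟩) t X, lo292_sum_zero (K := K₂) (fun ω h => f2 ⟨ω, h⟩) t (fun _ => 1), mul_zero, mul_zero]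
  obtain ⟨ω₁, f1⟩ := f1
  obtain ⟨ω₂, f2⟩ := f2
  have c₁ := lo292_cons_of_holds l₁ f1
  have c₂ := lo292_cons_of_holds l₂ f2
  rw [lo292_sum c₁, lo292_sum c₁, lo292_sum c₂, lo292_sum c₂]
  have noD : ∀ (K : RswCon) (Z : RswCfg → ℝ), (∀ S D O, Z ⟨S, D, O⟩ = Z ⟨S, ∅, O⟩) →
      ∀ S D O, (fun ω => lo292Pi K ω * Z ω) ⟨S, D, O⟩ = (fun ω => lo292Pi K ω * Z ω) ⟨S, ∅, O⟩ := by
    intro K Z hZ S D O
    show lo292Pi K ⟨S, D, O⟩ * Z ⟨S, D, O⟩ = lo292Pi K ⟨S, ∅, O⟩ * Z ⟨S, ∅, O⟩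
    rw [hZ S D O]
    rfl
  have a1 := rci69_sum_AT hc h0.ne' hF (lo292KS K₁) k1 (fun ω => lo292Pi K₁ ω * X ω) (noD K₁ X hX.noD)
  have a2 := rci69_sum_AT hc h0.ne' hF (lo292KS K₂) k2 (fun ω => lo292Pi K₂ ω * X ω) (noD K₂ X hX.noD)
  have a3 := rci69_sum_AT hc h0.ne' hF (lo292KS K₁) k1 (fun ω => lo292Pi K₁ ω * 1) (noD K₁ (fun _ => 1) (fun _ _ _ => rfl))
  have a4 := rci69_sum_AT hc h0.ne' hF (lo292KS K₂) k2 (fun ω => lo292Pi K₂ ω * 1) (noD K₂ (fun _ => 1) (fun _ _ _ => rfl))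
  simp only [lo292_Pi_eq l₁] at a1 a3
  simp only [lo292_Pi_eq l₂] at a2 a4
  have key := hol12_AT_holley (rci69Ep0 hc) (rci69Ep1 hc) (cmi291_r_nonneg h0 h1)
    (lo292Oo Y K₁) (lo292Oc Y K₁) (lo292Oo Y K₂) (lo292Oc Y K₂)
    (fun i hi hi' => c₁.dis i.1 (Finset.mem_subtype.1 hi) (Finset.mem_subtype.1 hi'))
    (fun i hi hi' => c₂.dis i.1 (Finset.mem_subtype.1 hi) (Finset.mem_subtype.1 hi'))
    (lo292Pp Y π K₁) (lo292Pm Y π K₁) (lo292Pp Y π K₂) (lo292Pm Y π K₂)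
    (rci69_Phi_nonneg (Y := Y) (lo292KS K₁)) (rci69_Phi_nonneg (Y := Y) (lo292KS K₂))
    (rci69_Phi_holley2 (lo292_KS_holley hle.sp hle.sm))
    (lo292_pins_spec k1) (lo292_pins_spec k2)
    (fun v ⟨w, hw, hV, e⟩ => ⟨w, hle.sp hw, hV, e⟩) (fun v ⟨w, hw, hV, e⟩ => ⟨w, hle.sm hw, hV, e⟩)
    (lo292_ok_gen hc l₁) (lo292_ok_gen hc l₂)
    (fun i hi => by
      rcases Finset.mem_union.1 (Finset.mem_subtype.1 hi) with a | a
      · exact Or.inr (Finset.mem_subtype.2 (Finset.mem_union_left _ (hle.gp a)))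
      · exact Or.inl (Or.inl ⟨_, c₁.gm i.1 a _ (Or.inl rfl), hc.wf.p0 _ i.2, rfl⟩))
    (fun i hi => by
      rcases Finset.mem_union.1 (hle.cl2 (Finset.mem_subtype.1 hi)) with a | a
      · exact Or.inr (Finset.mem_union_right _ (Finset.mem_subtype.2 a))
      · exact Or.inr (Finset.mem_union_left _ (Finset.mem_subtype.2 (Finset.mem_union_right _ a))))
    (fun i hi => by
      rcases Finset.mem_union.1 (Finset.mem_subtype.1 hi) with a | a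
      · exact Or.inl (Or.inl ⟨_, c₂.gp i.1 a _ (Or.inl rfl), hc.wf.p0 _ i.2, rfl⟩)
      · exact Or.inr (Finset.mem_subtype.2 (Finset.mem_union_right _ (hle.gm a))))
    (fun i hi => by
      rcases Finset.mem_union.1 (hle.cl1 (Finset.mem_subtype.1 hi)) with a | a
      · exact Or.inr (Finset.mem_union_right _ (Finset.mem_subtype.2 a))
      · exact Or.inr (Finset.mem_union_left _ (Finset.mem_subtype.2 (Finset.mem_union_left _ a))))
    (rci69_inc_gen hc hX)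
  have hK := rci69_K_pos hc h0
  have hcc : (0 : ℝ) < (2 : ℝ) ^ Fintype.card ↥Y.V := by positivity
  refine le_of_mul_le_mul_left ?_ (mul_pos hcc hcc)
  calc (2 : ℝ) ^ Fintype.card ↥Y.V * (2 : ℝ) ^ Fintype.card ↥Y.V
        * (Y.sum t (fun ω => lo292KS K₁ ω.S) (fun ω => lo292Pi K₁ ω * X ω) * Y.sum t (fun ω => lo292KS K₂ ω.S) (fun ω => lo292Pi K₂ ω * 1))
      = ((2 : ℝ) ^ Fintype.card ↥Y.V * Y.sum t (fun ω => lo292KS K₁ ω.S) (fun ω => lo292Pi K₁ ω * X ω))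
        * ((2 : ℝ) ^ Fintype.card ↥Y.V * Y.sum t (fun ω => lo292KS K₂ ω.S) (fun ω => lo292Pi K₂ ω * 1)) := by ring
    _ ≤ ((2 : ℝ) ^ Fintype.card ↥Y.V * Y.sum t (fun ω => lo292KS K₁ ω.S) (fun ω => lo292Pi K₁ ω * 1))
        * ((2 : ℝ) ^ Fintype.card ↥Y.V * Y.sum t (fun ω => lo292KS K₂ ω.S) (fun ω => lo292Pi K₂ ω * X ω)) := by
        rw [a1, a2, a3, a4]
        have := mul_le_mul_of_nonneg_left key (mul_pos hK hK).le
        nlinarith [this]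
    _ = _ := by ring

/-- **(ORD)**: the contract of `LenInst182` on a system with eq. (3.5) -/
theorem lo292_ord (hc : Rci69Ctr Y π) {t : ℝ} (h0 : 0 < t) (h1 : t ≤ 1) (hF : Rci69Dual hc) {𝓛 : Rln182Law RswCfg TV}
    (hl : Rse182Link Y t 𝓛) (hle : ∀ ω ω', Y.Le ω ω' → 𝓛.le ω ω') {K : RswCon}
    (hK : ∀ S, lo292KS K S → ∀ v ∈ Y.V, (π v ∈ S ↔ v ∈ S)) : Rse182Ord Y 𝓛 K := by
  intro K₁ K₂ l₁ l₂ a1 a2 b1 b2 h12 F hFm
  unfold Rln182Law.Z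
  rw [rse182_N_sum hl, rse182_N_sum hl, rse182_N_sum hl, rse182_N_sum hl]
  exact lo292_holley hc h0 h1 hF l₁ l₂ (fun S hS => hK S ⟨a1.trans hS.1, fun v hv => hS.2 v (a2 hv)⟩)
    (fun S hS => hK S ⟨b1.trans hS.1, fun v hv => hS.2 v (b2 hv)⟩) h12 (fun ω ω' h => hFm _ _ (hle _ _ h))

/-- **(T1) ASSOCIATION UNDER A LEGAL HISTORY ON A SYSTEM** (infeasible histories allowed) -/
theorem lo292_fkg (hc : Rci69Ctr Y π) {t : ℝ} (h0 : 0 < t) (h1 : t ≤ 1) (hF : Rci69Dual hc) {K : RswCon}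
    (l : Rse182Legal Y K) (k1 : ∀ S, lo292KS K S → ∀ v ∈ Y.V, (π v ∈ S ↔ v ∈ S))
    {X X' : RswCfg → ℝ} (hX : Rci69Inc Y X) (hX' : Rci69Inc Y X') :
    Y.sum t (rse182Holds Y K) X * Y.sum t (rse182Holds Y K) X'
      ≤ Y.sum t (rse182Holds Y K) (fun _ => 1) * Y.sum t (rse182Holds Y K) (fun ω => X ω * X' ω) := by
  classical
  by_cases f1 : ∃ ω, rse182Holds Y K ω
  swap
  · rw [lo292_sum_zero (fun ω h => f1 ⟨ω, h⟩) t X, lo292_sum_zero (fun ω h => f1 ⟨ω, h⟩) t (fun _ => 1), zero_mul, zero_mul]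
  obtain ⟨ω₁, f1⟩ := f1
  have c := lo292_cons_of_holds l f1
  rw [lo292_sum c, lo292_sum c, lo292_sum c, lo292_sum c]
  have noD : ∀ (Z : RswCfg → ℝ), (∀ S D O, Z ⟨S, D, O⟩ = Z ⟨S, ∅, O⟩) →
      ∀ S D O, (fun ω => lo292Pi K ω * Z ω) ⟨S, D, O⟩ = (fun ω => lo292Pi K ω * Z ω) ⟨S, ∅, O⟩ := by
    intro Z hZ S D O
    show lo292Pi K ⟨S, D, O⟩ * Z ⟨S, D, O⟩ = lo292Pi K ⟨S, ∅, O⟩ * Z ⟨S, ∅, O⟩
    rw [hZ S D O]
    rfl
  have a1 := rci69_sum_AT hc h0.ne' hF (lo292KS K) k1 (fun ω => lo292Pi K ω * X ω) (noD X hX.noD)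
  have a2 := rci69_sum_AT hc h0.ne' hF (lo292KS K) k1 (fun ω => lo292Pi K ω * X' ω) (noD X' hX'.noD)
  have a3 := rci69_sum_AT hc h0.ne' hF (lo292KS K) k1 (fun ω => lo292Pi K ω * 1) (noD (fun _ => 1) (fun _ _ _ => rfl))
  have a4 := rci69_sum_AT hc h0.ne' hF (lo292KS K) k1 (fun ω => lo292Pi K ω * (X ω * X' ω))
    (noD (fun ω => X ω * X' ω) (fun S D O => by rw [hX.noD S D O, hX'.noD S D O]))
  simp only [lo292_Pi_eq l] at a1 a2 a3 a4
  have key := cmq291_AT_fkg (rci69Ep0 hc) (rci69Ep1 hc) (cmi291_r_nonneg h0 h1) (lo292Oo Y K) (lo292Oc Y K)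
    (fun i hi hi' => c.dis i.1 (Finset.mem_subtype.1 hi) (Finset.mem_subtype.1 hi'))
    (hol12M (rci69Ep0 hc) (rci69Ep1 hc) (lo292Pp Y π K) (lo292Pm Y π K))
    (rci69_Phi_nonneg (Y := Y) (lo292KS K))
    (rci69_Phi_holley (fun S S' h h' => lo292_KS_holley (Finset.Subset.refl _) (Finset.Subset.refl _) S S' h h'))
    (fun s hs i hi => hol12_M_spec _ _ _ _ s (lo292_pins_spec k1 s hs).1 (lo292_pins_spec k1 s hs).2 i
      (lo292_ok_gen hc l i (Finset.mem_union_right _ hi)))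
    (rci69_inc_gen hc hX) (rci69_inc_gen hc hX')
  have hK := rci69_K_pos hc h0
  have hcc : (0 : ℝ) < (2 : ℝ) ^ Fintype.card ↥Y.V := by positivity
  refine le_of_mul_le_mul_left ?_ (mul_pos hcc hcc)
  calc (2 : ℝ) ^ Fintype.card ↥Y.V * (2 : ℝ) ^ Fintype.card ↥Y.V
        * (Y.sum t (fun ω => lo292KS K ω.S) (fun ω => lo292Pi K ω * X ω) * Y.sum t (fun ω => lo292KS K ω.S) (fun ω => lo292Pi K ω * X' ω))
      = ((2 : ℝ) ^ Fintype.card ↥Y.V * Y.sum t (fun ω => lo292KS K ω.S) (fun ω => lo292Pi K ω * X ω))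
        * ((2 : ℝ) ^ Fintype.card ↥Y.V * Y.sum t (fun ω => lo292KS K ω.S) (fun ω => lo292Pi K ω * X' ω)) := by ring
    _ ≤ ((2 : ℝ) ^ Fintype.card ↥Y.V * Y.sum t (fun ω => lo292KS K ω.S) (fun ω => lo292Pi K ω * 1))
        * ((2 : ℝ) ^ Fintype.card ↥Y.V * Y.sum t (fun ω => lo292KS K ω.S) (fun ω => lo292Pi K ω * (X ω * X' ω))) := by
        rw [a1, a2, a3, a4]
        have := mul_le_mul_of_nonneg_left key (mul_pos hK hK).le
        nlinarith [this]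
    _ = _ := by ring

/-- **(FKG)**: the contract `Rln182Fkg` of `Len182` (under `K` and under `K` + full observation of a set of cells) on a system with eq. (3.5) -/
theorem lo292_lnfkg (hc : Rci69Ctr Y π) {t : ℝ} (h0 : 0 < t) (h1 : t ≤ 1) (hF : Rci69Dual hc) {𝓛 : Rln182Law RswCfg TV}
    (hl : Rse182Link Y t 𝓛) (hle : ∀ ω ω', Y.Le ω ω' → 𝓛.le ω ω') (hpt : ∀ y ∈ 𝓛.cells, Rse182Pt Y y) {K : RswCon} (hK : Rse182Legal Y K)
    (hKπ : ∀ S, lo292KS K S → ∀ v ∈ Y.V, (π v ∈ S ↔ v ∈ S)) : Rln182Fkg 𝓛 (rse182Holds Y K) := by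
  refine ⟨fun F G hFm hGm => ?_, fun Q ω₀ F G hQ _ _ hFm hGm => ?_⟩
  · unfold Rln182Law.Z
    rw [rse182_N_sum hl, rse182_N_sum hl, rse182_N_sum hl, rse182_N_sum hl]
    exact lo292_fkg hc h0 h1 hF hK hKπ (fun ω ω' h => hFm _ _ (hle _ _ h)) (fun ω ω' h => hGm _ _ (hle _ _ h))
  · have e : ∀ Z : RswCfg → ℝ, 𝓛.N (fun ω => rse182Holds Y K ω ∧ 𝓛.agr Q ω₀ ω) Z = Y.sum t (rse182Holds Y (rse182Obs Y K Q ω₀)) Z := by
      intro Z
      rw [← rse182_N_sum hl]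
      refine rse182_N_congr 𝓛 (fun ω _ hw => ?_) Z
      rw [hl.wt] at hw
      exact (rse182_obs_holds hl K Q (fun y hy => hpt y (hQ hy)) ω₀ ω hw).symm
    unfold Rln182Law.Z
    rw [e, e, e, e]
    exact lo292_fkg hc h0 h1 hF (rse182_obs_legal hc.wf hK Q ω₀)
      (fun S hS => hKπ S ⟨Finset.subset_union_left.trans hS.1, fun v hv => hS.2 v (Finset.mem_union_left _ hv)⟩)
      (fun ω ω' h => hFm _ _ (hle _ _ h)) (fun ω ω' h => hGm _ _ (hle _ _ h))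

end sys

/-- **(ORD) on the mixed cylinder** -/
theorem lo292_cyl_ord {t : ℝ} (h0 : 0 < t) (h1 : t ≤ 1) {L : ℕ} (hL : 0 < L) {a b : ℤ} (hab : a < b) {𝓛 : Rln182Law RswCfg TV}
    (hl : Rse182Link (rcy162Cyl L a b) t 𝓛) (hle : ∀ ω ω', (rcy162Cyl L a b).Le ω ω' → 𝓛.le ω ω') {K : RswCon}
    (hm : rcy162Row L a ⊆ K.Sm) (hp : rcy162Row L b ⊆ K.Sp) : Rse182Ord (rcy162Cyl L a b) 𝓛 K :=
  lo292_ord (rci69_cyl_ctr hL hab) h0 h1 (rci69_cyl_dual hL hab) hl hle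
    (fun S hS => rci69_mix_k1 hL hab S ⟨fun v hv => hS.2 v (hm hv), hp.trans hS.1⟩)

/-- **(FKG) on the mixed cylinder** -/
theorem lo292_cyl_lnfkg {t : ℝ} (h0 : 0 < t) (h1 : t ≤ 1) {L : ℕ} (hL : 0 < L) {a b : ℤ} (hab : a < b) {𝓛 : Rln182Law RswCfg TV}
    (hl : Rse182Link (rcy162Cyl L a b) t 𝓛) (hle : ∀ ω ω', (rcy162Cyl L a b).Le ω ω' → 𝓛.le ω ω')
    (hpt : ∀ y ∈ 𝓛.cells, Rse182Pt (rcy162Cyl L a b) y) {K : RswCon}
    (hK : Rse182Legal (rcy162Cyl L a b) K) (hm : rcy162Row L a ⊆ K.Sm) (hp : rcy162Row L b ⊆ K.Sp) :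
    Rln182Fkg 𝓛 (rse182Holds (rcy162Cyl L a b) K) :=
  lo292_lnfkg (rci69_cyl_ctr hL hab) h0 h1 (rci69_cyl_dual hL hab) hl hle hpt hK
    (fun S hS => rci69_mix_k1 hL hab S ⟨fun v hv => hS.2 v (hm hv), hp.trans hS.1⟩)

/-! ## PART 2. the two closed contracts of `LenInst182` par. 6 -/

/-- (FKG) with a reduction of the observed set: every observed set of cells may be replaced, under `K`, by a set of points of the system -/
theorem lo292_lnfkg_red {Y : Rcy162Sys} {π : ℤ × ℤ → ℤ × ℤ} (hc : Rci69Ctr Y π) {t : ℝ} (h0 : 0 < t) (h1 : t ≤ 1) (hF : Rci69Dual hc) {𝓛 : Rln182Law RswCfg TV}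
    (hl : Rse182Link Y t 𝓛) (hle : ∀ ω ω', Y.Le ω ω' → 𝓛.le ω ω') {K : RswCon} (hK : Rse182Legal Y K)
    (hred : ∀ Q : Finset TV, Q ⊆ 𝓛.cells → ∀ ω₀, rse182Holds Y K ω₀ → ∃ Q' : Finset TV, (∀ y ∈ Q', Rse182Pt Y y) ∧
      ∀ ω, rse182Holds Y K ω → (𝓛.agr Q ω₀ ω ↔ 𝓛.agr Q' ω₀ ω))
    (hKπ : ∀ S, lo292KS K S → ∀ v ∈ Y.V, (π v ∈ S ↔ v ∈ S)) : Rln182Fkg 𝓛 (rse182Holds Y K) := by
  refine ⟨fun F G hFm hGm => ?_, fun Q ω₀ F G hQ _ hK0 hFm hGm => ?_⟩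
  · unfold Rln182Law.Z
    rw [rse182_N_sum hl, rse182_N_sum hl, rse182_N_sum hl, rse182_N_sum hl]
    exact lo292_fkg hc h0 h1 hF hK hKπ (fun ω ω' h => hFm _ _ (hle _ _ h)) (fun ω ω' h => hGm _ _ (hle _ _ h))
  · obtain ⟨Q', hQ', hiff⟩ := hred Q hQ ω₀ hK0
    have e : ∀ Z : RswCfg → ℝ, 𝓛.N (fun ω => rse182Holds Y K ω ∧ 𝓛.agr Q ω₀ ω) Z = Y.sum t (rse182Holds Y (rse182Obs Y K Q' ω₀)) Z := by
      intro Z
      rw [← rse182_N_sum hl]
      refine rse182_N_congr 𝓛 (fun ω _ hw => ?_) Z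
      rw [hl.wt] at hw
      rw [rse182_obs_holds hl K Q' hQ' ω₀ ω hw]
      exact ⟨fun h => ⟨h.1, (hiff ω h.1).1 h.2⟩, fun h => ⟨h.1, (hiff ω h.1).2 h.2⟩⟩
    unfold Rln182Law.Z
    rw [e, e, e, e]
    exact lo292_fkg hc h0 h1 hF (rse182_obs_legal hc.wf hK Q' ω₀)
      (fun S hS => hKπ S ⟨Finset.subset_union_left.trans hS.1, fun v hv => hS.2 v (Finset.mem_union_left _ hv)⟩)
      (fun ω ω' h => hFm _ _ (hle _ _ h)) (fun ω ω' h => hGm _ _ (hle _ _ h))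

/-- under the mixed condition the status of a vertex of the row `0` is `-1` -/
theorem lo292_row0 {L H : ℕ} (hL : 0 < L / 2) {ω : RswCfg} (h : Rcy162Mix (L / 2) 0 ((H / 2 : ℕ) : ℤ) ω) (v : ℤ × ℤ) (hv : v.2 = 0) :
    (rse182Y L H).sgV ω (rcy162Red (L / 2) v) = -1 := by
  have hr := rcy162_red_range hL v
  refine rcy162_sgV_neg.2 ⟨rcy162_mem_cylV.2 ⟨hr, ?_, ?_⟩, h.1 _ (rcy162_mem_row.2 ⟨hr, hv⟩)⟩
  · rw [rcy162_red_snd, hv]
  · rw [rcy162_red_snd, hv]; positivity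

/-- a cell of the refined cylinder is a point of the system, or the midpoint of a horizontal edge of the row `0` -/
theorem lo292_cell_cases {L H : ℕ} (eL : L % 2 = 0) (eH : H % 2 = 0) {y : TV} (hy : y ∈ sdCells L 0 H) :
    Rse182Pt (rse182Y L H) y ∨ ∃ x : ℤ, y = rtd111E ((x, 0), false) := by
  have hy' : (0 ≤ y.1 ∧ y.1 < L) ∧ 0 ≤ y.2 ∧ y.2 < H := by
    unfold sdCells at hy
    rwa [Finset.mem_product, Finset.mem_Ico, Finset.mem_Ico] at hy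
  obtain ⟨⟨a1, a2⟩, a3, a4⟩ := hy'
  have cL : ((L / 2 : ℕ) : ℤ) = (L : ℤ) / 2 := by push_cast; rfl
  have cH : ((H / 2 : ℕ) : ℤ) = (H : ℤ) / 2 := by push_cast; rfl
  rcases rtd111_cases y with ⟨v, rfl⟩ | ⟨f, rfl⟩ | ⟨⟨⟨x, j⟩, b⟩, rfl⟩
  · refine Or.inl (Or.inl ⟨v, rcy162_mem_cylV.2 ?_, rfl⟩)
    simp only [rtd111P] at a1 a2 a3 a4
    rw [cL, cH]
    refine ⟨⟨?_, ?_⟩, ?_, ?_⟩ <;> omega
  · exact Or.inl (Or.inr (Or.inl ⟨f, rfl⟩))
  · cases b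
    · simp only [rtd111E, Bool.false_eq_true, if_false] at a1 a2 a3 a4
      by_cases hj : j = 0
      · subst hj
        exact Or.inr ⟨x, rfl⟩
      · refine Or.inl (Or.inr (Or.inr ⟨_, rcy162_mem_cylE.2 ?_, rfl⟩))
        rw [cL, cH]
        refine ⟨⟨?_, ?_⟩, Or.inl ⟨rfl, ?_, ?_⟩⟩ <;> simp only <;> omega
    · simp only [rtd111E, if_true] at a1 a2 a3 a4
      refine Or.inl (Or.inr (Or.inr ⟨_, rcy162_mem_cylE.2 ?_, rfl⟩))
      rw [cL, cH]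
      refine ⟨⟨?_, ?_⟩, Or.inr ⟨rfl, ?_, ?_⟩⟩ <;> simp only <;> omega

/-- **CONTRACT `Rse182COrd` CLOSED** -/
theorem lo292_COrd {t : ℝ} (h0 : 0 < t) (h1 : t ≤ 1) : Rse182COrd t := by
  intro L H eL eH hL hH
  have hL2 : 0 < L / 2 := by omega
  have hH2 : (0 : ℤ) < ((H / 2 : ℕ) : ℤ) := by
    have : 0 < H / 2 := by omega
    exact_mod_cast this
  exact lo292_cyl_ord h0 h1 hL2 hH2 (rse182_cyl_link t hL2) (fun _ _ h => h) (Finset.Subset.refl _) (Finset.Subset.refl _)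

open Classical in
/-- **CONTRACT `Rln182CFkg2` CLOSED on the mixed cylinder** -/
theorem lo292_CFkg2 {t : ℝ} (h0 : 0 < t) (h1 : t ≤ 1) : Rln182CFkg2 (rse182Cyl t) rse182K := by
  intro L H eL eH hL hH
  have hL2 : 0 < L / 2 := by omega
  have hH2 : (0 : ℤ) < ((H / 2 : ℕ) : ℤ) := by
    have : 0 < H / 2 := by omega
    exact_mod_cast this
  refine lo292_lnfkg_red (rci69_cyl_ctr hL2 hH2) h0 h1 (rci69_cyl_dual hL2 hH2) (rse182_cyl_link t hL2) (fun _ _ h => h) (rse182_KM_legal L H) ?_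
    (fun S hS => rci69_mix_k1 hL2 hH2 S ⟨fun v hv => hS.2 v hv, hS.1⟩)
  intro Q hQ ω₀ hK0
  refine ⟨Q.filter (Rse182Pt (rse182Y L H)), fun y hy => (Finset.mem_filter.1 hy).2, fun ω hKω => ⟨fun h => rcy162_agr_mono (Finset.filter_subset _ _) h, fun h y hy => ?_⟩⟩
  have m0 := (rse182_KM_holds L H ω₀).1 hK0
  have m1 := (rse182_KM_holds L H ω).1 hKω
  rcases lo292_cell_cases eL eH (hQ hy) with hp | ⟨x, rfl⟩
  · exact h y (Finset.mem_filter.2 ⟨hy, hp⟩)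
  · have hn : rcy162RedE (L / 2) ((x, 0), false) ∉ (rse182Y L H).E := by
      intro hc
      rcases (rcy162_mem_cylE.1 hc).2 with ⟨-, c1, -⟩ | ⟨c1, -⟩
      · exact absurd c1 (lt_irrefl _)
      · exact absurd c1 Bool.false_ne_true
    refine ⟨?_, fun e' he' => ?_⟩
    · rw [rcy162_fld_E, rcy162_fld_E, rcy162_sgE_of_not _ hn, rcy162_sgE_of_not _ hn]
    · have ee : e' = ((x, 0), false) := (rtd111_E_inj he').symm
      subst ee
      rw [rcy162_fld_P, rcy162_fld_P, rcy162_fld_P, rcy162_fld_P]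
      exact ⟨(lo292_row0 hL2 m0 _ rfl).trans (lo292_row0 hL2 m1 _ rfl).symm, (lo292_row0 hL2 m0 _ rfl).trans (lo292_row0 hL2 m1 _ rfl).symm⟩

end Claimed.Agent.R292
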