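import Claimed.Agent.R292.Rsw.Sys162
import Claimed.Agent.R292.Rsw.LenInst182
import Claimed.Agent.R292.Rsw.RswCyl86
import Claimed.Agent.R291.Ann.RswClose

/-!
# Row 292 (S0540), Rsw/RswClose117 : R8 CORE, BLOCK C1, THE PATCH LEMMA ON AN EDGE-PAIR SYSTEM      (owner helper117; prefix `rwc117_`, defs `rwc117*`)

Port of R291 `Ann/RswClose` (TEX[annulus:patch], finite energy along a short path) to the edge-pair systems `Rcy162Sys` of 162 and the histories `RswCon` of 121 / `rse182Holds`, `Rse182Legal` of 182.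
Row 7 of the board `c1_post`; deal of 86 (head of C1, `RswCyl86` section 11): consumer = the case NEAR of the trichotomy touch / near / far for `Rrc86LK`.

WHAT IS PROVED (0 sorry):
* `rwc117_sum_D`    : the sum over the face spins of the product of the factors = (product of the `(S, O)` factors `rwc117G`) * #(face configurations which respect the ties of the closed edges);
* `rwc117_Ti_many`  : `|A|` more ties cost at most `2 ^ |A|`;
* **`rwc117_patch`** (generic constraint): `T` mutable sites, `P` edges, `ET = P` + the edges which meet `T`; `K` does not read `D`, is stable under the patch map `rwc117Patch`, and under `K` the endpoints of `P` off `T`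
  are plus   ==>   `t ^ |ET| * Z(K) <= 2 ^ (|T| + 2 |ET|) * Z(K; all edges of P good plus)`;
* **`rwc117_patch_con`** (the form asked by 86): `Y` WF, at most 4 edges at a vertex, `K` legal, `P` a set of at most `n` edges of `Y`, no edge of `P` in `K.Cl`, no endpoint of `P` in `K.Sm`   ==>
  `rwc117Kap t n * Y.sum t (rse182Holds Y K) 1 <= Y.sum t (rse182Holds Y K) 1{all e in P good plus}`,      `rwc117Kap t n = t ^ (9 n) / 2 ^ (20 n)`      (no hypothesis on `K.Gm`: it follows);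
* `rwc117_patch_B`   : the same with one more constraint `B` (a boundary condition) stable under the patch map;
* `rwc117_patch_law` : the same for a law `Rln182Law` linked to `Y` (`Rse182Link`);
* **`rwc117_patch_rec`** : the same under a RECORD `rse182Holds Y K and agr Q w0` (= `rrc86Rec` of 86 for `K := rse182Holds Y K`), hypotheses read on `w0`.

v2 (section 3, 4; the shape consumed by 257, `Rtr257Pat`):
* `rwc117_obs_holds`, `rwc117_patch_rec2` : the record is a history WITHOUT the hypothesis "the cells of `Q` are points of the system" (the cells which are not points carry nothing);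
* **`rwc117_patch_Y`** : under the record `rrc86Rec L K' Q w0` (`K'` = a legal history), all the cells of a LIST `l` of lifted cells are plus (`rrc86Y`) with conditional probability at least `rwc117Kap t n`,
  as soon as the reduction of every cell of `l` is the edge point of an edge of `P` or the vertex point of an endpoint of `P`;
* `rwc117_cyl_deg` (at most four edges at a vertex of the cylinder), `rwc117KM` (the mixed boundary condition as a history, base sizes), `rwc117_KM_holds`, `rwc117_KM_legal`;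
* `Rwc117Pb` (PATCHABLE LIST on the mixed cylinder under the record of the two explorations) and **`rwc117_pat_cyl` : `Rwc117Pb` ==> the inequality `Rtr257Pat` of 257** for `rrc86L t L H`, `Rcy162Mix L 0 H`, `sdRed (2 L)`.

v3 (section 5; the deterministic half of the case NEAR):
* `rwc117_red_P / _E / _F / _end / _inj` (the reduction `sdRed (2 L)` on the refined points), `rwc117_look_plus` (a cell looked at, off the explored cluster, is plus), `rwc117_seen_plus`;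
* **`rwc117_pb_of_chain`** : a lifted primal chain `E'` (at most `n` edges) inside a box narrower than the period, rows strictly between `0` and `2 H`, whose edge points and vertex points avoid the explored cluster, is patchable
  (`Rwc117Pb`): an endpoint revealed through ANOTHER explored edge is handled (its vertex point is then looked at);
* **`rwc117_pat_Q2`** : the same for the record `rrc86Q2` of the two explorations of 86 (clusters `rrc86I`, `rrc86J`), conclusion = `Rtr257Pat` unfolded.   What is left of NEAR = pure planar geometry: the chain exists.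

v4 (section 6): **`rwc117_pb_of_edges`, `rwc117_pat_Q2e`** : only the EDGE POINTS of the chain have to lie in the box and off the explored clusters; nothing is asked from the vertex points
(a vertex point in a cluster would pull the edge point in; a vertex point off the box is revealed only through the edge itself).
-/

set_option autoImplicit false
set_option linter.unusedSectionVars false
set_option linter.unusedVariables false

namespace Claimed.Agent.R292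

open Claims Claims.C0467 Relation Claimed.Agent.R291

/-! ## 1. the generic patch lemma -/

section close

open Finset

/-- the `(S, O)` factor of one edge pair (the table `rswFac` without its `d`-constraint) -/
noncomputable def rwc117G (Y : Rcy162Sys) (t : ℝ) (S : Finset (ℤ × ℤ)) (O : Finset ((ℤ × ℤ) × Bool)) (e : (ℤ × ℤ) × Bool) : ℝ :=
  if e ∈ O then (if (Y.p0 e ∈ S ↔ Y.p1 e ∈ S) then t else 0) else (if (Y.p0 e ∈ S ↔ Y.p1 e ∈ S) then 1 - t else t)

/-- the face configurations which respect the ties `C` -/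
def rwc117Ti (Y : Rcy162Sys) (C : Finset ((ℤ × ℤ) × Bool)) : Finset (Finset (ℤ × ℤ)) :=
  Y.Fc.powerset.filter (fun D => ∀ e ∈ C, (Y.f0 e ∈ D ↔ Y.f1 e ∈ D))

/-- the patch edges: the edges of `P` and the edges which meet a mutable site -/
def rwc117ET (Y : Rcy162Sys) (T : Finset (ℤ × ℤ)) (P : Finset ((ℤ × ℤ) × Bool)) : Finset ((ℤ × ℤ) × Bool) :=
  P ∪ (Y.E.filter fun e => Y.p0 e ∈ T ∨ Y.p1 e ∈ T)

/-- the new statuses: a patch edge is opened iff the new first spin is constant on it -/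
def rwc117PO (Y : Rcy162Sys) (T : Finset (ℤ × ℤ)) (P : Finset ((ℤ × ℤ) × Bool)) (S : Finset (ℤ × ℤ)) (O : Finset ((ℤ × ℤ) × Bool)) :
    Finset ((ℤ × ℤ) × Bool) :=
  (O \ rwc117ET Y T P) ∪ (rwc117ET Y T P).filter (fun e => Y.p0 e ∈ S ∪ T ↔ Y.p1 e ∈ S ∪ T)

/-- THE PATCH MAP: first spin plus on the mutable sites `T`, the patch edges re-decided -/
def rwc117Patch (Y : Rcy162Sys) (T : Finset (ℤ × ℤ)) (P : Finset ((ℤ × ℤ) × Bool)) (ω : RswCfg) : RswCfg :=
  ⟨ω.S ∪ T, ω.D, rwc117PO Y T P ω.S ω.O⟩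

theorem rwc117_eqns_cite : True := by
  have := @rwc117G.eq_1
  have := @rwc117Ti.eq_1
  have := @rwc117ET.eq_1
  have := @rwc117PO.eq_1
  have := @rwc117Patch.eq_1
  trivial

variable (Y : Rcy162Sys) {t : ℝ}

theorem rwc117_G_nonneg (h0 : 0 ≤ t) (h1 : t ≤ 1) (S : Finset (ℤ × ℤ)) (O : Finset ((ℤ × ℤ) × Bool)) (e : (ℤ × ℤ) × Bool) :
    0 ≤ rwc117G Y t S O e := by
  unfold rwc117G
  split_ifs <;> linarith

theorem rwc117_G_le_one (h0 : 0 ≤ t) (h1 : t ≤ 1) (S : Finset (ℤ × ℤ)) (O : Finset ((ℤ × ℤ) × Bool)) (e : (ℤ × ℤ) × Bool) :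
    rwc117G Y t S O e ≤ 1 := by
  unfold rwc117G
  split_ifs <;> linarith

open Classical in
theorem rwc117_fac_eq (t : ℝ) (S D : Finset (ℤ × ℤ)) (O : Finset ((ℤ × ℤ) × Bool)) (e : (ℤ × ℤ) × Bool) :
    Y.fac t ⟨S, D, O⟩ e = if (e ∈ O ∨ (Y.f0 e ∈ D ↔ Y.f1 e ∈ D)) then rwc117G Y t S O e else 0 := by
  unfold Rcy162Sys.fac rwc117G
  by_cases he : e ∈ O
  · simp only [he, if_true, true_or]
  · by_cases hd : (Y.f0 e ∈ D ↔ Y.f1 e ∈ D)
    · simp only [he, if_false, false_or, hd, if_true]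
    · simp only [he, if_false, false_or, hd]

/-- the sum over the face spins -/
theorem rwc117_sum_D (t : ℝ) (S : Finset (ℤ × ℤ)) (O : Finset ((ℤ × ℤ) × Bool)) :
    ∑ D ∈ Y.Fc.powerset, ∏ e ∈ Y.E, Y.fac t ⟨S, D, O⟩ e = (∏ e ∈ Y.E, rwc117G Y t S O e) * ((rwc117Ti Y (Y.E \ O)).card : ℝ) := by
  classical
  have h1 : ∀ D ∈ Y.Fc.powerset, ∏ e ∈ Y.E, Y.fac t ⟨S, D, O⟩ e =
      (∏ e ∈ Y.E, rwc117G Y t S O e) * (if (∀ e ∈ Y.E \ O, (Y.f0 e ∈ D ↔ Y.f1 e ∈ D)) then 1 else 0) := by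
    intro D _
    rw [Finset.prod_congr rfl fun e _ => rwc117_fac_eq Y t S D O e, Finset.prod_ite_zero]
    by_cases h : ∀ e ∈ Y.E, e ∈ O ∨ (Y.f0 e ∈ D ↔ Y.f1 e ∈ D)
    · rw [if_pos h, if_pos (fun e he => ((h e (mem_sdiff.1 he).1).resolve_left (mem_sdiff.1 he).2)), mul_one]
    · rw [if_neg h, if_neg, mul_zero]
      intro h'
      apply h
      intro e he
      by_cases heO : e ∈ O
      · exact Or.inl heO
      · exact Or.inr (h' e (mem_sdiff.2 ⟨he, heO⟩))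
  rw [Finset.sum_congr rfl h1, ← Finset.mul_sum, Finset.sum_boole]
  rfl

/-! ### counting the face configurations -/

theorem rwc117_mem_Ti {C : Finset ((ℤ × ℤ) × Bool)} {D : Finset (ℤ × ℤ)} :
    D ∈ rwc117Ti Y C ↔ D ⊆ Y.Fc ∧ ∀ e ∈ C, (Y.f0 e ∈ D ↔ Y.f1 e ∈ D) := by
  unfold rwc117Ti
  rw [mem_filter, mem_powerset]

theorem rwc117_Ti_anti {C₁ C₂ : Finset ((ℤ × ℤ) × Bool)} (h : C₁ ⊆ C₂) : (rwc117Ti Y C₂).card ≤ (rwc117Ti Y C₁).card := by
  refine card_le_card fun D hD => ?_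
  rw [rwc117_mem_Ti] at hD ⊢
  exact ⟨hD.1, fun e he => hD.2 e (h he)⟩

/-- one more tie costs at most a factor two -/
theorem rwc117_Ti_one (C : Finset ((ℤ × ℤ) × Bool)) (e : (ℤ × ℤ) × Bool) :
    (rwc117Ti Y C).card ≤ 2 * (rwc117Ti Y (insert e C)).card := by
  classical
  have hsplit : (rwc117Ti Y C).card = ((rwc117Ti Y C).filter fun D => (Y.f0 e ∈ D ↔ Y.f1 e ∈ D)).card +
      ((rwc117Ti Y C).filter fun D => ¬ (Y.f0 e ∈ D ↔ Y.f1 e ∈ D)).card :=
    (Finset.card_filter_add_card_filter_not _).symm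
  have h0 : ((rwc117Ti Y C).filter fun D => (Y.f0 e ∈ D ↔ Y.f1 e ∈ D)) = rwc117Ti Y (insert e C) := by
    ext D
    rw [mem_filter, rwc117_mem_Ti, rwc117_mem_Ti]
    constructor
    · rintro ⟨⟨h1, h2⟩, h3⟩
      refine ⟨h1, fun e' he' => ?_⟩
      rcases mem_insert.1 he' with rfl | he'
      · exact h3
      · exact h2 e' he'
    · rintro ⟨h1, h2⟩
      exact ⟨⟨h1, fun e' he' => h2 e' (mem_insert_of_mem he')⟩, h2 e (mem_insert_self _ _)⟩
  have h1 : ((rwc117Ti Y C).filter fun D => ¬ (Y.f0 e ∈ D ↔ Y.f1 e ∈ D)).card ≤ (rwc117Ti Y (insert e C)).card := by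
    rcases ((rwc117Ti Y C).filter fun D => ¬ (Y.f0 e ∈ D ↔ Y.f1 e ∈ D)).eq_empty_or_nonempty with hE | ⟨D₀, hD₀⟩
    · rw [hE]; simp
    · rw [mem_filter, rwc117_mem_Ti] at hD₀
      obtain ⟨⟨a1, a2⟩, a3⟩ := hD₀
      refine card_le_card_of_injOn (fun D => symmDiff D D₀) ?_ ?_
      · intro D hD
        have hD' := hD
        rw [mem_coe, mem_filter, rwc117_mem_Ti] at hD'
        obtain ⟨⟨b1, b2⟩, b3⟩ := hD'
        rw [mem_coe, rwc117_mem_Ti]
        refine ⟨fun x hx => ?_, fun e' he' => ?_⟩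
        · rcases (mem_symmDiff.1 hx) with h | h
          · exact b1 h.1
          · exact a1 h.1
        · rw [mem_symmDiff, mem_symmDiff]
          rcases mem_insert.1 he' with rfl | he'
          · tauto
          · have c1 := a2 e' he'
            have c2 := b2 e' he'
            tauto
      · intro D _ D' _ h
        have : symmDiff (symmDiff D D₀) D₀ = symmDiff (symmDiff D' D₀) D₀ := by
          simp only at h
          rw [h]
        simpa [symmDiff_assoc] using this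
  rw [hsplit, h0]
  omega

/-- `|A|` more ties cost at most `2 ^ |A|` -/
theorem rwc117_Ti_many (C A : Finset ((ℤ × ℤ) × Bool)) : (rwc117Ti Y C).card ≤ 2 ^ A.card * (rwc117Ti Y (C ∪ A)).card := by
  classical
  induction A using Finset.induction_on with
  | empty => simp
  | insert a A ha ih =>
    rw [card_insert_of_notMem ha, pow_succ]
    have h1 := rwc117_Ti_one Y (C ∪ A) a
    have e : insert a (C ∪ A) = C ∪ insert a A := by
      ext x; simp only [mem_insert, mem_union]; tauto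
    rw [e] at h1
    calc (rwc117Ti Y C).card ≤ 2 ^ A.card * (rwc117Ti Y (C ∪ A)).card := ih
      _ ≤ 2 ^ A.card * (2 * (rwc117Ti Y (C ∪ insert a A)).card) := Nat.mul_le_mul_left _ h1
      _ = 2 ^ A.card * 2 * (rwc117Ti Y (C ∪ insert a A)).card := by ring

/-! ### the sums as sums over `(S, O)` -/

open Classical in
/-- the weight of `(S, O)` under `K` after the sum over the face spins -/
noncomputable def rwc117H (Y : Rcy162Sys) (t : ℝ) (K : RswCfg → Prop) (p : Finset (ℤ × ℤ) × Finset ((ℤ × ℤ) × Bool)) : ℝ :=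
  if K ⟨p.1, ∅, p.2⟩ then (∏ e ∈ Y.E, rwc117G Y t p.1 p.2 e) * ((rwc117Ti Y (Y.E \ p.2)).card : ℝ) else 0

theorem rwc117_H_nonneg (h0 : 0 ≤ t) (h1 : t ≤ 1) (K : RswCfg → Prop) (p : Finset (ℤ × ℤ) × Finset ((ℤ × ℤ) × Bool)) :
    0 ≤ rwc117H Y t K p := by
  unfold rwc117H
  split_ifs
  · exact mul_nonneg (prod_nonneg fun e _ => rwc117_G_nonneg Y h0 h1 _ _ e) (Nat.cast_nonneg _)
  · exact le_rfl

/-- a sum whose constraint and integrand do not read the face spins -/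
theorem rwc117_sum_eq (t : ℝ) (K : RswCfg → Prop) (hKD : ∀ S D D' O, K ⟨S, D, O⟩ → K ⟨S, D', O⟩) (X : RswCfg → ℝ)
    (hXD : ∀ S D O, X ⟨S, D, O⟩ = X ⟨S, ∅, O⟩) :
    Y.sum t K X = ∑ p ∈ Y.V.powerset ×ˢ Y.E.powerset, rwc117H Y t K p * X ⟨p.1, ∅, p.2⟩ := by
  classical
  unfold Rcy162Sys.sum
  rw [Finset.sum_product]
  refine sum_congr rfl fun S _ => ?_
  rw [Finset.sum_comm]
  refine sum_congr rfl fun O _ => ?_
  show _ = rwc117H Y t K (S, O) * X ⟨S, ∅, O⟩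
  unfold rwc117H
  by_cases hK : K ⟨S, ∅, O⟩
  · rw [if_pos hK, ← rwc117_sum_D, Finset.sum_mul]
    refine sum_congr rfl fun D _ => ?_
    rw [hXD S D O]
    unfold Rcy162Sys.wt
    rw [if_pos (hKD S ∅ D O hK)]
  · rw [if_neg hK, zero_mul]
    refine sum_eq_zero fun D _ => ?_
    unfold Rcy162Sys.wt
    rw [if_neg (fun h => hK (hKD S D ∅ O h)), zero_mul]

/-! ### the patch -/

variable (T : Finset (ℤ × ℤ)) (P : Finset ((ℤ × ℤ) × Bool))

theorem rwc117_mem_ET {e : (ℤ × ℤ) × Bool} : e ∈ rwc117ET Y T P ↔ e ∈ P ∨ (e ∈ Y.E ∧ (Y.p0 e ∈ T ∨ Y.p1 e ∈ T)) := by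
  unfold rwc117ET
  rw [mem_union, mem_filter]

theorem rwc117_ET_sub (hP : P ⊆ Y.E) : rwc117ET Y T P ⊆ Y.E := by
  intro e he
  rcases (rwc117_mem_ET Y T P).1 he with h | h
  · exact hP h
  · exact h.1

theorem rwc117_mem_PO {S : Finset (ℤ × ℤ)} {O : Finset ((ℤ × ℤ) × Bool)} {e : (ℤ × ℤ) × Bool} :
    e ∈ rwc117PO Y T P S O ↔ (e ∈ O ∧ e ∉ rwc117ET Y T P) ∨ (e ∈ rwc117ET Y T P ∧ (Y.p0 e ∈ S ∪ T ↔ Y.p1 e ∈ S ∪ T)) := by
  unfold rwc117PO
  rw [mem_union, mem_sdiff, mem_filter]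

theorem rwc117_PO_sub (hP : P ⊆ Y.E) {S : Finset (ℤ × ℤ)} {O : Finset ((ℤ × ℤ) × Bool)} (hO : O ⊆ Y.E) : rwc117PO Y T P S O ⊆ Y.E := by
  intro e he
  rcases (rwc117_mem_PO Y T P).1 he with h | h
  · exact hO h.1
  · exact rwc117_ET_sub Y T P hP h.1

/-- off the patch nothing changes -/
theorem rwc117_G_off (t : ℝ) (S : Finset (ℤ × ℤ)) (O : Finset ((ℤ × ℤ) × Bool)) {e : (ℤ × ℤ) × Bool} (he : e ∈ Y.E)
    (hn : e ∉ rwc117ET Y T P) : rwc117G Y t (S ∪ T) (rwc117PO Y T P S O) e = rwc117G Y t S O e := by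
  have h1 : ¬ (Y.p0 e ∈ T ∨ Y.p1 e ∈ T) := fun h => hn ((rwc117_mem_ET Y T P).2 (Or.inr ⟨he, h⟩))
  have a0 : Y.p0 e ∈ S ∪ T ↔ Y.p0 e ∈ S := by rw [mem_union]; tauto
  have a1 : Y.p1 e ∈ S ∪ T ↔ Y.p1 e ∈ S := by rw [mem_union]; tauto
  have a2 : e ∈ rwc117PO Y T P S O ↔ e ∈ O := by rw [rwc117_mem_PO]; tauto
  unfold rwc117G
  simp only [a0, a1, a2]

/-- on the patch every factor is `t` -/
theorem rwc117_G_on (t : ℝ) (S : Finset (ℤ × ℤ)) (O : Finset ((ℤ × ℤ) × Bool)) {e : (ℤ × ℤ) × Bool}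
    (hn : e ∈ rwc117ET Y T P) : rwc117G Y t (S ∪ T) (rwc117PO Y T P S O) e = t := by
  unfold rwc117G
  by_cases hs : (Y.p0 e ∈ S ∪ T ↔ Y.p1 e ∈ S ∪ T)
  · rw [if_pos ((rwc117_mem_PO Y T P).2 (Or.inr ⟨hn, hs⟩)), if_pos hs]
  · have : e ∉ rwc117PO Y T P S O := by rw [rwc117_mem_PO]; tauto
    rw [if_neg this, if_neg hs]

theorem rwc117_prod_G (h0 : 0 ≤ t) (h1 : t ≤ 1) (hP : P ⊆ Y.E) (S : Finset (ℤ × ℤ)) (O : Finset ((ℤ × ℤ) × Bool)) :
    t ^ (rwc117ET Y T P).card * ∏ e ∈ Y.E, rwc117G Y t S O e ≤ ∏ e ∈ Y.E, rwc117G Y t (S ∪ T) (rwc117PO Y T P S O) e := by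
  have hsub := rwc117_ET_sub Y T P hP
  rw [← Finset.prod_sdiff hsub, ← Finset.prod_sdiff hsub,
    Finset.prod_congr rfl (fun e he => rwc117_G_off Y T P t S O (mem_sdiff.1 he).1 (mem_sdiff.1 he).2),
    Finset.prod_congr (s₁ := rwc117ET Y T P) rfl (fun e he => rwc117_G_on Y T P t S O he), Finset.prod_const]
  have a : 0 ≤ ∏ e ∈ Y.E \ rwc117ET Y T P, rwc117G Y t S O e := prod_nonneg fun e _ => rwc117_G_nonneg Y h0 h1 _ _ e
  have b : ∏ e ∈ rwc117ET Y T P, rwc117G Y t S O e ≤ 1 :=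
    prod_le_one (fun e _ => rwc117_G_nonneg Y h0 h1 _ _ e) (fun e _ => rwc117_G_le_one Y h0 h1 _ _ e)
  have c : 0 ≤ t ^ (rwc117ET Y T P).card := pow_nonneg h0 _
  calc t ^ (rwc117ET Y T P).card * ((∏ e ∈ Y.E \ rwc117ET Y T P, rwc117G Y t S O e) * ∏ e ∈ rwc117ET Y T P, rwc117G Y t S O e)
      ≤ t ^ (rwc117ET Y T P).card * ((∏ e ∈ Y.E \ rwc117ET Y T P, rwc117G Y t S O e) * 1) := by gcongr
    _ = (∏ e ∈ Y.E \ rwc117ET Y T P, rwc117G Y t S O e) * t ^ (rwc117ET Y T P).card := by ring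

theorem rwc117_cnt (S : Finset (ℤ × ℤ)) (O : Finset ((ℤ × ℤ) × Bool)) :
    (rwc117Ti Y (Y.E \ O)).card ≤ 2 ^ (rwc117ET Y T P).card * (rwc117Ti Y (Y.E \ rwc117PO Y T P S O)).card := by
  refine (rwc117_Ti_many Y (Y.E \ O) (rwc117ET Y T P)).trans (Nat.mul_le_mul_left _ (rwc117_Ti_anti Y fun e he => ?_))
  rw [mem_sdiff, rwc117_mem_PO] at he
  rw [mem_union, mem_sdiff]
  tauto

/-- the patch map on `(S, O)` -/
def rwc117Phi (Y : Rcy162Sys) (T : Finset (ℤ × ℤ)) (P : Finset ((ℤ × ℤ) × Bool)) (p : Finset (ℤ × ℤ) × Finset ((ℤ × ℤ) × Bool)) :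
    Finset (ℤ × ℤ) × Finset ((ℤ × ℤ) × Bool) := (p.1 ∪ T, rwc117PO Y T P p.1 p.2)

/-- the fibres of the patch map -/
theorem rwc117_fib (b : Finset (ℤ × ℤ) × Finset ((ℤ × ℤ) × Bool)) :
    ((Y.V.powerset ×ˢ Y.E.powerset).filter fun p => rwc117Phi Y T P p = b).card ≤ 2 ^ (T.card + (rwc117ET Y T P).card) := by
  have hc : (T.powerset ×ˢ (rwc117ET Y T P).powerset).card = 2 ^ (T.card + (rwc117ET Y T P).card) := by
    rw [card_product, card_powerset, card_powerset, pow_add]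
  rw [← hc]
  refine card_le_card_of_injOn (fun p => (p.1 ∩ T, p.2 ∩ rwc117ET Y T P)) ?_ ?_
  · intro p _
    rw [mem_coe, mem_product, mem_powerset, mem_powerset]
    exact ⟨inter_subset_right, inter_subset_right⟩
  · intro p hp p' hp' h
    rw [mem_coe, mem_filter] at hp hp'
    have e1 : rwc117Phi Y T P p = rwc117Phi Y T P p' := hp.2.trans hp'.2.symm
    unfold rwc117Phi at e1
    simp only [Prod.mk.injEq] at e1 h
    obtain ⟨e1a, e1b⟩ := e1
    obtain ⟨h1, h2⟩ := h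
    refine Prod.ext ?_ ?_
    · ext x
      have a1 : x ∈ p.1 ∪ T ↔ x ∈ p'.1 ∪ T := by rw [e1a]
      have a2 : x ∈ p.1 ∩ T ↔ x ∈ p'.1 ∩ T := by rw [h1]
      rw [mem_union, mem_union] at a1
      rw [mem_inter, mem_inter] at a2
      tauto
    · ext x
      have a1 : x ∈ rwc117PO Y T P p.1 p.2 ↔ x ∈ rwc117PO Y T P p'.1 p'.2 := by rw [e1b]
      have a2 : x ∈ p.2 ∩ rwc117ET Y T P ↔ x ∈ p'.2 ∩ rwc117ET Y T P := by rw [h2]
      rw [rwc117_mem_PO, rwc117_mem_PO] at a1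
      rw [mem_inter, mem_inter] at a2
      tauto

open Classical in
/-- **(C0) THE PATCH LEMMA** (TEX[annulus:patch]): `K` does not read the face spins, is stable under the patch map, and under `K` the endpoints of the edges of `P` off `T` are plus. -/
theorem rwc117_patch (h0 : 0 ≤ t) (h1 : t ≤ 1) (K : RswCfg → Prop) (hTV : T ⊆ Y.V) (hP : P ⊆ Y.E)
    (hKD : ∀ S D D' O, K ⟨S, D, O⟩ → K ⟨S, D', O⟩) (hKp : ∀ ω, K ω → K (rwc117Patch Y T P ω))
    (hend : ∀ ω, K ω → ∀ e ∈ P, (Y.p0 e ∈ T ∨ Y.p0 e ∈ ω.S) ∧ (Y.p1 e ∈ T ∨ Y.p1 e ∈ ω.S)) :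
    t ^ (rwc117ET Y T P).card * Y.sum t K (fun _ => 1) ≤
      2 ^ (T.card + 2 * (rwc117ET Y T P).card) * Y.sum t K (fun ω => if (∀ e ∈ P, Y.Good true ω e) then 1 else 0) := by
  set n := (rwc117ET Y T P).card with hn
  rw [rwc117_sum_eq Y t K hKD (fun _ => 1) (fun _ _ _ => rfl),
    rwc117_sum_eq Y t K hKD (fun ω => if (∀ e ∈ P, Y.Good true ω e) then 1 else 0) (fun _ _ _ => rfl)]
  set s := Y.V.powerset ×ˢ Y.E.powerset with hs
  set g : Finset (ℤ × ℤ) × Finset ((ℤ × ℤ) × Bool) → ℝ :=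
    fun p => rwc117H Y t K p * (if (∀ e ∈ P, Y.Good true ⟨p.1, ∅, p.2⟩ e) then 1 else 0) with hg
  have hg0 : ∀ p ∈ s, 0 ≤ g p := fun p _ => mul_nonneg (rwc117_H_nonneg Y h0 h1 K p) (by split_ifs <;> norm_num)
  have hΦ : ∀ p ∈ s, rwc117Phi Y T P p ∈ s := by
    intro p hp
    rw [hs, mem_product, mem_powerset, mem_powerset] at hp ⊢
    exact ⟨union_subset hp.1 hTV, rwc117_PO_sub Y T P hP hp.2⟩
  have hpt : ∀ p ∈ s, t ^ n * (rwc117H Y t K p * 1) ≤ 2 ^ n * g (rwc117Phi Y T P p) := by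
    intro p hp
    rw [mul_one]
    by_cases hK : K ⟨p.1, ∅, p.2⟩
    · have hK' : K ⟨p.1 ∪ T, ∅, rwc117PO Y T P p.1 p.2⟩ := hKp _ hK
      have hgood : ∀ e ∈ P, Y.Good true ⟨p.1 ∪ T, ∅, rwc117PO Y T P p.1 p.2⟩ e := by
        intro e he
        obtain ⟨a0, a1⟩ := hend _ hK e he
        have b0 : Y.p0 e ∈ p.1 ∪ T := by rw [mem_union]; tauto
        have b1 : Y.p1 e ∈ p.1 ∪ T := by rw [mem_union]; tauto
        refine ⟨(rwc117_mem_PO Y T P).2 (Or.inr ⟨(rwc117_mem_ET Y T P).2 (Or.inl he), ⟨fun _ => b1, fun _ => b0⟩⟩), ?_, ?_⟩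
        · exact ⟨fun _ => rfl, fun _ => b0⟩
        · exact ⟨fun _ => rfl, fun _ => b1⟩
      show t ^ n * rwc117H Y t K p ≤ 2 ^ n * (rwc117H Y t K (rwc117Phi Y T P p) *
        (if (∀ e ∈ P, Y.Good true ⟨(rwc117Phi Y T P p).1, ∅, (rwc117Phi Y T P p).2⟩ e) then 1 else 0))
      unfold rwc117Phi rwc117H
      simp only
      rw [if_pos hK, if_pos hK', if_pos hgood, mul_one]
      have c1 := rwc117_prod_G Y T P h0 h1 hP p.1 p.2
      have c2 : ((rwc117Ti Y (Y.E \ p.2)).card : ℝ) ≤ 2 ^ n * ((rwc117Ti Y (Y.E \ rwc117PO Y T P p.1 p.2)).card : ℝ) := by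
        exact_mod_cast rwc117_cnt Y T P p.1 p.2
      have c3 : 0 ≤ ∏ e ∈ Y.E, rwc117G Y t (p.1 ∪ T) (rwc117PO Y T P p.1 p.2) e := prod_nonneg fun e _ => rwc117_G_nonneg Y h0 h1 _ _ e
      have c4 : (0 : ℝ) ≤ ((rwc117Ti Y (Y.E \ p.2)).card : ℝ) := Nat.cast_nonneg _
      calc t ^ n * ((∏ e ∈ Y.E, rwc117G Y t p.1 p.2 e) * ((rwc117Ti Y (Y.E \ p.2)).card : ℝ))
          = (t ^ n * ∏ e ∈ Y.E, rwc117G Y t p.1 p.2 e) * ((rwc117Ti Y (Y.E \ p.2)).card : ℝ) := by ring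
        _ ≤ (∏ e ∈ Y.E, rwc117G Y t (p.1 ∪ T) (rwc117PO Y T P p.1 p.2) e) * ((rwc117Ti Y (Y.E \ p.2)).card : ℝ) :=
            mul_le_mul_of_nonneg_right c1 c4
        _ ≤ (∏ e ∈ Y.E, rwc117G Y t (p.1 ∪ T) (rwc117PO Y T P p.1 p.2) e) *
              (2 ^ n * ((rwc117Ti Y (Y.E \ rwc117PO Y T P p.1 p.2)).card : ℝ)) := mul_le_mul_of_nonneg_left c2 c3
        _ = _ := by ring
    · have : rwc117H Y t K p = 0 := by unfold rwc117H; rw [if_neg hK]
      rw [this, mul_zero]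
      exact mul_nonneg (by positivity) (hg0 _ (hΦ p hp))
  have hfib := rcl_sum_comp_le s (rwc117Phi Y T P) hΦ (2 ^ (T.card + n)) (fun b _ => rwc117_fib Y T P b) hg0
  calc t ^ n * ∑ p ∈ s, rwc117H Y t K p * 1 = ∑ p ∈ s, t ^ n * (rwc117H Y t K p * 1) := Finset.mul_sum _ _ _
    _ ≤ ∑ p ∈ s, 2 ^ n * g (rwc117Phi Y T P p) := sum_le_sum hpt
    _ = 2 ^ n * ∑ p ∈ s, g (rwc117Phi Y T P p) := (Finset.mul_sum _ _ _).symm
    _ ≤ 2 ^ n * (((2 ^ (T.card + n) : ℕ) : ℝ) * ∑ p ∈ s, g p) := by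
        have : (0 : ℝ) ≤ 2 ^ n := by positivity
        exact mul_le_mul_of_nonneg_left hfib this
    _ = 2 ^ (T.card + 2 * n) * ∑ p ∈ s, g p := by
        push_cast
        rw [← mul_assoc, ← pow_add]
        congr 2
        omega

end close

/-! ## 2. the patch under a legal history -/

section con

open Finset

variable {Y : Rcy162Sys} {t : ℝ}

/-- the mutable sites of the patch `P` under the history `K`: the endpoints of `P` which are not pinned plus -/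
def rwc117T (Y : Rcy162Sys) (K : RswCon) (P : Finset ((ℤ × ℤ) × Bool)) : Finset (ℤ × ℤ) :=
  (P.image Y.p0 ∪ P.image Y.p1) \ K.Sp

/-- the constant of the patch lemma -/
noncomputable def rwc117Kap (t : ℝ) (n : ℕ) : ℝ := t ^ (9 * n) / 2 ^ (20 * n)

theorem rwc117_eqns_cite2 : True := by
  have := @rwc117T.eq_1
  have := @rwc117Kap.eq_1
  have := @rwc117H.eq_1
  have := @rwc117Phi.eq_1
  trivial

theorem rwc117_Kap_pos (h0 : 0 < t) (n : ℕ) : 0 < rwc117Kap t n := by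
  unfold rwc117Kap
  positivity

theorem rwc117_Kap_nonneg (h0 : 0 ≤ t) (n : ℕ) : 0 ≤ rwc117Kap t n := by
  unfold rwc117Kap
  positivity

theorem rwc117_mem_T {K : RswCon} {P : Finset ((ℤ × ℤ) × Bool)} {v : ℤ × ℤ} :
    v ∈ rwc117T Y K P ↔ (∃ e ∈ P, Rse182End Y e v) ∧ v ∉ K.Sp := by
  unfold rwc117T Rse182End
  rw [mem_sdiff, mem_union, mem_image, mem_image]
  constructor
  · rintro ⟨⟨e, he, h⟩ | ⟨e, he, h⟩, h2⟩
    · exact ⟨⟨e, he, Or.inl h.symm⟩, h2⟩
    · exact ⟨⟨e, he, Or.inr h.symm⟩, h2⟩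
  · rintro ⟨⟨e, he, h | h⟩, h2⟩
    · exact ⟨Or.inl ⟨e, he, h.symm⟩, h2⟩
    · exact ⟨Or.inr ⟨e, he, h.symm⟩, h2⟩

theorem rwc117_T_card (K : RswCon) (P : Finset ((ℤ × ℤ) × Bool)) : (rwc117T Y K P).card ≤ 2 * P.card := by
  unfold rwc117T
  calc ((P.image Y.p0 ∪ P.image Y.p1) \ K.Sp).card ≤ (P.image Y.p0 ∪ P.image Y.p1).card := card_le_card sdiff_subset
    _ ≤ (P.image Y.p0).card + (P.image Y.p1).card := card_union_le _ _
    _ ≤ P.card + P.card := Nat.add_le_add card_image_le card_image_le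
    _ = 2 * P.card := by ring

theorem rwc117_T_sub (hw : Y.WF) (K : RswCon) {P : Finset ((ℤ × ℤ) × Bool)} (hP : P ⊆ Y.E) : rwc117T Y K P ⊆ Y.V := by
  intro v hv
  obtain ⟨⟨e, he, h⟩, _⟩ := rwc117_mem_T.1 hv
  exact rse182_end_V hw (hP he) h

/-- the number of patch edges -/
theorem rwc117_ET_card (T : Finset (ℤ × ℤ)) (P : Finset ((ℤ × ℤ) × Bool)) (d : ℕ)
    (hdeg : ∀ v ∈ T, (Y.E.filter fun e => Y.p0 e = v ∨ Y.p1 e = v).card ≤ d) : (rwc117ET Y T P).card ≤ P.card + T.card * d := by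
  unfold rwc117ET
  refine (card_union_le _ _).trans (Nat.add_le_add_left ?_ _)
  have hsub : (Y.E.filter fun e => Y.p0 e ∈ T ∨ Y.p1 e ∈ T) ⊆ T.biUnion (fun v => Y.E.filter fun e => Y.p0 e = v ∨ Y.p1 e = v) := by
    intro e he
    rw [mem_filter] at he
    rw [mem_biUnion]
    rcases he.2 with h | h
    · exact ⟨_, h, mem_filter.2 ⟨he.1, Or.inl rfl⟩⟩
    · exact ⟨_, h, mem_filter.2 ⟨he.1, Or.inr rfl⟩⟩
  exact (card_le_card hsub).trans (card_biUnion_le_card_mul _ _ _ hdeg)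

/-- a legal history is stable under the patch map -/
theorem rwc117_holds_patch {K : RswCon} (hK : Rse182Legal Y K) {P : Finset ((ℤ × ℤ) × Bool)} (hCl : ∀ e ∈ P, e ∉ K.Cl)
    (hSm : ∀ e ∈ P, ∀ v, Rse182End Y e v → v ∉ K.Sm) {ω : RswCfg} (h : rse182Holds Y K ω) :
    rse182Holds Y K (rwc117Patch Y (rwc117T Y K P) P ω) := by
  obtain ⟨a1, a2, a3, a4, a5⟩ := h
  have hT : ∀ v, v ∈ K.Sp ∪ K.Sm → v ∉ rwc117T Y K P := by
    intro v hv hvT
    obtain ⟨⟨e, he, h⟩, h2⟩ := rwc117_mem_T.1 hvT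
    rcases mem_union.1 hv with h' | h'
    · exact h2 h'
    · exact hSm e he v h h'
  refine ⟨fun v hv => mem_union_left _ (a1 hv), fun v hv hh => ?_, fun e he => ?_, fun e he => ?_, fun e he hh => ?_⟩
  · rcases mem_union.1 hh with h' | h'
    · exact a2 v hv h'
    · exact hT v (mem_union_right _ hv) h'
  · obtain ⟨b1, b2, b3⟩ := a3 e he
    have c0 : Y.p0 e ∈ ω.S ∪ rwc117T Y K P := mem_union_left _ (b2.2 rfl)
    have c1 : Y.p1 e ∈ ω.S ∪ rwc117T Y K P := mem_union_left _ (b3.2 rfl)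
    refine ⟨(rwc117_mem_PO Y _ P).2 ?_, ⟨fun _ => rfl, fun _ => c0⟩, ⟨fun _ => rfl, fun _ => c1⟩⟩
    by_cases hE : e ∈ rwc117ET Y (rwc117T Y K P) P
    · exact Or.inr ⟨hE, ⟨fun _ => c1, fun _ => c0⟩⟩
    · exact Or.inl ⟨b1, hE⟩
  · obtain ⟨b1, b2, b3⟩ := a4 e he
    have he' : e ∈ K.Gp ∪ K.Gm ∪ K.Cl := mem_union_left _ (mem_union_right _ he)
    have c0 : Y.p0 e ∉ ω.S ∪ rwc117T Y K P := by
      intro hh
      rcases mem_union.1 hh with h' | h'
      · exact absurd (b2.1 h') (by decide)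
      · exact hT _ (hK.full e he' _ (Or.inl rfl)) h'
    have c1 : Y.p1 e ∉ ω.S ∪ rwc117T Y K P := by
      intro hh
      rcases mem_union.1 hh with h' | h'
      · exact absurd (b3.1 h') (by decide)
      · exact hT _ (hK.full e he' _ (Or.inr rfl)) h'
    refine ⟨(rwc117_mem_PO Y _ P).2 ?_, ⟨fun h' => absurd h' c0, fun h' => absurd h' (by decide)⟩,
      ⟨fun h' => absurd h' c1, fun h' => absurd h' (by decide)⟩⟩
    by_cases hE : e ∈ rwc117ET Y (rwc117T Y K P) P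
    · exact Or.inr ⟨hE, ⟨fun h' => absurd h' c0, fun h' => absurd h' c1⟩⟩
    · exact Or.inl ⟨b1, hE⟩
  · have he' : e ∈ K.Gp ∪ K.Gm ∪ K.Cl := mem_union_right _ he
    have hE : e ∉ rwc117ET Y (rwc117T Y K P) P := by
      intro hE
      rcases (rwc117_mem_ET Y _ P).1 hE with h' | ⟨_, h' | h'⟩
      · exact hCl e h' he
      · exact hT _ (hK.full e he' _ (Or.inl rfl)) h'
      · exact hT _ (hK.full e he' _ (Or.inr rfl)) h'
    rcases (rwc117_mem_PO Y _ P).1 hh with h' | h'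
    · exact a5 e he h'.1
    · exact hE h'.1

/-- the indicator of 182, whatever the decision procedure -/
theorem rwc117_ind_eq (L : RswCfg → Prop) [DecidablePred L] : (fun ω => if L ω then (1 : ℝ) else 0) = rln182Ind L := by
  funext ω
  unfold rln182Ind
  by_cases h : L ω <;> simp [h]

/-- the patch lemma with the explicit constant, for a constraint `K'` which pins `K.Sp` plus and is stable under the patch map of `(K, P)` -/
theorem rwc117_patch_gen (h0 : 0 ≤ t) (h1 : t ≤ 1) (hw : Y.WF) (hdeg : ∀ v ∈ Y.V, (Y.E.filter fun e => Y.p0 e = v ∨ Y.p1 e = v).card ≤ 4)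
    (K : RswCon) {P : Finset ((ℤ × ℤ) × Bool)} (hP : P ⊆ Y.E) {n : ℕ} (hn : P.card ≤ n) (K' : RswCfg → Prop)
    (hKD : ∀ S D D' O, K' ⟨S, D, O⟩ → K' ⟨S, D', O⟩) (hsp : ∀ ω, K' ω → K.Sp ⊆ ω.S)
    (hKp : ∀ ω, K' ω → K' (rwc117Patch Y (rwc117T Y K P) P ω)) :
    rwc117Kap t n * Y.sum t K' (fun _ => 1) ≤ Y.sum t K' (rln182Ind fun ω => ∀ e ∈ P, Y.Good true ω e) := by
  classical
  rw [← rwc117_ind_eq]
  have hTV := rwc117_T_sub hw K hP
  have hmain := rwc117_patch Y (rwc117T Y K P) P h0 h1 K' hTV hP hKD hKp (fun ω hω e he => by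
    constructor
    · by_cases h : Y.p0 e ∈ K.Sp
      · exact Or.inr (hsp ω hω h)
      · exact Or.inl (rwc117_mem_T.2 ⟨⟨e, he, Or.inl rfl⟩, h⟩)
    · by_cases h : Y.p1 e ∈ K.Sp
      · exact Or.inr (hsp ω hω h)
      · exact Or.inl (rwc117_mem_T.2 ⟨⟨e, he, Or.inr rfl⟩, h⟩))
  have cT : (rwc117T Y K P).card ≤ 2 * n := (rwc117_T_card K P).trans (Nat.mul_le_mul_left _ hn)
  have cE : (rwc117ET Y (rwc117T Y K P) P).card ≤ 9 * n := by
    have := rwc117_ET_card (Y := Y) (rwc117T Y K P) P 4 (fun v hv => hdeg v (hTV hv))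
    omega
  have hZ : 0 ≤ Y.sum t K' (fun _ => 1) := rcy162_sum_nonneg Y K' h0 h1 (fun _ => zero_le_one)
  have hN : 0 ≤ Y.sum t K' (fun ω => if (∀ e ∈ P, Y.Good true ω e) then 1 else 0) :=
    rcy162_sum_nonneg Y K' h0 h1 (fun ω => by split_ifs <;> norm_num)
  have e1 : t ^ (9 * n) ≤ t ^ (rwc117ET Y (rwc117T Y K P) P).card := pow_le_pow_of_le_one h0 h1 cE
  have e2 : (2 : ℝ) ^ ((rwc117T Y K P).card + 2 * (rwc117ET Y (rwc117T Y K P) P).card) ≤ 2 ^ (20 * n) :=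
    pow_le_pow_right₀ (by norm_num) (by omega)
  unfold rwc117Kap
  rw [div_mul_eq_mul_div, div_le_iff₀ (by positivity)]
  calc t ^ (9 * n) * Y.sum t K' (fun _ => 1) ≤ t ^ (rwc117ET Y (rwc117T Y K P) P).card * Y.sum t K' (fun _ => 1) :=
        mul_le_mul_of_nonneg_right e1 hZ
    _ ≤ _ := hmain
    _ ≤ 2 ^ (20 * n) * Y.sum t K' (fun ω => if (∀ e ∈ P, Y.Good true ω e) then 1 else 0) := mul_le_mul_of_nonneg_right e2 hN
    _ = _ := mul_comm _ _

/-- **(C1) THE PATCH LEMMA UNDER A LEGAL HISTORY** (the form of the deal of 86) -/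
theorem rwc117_patch_con (h0 : 0 ≤ t) (h1 : t ≤ 1) (hw : Y.WF) (hdeg : ∀ v ∈ Y.V, (Y.E.filter fun e => Y.p0 e = v ∨ Y.p1 e = v).card ≤ 4)
    {K : RswCon} (hK : Rse182Legal Y K) {P : Finset ((ℤ × ℤ) × Bool)} (hP : P ⊆ Y.E) {n : ℕ} (hn : P.card ≤ n)
    (hCl : ∀ e ∈ P, e ∉ K.Cl) (hSm : ∀ e ∈ P, ∀ v, Rse182End Y e v → v ∉ K.Sm) :
    rwc117Kap t n * Y.sum t (rse182Holds Y K) (fun _ => 1) ≤
      Y.sum t (rse182Holds Y K) (rln182Ind fun ω => ∀ e ∈ P, Y.Good true ω e) :=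
  rwc117_patch_gen h0 h1 hw hdeg K hP hn (rse182Holds Y K) (fun _ _ _ _ h => h) (fun _ h => h.1)
    (fun _ h => rwc117_holds_patch hK hCl hSm h)

/-- the same with one more constraint `B` (boundary condition) -/
theorem rwc117_patch_B (h0 : 0 ≤ t) (h1 : t ≤ 1) (hw : Y.WF) (hdeg : ∀ v ∈ Y.V, (Y.E.filter fun e => Y.p0 e = v ∨ Y.p1 e = v).card ≤ 4)
    {K : RswCon} (hK : Rse182Legal Y K) {P : Finset ((ℤ × ℤ) × Bool)} (hP : P ⊆ Y.E) {n : ℕ} (hn : P.card ≤ n)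
    (hCl : ∀ e ∈ P, e ∉ K.Cl) (hSm : ∀ e ∈ P, ∀ v, Rse182End Y e v → v ∉ K.Sm) (B : RswCfg → Prop)
    (hBD : ∀ S D D' O, B ⟨S, D, O⟩ → B ⟨S, D', O⟩) (hBp : ∀ ω, B ω → B (rwc117Patch Y (rwc117T Y K P) P ω)) :
    rwc117Kap t n * Y.sum t (fun ω => B ω ∧ rse182Holds Y K ω) (fun _ => 1) ≤
      Y.sum t (fun ω => B ω ∧ rse182Holds Y K ω) (rln182Ind fun ω => ∀ e ∈ P, Y.Good true ω e) :=
  rwc117_patch_gen h0 h1 hw hdeg K hP hn (fun ω => B ω ∧ rse182Holds Y K ω) (fun S D D' O h => ⟨hBD S D D' O h.1, h.2⟩) (fun _ h => h.2.1)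
    (fun ω h => ⟨hBp ω h.1, rwc117_holds_patch hK hCl hSm h.2⟩)

/-- the patch lemma for a law linked to the system -/
theorem rwc117_patch_law {𝓛 : Rln182Law RswCfg TV} (hl : Rse182Link Y t 𝓛) (h0 : 0 ≤ t) (h1 : t ≤ 1) (hw : Y.WF)
    (hdeg : ∀ v ∈ Y.V, (Y.E.filter fun e => Y.p0 e = v ∨ Y.p1 e = v).card ≤ 4)
    {K : RswCon} (hK : Rse182Legal Y K) {P : Finset ((ℤ × ℤ) × Bool)} (hP : P ⊆ Y.E) {n : ℕ} (hn : P.card ≤ n)
    (hCl : ∀ e ∈ P, e ∉ K.Cl) (hSm : ∀ e ∈ P, ∀ v, Rse182End Y e v → v ∉ K.Sm) :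
    rwc117Kap t n * 𝓛.Z (rse182Holds Y K) ≤ 𝓛.N (rse182Holds Y K) (rln182Ind fun ω => ∀ e ∈ P, Y.Good true ω e) := by
  unfold Rln182Law.Z
  rw [rse182_N_sum hl, rse182_N_sum hl]
  exact rwc117_patch_con h0 h1 hw hdeg hK hP hn hCl hSm

/-- **(C1') THE PATCH LEMMA UNDER A RECORD**: the record of the cells `Q` of `ω₀` on top of the legal history `K`; the edges of `P` are not closed in `K`, those observed in `Q` are good plus in `ω₀`;
the endpoints of `P` are not pinned minus in `K`, those carried by `Q` are plus in `ω₀` -/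
theorem rwc117_patch_rec {𝓛 : Rln182Law RswCfg TV} (hl : Rse182Link Y t 𝓛) (h0 : 0 ≤ t) (h1 : t ≤ 1) (hw : Y.WF)
    (hdeg : ∀ v ∈ Y.V, (Y.E.filter fun e => Y.p0 e = v ∨ Y.p1 e = v).card ≤ 4)
    {K : RswCon} (hK : Rse182Legal Y K) (Q : Finset TV) (hQ : ∀ y ∈ Q, Rse182Pt Y y) (ω₀ : RswCfg)
    {P : Finset ((ℤ × ℤ) × Bool)} (hP : P ⊆ Y.E) {n : ℕ} (hn : P.card ≤ n)
    (hCl : ∀ e ∈ P, e ∉ K.Cl ∧ (rtd111E e ∈ Q → Y.Good true ω₀ e))
    (hSm : ∀ e ∈ P, ∀ v, Rse182End Y e v → v ∉ K.Sm ∧ (v ∈ rse182Sv Y Q → v ∈ ω₀.S)) :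
    rwc117Kap t n * 𝓛.Z (fun ω => rse182Holds Y K ω ∧ 𝓛.agr Q ω₀ ω) ≤
      𝓛.N (fun ω => rse182Holds Y K ω ∧ 𝓛.agr Q ω₀ ω) (rln182Ind fun ω => ∀ e ∈ P, Y.Good true ω e) := by
  classical
  have hc : ∀ F : RswCfg → ℝ, 𝓛.N (fun ω => rse182Holds Y K ω ∧ 𝓛.agr Q ω₀ ω) F = 𝓛.N (rse182Holds Y (rse182Obs Y K Q ω₀)) F := by
    intro F
    refine rse182_N_congr 𝓛 (fun ω _ hwt => ?_) F
    rw [hl.wt] at hwt
    exact (rse182_obs_holds hl K Q hQ ω₀ ω hwt).symm
  unfold Rln182Law.Z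
  rw [hc, hc]
  refine rwc117_patch_law hl h0 h1 hw hdeg (rse182_obs_legal hw hK Q ω₀) hP hn (fun e he hh => ?_) (fun e he v hv hh => ?_)
  · rcases mem_union.1 hh with h | h
    · exact (hCl e he).1 h
    · obtain ⟨q1, q2, _⟩ := mem_filter.1 h
      exact q2 ((hCl e he).2 (rse182_mem_Ed.1 q1).2)
  · rcases mem_union.1 hh with h | h
    · exact (hSm e he v hv).1 h
    · obtain ⟨q1, q2⟩ := mem_filter.1 h
      exact q2 ((hSm e he v hv).2 q1)

end con

/-! ## 3. the record without the hypothesis on the cells; lists of lifted cells -/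

section lists

open Finset

variable {Y : Rcy162Sys} {t : ℝ} {𝓛 : Rln182Law RswCfg TV}

open Classical in
theorem rwc117_Sv_filter (Q : Finset TV) : rse182Sv Y (Q.filter (Rse182Pt Y)) = rse182Sv Y Q := by
  ext v
  rw [rse182_mem_Sv, rse182_mem_Sv]
  refine and_congr_right fun hv => ⟨fun ⟨y, hy, h⟩ => ⟨y, (mem_filter.1 hy).1, h⟩, fun ⟨y, hy, h⟩ => ⟨y, mem_filter.2 ⟨hy, ?_⟩, h⟩⟩
  rcases h with h | ⟨e, he, h, _⟩
  · exact Or.inl ⟨v, hv, h⟩
  · exact Or.inr (Or.inr ⟨e, he, h⟩)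

open Classical in
theorem rwc117_Ed_filter (Q : Finset TV) : rse182Ed Y (Q.filter (Rse182Pt Y)) = rse182Ed Y Q := by
  ext e
  rw [rse182_mem_Ed, rse182_mem_Ed]
  exact and_congr_right fun he => ⟨fun h => (mem_filter.1 h).1, fun h => mem_filter.2 ⟨h, Or.inr (Or.inr ⟨e, he, rfl⟩)⟩⟩

/-- the record is a history, for ANY set of cells -/
theorem rwc117_obs_holds (hl : Rse182Link Y t 𝓛) (K : RswCon) (Q : Finset TV) (ω₀ ω : RswCfg) (hw : Y.w t ω ≠ 0) :
    rse182Holds Y (rse182Obs Y K Q ω₀) ω ↔ rse182Holds Y K ω ∧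
      ((∀ v ∈ rse182Sv Y Q, (v ∈ ω₀.S ↔ v ∈ ω.S)) ∧ ∀ e ∈ rse182Ed Y Q, Y.sgE ω₀ e = Y.sgE ω e) := by
  classical
  have hQ' : ∀ y ∈ Q.filter (Rse182Pt Y), Rse182Pt Y y := fun y hy => (mem_filter.1 hy).2
  have h := rse182_obs_holds hl K (Q.filter (Rse182Pt Y)) hQ' ω₀ ω hw
  rw [hl.agr _ hQ'] at h
  unfold rse182Obs at h ⊢
  rw [rwc117_Sv_filter, rwc117_Ed_filter] at h
  exact h

/-- the patch lemma under a record, for a law whose agreement on `Q` is the agreement of `Rse182Link` -/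
theorem rwc117_patch_rec2 (hl : Rse182Link Y t 𝓛) (h0 : 0 ≤ t) (h1 : t ≤ 1) (hw : Y.WF)
    (hdeg : ∀ v ∈ Y.V, (Y.E.filter fun e => Y.p0 e = v ∨ Y.p1 e = v).card ≤ 4)
    {K : RswCon} (hK : Rse182Legal Y K) (Q : Finset TV) (ω₀ : RswCfg)
    (hagr : ∀ ω, 𝓛.agr Q ω₀ ω ↔ ((∀ v ∈ rse182Sv Y Q, (v ∈ ω₀.S ↔ v ∈ ω.S)) ∧ ∀ e ∈ rse182Ed Y Q, Y.sgE ω₀ e = Y.sgE ω e))
    {P : Finset ((ℤ × ℤ) × Bool)} (hP : P ⊆ Y.E) {n : ℕ} (hn : P.card ≤ n)
    (hCl : ∀ e ∈ P, e ∉ K.Cl ∧ (rtd111E e ∈ Q → Y.Good true ω₀ e))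
    (hSm : ∀ e ∈ P, ∀ v, Rse182End Y e v → v ∉ K.Sm ∧ (v ∈ rse182Sv Y Q → v ∈ ω₀.S)) :
    rwc117Kap t n * 𝓛.Z (fun ω => rse182Holds Y K ω ∧ 𝓛.agr Q ω₀ ω) ≤
      𝓛.N (fun ω => rse182Holds Y K ω ∧ 𝓛.agr Q ω₀ ω) (rln182Ind fun ω => ∀ e ∈ P, Y.Good true ω e) := by
  classical
  have hc : ∀ F : RswCfg → ℝ, 𝓛.N (fun ω => rse182Holds Y K ω ∧ 𝓛.agr Q ω₀ ω) F = 𝓛.N (rse182Holds Y (rse182Obs Y K Q ω₀)) F := by
    intro F
    refine rse182_N_congr 𝓛 (fun ω _ hwt => ?_) F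
    rw [hl.wt] at hwt
    rw [hagr ω]
    exact (rwc117_obs_holds hl K Q ω₀ ω hwt).symm
  unfold Rln182Law.Z
  rw [hc, hc]
  refine rwc117_patch_law hl h0 h1 hw hdeg (rse182_obs_legal hw hK Q ω₀) hP hn (fun e he hh => ?_) (fun e he v hv hh => ?_)
  · rcases mem_union.1 hh with h | h
    · exact (hCl e he).1 h
    · obtain ⟨q1, q2, _⟩ := mem_filter.1 h
      exact q2 ((hCl e he).2 (rse182_mem_Ed.1 q1).2)
  · rcases mem_union.1 hh with h | h
    · exact (hSm e he v hv).1 h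
    · obtain ⟨q1, q2⟩ := mem_filter.1 h
      exact q2 ((hSm e he v hv).2 q1)

/-- **(C1, the shape of 257)**: a list of lifted cells is plus under the record -/
theorem rwc117_patch_Y (hl : Rse182Link Y t 𝓛) (hS : 𝓛.Ok) (h0 : 0 ≤ t) (h1 : t ≤ 1) (hw : Y.WF)
    (hdeg : ∀ v ∈ Y.V, (Y.E.filter fun e => Y.p0 e = v ∨ Y.p1 e = v).card ≤ 4)
    {K : RswCon} (hK : Rse182Legal Y K) (K' : RswCfg → Prop) (hK' : ∀ ω, K' ω ↔ rse182Holds Y K ω) (Q : RswCfg → Finset TV) (ω₀ : RswCfg)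
    (hagr : ∀ ω, 𝓛.agr (Q ω₀) ω₀ ω ↔ ((∀ v ∈ rse182Sv Y (Q ω₀), (v ∈ ω₀.S ↔ v ∈ ω.S)) ∧ ∀ e ∈ rse182Ed Y (Q ω₀), Y.sgE ω₀ e = Y.sgE ω e))
    {P : Finset ((ℤ × ℤ) × Bool)} (hP : P ⊆ Y.E) {n : ℕ} (hn : P.card ≤ n)
    (hCl : ∀ e ∈ P, e ∉ K.Cl ∧ (rtd111E e ∈ Q ω₀ → Y.Good true ω₀ e))
    (hSm : ∀ e ∈ P, ∀ v, Rse182End Y e v → v ∉ K.Sm ∧ (v ∈ rse182Sv Y (Q ω₀) → v ∈ ω₀.S))
    (ι : TV → TV) (l : List TV) (hc : ∀ y ∈ l, ι y ∈ 𝓛.cells)
    (hlP : ∀ y ∈ l, (∃ e ∈ P, ι y = rtd111E e) ∨ ∃ e ∈ P, ∃ v, Rse182End Y e v ∧ ι y = rtd111P v) :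
    rwc117Kap t n * 𝓛.Z (rrc86Rec 𝓛 K' Q ω₀) ≤ 𝓛.N (rrc86Rec 𝓛 K' Q ω₀) (rln182Ind fun ω => ∀ y ∈ l, y ∈ rrc86Y 𝓛 ι ω) := by
  have eK : K' = rse182Holds Y K := funext fun ω => propext (hK' ω)
  subst eK
  refine (rwc117_patch_rec2 hl h0 h1 hw hdeg hK (Q ω₀) ω₀ hagr hP hn hCl hSm).trans ?_
  refine rln182_N_mono 𝓛 hS _ _ _ fun ω _ => ?_
  by_cases hg : ∀ e ∈ P, Y.Good true ω e
  · have : ∀ y ∈ l, y ∈ rrc86Y 𝓛 ι ω := by
      intro y hy
      refine ⟨hc y hy, ?_⟩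
      rcases hlP y hy with ⟨e, he, h⟩ | ⟨e, he, v, hv, h⟩
      · rw [h, hl.npE ω e (hP he)]
        exact fun hh => hh (hg e he)
      · rw [h, hl.npP ω v (rse182_end_V hw (hP he) hv)]
        exact fun hh => hh ((rse182_good_end (hg e he) hv).2 rfl)
    rw [rln182_ind_pos hg, rln182_ind_pos this]
  · rw [rln182_ind_neg hg]
    exact rln182_ind_nonneg _ _

end lists

/-! ## 4. the mixed cylinder -/

section cyl

open Finset

/-- at most four edges at a vertex of the cylinder -/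
theorem rwc117_cyl_deg (L : ℕ) (a b : ℤ) (v : ℤ × ℤ) :
    ((rcy162Cyl L a b).E.filter fun e => (rcy162Cyl L a b).p0 e = v ∨ (rcy162Cyl L a b).p1 e = v).card ≤ 4 := by
  have hsub : ((rcy162Cyl L a b).E.filter fun e => (rcy162Cyl L a b).p0 e = v ∨ (rcy162Cyl L a b).p1 e = v) ⊆
      {(v, false), (v, true), (((v.1 - 1) % (L : ℤ), v.2), false), ((v.1, v.2 - 1), true)} := by
    intro e he
    obtain ⟨h1, h2⟩ := mem_filter.1 he
    have hE := rcy162_mem_cylE.1 h1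
    obtain ⟨⟨x, y⟩, b'⟩ := e
    obtain ⟨vx, vy⟩ := v
    simp only [mem_insert, mem_singleton, Prod.mk.injEq]
    dsimp only at hE
    rcases h2 with h2 | h2
    · have h2' : (x, y) = (vx, vy) := h2
      simp only [Prod.mk.injEq] at h2'
      cases b'
      · exact Or.inl ⟨h2', rfl⟩
      · exact Or.inr (Or.inl ⟨h2', rfl⟩)
    · cases b'
      · have h2' : ((x + 1) % (L : ℤ), y) = (vx, vy) := h2
        simp only [Prod.mk.injEq] at h2'
        refine Or.inr (Or.inr (Or.inl ⟨⟨?_, h2'.2⟩, rfl⟩))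
        rw [← h2'.1, Int.emod_sub_emod, add_sub_cancel_right, Int.emod_eq_of_lt hE.1.1 hE.1.2]
      · have h2' : (x % (L : ℤ), y + 1) = (vx, vy) := h2
        simp only [Prod.mk.injEq] at h2'
        refine Or.inr (Or.inr (Or.inr ⟨⟨?_, by omega⟩, rfl⟩))
        rw [← h2'.1, Int.emod_eq_of_lt hE.1.1 hE.1.2]
  exact (card_le_card hsub).trans card_le_four

/-- the mixed boundary condition as a history (base sizes; `rse182KM` of 182 has the refined sizes) -/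
noncomputable def rwc117KM (L H : ℕ) : RswCon := ⟨rcy162Row L (H : ℤ), rcy162Row L 0, ∅, ∅, ∅⟩

theorem rwc117_KM_holds (L H : ℕ) (ω : RswCfg) : Rcy162Mix L 0 H ω ↔ rse182Holds (rcy162Cyl L 0 H) (rwc117KM L H) ω := by
  unfold rse182Holds rwc117KM Rcy162Mix
  simp only [Finset.notMem_empty, false_imp_iff, implies_true, and_true]
  exact ⟨fun h => ⟨h.2, h.1⟩, fun h => ⟨h.2, h.1⟩⟩

theorem rwc117_KM_legal (L H : ℕ) : Rse182Legal (rcy162Cyl L 0 H) (rwc117KM L H) :=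
  ⟨fun e he => by simp [rwc117KM] at he, fun e he => by simp [rwc117KM] at he⟩

/-- **PATCHABLE LIST** on the mixed cylinder under the record `Q ω₀`: there is a set `P` of at most `n` edges of the cylinder such that (1) an edge of `P` whose edge point was looked at is good plus in `ω₀`;
(2) an endpoint of `P` is not on the bottom row, and if it is carried by a cell looked at it is plus in `ω₀`; (3) the reduction of a cell of `l` is the edge point of an edge of `P` or the vertex point of an endpoint of `P` -/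
def Rwc117Pb (L H : ℕ) (Q : RswCfg → Finset TV) (n : ℕ) (ω₀ : RswCfg) (l : List TV) : Prop :=
  ∃ P : Finset ((ℤ × ℤ) × Bool), P ⊆ (rcy162Cyl L 0 H).E ∧ P.card ≤ n ∧
    (∀ e ∈ P, rtd111E e ∈ Q ω₀ → (rcy162Cyl L 0 H).Good true ω₀ e) ∧
    (∀ e ∈ P, ∀ v, Rse182End (rcy162Cyl L 0 H) e v → v.2 ≠ 0 ∧ (v ∈ rse182Sv (rcy162Cyl L 0 H) (Q ω₀) → v ∈ ω₀.S)) ∧
    ∀ y ∈ l, (∃ e ∈ P, sdRed (2 * L) y = rtd111E e) ∨ ∃ e ∈ P, ∃ v, Rse182End (rcy162Cyl L 0 H) e v ∧ sdRed (2 * L) y = rtd111P v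

theorem rwc117_eqns_cite3 : True := by
  have := @rwc117KM.eq_1
  have := @Rwc117Pb.eq_1
  trivial

/-- **(C1) on the mixed cylinder: a patchable list is plus under the record with conditional probability at least `rwc117Kap t n`** (any stopping rule `Q`; for `Q = rrc86Q2 ..` this is `Rtr257Pat` of 257) -/
theorem rwc117_pat_cyl {t : ℝ} (h0 : 0 ≤ t) (h1 : t ≤ 1) {L : ℕ} (hL : 0 < L) (H : ℕ) (Q : RswCfg → Finset TV) (n : ℕ) (ω₀ : RswCfg) (l : List TV)
    (h : Rwc117Pb L H Q n ω₀ l) :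
    rwc117Kap t n * (rrc86L t L H).Z (rrc86Rec (rrc86L t L H) (Rcy162Mix L 0 H) Q ω₀) ≤
      (rrc86L t L H).N (rrc86Rec (rrc86L t L H) (Rcy162Mix L 0 H) Q ω₀)
        (rln182Ind fun ω => ∀ y ∈ l, y ∈ rrc86Y (rrc86L t L H) (sdRed (2 * L)) ω) := by
  obtain ⟨P, hP, hn, hg, hv, hl⟩ := h
  have hw := rcy162_cyl_wf hL 0 (H : ℤ)
  refine rwc117_patch_Y (rrc86_L_link t L H) (rrc86_L_ok h0 h1 L H) h0 h1 hw (fun v _ => rwc117_cyl_deg L 0 H v)
    (rwc117_KM_legal L H) _ (rwc117_KM_holds L H) Q ω₀ (fun _ => Iff.rfl) hP hn (fun e he => ⟨by simp [rwc117KM], hg e he⟩)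
    (fun e he v hv' => ⟨fun hh => ?_, (hv e he v hv').2⟩) _ l (fun y hy => ?_) hl
  · have : v ∈ rcy162Row L 0 := hh
    unfold rcy162Row at this
    rw [mem_product, mem_singleton] at this
    exact (hv e he v hv').1 this.2
  · show sdRed (2 * L) y ∈ sdCells (2 * L) 0 (2 * H + 1)
    rw [rrc86_mem_cells]
    rcases hl y hy with ⟨e, he, h⟩ | ⟨e, he, v, hv', h⟩
    · rw [h]
      have hE := rcy162_mem_cylE.1 (hP he)
      obtain ⟨⟨x, y'⟩, b'⟩ := e
      cases b'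
      · rw [rtd111_E_f]; dsimp only at hE ⊢; simp at hE; omega
      · rw [rtd111_E_t]; dsimp only at hE ⊢; simp at hE; omega
    · rw [h]
      have hV := rcy162_mem_cylV.1 (rse182_end_V hw (hP he) hv')
      unfold rtd111P
      dsimp only
      omega

end cyl

/-! ## 5. a lifted primal chain which avoids the explored cluster is patchable -/

section chain

open Finset

theorem rwc117_red_P (L : ℕ) (v : ℤ × ℤ) : sdRed (2 * L) (rtd111P v) = rtd111P (rcy162Red L v) := by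
  unfold sdRed rtd111P rcy162Red
  simp only [Prod.mk.injEq, and_true]
  push_cast
  exact Int.mul_emod_mul_of_pos _ _ (by norm_num)

theorem rwc117_emod_odd {L : ℕ} (hL : 0 < L) (x : ℤ) : (2 * x + 1) % (2 * (L : ℤ)) = 2 * (x % L) + 1 := by
  have hL' : (0 : ℤ) < L := by exact_mod_cast hL
  have h1 := Int.emod_nonneg x hL'.ne'
  have h2 := Int.emod_lt_of_pos x hL'
  have h3 : 2 * x + 1 = (2 * (x % L) + 1) + (2 * (L : ℤ)) * (x / L) := by
    have := Int.emod_add_mul_ediv x L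
    linarith
  rw [h3, Int.add_mul_emod_self_left, Int.emod_eq_of_lt (by omega) (by omega)]

theorem rwc117_red_E {L : ℕ} (hL : 0 < L) (e : (ℤ × ℤ) × Bool) : sdRed (2 * L) (rtd111E e) = rtd111E (rcy162RedE L e) := by
  obtain ⟨⟨x, y⟩, b⟩ := e
  cases b
  · show sdRed (2 * L) (2 * x + 1, 2 * y) = (2 * (x % (L : ℤ)) + 1, 2 * y)
    unfold sdRed
    simp only [Prod.mk.injEq, and_true]
    push_cast
    exact rwc117_emod_odd hL x
  · show sdRed (2 * L) (2 * x, 2 * y + 1) = (2 * (x % (L : ℤ)), 2 * y + 1)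
    unfold sdRed
    simp only [Prod.mk.injEq, and_true]
    push_cast
    exact Int.mul_emod_mul_of_pos _ _ (by norm_num)

/-- the reduction is injective at distance less than the period -/
theorem rwc117_red_inj {L : ℕ} {z z' : TV} (h : sdRed (2 * L) z = sdRed (2 * L) z') (hd : |z.1 - z'.1| < 2 * (L : ℤ)) : z = z' := by
  unfold sdRed at h
  simp only [Prod.mk.injEq] at h
  obtain ⟨h1, h2⟩ := h
  push_cast at h1
  have h3 : (z.1 - z'.1) % (2 * (L : ℤ)) = 0 := Int.emod_eq_emod_iff_emod_sub_eq_zero.1 h1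
  have h4 := Int.eq_zero_of_abs_lt_dvd (Int.dvd_of_emod_eq_zero h3) hd
  exact Prod.ext (by omega) h2

/-- a cell looked at which is not in the explored cluster is plus -/
theorem rwc117_look_plus {R σ Pl : Set TV} {z : TV} (hz : z ∈ rsrLook R σ Pl) (hn : z ∉ pleI tscG (R \ Pl) σ) : z ∈ Pl := by
  by_contra hp
  have hzN : z ∈ R \ Pl := ⟨hz.1, hp⟩
  rcases hz.2 with h | h | ⟨i, ⟨s, hs, hsσ, hsi⟩, hadj⟩
  · exact hn ⟨z, hzN, h, tsc_R_refl z⟩
  · exact hn h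
  · exact hn ⟨s, hs, hsσ, tsc_R_trans hsi (tsc_R_step hadj (tsc_R_mem hsi hs) hzN)⟩

theorem rwc117_red_F {L : ℕ} (hL : 0 < L) (f : ℤ × ℤ) : sdRed (2 * L) (rtd111F f) = rtd111F (rcy162Red L f) := by
  unfold sdRed rtd111F rcy162Red
  simp only [Prod.mk.injEq, and_true]
  push_cast
  exact rwc117_emod_odd hL f.1

theorem rwc117_red_end (L : ℕ) (e : (ℤ × ℤ) × Bool) : rcy162Red L (rswEnd (rcy162RedE L e)) = rcy162Red L (rswEnd e) := by
  obtain ⟨⟨x, y⟩, b⟩ := e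
  cases b
  · show ((x % (L : ℤ) + 1) % (L : ℤ), y) = ((x + 1) % (L : ℤ), y)
    rw [Int.emod_add_emod]
  · show ((x % (L : ℤ)) % (L : ℤ), y + 1) = (x % (L : ℤ), y + 1)
    rw [Int.emod_emod_of_dvd _ (dvd_refl _)]

theorem rwc117_adj_E0 (e : (ℤ × ℤ) × Bool) : tscG.Adj (rtd111E e) (rtd111P e.1) := by
  obtain ⟨⟨x, y⟩, b⟩ := e
  show triAdj _ _
  rw [tsc_adj_iff]
  cases b
  · rw [rtd111_E_f]; unfold rtd111P; dsimp only; omega
  · rw [rtd111_E_t]; unfold rtd111P; dsimp only; omega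

theorem rwc117_adj_E1 (e : (ℤ × ℤ) × Bool) : tscG.Adj (rtd111E e) (rtd111P (rswEnd e)) := by
  obtain ⟨⟨x, y⟩, b⟩ := e
  show triAdj _ _
  rw [tsc_adj_iff]
  cases b
  · rw [rtd111_E_f, rtd111_end_f]; unfold rtd111P; dsimp only; omega
  · rw [rtd111_E_t, rtd111_end_t]; unfold rtd111P; dsimp only; omega

/-- the endpoints (in the cylinder) of the reduction of a lifted edge are the reductions of its endpoints -/
theorem rwc117_end_red {L : ℕ} {a b : ℤ} {e : (ℤ × ℤ) × Bool} {v : ℤ × ℤ} (h : Rse182End (rcy162Cyl L a b) (rcy162RedE L e) v) :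
    v = rcy162Red L e.1 ∨ v = rcy162Red L (rswEnd e) := by
  rcases h with h | h
  · exact Or.inl h
  · refine Or.inr (h.trans ?_)
    exact rwc117_red_end L e

variable {t : ℝ} {L H : ℕ} {A B c d : ℤ}

/-- a lifted cell of the box, off the explored cluster, whose reduction was looked at, is plus -/
theorem rwc117_seen_plus (hAB : B - A + 1 < 2 * (L : ℤ)) (σ : Set TV) (ω₀ : RswCfg) {y : TV} (hy : y ∈ rrw86Rect A B c d)
    (hn : y ∉ pleI tscG (rrw86Rect A B c d \ rrc86Y (rrc86L t L H) (sdRed (2 * L)) ω₀) σ)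
    (hq : sdRed (2 * L) y ∈ rrc86Q (rrc86L t L H) (sdRed (2 * L)) (rrw86Rect A B c d) σ ω₀) :
    y ∈ rrc86Y (rrc86L t L H) (sdRed (2 * L)) ω₀ := by
  classical
  unfold rrc86Q at hq
  obtain ⟨_, z, hz, hzy⟩ := mem_filter.1 hq
  have hzR := hz.1
  have e : z = y := by
    refine rwc117_red_inj hzy ?_
    unfold rrw86Rect rrw86X at hzR hy
    simp only [Set.mem_ofPred_eq] at hzR hy
    rw [abs_lt]
    omega
  subst e
  exact rwc117_look_plus hz hn

/-- **a lifted primal chain inside the box which avoids the explored cluster is patchable** -/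
theorem rwc117_pb_of_chain (hL : 0 < L) (hAB : B - A + 1 < 2 * (L : ℤ)) (hc : 0 < c) (hd : d < 2 * (H : ℤ)) (σ : Set TV) (ω₀ : RswCfg) (n : ℕ)
    (E' : List ((ℤ × ℤ) × Bool)) (hlen : E'.length ≤ n)
    (hR : ∀ e ∈ E', rtd111E e ∈ rrw86Rect A B c d ∧ rtd111P e.1 ∈ rrw86Rect A B c d ∧ rtd111P (rswEnd e) ∈ rrw86Rect A B c d)
    (hI : ∀ e ∈ E', ∀ y, (y = rtd111E e ∨ y = rtd111P e.1 ∨ y = rtd111P (rswEnd e)) →
      y ∉ pleI tscG (rrw86Rect A B c d \ rrc86Y (rrc86L t L H) (sdRed (2 * L)) ω₀) σ)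
    (l : List TV) (hl : ∀ y ∈ l, ∃ e ∈ E', y = rtd111E e ∨ y = rtd111P e.1 ∨ y = rtd111P (rswEnd e)) :
    Rwc117Pb L H (rrc86Q (rrc86L t L H) (sdRed (2 * L)) (rrw86Rect A B c d) σ) n ω₀ l := by
  classical
  have hlk := rrc86_L_link t L H
  have hw := rcy162_cyl_wf hL 0 (H : ℤ)
  have hL' : (0 : ℤ) < L := by exact_mod_cast hL
  have hPE : ∀ e ∈ E', rcy162RedE L e ∈ (rcy162Cyl L 0 H).E := by
    intro e he
    have h1 := (hR e he).1
    rw [rcy162_mem_cylE]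
    obtain ⟨⟨x, y⟩, b⟩ := e
    refine ⟨⟨Int.emod_nonneg _ hL'.ne', Int.emod_lt_of_pos _ hL'⟩, ?_⟩
    unfold rrw86Rect rrw86X at h1
    simp only [Set.mem_ofPred_eq] at h1
    cases b
    · rw [rtd111_E_f] at h1
      refine Or.inl ⟨rfl, ?_⟩
      show 0 < y ∧ y < (H : ℤ)
      dsimp only at h1
      omega
    · rw [rtd111_E_t] at h1
      refine Or.inr ⟨rfl, ?_⟩
      show 0 ≤ y ∧ y < (H : ℤ)
      dsimp only at h1
      omega
  -- a lifted vertex of the chain: revealed implies plus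
  have hV : ∀ u : ℤ × ℤ, rtd111P u ∈ rrw86Rect A B c d →
      rtd111P u ∉ pleI tscG (rrw86Rect A B c d \ rrc86Y (rrc86L t L H) (sdRed (2 * L)) ω₀) σ →
      (rcy162Red L u).2 ≠ 0 ∧ (rcy162Red L u ∈ rse182Sv (rcy162Cyl L 0 H) (rrc86Q (rrc86L t L H) (sdRed (2 * L)) (rrw86Rect A B c d) σ ω₀) →
        rcy162Red L u ∈ ω₀.S) := by
    intro u huR huI
    constructor
    · have h1 := huR
      unfold rrw86Rect rrw86X rtd111P at h1
      simp only [Set.mem_ofPred_eq] at h1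
      show u.2 ≠ 0
      omega
    · intro hs
      obtain ⟨hvV, y', hy', hcar⟩ := rse182_mem_Sv.1 hs
      have plus_of : rtd111P u ∈ rrc86Y (rrc86L t L H) (sdRed (2 * L)) ω₀ → rcy162Red L u ∈ ω₀.S := by
        intro hp
        have h2 := hp.2
        rw [rwc117_red_P, hlk.npP ω₀ _ hvV] at h2
        exact not_not.1 h2
      rcases hcar with rfl | ⟨e'', he'', rfl, hend⟩
      · rw [← rwc117_red_P] at hy'
        exact plus_of (rwc117_seen_plus hAB σ ω₀ huR huI hy')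
      · have hy'' := hy'
        unfold rrc86Q at hy''
        obtain ⟨_, z, hz, hzy⟩ := mem_filter.1 hy''
        by_cases hzI : z ∈ pleI tscG (rrw86Rect A B c d \ rrc86Y (rrc86L t L H) (sdRed (2 * L)) ω₀) σ
        · -- the explored edge is not plus: its endpoints are looked at
          rcases rtd111_cases z with ⟨u', rfl⟩ | ⟨f, rfl⟩ | ⟨e₁, rfl⟩
          · rw [rwc117_red_P] at hzy
            exact absurd hzy (rtd111_P_ne_E _ _)
          · rw [rwc117_red_F hL] at hzy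
            exact absurd hzy (rtd111_F_ne_E _ _)
          · rw [rwc117_red_E hL] at hzy
            have e1 : rcy162RedE L e₁ = e'' := rtd111_E_inj hzy
            rw [← e1] at hend
            have hzR := hz.1
            have main : ∀ u₁ : ℤ × ℤ, tscG.Adj (rtd111E e₁) (rtd111P u₁) → rcy162Red L u = rcy162Red L u₁ → rcy162Red L u ∈ ω₀.S := by
              intro u₁ hadj hred
              have e2 : rtd111P u₁ = rtd111P u := by
                refine rwc117_red_inj (by rw [rwc117_red_P, rwc117_red_P, hred]) ?_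
                have hadj' : triAdj (rtd111E e₁) (rtd111P u₁) := hadj
                rw [tsc_adj_iff] at hadj'
                have h1 := huR
                unfold rrw86Rect rrw86X at hzR h1
                simp only [Set.mem_ofPred_eq] at hzR h1
                rw [abs_lt]
                omega
              rw [e2] at hadj
              exact plus_of (rwc117_look_plus ⟨huR, Or.inr (Or.inr ⟨_, hzI, hadj⟩)⟩ huI)
            rcases rwc117_end_red hend with h | h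
            · exact main _ (rwc117_adj_E0 e₁) h
            · exact main _ (rwc117_adj_E1 e₁) h
        · have hp := rwc117_look_plus hz hzI
          have h2 := hp.2
          rw [hzy, hlk.npE ω₀ _ he''] at h2
          exact (rse182_good_end (not_not.1 h2) hend).2 rfl
  refine ⟨(E'.map (rcy162RedE L)).toFinset, ?_, ?_, ?_, ?_, ?_⟩
  · intro e he
    obtain ⟨e₀, he₀, rfl⟩ := List.mem_map.1 (List.mem_toFinset.1 he)
    exact hPE e₀ he₀
  · exact (List.toFinset_card_le _).trans (by rw [List.length_map]; exact hlen)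
  · intro e he hq
    obtain ⟨e₀, he₀, rfl⟩ := List.mem_map.1 (List.mem_toFinset.1 he)
    rw [← rwc117_red_E hL] at hq
    have hp := rwc117_seen_plus hAB σ ω₀ (hR e₀ he₀).1 (hI e₀ he₀ _ (Or.inl rfl)) hq
    have h2 := hp.2
    rw [rwc117_red_E hL, hlk.npE ω₀ _ (hPE e₀ he₀)] at h2
    exact not_not.1 h2
  · intro e he v hv
    obtain ⟨e₀, he₀, rfl⟩ := List.mem_map.1 (List.mem_toFinset.1 he)
    rcases rwc117_end_red hv with rfl | rfl
    · exact hV _ (hR e₀ he₀).2.1 (hI e₀ he₀ _ (Or.inr (Or.inl rfl)))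
    · exact hV _ (hR e₀ he₀).2.2 (hI e₀ he₀ _ (Or.inr (Or.inr rfl)))
  · intro y hy
    obtain ⟨e₀, he₀, h⟩ := hl y hy
    have hm : rcy162RedE L e₀ ∈ (E'.map (rcy162RedE L)).toFinset := List.mem_toFinset.2 (List.mem_map.2 ⟨e₀, he₀, rfl⟩)
    rcases h with rfl | rfl | rfl
    · exact Or.inl ⟨_, hm, rwc117_red_E hL e₀⟩
    · exact Or.inr ⟨_, hm, rcy162Red L e₀.1, Or.inl rfl, rwc117_red_P L _⟩
    · exact Or.inr ⟨_, hm, rcy162Red L (rswEnd e₀), Or.inr (rwc117_red_end L e₀).symm, rwc117_red_P L _⟩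

/-- the cluster of the two arcs is the union of the clusters `I`, `J` of 86 -/
theorem rwc117_not_mem_seed {Ω Y' : Type} (𝓛 : Rln182Law Ω Y') (ι : TV → Y') (c d w σ m e : ℤ) (ω : Ω) {y : TV}
    (h1 : y ∉ rrc86I 𝓛 ι c d w σ m e ω) (h2 : y ∉ rrc86J 𝓛 ι c d w σ m e ω) :
    y ∉ pleI tscG (rrw86Rect (m - e) (m + σ + e) c d \ rrc86Y 𝓛 ι ω) (rrc86Seed c d w σ m e) := by
  rintro ⟨s, hs, hσ | hσ, hsy⟩
  · exact h1 ⟨s, hs, hσ, hsy⟩
  · exact h2 ⟨s, hs, hσ, hsy⟩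

/-- **(C1 + the deterministic half of NEAR)**: under the record of the two explorations of 86, a list `l` of cells of a lifted primal chain `E'` of at most `n` edges, inside the box and off the two explored clusters
`I`, `J`, is plus with conditional probability at least `rwc117Kap t n`      (the conclusion is `Rtr257Pat` of 257, unfolded) -/
theorem rwc117_pat_Q2 (h0 : 0 ≤ t) (h1 : t ≤ 1) (hL : 0 < L) {c d w σ m e : ℤ} (hW : σ + 2 * e + 1 < 2 * (L : ℤ)) (hc : 0 < c) (hd : d < 2 * (H : ℤ))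
    (ω₀ : RswCfg) (n : ℕ) (E' : List ((ℤ × ℤ) × Bool)) (hlen : E'.length ≤ n)
    (hR : ∀ e' ∈ E', rtd111E e' ∈ rrw86Rect (m - e) (m + σ + e) c d ∧ rtd111P e'.1 ∈ rrw86Rect (m - e) (m + σ + e) c d ∧
      rtd111P (rswEnd e') ∈ rrw86Rect (m - e) (m + σ + e) c d)
    (hI : ∀ e' ∈ E', ∀ y, (y = rtd111E e' ∨ y = rtd111P e'.1 ∨ y = rtd111P (rswEnd e')) →
      y ∉ rrc86I (rrc86L t L H) (sdRed (2 * L)) c d w σ m e ω₀ ∧ y ∉ rrc86J (rrc86L t L H) (sdRed (2 * L)) c d w σ m e ω₀)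
    (l : List TV) (hl : ∀ y ∈ l, ∃ e' ∈ E', y = rtd111E e' ∨ y = rtd111P e'.1 ∨ y = rtd111P (rswEnd e')) :
    rwc117Kap t n * (rrc86L t L H).Z (rrc86Rec (rrc86L t L H) (Rcy162Mix L 0 H) (rrc86Q2 (rrc86L t L H) (sdRed (2 * L)) c d w σ m e) ω₀) ≤
      (rrc86L t L H).N (rrc86Rec (rrc86L t L H) (Rcy162Mix L 0 H) (rrc86Q2 (rrc86L t L H) (sdRed (2 * L)) c d w σ m e) ω₀)
        (rln182Ind fun ω => ∀ y ∈ l, y ∈ rrc86Y (rrc86L t L H) (sdRed (2 * L)) ω) :=
  rwc117_pat_cyl h0 h1 hL H _ n ω₀ l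
    (rwc117_pb_of_chain hL (by omega) hc hd (rrc86Seed c d w σ m e) ω₀ n E' hlen hR
      (fun e' he' y hy => rwc117_not_mem_seed _ _ c d w σ m e ω₀ (hI e' he' y hy).1 (hI e' he' y hy).2) l hl)

end chain

/-! ## 6. only the EDGE POINTS of the chain have to lie in the box and off the explored cluster -/

section edges

open Finset

variable {t : ℝ} {L H : ℕ} {A B c d : ℤ}

/-- the edge point of an edge is an axis neighbour of the vertex points of its endpoints -/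
theorem rwc117_axis (e : (ℤ × ℤ) × Bool) (u : ℤ × ℤ) (hu : u = e.1 ∨ u = rswEnd e) :
    ((rtd111E e).1 = (rtd111P u).1 ∧ ((rtd111E e).2 = (rtd111P u).2 + 1 ∨ (rtd111E e).2 = (rtd111P u).2 - 1)) ∨
      ((rtd111E e).2 = (rtd111P u).2 ∧ ((rtd111E e).1 = (rtd111P u).1 + 1 ∨ (rtd111E e).1 = (rtd111P u).1 - 1)) := by
  obtain ⟨⟨x, y⟩, b⟩ := e
  cases b
  · rcases hu with rfl | rfl
    · rw [rtd111_E_f]; unfold rtd111P; dsimp only; omega
    · rw [rtd111_E_f, rtd111_end_f]; unfold rtd111P; dsimp only; omega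
  · rcases hu with rfl | rfl
    · rw [rtd111_E_t]; unfold rtd111P; dsimp only; omega
    · rw [rtd111_E_t, rtd111_end_t]; unfold rtd111P; dsimp only; omega

theorem rwc117_adj_Eu (e : (ℤ × ℤ) × Bool) (u : ℤ × ℤ) (hu : u = e.1 ∨ u = rswEnd e) : tscG.Adj (rtd111E e) (rtd111P u) := by
  rcases hu with rfl | rfl
  · exact rwc117_adj_E0 e
  · exact rwc117_adj_E1 e

/-- **a lifted set of edges whose EDGE POINTS lie in the box and off the explored cluster is patchable** (nothing is asked from the vertex points) -/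
theorem rwc117_pb_of_edges (hL : 0 < L) (hAB : B - A + 2 < 2 * (L : ℤ)) (hc : 2 ≤ c) (hd : d < 2 * (H : ℤ)) (σ : Set TV) (ω₀ : RswCfg) (n : ℕ)
    (E' : List ((ℤ × ℤ) × Bool)) (hlen : E'.length ≤ n) (hR : ∀ e ∈ E', rtd111E e ∈ rrw86Rect A B c d)
    (hI : ∀ e ∈ E', rtd111E e ∉ pleI tscG (rrw86Rect A B c d \ rrc86Y (rrc86L t L H) (sdRed (2 * L)) ω₀) σ)
    (l : List TV) (hl : ∀ y ∈ l, ∃ e ∈ E', y = rtd111E e ∨ y = rtd111P e.1 ∨ y = rtd111P (rswEnd e)) :
    Rwc117Pb L H (rrc86Q (rrc86L t L H) (sdRed (2 * L)) (rrw86Rect A B c d) σ) n ω₀ l := by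
  classical
  have hlk := rrc86_L_link t L H
  have hw := rcy162_cyl_wf hL 0 (H : ℤ)
  have hL' : (0 : ℤ) < L := by exact_mod_cast hL
  have hPE : ∀ e ∈ E', rcy162RedE L e ∈ (rcy162Cyl L 0 H).E := by
    intro e he
    have h1 := hR e he
    rw [rcy162_mem_cylE]
    obtain ⟨⟨x, y⟩, b⟩ := e
    refine ⟨⟨Int.emod_nonneg _ hL'.ne', Int.emod_lt_of_pos _ hL'⟩, ?_⟩
    unfold rrw86Rect rrw86X at h1
    simp only [Set.mem_ofPred_eq] at h1
    cases b
    · rw [rtd111_E_f] at h1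
      refine Or.inl ⟨rfl, ?_⟩
      show 0 < y ∧ y < (H : ℤ)
      dsimp only at h1
      omega
    · rw [rtd111_E_t] at h1
      refine Or.inr ⟨rfl, ?_⟩
      show 0 ≤ y ∧ y < (H : ℤ)
      dsimp only at h1
      omega
  have hV : ∀ e ∈ E', ∀ u : ℤ × ℤ, (u = e.1 ∨ u = rswEnd e) → Rse182End (rcy162Cyl L 0 H) (rcy162RedE L e) (rcy162Red L u) →
      (rcy162Red L u).2 ≠ 0 ∧ (rcy162Red L u ∈ rse182Sv (rcy162Cyl L 0 H) (rrc86Q (rrc86L t L H) (sdRed (2 * L)) (rrw86Rect A B c d) σ ω₀) →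
        rcy162Red L u ∈ ω₀.S) := by
    intro e he u hu hend0
    have hax := rwc117_axis e u hu
    have heR := hR e he
    have heR' := heR
    unfold rrw86Rect rrw86X at heR'
    simp only [Set.mem_ofPred_eq] at heR'
    constructor
    · show u.2 ≠ 0
      have : (rtd111P u).2 = 2 * u.2 := rfl
      omega
    · intro hs
      by_cases hEY : rtd111E e ∈ rrc86Y (rrc86L t L H) (sdRed (2 * L)) ω₀
      · have h2 := hEY.2
        rw [rwc117_red_E hL, hlk.npE ω₀ _ (hPE e he)] at h2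
        exact (rse182_good_end (not_not.1 h2) hend0).2 rfl
      · -- the edge point is not plus and off the cluster: no neighbour of it is in the cluster
        have hnb : ∀ z, z ∈ pleI tscG (rrw86Rect A B c d \ rrc86Y (rrc86L t L H) (sdRed (2 * L)) ω₀) σ → ¬ tscG.Adj z (rtd111E e) := by
          rintro z ⟨s, hs1, hs2, hs3⟩ hadj
          exact hI e he ⟨s, hs1, hs2, tsc_R_trans hs3 (tsc_R_step hadj (tsc_R_mem hs3 hs1) ⟨heR, hEY⟩)⟩
        have huI : rtd111P u ∉ pleI tscG (rrw86Rect A B c d \ rrc86Y (rrc86L t L H) (sdRed (2 * L)) ω₀) σ :=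
          fun h => hnb _ h (rwc117_adj_Eu e u hu).symm
        obtain ⟨hvV, y', hy', hcar⟩ := rse182_mem_Sv.1 hs
        have plus_of : rtd111P u ∈ rrc86Y (rrc86L t L H) (sdRed (2 * L)) ω₀ → rcy162Red L u ∈ ω₀.S := by
          intro hp
          have h2 := hp.2
          rw [rwc117_red_P, hlk.npP ω₀ _ hvV] at h2
          exact not_not.1 h2
        rcases hcar with rfl | ⟨e'', he'', rfl, hend⟩
        · unfold rrc86Q at hy'
          obtain ⟨_, z, hz, hzy⟩ := mem_filter.1 hy'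
          have hzR := hz.1
          have e2 : z = rtd111P u := by
            refine rwc117_red_inj (by rw [hzy, rwc117_red_P]) ?_
            unfold rrw86Rect rrw86X at hzR
            simp only [Set.mem_ofPred_eq] at hzR
            rw [abs_lt]
            omega
          subst e2
          exact plus_of (rwc117_look_plus hz huI)
        · unfold rrc86Q at hy'
          obtain ⟨_, z, hz, hzy⟩ := mem_filter.1 hy'
          by_cases hzI : z ∈ pleI tscG (rrw86Rect A B c d \ rrc86Y (rrc86L t L H) (sdRed (2 * L)) ω₀) σ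
          · rcases rtd111_cases z with ⟨u', rfl⟩ | ⟨f, rfl⟩ | ⟨e₁, rfl⟩
            · rw [rwc117_red_P] at hzy
              exact absurd hzy (rtd111_P_ne_E _ _)
            · rw [rwc117_red_F hL] at hzy
              exact absurd hzy (rtd111_F_ne_E _ _)
            · rw [rwc117_red_E hL] at hzy
              have e1 : rcy162RedE L e₁ = e'' := rtd111_E_inj hzy
              rw [← e1] at hend
              have hzR := hz.1
              have hzR' := hzR
              unfold rrw86Rect rrw86X at hzR'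
              simp only [Set.mem_ofPred_eq] at hzR'
              have main : ∀ u₁ : ℤ × ℤ, (u₁ = e₁.1 ∨ u₁ = rswEnd e₁) → rcy162Red L u = rcy162Red L u₁ → rcy162Red L u ∈ ω₀.S := by
                intro u₁ hu₁ hred
                have hax₁ := rwc117_axis e₁ u₁ hu₁
                have e2 : rtd111P u₁ = rtd111P u := by
                  refine rwc117_red_inj (by rw [rwc117_red_P, rwc117_red_P, hred]) ?_
                  rw [abs_lt]
                  omega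
                rw [e2] at hax₁
                by_cases huR : rtd111P u ∈ rrw86Rect A B c d
                · have hadj := rwc117_adj_Eu e₁ u₁ hu₁
                  rw [e2] at hadj
                  exact plus_of (rwc117_look_plus ⟨huR, Or.inr (Or.inr ⟨_, hzI, hadj⟩)⟩ huI)
                · exfalso
                  have e3 : rtd111E e₁ = rtd111E e := by
                    unfold rrw86Rect rrw86X at huR
                    simp only [Set.mem_ofPred_eq] at huR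
                    refine Prod.ext ?_ ?_ <;> omega
                  rw [e3] at hzI
                  exact hI e he hzI
              rcases rwc117_end_red hend with h | h
              · exact main _ (Or.inl rfl) h
              · exact main _ (Or.inr rfl) h
          · have hp := rwc117_look_plus hz hzI
            have h2 := hp.2
            rw [hzy, hlk.npE ω₀ _ he''] at h2
            exact (rse182_good_end (not_not.1 h2) hend).2 rfl
  refine ⟨(E'.map (rcy162RedE L)).toFinset, ?_, ?_, ?_, ?_, ?_⟩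
  · intro e he
    obtain ⟨e₀, he₀, rfl⟩ := List.mem_map.1 (List.mem_toFinset.1 he)
    exact hPE e₀ he₀
  · exact (List.toFinset_card_le _).trans (by rw [List.length_map]; exact hlen)
  · intro e he hq
    obtain ⟨e₀, he₀, rfl⟩ := List.mem_map.1 (List.mem_toFinset.1 he)
    rw [← rwc117_red_E hL] at hq
    have hp := rwc117_seen_plus (by omega) σ ω₀ (hR e₀ he₀) (hI e₀ he₀) hq
    have h2 := hp.2
    rw [rwc117_red_E hL, hlk.npE ω₀ _ (hPE e₀ he₀)] at h2
    exact not_not.1 h2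
  · intro e he v hv
    obtain ⟨e₀, he₀, rfl⟩ := List.mem_map.1 (List.mem_toFinset.1 he)
    rcases rwc117_end_red hv with rfl | rfl
    · exact hV e₀ he₀ _ (Or.inl rfl) hv
    · exact hV e₀ he₀ _ (Or.inr rfl) hv
  · intro y hy
    obtain ⟨e₀, he₀, h⟩ := hl y hy
    have hm : rcy162RedE L e₀ ∈ (E'.map (rcy162RedE L)).toFinset := List.mem_toFinset.2 (List.mem_map.2 ⟨e₀, he₀, rfl⟩)
    rcases h with rfl | rfl | rfl
    · exact Or.inl ⟨_, hm, rwc117_red_E hL e₀⟩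
    · exact Or.inr ⟨_, hm, rcy162Red L e₀.1, Or.inl rfl, rwc117_red_P L _⟩
    · exact Or.inr ⟨_, hm, rcy162Red L (rswEnd e₀), Or.inr (rwc117_red_end L e₀).symm, rwc117_red_P L _⟩

/-- **(C1 + NEAR, final form)**: under the record of the two explorations of 86, the cells of a lifted set `E'` of at most `n` edges whose EDGE POINTS lie in the box and off the clusters `I`, `J` are plus with
conditional probability at least `rwc117Kap t n` -/
theorem rwc117_pat_Q2e (h0 : 0 ≤ t) (h1 : t ≤ 1) (hL : 0 < L) {c d w σ m e : ℤ} (hW : σ + 2 * e + 2 < 2 * (L : ℤ)) (hc : 2 ≤ c) (hd : d < 2 * (H : ℤ))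
    (ω₀ : RswCfg) (n : ℕ) (E' : List ((ℤ × ℤ) × Bool)) (hlen : E'.length ≤ n)
    (hR : ∀ e' ∈ E', rtd111E e' ∈ rrw86Rect (m - e) (m + σ + e) c d)
    (hI : ∀ e' ∈ E', rtd111E e' ∉ rrc86I (rrc86L t L H) (sdRed (2 * L)) c d w σ m e ω₀ ∧ rtd111E e' ∉ rrc86J (rrc86L t L H) (sdRed (2 * L)) c d w σ m e ω₀)
    (l : List TV) (hl : ∀ y ∈ l, ∃ e' ∈ E', y = rtd111E e' ∨ y = rtd111P e'.1 ∨ y = rtd111P (rswEnd e')) :
    rwc117Kap t n * (rrc86L t L H).Z (rrc86Rec (rrc86L t L H) (Rcy162Mix L 0 H) (rrc86Q2 (rrc86L t L H) (sdRed (2 * L)) c d w σ m e) ω₀) ≤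
      (rrc86L t L H).N (rrc86Rec (rrc86L t L H) (Rcy162Mix L 0 H) (rrc86Q2 (rrc86L t L H) (sdRed (2 * L)) c d w σ m e) ω₀)
        (rln182Ind fun ω => ∀ y ∈ l, y ∈ rrc86Y (rrc86L t L H) (sdRed (2 * L)) ω) :=
  rwc117_pat_cyl h0 h1 hL H _ n ω₀ l
    (rwc117_pb_of_edges hL (by omega) hc hd (rrc86Seed c d w σ m e) ω₀ n E' hlen hR
      (fun e' he' => rwc117_not_mem_seed _ _ c d w σ m e ω₀ (hI e' he').1 (hI e' he').2) l hl)

end edges

end Claimed.Agent.R292
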