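import Claimed.Agent.R292.Rsw.RswCyl86
import Claimed.Agent.R291.Pl.Record

/-!
# Row 292 (S0540), Rsw/RswPair110 : BLOCK A3 PART II, THE INDEX LATTICE: from the two explorations to the strip      (owner helper110; prefix `rpr110_`, `rpr110`, `Rpr110`)

Port of R291 `Ann/RswGlue` §3 (`rsg_crA`, `rsg_crC`, `rsg_seed_AA`, `rsg_seed_CC`, `rsg_pair`, `rsg_look`, `rsg_layer`) and of the deterministic part of §5 (`rsg_T2_free`, `rsg_free_nb`, `rsg_Q_rect`, `rsg_Q2_look`)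
on the layers `rrc86Ga`, `rrc86Gc` of 86 (`Rsw/RswCyl86` §8, §11).   Deterministic; no law is used beyond the words `rrc86Y`, `rrc86Q2`.   (`rsg_F_link` = `rrc86_link` of 86: not retyped.)

THE ONE CHANGE: the boxes of the refined lattice are straight (`rrw86X p = p.1`) while `Pl/Record` of 105 measures with `hxsX p = 2 p.1 + p.2`.   A box `rrw86Rect A B c d` lies in `2 A + c ≤ hxsX ≤ 2 B + d`: the pair is an
`HxrPair c d (2 A + c) (2 B + d)`, the solid sides are `rpr110AA`, `rpr110CC`, the strip is `rpr110Q`;   the strip lies STRICTLY inside the straight box (`rpr110_Q_rect`): the columns `≤ A`, `≥ B` are solid.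

§1 the layers of a plus set `P`.   §2 one crossing, the seeds.   §3 `rpr110_pair`, `rpr110_look`, `rpr110_layer`, `rpr110_Q_rect`, `rpr110_T2_free`, `rpr110_free_nb`.
§4 the same under one record of `(𝓛, ι)`: `rpr110_pair_rec`, `rpr110_look_rec`, `rpr110_free_unseen`, `rpr110_seen_nb_plus`.
-/

set_option autoImplicit false

namespace Claimed.Agent.R292

open Claims Claims.C0467 Relation Claimed.Agent.R291

/-! ## §1 the layers of a plus set -/

/-- the layer `a` of the cluster of the left arc at `m` -/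
def rpr110A (A B c d w m : ℤ) (P : Set TV) : Set TV := rrc86Ga A B c d w m (pleI tscG (rrw86Rect A B c d \ P) (rrc86SgL A c d m w))

/-- the layer `c` of the cluster of the right arc at `m'` -/
def rpr110C (A B c d w m' : ℤ) (P : Set TV) : Set TV := rrc86Gc A B c d w m' (pleI tscG (rrw86Rect A B c d \ P) (rrc86SgR B c d m' w))

/-- both crossings exist -/
def Rpr110G0 (A B c d w m m' : ℤ) (P : Set TV) : Prop :=
  Rrc86G0 A B c d w m m' (pleI tscG (rrw86Rect A B c d \ P) (rrc86SgL A c d m w)) (pleI tscG (rrw86Rect A B c d \ P) (rrc86SgR B c d m' w))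

/-- the solid left side of a layer of the box -/
def rpr110AA (B c d : ℤ) (a : Set TV) : Set TV := hxrAA c d (2 * B + d) a

/-- the solid right side of a layer of the box -/
def rpr110CC (A c d : ℤ) (cc : Set TV) : Set TV := hxrCC c d (2 * A + c) cc

/-- the strip between the two layers -/
def rpr110Q (A B c d : ℤ) (a cc : Set TV) : Set TV := hxrQ c d (2 * A + c) (2 * B + d) a cc

theorem rpr110_eqns_cite : True := by
  have := @rpr110A.eq_1
  have := @rpr110C.eq_1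
  have := @Rpr110G0.eq_1
  have := @rpr110AA.eq_1
  have := @rpr110CC.eq_1
  have := @rpr110Q.eq_1
  trivial

section idx

variable {A B c d w m m' : ℤ} {P : Set TV}

theorem rpr110_A_sub : rpr110A A B c d w m P ⊆ rrw86Rect A B c d ∩ P := ple_gam_sub

theorem rpr110_C_sub : rpr110C A B c d w m' P ⊆ rrw86Rect A B c d ∩ P := ple_gam_sub

theorem rpr110_Q_eq (a cc : Set TV) : rpr110Q A B c d a cc = plsBand c d \ (rpr110AA B c d a ∪ rpr110CC A c d cc) := rfl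

/-- a straight box in the slanted coordinate -/
theorem rpr110_rect_X {z : TV} (hz : z ∈ rrw86Rect A B c d) : 2 * A + c ≤ hxsX z ∧ hxsX z ≤ 2 * B + d := by
  obtain ⟨h1, h2, h3, h4⟩ := hz
  unfold rrw86X at h1 h2
  unfold hxsX
  constructor <;> omega

/-! ## §2 one crossing, the seeds -/

/-- the layer `a` is a crossing of the band with its feet in the landing intervals at `m` -/
theorem rpr110_crA (hcd : c < d) (hw : 0 ≤ w) (hA : A ≤ m - w) (hB : m + w ≤ B) (hG : Rpr110G0 A B c d w m m' P) :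
    ∃ pa qa, HxrCr c d (2 * A + c) (2 * B + d) (rpr110A A B c d w m P) pa qa ∧ pa ∈ rrc86Lam c m w ∧ qa ∈ rrc86Lam d m w := by
  have qL := rrc86_quad_L (A := A) (B := B) (c := c) (d := d) (i := m) (w := w) hcd hw hA hB
  obtain ⟨l, r, hl1, hl2, hr2, hlr⟩ := ple_gam_cross qL hG.1
  exact ⟨l, r, ⟨fun z hz => rrc86_rect_band (rpr110_A_sub hz).1, ple_gam_conn qL.side qL.opp hG.1, fun z hz => rpr110_rect_X (rpr110_A_sub hz).1,
    hl1, tsc_R_mem hlr hl1, hl2.1, hr2.1⟩, hl2, hr2⟩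

/-- the layer `c` is a crossing of the band with its feet in the landing intervals at `m'` -/
theorem rpr110_crC (hcd : c < d) (hw : 0 ≤ w) (hA : A ≤ m' - w) (hB : m' + w ≤ B) (hG : Rpr110G0 A B c d w m m' P) :
    ∃ pc qc, HxrCr c d (2 * A + c) (2 * B + d) (rpr110C A B c d w m' P) pc qc ∧ pc ∈ rrc86Lam c m' w ∧ qc ∈ rrc86Lam d m' w := by
  have qR := rrc86_quad_R (A := A) (B := B) (c := c) (d := d) (i := m') (w := w) hcd hw hA hB
  obtain ⟨l, r, hl1, hl2, hr2, hlr⟩ := ple_gam_cross qR hG.2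
  exact ⟨l, r, ⟨fun z hz => rrc86_rect_band (rpr110_C_sub hz).1, ple_gam_conn qR.side qR.opp hG.2, fun z hz => rpr110_rect_X (rpr110_C_sub hz).1,
    hl1, tsc_R_mem hlr hl1, hl2.1, hr2.1⟩, hl2, hr2⟩

/-- the columns on the left of a crossing which lives in `A ≤ x` are solid -/
theorem rpr110_left {a : Set TV} {p q : TV} (H : HxrCr c d (2 * A + c) (2 * B + d) a p q) (ha : ∀ z ∈ a, A ≤ z.1) {z : TV} (hz : z ∈ plsBand c d) (hx : z.1 < A) :
    z ∈ rpr110AA B c d a := by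
  have hcd := hxr_cr_le H
  have hb : ∀ x : ℤ, ((x, z.2) : TV) ∈ plsBand c d := fun x => ⟨hz.1, hz.2⟩
  have h0 : ((z.1 - ((d - c).toNat : ℤ), z.2) : TV) ∈ hxrAA c d (2 * B + d) a := by
    refine hxr_AA_far H (hb _) ?_
    have h1 := Int.self_le_toNat (d - c)
    have h2 := hz.2
    show 2 * (z.1 - ((d - c).toNat : ℤ)) + z.2 < 2 * A + c
    omega
  have hwk := hxr_walk_r (s := plsBand c d \ a) (x := z.1 - ((d - c).toNat : ℤ)) (y := z.2) (d - c).toNat (fun i hi => ⟨hb _, fun h => by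
    have := ha _ h
    have h3 : z.1 - ((d - c).toNat : ℤ) + (i : ℤ) ≤ z.1 := by omega
    have h4 : A ≤ z.1 - ((d - c).toNat : ℤ) + (i : ℤ) := this
    omega⟩)
  have e : ((z.1 - ((d - c).toNat : ℤ) + ((d - c).toNat : ℤ), z.2) : TV) = z := by
    ext
    · show z.1 - ((d - c).toNat : ℤ) + ((d - c).toNat : ℤ) = z.1
      ring
    · rfl
  rw [e] at hwk
  exact hxr_sol_R h0 hwk

/-- the columns on the right of a crossing which lives in `x ≤ B` are solid -/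
theorem rpr110_right {cc : Set TV} {p q : TV} (H : HxrCr c d (2 * A + c) (2 * B + d) cc p q) (hc : ∀ z ∈ cc, z.1 ≤ B) {z : TV} (hz : z ∈ plsBand c d) (hx : B < z.1) :
    z ∈ rpr110CC A c d cc := by
  have hcd := hxr_cr_le H
  have hb : ∀ x : ℤ, ((x, z.2) : TV) ∈ plsBand c d := fun x => ⟨hz.1, hz.2⟩
  have h0 : ((z.1 + ((d - c).toNat : ℤ), z.2) : TV) ∈ hxrCC c d (2 * A + c) cc := by
    refine hxr_CC_far H (hb _) ?_
    have h1 := Int.self_le_toNat (d - c)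
    have h2 := hz.1
    show 2 * B + d < 2 * (z.1 + ((d - c).toNat : ℤ)) + z.2
    omega
  have hwk := hxr_walk_l (s := plsBand c d \ cc) (x := z.1 + ((d - c).toNat : ℤ)) (y := z.2) (d - c).toNat (fun i hi => ⟨hb _, fun h => by
    have := hc _ h
    have h3 : z.1 ≤ z.1 + ((d - c).toNat : ℤ) - (i : ℤ) := by omega
    have h4 : z.1 + ((d - c).toNat : ℤ) - (i : ℤ) ≤ B := this
    omega⟩)
  have e : ((z.1 + ((d - c).toNat : ℤ) - ((d - c).toNat : ℤ), z.2) : TV) = z := by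
    ext
    · show z.1 + ((d - c).toNat : ℤ) - ((d - c).toNat : ℤ) = z.1
      ring
    · rfl
  rw [e] at hwk
  exact hxr_sol_R h0 hwk

theorem rpr110_A_col {z : TV} (hz : z ∈ rpr110A A B c d w m P) : A ≤ z.1 ∧ z.1 ≤ B := ⟨(rpr110_A_sub hz).1.1, (rpr110_A_sub hz).1.2.1⟩

theorem rpr110_C_col {z : TV} (hz : z ∈ rpr110C A B c d w m' P) : A ≤ z.1 ∧ z.1 ≤ B := ⟨(rpr110_C_sub hz).1.1, (rpr110_C_sub hz).1.2.1⟩

/-- the left arc lies in the solid left side -/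
theorem rpr110_seed_AA {pa qa : TV} (H : HxrCr c d (2 * A + c) (2 * B + d) (rpr110A A B c d w m P) pa qa) (h1 : pa ∈ rrc86Lam c m w) (h2 : qa ∈ rrc86Lam d m w)
    {t : TV} (ht : t ∈ rrw86Rect A B c d) (hs : t ∈ rrc86SgL A c d m w) : t ∈ rpr110AA B c d (rpr110A A B c d w m P) := by
  rcases hs with hs | ⟨hs | hs, hx⟩
  · by_cases hta : t ∈ rpr110A A B c d w m P
    · exact hxr_a_sub_AA H hta
    · have hb : ((t.1 - 1, t.2) : TV) ∈ plsBand c d := ⟨ht.2.2.1, ht.2.2.2⟩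
      have hs' : t.1 ≤ A := hs
      have h3 := rpr110_left H (fun z hz => (rpr110_A_col hz).1) hb (show t.1 - 1 < A by omega)
      have h4 : ((t.1 - 1, t.2) : TV) ∉ rpr110A A B c d w m P := fun h => by
        have h5 : A ≤ t.1 - 1 := (rpr110_A_col h).1
        omega
      refine hxr_sol_R h3 (tsc_R_step ?_ ⟨hb, h4⟩ ⟨rrc86_rect_band ht, hta⟩)
      rw [tsc_G_adj, tsc_adj_iff]
      simp
  · refine hxr_AA_bot H hs ?_
    obtain ⟨a1, a2, a3⟩ := h1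
    unfold rrw86X at *
    omega
  · refine hxr_AA_top H hs ?_
    obtain ⟨a1, a2, a3⟩ := h2
    unfold rrw86X at *
    omega

/-- the right arc lies in the solid right side -/
theorem rpr110_seed_CC {pc qc : TV} (H : HxrCr c d (2 * A + c) (2 * B + d) (rpr110C A B c d w m' P) pc qc) (h1 : pc ∈ rrc86Lam c m' w) (h2 : qc ∈ rrc86Lam d m' w)
    {t : TV} (ht : t ∈ rrw86Rect A B c d) (hs : t ∈ rrc86SgR B c d m' w) : t ∈ rpr110CC A c d (rpr110C A B c d w m' P) := by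
  rcases hs with hs | ⟨hs | hs, hx⟩
  · by_cases hta : t ∈ rpr110C A B c d w m' P
    · exact hxr_c_sub_CC H hta
    · have hb : ((t.1 + 1, t.2) : TV) ∈ plsBand c d := ⟨ht.2.2.1, ht.2.2.2⟩
      have hs' : B ≤ t.1 := hs
      have h3 := rpr110_right H (fun z hz => (rpr110_C_col hz).2) hb (show B < t.1 + 1 by omega)
      have h4 : ((t.1 + 1, t.2) : TV) ∉ rpr110C A B c d w m' P := fun h => by
        have h5 : t.1 + 1 ≤ B := (rpr110_C_col h).2
        omega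
      refine hxr_sol_R h3 (tsc_R_step ?_ ⟨hb, h4⟩ ⟨rrc86_rect_band ht, hta⟩)
      rw [tsc_G_adj, tsc_adj_iff]
      simp
  · refine hxr_CC_bot H hs ?_
    obtain ⟨a1, a2, a3⟩ := h1
    unfold rrw86X at *
    omega
  · refine hxr_CC_top H hs ?_
    obtain ⟨a1, a2, a3⟩ := h2
    unfold rrw86X at *
    omega

/-! ## §3 the pair, the look set, the strip -/

/-- **(R) the two layers are two crossings of the band**, `a` on the left of `c`, as soon as they do not touch -/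
theorem rpr110_pair (hcd : c < d) (hw : 0 ≤ w) (hA : A ≤ m - w) (hmm : m + w < m' - w) (hB : m' + w ≤ B) (hG : Rpr110G0 A B c d w m m' P)
    (h1 : ¬ Rrc86Touch (rpr110A A B c d w m P) (rpr110C A B c d w m' P)) :
    ∃ pa qa pc qc : TV, HxrPair c d (2 * A + c) (2 * B + d) (rpr110A A B c d w m P) (rpr110C A B c d w m' P) pa qa pc qc ∧
      pa ∈ rrc86Lam c m w ∧ qa ∈ rrc86Lam d m w ∧ pc ∈ rrc86Lam c m' w ∧ qc ∈ rrc86Lam d m' w := by
  obtain ⟨pa, qa, HA, a1, a2⟩ := rpr110_crA hcd hw hA (by omega) hG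
  obtain ⟨pc, qc, HC, c1, c2⟩ := rpr110_crC hcd hw (by omega) hB hG
  refine ⟨pa, qa, pc, qc, ⟨HA, HC, ?_, ?_, fun u hu v hv => ⟨fun e => h1 ⟨u, hu, v, hv, Or.inl e⟩, fun e => h1 ⟨u, hu, v, hv, Or.inr e⟩⟩⟩, a1, a2, c1, c2⟩
  · obtain ⟨-, -, a3⟩ := a1
    obtain ⟨-, c3, -⟩ := c1
    unfold rrw86X at *
    omega
  · obtain ⟨-, -, a3⟩ := a2
    obtain ⟨-, c3, -⟩ := c2
    unfold rrw86X at *
    omega

/-- **(R') every cell looked at lies in a solid side** -/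
theorem rpr110_look (hcd : c < d) (hw : 0 ≤ w) (hA : A ≤ m - w) (hmm : m + w < m' - w) (hB : m' + w ≤ B) (hG : Rpr110G0 A B c d w m m' P)
    {z : TV} (hz : z ∈ rsrLook (rrw86Rect A B c d) (rrc86SgL A c d m w ∪ rrc86SgR B c d m' w) P) :
    z ∈ rpr110AA B c d (rpr110A A B c d w m P) ∨ z ∈ rpr110CC A c d (rpr110C A B c d w m' P) := by
  obtain ⟨pa, qa, HA, a1, a2⟩ := rpr110_crA hcd hw hA (by omega) hG
  obtain ⟨pc, qc, HC, c1, c2⟩ := rpr110_crC hcd hw (by omega) hB hG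
  have offA : rrw86Rect A B c d \ P ⊆ plsBand c d \ rpr110A A B c d w m P := fun u hu => ⟨rrc86_rect_band hu.1, fun h => hu.2 (rpr110_A_sub h).2⟩
  have offC : rrw86Rect A B c d \ P ⊆ plsBand c d \ rpr110C A B c d w m' P := fun u hu => ⟨rrc86_rect_band hu.1, fun h => hu.2 (rpr110_C_sub h).2⟩
  have hcl : ∀ i, i ∈ pleI tscG (rrw86Rect A B c d \ P) (rrc86SgL A c d m w ∪ rrc86SgR B c d m' w) →
      (i ∈ rpr110AA B c d (rpr110A A B c d w m P) ∨ i ∈ rpr110CC A c d (rpr110C A B c d w m' P)) ∧ i ∈ rrw86Rect A B c d \ P := by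
    rintro i ⟨t, ht, hts | hts, hti⟩
    · exact ⟨Or.inl (hxr_sol_R (rpr110_seed_AA HA a1 a2 ht.1 hts) (tsc_R_mono offA hti)), tsc_R_mem hti ht⟩
    · exact ⟨Or.inr (hxr_sol_R (rpr110_seed_CC HC c1 c2 ht.1 hts) (tsc_R_mono offC hti)), tsc_R_mem hti ht⟩
  obtain ⟨hzR, (hs | hs) | hz | ⟨i, hi, hiz⟩⟩ := hz
  · exact Or.inl (rpr110_seed_AA HA a1 a2 hzR hs)
  · exact Or.inr (rpr110_seed_CC HC c1 c2 hzR hs)
  · exact (hcl z hz).1
  · obtain ⟨h | h, hiN⟩ := hcl i hi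
    · left
      by_cases hza : z ∈ rpr110A A B c d w m P
      · exact hxr_a_sub_AA HA hza
      · exact hxr_sol_R h (tsc_R_step hiz (offA hiN) ⟨rrc86_rect_band hzR, hza⟩)
    · right
      by_cases hza : z ∈ rpr110C A B c d w m' P
      · exact hxr_c_sub_CC HC hza
      · exact hxr_sol_R h (tsc_R_step hiz (offC hiN) ⟨rrc86_rect_band hzR, hza⟩)

/-- **(R'') the two layers are looked at and plus** -/
theorem rpr110_layer (z : TV) (hz : z ∈ rpr110A A B c d w m P ∨ z ∈ rpr110C A B c d w m' P) :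
    z ∈ P ∧ z ∈ rsrLook (rrw86Rect A B c d) (rrc86SgL A c d m w ∪ rrc86SgR B c d m' w) P := by
  rcases hz with hz | hz
  · refine ⟨(rpr110_A_sub hz).2, (rpr110_A_sub hz).1, ?_⟩
    rcases hz.2 with h | ⟨i, ⟨t, ht, hts, hti⟩, h⟩
    · exact Or.inl (Or.inl h)
    · exact Or.inr (Or.inr ⟨i, ⟨t, ht, Or.inl hts, hti⟩, h⟩)
  · refine ⟨(rpr110_C_sub hz).2, (rpr110_C_sub hz).1, ?_⟩
    rcases hz.2 with h | ⟨i, ⟨t, ht, hts, hti⟩, h⟩
    · exact Or.inl (Or.inr h)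
    · exact Or.inr (Or.inr ⟨i, ⟨t, ht, Or.inr hts, hti⟩, h⟩)

/-- **the strip lies strictly inside the straight box** -/
theorem rpr110_Q_rect (hcd : c < d) (hw : 0 ≤ w) (hA : A ≤ m - w) (hmm : m + w < m' - w) (hB : m' + w ≤ B) (hG : Rpr110G0 A B c d w m m' P)
    {y : TV} (hy : y ∈ rpr110Q A B c d (rpr110A A B c d w m P) (rpr110C A B c d w m' P)) : y ∈ rrw86Rect (A + 1) (B - 1) c d := by
  obtain ⟨pa, qa, HA, a1, a2⟩ := rpr110_crA hcd hw hA (by omega) hG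
  obtain ⟨pc, qc, HC, c1, c2⟩ := rpr110_crC hcd hw (by omega) hB hG
  have hAB : A ≤ B := by omega
  have l1 : A < y.1 := by
    by_contra hn
    rcases lt_or_eq_of_le (not_lt.1 hn) with h | h
    · exact hy.2 (Or.inl (rpr110_left HA (fun z hz => (rpr110_A_col hz).1) hy.1 h))
    · exact hy.2 (Or.inl (rpr110_seed_AA HA a1 a2 ⟨h.ge, h.le.trans hAB, hy.1.1, hy.1.2⟩ (Or.inl h.le)))
  have l2 : y.1 < B := by
    by_contra hn
    rcases lt_or_eq_of_le (not_lt.1 hn) with h | h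
    · exact hy.2 (Or.inr (rpr110_right HC (fun z hz => (rpr110_C_col hz).2) hy.1 h))
    · exact hy.2 (Or.inr (rpr110_seed_CC HC c1 c2 ⟨hAB.trans h.le, h.ge, hy.1.1, hy.1.2⟩ (Or.inl h.le)))
  exact ⟨show A + 1 ≤ y.1 by omega, show y.1 ≤ B - 1 by omega, hy.1.1, hy.1.2⟩

end idx

section idx2

variable {A B c d : ℤ} {a cc : Set TV} {pa qa pc qc : TV}

/-- a cell of the band next to `a` and to `c` is free -/
theorem rpr110_T2_free (H : HxrPair c d (2 * A + c) (2 * B + d) a cc pa qa pc qc) {y : TV} (hy : y ∈ plsBand c d) (hu : ∃ u ∈ a, tscG.Adj y u) (hv : ∃ v ∈ cc, tscG.Adj y v) :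
    y ∈ rpr110Q A B c d a cc := by
  obtain ⟨u, hu, hyu⟩ := hu
  obtain ⟨v, hv, hyv⟩ := hv
  refine ⟨hy, ?_⟩
  rintro (h | h)
  · have := hxr_AA_bd H.A (H.C.sub hv) (hxr_c_off H v hv) h hyv.symm
    exact (H.sep y this v hv).2 hyv
  · have := hxr_CC_bd H.C (H.A.sub hu) (hxr_a_off H u hu) h hyu.symm
    exact (H.sep u hu y this).2 hyu.symm

/-- a neighbour of a free cell in a solid side lies on the layer -/
theorem rpr110_free_nb (H : HxrPair c d (2 * A + c) (2 * B + d) a cc pa qa pc qc) {y y' : TV} (hy : y ∈ rpr110Q A B c d a cc)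
    (hy' : y' ∈ rpr110AA B c d a ∨ y' ∈ rpr110CC A c d cc) (h : tscG.Adj y y') : y' ∈ a ∨ y' ∈ cc := by
  rcases hy' with h' | h'
  · exact Or.inl (hxr_AA_bd H.A hy.1 (fun h0 => hy.2 (Or.inl h0)) h' h)
  · exact Or.inr (hxr_CC_bd H.C hy.1 (fun h0 => hy.2 (Or.inr h0)) h' h)

/-- the strip is connected -/
theorem rpr110_Q_conn (H : HxrPair c d (2 * A + c) (2 * B + d) a cc pa qa pc qc) : TscConn tscG (rpr110Q A B c d a cc) := hxr_Q_conn H

/-- the two solid sides are disjoint and not adjacent -/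
theorem rpr110_sep (H : HxrPair c d (2 * A + c) (2 * B + d) a cc pa qa pc qc) : ∀ u ∈ rpr110AA B c d a, ∀ v ∈ rpr110CC A c d cc, u ≠ v ∧ ¬ triAdj u v := hxr_sep H

end idx2

/-! ## §4 under one record -/

section model

variable {Ω Y : Type} (𝓛 : Rln182Law Ω Y) (ι : TV → Y) {c d w σ m e : ℤ}

theorem rpr110_A_eq (ω : Ω) : rrc86A 𝓛 ι c d w σ m e ω = rpr110A (m - e) (m + σ + e) c d w m (rrc86Y 𝓛 ι ω) := rfl

theorem rpr110_C_eq (ω : Ω) : rrc86C 𝓛 ι c d w σ m e ω = rpr110C (m - e) (m + σ + e) c d w (m + σ) (rrc86Y 𝓛 ι ω) := rfl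

theorem rpr110_G0_iff (ω : Ω) : Rrc86G0 (m - e) (m + σ + e) c d w m (m + σ) (rrc86I 𝓛 ι c d w σ m e ω) (rrc86J 𝓛 ι c d w σ m e ω) ↔
    Rpr110G0 (m - e) (m + σ + e) c d w m (m + σ) (rrc86Y 𝓛 ι ω) := Iff.rfl

/-- **(R) under one record** -/
theorem rpr110_pair_rec (hcd : c < d) (hw : 0 ≤ w) (hσ : 2 * w < σ) (he : w ≤ e) (ω₀ : Ω)
    (hG : Rrc86G0 (m - e) (m + σ + e) c d w m (m + σ) (rrc86I 𝓛 ι c d w σ m e ω₀) (rrc86J 𝓛 ι c d w σ m e ω₀))
    (h1 : ¬ Rrc86Touch (rrc86A 𝓛 ι c d w σ m e ω₀) (rrc86C 𝓛 ι c d w σ m e ω₀)) :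
    ∃ pa qa pc qc : TV, HxrPair c d (2 * (m - e) + c) (2 * (m + σ + e) + d) (rrc86A 𝓛 ι c d w σ m e ω₀) (rrc86C 𝓛 ι c d w σ m e ω₀) pa qa pc qc ∧
      pa ∈ rrc86Lam c m w ∧ qa ∈ rrc86Lam d m w ∧ pc ∈ rrc86Lam c (m + σ) w ∧ qc ∈ rrc86Lam d (m + σ) w :=
  rpr110_pair hcd hw (by omega) (by omega) (by omega) hG h1

/-- **(R') under one record**: a cell of the law which is looked at is the image of an index of the box in a solid side -/
theorem rpr110_look_rec (hcd : c < d) (hw : 0 ≤ w) (hσ : 2 * w < σ) (he : w ≤ e) (ω₀ : Ω)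
    (hG : Rrc86G0 (m - e) (m + σ + e) c d w m (m + σ) (rrc86I 𝓛 ι c d w σ m e ω₀) (rrc86J 𝓛 ι c d w σ m e ω₀))
    {y : Y} (hy : y ∈ rrc86Q2 𝓛 ι c d w σ m e ω₀) :
    ∃ z ∈ rrw86Rect (m - e) (m + σ + e) c d, ι z = y ∧
      (z ∈ rpr110AA (m + σ + e) c d (rrc86A 𝓛 ι c d w σ m e ω₀) ∨ z ∈ rpr110CC (m - e) c d (rrc86C 𝓛 ι c d w σ m e ω₀)) := by
  classical
  obtain ⟨_, z, hz, rfl⟩ := Finset.mem_filter.1 hy
  exact ⟨z, hz.1, rfl, rpr110_look hcd hw (by omega) (by omega) (by omega) hG hz⟩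

/-- **a free cell is not looked at** (the chart is one to one on the box) -/
theorem rpr110_free_unseen (hcd : c < d) (hw : 0 ≤ w) (hσ : 2 * w < σ) (he : w ≤ e) (ω₀ : Ω)
    (hι : ∀ z ∈ rrw86Rect (m - e) (m + σ + e) c d, ∀ z' ∈ rrw86Rect (m - e) (m + σ + e) c d, ι z = ι z' → z = z')
    (hG : Rrc86G0 (m - e) (m + σ + e) c d w m (m + σ) (rrc86I 𝓛 ι c d w σ m e ω₀) (rrc86J 𝓛 ι c d w σ m e ω₀))
    {y : TV} (hy : y ∈ rpr110Q (m - e) (m + σ + e) c d (rrc86A 𝓛 ι c d w σ m e ω₀) (rrc86C 𝓛 ι c d w σ m e ω₀)) :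
    ι y ∉ rrc86Q2 𝓛 ι c d w σ m e ω₀ := by
  intro hm
  obtain ⟨z, hzR, hzy, hz⟩ := rpr110_look_rec 𝓛 ι hcd hw hσ he ω₀ hG hm
  have hyR := rpr110_Q_rect (m := m) (m' := m + σ) (w := w) hcd hw (by omega) (by omega) (by omega) hG hy
  have hyR' : y ∈ rrw86Rect (m - e) (m + σ + e) c d := ⟨by have := hyR.1; omega, by have := hyR.2.1; omega, hyR.2.2.1, hyR.2.2.2⟩
  rw [hι z hzR y hyR' hzy] at hz
  exact hy.2 hz

/-- **the observed neighbours of a free cell are plus**: an index of the box next to a free cell whose cell is looked at lies on a layer -/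
theorem rpr110_seen_nb_plus (hcd : c < d) (hw : 0 ≤ w) (hσ : 2 * w < σ) (he : w ≤ e) (ω₀ : Ω)
    (hι : ∀ z ∈ rrw86Rect (m - e) (m + σ + e) c d, ∀ z' ∈ rrw86Rect (m - e) (m + σ + e) c d, ι z = ι z' → z = z')
    (hG : Rrc86G0 (m - e) (m + σ + e) c d w m (m + σ) (rrc86I 𝓛 ι c d w σ m e ω₀) (rrc86J 𝓛 ι c d w σ m e ω₀))
    (h1 : ¬ Rrc86Touch (rrc86A 𝓛 ι c d w σ m e ω₀) (rrc86C 𝓛 ι c d w σ m e ω₀))
    {y y' : TV} (hy : y ∈ rpr110Q (m - e) (m + σ + e) c d (rrc86A 𝓛 ι c d w σ m e ω₀) (rrc86C 𝓛 ι c d w σ m e ω₀))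
    (hy' : y' ∈ rrw86Rect (m - e) (m + σ + e) c d) (hadj : tscG.Adj y y') (hm : ι y' ∈ rrc86Q2 𝓛 ι c d w σ m e ω₀) :
    (y' ∈ rrc86A 𝓛 ι c d w σ m e ω₀ ∨ y' ∈ rrc86C 𝓛 ι c d w σ m e ω₀) ∧ y' ∈ rrc86Y 𝓛 ι ω₀ := by
  obtain ⟨pa, qa, pc, qc, H, -⟩ := rpr110_pair_rec 𝓛 ι hcd hw hσ he ω₀ hG h1
  obtain ⟨z, hzR, hzy, hz⟩ := rpr110_look_rec 𝓛 ι hcd hw hσ he ω₀ hG hm
  rw [hι z hzR y' hy' hzy] at hz
  have h3 := rpr110_free_nb H hy hz hadj
  exact ⟨h3, (rpr110_layer y' h3).1⟩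

end model

end Claimed.Agent.R292
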