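import Claimed.Agent.R292.Rsw.LenInst182
import Claimed.Agent.R292.Rsw.Ports102
import Claimed.Agent.R292.Rsw.RswCyl86
import Claimed.Agent.R292.Rsw.RswPair110

/-!
# Row 292 (S0540), Rsw/RswWall180 : R8 CORE, BLOCK A3, PART II (c) = THE CHAIN UNDER ONE RECORD on an edge-pair system      (owner helper180; prefix `rwl180_` / `rwl180` / `Rwl180`)      0 sorry

Port of R291 `Ann/RswWall` (my file there) to the systems `Rcy162Sys` of 162, histories `RswCon` of 121, laws `Rln182Law` + `Rse182Link` of 182, ports of 102 (`Rsw/Ports102`: THE PORTS ARE FACES).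
For ANY system `Y`, ANY legal history `rec` (the record), ANY set `O` of edge pairs (the box), ANY set `M ⊆ O` of FRESH edge pairs (the strip), ANY set `R ⊇` endpoints of `M` of retained vertices (v2, 22:30Z: `R` is a parameter):
    `rec`  ≥  `h1 = rwl180H1` = `rec` + minus wall next to `M`            (`Rse182Ord` of 182: HYPOTHESIS)
    `h1`   ~  `(SQ, H0)`,  `SQ = rwl180SQ Y M R` = the CLOSED strip system (vertices = endpoints of `M`, faces = faces of `M`, edge pairs = `M`),  `H0 = rwl180H0 Lp Lm` = pins only      (`rpo102_ge` of 102)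
    the estimate in `(SQ, H0)`,      `J ≤ F` under `h1`.
NEW ON `ℤ²`: there are no clipped cells, so the strip system is the retained system of 102 itself and only ONE port factor `2 ^ (|P| - 1)` is paid (R291 paid two).
An edge pair touches the strip in two ways: by an ENDPOINT (`rwl180EoV`: its first spin there has to be pinned) or by a FACE (`rwl180EoF`: it has to be prescribed good, or its faces on the strip are ports).
`rwl180Xw` = THE WALL = edge pairs of `rwl180EoF` without a plus pin of `rec` (they become good minus);  `rwl180Xp` = the others (they stay unobserved);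
`rwl180Nm` = new minus pins = endpoints of the wall + vertices of the strip on `rwl180EoV` which are not plus pins;      `rwl180P` = faces of the strip on `rwl180Xp` = THE PORTS.
**`Rwl180Geo Y rec O M R Lp Lm`** = all that the chain asks from the geometry (9 fields, no planarity, no law).
**`rwl180_main`** : `Rwl180Geo` + `c Z_SQ(H0) ≤ N_SQ(H0; J)` + `J` local, `≥ 0` + `J ≤ F` under `h1` + `F` increasing  ⟹  `c / 2^(|P| - 1) · Z(rec) ≤ N(rec; F)`.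
**`rwl180_join`** : the same for events, `|P| ≤ 4`: constant `c / 8`.
§5 **`rwl180_chain86`** : THE CONTRACT `Rrc86Chain` OF 86 (`Rsw/RswCyl86` §11) with `C = 8`, for the record `rrc86Rec 𝓛 Kb Qf ω₀` (= history `rse182Obs Y K (Qf ω₀) ω₀` of 182), strip = a set `T` of refined cells
(`M = rse182Ed Y T`, `R = rse182Sv Y T`), `h1 = rec ∧ Holds (rwl180H1 ..)` (so `h1 ⟹ rec` for ALL configurations: `rwl180_h1_rec`), closed strip law = ANY `𝓛Q` linked (`Rse182Link`) to `rwl180SQ`.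
§6 **`rwl180_strip86`** : `Rrc86Strip` of 86 (constant `8`);  **`rwl180_LK_gen`** : the body of `Rrc86LK` at one record, any local event `A`;  **`rwl180_LK_cyl`** : the same ON THE MIXED CYLINDER `rrc86L t L H`, `Rcy162Mix L 0 H`, `sdRed (2 L)`, record `rrc86Q2`
(`rwl180KM`, `rwl180_KM_holds`, `rwl180_pt_cyl`, `rwl180_Q2_pt`: the cells looked at are points of the system).      LEFT TO THE USER: `Rse182Ord`, `Rwl180Geo`, ports `≤ 4`, the estimate in the closed strip law.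
§7 (v4, 22:50Z) **`rwl180_geo_cyl`** : ALL the fields of `Rwl180Geo` ON THE MIXED CYLINDER from four facts of the index lattice (`Rwl180Idx`: the free cells lie in the box, are not looked at, the cells looked at lie in the box, a cell of the box next to a free cell is free or looked at and plus): `O = rwl180Box` (edge pairs whose cell lies in the box), `T` = the free cells, `Lp` = plus pins of the record on the strip, `Lm` = the other vertices of the strip on an edge pair off the strip.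
§8 (v5, 23:15Z) the index facts UNDER ONE RECORD from `Rsw/RswPair110` of 110: **`rwl180_idx_110`** (`Rwl180Idx` for the strip `rpr110Q` and the look set `rrc86Q2`), `rwl180_left_110`, `rwl180_right_110` (an extreme row has at most one free cell with a cell looked at on its left / right: inputs of the bound of the ports for ODD rows, `lp431_ports_cyl` of 31).      (110 has the geometry wired to the record in `Rsw/RswGeo110`: `rpg110_geo_cyl`.)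
`rwl180_good` : good edges of `M` in `SQ` and in `Y` coincide;   `rwl180_h1_holds` : `h1 ⟹ rec`;   `rwl180_H0_pos` (the strip law is feasible), `rwl180_feas1` (feasibility of `h1`): NO feasibility hypothesis is left to the user.
-/

set_option autoImplicit false
set_option linter.unusedSectionVars false
set_option linter.unusedVariables false

namespace Claimed.Agent.R292

open Claims Claims.C0468 Finset Claimed.Agent.R291

/-! ## 0. vocabulary -/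

/-- the endpoints of a set of edge pairs -/
def rwl180Sv (Y : Rcy162Sys) (M : Finset ((ℤ × ℤ) × Bool)) : Finset (ℤ × ℤ) := M.biUnion (rpo102Sv Y)

/-- the faces of a set of edge pairs -/
def rwl180Sd (Y : Rcy162Sys) (M : Finset ((ℤ × ℤ) × Bool)) : Finset (ℤ × ℤ) := M.biUnion (rpo102Sd Y)

open Classical in
/-- the edge pairs off the box with an ENDPOINT on the strip -/
noncomputable def rwl180EoV (Y : Rcy162Sys) (O : Finset ((ℤ × ℤ) × Bool)) (R : Finset (ℤ × ℤ)) : Finset ((ℤ × ℤ) × Bool) :=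
  Y.E.filter (fun w => w ∉ O ∧ ∃ v ∈ rpo102Sv Y w, v ∈ R)

open Classical in
/-- the edge pairs off the box with a FACE on the strip -/
noncomputable def rwl180EoF (Y : Rcy162Sys) (O M : Finset ((ℤ × ℤ) × Bool)) : Finset ((ℤ × ℤ) × Bool) :=
  Y.E.filter (fun w => w ∉ O ∧ ∃ f ∈ rpo102Sd Y w, f ∈ rwl180Sd Y M)

open Classical in
/-- THE WALL: outer edge pairs with a face on the strip, without any plus pin of the record -/
noncomputable def rwl180Xw (Y : Rcy162Sys) (rec : RswCon) (O M : Finset ((ℤ × ℤ) × Bool)) : Finset ((ℤ × ℤ) × Bool) :=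
  (rwl180EoF Y O M).filter (fun w => ∀ v ∈ rpo102Sv Y w, v ∉ rec.Sp)

/-- the outer edge pairs with a face on the strip which have a plus pin of the record (they stay unobserved) -/
noncomputable def rwl180Xp (Y : Rcy162Sys) (rec : RswCon) (O M : Finset ((ℤ × ℤ) × Bool)) : Finset ((ℤ × ℤ) × Bool) :=
  rwl180EoF Y O M \ rwl180Xw Y rec O M

/-- the new minus pins -/
noncomputable def rwl180Nm (Y : Rcy162Sys) (rec : RswCon) (O M : Finset ((ℤ × ℤ) × Bool)) (R : Finset (ℤ × ℤ)) : Finset (ℤ × ℤ) :=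
  rwl180Sv Y (rwl180Xw Y rec O M) ∪ ((R ∩ rwl180Sv Y (rwl180EoV Y O R)) \ rec.Sp)

/-- **the ports: FACES** -/
noncomputable def rwl180P (Y : Rcy162Sys) (rec : RswCon) (O M : Finset ((ℤ × ℤ) × Bool)) : Finset (ℤ × ℤ) :=
  rwl180Sd Y M ∩ rwl180Sd Y (rwl180Xp Y rec O M)

/-- `h1` = the record + the wall -/
noncomputable def rwl180H1 (Y : Rcy162Sys) (rec : RswCon) (O M : Finset ((ℤ × ℤ) × Bool)) (R : Finset (ℤ × ℤ)) : RswCon :=
  rse182Add rec ∅ (rwl180Nm Y rec O M R) ∅ (rwl180Xw Y rec O M)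

/-- **the closed strip system**: the endpoints, the faces and the edge pairs of `M` -/
def rwl180SQ (Y : Rcy162Sys) (M : Finset ((ℤ × ℤ) × Bool)) (R : Finset (ℤ × ℤ)) : Rcy162Sys := rpo102SR Y R (rwl180Sd Y M) M

/-- the strip law: plus on `Lp`, minus on `Lm`, nothing else -/
def rwl180H0 (Lp Lm : Finset (ℤ × ℤ)) : RswCon := ⟨Lp, Lm, ∅, ∅, ∅⟩

/-- **what the chain asks from the geometry** -/
structure Rwl180Geo (Y : Rcy162Sys) (rec : RswCon) (O M : Finset ((ℤ × ℤ) × Bool)) (R Lp Lm : Finset (ℤ × ℤ)) : Prop where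
  MO : M ⊆ O
  OC : O ⊆ Y.E
  /-- the retained vertices are vertices of the system -/
  RV : R ⊆ Y.V
  /-- the endpoints of the strip are retained -/
  MR : rwl180Sv Y M ⊆ R
  /-- the edge pairs of `M` are fresh -/
  fresh : ∀ y ∈ M, y ∉ rec.Gp ∧ y ∉ rec.Gm ∧ y ∉ rec.Cl
  /-- no outer edge pair with a face on the strip is recorded closed -/
  out : ∀ y ∈ rwl180EoF Y O M, y ∉ rec.Cl
  /-- an endpoint on the strip of an edge pair of the box off `M` is a plus pin of the record -/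
  extV : ∀ w ∈ O, w ∉ M → ∀ v ∈ rpo102Sv Y w, v ∈ R → v ∈ rec.Sp
  /-- an edge pair of the box off `M` with a face on the strip is a good plus edge of the record (an edge of one of the two layers) -/
  extF : ∀ w ∈ O, w ∉ M → (∃ f ∈ rpo102Sd Y w, f ∈ rwl180Sd Y M) → w ∈ rec.Gp
  /-- the plus pins of the record on the strip are the plus sides -/
  sp : rec.Sp ∩ R = Lp
  /-- no minus pin of the record on the strip -/
  sm : ∀ v ∈ rec.Sm, v ∉ R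
  /-- the vertices of the strip on the outer edge pairs, off the plus sides, are the ends -/
  ends : (R ∩ rwl180Sv Y (rwl180EoV Y O R)) \ rec.Sp = Lm

theorem rwl180_eqns_cite : True := by
  have := @rwl180Sv.eq_1
  have := @rwl180Sd.eq_1
  have := @rwl180EoV.eq_1
  have := @rwl180EoF.eq_1
  have := @rwl180Xw.eq_1
  have := @rwl180Xp.eq_1
  have := @rwl180Nm.eq_1
  have := @rwl180P.eq_1
  have := @rwl180H1.eq_1
  have := @rwl180SQ.eq_1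
  have := @rwl180H0.eq_1
  trivial

/-! ## 1. the wall -/

section facts

variable {Y : Rcy162Sys} {t : ℝ} {𝓛 : Rln182Law RswCfg TV} {rec : RswCon} {O M : Finset ((ℤ × ℤ) × Bool)} {R Lp Lm : Finset (ℤ × ℤ)}

theorem rwl180_mem_Sv {X : Finset ((ℤ × ℤ) × Bool)} {v : ℤ × ℤ} : v ∈ rwl180Sv Y X ↔ ∃ y ∈ X, v ∈ rpo102Sv Y y := by
  unfold rwl180Sv; exact mem_biUnion

theorem rwl180_mem_Sd {X : Finset ((ℤ × ℤ) × Bool)} {f : ℤ × ℤ} : f ∈ rwl180Sd Y X ↔ ∃ y ∈ X, f ∈ rpo102Sd Y y := by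
  unfold rwl180Sd; exact mem_biUnion

theorem rwl180_end_iff {e : (ℤ × ℤ) × Bool} {v : ℤ × ℤ} : v ∈ rpo102Sv Y e ↔ Rse182End Y e v := by
  unfold rpo102Sv Rse182End
  rw [mem_insert, mem_singleton]

theorem rwl180_fac_iff {e : (ℤ × ℤ) × Bool} {f : ℤ × ℤ} : f ∈ rpo102Sd Y e ↔ Rse182Fac Y e f := by
  unfold rpo102Sd Rse182Fac
  rw [mem_insert, mem_singleton]

theorem rwl180_mem_EoV {w : (ℤ × ℤ) × Bool} : w ∈ rwl180EoV Y O R ↔ w ∈ Y.E ∧ w ∉ O ∧ ∃ v ∈ rpo102Sv Y w, v ∈ R := by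
  classical
  unfold rwl180EoV; rw [mem_filter]

theorem rwl180_mem_EoF {w : (ℤ × ℤ) × Bool} : w ∈ rwl180EoF Y O M ↔ w ∈ Y.E ∧ w ∉ O ∧ ∃ f ∈ rpo102Sd Y w, f ∈ rwl180Sd Y M := by
  classical
  unfold rwl180EoF; rw [mem_filter]

theorem rwl180_mem_Xw {w : (ℤ × ℤ) × Bool} : w ∈ rwl180Xw Y rec O M ↔ w ∈ rwl180EoF Y O M ∧ ∀ v ∈ rpo102Sv Y w, v ∉ rec.Sp := by
  classical
  unfold rwl180Xw; rw [mem_filter]

theorem rwl180_Xw_sub_E : rwl180Xw Y rec O M ⊆ Y.E := fun _ hw => (rwl180_mem_EoF.1 (rwl180_mem_Xw.1 hw).1).1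

theorem rwl180_EoF_cases {w : (ℤ × ℤ) × Bool} (hw : w ∈ rwl180EoF Y O M) : w ∈ rwl180Xw Y rec O M ∨ w ∈ rwl180Xp Y rec O M := by
  by_cases h : w ∈ rwl180Xw Y rec O M
  · exact Or.inl h
  · exact Or.inr (mem_sdiff.2 ⟨hw, h⟩)

theorem rwl180_Xw_sv_Nm : rwl180Sv Y (rwl180Xw Y rec O M) ⊆ rwl180Nm Y rec O M R := by
  unfold rwl180Nm; exact subset_union_left

theorem rwl180_Nm_not_sp {v : ℤ × ℤ} (hv : v ∈ rwl180Nm Y rec O M R) : v ∉ rec.Sp := by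
  unfold rwl180Nm at hv
  rcases mem_union.1 hv with h | h
  · obtain ⟨w, hw, hvw⟩ := rwl180_mem_Sv.1 h
    exact (rwl180_mem_Xw.1 hw).2 v hvw
  · exact (mem_sdiff.1 h).2

/-- the wall edges: edges of the system, endpoints among the new minus pins -/
theorem rwl180_wall_ok : ∀ e ∈ rwl180Xw Y rec O M, e ∈ Y.E ∧ ∀ v, Rse182End Y e v → v ∈ rwl180Nm Y rec O M R := fun e he =>
  ⟨rwl180_Xw_sub_E he, fun v hv => rwl180_Xw_sv_Nm (rwl180_mem_Sv.2 ⟨e, he, rwl180_end_iff.2 hv⟩)⟩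

theorem rwl180_none_ok (sp : Finset (ℤ × ℤ)) : ∀ e ∈ (∅ : Finset ((ℤ × ℤ) × Bool)), e ∈ Y.E ∧ ∀ v, Rse182End Y e v → v ∈ sp :=
  fun e he => absurd he (notMem_empty e)

theorem rwl180_legal1 (hK : Rse182Legal Y rec) : Rse182Legal Y (rwl180H1 Y rec O M R) :=
  rse182_add_legal hK (rwl180_none_ok ∅) rwl180_wall_ok

theorem rwl180_le1 : Rse182Le (rwl180H1 Y rec O M R) rec where
  sp := by show rec.Sp ∪ ∅ ⊆ rec.Sp; rw [union_empty]
  sm := subset_union_left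
  gp := by show rec.Gp ∪ ∅ ⊆ rec.Gp; rw [union_empty]
  gm := subset_union_left
  cl1 := subset_union_left
  cl2 := subset_union_left

theorem rwl180_feasH1 (f0 : Rse182Feas Y rec) (hG : Rwl180Geo Y rec O M R Lp Lm) : Rse182Feas Y (rwl180H1 Y rec O M R) := by
  refine rse182_add_feas f0 (empty_subset _) (rwl180_none_ok ∅) rwl180_wall_ok ?_ ?_
  · rw [union_empty, disjoint_union_right]
    exact ⟨f0.dis, disjoint_right.2 fun v hv => rwl180_Nm_not_sp hv⟩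
  · intro y hy
    rw [empty_union] at hy
    exact hG.out y (rwl180_mem_Xw.1 hy).1

theorem rwl180_feas1 (hl : Rse182Link Y t 𝓛) (hS : 𝓛.Ok) (h0 : 0 < t) (h1 : t < 1) (hK : Rse182Legal Y rec) (hG : Rwl180Geo Y rec O M R Lp Lm)
    (hZ : 0 < 𝓛.Z (rse182Holds Y rec)) : 0 < 𝓛.Z (rse182Holds Y (rwl180H1 Y rec O M R)) :=
  rse182_feas hl hS h0 h1 (rwl180_feasH1 (rse182_feas_conv hl hK hZ) hG)

/-- the new minus pins on the strip -/
theorem rwl180_Nm_R (hG : Rwl180Geo Y rec O M R Lp Lm) : rwl180Nm Y rec O M R ∩ R = (R ∩ rwl180Sv Y (rwl180EoV Y O R)) \ rec.Sp := by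
  ext v
  constructor
  · intro hv
    obtain ⟨h1, h2⟩ := mem_inter.1 hv
    refine mem_sdiff.2 ⟨mem_inter.2 ⟨h2, ?_⟩, rwl180_Nm_not_sp h1⟩
    unfold rwl180Nm at h1
    rcases mem_union.1 h1 with h | h
    · obtain ⟨w, hw, hvw⟩ := rwl180_mem_Sv.1 h
      obtain ⟨a1, a2, -⟩ := rwl180_mem_EoF.1 (rwl180_mem_Xw.1 hw).1
      exact rwl180_mem_Sv.2 ⟨w, rwl180_mem_EoV.2 ⟨a1, a2, v, hvw, h2⟩, hvw⟩
    · exact (mem_inter.1 (mem_sdiff.1 h).1).2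
  · intro hv
    refine mem_inter.2 ⟨?_, (mem_inter.1 (mem_sdiff.1 hv).1).1⟩
    unfold rwl180Nm
    exact mem_union_right _ hv

/-- the retained part `(Sv M, Sd M, M)` of the ambient under `h1` -/
theorem rwl180_split1 (hw : Y.WF) (h0 : 0 ≤ t) (h1 : t ≤ 1) (hG : Rwl180Geo Y rec O M R Lp Lm) :
    Rpo102Split Y t (rpo102Of (rwl180H1 Y rec O M R) ∅) R (rwl180Sd Y M) M ∅ (rwl180P Y rec O M) where
  RA := hG.RV
  QA := fun f hf => by
    obtain ⟨y, hy, hfy⟩ := rwl180_mem_Sd.1 hf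
    have hyE := hG.OC (hG.MO hy)
    rcases rwl180_fac_iff.1 hfy with rfl | rfl
    · exact hw.f0 y hyE
    · exact hw.f1 y hyE
  YC := hG.MO.trans hG.OC
  sub := fun y hy f hf => by
    rcases rwl180_fac_iff.1 hf with rfl | rfl
    · exact hw.f0 y hy
    · exact hw.f1 y hy
  q0 := h0
  q1 := h1
  cellR := fun y hy v hv => hG.MR (rwl180_mem_Sv.2 ⟨y, hy, hv⟩)
  cellQ := fun y hy f hf => rwl180_mem_Sd.2 ⟨y, hy, hf⟩
  pinX := by
    intro w hwE hwM v hv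
    obtain ⟨hv1, hvR⟩ := mem_inter.1 hv
    show v ∈ (rec.Sp ∪ ∅) ∪ (rec.Sm ∪ rwl180Nm Y rec O M R)
    rw [union_empty]
    by_cases hb : v ∈ rec.Sp
    · exact mem_union_left _ hb
    · refine mem_union_right _ (mem_union_right _ ?_)
      by_cases hO : w ∈ O
      · exact absurd (hG.extV w hO hwM v hv1 hvR) hb
      · unfold rwl180Nm
        exact mem_union_right _ (mem_sdiff.2 ⟨mem_inter.2 ⟨hvR, rwl180_mem_Sv.2 ⟨w, rwl180_mem_EoV.2 ⟨hwE, hO, v, hv1, hvR⟩, hv1⟩⟩, hb⟩)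
  portC := by
    intro w hwE hwM
    by_cases ht : ∃ f ∈ rpo102Sd Y w, f ∈ rwl180Sd Y M
    · by_cases hO : w ∈ O
      · exact Or.inl (mem_union_left _ (mem_union_left _ (hG.extF w hO hwM ht)))
      · rcases rwl180_EoF_cases (rec := rec) (rwl180_mem_EoF.2 ⟨hwE, hO, ht⟩) with h' | h'
        · exact Or.inl (mem_union_right _ (mem_union_right _ h'))
        · refine Or.inr fun u hu => ?_
          obtain ⟨hu1, huR⟩ := mem_inter.1 hu
          exact mem_inter.2 ⟨huR, rwl180_mem_Sd.2 ⟨w, h', hu1⟩⟩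
    · refine Or.inr fun u hu => ?_
      obtain ⟨hu1, huR⟩ := mem_inter.1 hu
      exact absurd ⟨u, hu1, huR⟩ ht
  eqR := Subset.refl _
  eqR_in := fun e he => absurd he (notMem_empty e)
  portE := fun e he => absurd he (notMem_empty e)
  eqA := fun e he => absurd he (notMem_empty e)

/-! ## 2. the closed strip system -/

theorem rwl180_Lp_sub (hG : Rwl180Geo Y rec O M R Lp Lm) : Lp ⊆ R := by
  rw [← hG.sp]; exact inter_subset_right

theorem rwl180_Lm_sub (hG : Rwl180Geo Y rec O M R Lp Lm) : Lm ⊆ R := by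
  rw [← hG.ends]; exact sdiff_subset.trans inter_subset_left

theorem rwl180_Lp_Lm (hG : Rwl180Geo Y rec O M R Lp Lm) : Disjoint Lp Lm := by
  rw [← hG.sp, ← hG.ends]
  exact disjoint_left.2 fun v h1 h2 => (mem_sdiff.1 h2).2 (mem_inter.1 h1).1

/-- good edges: strip system = ambient -/
theorem rwl180_good (a : Bool) (ω : RswCfg) (e : (ℤ × ℤ) × Bool) : (rwl180SQ Y M R).Good a ω e ↔ Y.Good a ω e := Iff.rfl

/-- the strip law and `h1` have the same retained data -/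
theorem rwl180_same (hG : Rwl180Geo Y rec O M R Lp Lm) :
    rpo102KR (rpo102Of (rwl180H1 Y rec O M R) ∅) R M ∅ = rpo102Of (rwl180H0 Lp Lm) ∅ := by
  have e1 : (rec.Sp ∪ ∅) ∩ R = Lp := by rw [union_empty, hG.sp]
  have e2 : (rec.Sm ∪ rwl180Nm Y rec O M R) ∩ R = Lm := by
    rw [union_inter_distrib_right, rwl180_Nm_R hG, hG.ends]
    have : rec.Sm ∩ R = ∅ := eq_empty_of_forall_notMem fun v hv => hG.sm v (mem_inter.1 hv).1 (mem_inter.1 hv).2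
    rw [this, empty_union]
  have e3 : (rec.Gp ∪ ∅) ∩ M = ∅ := eq_empty_of_forall_notMem fun y hy => by
    rw [union_empty] at hy
    exact (hG.fresh y (mem_inter.1 hy).2).1 (mem_inter.1 hy).1
  have e4 : (rec.Gm ∪ rwl180Xw Y rec O M) ∩ M = ∅ := eq_empty_of_forall_notMem fun y hy => by
    obtain ⟨h1, h2⟩ := mem_inter.1 hy
    rcases mem_union.1 h1 with h | h
    · exact (hG.fresh y h2).2.1 h
    · exact (rwl180_mem_EoF.1 (rwl180_mem_Xw.1 h).1).2.1 (hG.MO h2)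
  have e5 : rec.Cl ∩ M = ∅ := eq_empty_of_forall_notMem fun y hy => (hG.fresh y (mem_inter.1 hy).2).2.2 (mem_inter.1 hy).1
  show (⟨(rec.Sp ∪ ∅) ∩ R, (rec.Sm ∪ rwl180Nm Y rec O M R) ∩ R, ∅, (rec.Gp ∪ ∅) ∩ M, (rec.Gm ∪ rwl180Xw Y rec O M) ∩ M,
      rec.Cl ∩ M⟩ : Rpo102Con) = ⟨Lp, Lm, ∅, ∅, ∅, ∅⟩
  rw [e1, e2, e3, e4, e5]

/-- the retained numerator of 102 under `h1` is the numerator of the strip law -/
theorem rwl180_NR (hG : Rwl180Geo Y rec O M R Lp Lm) (X : RswCfg → ℝ) :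
    rpo102NR Y t (rpo102Of (rwl180H1 Y rec O M R) ∅) R (rwl180Sd Y M) M ∅ X
      = (rwl180SQ Y M R).sum t (rse182Holds (rwl180SQ Y M R) (rwl180H0 Lp Lm)) X := by
  unfold rpo102NR
  rw [rwl180_same hG]
  exact rcy162_sum_congr_K _ t (fun ω _ => rpo102_of_holds _ _ ω) X

/-- `h1` contains the record -/
theorem rwl180_h1_holds {ω : RswCfg} (h : rse182Holds Y (rwl180H1 Y rec O M R) ω) : rse182Holds Y rec ω := by
  obtain ⟨a1, a2, a3, a4, a5⟩ := h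
  exact ⟨fun v hv => a1 (mem_union_left _ hv), fun v hv => a2 v (mem_union_left _ hv), fun y hy => a3 y (mem_union_left _ hy),
    fun y hy => a4 y (mem_union_left _ hy), a5⟩

end facts

/-! ## 3. THE CHAIN WITH THE WALL -/

/-- **chain step 5**: the estimate in the closed strip system gives the estimate under the record -/
theorem rwl180_main {Y : Rcy162Sys} {t : ℝ} {𝓛 : Rln182Law RswCfg TV} (hl : Rse182Link Y t 𝓛) (hS : 𝓛.Ok) (hw : Y.WF) (h0 : 0 < t) (h1 : t < 1)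
    {K : RswCon} (hO : Rse182Ord Y 𝓛 K) (rec : RswCon) (lrec : Rse182Legal Y rec) (kp : K.Sp ⊆ rec.Sp) (km : K.Sm ⊆ rec.Sm)
    (O M : Finset ((ℤ × ℤ) × Bool)) (R Lp Lm : Finset (ℤ × ℤ)) (hG : Rwl180Geo Y rec O M R Lp Lm)
    {J : RswCfg → ℝ} (hJl : Rpo102Loc R M J) (hJ0 : ∀ ω, 0 ≤ J ω) {c : ℝ}
    (h3 : c * (rwl180SQ Y M R).sum t (rse182Holds (rwl180SQ Y M R) (rwl180H0 Lp Lm)) (fun _ => 1)
      ≤ (rwl180SQ Y M R).sum t (rse182Holds (rwl180SQ Y M R) (rwl180H0 Lp Lm)) J)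
    {F : RswCfg → ℝ} (hF : 𝓛.Mono F) (hJF : ∀ ω, Y.w t ω ≠ 0 → rse182Holds Y (rwl180H1 Y rec O M R) ω → J ω ≤ F ω) :
    c / 2 ^ ((rwl180P Y rec O M).card - 1) * 𝓛.Z (rse182Holds Y rec) ≤ 𝓛.N (rse182Holds Y rec) F := by
  by_cases hz : 𝓛.Z (rse182Holds Y rec) = 0
  · rw [rln182_N_zero 𝓛 hS _ hz F, hz, mul_zero]
  have hZr : 0 < 𝓛.Z (rse182Holds Y rec) := lt_of_le_of_ne (rln182_Z_nonneg 𝓛 hS _) (Ne.symm hz)
  have hZ1 : 0 < 𝓛.Z (rse182Holds Y (rwl180H1 Y rec O M R)) := rwl180_feas1 hl hS h0 h1 lrec hG hZr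
  set k : ℝ := 2 ^ ((rwl180P Y rec O M).card - 1) with hk
  have hk0 : 0 < k := by positivity
  have sp := rwl180_split1 (t := t) hw h0.le h1.le hG
  -- sums of 102 = sums of the law
  have hH : ∀ X : RswCfg → ℝ, Y.sum t ((rpo102Of (rwl180H1 Y rec O M R) ∅).Holds Y) X = 𝓛.N (rse182Holds Y (rwl180H1 Y rec O M R)) X := fun X => by
    rw [rse182_N_sum hl]
    exact rcy162_sum_congr_K _ t (fun ω _ => rpo102_of_holds _ _ ω) X
  have hZs : 0 < Y.sum t ((rpo102Of (rwl180H1 Y rec O M R) ∅).Holds Y) (fun _ => 1) := by rw [hH]; exact hZ1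
  have z0 := rpo102_feas sp hZs
  have p := rpo102_ge sp hJl hJ0
  rw [rwl180_NR hG, rwl180_NR hG, hH, hH, ← hk] at p
  rw [rwl180_NR hG] at z0
  set Z0 : ℝ := (rwl180SQ Y M R).sum t (rse182Holds (rwl180SQ Y M R) (rwl180H0 Lp Lm)) (fun _ => 1) with hZ0
  set N0 : ℝ := (rwl180SQ Y M R).sum t (rse182Holds (rwl180SQ Y M R) (rwl180H0 Lp Lm)) J with hN0
  have hZ1' : 𝓛.N (rse182Holds Y (rwl180H1 Y rec O M R)) (fun _ => 1) = 𝓛.Z (rse182Holds Y (rwl180H1 Y rec O M R)) := rfl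
  rw [hZ1'] at p
  have a1 : c * 𝓛.Z (rse182Holds Y (rwl180H1 Y rec O M R)) ≤ k * 𝓛.N (rse182Holds Y (rwl180H1 Y rec O M R)) J := by
    have : (c * 𝓛.Z (rse182Holds Y (rwl180H1 Y rec O M R))) * Z0 ≤ (k * 𝓛.N (rse182Holds Y (rwl180H1 Y rec O M R)) J) * Z0 := by
      calc (c * 𝓛.Z (rse182Holds Y (rwl180H1 Y rec O M R))) * Z0 = (c * Z0) * 𝓛.Z (rse182Holds Y (rwl180H1 Y rec O M R)) := by ring
        _ ≤ N0 * 𝓛.Z (rse182Holds Y (rwl180H1 Y rec O M R)) := mul_le_mul_of_nonneg_right h3 hZ1.le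
        _ ≤ k * (𝓛.N (rse182Holds Y (rwl180H1 Y rec O M R)) J * Z0) := p
        _ = (k * 𝓛.N (rse182Holds Y (rwl180H1 Y rec O M R)) J) * Z0 := by ring
    exact le_of_mul_le_mul_right this z0
  have a2 : 𝓛.N (rse182Holds Y (rwl180H1 Y rec O M R)) J ≤ 𝓛.N (rse182Holds Y (rwl180H1 Y rec O M R)) F := by
    have hc : ∀ X : RswCfg → ℝ, 𝓛.N (rse182Holds Y (rwl180H1 Y rec O M R)) X
        = 𝓛.N (fun ω => rse182Holds Y (rwl180H1 Y rec O M R) ω ∧ Y.w t ω ≠ 0) X := fun X =>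
      rse182_N_congr 𝓛 (fun ω _ hw' => ⟨fun h => ⟨h, by rwa [hl.wt] at hw'⟩, fun h => h.1⟩) X
    rw [hc, hc]
    exact rln182_N_mono 𝓛 hS _ _ _ fun ω h => hJF ω h.2 h.1
  have o := hO (rwl180H1 Y rec O M R) rec (rwl180_legal1 lrec) lrec (kp.trans subset_union_left) (km.trans subset_union_left) kp km rwl180_le1 F hF
  have a3 : (c / k * 𝓛.Z (rse182Holds Y rec)) * 𝓛.Z (rse182Holds Y (rwl180H1 Y rec O M R))
      ≤ 𝓛.N (rse182Holds Y rec) F * 𝓛.Z (rse182Holds Y (rwl180H1 Y rec O M R)) := by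
    calc (c / k * 𝓛.Z (rse182Holds Y rec)) * 𝓛.Z (rse182Holds Y (rwl180H1 Y rec O M R))
        = (c * 𝓛.Z (rse182Holds Y (rwl180H1 Y rec O M R))) / k * 𝓛.Z (rse182Holds Y rec) := by ring
      _ ≤ (k * 𝓛.N (rse182Holds Y (rwl180H1 Y rec O M R)) J) / k * 𝓛.Z (rse182Holds Y rec) :=
          mul_le_mul_of_nonneg_right (div_le_div_of_nonneg_right a1 hk0.le) hZr.le
      _ = 𝓛.N (rse182Holds Y (rwl180H1 Y rec O M R)) J * 𝓛.Z (rse182Holds Y rec) := by field_simp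
      _ ≤ 𝓛.N (rse182Holds Y (rwl180H1 Y rec O M R)) F * 𝓛.Z (rse182Holds Y rec) := mul_le_mul_of_nonneg_right a2 hZr.le
      _ ≤ 𝓛.Z (rse182Holds Y (rwl180H1 Y rec O M R)) * 𝓛.N (rse182Holds Y rec) F := o
      _ = 𝓛.N (rse182Holds Y rec) F * 𝓛.Z (rse182Holds Y (rwl180H1 Y rec O M R)) := by ring
  exact le_of_mul_le_mul_right a3 hZ1

/-! ## 4. events; the join event -/

/-- the indicator of an event which reads the strip only is local -/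
theorem rwl180_ind_loc {R : Finset (ℤ × ℤ)} {YR : Finset ((ℤ × ℤ) × Bool)} {A : RswCfg → Prop}
    (hA : ∀ ω ω' : RswCfg, ω.S ∩ R = ω'.S ∩ R → ω.O ∩ YR = ω'.O ∩ YR → (A ω ↔ A ω')) : Rpo102Loc R YR (rln182Ind A) := by
  intro ω ω' e1 e2
  have := hA ω ω' e1 e2
  by_cases h : A ω
  · rw [rln182_ind_pos h, rln182_ind_pos (this.1 h)]
  · rw [rln182_ind_neg h, rln182_ind_neg fun h' => h (this.2 h')]

/-- **chain step 5 for events**, at most 4 ports: constant `c / 8` -/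
theorem rwl180_join {Y : Rcy162Sys} {t : ℝ} {𝓛 : Rln182Law RswCfg TV} (hl : Rse182Link Y t 𝓛) (hS : 𝓛.Ok) (hw : Y.WF) (h0 : 0 < t) (h1 : t < 1)
    {K : RswCon} (hO : Rse182Ord Y 𝓛 K) (rec : RswCon) (lrec : Rse182Legal Y rec) (kp : K.Sp ⊆ rec.Sp) (km : K.Sm ⊆ rec.Sm)
    (O M : Finset ((ℤ × ℤ) × Bool)) (R Lp Lm : Finset (ℤ × ℤ)) (hG : Rwl180Geo Y rec O M R Lp Lm) (hP : (rwl180P Y rec O M).card ≤ 4)
    {A : RswCfg → Prop} (hA : ∀ ω ω' : RswCfg, ω.S ∩ R = ω'.S ∩ R → ω.O ∩ M = ω'.O ∩ M → (A ω ↔ A ω')) {c : ℝ} (hc : 0 ≤ c)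
    (h3 : c * (rwl180SQ Y M R).sum t (rse182Holds (rwl180SQ Y M R) (rwl180H0 Lp Lm)) (fun _ => 1)
      ≤ (rwl180SQ Y M R).sum t (rse182Holds (rwl180SQ Y M R) (rwl180H0 Lp Lm)) (rln182Ind A))
    {F : RswCfg → Prop} (hF : 𝓛.MonoP F) (hAF : ∀ ω, Y.w t ω ≠ 0 → rse182Holds Y (rwl180H1 Y rec O M R) ω → A ω → F ω) :
    c / 8 * 𝓛.Z (rse182Holds Y rec) ≤ 𝓛.N (rse182Holds Y rec) (rln182Ind F) := by
  have m := rwl180_main hl hS hw h0 h1 hO rec lrec kp km O M R Lp Lm hG (rwl180_ind_loc hA) (rln182_ind_nonneg _) h3 (rln182_ind_mono 𝓛 hF)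
    (fun ω hw' hh => by
      by_cases hj : A ω
      · rw [rln182_ind_pos (hAF ω hw' hh hj)]
        exact rln182_ind_le_one _ _
      · rw [rln182_ind_neg hj]
        exact rln182_ind_nonneg _ _)
  refine le_trans (mul_le_mul_of_nonneg_right ?_ (rln182_Z_nonneg 𝓛 hS _)) m
  have hp : (2 : ℝ) ^ ((rwl180P Y rec O M).card - 1) ≤ 8 := by
    calc (2 : ℝ) ^ ((rwl180P Y rec O M).card - 1) ≤ 2 ^ 3 := pow_le_pow_right₀ (by norm_num) (by omega)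
      _ = 8 := by norm_num
  exact div_le_div_of_nonneg_left hc (by positivity) hp

/-- one step of a primal chain of good plus edge pairs of `Kc` -/
def Rwl180Step (Y : Rcy162Sys) (Kc : Finset ((ℤ × ℤ) × Bool)) (ω : RswCfg) (u v : ℤ × ℤ) : Prop :=
  ∃ e ∈ Kc, Y.Good true ω e ∧ ((u = Y.p0 e ∧ v = Y.p1 e) ∨ (v = Y.p0 e ∧ u = Y.p1 e))

/-- a primal chain of good plus edge pairs of `Kc` joins `La` to `Lc`      (R291 `GlJoinC`) -/
def Rwl180Join (Y : Rcy162Sys) (Kc : Finset ((ℤ × ℤ) × Bool)) (La Lc : Finset (ℤ × ℤ)) (ω : RswCfg) : Prop :=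
  ∃ u ∈ La, ∃ v ∈ Lc, Relation.ReflTransGen (Rwl180Step Y Kc ω) u v

theorem rwl180_join_eqns_cite : True := by
  have := @Rwl180Step.eq_1
  have := @Rwl180Join.eq_1
  trivial

/-- strip system = ambient for the join event -/
theorem rwl180_join_SQ (Y : Rcy162Sys) (M Kc : Finset ((ℤ × ℤ) × Bool)) (R La Lc : Finset (ℤ × ℤ)) (ω : RswCfg) :
    Rwl180Join (rwl180SQ Y M R) Kc La Lc ω ↔ Rwl180Join Y Kc La Lc ω := Iff.rfl

/-- the join event reads the strip only -/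
theorem rwl180_join_loc (Y : Rcy162Sys) (M Kc : Finset ((ℤ × ℤ) × Bool)) (hKc : Kc ⊆ M) (R : Finset (ℤ × ℤ)) (hMR : rwl180Sv Y M ⊆ R) (La Lc : Finset (ℤ × ℤ)) (ω ω' : RswCfg)
    (e1 : ω.S ∩ R = ω'.S ∩ R) (e2 : ω.O ∩ M = ω'.O ∩ M) : Rwl180Join Y Kc La Lc ω ↔ Rwl180Join Y Kc La Lc ω' := by
  have hst : Rwl180Step Y Kc ω = Rwl180Step Y Kc ω' := by
    funext u v
    unfold Rwl180Step
    refine propext ⟨?_, ?_⟩
    · rintro ⟨e, he, hg, h⟩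
      exact ⟨e, he, (rpo102_good_loc (S := Y) (fun y hy v hv => hMR (rwl180_mem_Sv.2 ⟨y, hy, hv⟩)) e1 e2 (hKc he) true).1 hg, h⟩
    · rintro ⟨e, he, hg, h⟩
      exact ⟨e, he, (rpo102_good_loc (S := Y) (fun y hy v hv => hMR (rwl180_mem_Sv.2 ⟨y, hy, hv⟩)) e1 e2 (hKc he) true).2 hg, h⟩
  unfold Rwl180Join
  rw [hst]

/-- **chain step 5 in the shape of (SE)**: the join estimate in the closed strip system, at most 4 ports, "join ⟹ `F`" under `h1` -/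
theorem rwl180_joinC {Y : Rcy162Sys} {t : ℝ} {𝓛 : Rln182Law RswCfg TV} (hl : Rse182Link Y t 𝓛) (hS : 𝓛.Ok) (hw : Y.WF) (h0 : 0 < t) (h1 : t < 1)
    {K : RswCon} (hO : Rse182Ord Y 𝓛 K) (rec : RswCon) (lrec : Rse182Legal Y rec) (kp : K.Sp ⊆ rec.Sp) (km : K.Sm ⊆ rec.Sm)
    (O M : Finset ((ℤ × ℤ) × Bool)) (R Lp Lm : Finset (ℤ × ℤ)) (hG : Rwl180Geo Y rec O M R Lp Lm) (hP : (rwl180P Y rec O M).card ≤ 4)
    (Kc : Finset ((ℤ × ℤ) × Bool)) (hKc : Kc ⊆ M) (La Lc : Finset (ℤ × ℤ)) {c : ℝ} (hc : 0 ≤ c)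
    (h3 : c * (rwl180SQ Y M R).sum t (rse182Holds (rwl180SQ Y M R) (rwl180H0 Lp Lm)) (fun _ => 1)
      ≤ (rwl180SQ Y M R).sum t (rse182Holds (rwl180SQ Y M R) (rwl180H0 Lp Lm)) (rln182Ind (Rwl180Join (rwl180SQ Y M R) Kc La Lc)))
    {F : RswCfg → Prop} (hF : 𝓛.MonoP F) (hJF : ∀ ω, Y.w t ω ≠ 0 → rse182Holds Y (rwl180H1 Y rec O M R) ω → Rwl180Join Y Kc La Lc ω → F ω) :
    c / 8 * 𝓛.Z (rse182Holds Y rec) ≤ 𝓛.N (rse182Holds Y rec) (rln182Ind F) :=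
  rwl180_join hl hS hw h0 h1 hO rec lrec kp km O M R Lp Lm hG hP (rwl180_join_loc Y M Kc hKc R hG.MR La Lc) hc h3 hF hJF

/-- the strip law is feasible as soon as the record is -/
theorem rwl180_H0_pos {Y : Rcy162Sys} {t : ℝ} {𝓛 : Rln182Law RswCfg TV} (hl : Rse182Link Y t 𝓛) (hS : 𝓛.Ok) (hw : Y.WF) (h0 : 0 < t) (h1 : t < 1)
    {rec : RswCon} (lrec : Rse182Legal Y rec) {O M : Finset ((ℤ × ℤ) × Bool)} {R Lp Lm : Finset (ℤ × ℤ)} (hG : Rwl180Geo Y rec O M R Lp Lm)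
    (hZ : 0 < 𝓛.Z (rse182Holds Y rec)) : 0 < (rwl180SQ Y M R).sum t (rse182Holds (rwl180SQ Y M R) (rwl180H0 Lp Lm)) (fun _ => 1) := by
  have hZ1 := rwl180_feas1 hl hS h0 h1 lrec hG hZ
  have hZs : 0 < Y.sum t ((rpo102Of (rwl180H1 Y rec O M R) ∅).Holds Y) (fun _ => 1) := by
    have : Y.sum t ((rpo102Of (rwl180H1 Y rec O M R) ∅).Holds Y) (fun _ => 1) = 𝓛.N (rse182Holds Y (rwl180H1 Y rec O M R)) (fun _ => 1) := by
      rw [rse182_N_sum hl]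
      exact rcy162_sum_congr_K _ t (fun ω _ => rpo102_of_holds _ _ ω) _
    rw [this]; exact hZ1
  have z0 := rpo102_feas (rwl180_split1 (t := t) hw h0.le h1.le hG) hZs
  rwa [rwl180_NR hG] at z0

/-! ## 5. the chain in the form consumed by `Rsw/RswCyl86` (`Rrc86Chain` of 86): strips of cells of the refined lattice -/

section cells

variable {Y : Rcy162Sys} {t : ℝ} {𝓛 𝓛Q : Rln182Law RswCfg TV}

/-- the endpoints of the edges of `T` are carried by `T` -/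
theorem rwl180_MR_cells (hw : Y.WF) (T : Finset TV) : rwl180Sv Y (rse182Ed Y T) ⊆ rse182Sv Y T := fun v hv => by
  obtain ⟨e, he, hve⟩ := rwl180_mem_Sv.1 hv
  exact rse182_Ed_Sv hw he (rwl180_end_iff.1 hve)

/-- an observable which reads only which cells of `T` are plus is local on (vertices carried by `T`, edges of `T`) -/
theorem rwl180_loc_cells (hl : Rse182Link Y t 𝓛) (hw : Y.WF) {T : Finset TV} (hT : ∀ y ∈ T, Rse182Pt Y y) {J : RswCfg → ℝ} (hJ : Rse182Loc 𝓛 T J) :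
    Rpo102Loc (rse182Sv Y T) (rse182Ed Y T) J := by
  intro ω ω' e1 e2
  refine hJ ω ω' fun y hy => ?_
  have hs : ∀ v ∈ rse182Sv Y T, (v ∈ ω.S ↔ v ∈ ω'.S) := fun v hv => by
    have : v ∈ ω.S ∩ rse182Sv Y T ↔ v ∈ ω'.S ∩ rse182Sv Y T := by rw [e1]
    simpa [hv] using this
  have ho : ∀ e ∈ rse182Ed Y T, (e ∈ ω.O ↔ e ∈ ω'.O) := fun e he => by
    have : e ∈ ω.O ∩ rse182Ed Y T ↔ e ∈ ω'.O ∩ rse182Ed Y T := by rw [e2]
    simpa [he] using this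
  rcases hT y hy with ⟨v, hv, rfl⟩ | ⟨f, rfl⟩ | ⟨e, he, rfl⟩
  · rw [hl.npP ω v hv, hl.npP ω' v hv, hs v (rse182_mem_Sv.2 ⟨hv, _, hy, Or.inl rfl⟩)]
  · exact ⟨fun _ => hl.npF ω' f, fun _ => hl.npF ω f⟩
  · have hm : e ∈ rse182Ed Y T := rse182_mem_Ed.2 ⟨he, hy⟩
    rw [hl.npE ω e he, hl.npE ω' e he]
    unfold Rcy162Sys.Good
    rw [ho e hm, hs _ (rse182_Ed_Sv hw hm (Or.inl rfl)), hs _ (rse182_Ed_Sv hw hm (Or.inr rfl))]

/-- the sums under the record of 86 are the sums under the history `rse182Obs` of 182 -/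
theorem rwl180_rec_N (hl : Rse182Link Y t 𝓛) (K : RswCon) {Kb : RswCfg → Prop} (hKb : ∀ ω, Kb ω ↔ rse182Holds Y K ω) (Qf : RswCfg → Finset TV)
    (ω₀ : RswCfg) (hQ : ∀ y ∈ Qf ω₀, Rse182Pt Y y) (X : RswCfg → ℝ) :
    𝓛.N (rrc86Rec 𝓛 Kb Qf ω₀) X = 𝓛.N (rse182Holds Y (rse182Obs Y K (Qf ω₀) ω₀)) X := by
  refine rse182_N_congr 𝓛 (fun ω _ hw => ?_) X
  rw [hl.wt] at hw
  rw [rse182_obs_holds hl K _ hQ ω₀ ω hw]
  unfold rrc86Rec
  rw [hKb]

/-- the wall history of 86: the record AND the history `rwl180H1` -/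
def rwl180W1 (Y : Rcy162Sys) (𝓛 : Rln182Law RswCfg TV) (K : RswCon) (Kb : RswCfg → Prop) (Qf : RswCfg → Finset TV) (ω₀ : RswCfg)
    (O : Finset ((ℤ × ℤ) × Bool)) (T : Finset TV) (ω : RswCfg) : Prop :=
  rrc86Rec 𝓛 Kb Qf ω₀ ω ∧ rse182Holds Y (rwl180H1 Y (rse182Obs Y K (Qf ω₀) ω₀) O (rse182Ed Y T) (rse182Sv Y T)) ω

theorem rwl180_W1_eqns_cite : True := by
  have := @rwl180W1.eq_1
  trivial

/-- `h1 ⟹ rec`, for ALL configurations -/
theorem rwl180_h1_rec {K : RswCon} {Kb : RswCfg → Prop} {Qf : RswCfg → Finset TV} {ω₀ : RswCfg} {O : Finset ((ℤ × ℤ) × Bool)} {T : Finset TV}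
    (ω : RswCfg) (h : rwl180W1 Y 𝓛 K Kb Qf ω₀ O T ω) : rrc86Rec 𝓛 Kb Qf ω₀ ω := h.1

theorem rwl180_W1_N (hl : Rse182Link Y t 𝓛) (K : RswCon) {Kb : RswCfg → Prop} (hKb : ∀ ω, Kb ω ↔ rse182Holds Y K ω) (Qf : RswCfg → Finset TV)
    (ω₀ : RswCfg) (hQ : ∀ y ∈ Qf ω₀, Rse182Pt Y y) (O : Finset ((ℤ × ℤ) × Bool)) (T : Finset TV) (X : RswCfg → ℝ) :
    𝓛.N (rwl180W1 Y 𝓛 K Kb Qf ω₀ O T) X = 𝓛.N (rse182Holds Y (rwl180H1 Y (rse182Obs Y K (Qf ω₀) ω₀) O (rse182Ed Y T) (rse182Sv Y T))) X := by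
  refine rse182_N_congr 𝓛 (fun ω _ hw => ?_) X
  rw [hl.wt] at hw
  constructor
  · exact fun h => h.2
  · intro h
    have := (rse182_obs_holds hl K _ hQ ω₀ ω hw).1 (rwl180_h1_holds h)
    exact ⟨⟨(hKb ω).2 this.1, this.2⟩, h⟩

/-- **THE CONTRACT `Rrc86Chain` OF 86**, constant `8` -/
theorem rwl180_chain86 (hl : Rse182Link Y t 𝓛) (hS : 𝓛.Ok) (hw : Y.WF) (h0 : 0 < t) (h1 : t < 1)
    {K : RswCon} (hK : Rse182Legal Y K) (hO : Rse182Ord Y 𝓛 K) {Kb : RswCfg → Prop} (hKb : ∀ ω, Kb ω ↔ rse182Holds Y K ω)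
    (Qf : RswCfg → Finset TV) (ω₀ : RswCfg) (hQ : ∀ y ∈ Qf ω₀, Rse182Pt Y y)
    (O : Finset ((ℤ × ℤ) × Bool)) (T : Finset TV) (hT : ∀ y ∈ T, Rse182Pt Y y) (Lp Lm : Finset (ℤ × ℤ))
    (hG : Rwl180Geo Y (rse182Obs Y K (Qf ω₀) ω₀) O (rse182Ed Y T) (rse182Sv Y T) Lp Lm)
    (hP : (rwl180P Y (rse182Obs Y K (Qf ω₀) ω₀) O (rse182Ed Y T)).card ≤ 4)
    (hlQ : Rse182Link (rwl180SQ Y (rse182Ed Y T) (rse182Sv Y T)) t 𝓛Q) (hSQ : 𝓛Q.Ok) :
    Rrc86Chain 𝓛 𝓛Q (rrc86Rec 𝓛 Kb Qf ω₀) (rwl180W1 Y 𝓛 K Kb Qf ω₀ O T)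
      (rse182Holds (rwl180SQ Y (rse182Ed Y T) (rse182Sv Y T)) (rwl180H0 Lp Lm)) T 8 where
  pos1 := by
    intro hZ
    unfold Rln182Law.Z at hZ ⊢
    rw [rwl180_rec_N hl K hKb Qf ω₀ hQ] at hZ
    rw [rwl180_W1_N hl K hKb Qf ω₀ hQ]
    exact rwl180_feas1 hl hS h0 h1 (rse182_obs_legal hw hK _ _) hG hZ
  posQ := by
    refine rse182_feas hlQ hSQ h0 h1 ⟨rwl180_Lp_sub hG, rwl180_Lp_Lm hG, ?_, ?_, ?_, ?_⟩
    · exact fun e he => absurd he (notMem_empty e)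
    · exact fun e he => absurd he (notMem_empty e)
    · exact disjoint_empty_left _
    · exact disjoint_empty_left _
  ord := by
    intro F hF
    unfold Rln182Law.Z
    rw [rwl180_rec_N hl K hKb Qf ω₀ hQ, rwl180_rec_N hl K hKb Qf ω₀ hQ, rwl180_W1_N hl K hKb Qf ω₀ hQ, rwl180_W1_N hl K hKb Qf ω₀ hQ]
    exact hO _ _ (rwl180_legal1 (rse182_obs_legal hw hK _ _)) (rse182_obs_legal hw hK _ _)
      ((subset_union_left (s₁ := K.Sp)).trans subset_union_left) ((subset_union_left (s₁ := K.Sm)).trans subset_union_left)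
      subset_union_left subset_union_left rwl180_le1 F hF
  port := by
    intro J hJ0 hJ
    have sp := rwl180_split1 (t := t) hw h0.le h1.le hG
    have p := rpo102_ge sp (rwl180_loc_cells hl hw hT hJ) hJ0
    have hH : ∀ X : RswCfg → ℝ, Y.sum t ((rpo102Of (rwl180H1 Y (rse182Obs Y K (Qf ω₀) ω₀) O (rse182Ed Y T) (rse182Sv Y T)) ∅).Holds Y) X
        = 𝓛.N (rwl180W1 Y 𝓛 K Kb Qf ω₀ O T) X := fun X => by
      rw [rwl180_W1_N hl K hKb Qf ω₀ hQ, rse182_N_sum hl]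
      exact rcy162_sum_congr_K _ t (fun ω _ => rpo102_of_holds _ _ ω) X
    rw [rwl180_NR hG, rwl180_NR hG, hH, hH, ← rse182_N_sum hlQ, ← rse182_N_sum hlQ] at p
    unfold Rln182Law.Z
    refine p.trans ?_
    have hp : (2 : ℝ) ^ ((rwl180P Y (rse182Obs Y K (Qf ω₀) ω₀) O (rse182Ed Y T)).card - 1) ≤ 8 := by
      calc (2 : ℝ) ^ ((rwl180P Y (rse182Obs Y K (Qf ω₀) ω₀) O (rse182Ed Y T)).card - 1) ≤ 2 ^ 3 := pow_le_pow_right₀ (by norm_num) (by omega)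
        _ = 8 := by norm_num
    have n1 : 0 ≤ 𝓛.N (rwl180W1 Y 𝓛 K Kb Qf ω₀ O T) J := rln182_N_nonneg 𝓛 hS _ _ fun ω _ => hJ0 ω
    have n2 : 0 ≤ 𝓛Q.N (rse182Holds (rwl180SQ Y (rse182Ed Y T) (rse182Sv Y T)) (rwl180H0 Lp Lm)) (fun _ => 1) := rln182_Z_nonneg 𝓛Q hSQ _
    calc _ ≤ 8 * (𝓛.N (rwl180W1 Y 𝓛 K Kb Qf ω₀ O T) J * 𝓛Q.N (rse182Holds (rwl180SQ Y (rse182Ed Y T) (rse182Sv Y T)) (rwl180H0 Lp Lm)) (fun _ => 1)) :=
          mul_le_mul_of_nonneg_right hp (mul_nonneg n1 n2)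
      _ = _ := by ring

end cells

/-! ## 6. `Rrc86Strip` and the body of `Rrc86LK` at one record; the mixed cylinder -/

section lk

variable {Y : Rcy162Sys} {t : ℝ} {𝓛 𝓛Q : Rln182Law RswCfg TV}

/-- **(ST) of 86** from the wall: window `W`, its cells `T`, closed strip law `𝓛Q` -/
theorem rwl180_strip86 (hl : Rse182Link Y t 𝓛) (hS : 𝓛.Ok) (hw : Y.WF) (h0 : 0 < t) (h1 : t < 1)
    {K : RswCon} (hK : Rse182Legal Y K) (hO : Rse182Ord Y 𝓛 K) {Kb : RswCfg → Prop} (hKb : ∀ ω, Kb ω ↔ rse182Holds Y K ω)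
    (ι : TV → TV) (c d w σ m e : ℤ) (ω₀ : RswCfg) (hQ : ∀ y ∈ rrc86Q2 𝓛 ι c d w σ m e ω₀, Rse182Pt Y y)
    (W : Set TV) (hW : W ⊆ plsBand c d) (T : Finset TV) (hT : ∀ y ∈ T, Rse182Pt Y y) (hM : ∀ z ∈ W, ι z ∈ 𝓛.cells → ι z ∈ T)
    (O : Finset ((ℤ × ℤ) × Bool)) (Lp Lm : Finset (ℤ × ℤ))
    (hG : Rwl180Geo Y (rse182Obs Y K (rrc86Q2 𝓛 ι c d w σ m e ω₀) ω₀) O (rse182Ed Y T) (rse182Sv Y T) Lp Lm)
    (hP : (rwl180P Y (rse182Obs Y K (rrc86Q2 𝓛 ι c d w σ m e ω₀) ω₀) O (rse182Ed Y T)).card ≤ 4)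
    (hlQ : Rse182Link (rwl180SQ Y (rse182Ed Y T) (rse182Sv Y T)) t 𝓛Q) (hSQ : 𝓛Q.Ok) {c₀ : ℝ}
    (hest : c₀ * 𝓛Q.Z (rse182Holds (rwl180SQ Y (rse182Ed Y T) (rse182Sv Y T)) (rwl180H0 Lp Lm))
      ≤ 𝓛Q.N (rse182Holds (rwl180SQ Y (rse182Ed Y T) (rse182Sv Y T)) (rwl180H0 Lp Lm))
        (rln182Ind (Rrc86Join 𝓛 ι W (rrc86A 𝓛 ι c d w σ m e ω₀) (rrc86C 𝓛 ι c d w σ m e ω₀)))) :
    Rrc86Strip 𝓛 Kb ι c₀ 8 c d w σ m e ω₀ :=
  ⟨W, T, 𝓛Q, rwl180W1 Y 𝓛 K Kb (rrc86Q2 𝓛 ι c d w σ m e) ω₀ O T, _, hW, hM, rwl180_h1_rec,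
    rwl180_chain86 hl hS hw h0 h1 hK hO hKb (rrc86Q2 𝓛 ι c d w σ m e) ω₀ hQ O T hT Lp Lm hG hP hlQ hSQ, hest⟩

/-- **the body of `Rrc86LK` at one record**, any event `A` which reads the strip only and gives the link under the record and the wall -/
theorem rwl180_LK_gen (hl : Rse182Link Y t 𝓛) (hS : 𝓛.Ok) (hw : Y.WF) (h0 : 0 < t) (h1 : t < 1)
    {K : RswCon} (hK : Rse182Legal Y K) (hO : Rse182Ord Y 𝓛 K) {Kb : RswCfg → Prop} (hKb : ∀ ω, Kb ω ↔ rse182Holds Y K ω)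
    (ι : TV → TV) (c d w σ m e : ℤ) (ω₀ : RswCfg) (hQ : ∀ y ∈ rrc86Q2 𝓛 ι c d w σ m e ω₀, Rse182Pt Y y)
    (O M : Finset ((ℤ × ℤ) × Bool)) (R Lp Lm : Finset (ℤ × ℤ))
    (hG : Rwl180Geo Y (rse182Obs Y K (rrc86Q2 𝓛 ι c d w σ m e ω₀) ω₀) O M R Lp Lm)
    (hP : (rwl180P Y (rse182Obs Y K (rrc86Q2 𝓛 ι c d w σ m e ω₀) ω₀) O M).card ≤ 4)
    {A : RswCfg → Prop} (hA : ∀ ω ω' : RswCfg, ω.S ∩ R = ω'.S ∩ R → ω.O ∩ M = ω'.O ∩ M → (A ω ↔ A ω')) {c₀ : ℝ} (hc : 0 ≤ c₀)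
    (h3 : c₀ * (rwl180SQ Y M R).sum t (rse182Holds (rwl180SQ Y M R) (rwl180H0 Lp Lm)) (fun _ => 1)
      ≤ (rwl180SQ Y M R).sum t (rse182Holds (rwl180SQ Y M R) (rwl180H0 Lp Lm)) (rln182Ind A))
    (hAL : ∀ ω, 𝓛.agr (rrc86Q2 𝓛 ι c d w σ m e ω₀) ω₀ ω →
      rse182Holds Y (rwl180H1 Y (rse182Obs Y K (rrc86Q2 𝓛 ι c d w σ m e ω₀) ω₀) O M R) ω → A ω → Rrc86Link 𝓛 ι c d w σ m e ω₀ ω) :
    c₀ / 8 * 𝓛.Z (rrc86Rec 𝓛 Kb (rrc86Q2 𝓛 ι c d w σ m e) ω₀)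
      ≤ 𝓛.N (rrc86Rec 𝓛 Kb (rrc86Q2 𝓛 ι c d w σ m e) ω₀) (rln182Ind (Rrc86Link 𝓛 ι c d w σ m e ω₀)) := by
  unfold Rln182Law.Z
  rw [rwl180_rec_N hl K hKb _ ω₀ hQ, rwl180_rec_N hl K hKb _ ω₀ hQ]
  exact rwl180_join hl hS hw h0 h1 hO _ (rse182_obs_legal hw hK _ _) subset_union_left subset_union_left O M R Lp Lm hG hP hA hc h3
    (rrc86_link_mono 𝓛 hS ι ω₀) fun ω hw' hh ha => hAL ω ((rse182_obs_holds hl K _ hQ ω₀ ω hw').1 (rwl180_h1_holds hh)).2 hh ha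

end lk

/-- the mixed boundary condition of the cylinder `rcy162Cyl L 0 H` as a history -/
noncomputable def rwl180KM (L H : ℕ) : RswCon := ⟨rcy162Row L (H : ℤ), rcy162Row L 0, ∅, ∅, ∅⟩

theorem rwl180_KM_eqns_cite : True := by
  have := @rwl180KM.eq_1
  trivial

theorem rwl180_KM_holds (Y : Rcy162Sys) (L H : ℕ) (ω : RswCfg) : Rcy162Mix L 0 H ω ↔ rse182Holds Y (rwl180KM L H) ω := by
  unfold rse182Holds rwl180KM Rcy162Mix
  simp only [notMem_empty, false_imp_iff, implies_true, and_true]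
  exact ⟨fun h => ⟨h.2, h.1⟩, fun h => ⟨h.2, h.1⟩⟩

theorem rwl180_KM_legal (Y : Rcy162Sys) (L H : ℕ) : Rse182Legal Y (rwl180KM L H) :=
  ⟨fun e he => by simp [rwl180KM] at he, fun e he => by simp [rwl180KM] at he⟩

/-- a cell of the refined cylinder off its two boundary rows is a point of the system -/
theorem rwl180_pt_cyl {L H : ℕ} {y : TV} (hy : y ∈ sdCells (2 * L) 0 (2 * H + 1)) (h1 : 1 ≤ y.2) (h2 : y.2 ≤ 2 * (H : ℤ) - 1) :
    Rse182Pt (rcy162Cyl L 0 H) y := by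
  obtain ⟨⟨a1, a2⟩, -, -⟩ := rrc86_mem_cells.1 hy
  rcases Int.emod_two_eq_zero_or_one y.1 with p1 | p1 <;> rcases Int.emod_two_eq_zero_or_one y.2 with p2 | p2
  · refine Or.inl ⟨(y.1 / 2, y.2 / 2), rcy162_mem_cylV.2 ⟨⟨?_, ?_⟩, ?_, ?_⟩, (rrc86_pt_P p1 p2).symm⟩ <;> dsimp only <;> omega
  · refine Or.inr (Or.inr ⟨((y.1 / 2, y.2 / 2), true), rcy162_mem_cylE.2 ⟨⟨?_, ?_⟩, Or.inr ⟨rfl, ?_, ?_⟩⟩, (rrc86_pt_Et p1 p2).symm⟩) <;> dsimp only <;> omega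
  · refine Or.inr (Or.inr ⟨((y.1 / 2, y.2 / 2), false), rcy162_mem_cylE.2 ⟨⟨?_, ?_⟩, Or.inl ⟨rfl, ?_, ?_⟩⟩, (rrc86_pt_Ef p1 p2).symm⟩) <;> dsimp only <;> omega
  · exact Or.inr (Or.inl ⟨(y.1 / 2, y.2 / 2), (rrc86_pt_F p1 p2).symm⟩)

/-- the cells looked at by the two explorations in a band off the boundary rows are points of the system -/
theorem rwl180_Q2_pt (t : ℝ) {L H : ℕ} {c d : ℤ} (hc : 1 ≤ c) (hd : d ≤ 2 * (H : ℤ) - 1) (w σ m e : ℤ) (ω₀ : RswCfg) :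
    ∀ y ∈ rrc86Q2 (rrc86L t L H) (sdRed (2 * L)) c d w σ m e ω₀, Rse182Pt (rcy162Cyl L 0 H) y := by
  classical
  intro y hy
  unfold rrc86Q2 rrc86Q at hy
  obtain ⟨hy1, z, hz, rfl⟩ := mem_filter.1 hy
  have hzR : z ∈ rrw86Rect (m - e) (m + σ + e) c d := hz.1
  obtain ⟨-, -, r1, r2⟩ := hzR
  exact rwl180_pt_cyl hy1 (le_trans hc r1) (le_trans r2 hd)

/-- **the body of `Rrc86LK` at one record ON THE MIXED CYLINDER**, in the words of 86 -/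
theorem rwl180_LK_cyl {t : ℝ} (h0 : 0 < t) (h1 : t < 1) {L H : ℕ} (hL : 0 < L) {c d : ℤ} (hc : 1 ≤ c) (hd : d ≤ 2 * (H : ℤ) - 1) (w σ m e : ℤ)
    (hO : Rse182Ord (rcy162Cyl L 0 H) (rrc86L t L H) (rwl180KM L H)) (ω₀ : RswCfg)
    (W : Set TV) (hW : W ⊆ plsBand c d) (T : Finset TV) (hT : ∀ y ∈ T, Rse182Pt (rcy162Cyl L 0 H) y)
    (hM : ∀ z ∈ W, sdRed (2 * L) z ∈ (rrc86L t L H).cells → sdRed (2 * L) z ∈ T)
    (O : Finset ((ℤ × ℤ) × Bool)) (Lp Lm : Finset (ℤ × ℤ))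
    (hG : Rwl180Geo (rcy162Cyl L 0 H) (rse182Obs (rcy162Cyl L 0 H) (rwl180KM L H) (rrc86Q2 (rrc86L t L H) (sdRed (2 * L)) c d w σ m e ω₀) ω₀) O
      (rse182Ed (rcy162Cyl L 0 H) T) (rse182Sv (rcy162Cyl L 0 H) T) Lp Lm)
    (hP : (rwl180P (rcy162Cyl L 0 H) (rse182Obs (rcy162Cyl L 0 H) (rwl180KM L H) (rrc86Q2 (rrc86L t L H) (sdRed (2 * L)) c d w σ m e ω₀) ω₀) O
      (rse182Ed (rcy162Cyl L 0 H) T)).card ≤ 4)
    {𝓛Q : Rln182Law RswCfg TV} (hlQ : Rse182Link (rwl180SQ (rcy162Cyl L 0 H) (rse182Ed (rcy162Cyl L 0 H) T) (rse182Sv (rcy162Cyl L 0 H) T)) t 𝓛Q)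
    (hSQ : 𝓛Q.Ok) {c₀ : ℝ}
    (hest : c₀ * 𝓛Q.Z (rse182Holds (rwl180SQ (rcy162Cyl L 0 H) (rse182Ed (rcy162Cyl L 0 H) T) (rse182Sv (rcy162Cyl L 0 H) T)) (rwl180H0 Lp Lm))
      ≤ 𝓛Q.N (rse182Holds (rwl180SQ (rcy162Cyl L 0 H) (rse182Ed (rcy162Cyl L 0 H) T) (rse182Sv (rcy162Cyl L 0 H) T)) (rwl180H0 Lp Lm))
        (rln182Ind (Rrc86Join (rrc86L t L H) (sdRed (2 * L)) W (rrc86A (rrc86L t L H) (sdRed (2 * L)) c d w σ m e ω₀)
          (rrc86C (rrc86L t L H) (sdRed (2 * L)) c d w σ m e ω₀)))) :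
    c₀ / 8 * (rrc86L t L H).Z (rrc86Rec (rrc86L t L H) (Rcy162Mix L 0 H) (rrc86Q2 (rrc86L t L H) (sdRed (2 * L)) c d w σ m e) ω₀)
      ≤ (rrc86L t L H).N (rrc86Rec (rrc86L t L H) (Rcy162Mix L 0 H) (rrc86Q2 (rrc86L t L H) (sdRed (2 * L)) c d w σ m e) ω₀)
        (rln182Ind (Rrc86Link (rrc86L t L H) (sdRed (2 * L)) c d w σ m e ω₀)) :=
  rrc86_LK_of_strip (rrc86L t L H) (rrc86_L_ok h0.le h1.le L H) (sdRed (2 * L)) (Rcy162Mix L 0 H) (by norm_num)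
    (rwl180_strip86 (rrc86_L_link t L H) (rrc86_L_ok h0.le h1.le L H) (rcy162_cyl_wf hL 0 H) h0 h1 (rwl180_KM_legal _ L H) hO
      (rwl180_KM_holds _ L H) (sdRed (2 * L)) c d w σ m e ω₀ (rwl180_Q2_pt t hc hd w σ m e ω₀) W hW T hT hM O Lp Lm hG hP hlQ hSQ hest)

/-! ## 7. THE GEOMETRY ON THE MIXED CYLINDER: `Rwl180Geo` for a strip of free cells -/

/-- what the geometry uses of the index lattice (110: `Rsw/RswPair110` §3, §4): `Qs` = the free cells, `Q₀` = the cells looked at -/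
structure Rwl180Idx (𝓛 : Rln182Law RswCfg TV) (ω₀ : RswCfg) (A B c d : ℤ) (Qs : Set TV) (Q₀ : Finset TV) : Prop where
  rect : ∀ y ∈ Qs, y ∈ rrw86Rect (A + 1) (B - 1) c d
  unseen : ∀ y ∈ Qs, y ∉ Q₀
  seen : ∀ y ∈ Q₀, y ∈ rrw86Rect A B c d
  nb : ∀ y ∈ Qs, ∀ y' ∈ rrw86Rect A B c d, y' ∉ Qs → tscG.Adj y y' → y' ∈ Q₀ ∧ ¬ 𝓛.np ω₀ y'

theorem rwl180_mem_rect {A B c d : ℤ} {p : TV} : p ∈ rrw86Rect A B c d ↔ A ≤ p.1 ∧ p.1 ≤ B ∧ c ≤ p.2 ∧ p.2 ≤ d := Iff.rfl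

theorem rwl180_adj_iff (u v : TV) : tscG.Adj u v ↔
    (v.1 = u.1 + 1 ∧ v.2 = u.2) ∨ (v.1 = u.1 ∧ v.2 = u.2 + 1) ∨ (v.1 = u.1 - 1 ∧ v.2 = u.2 + 1) ∨
      (v.1 = u.1 - 1 ∧ v.2 = u.2) ∨ (v.1 = u.1 ∧ v.2 = u.2 - 1) ∨ (v.1 = u.1 + 1 ∧ v.2 = u.2 - 1) := tsc_adj_iff u v

theorem rwl180_parE (e : (ℤ × ℤ) × Bool) : ((rtd111E e).1 + (rtd111E e).2) % 2 = 1 := by
  obtain ⟨⟨x, y⟩, b⟩ := e
  cases b
  · rw [rtd111_E_f]; dsimp only; omega
  · rw [rtd111_E_t]; dsimp only; omega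

theorem rwl180_parP (v : ℤ × ℤ) : ((rtd111P v).1 + (rtd111P v).2) % 2 = 0 := by
  unfold rtd111P; dsimp only; omega

theorem rwl180_parF (f : ℤ × ℤ) : ((rtd111F f).1 + (rtd111F f).2) % 2 = 0 := by
  unfold rtd111F; dsimp only; omega

/-- two edge cells of the box next to one vertex / face cell off the box coincide -/
theorem rwl180_uniq {A B c d : ℤ} {z z' u : TV} (hz : z ∈ rrw86Rect A B c d) (hz' : z' ∈ rrw86Rect (A + 1) (B - 1) c d) (hu : u ∉ rrw86Rect A B c d)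
    (a1 : tscG.Adj z u) (a2 : tscG.Adj z' u) (p : (z.1 + z.2) % 2 = 1) (p' : (z'.1 + z'.2) % 2 = 1) (pu : (u.1 + u.2) % 2 = 0) : z = z' := by
  rw [rwl180_mem_rect] at hz hz' hu
  rw [rwl180_adj_iff] at a1 a2
  exact Prod.ext (by omega) (by omega)

section cyl

variable {L H : ℕ}

/-- the vertex cell of an endpoint is next to the edge cell (no seam) -/
theorem rwl180_end_adj {e : (ℤ × ℤ) × Bool} (he : e ∈ (rcy162Cyl L 0 H).E) (h : (rtd111E e).1 ≤ 2 * (L : ℤ) - 2) {v : ℤ × ℤ}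
    (hv : Rse182End (rcy162Cyl L 0 H) e v) : tscG.Adj (rtd111E e) (rtd111P v) := by
  obtain ⟨⟨x, y⟩, b⟩ := e
  obtain ⟨⟨x0, x1⟩, -⟩ := rcy162_mem_cylE.1 he
  dsimp only at x0 x1
  rw [rwl180_adj_iff]
  cases b
  · rw [rtd111_E_f] at h ⊢
    dsimp only at h
    rcases hv with rfl | rfl
    · rw [rcy162_cyl_p0]; unfold rtd111P; dsimp only; omega
    · rw [rcy162_cyl_p1]
      have : rcy162Red L (rswEnd ((x, y), false)) = (x + 1, y) := rcy162_red_of_range (u := (x + 1, y)) (by dsimp only; omega) (by dsimp only; omega)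
      rw [this]; unfold rtd111P; dsimp only; omega
  · rw [rtd111_E_t] at h ⊢
    rcases hv with rfl | rfl
    · rw [rcy162_cyl_p0]; unfold rtd111P; dsimp only; omega
    · rw [rcy162_cyl_p1]
      have : rcy162Red L (rswEnd ((x, y), true)) = (x, y + 1) := rcy162_red_of_range (u := (x, y + 1)) (by dsimp only; omega) (by dsimp only; omega)
      rw [this]; unfold rtd111P; dsimp only; omega

/-- the face cell of a face is next to the edge cell, or it sits on the seam -/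
theorem rwl180_fac_adj {e : (ℤ × ℤ) × Bool} (he : e ∈ (rcy162Cyl L 0 H).E) {f : ℤ × ℤ}
    (hf : Rse182Fac (rcy162Cyl L 0 H) e f) : tscG.Adj (rtd111E e) (rtd111F f) ∨ (rtd111F f).1 = 2 * (L : ℤ) - 1 := by
  obtain ⟨⟨x, y⟩, b⟩ := e
  obtain ⟨⟨x0, x1⟩, -⟩ := rcy162_mem_cylE.1 he
  dsimp only at x0 x1
  rw [rwl180_adj_iff]
  cases b
  · rw [rtd111_E_f]
    rcases hf with rfl | rfl
    · rw [rcy162_cyl_f0]; unfold rtd111F; dsimp only; omega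
    · rw [rcy162_cyl_f1]
      have : rcy162Red L (rswCo ((x, y), false)) = (x, y - 1) := rcy162_red_of_range (u := (x, y - 1)) (by dsimp only; omega) (by dsimp only; omega)
      rw [this]; unfold rtd111F; dsimp only; omega
  · rw [rtd111_E_t]
    rcases hf with rfl | rfl
    · rw [rcy162_cyl_f0]; unfold rtd111F; dsimp only; omega
    · rw [rcy162_cyl_f1]
      by_cases hx : 1 ≤ x
      · have : rcy162Red L (rswCo ((x, y), true)) = (x - 1, y) := rcy162_red_of_range (u := (x - 1, y)) (by dsimp only; omega) (by dsimp only; omega)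
        rw [this]; unfold rtd111F; dsimp only; omega
      · have hx0 : x = 0 := by omega
        subst hx0
        have : rcy162Red L (rswCo (((0 : ℤ), y), true)) = ((L : ℤ) - 1, y) := by
          have e1 : rswCo (((0 : ℤ), y), true) = ((0 : ℤ) - 1, y) := rfl
          rw [e1, rcy162_red_congr L (x := (0 : ℤ) - 1) (x' := (L : ℤ) - 1) y (-1) (by ring)]
          exact rcy162_red_of_range (u := ((L : ℤ) - 1, y)) (by dsimp only; omega) (by dsimp only; omega)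
        rw [this]; unfold rtd111F; dsimp only; omega

end cyl

section core

variable {L H : ℕ} {t : ℝ} {𝓛 : Rln182Law RswCfg TV} {ω₀ : RswCfg} {A B c d : ℤ} {Qs : Set TV} {Q₀ T : Finset TV}

/-- **(CORE-V)** a vertex carried by the strip which is an endpoint of an edge of the box off the strip is plus in `ω₀` and carried by a cell looked at -/
theorem rwl180_coreV (hl : Rse182Link (rcy162Cyl L 0 H) t 𝓛) (hI : Rwl180Idx 𝓛 ω₀ A B c d Qs Q₀) (hB : B ≤ 2 * (L : ℤ) - 2)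
    (hT : ∀ y ∈ T, y ∈ Qs) {v : ℤ × ℤ} (hv : v ∈ rse182Sv (rcy162Cyl L 0 H) T) {w : (ℤ × ℤ) × Bool} (hw : w ∈ (rcy162Cyl L 0 H).E)
    (hwR : rtd111E w ∈ rrw86Rect A B c d) (hwQ : rtd111E w ∉ Qs) (hev : Rse182End (rcy162Cyl L 0 H) w v) :
    v ∈ ω₀.S ∧ v ∈ rse182Sv (rcy162Cyl L 0 H) Q₀ := by
  obtain ⟨hvV, y, hy, hc⟩ := rse182_mem_Sv.1 hv
  have adjw : tscG.Adj (rtd111E w) (rtd111P v) := rwl180_end_adj hw (le_trans hwR.2.1 hB) hev
  have c1 : rtd111P v ∈ Qs → v ∈ ω₀.S ∧ v ∈ rse182Sv (rcy162Cyl L 0 H) Q₀ := fun hu => by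
    obtain ⟨s1, s2⟩ := hI.nb _ hu _ hwR hwQ adjw.symm
    have g : (rcy162Cyl L 0 H).Good true ω₀ w := by
      by_contra h
      exact s2 ((hl.npE ω₀ w hw).2 h)
    exact ⟨(rse182_good_end g hev).2 rfl, rse182_mem_Sv.2 ⟨hvV, _, s1, Or.inr ⟨w, hw, rfl, hev⟩⟩⟩
  rcases hc with rfl | ⟨m, hm, rfl, hmv⟩
  · exact c1 (hT _ hy)
  · have hmQ := hT _ hy
    have hmR := hI.rect _ hmQ
    have adjm : tscG.Adj (rtd111E m) (rtd111P v) := rwl180_end_adj hm (by have := hmR.2.1; unfold rrw86X at this; omega) hmv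
    by_cases hu : rtd111P v ∈ Qs
    · exact c1 hu
    by_cases huR : rtd111P v ∈ rrw86Rect A B c d
    · obtain ⟨s1, s2⟩ := hI.nb _ hmQ _ huR hu adjm
      refine ⟨?_, rse182_mem_Sv.2 ⟨hvV, _, s1, Or.inl rfl⟩⟩
      by_contra h
      exact s2 ((hl.npP ω₀ v hvV).2 h)
    · exfalso
      have := rwl180_uniq hwR hmR huR adjw adjm (rwl180_parE w) (rwl180_parE m) (rwl180_parP v)
      exact hwQ (this ▸ hmQ)

/-- **(CORE-V')** a vertex carried by the strip whose vertex cell is looked at is plus in `ω₀` -/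
theorem rwl180_coreV' (hl : Rse182Link (rcy162Cyl L 0 H) t 𝓛) (hI : Rwl180Idx 𝓛 ω₀ A B c d Qs Q₀) (hB : B ≤ 2 * (L : ℤ) - 2)
    (hT : ∀ y ∈ T, y ∈ Qs) {v : ℤ × ℤ} (hv : v ∈ rse182Sv (rcy162Cyl L 0 H) T) (hu : rtd111P v ∈ Q₀) : v ∈ ω₀.S := by
  obtain ⟨hvV, y, hy, hc⟩ := rse182_mem_Sv.1 hv
  rcases hc with rfl | ⟨m, hm, rfl, hmv⟩
  · exact absurd hu (hI.unseen _ (hT _ hy))
  · have hmQ := hT _ hy
    have hmR := hI.rect _ hmQ
    have adjm : tscG.Adj (rtd111E m) (rtd111P v) := rwl180_end_adj hm (by have := hmR.2.1; unfold rrw86X at this; omega) hmv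
    obtain ⟨-, s2⟩ := hI.nb _ hmQ _ (hI.seen _ hu) (fun h => hI.unseen _ h hu) adjm
    by_contra h
    exact s2 ((hl.npP ω₀ v hvV).2 h)

/-- **(CORE-F)** an edge of the box off the strip which has a common face with an edge of the strip is looked at and good plus in `ω₀` -/
theorem rwl180_coreF (hl : Rse182Link (rcy162Cyl L 0 H) t 𝓛) (hI : Rwl180Idx 𝓛 ω₀ A B c d Qs Q₀) (hA : 0 ≤ A) (hB : B ≤ 2 * (L : ℤ) - 2)
    {w : (ℤ × ℤ) × Bool} (hw : w ∈ (rcy162Cyl L 0 H).E) (hwR : rtd111E w ∈ rrw86Rect A B c d) (hwQ : rtd111E w ∉ Qs) {f : ℤ × ℤ}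
    (hf : Rse182Fac (rcy162Cyl L 0 H) w f) {m : (ℤ × ℤ) × Bool} (hm : m ∈ (rcy162Cyl L 0 H).E) (hmQ : rtd111E m ∈ Qs)
    (hfm : Rse182Fac (rcy162Cyl L 0 H) m f) : rtd111E w ∈ Q₀ ∧ (rcy162Cyl L 0 H).Good true ω₀ w := by
  have hmR := hI.rect _ hmQ
  have hmR' := rwl180_mem_rect.1 hmR
  have hwR' := rwl180_mem_rect.1 hwR
  -- the face cell is next to both edge cells
  have key : ∀ e : (ℤ × ℤ) × Bool, e ∈ (rcy162Cyl L 0 H).E → Rse182Fac (rcy162Cyl L 0 H) e f → (rtd111F f).1 ≤ 2 * (L : ℤ) - 2 →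
      tscG.Adj (rtd111E e) (rtd111F f) := fun e he hfe hs => by
    rcases rwl180_fac_adj he hfe with h | h
    · exact h
    · omega
  have hs : (rtd111F f).1 ≤ 2 * (L : ℤ) - 2 ∨ (rtd111F f).1 = 2 * (L : ℤ) - 1 := by
    rcases rwl180_fac_adj hm hfm with h | h
    · rw [rwl180_adj_iff] at h
      omega
    · exact Or.inr h
  have hs' : (rtd111F f).1 ≤ 2 * (L : ℤ) - 2 := by
    rcases hs with h | h
    · exact h
    · -- the seam: the face of `m` would be far from `m`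
      exfalso
      obtain ⟨⟨x, y⟩, b⟩ := m
      obtain ⟨⟨x0, x1⟩, -⟩ := rcy162_mem_cylE.1 hm
      dsimp only at x0 x1
      cases b
      · rw [rtd111_E_f] at hmR'
        dsimp only at hmR'
        rcases hfm with rfl | rfl
        · rw [rcy162_cyl_f0] at h; unfold rtd111F at h; dsimp only at h; omega
        · rw [rcy162_cyl_f1] at h
          have e1 : rcy162Red L (rswCo ((x, y), false)) = (x, y - 1) := rcy162_red_of_range (u := (x, y - 1)) (by dsimp only; omega) (by dsimp only; omega)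
          rw [e1] at h; unfold rtd111F at h; dsimp only at h; omega
      · rw [rtd111_E_t] at hmR'
        dsimp only at hmR'
        rcases hfm with rfl | rfl
        · rw [rcy162_cyl_f0] at h; unfold rtd111F at h; dsimp only at h; omega
        · rw [rcy162_cyl_f1] at h
          have e1 : rcy162Red L (rswCo ((x, y), true)) = (x - 1, y) := rcy162_red_of_range (u := (x - 1, y)) (by dsimp only; omega) (by dsimp only; omega)
          rw [e1] at h; unfold rtd111F at h; dsimp only at h; omega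
  have adjm := key m hm hfm hs'
  have adjw := key w hw hf hs'
  by_cases hgR : rtd111F f ∈ rrw86Rect A B c d
  · have hgQ : rtd111F f ∈ Qs := by
      by_contra h
      exact (hI.nb _ hmQ _ hgR h adjm).2 (hl.npF ω₀ f)
    obtain ⟨s1, s2⟩ := hI.nb _ hgQ _ hwR hwQ adjw.symm
    refine ⟨s1, ?_⟩
    by_contra h
    exact s2 ((hl.npE ω₀ w hw).2 h)
  · exfalso
    have := rwl180_uniq hwR hmR hgR adjw adjm (rwl180_parE w) (rwl180_parE m) (rwl180_parF f)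
    exact hwQ (this ▸ hmQ)

end core

open Classical in
/-- the box: the edge pairs of the cylinder whose edge cell lies in the rectangle -/
noncomputable def rwl180Box (L H : ℕ) (A B c d : ℤ) : Finset ((ℤ × ℤ) × Bool) :=
  (rcy162Cyl L 0 H).E.filter (fun e => rtd111E e ∈ rrw86Rect A B c d)

theorem rwl180_box_eqns_cite : True := by
  have := @rwl180Box.eq_1
  trivial

theorem rwl180_mem_box {L H : ℕ} {A B c d : ℤ} {e : (ℤ × ℤ) × Bool} :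
    e ∈ rwl180Box L H A B c d ↔ e ∈ (rcy162Cyl L 0 H).E ∧ rtd111E e ∈ rrw86Rect A B c d := by
  classical
  unfold rwl180Box; rw [mem_filter]

/-- **THE GEOMETRY OF THE WALL ON THE MIXED CYLINDER**: strip = the free cells `Qs` of a record which looks at `Q₀` -/
theorem rwl180_geo_cyl {L H : ℕ} (hL : 0 < L) {t : ℝ} {𝓛 : Rln182Law RswCfg TV} (hl : Rse182Link (rcy162Cyl L 0 H) t 𝓛) {ω₀ : RswCfg} {A B c d : ℤ}
    (hA : 0 ≤ A) (hB : B ≤ 2 * (L : ℤ) - 2) (hc : 2 ≤ c) {Qs : Set TV} {Q₀ : Finset TV} (hI : Rwl180Idx 𝓛 ω₀ A B c d Qs Q₀)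
    (T : Finset TV) (hT : ∀ y, y ∈ T ↔ y ∈ Qs) :
    Rwl180Geo (rcy162Cyl L 0 H) (rse182Obs (rcy162Cyl L 0 H) (rwl180KM L H) Q₀ ω₀) (rwl180Box L H A B c d)
      (rse182Ed (rcy162Cyl L 0 H) T) (rse182Sv (rcy162Cyl L 0 H) T)
      ((rse182Obs (rcy162Cyl L 0 H) (rwl180KM L H) Q₀ ω₀).Sp ∩ rse182Sv (rcy162Cyl L 0 H) T)
      ((rse182Sv (rcy162Cyl L 0 H) T ∩ rwl180Sv (rcy162Cyl L 0 H) (rwl180EoV (rcy162Cyl L 0 H) (rwl180Box L H A B c d) (rse182Sv (rcy162Cyl L 0 H) T)))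
        \ (rse182Obs (rcy162Cyl L 0 H) (rwl180KM L H) Q₀ ω₀).Sp) := by
  classical
  have hT1 : ∀ y ∈ T, y ∈ Qs := fun y hy => (hT y).1 hy
  have hw := rcy162_cyl_wf hL 0 (H : ℤ)
  -- an observed edge has its cell in `Q₀`
  have hobs : ∀ e, e ∈ (rse182Obs (rcy162Cyl L 0 H) (rwl180KM L H) Q₀ ω₀).Gp ∪ (rse182Obs (rcy162Cyl L 0 H) (rwl180KM L H) Q₀ ω₀).Gm
      ∪ (rse182Obs (rcy162Cyl L 0 H) (rwl180KM L H) Q₀ ω₀).Cl → e ∈ rse182Ed (rcy162Cyl L 0 H) Q₀ := by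
    intro e he
    simp only [rse182Obs, rwl180KM, mem_union, mem_filter, notMem_empty, false_or] at he
    tauto
  have hoff : ∀ w ∈ rwl180Box L H A B c d, w ∉ rse182Ed (rcy162Cyl L 0 H) T → rtd111E w ∉ Qs := fun w hwO hwM hq =>
    hwM (rse182_mem_Ed.2 ⟨(rwl180_mem_box.1 hwO).1, (hT _).2 hq⟩)
  refine ⟨?_, ?_, ?_, rwl180_MR_cells hw T, ?_, ?_, ?_, ?_, rfl, ?_, rfl⟩
  · -- MO
    intro e he
    obtain ⟨h1, h2⟩ := rse182_mem_Ed.1 he
    have := rwl180_mem_rect.1 (hI.rect _ (hT1 _ h2))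
    exact rwl180_mem_box.2 ⟨h1, rwl180_mem_rect.2 ⟨by omega, by omega, this.2.2.1, this.2.2.2⟩⟩
  · exact fun e he => (rwl180_mem_box.1 he).1
  · exact fun v hv => (rse182_mem_Sv.1 hv).1
  · -- fresh
    intro e he
    have hq : rtd111E e ∉ Q₀ := hI.unseen _ (hT1 _ (rse182_mem_Ed.1 he).2)
    refine ⟨fun h => hq (rse182_mem_Ed.1 (hobs e (mem_union_left _ (mem_union_left _ h)))).2,
      fun h => hq (rse182_mem_Ed.1 (hobs e (mem_union_left _ (mem_union_right _ h)))).2,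
      fun h => hq (rse182_mem_Ed.1 (hobs e (mem_union_right _ h))).2⟩
  · -- out
    intro e he h
    obtain ⟨h1, h2⟩ := rse182_mem_Ed.1 (hobs e (mem_union_right _ h))
    exact (rwl180_mem_EoF.1 he).2.1 (rwl180_mem_box.2 ⟨h1, hI.seen _ h2⟩)
  · -- extV
    intro w hwO hwM v hv hvR
    obtain ⟨h1, h2⟩ := rwl180_mem_box.1 hwO
    obtain ⟨s1, s2⟩ := rwl180_coreV hl hI hB hT1 hvR h1 h2 (hoff w hwO hwM) (rwl180_end_iff.1 hv)
    exact mem_union_right _ (mem_filter.2 ⟨s2, s1⟩)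
  · -- extF
    rintro w hwO hwM ⟨f, hf, hfM⟩
    obtain ⟨h1, h2⟩ := rwl180_mem_box.1 hwO
    obtain ⟨m, hm, hfm⟩ := rwl180_mem_Sd.1 hfM
    obtain ⟨m1, m2⟩ := rse182_mem_Ed.1 hm
    obtain ⟨s1, s2⟩ := rwl180_coreF hl hI hA hB h1 h2 (hoff w hwO hwM) (rwl180_fac_iff.1 hf) m1 (hT1 _ m2) (rwl180_fac_iff.1 hfm)
    exact mem_union_right _ (mem_filter.2 ⟨rse182_mem_Ed.2 ⟨h1, s1⟩, s2⟩)
  · -- sm
    intro v hv hvR
    rcases mem_union.1 hv with h | h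
    · -- the bottom row
      have hv0 : v.2 = 0 := (rcy162_mem_row.1 h).2
      obtain ⟨hvV, y, hy, hcar⟩ := rse182_mem_Sv.1 hvR
      rcases hcar with rfl | ⟨m, hm, rfl, hmv⟩
      · have := rwl180_mem_rect.1 (hI.rect _ (hT1 _ hy))
        unfold rtd111P at this; dsimp only at this; omega
      · have hmR := rwl180_mem_rect.1 (hI.rect _ (hT1 _ hy))
        have adjm := rwl180_end_adj hm (by omega) hmv
        rw [rwl180_adj_iff] at adjm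
        unfold rtd111P at adjm; dsimp only at adjm; omega
    · obtain ⟨h1, h2⟩ := mem_filter.1 h
      obtain ⟨hvV, y', hy', hcar⟩ := rse182_mem_Sv.1 h1
      rcases hcar with rfl | ⟨w, hwE, rfl, hwv⟩
      · exact h2 (rwl180_coreV' hl hI hB hT1 hvR hy')
      · exact h2 (rwl180_coreV hl hI hB hT1 hvR hwE (hI.seen _ hy') (fun hq => hI.unseen _ hq hy') hwv).1

/-! ## 8. THE INDEX FACTS UNDER ONE RECORD (from `Rsw/RswPair110` of 110) -/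

theorem rwl180_red_id {L : ℕ} {z : TV} (h0 : 0 ≤ z.1) (h1 : z.1 < 2 * (L : ℤ)) : sdRed (2 * L) z = z := by
  unfold sdRed
  have : z.1 % ((2 * L : ℕ) : ℤ) = z.1 := Int.emod_eq_of_lt h0 (by push_cast; exact h1)
  rw [this]

theorem rwl180_red_rect {L : ℕ} {A B c d : ℤ} (hA : 0 ≤ A) (hB : B ≤ 2 * (L : ℤ) - 2) {z : TV} (hz : z ∈ rrw86Rect A B c d) : sdRed (2 * L) z = z := by
  have := rwl180_mem_rect.1 hz
  exact rwl180_red_id (by omega) (by omega)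

theorem rwl180_red_inj {L : ℕ} {A B c d : ℤ} (hA : 0 ≤ A) (hB : B ≤ 2 * (L : ℤ) - 2) :
    ∀ z ∈ rrw86Rect A B c d, ∀ z' ∈ rrw86Rect A B c d, sdRed (2 * L) z = sdRed (2 * L) z' → z = z' := by
  intro z hz z' hz' h
  rwa [rwl180_red_rect hA hB hz, rwl180_red_rect hA hB hz'] at h

/-- **the four index facts under one record of the mixed cylinder** -/
theorem rwl180_idx_110 (t : ℝ) {L H : ℕ} {c d w σ m e : ℤ} (hcd : c < d) (hw : 0 ≤ w) (hσ : 2 * w < σ) (he : w ≤ e)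
    (hA : 0 ≤ m - e) (hB : m + σ + e ≤ 2 * (L : ℤ) - 2) (ω₀ : RswCfg)
    (hG : Rrc86G0 (m - e) (m + σ + e) c d w m (m + σ) (rrc86I (rrc86L t L H) (sdRed (2 * L)) c d w σ m e ω₀) (rrc86J (rrc86L t L H) (sdRed (2 * L)) c d w σ m e ω₀))
    (h1 : ¬ Rrc86Touch (rrc86A (rrc86L t L H) (sdRed (2 * L)) c d w σ m e ω₀) (rrc86C (rrc86L t L H) (sdRed (2 * L)) c d w σ m e ω₀)) :
    Rwl180Idx (rrc86L t L H) ω₀ (m - e) (m + σ + e) c d
      (rpr110Q (m - e) (m + σ + e) c d (rrc86A (rrc86L t L H) (sdRed (2 * L)) c d w σ m e ω₀) (rrc86C (rrc86L t L H) (sdRed (2 * L)) c d w σ m e ω₀))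
      (rrc86Q2 (rrc86L t L H) (sdRed (2 * L)) c d w σ m e ω₀) := by
  classical
  obtain ⟨pa, qa, pc, qc, HP, -⟩ := rpr110_pair_rec (rrc86L t L H) (sdRed (2 * L)) hcd hw hσ he ω₀ hG h1
  have hrect : ∀ y ∈ rpr110Q (m - e) (m + σ + e) c d (rrc86A (rrc86L t L H) (sdRed (2 * L)) c d w σ m e ω₀) (rrc86C (rrc86L t L H) (sdRed (2 * L)) c d w σ m e ω₀),
      y ∈ rrw86Rect (m - e + 1) (m + σ + e - 1) c d := fun y hy =>
    rpr110_Q_rect (m := m) (m' := m + σ) (w := w) hcd hw (by omega) (by omega) (by omega) hG hy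
  refine ⟨hrect, ?_, ?_, ?_⟩
  · intro y hy hq
    have hyR := rwl180_mem_rect.1 (hrect y hy)
    have := rpr110_free_unseen (rrc86L t L H) (sdRed (2 * L)) hcd hw hσ he ω₀ (rwl180_red_inj hA hB) hG hy
    rw [rwl180_red_id (by omega) (by omega)] at this
    exact this hq
  · intro y hy
    obtain ⟨z, hz, rfl, -⟩ := rpr110_look_rec (rrc86L t L H) (sdRed (2 * L)) hcd hw hσ he ω₀ hG hy
    rwa [rwl180_red_rect hA hB hz]
  · intro y hy y' hy' hn hadj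
    have hb : y' ∈ plsBand c d := rrc86_rect_band hy'
    have hs : y' ∈ rpr110AA (m + σ + e) c d (rrc86A (rrc86L t L H) (sdRed (2 * L)) c d w σ m e ω₀) ∨
        y' ∈ rpr110CC (m - e) c d (rrc86C (rrc86L t L H) (sdRed (2 * L)) c d w σ m e ω₀) := by
      by_contra hcon
      exact hn ⟨hb, hcon⟩
    have h3 := rpr110_free_nb HP hy hs hadj
    obtain ⟨p1, p2⟩ := rpr110_layer (A := m - e) (B := m + σ + e) (c := c) (d := d) (w := w) (m := m) (m' := m + σ)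
      (P := rrc86Y (rrc86L t L H) (sdRed (2 * L)) ω₀) y' h3
    have hid := rwl180_red_rect hA hB hy'
    obtain ⟨q1, q2⟩ := p1
    rw [hid] at q1 q2
    exact ⟨mem_filter.2 ⟨q1, y', p2, hid⟩, q2⟩

/-- **the extreme rows**: at most one free cell of an extreme row has a cell looked at on its left -/
theorem rwl180_left_110 (t : ℝ) {L H : ℕ} {c d w σ m e : ℤ} (hcd : c < d) (hw : 0 ≤ w) (hσ : 2 * w < σ) (he : w ≤ e)
    (hA : 0 ≤ m - e) (hB : m + σ + e ≤ 2 * (L : ℤ) - 2) (ω₀ : RswCfg)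
    (hG : Rrc86G0 (m - e) (m + σ + e) c d w m (m + σ) (rrc86I (rrc86L t L H) (sdRed (2 * L)) c d w σ m e ω₀) (rrc86J (rrc86L t L H) (sdRed (2 * L)) c d w σ m e ω₀))
    (h1 : ¬ Rrc86Touch (rrc86A (rrc86L t L H) (sdRed (2 * L)) c d w σ m e ω₀) (rrc86C (rrc86L t L H) (sdRed (2 * L)) c d w σ m e ω₀)) :
    ∀ y ∈ rpr110Q (m - e) (m + σ + e) c d (rrc86A (rrc86L t L H) (sdRed (2 * L)) c d w σ m e ω₀) (rrc86C (rrc86L t L H) (sdRed (2 * L)) c d w σ m e ω₀),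
    ∀ y' ∈ rpr110Q (m - e) (m + σ + e) c d (rrc86A (rrc86L t L H) (sdRed (2 * L)) c d w σ m e ω₀) (rrc86C (rrc86L t L H) (sdRed (2 * L)) c d w σ m e ω₀),
      y.2 = y'.2 → (y.2 = c ∨ y.2 = d) → (y.1 - 1, y.2) ∈ rrc86Q2 (rrc86L t L H) (sdRed (2 * L)) c d w σ m e ω₀ →
      (y'.1 - 1, y'.2) ∈ rrc86Q2 (rrc86L t L H) (sdRed (2 * L)) c d w σ m e ω₀ → y = y' := by
  obtain ⟨pa, qa, pc, qc, HP, -⟩ := rpr110_pair_rec (rrc86L t L H) (sdRed (2 * L)) hcd hw hσ he ω₀ hG h1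
  have hI := rwl180_idx_110 t hcd hw hσ he hA hB ω₀ hG h1
  -- a cell looked at on the left of a free cell of an extreme row lies on `a`
  have key : ∀ y ∈ rpr110Q (m - e) (m + σ + e) c d (rrc86A (rrc86L t L H) (sdRed (2 * L)) c d w σ m e ω₀) (rrc86C (rrc86L t L H) (sdRed (2 * L)) c d w σ m e ω₀),
      (y.2 = c ∨ y.2 = d) → (y.1 - 1, y.2) ∈ rrc86Q2 (rrc86L t L H) (sdRed (2 * L)) c d w σ m e ω₀ →
      (y.1 - 1, y.2) ∈ rrc86A (rrc86L t L H) (sdRed (2 * L)) c d w σ m e ω₀ := by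
    intro y hy hrow hq
    have hR := hI.seen _ hq
    have hadj : tscG.Adj y (y.1 - 1, y.2) := (rwl180_adj_iff _ _).2 (by dsimp only; omega)
    have hq' : sdRed (2 * L) (y.1 - 1, y.2) ∈ rrc86Q2 (rrc86L t L H) (sdRed (2 * L)) c d w σ m e ω₀ := by rwa [rwl180_red_rect hA hB hR]
    rcases (rpr110_seen_nb_plus (rrc86L t L H) (sdRed (2 * L)) hcd hw hσ he ω₀ (rwl180_red_inj hA hB) hG h1 hy hR hadj hq').1 with h | h
    · exact h
    · exfalso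
      rcases hrow with hr | hr
      · exact hy.2 (Or.inr (hxr_CC_bot (p := (y.1 - 1, y.2)) ⟨HP.C.sub, HP.C.conn, HP.C.box, h, HP.C.qa, hr, HP.C.q1⟩ hr (by dsimp only; omega)))
      · exact hy.2 (Or.inr (hxr_CC_top (q := (y.1 - 1, y.2)) ⟨HP.C.sub, HP.C.conn, HP.C.box, HP.C.pa, h, HP.C.p0, hr⟩ hr (by dsimp only; omega)))
  have half : ∀ y ∈ rpr110Q (m - e) (m + σ + e) c d (rrc86A (rrc86L t L H) (sdRed (2 * L)) c d w σ m e ω₀) (rrc86C (rrc86L t L H) (sdRed (2 * L)) c d w σ m e ω₀),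
      ∀ y' : TV, y.2 = y'.2 → (y.2 = c ∨ y.2 = d) → (y'.1 - 1, y'.2) ∈ rrc86A (rrc86L t L H) (sdRed (2 * L)) c d w σ m e ω₀ → ¬ y.1 ≤ y'.1 - 1 := by
    intro y hy y' h2 hrow ha hle
    rcases hrow with hr | hr
    · exact hy.2 (Or.inl (hxr_AA_bot (p := (y'.1 - 1, y'.2)) ⟨HP.A.sub, HP.A.conn, HP.A.box, ha, HP.A.qa, h2 ▸ hr, HP.A.q1⟩ hr hle))
    · exact hy.2 (Or.inl (hxr_AA_top (q := (y'.1 - 1, y'.2)) ⟨HP.A.sub, HP.A.conn, HP.A.box, HP.A.pa, ha, HP.A.p0, h2 ▸ hr⟩ hr hle))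
  intro y hy y' hy' h2 hrow hq hq'
  have g1 := half y hy y' h2 hrow (key y' hy' (h2 ▸ hrow) hq')
  have g2 := half y' hy' y h2.symm (h2 ▸ hrow) (key y hy hrow hq)
  exact Prod.ext (by omega) h2

/-- the same on the right -/
theorem rwl180_right_110 (t : ℝ) {L H : ℕ} {c d w σ m e : ℤ} (hcd : c < d) (hw : 0 ≤ w) (hσ : 2 * w < σ) (he : w ≤ e)
    (hA : 0 ≤ m - e) (hB : m + σ + e ≤ 2 * (L : ℤ) - 2) (ω₀ : RswCfg)
    (hG : Rrc86G0 (m - e) (m + σ + e) c d w m (m + σ) (rrc86I (rrc86L t L H) (sdRed (2 * L)) c d w σ m e ω₀) (rrc86J (rrc86L t L H) (sdRed (2 * L)) c d w σ m e ω₀))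
    (h1 : ¬ Rrc86Touch (rrc86A (rrc86L t L H) (sdRed (2 * L)) c d w σ m e ω₀) (rrc86C (rrc86L t L H) (sdRed (2 * L)) c d w σ m e ω₀)) :
    ∀ y ∈ rpr110Q (m - e) (m + σ + e) c d (rrc86A (rrc86L t L H) (sdRed (2 * L)) c d w σ m e ω₀) (rrc86C (rrc86L t L H) (sdRed (2 * L)) c d w σ m e ω₀),
    ∀ y' ∈ rpr110Q (m - e) (m + σ + e) c d (rrc86A (rrc86L t L H) (sdRed (2 * L)) c d w σ m e ω₀) (rrc86C (rrc86L t L H) (sdRed (2 * L)) c d w σ m e ω₀),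
      y.2 = y'.2 → (y.2 = c ∨ y.2 = d) → (y.1 + 1, y.2) ∈ rrc86Q2 (rrc86L t L H) (sdRed (2 * L)) c d w σ m e ω₀ →
      (y'.1 + 1, y'.2) ∈ rrc86Q2 (rrc86L t L H) (sdRed (2 * L)) c d w σ m e ω₀ → y = y' := by
  obtain ⟨pa, qa, pc, qc, HP, -⟩ := rpr110_pair_rec (rrc86L t L H) (sdRed (2 * L)) hcd hw hσ he ω₀ hG h1
  have hI := rwl180_idx_110 t hcd hw hσ he hA hB ω₀ hG h1
  have key : ∀ y ∈ rpr110Q (m - e) (m + σ + e) c d (rrc86A (rrc86L t L H) (sdRed (2 * L)) c d w σ m e ω₀) (rrc86C (rrc86L t L H) (sdRed (2 * L)) c d w σ m e ω₀),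
      (y.2 = c ∨ y.2 = d) → (y.1 + 1, y.2) ∈ rrc86Q2 (rrc86L t L H) (sdRed (2 * L)) c d w σ m e ω₀ →
      (y.1 + 1, y.2) ∈ rrc86C (rrc86L t L H) (sdRed (2 * L)) c d w σ m e ω₀ := by
    intro y hy hrow hq
    have hR := hI.seen _ hq
    have hadj : tscG.Adj y (y.1 + 1, y.2) := (rwl180_adj_iff _ _).2 (by dsimp only; omega)
    have hq' : sdRed (2 * L) (y.1 + 1, y.2) ∈ rrc86Q2 (rrc86L t L H) (sdRed (2 * L)) c d w σ m e ω₀ := by rwa [rwl180_red_rect hA hB hR]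
    rcases (rpr110_seen_nb_plus (rrc86L t L H) (sdRed (2 * L)) hcd hw hσ he ω₀ (rwl180_red_inj hA hB) hG h1 hy hR hadj hq').1 with h | h
    · exfalso
      rcases hrow with hr | hr
      · exact hy.2 (Or.inl (hxr_AA_bot (p := (y.1 + 1, y.2)) ⟨HP.A.sub, HP.A.conn, HP.A.box, h, HP.A.qa, hr, HP.A.q1⟩ hr (by dsimp only; omega)))
      · exact hy.2 (Or.inl (hxr_AA_top (q := (y.1 + 1, y.2)) ⟨HP.A.sub, HP.A.conn, HP.A.box, HP.A.pa, h, HP.A.p0, hr⟩ hr (by dsimp only; omega)))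
    · exact h
  have half : ∀ y ∈ rpr110Q (m - e) (m + σ + e) c d (rrc86A (rrc86L t L H) (sdRed (2 * L)) c d w σ m e ω₀) (rrc86C (rrc86L t L H) (sdRed (2 * L)) c d w σ m e ω₀),
      ∀ y' : TV, y.2 = y'.2 → (y.2 = c ∨ y.2 = d) → (y'.1 + 1, y'.2) ∈ rrc86C (rrc86L t L H) (sdRed (2 * L)) c d w σ m e ω₀ → ¬ y'.1 + 1 ≤ y.1 := by
    intro y hy y' h2 hrow ha hle
    rcases hrow with hr | hr
    · exact hy.2 (Or.inr (hxr_CC_bot (p := (y'.1 + 1, y'.2)) ⟨HP.C.sub, HP.C.conn, HP.C.box, ha, HP.C.qa, h2 ▸ hr, HP.C.q1⟩ hr hle))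
    · exact hy.2 (Or.inr (hxr_CC_top (q := (y'.1 + 1, y'.2)) ⟨HP.C.sub, HP.C.conn, HP.C.box, HP.C.pa, ha, HP.C.p0, h2 ▸ hr⟩ hr hle))
  intro y hy y' hy' h2 hrow hq hq'
  have g1 := half y hy y' h2 hrow (key y' hy' (h2 ▸ hrow) hq')
  have g2 := half y' hy' y h2.symm (h2 ▸ hrow) (key y hy hrow hq)
  exact Prod.ext (by omega) h2

end Claimed.Agent.R292
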