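import Claimed.Agent.R292.Rsw.RswPair110
import Claimed.Agent.R292.Rsw.RswWall180

/-!
# Row 292 (S0540), Rsw/RswGeo110 : BLOCK A3 PART II, (G) THE GEOMETRY OF THE STRIP = `Rwl180Geo` of 180 for the strip `rpr110Q` between the two layers      (owner helper110; prefix `rpg110_`, `rpg110`, `Rpg110`)

Deterministic.   §1 ABSTRACT: any system `Y` with a chart on the box (`Rpg110Chart`: the refined points of the endpoints / faces of an edge of the box are its straight neighbours), any pair of layers (`HxrPair`), any look set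
inside the solid sides which contains the layers, any plus set read on `ω₀`:
    **`rpg110_geo`** : `Rwl180Geo Y (rse182Obs Y K Look ω₀) (rpg110O ..) (rse182Ed Y T) (rse182Sv Y T) (rpg110Lp ..) (rpg110Lm ..)`,   `T` = the cells of the strip.
§2 THE MIXED CYLINDER, box off the seam (`0 ≤ m - e`, `m + σ + e + 1 < 2 L`: met by the sizes of `Rrc86LKc`), band `2 ≤ c`: `rpg110_chart_cyl`, `rpg110_read_cyl`, **`rpg110_geo_cyl`** (non-touching record, `G0`),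
    **`rpg110_LK_cyl`** = `rwl180_LK_cyl` of 180 with (G) DISCHARGED: window `W = rpr110Q`, cells `rpg110Tc`, box `rpg110O`, sides `rpg110Lp`, ends `rpg110Lm`.
§3 THE PORTS (abstract): `Rpg110Expl` (a cell of a layer inside the box touches its cluster; the cluster is solid, non plus, closed), `rpg110_hair` (no hair of a layer over a free vertex of an extreme row),
    `rpg110_port_end`, `Rpg110Port`, `rpg110_uniq_a/_c` (one port per end and per layer: `hxr_AA_bot/_top`, `hxr_CC_bot/_top`), `rpg110_port_cases`, **`rpg110_ports_le` : `|rwl180P| ≤ 4`**.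
§4 on the mixed cylinder: `rpg110_fac_cyl`, `rpg110_end_cyl`, `rpg110_expl_a/_c`, **`rpg110_ports_cyl`**, **`rpg110_far_cyl`** = the five deterministic clauses of `A3t86Far` of 86 for EVERY non-touching record (`c + 2 ≤ d`, `d + 3 < 2 H`).
NOT here: the order `Rse182Ord`, (L) the estimate in the closed strip law (rows 5, 6).
-/

set_option autoImplicit false

namespace Claimed.Agent.R292

open Claims Claims.C0467 Relation Claimed.Agent.R291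

/-! ## §1 the abstract statement -/

/-- the chart of the system on the box: endpoints and faces of an edge of the box are straight neighbours of its refined point (a face may also lie beyond the seam, on the right of the box) -/
structure Rpg110Chart (Y : Rcy162Sys) (A B c d : ℤ) : Prop where
  endS : ∀ e ∈ Y.E, rtd111E e ∈ rrw86Rect A B c d → ∀ v, Rse182End Y e v → Rrw86Nb (rtd111E e) (rtd111P v)
  facS : ∀ e ∈ Y.E, rtd111E e ∈ rrw86Rect A B c d → ∀ f, Rse182Fac Y e f → Rrw86Nb (rtd111E e) (rtd111F f) ∨ ((rtd111E e).1 ≤ A ∧ B < (rtd111F f).1)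

/-- what is read on the reference configuration: the plus set, the look set -/
structure Rpg110Read (Y : Rcy162Sys) (ω₀ : RswCfg) (Look : Finset TV) (P₀ : Set TV) (A B c d : ℤ) (a cc : Set TV) : Prop where
  look : ∀ y ∈ Look, y ∈ rrw86Rect A B c d ∧ (y ∈ rpr110AA B c d a ∨ y ∈ rpr110CC A c d cc)
  lay : ∀ z, z ∈ a ∨ z ∈ cc → z ∈ P₀ ∧ z ∈ Look
  strip : rpr110Q A B c d a cc ⊆ rrw86Rect (A + 1) (B - 1) c d
  plE : ∀ e ∈ Y.E, rtd111E e ∈ P₀ → Y.Good true ω₀ e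
  plP : ∀ v ∈ Y.V, rtd111P v ∈ P₀ → v ∈ ω₀.S
  plF : ∀ f, rtd111F f ∉ P₀

open Classical in
/-- the edge pairs of the box -/
noncomputable def rpg110O (Y : Rcy162Sys) (A B c d : ℤ) : Finset ((ℤ × ℤ) × Bool) := Y.E.filter (fun e => rtd111E e ∈ rrw86Rect A B c d)

/-- the plus sides of the strip -/
noncomputable def rpg110Lp (Y : Rcy162Sys) (rec : RswCon) (T : Finset TV) : Finset (ℤ × ℤ) := rec.Sp ∩ rse182Sv Y T

/-- the ends of the strip -/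
noncomputable def rpg110Lm (Y : Rcy162Sys) (rec : RswCon) (O : Finset ((ℤ × ℤ) × Bool)) (T : Finset TV) : Finset (ℤ × ℤ) :=
  (rse182Sv Y T ∩ rwl180Sv Y (rwl180EoV Y O (rse182Sv Y T))) \ rec.Sp

theorem rpg110_eqns_cite : True := by
  have := @rpg110O.eq_1
  have := @rpg110Lp.eq_1
  have := @rpg110Lm.eq_1
  trivial

theorem rpg110_nb_adj {z z' : TV} (h : Rrw86Nb z z') : tscG.Adj z z' := by
  rw [tsc_G_adj, tsc_adj_iff]
  unfold Rrw86Nb at h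
  omega

theorem rpg110_nb_symm {z z' : TV} (h : Rrw86Nb z z') : Rrw86Nb z' z := by
  unfold Rrw86Nb at *
  omega

/-- two cells of the band which are straight neighbours of one point off the band coincide -/
theorem rpg110_nb_off {c d : ℤ} {p z z' : TV} (hp : p ∉ plsBand c d) (hz : z ∈ plsBand c d) (hz' : z' ∈ plsBand c d) (h : Rrw86Nb z p) (h' : Rrw86Nb z' p) : z = z' := by
  have hp' : ¬ (c ≤ p.2 ∧ p.2 ≤ d) := hp
  have h1 : c ≤ z.2 ∧ z.2 ≤ d := hz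
  have h2 : c ≤ z'.2 ∧ z'.2 ≤ d := hz'
  unfold Rrw86Nb at h h'
  ext <;> omega

section geo

variable {Y : Rcy162Sys} {ω₀ : RswCfg} {Look T : Finset TV} {P₀ : Set TV} {A B c d : ℤ} {a cc : Set TV} {pa qa pc qc : TV}

theorem rpg110_mem_O {e : (ℤ × ℤ) × Bool} : e ∈ rpg110O Y A B c d ↔ e ∈ Y.E ∧ rtd111E e ∈ rrw86Rect A B c d := by
  classical
  unfold rpg110O
  rw [Finset.mem_filter]

theorem rpg110_mem_Ed {X : Finset TV} {e : (ℤ × ℤ) × Bool} : e ∈ rse182Ed Y X ↔ e ∈ Y.E ∧ rtd111E e ∈ X := by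
  classical
  unfold rse182Ed
  rw [Finset.mem_filter]

theorem rpg110_mem_Sv {X : Finset TV} {v : ℤ × ℤ} : v ∈ rse182Sv Y X ↔ v ∈ Y.V ∧ ∃ y ∈ X, Rse182Car Y y v := by
  classical
  unfold rse182Sv
  rw [Finset.mem_filter]

/-- a cell of the band next to a free cell is free or on a layer -/
theorem rpg110_L1 (H : HxrPair c d (2 * A + c) (2 * B + d) a cc pa qa pc qc) {y y' : TV} (hy : y ∈ rpr110Q A B c d a cc) (hy' : y' ∈ plsBand c d)
    (hn : y' ∉ rpr110Q A B c d a cc) (h : tscG.Adj y y') : y' ∈ a ∨ y' ∈ cc := by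
  refine rpr110_free_nb H hy ?_ h
  by_contra hcon
  exact hn ⟨hy', hcon⟩

/-- a vertex carried by a cell of a layer is a plus pin of the record -/
theorem rpg110_L2 (hR : Rpg110Read Y ω₀ Look P₀ A B c d a cc) {v : ℤ × ℤ} (hv : v ∈ Y.V) {z : TV} (hz : z ∈ a ∨ z ∈ cc) (hc : Rse182Car Y z v) :
    v ∈ ω₀.S ∧ v ∈ rse182Sv Y Look := by
  obtain ⟨hzP, hzL⟩ := hR.lay z hz
  refine ⟨?_, rpg110_mem_Sv.2 ⟨hv, z, hzL, hc⟩⟩
  rcases hc with rfl | ⟨e, he, rfl, hev⟩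
  · exact hR.plP v hv hzP
  · obtain ⟨-, g0, g1⟩ := hR.plE e he hzP
    rcases hev with rfl | rfl
    · exact g0.2 rfl
    · exact g1.2 rfl

/-- a vertex of the strip whose point lies in the band off the strip is on a layer -/
theorem rpg110_L4 (H : HxrPair c d (2 * A + c) (2 * B + d) a cc pa qa pc qc) (hC : Rpg110Chart Y A B c d) (hR : Rpg110Read Y ω₀ Look P₀ A B c d a cc)
    (hT : ∀ y, y ∈ T ↔ y ∈ rpr110Q A B c d a cc) {v : ℤ × ℤ} (hv : v ∈ rse182Sv Y T) (hb : rtd111P v ∈ plsBand c d) (hn : rtd111P v ∉ rpr110Q A B c d a cc) :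
    rtd111P v ∈ a ∨ rtd111P v ∈ cc := by
  obtain ⟨-, y, hy, hc⟩ := rpg110_mem_Sv.1 hv
  have hyQ := (hT y).1 hy
  rcases hc with rfl | ⟨e, he, rfl, hev⟩
  · exact absurd hyQ hn
  · have hbox : rtd111E e ∈ rrw86Rect A B c d := by
      obtain ⟨h1, h2, h3, h4⟩ := hR.strip hyQ
      exact ⟨by omega, by omega, h3, h4⟩
    exact rpg110_L1 H hyQ hb hn (rpg110_nb_adj (hC.endS e he hbox v hev))

/-- **the key**: a vertex of the strip which is an endpoint of an edge of the box off the strip is carried by a cell of a layer -/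
theorem rpg110_L3 (H : HxrPair c d (2 * A + c) (2 * B + d) a cc pa qa pc qc) (hC : Rpg110Chart Y A B c d) (hR : Rpg110Read Y ω₀ Look P₀ A B c d a cc)
    (hT : ∀ y, y ∈ T ↔ y ∈ rpr110Q A B c d a cc) {v : ℤ × ℤ} (hv : v ∈ rse182Sv Y T) {w : (ℤ × ℤ) × Bool} (hw : w ∈ Y.E)
    (hwB : rtd111E w ∈ rrw86Rect A B c d) (hwQ : rtd111E w ∉ rpr110Q A B c d a cc) (hwv : Rse182End Y w v) :
    ∃ z, (z ∈ a ∨ z ∈ cc) ∧ Rse182Car Y z v := by
  have nw := hC.endS w hw hwB v hwv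
  by_cases hb : rtd111P v ∈ plsBand c d
  · by_cases hq : rtd111P v ∈ rpr110Q A B c d a cc
    · exact ⟨rtd111E w, rpg110_L1 H hq (rrc86_rect_band hwB) hwQ (rpg110_nb_adj (rpg110_nb_symm nw)), Or.inr ⟨w, hw, rfl, hwv⟩⟩
    · exact ⟨rtd111P v, rpg110_L4 H hC hR hT hv hb hq, Or.inl rfl⟩
  · exfalso
    obtain ⟨-, y, hy, hc⟩ := rpg110_mem_Sv.1 hv
    have hyQ := (hT y).1 hy
    rcases hc with rfl | ⟨e, he, rfl, hev⟩
    · exact hb hyQ.1
    · have hbox : rtd111E e ∈ rrw86Rect A B c d := by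
        obtain ⟨h1, h2, h3, h4⟩ := hR.strip hyQ
        exact ⟨by omega, by omega, h3, h4⟩
      have := rpg110_nb_off hb (rrc86_rect_band hbox) (rrc86_rect_band hwB) (hC.endS e he hbox v hev) nw
      rw [this] at hyQ
      exact hwQ hyQ

/-- **(G) THE GEOMETRY OF THE STRIP** -/
theorem rpg110_geo (hw : Y.WF) (H : HxrPair c d (2 * A + c) (2 * B + d) a cc pa qa pc qc) (hC : Rpg110Chart Y A B c d) (hR : Rpg110Read Y ω₀ Look P₀ A B c d a cc)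
    (hT : ∀ y, y ∈ T ↔ y ∈ rpr110Q A B c d a cc) (K : RswCon) (hKp : K.Gp = ∅) (hKm : K.Gm = ∅) (hKc : K.Cl = ∅) (hKs : ∀ v ∈ K.Sm, v ∉ rse182Sv Y T) :
    Rwl180Geo Y (rse182Obs Y K Look ω₀) (rpg110O Y A B c d) (rse182Ed Y T) (rse182Sv Y T) (rpg110Lp Y (rse182Obs Y K Look ω₀) T)
      (rpg110Lm Y (rse182Obs Y K Look ω₀) (rpg110O Y A B c d) T) := by
  classical
  have hbox : ∀ z ∈ rpr110Q A B c d a cc, z ∈ rrw86Rect A B c d := by
    intro z hz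
    obtain ⟨h1, h2, h3, h4⟩ := hR.strip hz
    exact ⟨by omega, by omega, h3, h4⟩
  have hsolid : ∀ y ∈ Look, y ∉ rpr110Q A B c d a cc := fun y hy hq => hq.2 (hR.look y hy).2
  refine ⟨?_, ?_, ?_, ?_, ?_, ?_, ?_, ?_, rfl, ?_, rfl⟩
  · -- MO
    intro e he
    obtain ⟨h1, h2⟩ := rpg110_mem_Ed.1 he
    exact rpg110_mem_O.2 ⟨h1, hbox _ ((hT _).1 h2)⟩
  · -- OC
    exact fun e he => (rpg110_mem_O.1 he).1
  · -- RV
    exact fun v hv => (rpg110_mem_Sv.1 hv).1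
  · -- MR
    exact rwl180_MR_cells hw T
  · -- fresh
    intro y hy
    obtain ⟨h1, h2⟩ := rpg110_mem_Ed.1 hy
    have hq := (hT _).1 h2
    have key : y ∉ rse182Ed Y Look := fun h => hsolid _ (rpg110_mem_Ed.1 h).2 hq
    refine ⟨?_, ?_, ?_⟩
    · show y ∉ K.Gp ∪ _
      rw [hKp, Finset.empty_union]
      exact fun h => key (Finset.mem_filter.1 h).1
    · show y ∉ K.Gm ∪ _
      rw [hKm, Finset.empty_union]
      exact fun h => key (Finset.mem_filter.1 h).1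
    · show y ∉ K.Cl ∪ _
      rw [hKc, Finset.empty_union]
      exact fun h => key (Finset.mem_filter.1 h).1
  · -- out
    intro y hy
    obtain ⟨h1, h2, -⟩ := rwl180_mem_EoF.1 hy
    show y ∉ K.Cl ∪ _
    rw [hKc, Finset.empty_union]
    intro h
    have h3 := rpg110_mem_Ed.1 (Finset.mem_filter.1 h).1
    exact h2 (rpg110_mem_O.2 ⟨h1, (hR.look _ h3.2).1⟩)
  · -- extV
    intro w hw hwM v hv hvR
    obtain ⟨hwE, hwB⟩ := rpg110_mem_O.1 hw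
    have hwQ : rtd111E w ∉ rpr110Q A B c d a cc := fun h => hwM (rpg110_mem_Ed.2 ⟨hwE, (hT _).2 h⟩)
    obtain ⟨z, hz, hc⟩ := rpg110_L3 H hC hR hT hvR hwE hwB hwQ (rwl180_end_iff.1 hv)
    obtain ⟨g1, g2⟩ := rpg110_L2 hR (rpg110_mem_Sv.1 hvR).1 hz hc
    exact Finset.mem_union_right _ (Finset.mem_filter.2 ⟨g2, g1⟩)
  · -- extF
    rintro w hw hwM ⟨f, hfw, hfM⟩
    obtain ⟨hwE, hwB⟩ := rpg110_mem_O.1 hw
    have hwQ : rtd111E w ∉ rpr110Q A B c d a cc := fun h => hwM (rpg110_mem_Ed.2 ⟨hwE, (hT _).2 h⟩)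
    obtain ⟨mm, hmM, hfm⟩ := rwl180_mem_Sd.1 hfM
    obtain ⟨hmE, hmT⟩ := rpg110_mem_Ed.1 hmM
    have hmQ := (hT _).1 hmT
    have hmS := hR.strip hmQ
    have hcol : (rtd111E mm).1 ≤ B - 1 := hmS.2.1
    have nm : Rrw86Nb (rtd111E mm) (rtd111F f) := by
      rcases hC.facS mm hmE (hbox _ hmQ) f (rwl180_fac_iff.1 hfm) with h | h
      · exact h
      · exfalso
        have : A + 1 ≤ (rtd111E mm).1 := hmS.1
        omega
    by_cases hb : rtd111F f ∈ plsBand c d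
    · have hfQ : rtd111F f ∈ rpr110Q A B c d a cc := by
        by_contra hq
        exact hR.plF f (hR.lay _ (rpg110_L1 H hmQ hb hq (rpg110_nb_adj nm))).1
      rcases hC.facS w hwE hwB f (rwl180_fac_iff.1 hfw) with h | h
      · obtain ⟨g1, g2⟩ := hR.lay _ (rpg110_L1 H hfQ (rrc86_rect_band hwB) hwQ (rpg110_nb_adj (rpg110_nb_symm h)))
        exact Finset.mem_union_right _ (Finset.mem_filter.2 ⟨rpg110_mem_Ed.2 ⟨hwE, g2⟩, hR.plE w hwE g1⟩)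
      · exfalso
        have : (rtd111F f).1 ≤ B - 1 := (hR.strip hfQ).2.1
        omega
    · exfalso
      rcases hC.facS w hwE hwB f (rwl180_fac_iff.1 hfw) with h | h
      · have := rpg110_nb_off hb (rrc86_rect_band (hbox _ hmQ)) (rrc86_rect_band hwB) nm h
        rw [this] at hmQ
        exact hwQ hmQ
      · unfold Rrw86Nb at nm
        omega
  · -- sm
    intro v hv hvR
    rcases Finset.mem_union.1 hv with h | h
    · exact hKs v h hvR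
    · obtain ⟨h1, h2⟩ := Finset.mem_filter.1 h
      obtain ⟨hvV, y', hy', hc'⟩ := rpg110_mem_Sv.1 h1
      rcases hc' with rfl | ⟨e', he', rfl, hev'⟩
      · exact h2 (rpg110_L2 hR hvV (rpg110_L4 H hC hR hT hvR (rrc86_rect_band (hR.look _ hy').1) (hsolid _ hy')) (Or.inl rfl)).1
      · obtain ⟨z, hz, hc⟩ := rpg110_L3 H hC hR hT hvR he' (hR.look _ hy').1 (hsolid _ hy') hev'
        exact h2 (rpg110_L2 hR hvV hz hc).1

end geo

/-! ## §2 the mixed cylinder, a box off the seam -/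

theorem rpg110_red_id {L : ℕ} {z : TV} (h0 : 0 ≤ z.1) (h1 : z.1 < 2 * (L : ℤ)) : sdRed (2 * L) z = z := by
  unfold sdRed
  ext
  · show z.1 % ((2 * L : ℕ) : ℤ) = z.1
    push_cast
    exact Int.emod_eq_of_lt h0 h1
  · rfl

/-- **the chart of the cylinder** on a box `0 ≤ A`, `B + 1 < 2 L` -/
theorem rpg110_chart_cyl {L H : ℕ} {A B c d : ℤ} (hA : 0 ≤ A) (hB : B + 1 < 2 * (L : ℤ)) : Rpg110Chart (rcy162Cyl L 0 H) A B c d where
  endS := by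
    rintro ⟨⟨x, y⟩, b⟩ - ⟨h1, h2, -, -⟩ v hv
    cases b
    · have g1 : A ≤ 2 * x + 1 := h1
      have g2 : 2 * x + 1 ≤ B := h2
      rcases hv with rfl | rfl
      · show Rrw86Nb (2 * x + 1, 2 * y) (2 * x, 2 * y)
        unfold Rrw86Nb
        dsimp only
        omega
      · show Rrw86Nb (2 * x + 1, 2 * y) (2 * ((x + 1) % (L : ℤ)), 2 * y)
        rw [Int.emod_eq_of_lt (by omega) (by omega)]
        unfold Rrw86Nb
        dsimp only
        omega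
    · have g1 : A ≤ 2 * x := h1
      have g2 : 2 * x ≤ B := h2
      rcases hv with rfl | rfl
      · show Rrw86Nb (2 * x, 2 * y + 1) (2 * x, 2 * y)
        unfold Rrw86Nb
        dsimp only
        omega
      · show Rrw86Nb (2 * x, 2 * y + 1) (2 * (x % (L : ℤ)), 2 * (y + 1))
        rw [Int.emod_eq_of_lt (by omega) (by omega)]
        unfold Rrw86Nb
        dsimp only
        omega
  facS := by
    rintro ⟨⟨x, y⟩, b⟩ - ⟨h1, h2, -, -⟩ f hf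
    cases b
    · have g1 : A ≤ 2 * x + 1 := h1
      have g2 : 2 * x + 1 ≤ B := h2
      left
      rcases hf with rfl | rfl
      · show Rrw86Nb (2 * x + 1, 2 * y) (2 * x + 1, 2 * y + 1)
        unfold Rrw86Nb
        dsimp only
        omega
      · show Rrw86Nb (2 * x + 1, 2 * y) (2 * (x % (L : ℤ)) + 1, 2 * (y - 1) + 1)
        rw [Int.emod_eq_of_lt (by omega) (by omega)]
        unfold Rrw86Nb
        dsimp only
        omega
    · have g1 : A ≤ 2 * x := h1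
      have g2 : 2 * x ≤ B := h2
      rcases hf with rfl | rfl
      · left
        show Rrw86Nb (2 * x, 2 * y + 1) (2 * x + 1, 2 * y + 1)
        unfold Rrw86Nb
        dsimp only
        omega
      · rcases (show x = 0 ∨ 1 ≤ x by omega) with rfl | hx
        · right
          show (2 * (0 : ℤ) ≤ A) ∧ B < 2 * ((0 - 1) % (L : ℤ)) + 1
          have e1 : ((0 : ℤ) - 1) % (L : ℤ) = (L : ℤ) - 1 := by
            have : ((0 : ℤ) - 1) = ((L : ℤ) - 1) + (L : ℤ) * (-1) := by ring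
            rw [this, Int.add_mul_emod_self_left, Int.emod_eq_of_lt (by omega) (by omega)]
          rw [e1]
          omega
        · left
          show Rrw86Nb (2 * x, 2 * y + 1) (2 * ((x - 1) % (L : ℤ)) + 1, 2 * y + 1)
          rw [Int.emod_eq_of_lt (by omega) (by omega)]
          unfold Rrw86Nb
          dsimp only
          omega

open Classical in
/-- the cells of the strip -/
noncomputable def rpg110T (A B c d : ℤ) (a cc : Set TV) : Finset TV := (tsc_box_finite A B c d).toFinset.filter (fun y => y ∈ rpr110Q A B c d a cc)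

theorem rpg110_T_eqns_cite : True := by
  have := @rpg110T.eq_1
  trivial

theorem rpg110_mem_T {A B c d : ℤ} {a cc : Set TV} (h : rpr110Q A B c d a cc ⊆ rrw86Rect (A + 1) (B - 1) c d) (y : TV) :
    y ∈ rpg110T A B c d a cc ↔ y ∈ rpr110Q A B c d a cc := by
  classical
  unfold rpg110T
  rw [Finset.mem_filter, Set.Finite.mem_toFinset]
  refine ⟨fun g => g.2, fun g => ⟨?_, g⟩⟩
  obtain ⟨h1, h2, h3, h4⟩ := h g
  exact ⟨by have : A + 1 ≤ y.1 := h1; omega, by have : y.1 ≤ B - 1 := h2; omega, h3, h4⟩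

section cyl

variable (t : ℝ) {L H : ℕ} {c d w σ m e : ℤ}

/-- **what is read on the reference configuration**, on the mixed cylinder -/
theorem rpg110_read_cyl (hL : 0 < L) (hA : 0 ≤ m - e) (hB : m + σ + e + 1 < 2 * (L : ℤ)) (hcd : c < d) (hw : 0 ≤ w) (hσ : 2 * w < σ) (he : w ≤ e) (ω₀ : RswCfg)
    (hG : Rrc86G0 (m - e) (m + σ + e) c d w m (m + σ) (rrc86I (rrc86L t L H) (sdRed (2 * L)) c d w σ m e ω₀) (rrc86J (rrc86L t L H) (sdRed (2 * L)) c d w σ m e ω₀)) :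
    Rpg110Read (rcy162Cyl L 0 H) ω₀ (rrc86Q2 (rrc86L t L H) (sdRed (2 * L)) c d w σ m e ω₀) (rrc86Y (rrc86L t L H) (sdRed (2 * L)) ω₀) (m - e) (m + σ + e) c d
      (rrc86A (rrc86L t L H) (sdRed (2 * L)) c d w σ m e ω₀) (rrc86C (rrc86L t L H) (sdRed (2 * L)) c d w σ m e ω₀) where
  look := by
    intro y hy
    obtain ⟨z, hzR, rfl, hz⟩ := rpr110_look_rec (rrc86L t L H) (sdRed (2 * L)) hcd hw hσ he ω₀ hG hy
    have e1 : sdRed (2 * L) z = z := rpg110_red_id (le_trans hA hzR.1) (by have : z.1 ≤ m + σ + e := hzR.2.1; omega)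
    rw [e1]
    exact ⟨hzR, hz⟩
  lay := by
    classical
    intro z hz
    obtain ⟨h1, h2⟩ := rpr110_layer (A := m - e) (B := m + σ + e) (c := c) (d := d) (w := w) (m := m) (m' := m + σ) (P := rrc86Y (rrc86L t L H) (sdRed (2 * L)) ω₀) z hz
    have hzR := h2.1
    have e1 : sdRed (2 * L) z = z := rpg110_red_id (le_trans hA hzR.1) (by have : z.1 ≤ m + σ + e := hzR.2.1; omega)
    refine ⟨h1, Finset.mem_filter.2 ⟨?_, z, h2, e1⟩⟩
    have := h1.1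
    rwa [e1] at this
  strip := fun y hy => rpr110_Q_rect (m := m) (m' := m + σ) (w := w) hcd hw (by omega) (by omega) (by omega) hG hy
  plE := by
    intro e' he' h
    obtain ⟨⟨a1, a2⟩, -⟩ := rcy162_mem_cylE.1 he'
    have e1 : sdRed (2 * L) (rtd111E e') = rtd111E e' := by
      obtain ⟨⟨x, y⟩, b⟩ := e'
      have b1 : 0 ≤ x := a1
      have b2 : x < L := a2
      cases b
      · exact rpg110_red_id (show 0 ≤ 2 * x + 1 by omega) (show 2 * x + 1 < 2 * (L : ℤ) by omega)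
      · exact rpg110_red_id (show 0 ≤ 2 * x by omega) (show 2 * x < 2 * (L : ℤ) by omega)
    have h2 := h.2
    rw [e1, (rrc86_L_link t L H).npE ω₀ e' he'] at h2
    exact not_not.1 h2
  plP := by
    intro v hv h
    obtain ⟨⟨a1, a2⟩, -⟩ := rcy162_mem_cylV.1 hv
    have e1 : sdRed (2 * L) (rtd111P v) = rtd111P v := rpg110_red_id (show 0 ≤ 2 * v.1 by omega) (show 2 * v.1 < 2 * (L : ℤ) by omega)
    have h2 := h.2
    rw [e1, (rrc86_L_link t L H).npP ω₀ v hv] at h2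
    exact not_not.1 h2
  plF := by
    intro f h
    rw [rrc86_L_Y t hL H ω₀] at h
    refine (rrc86_ref hL 0 H ω₀).1 _ h ⟨?_, ?_⟩
    · show (2 * f.1 + 1) % 2 = 1
      omega
    · show (2 * f.2 + 1) % 2 = 1
      omega

/-- the cells of the strip of the record of `ω₀` -/
noncomputable def rpg110Tc (t : ℝ) (L H : ℕ) (c d w σ m e : ℤ) (ω₀ : RswCfg) : Finset TV :=
  rpg110T (m - e) (m + σ + e) c d (rrc86A (rrc86L t L H) (sdRed (2 * L)) c d w σ m e ω₀) (rrc86C (rrc86L t L H) (sdRed (2 * L)) c d w σ m e ω₀)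

/-- the record of `ω₀` as a history -/
noncomputable def rpg110Rc (t : ℝ) (L H : ℕ) (c d w σ m e : ℤ) (ω₀ : RswCfg) : RswCon :=
  rse182Obs (rcy162Cyl L 0 H) (rwl180KM L H) (rrc86Q2 (rrc86L t L H) (sdRed (2 * L)) c d w σ m e ω₀) ω₀

theorem rpg110_c_eqns_cite : True := by
  have := @rpg110Tc.eq_1
  have := @rpg110Rc.eq_1
  trivial

/-- **(G) ON THE MIXED CYLINDER**: `Rwl180Geo` of 180 for the strip between the two layers of a non-touching record, box off the seam, band off the two boundary rows -/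
theorem rpg110_geo_cyl (hL : 0 < L) (hA : 0 ≤ m - e) (hB : m + σ + e + 1 < 2 * (L : ℤ)) (hc : 2 ≤ c) (hcd : c < d) (hw : 0 ≤ w) (hσ : 2 * w < σ) (he : w ≤ e) (ω₀ : RswCfg)
    (hG : Rrc86G0 (m - e) (m + σ + e) c d w m (m + σ) (rrc86I (rrc86L t L H) (sdRed (2 * L)) c d w σ m e ω₀) (rrc86J (rrc86L t L H) (sdRed (2 * L)) c d w σ m e ω₀))
    (h1 : ¬ Rrc86Touch (rrc86A (rrc86L t L H) (sdRed (2 * L)) c d w σ m e ω₀) (rrc86C (rrc86L t L H) (sdRed (2 * L)) c d w σ m e ω₀)) :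
    Rwl180Geo (rcy162Cyl L 0 H) (rpg110Rc t L H c d w σ m e ω₀) (rpg110O (rcy162Cyl L 0 H) (m - e) (m + σ + e) c d)
      (rse182Ed (rcy162Cyl L 0 H) (rpg110Tc t L H c d w σ m e ω₀)) (rse182Sv (rcy162Cyl L 0 H) (rpg110Tc t L H c d w σ m e ω₀))
      (rpg110Lp (rcy162Cyl L 0 H) (rpg110Rc t L H c d w σ m e ω₀) (rpg110Tc t L H c d w σ m e ω₀))
      (rpg110Lm (rcy162Cyl L 0 H) (rpg110Rc t L H c d w σ m e ω₀) (rpg110O (rcy162Cyl L 0 H) (m - e) (m + σ + e) c d) (rpg110Tc t L H c d w σ m e ω₀)) := by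
  obtain ⟨pa, qa, pc, qc, HP, -⟩ := rpr110_pair_rec (rrc86L t L H) (sdRed (2 * L)) hcd hw hσ he ω₀ hG h1
  have hR := rpg110_read_cyl t hL hA hB hcd hw hσ he ω₀ hG
  have hC : Rpg110Chart (rcy162Cyl L 0 H) (m - e) (m + σ + e) c d := rpg110_chart_cyl hA hB
  have hT := rpg110_mem_T hR.strip
  refine rpg110_geo (rcy162_cyl_wf hL 0 H) HP hC hR hT (rwl180KM L H) rfl rfl rfl ?_
  intro v hv hvR
  have hv2 : v.2 = 0 := (rcy162_mem_row.1 hv).2
  obtain ⟨-, y, hy, hcar⟩ := rpg110_mem_Sv.1 hvR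
  have hyQ := (hT y).1 hy
  rcases hcar with rfl | ⟨e', he', rfl, hev⟩
  · have : c ≤ 2 * v.2 := hyQ.1.1
    omega
  · have hbox : rtd111E e' ∈ rrw86Rect (m - e) (m + σ + e) c d := by
      obtain ⟨g1, g2, g3, g4⟩ := hR.strip hyQ
      exact ⟨by omega, by omega, g3, g4⟩
    have nb := hC.endS e' he' hbox v hev
    have r1 : c ≤ (rtd111E e').2 := hyQ.1.1
    have r2 : (rtd111P v).2 = 2 * v.2 := rfl
    unfold Rrw86Nb at nb
    omega

/-- **the body of `Rrc86LK` at one non-touching record on the mixed cylinder, (G) DISCHARGED** (`rwl180_LK_cyl` of 180 with the strip `rpr110Q`).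
LEFT: (O) the order `Rse182Ord` (182 / 292 / 12), the bound of the ports, (L) the estimate in the closed strip law. -/
theorem rpg110_LK_cyl (h0 : 0 < t) (h1 : t < 1) (hL : 0 < L) (hA : 0 ≤ m - e) (hB : m + σ + e + 1 < 2 * (L : ℤ)) (hc : 2 ≤ c) (hd : d ≤ 2 * (H : ℤ) - 1) (hcd : c < d)
    (hw : 0 ≤ w) (hσ : 2 * w < σ) (he : w ≤ e) (hO : Rse182Ord (rcy162Cyl L 0 H) (rrc86L t L H) (rwl180KM L H)) (ω₀ : RswCfg)
    (hG : Rrc86G0 (m - e) (m + σ + e) c d w m (m + σ) (rrc86I (rrc86L t L H) (sdRed (2 * L)) c d w σ m e ω₀) (rrc86J (rrc86L t L H) (sdRed (2 * L)) c d w σ m e ω₀))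
    (hT1 : ¬ Rrc86Touch (rrc86A (rrc86L t L H) (sdRed (2 * L)) c d w σ m e ω₀) (rrc86C (rrc86L t L H) (sdRed (2 * L)) c d w σ m e ω₀))
    (hP : (rwl180P (rcy162Cyl L 0 H) (rpg110Rc t L H c d w σ m e ω₀) (rpg110O (rcy162Cyl L 0 H) (m - e) (m + σ + e) c d)
      (rse182Ed (rcy162Cyl L 0 H) (rpg110Tc t L H c d w σ m e ω₀))).card ≤ 4)
    {𝓛Q : Rln182Law RswCfg TV}
    (hlQ : Rse182Link (rwl180SQ (rcy162Cyl L 0 H) (rse182Ed (rcy162Cyl L 0 H) (rpg110Tc t L H c d w σ m e ω₀)) (rse182Sv (rcy162Cyl L 0 H) (rpg110Tc t L H c d w σ m e ω₀))) t 𝓛Q)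
    (hSQ : 𝓛Q.Ok) {c₀ : ℝ}
    (hest : c₀ * 𝓛Q.Z (rse182Holds (rwl180SQ (rcy162Cyl L 0 H) (rse182Ed (rcy162Cyl L 0 H) (rpg110Tc t L H c d w σ m e ω₀)) (rse182Sv (rcy162Cyl L 0 H) (rpg110Tc t L H c d w σ m e ω₀)))
        (rwl180H0 (rpg110Lp (rcy162Cyl L 0 H) (rpg110Rc t L H c d w σ m e ω₀) (rpg110Tc t L H c d w σ m e ω₀))
          (rpg110Lm (rcy162Cyl L 0 H) (rpg110Rc t L H c d w σ m e ω₀) (rpg110O (rcy162Cyl L 0 H) (m - e) (m + σ + e) c d) (rpg110Tc t L H c d w σ m e ω₀))))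
      ≤ 𝓛Q.N (rse182Holds (rwl180SQ (rcy162Cyl L 0 H) (rse182Ed (rcy162Cyl L 0 H) (rpg110Tc t L H c d w σ m e ω₀)) (rse182Sv (rcy162Cyl L 0 H) (rpg110Tc t L H c d w σ m e ω₀)))
        (rwl180H0 (rpg110Lp (rcy162Cyl L 0 H) (rpg110Rc t L H c d w σ m e ω₀) (rpg110Tc t L H c d w σ m e ω₀))
          (rpg110Lm (rcy162Cyl L 0 H) (rpg110Rc t L H c d w σ m e ω₀) (rpg110O (rcy162Cyl L 0 H) (m - e) (m + σ + e) c d) (rpg110Tc t L H c d w σ m e ω₀))))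
        (rln182Ind (Rrc86Join (rrc86L t L H) (sdRed (2 * L))
          (rpr110Q (m - e) (m + σ + e) c d (rrc86A (rrc86L t L H) (sdRed (2 * L)) c d w σ m e ω₀) (rrc86C (rrc86L t L H) (sdRed (2 * L)) c d w σ m e ω₀))
          (rrc86A (rrc86L t L H) (sdRed (2 * L)) c d w σ m e ω₀) (rrc86C (rrc86L t L H) (sdRed (2 * L)) c d w σ m e ω₀)))) :
    c₀ / 8 * (rrc86L t L H).Z (rrc86Rec (rrc86L t L H) (Rcy162Mix L 0 H) (rrc86Q2 (rrc86L t L H) (sdRed (2 * L)) c d w σ m e) ω₀)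
      ≤ (rrc86L t L H).N (rrc86Rec (rrc86L t L H) (Rcy162Mix L 0 H) (rrc86Q2 (rrc86L t L H) (sdRed (2 * L)) c d w σ m e) ω₀)
        (rln182Ind (Rrc86Link (rrc86L t L H) (sdRed (2 * L)) c d w σ m e ω₀)) := by
  have hR := rpg110_read_cyl t hL hA hB hcd hw hσ he ω₀ hG
  have hT := rpg110_mem_T hR.strip
  have hin : ∀ z ∈ rpr110Q (m - e) (m + σ + e) c d (rrc86A (rrc86L t L H) (sdRed (2 * L)) c d w σ m e ω₀) (rrc86C (rrc86L t L H) (sdRed (2 * L)) c d w σ m e ω₀),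
      (0 ≤ z.1 ∧ z.1 < 2 * (L : ℤ)) ∧ c ≤ z.2 ∧ z.2 ≤ d := by
    intro z hz
    obtain ⟨g1, g2, g3, g4⟩ := hR.strip hz
    have g1' : m - e + 1 ≤ z.1 := g1
    have g2' : z.1 ≤ m + σ + e - 1 := g2
    exact ⟨⟨by omega, by omega⟩, g3, g4⟩
  refine rwl180_LK_cyl h0 h1 hL (by omega) hd w σ m e hO ω₀ _ (fun z hz => hz.1) (rpg110Tc t L H c d w σ m e ω₀) ?_ ?_ _ _ _
    (rpg110_geo_cyl t hL hA hB hc hcd hw hσ he ω₀ hG hT1) hP hlQ hSQ hest
  · intro y hy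
    obtain ⟨⟨a1, a2⟩, a3, a4⟩ := hin y ((hT y).1 hy)
    exact rwl180_pt_cyl (rrc86_mem_cells.2 ⟨⟨a1, a2⟩, by omega, by omega⟩) (by omega) (by omega)
  · intro z hz _
    obtain ⟨⟨a1, a2⟩, -⟩ := hin z hz
    rw [rpg110_red_id a1 a2]
    exact (hT z).2 hz

end cyl

/-! ## §3 the ports: at most one per end of the strip and per layer -/

/-- what the exploration gives on a layer `lay` with its cluster `I` -/
structure Rpg110Expl (P₀ : Set TV) (A B c d : ℤ) (Q lay I : Set TV) : Prop where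
  touch : ∀ z ∈ lay, A < z.1 → z.1 < B → c < z.2 → z.2 < d → ∃ i ∈ I, tscG.Adj i z
  off : ∀ i ∈ I, i ∈ rrw86Rect A B c d ∧ i ∉ P₀
  solid : ∀ i ∈ I, i ∉ Q
  closed : ∀ i ∈ I, ∀ z ∈ rrw86Rect A B c d, z ∉ P₀ → tscG.Adj i z → z ∈ I

theorem rpg110_adj {z z' : TV} (h : (z'.1 = z.1 + 1 ∧ z'.2 = z.2) ∨ (z'.1 = z.1 ∧ z'.2 = z.2 + 1) ∨ (z'.1 = z.1 - 1 ∧ z'.2 = z.2 + 1) ∨
    (z'.1 = z.1 - 1 ∧ z'.2 = z.2) ∨ (z'.1 = z.1 ∧ z'.2 = z.2 - 1) ∨ (z'.1 = z.1 + 1 ∧ z'.2 = z.2 - 1)) : tscG.Adj z z' :=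
  (tsc_G_adj z z').2 ((tsc_adj_iff z z').2 h)

/-- the six neighbours, by a sign -/
theorem rpg110_adjS {z z' : TV} {s : ℤ} (hs : s = 1 ∨ s = -1)
    (h : (z'.1 = z.1 + s ∧ z'.2 = z.2) ∨ (z'.1 = z.1 ∧ z'.2 = z.2 + s) ∨ (z'.1 = z.1 - s ∧ z'.2 = z.2 + s)) : tscG.Adj z z' := by
  refine rpg110_adj ?_
  rcases hs with rfl | rfl
  · rcases h with ⟨h1, h2⟩ | ⟨h1, h2⟩ | ⟨h1, h2⟩
    · exact Or.inl ⟨h1, h2⟩
    · exact Or.inr (Or.inl ⟨h1, h2⟩)
    · exact Or.inr (Or.inr (Or.inl ⟨h1, h2⟩))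
  · rcases h with ⟨h1, h2⟩ | ⟨h1, h2⟩ | ⟨h1, h2⟩
    · exact Or.inr (Or.inr (Or.inr (Or.inl ⟨by omega, h2⟩)))
    · exact Or.inr (Or.inr (Or.inr (Or.inr (Or.inl ⟨h1, by omega⟩))))
    · exact Or.inr (Or.inr (Or.inr (Or.inr (Or.inr ⟨by omega, by omega⟩))))

theorem rpg110_ar0 {u r s i1 i2 : ℤ} (hs : s = 1 ∨ s = -1)
    (h : (u = i1 + 1 ∧ r + s = i2) ∨ (u = i1 ∧ r + s = i2 + 1) ∨ (u = i1 - 1 ∧ r + s = i2 + 1) ∨ (u = i1 - 1 ∧ r + s = i2) ∨ (u = i1 ∧ r + s = i2 - 1) ∨ (u = i1 + 1 ∧ r + s = i2 - 1)) :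
    (i1 = u - s ∧ i2 = r + s) ∨ (i1 = u + s ∧ i2 = r + s) ∨ (i1 = u ∧ i2 = r + 2 * s) ∨ (i1 = u ∧ i2 = r) ∨ (i1 = u + s ∧ i2 = r) ∨ (i1 = u - s ∧ i2 = r + 2 * s) := by
  rcases hs with rfl | rfl
  · rcases h with ⟨h1, h2⟩ | ⟨h1, h2⟩ | ⟨h1, h2⟩ | ⟨h1, h2⟩ | ⟨h1, h2⟩ | ⟨h1, h2⟩
    · exact Or.inl ⟨by omega, by omega⟩
    · exact Or.inr (Or.inr (Or.inr (Or.inl ⟨by omega, by omega⟩)))
    · exact Or.inr (Or.inr (Or.inr (Or.inr (Or.inl ⟨by omega, by omega⟩))))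
    · exact Or.inr (Or.inl ⟨by omega, by omega⟩)
    · exact Or.inr (Or.inr (Or.inl ⟨by omega, by omega⟩))
    · exact Or.inr (Or.inr (Or.inr (Or.inr (Or.inr ⟨by omega, by omega⟩))))
  · rcases h with ⟨h1, h2⟩ | ⟨h1, h2⟩ | ⟨h1, h2⟩ | ⟨h1, h2⟩ | ⟨h1, h2⟩ | ⟨h1, h2⟩
    · exact Or.inr (Or.inl ⟨by omega, by omega⟩)
    · exact Or.inr (Or.inr (Or.inl ⟨by omega, by omega⟩))
    · exact Or.inr (Or.inr (Or.inr (Or.inr (Or.inr ⟨by omega, by omega⟩))))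
    · exact Or.inl ⟨by omega, by omega⟩
    · exact Or.inr (Or.inr (Or.inr (Or.inl ⟨by omega, by omega⟩)))
    · exact Or.inr (Or.inr (Or.inr (Or.inr (Or.inl ⟨by omega, by omega⟩))))

/-- the outer edge point next to a face point of the extreme row / beyond it -/
theorem rpg110_ar1 {A B c d r s x yF e1 e2 : ℤ} (hs : (r = c ∧ s = 1) ∨ (r = d ∧ s = -1)) (hcd : c + 2 ≤ d) (c1 : A + 1 ≤ x) (c2 : x ≤ B - 1)
    (hrow : yF = r ∨ yF = r - s) (hwB : ¬ (A ≤ e1 ∧ e1 ≤ B ∧ c ≤ e2 ∧ e2 ≤ d))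
    (nw : (x = e1 ∧ (yF = e2 + 1 ∨ yF = e2 - 1)) ∨ (yF = e2 ∧ (x = e1 + 1 ∨ x = e1 - 1))) :
    (yF = r ∧ e1 = x ∧ e2 = r - s) ∨ (yF = r - s ∧ ((e1 = x ∧ e2 = r - 2 * s) ∨ (e2 = r - s ∧ (e1 = x + 1 ∨ e1 = x - 1)))) := by
  rcases hs with ⟨rfl, rfl⟩ | ⟨rfl, rfl⟩ <;> rcases hrow with rfl | rfl <;> rcases nw with ⟨h1, h2 | h2⟩ | ⟨h1, h2 | h2⟩ <;> omega

/-- the vertex point next to it -/
theorem rpg110_ar2 {r s x yF e1 e2 P1 P2 f1 f2 v1 v2 : ℤ} (hs : s = 1 ∨ s = -1) (hx : x = 2 * f1 + 1) (hy : yF = 2 * f2 + 1) (hp1 : P1 = 2 * v1) (hp2 : P2 = 2 * v2)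
    (he : (yF = r ∧ e1 = x ∧ e2 = r - s) ∨ (yF = r - s ∧ ((e1 = x ∧ e2 = r - 2 * s) ∨ (e2 = r - s ∧ (e1 = x + 1 ∨ e1 = x - 1)))))
    (nv : (P1 = e1 ∧ (P2 = e2 + 1 ∨ P2 = e2 - 1)) ∨ (P2 = e2 ∧ (P1 = e1 + 1 ∨ P1 = e1 - 1))) :
    (P1 = x + 1 ∨ P1 = x - 1) ∧ ((yF = r ∧ P2 = r - s) ∨ (yF = r - s ∧ (P2 = r ∨ P2 = r - 2 * s))) := by
  rcases hs with rfl | rfl <;> rcases he with ⟨g1, g2, g3⟩ | ⟨g1, ⟨g2, g3⟩ | ⟨g2, g3 | g3⟩⟩ <;> rcases nv with ⟨h1, h2 | h2⟩ | ⟨h1, h2 | h2⟩ <;> omega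

/-- the cell of the box which carries it -/
theorem rpg110_ar3 {c d r s y1 y2 P1 P2 : ℤ} (hs : (r = c ∧ s = 1) ∨ (r = d ∧ s = -1)) (hcd : c + 2 ≤ d) (q3 : c ≤ y2) (q4 : y2 ≤ d)
    (hP : P2 = r - s ∨ P2 = r ∨ P2 = r - 2 * s)
    (hy : (y1 = P1 ∧ y2 = P2) ∨ (P1 = y1 ∧ (P2 = y2 + 1 ∨ P2 = y2 - 1)) ∨ (P2 = y2 ∧ (P1 = y1 + 1 ∨ P1 = y1 - 1))) :
    (P2 = r - s ∧ y1 = P1 ∧ y2 = r) ∨ (P2 = r ∧ ((y1 = P1 ∧ y2 = r) ∨ (y2 = r ∧ (y1 = P1 + 1 ∨ y1 = P1 - 1)) ∨ (y1 = P1 ∧ y2 = r + s))) := by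
  rcases hs with ⟨rfl, rfl⟩ | ⟨rfl, rfl⟩ <;> rcases hP with g | g | g <;> rcases hy with ⟨h1, h2⟩ | ⟨h1, h2 | h2⟩ | ⟨h1, h2 | h2⟩ <;> omega

section ports

variable {Y : Rcy162Sys} {ω₀ : RswCfg} {Look T : Finset TV} {P₀ : Set TV} {A B c d : ℤ} {a cc : Set TV} {pa qa pc qc : TV}

/-- a cell of a cluster is not next to a free cell -/
theorem rpg110_I_free (H : HxrPair c d (2 * A + c) (2 * B + d) a cc pa qa pc qc) (hR : Rpg110Read Y ω₀ Look P₀ A B c d a cc) {lay I : Set TV}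
    (hX : Rpg110Expl P₀ A B c d (rpr110Q A B c d a cc) lay I) {i y : TV} (hi : i ∈ I) (hy : y ∈ rpr110Q A B c d a cc) (h : tscG.Adj y i) : False :=
  (hX.off i hi).2 (hR.lay i (rpg110_L1 H hy (rrc86_rect_band (hX.off i hi).1) (hX.solid i hi) h)).1

/-- **no hair**: a vertical edge cell of a layer over a free vertex point of an extreme row: the next cell of the row is on a layer -/
theorem rpg110_hair (H : HxrPair c d (2 * A + c) (2 * B + d) a cc pa qa pc qc) (hR : Rpg110Read Y ω₀ Look P₀ A B c d a cc) (hRef : Rrw86Ref P₀) {lay I : Set TV}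
    (hX : Rpg110Expl P₀ A B c d (rpr110Q A B c d a cc) lay I) (hlay : ∀ z ∈ lay, z ∈ a ∨ z ∈ cc) {u r s : ℤ} (hs : (r = c ∧ s = 1) ∨ (r = d ∧ s = -1)) (hcd : c + 2 ≤ d)
    (hu : u % 2 = 0) (hr : r % 2 = 0) (hfree : ((u, r) : TV) ∈ rpr110Q A B c d a cc) (hy : ((u, r + s) : TV) ∈ lay) :
    ((u + s, r) : TV) ∈ a ∨ ((u + s, r) : TV) ∈ cc := by
  have c1 : A + 1 ≤ u := (hR.strip hfree).1
  have c2 : u ≤ B - 1 := (hR.strip hfree).2.1
  have hs' : s = 1 ∨ s = -1 := by omega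
  have b1 : c < r + s ∧ r + s < d ∧ c ≤ r ∧ r ≤ d := by omega
  obtain ⟨i, hi, hadj⟩ := hX.touch _ hy (show A < u by omega) (show u < B by omega) b1.1 b1.2.1
  rw [tsc_G_adj, tsc_adj_iff] at hadj
  rcases rpg110_ar0 hs' hadj with ⟨e1, e2⟩ | ⟨e1, e2⟩ | ⟨e1, e2⟩ | ⟨e1, e2⟩ | ⟨e1, e2⟩ | ⟨e1, e2⟩
  · exact (rpg110_I_free H hR hX hi hfree (rpg110_adjS hs' (Or.inr (Or.inr ⟨e1, e2⟩)))).elim
  · by_cases hg : ((u + s, r) : TV) ∈ rpr110Q A B c d a cc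
    · exact (rpg110_I_free H hR hX hi hg (rpg110_adjS hs' (Or.inr (Or.inl ⟨e1, e2⟩)))).elim
    · exact rpg110_L1 H hfree ⟨b1.2.2.1, b1.2.2.2⟩ hg (rpg110_adjS hs' (Or.inl ⟨rfl, rfl⟩))
  · refine ((hX.off i hi).2 (hRef.2 _ (hR.lay _ (hlay _ hy)).1 i (by omega) (by omega) (Or.inl ⟨e1, ?_⟩))).elim
    show i.2 = r + s + 1 ∨ i.2 = r + s - 1
    omega
  · have : i = (u, r) := Prod.ext e1 e2
    rw [this] at hi
    exact (hX.solid _ hi hfree).elim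
  · exact (rpg110_I_free H hR hX hi hfree (rpg110_adjS hs' (Or.inl ⟨e1, e2⟩))).elim
  · have hgR : ((u - s, r + s) : TV) ∈ rrw86Rect A B c d := ⟨show A ≤ u - s by omega, show u - s ≤ B by omega, b1.1.le, b1.2.1.le⟩
    have hgP : ((u - s, r + s) : TV) ∉ P₀ := fun h => hRef.1 _ h ⟨show (u - s) % 2 = 1 by omega, show (r + s) % 2 = 1 by omega⟩
    have hgi : tscG.Adj ((u - s, r + s) : TV) i := rpg110_adjS hs' (Or.inr (Or.inl ⟨e1, show i.2 = r + s + s by omega⟩))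
    have hgI := hX.closed i hi _ hgR hgP hgi.symm
    exact (rpg110_I_free H hR hX hgI hfree (rpg110_adjS hs' (Or.inr (Or.inr ⟨rfl, rfl⟩)))).elim

/-- **a port at one end**: a cell of a layer in the extreme row within two columns -/
theorem rpg110_port_end (H : HxrPair c d (2 * A + c) (2 * B + d) a cc pa qa pc qc) (hC : Rpg110Chart Y A B c d) (hR : Rpg110Read Y ω₀ Look P₀ A B c d a cc) (hRef : Rrw86Ref P₀)
    {I J : Set TV} (hXa : Rpg110Expl P₀ A B c d (rpr110Q A B c d a cc) a I) (hXc : Rpg110Expl P₀ A B c d (rpr110Q A B c d a cc) cc J)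
    {r s : ℤ} (hs : (r = c ∧ s = 1) ∨ (r = d ∧ s = -1)) (hcd : c + 2 ≤ d) {f v : ℤ × ℤ} {ew : TV}
    (hfr : (((rtd111F f).1, r) : TV) ∈ rpr110Q A B c d a cc) (hrow : (rtd111F f).2 = r ∨ (rtd111F f).2 = r - s)
    (hwB : ew ∉ rrw86Rect A B c d) (nw : Rrw86Nb ew (rtd111F f)) (nv : Rrw86Nb ew (rtd111P v)) (hcar : ∃ y' ∈ Look, Rse182Car Y y' v) :
    ∃ z, (z ∈ a ∨ z ∈ cc) ∧ z.2 = r ∧ (rtd111F f).1 - 2 ≤ z.1 ∧ z.1 ≤ (rtd111F f).1 + 2 := by
  obtain ⟨y', hy', hc'⟩ := hcar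
  obtain ⟨⟨q1, q2, q3, q4⟩, hsol⟩ := hR.look y' hy'
  have hy'Q : y' ∉ rpr110Q A B c d a cc := fun hq => hq.2 hsol
  have hy'b : y' ∈ plsBand c d := ⟨q3, q4⟩
  have hyP : (y'.1 = (rtd111P v).1 ∧ y'.2 = (rtd111P v).2) ∨ Rrw86Nb y' (rtd111P v) := by
    rcases hc' with rfl | ⟨e', he', rfl, hev⟩
    · exact Or.inl ⟨rfl, rfl⟩
    · exact Or.inr (hC.endS e' he' ⟨q1, q2, q3, q4⟩ v hev)
  have c1 : A + 1 ≤ (rtd111F f).1 := (hR.strip hfr).1
  have c2 : (rtd111F f).1 ≤ B - 1 := (hR.strip hfr).2.1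
  have hs' : s = 1 ∨ s = -1 := by omega
  have hrb : c ≤ r ∧ r ≤ d := by omega
  have k1 := rpg110_ar1 (x := (rtd111F f).1) (yF := (rtd111F f).2) (e1 := ew.1) (e2 := ew.2) hs hcd c1 c2 hrow hwB nw
  obtain ⟨k2, k3⟩ := rpg110_ar2 (x := (rtd111F f).1) (yF := (rtd111F f).2) (e1 := ew.1) (e2 := ew.2) (P1 := (rtd111P v).1) (P2 := (rtd111P v).2)
    (f1 := f.1) (f2 := f.2) (v1 := v.1) (v2 := v.2) hs' rfl rfl rfl rfl k1 nv
  have k3' : (rtd111P v).2 = r - s ∨ (rtd111P v).2 = r ∨ (rtd111P v).2 = r - 2 * s := by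
    rcases k3 with ⟨-, g⟩ | ⟨-, g | g⟩
    · exact Or.inl g
    · exact Or.inr (Or.inl g)
    · exact Or.inr (Or.inr g)
  have k4 := rpg110_ar3 (y1 := y'.1) (y2 := y'.2) (P1 := (rtd111P v).1) (P2 := (rtd111P v).2) hs hcd q3 q4 k3' hyP
  clear k1 nw nv hyP hwB
  have adjx : ∀ z' : TV, z'.2 = r → (z'.1 = (rtd111F f).1 + 1 ∨ z'.1 = (rtd111F f).1 - 1) → tscG.Adj (((rtd111F f).1, r) : TV) z' := by
    intro z' g1 g2
    rcases g2 with g2 | g2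
    · exact rpg110_adj (Or.inl ⟨g2, g1⟩)
    · exact rpg110_adj (Or.inr (Or.inr (Or.inr (Or.inl ⟨g2, g1⟩))))
  rcases k4 with ⟨g0, g1, g2⟩ | ⟨g0, k5⟩
  · -- the face lies in the extreme row
    exact ⟨y', rpg110_L1 H hfr hy'b hy'Q (adjx y' g2 (by omega)), g2, by omega, by omega⟩
  · -- the face lies beyond the extreme row
    have hPb : rtd111P v ∈ plsBand c d := ⟨show c ≤ (rtd111P v).2 by omega, show (rtd111P v).2 ≤ d by omega⟩
    by_cases hq : rtd111P v ∈ rpr110Q A B c d a cc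
    · rcases k5 with ⟨g1, g2⟩ | ⟨g1, g2⟩ | ⟨g1, g2⟩
      · exact absurd ((Prod.ext g1 (g2.trans g0.symm) : y' = rtd111P v) ▸ hq) hy'Q
      · refine ⟨y', rpg110_L1 H hq hy'b hy'Q ?_, g1, by omega, by omega⟩
        rcases g2 with g2 | g2
        · exact rpg110_adj (Or.inl ⟨g2, g1.trans g0.symm⟩)
        · exact rpg110_adj (Or.inr (Or.inr (Or.inr (Or.inl ⟨g2, g1.trans g0.symm⟩))))
      · have hlayer := rpg110_L1 H hq hy'b hy'Q (rpg110_adjS hs' (Or.inr (Or.inl ⟨g1, by omega⟩)))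
        have e1 : y' = ((rtd111P v).1, r + s) := Prod.ext g1 g2
        have e2 : rtd111P v = ((rtd111P v).1, r) := Prod.ext rfl g0
        have hfree : (((rtd111P v).1, r) : TV) ∈ rpr110Q A B c d a cc := e2 ▸ hq
        have hpar1 : (rtd111P v).1 % 2 = 0 := by show (2 * v.1) % 2 = 0; omega
        have hpar2 : r % 2 = 0 := by
          have : (rtd111P v).2 = 2 * v.2 := rfl
          omega
        have hz : (((rtd111P v).1 + s, r) : TV) ∈ a ∨ (((rtd111P v).1 + s, r) : TV) ∈ cc := by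
          rcases hlayer with h | h
          · exact rpg110_hair H hR hRef hXa (fun z hz => Or.inl hz) hs hcd hpar1 hpar2 hfree (e1 ▸ h)
          · exact rpg110_hair H hR hRef hXc (fun z hz => Or.inr hz) hs hcd hpar1 hpar2 hfree (e1 ▸ h)
        exact ⟨_, hz, rfl, show (rtd111F f).1 - 2 ≤ (rtd111P v).1 + s by omega, show (rtd111P v).1 + s ≤ (rtd111F f).1 + 2 by omega⟩
    · exact ⟨rtd111P v, rpg110_L1 H hfr hPb hq (adjx _ g0 k2), g0, by omega, by omega⟩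

/-- a cell of `a` in an extreme row lies on the left of every free cell of the row -/
theorem rpg110_row_a (H : HxrPair c d (2 * A + c) (2 * B + d) a cc pa qa pc qc) {r : ℤ} (hr : r = c ∨ r = d) {z : TV} (hz : z ∈ a) (hz2 : z.2 = r) {x : ℤ}
    (hx : ((x, r) : TV) ∈ rpr110Q A B c d a cc) : z.1 < x := by
  by_contra hn
  have hle : x ≤ z.1 := not_lt.1 hn
  refine hx.2 (Or.inl ?_)
  rcases hr with hr | hr
  · exact hxr_AA_bot (⟨H.A.sub, H.A.conn, H.A.box, hz, H.A.qa, hz2.trans hr, H.A.q1⟩ : HxrCr c d _ _ a z qa) hr hle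
  · exact hxr_AA_top (⟨H.A.sub, H.A.conn, H.A.box, H.A.pa, hz, H.A.p0, hz2.trans hr⟩ : HxrCr c d _ _ a pa z) hr hle

/-- a cell of `c` in an extreme row lies on the right of every free cell of the row -/
theorem rpg110_row_c (H : HxrPair c d (2 * A + c) (2 * B + d) a cc pa qa pc qc) {r : ℤ} (hr : r = c ∨ r = d) {z : TV} (hz : z ∈ cc) (hz2 : z.2 = r) {x : ℤ}
    (hx : ((x, r) : TV) ∈ rpr110Q A B c d a cc) : x < z.1 := by
  by_contra hn
  have hle : z.1 ≤ x := not_lt.1 hn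
  refine hx.2 (Or.inr ?_)
  rcases hr with hr | hr
  · exact hxr_CC_bot (⟨H.C.sub, H.C.conn, H.C.box, hz, H.C.qa, hz2.trans hr, H.C.q1⟩ : HxrCr c d _ _ cc z qc) hr hle
  · exact hxr_CC_top (⟨H.C.sub, H.C.conn, H.C.box, H.C.pa, hz, H.C.p0, hz2.trans hr⟩ : HxrCr c d _ _ cc pc z) hr hle

/-- a port at the end `(r, s)` on the side of the layer `lay` -/
def Rpg110Port (A B c d : ℤ) (a cc : Set TV) (r s : ℤ) (lay : Set TV) (f : ℤ × ℤ) : Prop :=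
  (((rtd111F f).1, r) : TV) ∈ rpr110Q A B c d a cc ∧ ((rtd111F f).2 = r ∨ (rtd111F f).2 = r - s) ∧
    ∃ z ∈ lay, z.2 = r ∧ (rtd111F f).1 - 2 ≤ z.1 ∧ z.1 ≤ (rtd111F f).1 + 2

theorem rpg110_port_eqns_cite : True := by
  have := @Rpg110Port.eq_1
  trivial

theorem rpg110_uniq_a (H : HxrPair c d (2 * A + c) (2 * B + d) a cc pa qa pc qc) {r s : ℤ} (hr : r = c ∨ r = d) (hs : s = 1 ∨ s = -1) {f g : ℤ × ℤ}
    (hf : Rpg110Port A B c d a cc r s a f) (hg : Rpg110Port A B c d a cc r s a g) : f = g := by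
  obtain ⟨f1, f2, z, hz, z2, z3, -⟩ := hf
  obtain ⟨g1, g2, y, hy, y2, y3, -⟩ := hg
  have h1 := rpg110_row_a H hr hz z2 g1
  have h2 := rpg110_row_a H hr hy y2 f1
  have e1 : (rtd111F f).1 = 2 * f.1 + 1 := rfl
  have e2 : (rtd111F g).1 = 2 * g.1 + 1 := rfl
  have e3 : (rtd111F f).2 = 2 * f.2 + 1 := rfl
  have e4 : (rtd111F g).2 = 2 * g.2 + 1 := rfl
  exact Prod.ext (by omega) (by omega)

theorem rpg110_uniq_c (H : HxrPair c d (2 * A + c) (2 * B + d) a cc pa qa pc qc) {r s : ℤ} (hr : r = c ∨ r = d) (hs : s = 1 ∨ s = -1) {f g : ℤ × ℤ}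
    (hf : Rpg110Port A B c d a cc r s cc f) (hg : Rpg110Port A B c d a cc r s cc g) : f = g := by
  obtain ⟨f1, f2, z, hz, z2, -, z3⟩ := hf
  obtain ⟨g1, g2, y, hy, y2, -, y3⟩ := hg
  have h1 := rpg110_row_c H hr hz z2 g1
  have h2 := rpg110_row_c H hr hy y2 f1
  have e1 : (rtd111F f).1 = 2 * f.1 + 1 := rfl
  have e2 : (rtd111F g).1 = 2 * g.1 + 1 := rfl
  have e3 : (rtd111F f).2 = 2 * f.2 + 1 := rfl
  have e4 : (rtd111F g).2 = 2 * g.2 + 1 := rfl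
  exact Prod.ext (by omega) (by omega)

/-- **every port is one of the four** -/
theorem rpg110_port_cases (H : HxrPair c d (2 * A + c) (2 * B + d) a cc pa qa pc qc) (hC : Rpg110Chart Y A B c d) (hR : Rpg110Read Y ω₀ Look P₀ A B c d a cc) (hRef : Rrw86Ref P₀)
    {I J : Set TV} (hXa : Rpg110Expl P₀ A B c d (rpr110Q A B c d a cc) a I) (hXc : Rpg110Expl P₀ A B c d (rpr110Q A B c d a cc) cc J)
    (hT : ∀ y, y ∈ T ↔ y ∈ rpr110Q A B c d a cc) (hcd : c + 2 ≤ d)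
    (hF : ∀ w ∈ Y.E, ∀ f, Rse182Fac Y w f → (rtd111F f).1 ≤ B → Rrw86Nb (rtd111E w) (rtd111F f))
    (hE : ∀ w ∈ Y.E, ∀ v, Rse182End Y w v → (rtd111E w).1 ≤ B → Rrw86Nb (rtd111E w) (rtd111P v))
    (K : RswCon) (hKp : ∀ v ∈ K.Sp, d + 3 < (rtd111P v).2) {f : ℤ × ℤ} (hf : f ∈ rwl180P Y (rse182Obs Y K Look ω₀) (rpg110O Y A B c d) (rse182Ed Y T)) :
    Rpg110Port A B c d a cc c 1 a f ∨ Rpg110Port A B c d a cc c 1 cc f ∨ Rpg110Port A B c d a cc d (-1) a f ∨ Rpg110Port A B c d a cc d (-1) cc f := by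
  classical
  unfold rwl180P at hf
  obtain ⟨h1, h2⟩ := Finset.mem_inter.1 hf
  obtain ⟨mm, hmM, hfm⟩ := rwl180_mem_Sd.1 h1
  obtain ⟨w, hwX, hfw⟩ := rwl180_mem_Sd.1 h2
  unfold rwl180Xp at hwX
  obtain ⟨hw1, hw2⟩ := Finset.mem_sdiff.1 hwX
  obtain ⟨hwE, hwO, -⟩ := rwl180_mem_EoF.1 hw1
  have hv : ∃ v ∈ rpo102Sv Y w, v ∈ (rse182Obs Y K Look ω₀).Sp := by
    by_contra hcon
    exact hw2 (rwl180_mem_Xw.2 ⟨hw1, fun v hv hvS => hcon ⟨v, hv, hvS⟩⟩)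
  obtain ⟨v, hvw, hvS⟩ := hv
  obtain ⟨hmE, hmT⟩ := rpg110_mem_Ed.1 hmM
  have hmQ := (hT _).1 hmT
  obtain ⟨m1, m2, m3, m4⟩ := hR.strip hmQ
  have m1' : A + 1 ≤ (rtd111E mm).1 := m1
  have m2' : (rtd111E mm).1 ≤ B - 1 := m2
  have hmB : rtd111E mm ∈ rrw86Rect A B c d := ⟨show A ≤ (rtd111E mm).1 by omega, show (rtd111E mm).1 ≤ B by omega, m3, m4⟩
  have nm : Rrw86Nb (rtd111E mm) (rtd111F f) := by
    rcases hC.facS mm hmE hmB f (rwl180_fac_iff.1 hfm) with h | h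
    · exact h
    · omega
  have hwB : rtd111E w ∉ rrw86Rect A B c d := fun h => hwO (rpg110_mem_O.2 ⟨hwE, h⟩)
  have hwB' : ¬ (A ≤ (rtd111E w).1 ∧ (rtd111E w).1 ≤ B ∧ c ≤ (rtd111E w).2 ∧ (rtd111E w).2 ≤ d) := hwB
  have key : ∃ r s : ℤ, ((r = c ∧ s = 1) ∨ (r = d ∧ s = -1)) ∧ (((rtd111F f).1, r) : TV) ∈ rpr110Q A B c d a cc ∧ ((rtd111F f).2 = r ∨ (rtd111F f).2 = r - s) := by
    by_cases hb : rtd111F f ∈ plsBand c d
    · have hfQ : rtd111F f ∈ rpr110Q A B c d a cc := by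
        by_contra hq
        exact hR.plF f (hR.lay _ (rpg110_L1 H hmQ hb hq (rpg110_nb_adj nm))).1
      have g1 : A + 1 ≤ (rtd111F f).1 := (hR.strip hfQ).1
      have g2 : (rtd111F f).1 ≤ B - 1 := (hR.strip hfQ).2.1
      have g3 : c ≤ (rtd111F f).2 := hb.1
      have g4 : (rtd111F f).2 ≤ d := hb.2
      have nw := hF w hwE f (rwl180_fac_iff.1 hfw) (by omega)
      unfold Rrw86Nb at nw
      have hrow : (rtd111F f).2 = c ∨ (rtd111F f).2 = d := by omega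
      rcases hrow with h | h
      · have e : (((rtd111F f).1, c) : TV) = rtd111F f := Prod.ext rfl h.symm
        exact ⟨c, 1, Or.inl ⟨rfl, rfl⟩, by rw [e]; exact hfQ, Or.inl h⟩
      · have e : (((rtd111F f).1, d) : TV) = rtd111F f := Prod.ext rfl h.symm
        exact ⟨d, -1, Or.inr ⟨rfl, rfl⟩, by rw [e]; exact hfQ, Or.inl h⟩
    · have hb' : ¬ (c ≤ (rtd111F f).2 ∧ (rtd111F f).2 ≤ d) := hb
      unfold Rrw86Nb at nm
      have hrow : ((rtd111F f).1 = (rtd111E mm).1 ∧ (rtd111E mm).2 = c ∧ (rtd111F f).2 = c - 1) ∨ ((rtd111F f).1 = (rtd111E mm).1 ∧ (rtd111E mm).2 = d ∧ (rtd111F f).2 = d + 1) := by omega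
      rcases hrow with ⟨k1, k2, k3⟩ | ⟨k1, k2, k3⟩
      · have e : (((rtd111F f).1, c) : TV) = rtd111E mm := Prod.ext k1 k2.symm
        exact ⟨c, 1, Or.inl ⟨rfl, rfl⟩, by rw [e]; exact hmQ, Or.inr k3⟩
      · have e : (((rtd111F f).1, d) : TV) = rtd111E mm := Prod.ext k1 k2.symm
        exact ⟨d, -1, Or.inr ⟨rfl, rfl⟩, by rw [e]; exact hmQ, Or.inr (by omega)⟩
  obtain ⟨r, s, hs, hfr, hrow⟩ := key
  have g1 : A + 1 ≤ (rtd111F f).1 := (hR.strip hfr).1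
  have g2 : (rtd111F f).1 ≤ B - 1 := (hR.strip hfr).2.1
  have nw := hF w hwE f (rwl180_fac_iff.1 hfw) (by omega)
  have hwc : (rtd111E w).1 ≤ B ∧ (rtd111E w).2 ≤ (rtd111F f).2 + 1 := by
    have nw' := nw
    unfold Rrw86Nb at nw'
    omega
  have nv := hE w hwE v (rwl180_end_iff.1 hvw) hwc.1
  have hcar : ∃ y' ∈ Look, Rse182Car Y y' v := by
    rcases Finset.mem_union.1 hvS with h | h
    · exfalso
      have k := hKp v h
      have nv' := nv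
      unfold Rrw86Nb at nv'
      omega
    · exact (rpg110_mem_Sv.1 (Finset.mem_filter.1 h).1).2
  obtain ⟨z, hz, z2, z3, z4⟩ := rpg110_port_end H hC hR hRef hXa hXc hs hcd hfr hrow hwB nw nv hcar
  rcases hs with ⟨rfl, rfl⟩ | ⟨rfl, rfl⟩
  · rcases hz with hz | hz
    · exact Or.inl ⟨hfr, hrow, z, hz, z2, z3, z4⟩
    · exact Or.inr (Or.inl ⟨hfr, hrow, z, hz, z2, z3, z4⟩)
  · rcases hz with hz | hz
    · exact Or.inr (Or.inr (Or.inl ⟨hfr, hrow, z, hz, z2, z3, z4⟩))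
    · exact Or.inr (Or.inr (Or.inr ⟨hfr, hrow, z, hz, z2, z3, z4⟩))

/-- **AT MOST FOUR PORTS** -/
theorem rpg110_ports_le (H : HxrPair c d (2 * A + c) (2 * B + d) a cc pa qa pc qc) (hC : Rpg110Chart Y A B c d) (hR : Rpg110Read Y ω₀ Look P₀ A B c d a cc) (hRef : Rrw86Ref P₀)
    {I J : Set TV} (hXa : Rpg110Expl P₀ A B c d (rpr110Q A B c d a cc) a I) (hXc : Rpg110Expl P₀ A B c d (rpr110Q A B c d a cc) cc J)
    (hT : ∀ y, y ∈ T ↔ y ∈ rpr110Q A B c d a cc) (hcd : c + 2 ≤ d)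
    (hF : ∀ w ∈ Y.E, ∀ f, Rse182Fac Y w f → (rtd111F f).1 ≤ B → Rrw86Nb (rtd111E w) (rtd111F f))
    (hE : ∀ w ∈ Y.E, ∀ v, Rse182End Y w v → (rtd111E w).1 ≤ B → Rrw86Nb (rtd111E w) (rtd111P v))
    (K : RswCon) (hKp : ∀ v ∈ K.Sp, d + 3 < (rtd111P v).2) :
    (rwl180P Y (rse182Obs Y K Look ω₀) (rpg110O Y A B c d) (rse182Ed Y T)).card ≤ 4 := by
  classical
  generalize hP : rwl180P Y (rse182Obs Y K Look ω₀) (rpg110O Y A B c d) (rse182Ed Y T) = P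
  have hsub : P ⊆ (P.filter (Rpg110Port A B c d a cc c 1 a) ∪ P.filter (Rpg110Port A B c d a cc c 1 cc)) ∪
      (P.filter (Rpg110Port A B c d a cc d (-1) a) ∪ P.filter (Rpg110Port A B c d a cc d (-1) cc)) := by
    intro f hf
    rcases rpg110_port_cases H hC hR hRef hXa hXc hT hcd hF hE K hKp (hP ▸ hf) with h | h | h | h
    · exact Finset.mem_union_left _ (Finset.mem_union_left _ (Finset.mem_filter.2 ⟨hf, h⟩))
    · exact Finset.mem_union_left _ (Finset.mem_union_right _ (Finset.mem_filter.2 ⟨hf, h⟩))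
    · exact Finset.mem_union_right _ (Finset.mem_union_left _ (Finset.mem_filter.2 ⟨hf, h⟩))
    · exact Finset.mem_union_right _ (Finset.mem_union_right _ (Finset.mem_filter.2 ⟨hf, h⟩))
  have k1 : (P.filter (Rpg110Port A B c d a cc c 1 a)).card ≤ 1 :=
    Finset.card_le_one.2 fun x hx y hy => rpg110_uniq_a H (Or.inl rfl) (Or.inl rfl) (Finset.mem_filter.1 hx).2 (Finset.mem_filter.1 hy).2
  have k2 : (P.filter (Rpg110Port A B c d a cc c 1 cc)).card ≤ 1 :=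
    Finset.card_le_one.2 fun x hx y hy => rpg110_uniq_c H (Or.inl rfl) (Or.inl rfl) (Finset.mem_filter.1 hx).2 (Finset.mem_filter.1 hy).2
  have k3 : (P.filter (Rpg110Port A B c d a cc d (-1) a)).card ≤ 1 :=
    Finset.card_le_one.2 fun x hx y hy => rpg110_uniq_a H (Or.inr rfl) (Or.inr rfl) (Finset.mem_filter.1 hx).2 (Finset.mem_filter.1 hy).2
  have k4 : (P.filter (Rpg110Port A B c d a cc d (-1) cc)).card ≤ 1 :=
    Finset.card_le_one.2 fun x hx y hy => rpg110_uniq_c H (Or.inr rfl) (Or.inr rfl) (Finset.mem_filter.1 hx).2 (Finset.mem_filter.1 hy).2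
  have u0 := Finset.card_le_card hsub
  have u1 := Finset.card_union_le (P.filter (Rpg110Port A B c d a cc c 1 a) ∪ P.filter (Rpg110Port A B c d a cc c 1 cc))
    (P.filter (Rpg110Port A B c d a cc d (-1) a) ∪ P.filter (Rpg110Port A B c d a cc d (-1) cc))
  have u2 := Finset.card_union_le (P.filter (Rpg110Port A B c d a cc c 1 a)) (P.filter (Rpg110Port A B c d a cc c 1 cc))
  have u3 := Finset.card_union_le (P.filter (Rpg110Port A B c d a cc d (-1) a)) (P.filter (Rpg110Port A B c d a cc d (-1) cc))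
  omega

end ports

/-! ## §4 the ports on the mixed cylinder; FAR without (L) -/

/-- the faces of ANY edge pair of the cylinder, off the seam -/
theorem rpg110_fac_cyl {L H : ℕ} {B : ℤ} (hB : B + 1 < 2 * (L : ℤ)) :
    ∀ w ∈ (rcy162Cyl L 0 H).E, ∀ f, Rse182Fac (rcy162Cyl L 0 H) w f → (rtd111F f).1 ≤ B → Rrw86Nb (rtd111E w) (rtd111F f) := by
  rintro ⟨⟨x, y⟩, b⟩ hw f hf hle
  obtain ⟨⟨a1, a2⟩, -⟩ := rcy162_mem_cylE.1 hw
  have b1 : 0 ≤ x := a1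
  have b2 : x < L := a2
  cases b
  · rcases hf with rfl | rfl
    · show Rrw86Nb (2 * x + 1, 2 * y) (2 * x + 1, 2 * y + 1)
      unfold Rrw86Nb
      dsimp only
      omega
    · show Rrw86Nb (2 * x + 1, 2 * y) (2 * (x % (L : ℤ)) + 1, 2 * (y - 1) + 1)
      rw [Int.emod_eq_of_lt b1 b2]
      unfold Rrw86Nb
      dsimp only
      omega
  · rcases hf with rfl | rfl
    · show Rrw86Nb (2 * x, 2 * y + 1) (2 * x + 1, 2 * y + 1)
      unfold Rrw86Nb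
      dsimp only
      omega
    · rcases (show x = 0 ∨ 1 ≤ x by omega) with rfl | hx
      · exfalso
        have hle' : 2 * (((0 : ℤ) - 1) % (L : ℤ)) + 1 ≤ B := hle
        have e1 : ((0 : ℤ) - 1) % (L : ℤ) = (L : ℤ) - 1 := by
          have : ((0 : ℤ) - 1) = ((L : ℤ) - 1) + (L : ℤ) * (-1) := by ring
          rw [this, Int.add_mul_emod_self_left, Int.emod_eq_of_lt (by omega) (by omega)]
        rw [e1] at hle'
        omega
      · show Rrw86Nb (2 * x, 2 * y + 1) (2 * ((x - 1) % (L : ℤ)) + 1, 2 * y + 1)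
        rw [Int.emod_eq_of_lt (by omega) (by omega)]
        unfold Rrw86Nb
        dsimp only
        omega

/-- the endpoints of ANY edge pair of the cylinder, off the seam -/
theorem rpg110_end_cyl {L H : ℕ} {B : ℤ} (hB : B + 1 < 2 * (L : ℤ)) :
    ∀ w ∈ (rcy162Cyl L 0 H).E, ∀ v, Rse182End (rcy162Cyl L 0 H) w v → (rtd111E w).1 ≤ B → Rrw86Nb (rtd111E w) (rtd111P v) := by
  rintro ⟨⟨x, y⟩, b⟩ hw v hv hle
  obtain ⟨⟨a1, a2⟩, -⟩ := rcy162_mem_cylE.1 hw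
  have b1 : 0 ≤ x := a1
  have b2 : x < L := a2
  cases b
  · have g2 : 2 * x + 1 ≤ B := hle
    rcases hv with rfl | rfl
    · show Rrw86Nb (2 * x + 1, 2 * y) (2 * x, 2 * y)
      unfold Rrw86Nb
      dsimp only
      omega
    · show Rrw86Nb (2 * x + 1, 2 * y) (2 * ((x + 1) % (L : ℤ)), 2 * y)
      rw [Int.emod_eq_of_lt (by omega) (by omega)]
      unfold Rrw86Nb
      dsimp only
      omega
  · rcases hv with rfl | rfl
    · show Rrw86Nb (2 * x, 2 * y + 1) (2 * x, 2 * y)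
      unfold Rrw86Nb
      dsimp only
      omega
    · show Rrw86Nb (2 * x, 2 * y + 1) (2 * (x % (L : ℤ)), 2 * (y + 1))
      rw [Int.emod_eq_of_lt b1 b2]
      unfold Rrw86Nb
      dsimp only
      omega

section expl

variable {Ω Y : Type} (𝓛 : Rln182Law Ω Y) (ι : TV → Y) {c d w σ m e : ℤ}

/-- the exploration from the left -/
theorem rpg110_expl_a (hcd : c < d) (hw : 0 ≤ w) (hσ : 2 * w < σ) (he : w ≤ e) (ω₀ : Ω)
    (hG : Rrc86G0 (m - e) (m + σ + e) c d w m (m + σ) (rrc86I 𝓛 ι c d w σ m e ω₀) (rrc86J 𝓛 ι c d w σ m e ω₀)) :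
    Rpg110Expl (rrc86Y 𝓛 ι ω₀) (m - e) (m + σ + e) c d (rpr110Q (m - e) (m + σ + e) c d (rrc86A 𝓛 ι c d w σ m e ω₀) (rrc86C 𝓛 ι c d w σ m e ω₀))
      (rrc86A 𝓛 ι c d w σ m e ω₀) (rrc86I 𝓛 ι c d w σ m e ω₀) where
  touch := by
    intro z hz h1 h2 h3 h4
    rcases hz.2 with h | h
    · exfalso
      rcases h with h | ⟨h | h, -⟩
      · have : z.1 ≤ m - e := h
        omega
      · omega
      · omega
    · exact h
  off := fun i hi => ⟨(ple_I_sub hi).1, (ple_I_sub hi).2⟩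
  solid := by
    intro i hi hq
    obtain ⟨t', ht, hts, hti⟩ := hi
    have hlook : i ∈ rsrLook (rrw86Rect (m - e) (m + σ + e) c d) (rrc86SgL (m - e) c d m w ∪ rrc86SgR (m + σ + e) c d (m + σ) w) (rrc86Y 𝓛 ι ω₀) :=
      ⟨(tsc_R_mem hti ht).1, Or.inr (Or.inl ⟨t', ht, Or.inl hts, hti⟩)⟩
    exact hq.2 (rpr110_look hcd hw (by omega) (by omega) (by omega) hG hlook)
  closed := fun i hi z hz hzP hadj => ple_I_adj hi ⟨hz, hzP⟩ hadj

/-- the exploration from the right -/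
theorem rpg110_expl_c (hcd : c < d) (hw : 0 ≤ w) (hσ : 2 * w < σ) (he : w ≤ e) (ω₀ : Ω)
    (hG : Rrc86G0 (m - e) (m + σ + e) c d w m (m + σ) (rrc86I 𝓛 ι c d w σ m e ω₀) (rrc86J 𝓛 ι c d w σ m e ω₀)) :
    Rpg110Expl (rrc86Y 𝓛 ι ω₀) (m - e) (m + σ + e) c d (rpr110Q (m - e) (m + σ + e) c d (rrc86A 𝓛 ι c d w σ m e ω₀) (rrc86C 𝓛 ι c d w σ m e ω₀))
      (rrc86C 𝓛 ι c d w σ m e ω₀) (rrc86J 𝓛 ι c d w σ m e ω₀) where
  touch := by
    intro z hz h1 h2 h3 h4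
    rcases hz.2 with h | h
    · exfalso
      rcases h with h | ⟨h | h, -⟩
      · have : m + σ + e ≤ z.1 := h
        omega
      · omega
      · omega
    · exact h
  off := fun i hi => ⟨(ple_I_sub hi).1, (ple_I_sub hi).2⟩
  solid := by
    intro i hi hq
    obtain ⟨t', ht, hts, hti⟩ := hi
    have hlook : i ∈ rsrLook (rrw86Rect (m - e) (m + σ + e) c d) (rrc86SgL (m - e) c d m w ∪ rrc86SgR (m + σ + e) c d (m + σ) w) (rrc86Y 𝓛 ι ω₀) :=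
      ⟨(tsc_R_mem hti ht).1, Or.inr (Or.inl ⟨t', ht, Or.inr hts, hti⟩)⟩
    exact hq.2 (rpr110_look hcd hw (by omega) (by omega) (by omega) hG hlook)
  closed := fun i hi z hz hzP hadj => ple_I_adj hi ⟨hz, hzP⟩ hadj

end expl

section cyl2

variable (t : ℝ) {L H : ℕ} {c d w σ m e : ℤ}

/-- **AT MOST FOUR PORTS on the mixed cylinder** -/
theorem rpg110_ports_cyl (hL : 0 < L) (hA : 0 ≤ m - e) (hB : m + σ + e + 1 < 2 * (L : ℤ)) (hcd : c + 2 ≤ d) (hd : d + 3 < 2 * (H : ℤ)) (hw : 0 ≤ w) (hσ : 2 * w < σ) (he : w ≤ e)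
    (ω₀ : RswCfg)
    (hG : Rrc86G0 (m - e) (m + σ + e) c d w m (m + σ) (rrc86I (rrc86L t L H) (sdRed (2 * L)) c d w σ m e ω₀) (rrc86J (rrc86L t L H) (sdRed (2 * L)) c d w σ m e ω₀))
    (h1 : ¬ Rrc86Touch (rrc86A (rrc86L t L H) (sdRed (2 * L)) c d w σ m e ω₀) (rrc86C (rrc86L t L H) (sdRed (2 * L)) c d w σ m e ω₀)) :
    (rwl180P (rcy162Cyl L 0 H) (rpg110Rc t L H c d w σ m e ω₀) (rpg110O (rcy162Cyl L 0 H) (m - e) (m + σ + e) c d)
      (rse182Ed (rcy162Cyl L 0 H) (rpg110Tc t L H c d w σ m e ω₀))).card ≤ 4 := by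
  have hcd' : c < d := by omega
  obtain ⟨pa, qa, pc, qc, HP, -⟩ := rpr110_pair_rec (rrc86L t L H) (sdRed (2 * L)) hcd' hw hσ he ω₀ hG h1
  have hR := rpg110_read_cyl t hL hA hB hcd' hw hσ he ω₀ hG
  have hRef : Rrw86Ref (rrc86Y (rrc86L t L H) (sdRed (2 * L)) ω₀) := by
    rw [rrc86_L_Y t hL H ω₀]
    exact rrc86_ref hL 0 H ω₀
  refine rpg110_ports_le HP (rpg110_chart_cyl hA hB) hR hRef (rpg110_expl_a _ _ hcd' hw hσ he ω₀ hG) (rpg110_expl_c _ _ hcd' hw hσ he ω₀ hG)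
    (rpg110_mem_T hR.strip) hcd (rpg110_fac_cyl hB) (rpg110_end_cyl hB) (rwl180KM L H) ?_
  intro v hv
  have hv2 : v.2 = (H : ℤ) := (rcy162_mem_row.1 hv).2
  show d + 3 < 2 * v.2
  omega

/-- **FAR WITHOUT (L)**: the five deterministic clauses of `A3t86Far` of 86 (`Rsw/A3Top86`) for EVERY non-touching record, with `W = rpr110Q`, `T = rpg110Tc`, `O = rpg110O`, `Lp = rpg110Lp`, `Lm = rpg110Lm` -/
theorem rpg110_far_cyl (hL : 0 < L) (hA : 0 ≤ m - e) (hB : m + σ + e + 1 < 2 * (L : ℤ)) (hc : 2 ≤ c) (hcd : c + 2 ≤ d) (hd : d + 3 < 2 * (H : ℤ)) (hw : 0 ≤ w) (hσ : 2 * w < σ)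
    (he : w ≤ e) (ω₀ : RswCfg)
    (hG : Rrc86G0 (m - e) (m + σ + e) c d w m (m + σ) (rrc86I (rrc86L t L H) (sdRed (2 * L)) c d w σ m e ω₀) (rrc86J (rrc86L t L H) (sdRed (2 * L)) c d w σ m e ω₀))
    (h1 : ¬ Rrc86Touch (rrc86A (rrc86L t L H) (sdRed (2 * L)) c d w σ m e ω₀) (rrc86C (rrc86L t L H) (sdRed (2 * L)) c d w σ m e ω₀)) :
    rpr110Q (m - e) (m + σ + e) c d (rrc86A (rrc86L t L H) (sdRed (2 * L)) c d w σ m e ω₀) (rrc86C (rrc86L t L H) (sdRed (2 * L)) c d w σ m e ω₀) ⊆ plsBand c d ∧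
    (∀ y ∈ rpg110Tc t L H c d w σ m e ω₀, Rse182Pt (rcy162Cyl L 0 H) y) ∧
    (∀ z ∈ rpr110Q (m - e) (m + σ + e) c d (rrc86A (rrc86L t L H) (sdRed (2 * L)) c d w σ m e ω₀) (rrc86C (rrc86L t L H) (sdRed (2 * L)) c d w σ m e ω₀),
      sdRed (2 * L) z ∈ (rrc86L t L H).cells → sdRed (2 * L) z ∈ rpg110Tc t L H c d w σ m e ω₀) ∧
    Rwl180Geo (rcy162Cyl L 0 H) (rse182Obs (rcy162Cyl L 0 H) (rwl180KM L H) (rrc86Q2 (rrc86L t L H) (sdRed (2 * L)) c d w σ m e ω₀) ω₀)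
      (rpg110O (rcy162Cyl L 0 H) (m - e) (m + σ + e) c d)
      (rse182Ed (rcy162Cyl L 0 H) (rpg110Tc t L H c d w σ m e ω₀)) (rse182Sv (rcy162Cyl L 0 H) (rpg110Tc t L H c d w σ m e ω₀))
      (rpg110Lp (rcy162Cyl L 0 H) (rpg110Rc t L H c d w σ m e ω₀) (rpg110Tc t L H c d w σ m e ω₀))
      (rpg110Lm (rcy162Cyl L 0 H) (rpg110Rc t L H c d w σ m e ω₀) (rpg110O (rcy162Cyl L 0 H) (m - e) (m + σ + e) c d) (rpg110Tc t L H c d w σ m e ω₀)) ∧
    (rwl180P (rcy162Cyl L 0 H) (rse182Obs (rcy162Cyl L 0 H) (rwl180KM L H) (rrc86Q2 (rrc86L t L H) (sdRed (2 * L)) c d w σ m e ω₀) ω₀)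
      (rpg110O (rcy162Cyl L 0 H) (m - e) (m + σ + e) c d) (rse182Ed (rcy162Cyl L 0 H) (rpg110Tc t L H c d w σ m e ω₀))).card ≤ 4 := by
  have hcd' : c < d := by omega
  have hR := rpg110_read_cyl t hL hA hB hcd' hw hσ he ω₀ hG
  have hT := rpg110_mem_T hR.strip
  have hin : ∀ z ∈ rpr110Q (m - e) (m + σ + e) c d (rrc86A (rrc86L t L H) (sdRed (2 * L)) c d w σ m e ω₀) (rrc86C (rrc86L t L H) (sdRed (2 * L)) c d w σ m e ω₀),
      (0 ≤ z.1 ∧ z.1 < 2 * (L : ℤ)) ∧ c ≤ z.2 ∧ z.2 ≤ d := by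
    intro z hz
    obtain ⟨g1, g2, g3, g4⟩ := hR.strip hz
    have g1' : m - e + 1 ≤ z.1 := g1
    have g2' : z.1 ≤ m + σ + e - 1 := g2
    exact ⟨⟨by omega, by omega⟩, g3, g4⟩
  refine ⟨fun z hz => hz.1, ?_, ?_, rpg110_geo_cyl t hL hA hB hc hcd' hw hσ he ω₀ hG h1, rpg110_ports_cyl t hL hA hB hcd hd hw hσ he ω₀ hG h1⟩
  · intro y hy
    obtain ⟨⟨a1, a2⟩, a3, a4⟩ := hin y ((hT y).1 hy)
    exact rwl180_pt_cyl (rrc86_mem_cells.2 ⟨⟨a1, a2⟩, by omega, by omega⟩) (by omega) (by omega)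
  · intro z hz _
    obtain ⟨⟨a1, a2⟩, -⟩ := hin z hz
    rw [rpg110_red_id a1 a2]
    exact (hT z).2 hz

end cyl2

end Claimed.Agent.R292
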