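import Claimed.Agent.R292.Rsw.RswTri257
import Claimed.Agent.R292.Rsw.RswWall180
import Claimed.Agent.R292.Rsw.RswClose117
import Claimed.Agent.R292.Rsw.LenOrd292
import Claimed.Agent.R292.Rsw.KitRswl96
import Claimed.Agent.R292.Rsw.RswGeo110

/-!
# Row 292 (S0540), Rsw/A3Top86 : BLOCK A3 = RSW (56), THE TOP OF THE BLOCK      (owner helper86, head of A3; prefix `a3t86_`, `A3t86`, `a3t86`)      0 sorry

Second layer of the pen (the import layer forces it: the files of the pens of rows 5 - 7 of c1_post import `RswCyl86`).   THE WHOLE TREE OF A3, COMPILED: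
    PART I   `Rsw86` (86)                       abstract theorem `rrw86_main_gen` from TIP + TUBE
    ADAPTER  `RswCyl86` (86)                    the mixed cylinder of 162 is an `Rrw86Law`; records, total probability, LINK ⟹ F, chain;   `rrc86_rsw_LK : Rrc86LKc t ⟹ Rrc86Rsw t`
    FKG      `CylInst69` (69) `rci69_Q_fkg`;     ORDER `LenOrd292` (292) `lo292_cyl_ord`;     PORTS `Ports102` (102)
    TRICHOTOMY `RswTri257` (257);     PATCH `RswClose117` (117) `rwc117_pat_cyl`;     WALL + CHAIN `RswWall180` (180) `rwl180_strip86`;     field `rswl` `KitRswl96` (96)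
OPEN ENDS = ONE closed contract `A3t86Alt t`: under every NON-TOUCHING record of the two extremal crossings (long tips / narrow box)
  * NEAR `A3t86Near` : DETERMINISTIC (a chain of cells of a lattice path of at most `n` edges bridges the two layers and is patchable: `Rwc117Pb` of 117), or
  * FAR  `A3t86Far`  : DETERMINISTIC geometry of the strip (`Rwl180Geo` of 180, at most four ports) + **(L) the estimate in the closed strip system**
        `c₀ · sum_SQ(H0; 1) ≤ sum_SQ(H0; join of the two layers inside the window)`, `SQ = rwl180SQ ..` = the edges of the strip, `H0` = pins only (plus on the two sides, minus on the two ends).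
**(L) HAS NO TEXT ON `ℤ²`** (221, 100, 121 N1 + N5): R291 proves it with vertical mirrors + colour swap on a self-matching lattice; a vertical mirror of `ℤ²` never exchanges vertices and faces.
PARTIAL TEXT (86, 22:20Z), by pushing as in `Len182` PART D: narrow box (`3.5 (2 e + σ) ≤ r`) ⟸ ROTATED (LSS);   wide tips (`2 e2 - σ ≥ 3.5 r`) ⟸ straight (LSS);   the range `r / 8 < e < 4 r` needs a path-adapted symmetric domain.
UPDATE 23:10Z (§4): (G) = the 11 fields of `Rwl180Geo` are CLOSED by 110 (`RswGeo110`, `rpg110_geo_cyl`) for the EXPLICIT strip `rpr110Q` between the two layers.   SHARP CONTRACT `A3t86PL t` = under every non-touching record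
  (P) `A3t86Ports` : at most four ports (deterministic) + (L) `A3t86L` : the estimate in the explicit strip system `a3t86SQ` under the pins `a3t86H0`;   **`a3t86_alt_of_PL : A3t86PL t ⟹ A3t86Alt t`** (NEAR is not needed), **`a3t86_rsw_PL`**.
  §5: the sharp contract split: `A3t86Pc t` (P) closed, DETERMINISTIC;   `A3t86Lc t` (L) closed = THE ONE PROBABILISTIC OPEN END OF A3;   `a3t86_PL_of : A3t86Pc t ⟹ A3t86Lc t ⟹ A3t86PL t`.
  §6 (23:30Z): **(P) IS CLOSED by 110 (`rpg110_ports_cyl`): `a3t86_Pc`.   A3 = (L) ALONE: `a3t86_alt_of_Lc : A3t86Lc t ⟹ A3t86Alt t`, `a3t86_rsw_Lc : A3t86Lc t ⟹ Krl96Rsw t`.**   Every deterministic step of the block is in the kernel.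
  §7 (23:40Z): the WEAKEST form: `A3t86Lf t` = (L) only for the records whose layers are NOT NEAR (`n` free; NEAR = `A3t86Near`, its planar producers: 117 `RswNear117`);   `a3t86_alt_of_Lf`, `a3t86_rsw_Lf`, `a3t86_Lf_of_Lc`.
REMARK (86, 23:20Z; a road, NOT a text, not examined further): the glide mirror `(x, y) ↦ (y + 1, x - 1)` of the refined lattice DOES exchange vertex points and face points and fixes the edge points (it is the mirror of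
  Beffara - Duminil-Copin 2012, Section 3, for FK on `ℤ²`).   A text for (L) along it would have to run PART I and PART II in the frame rotated by 45 degrees, AND to compare a non-plus blocking path (minus vertices, faces of BOTH
  signs) with a plus path of the face spins: this comparison is the shift of the heights by one in the RSW theory of the six-vertex height function, and it is not visible in the spin language used here.
EXITS: `a3t86Law` (the law of ANY system read on the refined lattice), `a3t86_law_ok`, `a3t86_law_link`, `a3t86_ord`, `a3t86_fkg`, **`a3t86_altC`**, **`a3t86_LKc`**, **`a3t86_rsw : A3t86Alt t ⟹ Krl96Rsw t`**, `a3t86_rswl`.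
-/

set_option autoImplicit false

namespace Claimed.Agent.R292

open Claims Claims.C0467 Relation Claimed.Agent.R291

/-! ## §1 the law of any system, read on the refined lattice -/

/-- the cell `y` is plus in `ω`: a plus vertex of the system or a good plus edge of the system -/
def A3t86Plus (Y : Rcy162Sys) (ω : RswCfg) (y : TV) : Prop := (∃ v ∈ Y.V, y = rtd111P v ∧ v ∈ ω.S) ∨ ∃ e ∈ Y.E, y = rtd111E e ∧ Y.Good true ω e

/-- **the law of the system `Y` read on the refined lattice**, any set of cells -/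
noncomputable def a3t86Law (Y : Rcy162Sys) (t : ℝ) (cells : Finset TV) : Rln182Law RswCfg TV where
  cfgs := Y.cfgs
  wt := Y.w t
  cells := cells
  le := Y.Le
  np := fun ω y => ¬ A3t86Plus Y ω y
  agr := fun Q ω ω' => (∀ v ∈ rse182Sv Y Q, (v ∈ ω.S ↔ v ∈ ω'.S)) ∧ ∀ e ∈ rse182Ed Y Q, Y.sgE ω e = Y.sgE ω' e

theorem a3t86_plus_congr {Y : Rcy162Sys} {Q : Finset TV} {ω ω' : RswCfg} (h1 : ∀ v ∈ rse182Sv Y Q, (v ∈ ω.S ↔ v ∈ ω'.S))
    (h2 : ∀ e ∈ rse182Ed Y Q, Y.sgE ω e = Y.sgE ω' e) {y : TV} (hy : y ∈ Q) (h : A3t86Plus Y ω y) : A3t86Plus Y ω' y := by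
  rcases h with ⟨v, hv, rfl, hs⟩ | ⟨e, he, rfl, hg⟩
  · exact Or.inl ⟨v, hv, rfl, (h1 v (rse182_mem_Sv.2 ⟨hv, _, hy, Or.inl rfl⟩)).1 hs⟩
  · have e1 : Y.sgE ω e = 1 := rcy162_sgE_one.2 ⟨he, hg⟩
    rw [h2 e (rse182_mem_Ed.2 ⟨he, hy⟩)] at e1
    exact Or.inr ⟨e, he, rfl, (rcy162_sgE_one.1 e1).2⟩

theorem a3t86_law_ok (Y : Rcy162Sys) {t : ℝ} (h0 : 0 ≤ t) (h1 : t ≤ 1) (cells : Finset TV) : (a3t86Law Y t cells).Ok where
  wt_nonneg := fun ω _ => rcy162_w_nonneg _ h0 h1 ω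
  np_anti := by
    intro ω ω' h y _ hn hy
    refine hn ?_
    rcases hy with ⟨v, hv, rfl, hs⟩ | ⟨e, he, rfl, hg⟩
    · exact Or.inl ⟨v, hv, rfl, h.1 hs⟩
    · exact Or.inr ⟨e, he, rfl, h.2.1 e hg⟩
  agr_refl := fun _ _ => ⟨fun _ _ => Iff.rfl, fun _ _ => rfl⟩
  agr_symm := fun _ _ _ h => ⟨fun v hv => (h.1 v hv).symm, fun e he => (h.2 e he).symm⟩
  agr_trans := fun _ _ _ _ h h' => ⟨fun v hv => (h.1 v hv).trans (h'.1 v hv), fun e he => (h.2 e he).trans (h'.2 e he)⟩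
  agr_np := by
    intro Q ω ω' h y hy
    exact not_congr ⟨a3t86_plus_congr h.1 h.2 hy, a3t86_plus_congr (fun v hv => (h.1 v hv).symm) (fun e he => (h.2 e he).symm) hy⟩

theorem a3t86_law_link (Y : Rcy162Sys) (t : ℝ) (cells : Finset TV) : Rse182Link Y t (a3t86Law Y t cells) where
  cfgs := rfl
  wt := rfl
  npE := by
    intro ω e he
    refine not_congr ⟨?_, fun hg => Or.inr ⟨e, he, rfl, hg⟩⟩
    rintro (⟨v, _, h, _⟩ | ⟨e', _, h, hg⟩)
    · exact absurd h.symm (rtd111_P_ne_E v e)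
    · rw [rtd111_E_inj h]; exact hg
  npP := by
    intro ω v hv
    refine not_congr ⟨?_, fun hs => Or.inl ⟨v, hv, rfl, hs⟩⟩
    rintro (⟨v', _, h, hs⟩ | ⟨e', _, h, _⟩)
    · rw [rtd111_P_inj h]; exact hs
    · exact absurd h (rtd111_P_ne_E v e')
  npF := by
    rintro ω f (⟨v, _, h, _⟩ | ⟨e, _, h, _⟩)
    · exact rtd111_P_ne_F v f h.symm
    · exact rtd111_F_ne_E f e h
  agr := fun _ _ _ _ => Iff.rfl

/-! ## §2 the tools on the mixed cylinder -/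

/-- (ORDER) for the law of 86      (292) -/
theorem a3t86_ord {t : ℝ} (h0 : 0 < t) (h1 : t ≤ 1) {L H : ℕ} (hL : 0 < L) (hH : 0 < H) : Rse182Ord (rcy162Cyl L 0 H) (rrc86L t L H) (rwl180KM L H) :=
  lo292_cyl_ord h0 h1 hL (by exact_mod_cast hH) (rrc86_L_link t L H) (fun _ _ h => h) (Finset.Subset.refl _) (Finset.Subset.refl _)

/-- (FKG)      (69) -/
theorem a3t86_fkg {t : ℝ} (h0 : 0 < t) (h1 : t ≤ 1) {L H : ℕ} (hL : 0 < L) (hH : 0 < H) : Rrc86Fkg t L H :=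
  fun _ _ hE hE' => rci69_Q_fkg h0 h1 hL hH hE hE'

/-! ## §3 the contract -/

/-- **NEAR** (deterministic): a patchable chain of cells bridges the two layers -/
def A3t86Near (t : ℝ) (L H n : ℕ) (c d w σ m e : ℤ) (ω₀ : RswCfg) : Prop :=
  ∃ l : List TV, Rtr257Br (rrc86L t L H) (sdRed (2 * L)) c d w σ m e ω₀ l ∧ Rwc117Pb L H (rrc86Q2 (rrc86L t L H) (sdRed (2 * L)) c d w σ m e) n ω₀ l

/-- **FAR**: the geometry of the strip (deterministic) + **(L)** the estimate in the closed strip system -/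
def A3t86Far (t : ℝ) (L H : ℕ) (c₀ : ℝ) (c d w σ m e : ℤ) (ω₀ : RswCfg) : Prop :=
  ∃ (W : Set TV) (T : Finset TV) (O : Finset ((ℤ × ℤ) × Bool)) (Lp Lm : Finset (ℤ × ℤ)), W ⊆ plsBand c d ∧ (∀ y ∈ T, Rse182Pt (rcy162Cyl L 0 H) y) ∧
    (∀ z ∈ W, sdRed (2 * L) z ∈ (rrc86L t L H).cells → sdRed (2 * L) z ∈ T) ∧
    Rwl180Geo (rcy162Cyl L 0 H) (rse182Obs (rcy162Cyl L 0 H) (rwl180KM L H) (rrc86Q2 (rrc86L t L H) (sdRed (2 * L)) c d w σ m e ω₀) ω₀) O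
      (rse182Ed (rcy162Cyl L 0 H) T) (rse182Sv (rcy162Cyl L 0 H) T) Lp Lm ∧
    (rwl180P (rcy162Cyl L 0 H) (rse182Obs (rcy162Cyl L 0 H) (rwl180KM L H) (rrc86Q2 (rrc86L t L H) (sdRed (2 * L)) c d w σ m e ω₀) ω₀) O
      (rse182Ed (rcy162Cyl L 0 H) T)).card ≤ 4 ∧
    c₀ * (rwl180SQ (rcy162Cyl L 0 H) (rse182Ed (rcy162Cyl L 0 H) T) (rse182Sv (rcy162Cyl L 0 H) T)).sum t
        (rse182Holds (rwl180SQ (rcy162Cyl L 0 H) (rse182Ed (rcy162Cyl L 0 H) T) (rse182Sv (rcy162Cyl L 0 H) T)) (rwl180H0 Lp Lm)) (fun _ => 1)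
      ≤ (rwl180SQ (rcy162Cyl L 0 H) (rse182Ed (rcy162Cyl L 0 H) T) (rse182Sv (rcy162Cyl L 0 H) T)).sum t
        (rse182Holds (rwl180SQ (rcy162Cyl L 0 H) (rse182Ed (rcy162Cyl L 0 H) T) (rse182Sv (rcy162Cyl L 0 H) T)) (rwl180H0 Lp Lm))
        (rln182Ind (Rrc86Join (rrc86L t L H) (sdRed (2 * L)) W (rrc86A (rrc86L t L H) (sdRed (2 * L)) c d w σ m e ω₀)
          (rrc86C (rrc86L t L H) (sdRed (2 * L)) c d w σ m e ω₀)))

/-- NEAR or FAR gives the alternative of 257, constants `rwc117Kap t n`, `c₀`, `8` -/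
theorem a3t86_alt {t : ℝ} (h0 : 0 < t) (h1 : t < 1) {L H : ℕ} (hL : 0 < L) (hH : 0 < H) {n : ℕ} {c₀ : ℝ} {c d : ℤ} (hc : 1 ≤ c) (hd : d ≤ 2 * (H : ℤ) - 1)
    (w σ m e : ℤ) (ω₀ : RswCfg) (h : A3t86Near t L H n c d w σ m e ω₀ ∨ A3t86Far t L H c₀ c d w σ m e ω₀) :
    Rtr257Alt (rrc86L t L H) (Rcy162Mix L 0 H) (sdRed (2 * L)) (rwc117Kap t n) c₀ 8 c d w σ m e ω₀ := by
  rcases h with ⟨l, hb, hp⟩ | ⟨W, T, O, Lp, Lm, hW, hT, hM, hG, hP, hest⟩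
  · exact Or.inl ⟨l, hb, rwc117_pat_cyl h0.le h1.le hL H _ n ω₀ l hp⟩
  · refine Or.inr (rtr257_strip_of ?_)
    have hlQ := a3t86_law_link (rwl180SQ (rcy162Cyl L 0 H) (rse182Ed (rcy162Cyl L 0 H) T) (rse182Sv (rcy162Cyl L 0 H) T)) t T
    refine rwl180_strip86 (rrc86_L_link t L H) (rrc86_L_ok h0.le h1.le L H) (rcy162_cyl_wf hL 0 H) h0 h1 (rwl180_KM_legal _ L H) (a3t86_ord h0 h1.le hL hH)
      (rwl180_KM_holds _ L H) (sdRed (2 * L)) c d w σ m e ω₀ (rwl180_Q2_pt t hc hd w σ m e ω₀) W hW T hT hM O Lp Lm hG hP hlQ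
      (a3t86_law_ok _ h0.le h1.le T) ?_
    unfold Rln182Law.Z
    rw [rse182_N_sum hlQ, rse182_N_sum hlQ]
    exact hest

/-- **THE CLOSED CONTRACT OF A3**: sizes, centres and events VERBATIM as in `Rrc86LKc` -/
def A3t86Alt (t : ℝ) : Prop :=
  ∃ (n : ℕ) (c₀ : ℝ), 0 < c₀ ∧ ∀ (L H : ℕ) (c r w : ℤ), 10 ≤ w → 12500 * w ≤ r → r ≤ 25000 * w → 16 * r ≤ 2 * L → r ≤ c → c + 2 * r ≤ 2 * (H : ℤ) - 1 →
    (∀ m e e2 : ℤ, (m = 7 * r ∨ m = 7 * r + 1) → e2 ≤ e → e + 3 * (20 * w + 8) + (5 * w + 1) + 8 ≤ 2 * e2 → e ≤ 7 * r →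
      ∀ ω₀ ∈ (rrc86L t L H).cfgs, Rcy162Mix L 0 H ω₀ →
        Rrc86G1 (m - e) (m + (20 * w + 8) + e) c (c + r) (5 * w + 1) m (m + (20 * w + 8)) (m + e2) (m + (20 * w + 8) - e2)
          (rrc86I (rrc86L t L H) (sdRed (2 * L)) c (c + r) (5 * w + 1) (20 * w + 8) m e ω₀) (rrc86J (rrc86L t L H) (sdRed (2 * L)) c (c + r) (5 * w + 1) (20 * w + 8) m e ω₀) →
        ¬ Rrc86Touch (rrc86A (rrc86L t L H) (sdRed (2 * L)) c (c + r) (5 * w + 1) (20 * w + 8) m e ω₀) (rrc86C (rrc86L t L H) (sdRed (2 * L)) c (c + r) (5 * w + 1) (20 * w + 8) m e ω₀) →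
        A3t86Near t L H n c (c + r) (5 * w + 1) (20 * w + 8) m e ω₀ ∨ A3t86Far t L H c₀ c (c + r) (5 * w + 1) (20 * w + 8) m e ω₀) ∧
    (∀ m e : ℤ, (m = 7 * r ∨ m = 7 * r + 1) → 5 * w + 1 ≤ e → e ≤ 20 * (20 * w + 8) →
      ∀ ω₀ ∈ (rrc86L t L H).cfgs, Rcy162Mix L 0 H ω₀ →
        Rrc86G0 (m - e) (m + (20 * w + 8) + e) c (c + r) (5 * w + 1) m (m + (20 * w + 8))
          (rrc86I (rrc86L t L H) (sdRed (2 * L)) c (c + r) (5 * w + 1) (20 * w + 8) m e ω₀) (rrc86J (rrc86L t L H) (sdRed (2 * L)) c (c + r) (5 * w + 1) (20 * w + 8) m e ω₀) →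
        ¬ Rrc86Touch (rrc86A (rrc86L t L H) (sdRed (2 * L)) c (c + r) (5 * w + 1) (20 * w + 8) m e ω₀) (rrc86C (rrc86L t L H) (sdRed (2 * L)) c (c + r) (5 * w + 1) (20 * w + 8) m e ω₀) →
        A3t86Near t L H n c (c + r) (5 * w + 1) (20 * w + 8) m e ω₀ ∨ A3t86Far t L H c₀ c (c + r) (5 * w + 1) (20 * w + 8) m e ω₀)

/-- the contract of 257 from the contract of A3 -/
theorem a3t86_altC {t : ℝ} (h0 : 0 < t) (h1 : t < 1) (h : A3t86Alt t) : Rtr257AltC t := by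
  obtain ⟨n, c₀, hc₀, M⟩ := h
  refine ⟨rwc117Kap t n, c₀, 8, rwc117_Kap_pos h0 n, hc₀, by norm_num, fun L H c r w hw hr1 hr2 hL2 hc hcH => ?_⟩
  obtain ⟨m1, m2⟩ := M L H c r w hw hr1 hr2 hL2 hc hcH
  have hL : 0 < L := by omega
  have hH : 0 < H := by omega
  refine ⟨fun m e e2 hm a1 a2 a3 ω₀ hω₀ hK hG ht => ?_, fun m e hm a1 a2 ω₀ hω₀ hK hG ht => ?_⟩
  · exact a3t86_alt h0 h1 hL hH (by omega) (by omega) _ _ m e ω₀ (m1 m e e2 hm a1 a2 a3 ω₀ hω₀ hK hG ht)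
  · exact a3t86_alt h0 h1 hL hH (by omega) (by omega) _ _ m e ω₀ (m2 m e hm a1 a2 ω₀ hω₀ hK hG ht)

theorem a3t86_LKc {t : ℝ} (h0 : 0 < t) (h1 : t < 1) (h : A3t86Alt t) : Rrc86LKc t := rtr257_LKc h0.le h1.le (a3t86_altC h0 h1 h)

/-- **(56) ON THE MIXED CYLINDER, in the form consumed by the kit (96)**, from the ONE contract of A3; no other hypothesis -/
theorem a3t86_rsw {t : ℝ} (h0 : 0 < t) (h1 : t < 1) (h : A3t86Alt t) : Krl96Rsw t :=
  krl96_rsw_of_86 t h0 h1.le (fun _ _ hL hH => a3t86_fkg h0 h1.le hL hH) (rrc86_glue_c t h0 h1.le (rrc86_SEc_of_LKc h0.le h1.le (a3t86_LKc h0 h1 h)))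

/-- the equation lemmas of the definitions of this file are generated HERE -/
theorem a3t86_eqns_cite : True := by
  have := @A3t86Plus.eq_1
  have := @a3t86Law.eq_1
  have := @A3t86Near.eq_1
  have := @A3t86Far.eq_1
  have := @A3t86Alt.eq_1
  trivial

/-! ## §4 (G) OF 110 DISCHARGED (`RswGeo110`, `rpg110_geo_cyl`): what is left of A3 = (P) at most four ports [deterministic] + (L), both for the EXPLICIT strip `rpr110Q` of 110; NEAR is no longer needed -/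

/-- the closed strip system of the record: the edges and the vertices of the cells of the strip `rpr110Q` between the two layers      (110, 180) -/
noncomputable def a3t86SQ (t : ℝ) (L H : ℕ) (c d w σ m e : ℤ) (ω₀ : RswCfg) : Rcy162Sys :=
  rwl180SQ (rcy162Cyl L 0 H) (rse182Ed (rcy162Cyl L 0 H) (rpg110Tc t L H c d w σ m e ω₀)) (rse182Sv (rcy162Cyl L 0 H) (rpg110Tc t L H c d w σ m e ω₀))

/-- the pins of the strip: plus on the two sides, minus on the two ends, nothing else -/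
noncomputable def a3t86H0 (t : ℝ) (L H : ℕ) (c d w σ m e : ℤ) (ω₀ : RswCfg) : RswCon :=
  rwl180H0 (rpg110Lp (rcy162Cyl L 0 H) (rpg110Rc t L H c d w σ m e ω₀) (rpg110Tc t L H c d w σ m e ω₀))
    (rpg110Lm (rcy162Cyl L 0 H) (rpg110Rc t L H c d w σ m e ω₀) (rpg110O (rcy162Cyl L 0 H) (m - e) (m + σ + e) c d) (rpg110Tc t L H c d w σ m e ω₀))

/-- **(P)** (deterministic): the strip has at most four ports -/
def A3t86Ports (t : ℝ) (L H : ℕ) (c d w σ m e : ℤ) (ω₀ : RswCfg) : Prop :=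
  (rwl180P (rcy162Cyl L 0 H) (rpg110Rc t L H c d w σ m e ω₀) (rpg110O (rcy162Cyl L 0 H) (m - e) (m + σ + e) c d)
    (rse182Ed (rcy162Cyl L 0 H) (rpg110Tc t L H c d w σ m e ω₀))).card ≤ 4

/-- **(L)**: in the closed strip system, under the pins alone, the two layers are joined inside the strip with conditional probability at least `c₀` -/
def A3t86L (t : ℝ) (L H : ℕ) (c₀ : ℝ) (c d w σ m e : ℤ) (ω₀ : RswCfg) : Prop :=
  c₀ * (a3t86SQ t L H c d w σ m e ω₀).sum t (rse182Holds (a3t86SQ t L H c d w σ m e ω₀) (a3t86H0 t L H c d w σ m e ω₀)) (fun _ => 1)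
    ≤ (a3t86SQ t L H c d w σ m e ω₀).sum t (rse182Holds (a3t86SQ t L H c d w σ m e ω₀) (a3t86H0 t L H c d w σ m e ω₀))
      (rln182Ind (Rrc86Join (rrc86L t L H) (sdRed (2 * L)) (rpr110Q (m - e) (m + σ + e) c d (rrc86A (rrc86L t L H) (sdRed (2 * L)) c d w σ m e ω₀) (rrc86C (rrc86L t L H) (sdRed (2 * L)) c d w σ m e ω₀)) (rrc86A (rrc86L t L H) (sdRed (2 * L)) c d w σ m e ω₀) (rrc86C (rrc86L t L H) (sdRed (2 * L)) c d w σ m e ω₀)))

/-- FAR from (P) + (L): the geometry is 110's -/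
theorem a3t86_far_of (t : ℝ) {L H : ℕ} (hL : 0 < L) {c₀ : ℝ} {c d w σ m e : ℤ} (hA : 0 ≤ m - e) (hB : m + σ + e + 1 < 2 * (L : ℤ)) (hc : 2 ≤ c) (hd : d ≤ 2 * (H : ℤ) - 1)
    (hcd : c < d) (hw : 0 ≤ w) (hσ : 2 * w < σ) (he : w ≤ e) (ω₀ : RswCfg)
    (hG : Rrc86G0 (m - e) (m + σ + e) c d w m (m + σ) (rrc86I (rrc86L t L H) (sdRed (2 * L)) c d w σ m e ω₀) (rrc86J (rrc86L t L H) (sdRed (2 * L)) c d w σ m e ω₀))
    (hT1 : ¬ Rrc86Touch (rrc86A (rrc86L t L H) (sdRed (2 * L)) c d w σ m e ω₀) (rrc86C (rrc86L t L H) (sdRed (2 * L)) c d w σ m e ω₀))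
    (hP : A3t86Ports t L H c d w σ m e ω₀) (hest : A3t86L t L H c₀ c d w σ m e ω₀) : A3t86Far t L H c₀ c d w σ m e ω₀ := by
  have hR := rpg110_read_cyl t hL hA hB hcd hw hσ he ω₀ hG
  have hT := rpg110_mem_T hR.strip
  have hin : ∀ z ∈ rpr110Q (m - e) (m + σ + e) c d (rrc86A (rrc86L t L H) (sdRed (2 * L)) c d w σ m e ω₀) (rrc86C (rrc86L t L H) (sdRed (2 * L)) c d w σ m e ω₀),
      (0 ≤ z.1 ∧ z.1 < 2 * (L : ℤ)) ∧ c ≤ z.2 ∧ z.2 ≤ d := by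
    intro z hz
    obtain ⟨g1, g2, g3, g4⟩ := hR.strip hz
    have g1' : m - e + 1 ≤ z.1 := g1
    have g2' : z.1 ≤ m + σ + e - 1 := g2
    exact ⟨⟨by omega, by omega⟩, g3, g4⟩
  refine ⟨rpr110Q (m - e) (m + σ + e) c d (rrc86A (rrc86L t L H) (sdRed (2 * L)) c d w σ m e ω₀) (rrc86C (rrc86L t L H) (sdRed (2 * L)) c d w σ m e ω₀), rpg110Tc t L H c d w σ m e ω₀, rpg110O (rcy162Cyl L 0 H) (m - e) (m + σ + e) c d,
    rpg110Lp (rcy162Cyl L 0 H) (rpg110Rc t L H c d w σ m e ω₀) (rpg110Tc t L H c d w σ m e ω₀),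
    rpg110Lm (rcy162Cyl L 0 H) (rpg110Rc t L H c d w σ m e ω₀) (rpg110O (rcy162Cyl L 0 H) (m - e) (m + σ + e) c d) (rpg110Tc t L H c d w σ m e ω₀),
    fun z hz => hz.1, ?_, ?_, rpg110_geo_cyl t hL hA hB hc hcd hw hσ he ω₀ hG hT1, hP, hest⟩
  · intro y hy
    obtain ⟨⟨a1, a2⟩, a3, a4⟩ := hin y ((hT y).1 hy)
    exact rwl180_pt_cyl (rrc86_mem_cells.2 ⟨⟨a1, a2⟩, by omega, by omega⟩) (by omega) (by omega)
  · intro z hz _
    obtain ⟨⟨a1, a2⟩, -⟩ := hin z hz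
    rw [rpg110_red_id a1 a2]
    exact (hT z).2 hz

/-- **THE SHARP CONTRACT OF A3** (23:15Z): sizes, centres and events VERBATIM as in `Rrc86LKc`; under every non-touching record: (P) and (L) for the explicit strip -/
def A3t86PL (t : ℝ) : Prop :=
  ∃ c₀ : ℝ, 0 < c₀ ∧ ∀ (L H : ℕ) (c r w : ℤ), 10 ≤ w → 12500 * w ≤ r → r ≤ 25000 * w → 16 * r ≤ 2 * L → r ≤ c → c + 2 * r ≤ 2 * (H : ℤ) - 1 →
    (∀ m e e2 : ℤ, (m = 7 * r ∨ m = 7 * r + 1) → e2 ≤ e → e + 3 * (20 * w + 8) + (5 * w + 1) + 8 ≤ 2 * e2 → e ≤ 7 * r →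
      ∀ ω₀ ∈ (rrc86L t L H).cfgs, Rcy162Mix L 0 H ω₀ →
        Rrc86G1 (m - e) (m + (20 * w + 8) + e) c (c + r) (5 * w + 1) m (m + (20 * w + 8)) (m + e2) (m + (20 * w + 8) - e2)
          (rrc86I (rrc86L t L H) (sdRed (2 * L)) c (c + r) (5 * w + 1) (20 * w + 8) m e ω₀) (rrc86J (rrc86L t L H) (sdRed (2 * L)) c (c + r) (5 * w + 1) (20 * w + 8) m e ω₀) →
        ¬ Rrc86Touch (rrc86A (rrc86L t L H) (sdRed (2 * L)) c (c + r) (5 * w + 1) (20 * w + 8) m e ω₀) (rrc86C (rrc86L t L H) (sdRed (2 * L)) c (c + r) (5 * w + 1) (20 * w + 8) m e ω₀) →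
        A3t86Ports t L H c (c + r) (5 * w + 1) (20 * w + 8) m e ω₀ ∧ A3t86L t L H c₀ c (c + r) (5 * w + 1) (20 * w + 8) m e ω₀) ∧
    (∀ m e : ℤ, (m = 7 * r ∨ m = 7 * r + 1) → 5 * w + 1 ≤ e → e ≤ 20 * (20 * w + 8) →
      ∀ ω₀ ∈ (rrc86L t L H).cfgs, Rcy162Mix L 0 H ω₀ →
        Rrc86G0 (m - e) (m + (20 * w + 8) + e) c (c + r) (5 * w + 1) m (m + (20 * w + 8))
          (rrc86I (rrc86L t L H) (sdRed (2 * L)) c (c + r) (5 * w + 1) (20 * w + 8) m e ω₀) (rrc86J (rrc86L t L H) (sdRed (2 * L)) c (c + r) (5 * w + 1) (20 * w + 8) m e ω₀) →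
        ¬ Rrc86Touch (rrc86A (rrc86L t L H) (sdRed (2 * L)) c (c + r) (5 * w + 1) (20 * w + 8) m e ω₀) (rrc86C (rrc86L t L H) (sdRed (2 * L)) c (c + r) (5 * w + 1) (20 * w + 8) m e ω₀) →
        A3t86Ports t L H c (c + r) (5 * w + 1) (20 * w + 8) m e ω₀ ∧ A3t86L t L H c₀ c (c + r) (5 * w + 1) (20 * w + 8) m e ω₀)

theorem a3t86_alt_of_PL {t : ℝ} (h : A3t86PL t) : A3t86Alt t := by
  obtain ⟨c₀, hc₀, M⟩ := h
  refine ⟨0, c₀, hc₀, fun L H c r w hw hr1 hr2 hL2 hc hcH => ?_⟩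
  obtain ⟨m1, m2⟩ := M L H c r w hw hr1 hr2 hL2 hc hcH
  have hL : 0 < L := by omega
  refine ⟨fun m e e2 hm a1 a2 a3 ω₀ hω₀ hK hG ht => Or.inr ?_, fun m e hm a1 a2 ω₀ hω₀ hK hG ht => Or.inr ?_⟩
  · obtain ⟨p1, p2⟩ := m1 m e e2 hm a1 a2 a3 ω₀ hω₀ hK hG ht
    exact a3t86_far_of t hL (by omega) (by omega) (by omega) (by omega) (by omega) (by omega) (by omega) (by omega) ω₀ hG.1 ht p1 p2
  · obtain ⟨p1, p2⟩ := m2 m e hm a1 a2 ω₀ hω₀ hK hG ht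
    exact a3t86_far_of t hL (by omega) (by omega) (by omega) (by omega) (by omega) (by omega) (by omega) (by omega) ω₀ hG ht p1 p2

/-- **(56) in the form consumed by the kit, from (P) + (L) alone** -/
theorem a3t86_rsw_PL {t : ℝ} (h0 : 0 < t) (h1 : t < 1) (h : A3t86PL t) : Krl96Rsw t := a3t86_rsw h0 h1 (a3t86_alt_of_PL h)

theorem a3t86_eqns_cite2 : True := by
  have := @a3t86SQ.eq_1
  have := @a3t86H0.eq_1
  have := @A3t86Ports.eq_1
  have := @A3t86L.eq_1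
  have := @A3t86PL.eq_1
  trivial

/-! ## §5 the sharp contract split: (P) closed deterministic contract `A3t86Pc`, (L) closed probabilistic contract `A3t86Lc` -/

/-- **(P), closed**: every non-touching record of the sizes of `Rrc86LKc` (both regimes lie in `5 w + 1 ≤ e ≤ 7 r`, event `G0`) has at most four ports      DETERMINISTIC -/
def A3t86Pc (t : ℝ) : Prop :=
  ∀ (L H : ℕ) (c r w : ℤ), 10 ≤ w → 12500 * w ≤ r → r ≤ 25000 * w → 16 * r ≤ 2 * L → r ≤ c → c + 2 * r ≤ 2 * (H : ℤ) - 1 →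
    ∀ m e : ℤ, (m = 7 * r ∨ m = 7 * r + 1) → 5 * w + 1 ≤ e → e ≤ 7 * r → ∀ ω₀ : RswCfg,
      Rrc86G0 (m - e) (m + (20 * w + 8) + e) c (c + r) (5 * w + 1) m (m + (20 * w + 8))
        (rrc86I (rrc86L t L H) (sdRed (2 * L)) c (c + r) (5 * w + 1) (20 * w + 8) m e ω₀) (rrc86J (rrc86L t L H) (sdRed (2 * L)) c (c + r) (5 * w + 1) (20 * w + 8) m e ω₀) →
      ¬ Rrc86Touch (rrc86A (rrc86L t L H) (sdRed (2 * L)) c (c + r) (5 * w + 1) (20 * w + 8) m e ω₀) (rrc86C (rrc86L t L H) (sdRed (2 * L)) c (c + r) (5 * w + 1) (20 * w + 8) m e ω₀) →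
      A3t86Ports t L H c (c + r) (5 * w + 1) (20 * w + 8) m e ω₀

/-- **(L), closed**: THE ONE PROBABILISTIC OPEN END OF A3 -/
def A3t86Lc (t : ℝ) : Prop :=
  ∃ c₀ : ℝ, 0 < c₀ ∧ ∀ (L H : ℕ) (c r w : ℤ), 10 ≤ w → 12500 * w ≤ r → r ≤ 25000 * w → 16 * r ≤ 2 * L → r ≤ c → c + 2 * r ≤ 2 * (H : ℤ) - 1 →
    (∀ m e e2 : ℤ, (m = 7 * r ∨ m = 7 * r + 1) → e2 ≤ e → e + 3 * (20 * w + 8) + (5 * w + 1) + 8 ≤ 2 * e2 → e ≤ 7 * r →
      ∀ ω₀ ∈ (rrc86L t L H).cfgs, Rcy162Mix L 0 H ω₀ →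
        Rrc86G1 (m - e) (m + (20 * w + 8) + e) c (c + r) (5 * w + 1) m (m + (20 * w + 8)) (m + e2) (m + (20 * w + 8) - e2)
          (rrc86I (rrc86L t L H) (sdRed (2 * L)) c (c + r) (5 * w + 1) (20 * w + 8) m e ω₀) (rrc86J (rrc86L t L H) (sdRed (2 * L)) c (c + r) (5 * w + 1) (20 * w + 8) m e ω₀) →
        ¬ Rrc86Touch (rrc86A (rrc86L t L H) (sdRed (2 * L)) c (c + r) (5 * w + 1) (20 * w + 8) m e ω₀) (rrc86C (rrc86L t L H) (sdRed (2 * L)) c (c + r) (5 * w + 1) (20 * w + 8) m e ω₀) →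
        A3t86L t L H c₀ c (c + r) (5 * w + 1) (20 * w + 8) m e ω₀) ∧
    (∀ m e : ℤ, (m = 7 * r ∨ m = 7 * r + 1) → 5 * w + 1 ≤ e → e ≤ 20 * (20 * w + 8) →
      ∀ ω₀ ∈ (rrc86L t L H).cfgs, Rcy162Mix L 0 H ω₀ →
        Rrc86G0 (m - e) (m + (20 * w + 8) + e) c (c + r) (5 * w + 1) m (m + (20 * w + 8))
          (rrc86I (rrc86L t L H) (sdRed (2 * L)) c (c + r) (5 * w + 1) (20 * w + 8) m e ω₀) (rrc86J (rrc86L t L H) (sdRed (2 * L)) c (c + r) (5 * w + 1) (20 * w + 8) m e ω₀) →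
        ¬ Rrc86Touch (rrc86A (rrc86L t L H) (sdRed (2 * L)) c (c + r) (5 * w + 1) (20 * w + 8) m e ω₀) (rrc86C (rrc86L t L H) (sdRed (2 * L)) c (c + r) (5 * w + 1) (20 * w + 8) m e ω₀) →
        A3t86L t L H c₀ c (c + r) (5 * w + 1) (20 * w + 8) m e ω₀)

theorem a3t86_PL_of {t : ℝ} (hP : A3t86Pc t) (h : A3t86Lc t) : A3t86PL t := by
  obtain ⟨c₀, hc₀, M⟩ := h
  refine ⟨c₀, hc₀, fun L H c r w hw hr1 hr2 hL2 hc hcH => ?_⟩
  obtain ⟨m1, m2⟩ := M L H c r w hw hr1 hr2 hL2 hc hcH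
  refine ⟨fun m e e2 hm a1 a2 a3 ω₀ hω₀ hK hG ht => ⟨?_, m1 m e e2 hm a1 a2 a3 ω₀ hω₀ hK hG ht⟩, fun m e hm a1 a2 ω₀ hω₀ hK hG ht => ⟨?_, m2 m e hm a1 a2 ω₀ hω₀ hK hG ht⟩⟩
  · exact hP L H c r w hw hr1 hr2 hL2 hc hcH m e hm (by omega) a3 ω₀ hG.1 ht
  · exact hP L H c r w hw hr1 hr2 hL2 hc hcH m e hm a1 (by omega) ω₀ hG ht

theorem a3t86_eqns_cite3 : True := by
  have := @A3t86Pc.eq_1
  have := @A3t86Lc.eq_1
  trivial

/-! ## §6 (P) IS CLOSED (110, `rpg110_ports_cyl`, 23:19Z): A3 = (L) ALONE -/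

/-- **(P)**      (110) -/
theorem a3t86_Pc (t : ℝ) : A3t86Pc t := by
  intro L H c r w hw hr1 hr2 hL2 hc hcH m e hm a1 a2 ω₀ hG ht
  exact rpg110_ports_cyl t (by omega) (by omega) (by omega) (by omega) (by omega) (by omega) (by omega) (by omega) ω₀ hG ht

/-- the contract of the block from (L) alone -/
theorem a3t86_alt_of_Lc {t : ℝ} (h : A3t86Lc t) : A3t86Alt t := a3t86_alt_of_PL (a3t86_PL_of (a3t86_Pc t) h)

/-- **(56) ON THE MIXED CYLINDER, in the form consumed by the kit (96), FROM (L) ALONE**: every deterministic step of A3 is in the kernel -/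
theorem a3t86_rsw_Lc {t : ℝ} (h0 : 0 < t) (h1 : t < 1) (h : A3t86Lc t) : Krl96Rsw t := a3t86_rsw h0 h1 (a3t86_alt_of_Lc h)

/-! ## §7 the WEAKEST form of the open end: (L) is asked only for the records whose layers are NOT NEAR (`n` free) -/

/-- **(L) for the far records only**: `n` is free; a record whose layers are bridged by a patchable chain of at most `n` edges (`A3t86Near`; 117, 257) asks nothing -/
def A3t86Lf (t : ℝ) : Prop :=
  ∃ (n : ℕ) (c₀ : ℝ), 0 < c₀ ∧ ∀ (L H : ℕ) (c r w : ℤ), 10 ≤ w → 12500 * w ≤ r → r ≤ 25000 * w → 16 * r ≤ 2 * L → r ≤ c → c + 2 * r ≤ 2 * (H : ℤ) - 1 →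
    (∀ m e e2 : ℤ, (m = 7 * r ∨ m = 7 * r + 1) → e2 ≤ e → e + 3 * (20 * w + 8) + (5 * w + 1) + 8 ≤ 2 * e2 → e ≤ 7 * r →
      ∀ ω₀ ∈ (rrc86L t L H).cfgs, Rcy162Mix L 0 H ω₀ →
        Rrc86G1 (m - e) (m + (20 * w + 8) + e) c (c + r) (5 * w + 1) m (m + (20 * w + 8)) (m + e2) (m + (20 * w + 8) - e2)
          (rrc86I (rrc86L t L H) (sdRed (2 * L)) c (c + r) (5 * w + 1) (20 * w + 8) m e ω₀) (rrc86J (rrc86L t L H) (sdRed (2 * L)) c (c + r) (5 * w + 1) (20 * w + 8) m e ω₀) →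
        ¬ Rrc86Touch (rrc86A (rrc86L t L H) (sdRed (2 * L)) c (c + r) (5 * w + 1) (20 * w + 8) m e ω₀) (rrc86C (rrc86L t L H) (sdRed (2 * L)) c (c + r) (5 * w + 1) (20 * w + 8) m e ω₀) →
        ¬ A3t86Near t L H n c (c + r) (5 * w + 1) (20 * w + 8) m e ω₀ → A3t86L t L H c₀ c (c + r) (5 * w + 1) (20 * w + 8) m e ω₀) ∧
    (∀ m e : ℤ, (m = 7 * r ∨ m = 7 * r + 1) → 5 * w + 1 ≤ e → e ≤ 20 * (20 * w + 8) →
      ∀ ω₀ ∈ (rrc86L t L H).cfgs, Rcy162Mix L 0 H ω₀ →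
        Rrc86G0 (m - e) (m + (20 * w + 8) + e) c (c + r) (5 * w + 1) m (m + (20 * w + 8))
          (rrc86I (rrc86L t L H) (sdRed (2 * L)) c (c + r) (5 * w + 1) (20 * w + 8) m e ω₀) (rrc86J (rrc86L t L H) (sdRed (2 * L)) c (c + r) (5 * w + 1) (20 * w + 8) m e ω₀) →
        ¬ Rrc86Touch (rrc86A (rrc86L t L H) (sdRed (2 * L)) c (c + r) (5 * w + 1) (20 * w + 8) m e ω₀) (rrc86C (rrc86L t L H) (sdRed (2 * L)) c (c + r) (5 * w + 1) (20 * w + 8) m e ω₀) →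
        ¬ A3t86Near t L H n c (c + r) (5 * w + 1) (20 * w + 8) m e ω₀ → A3t86L t L H c₀ c (c + r) (5 * w + 1) (20 * w + 8) m e ω₀)

theorem a3t86_Lf_of_Lc {t : ℝ} (h : A3t86Lc t) : A3t86Lf t := by
  obtain ⟨c₀, hc₀, M⟩ := h
  refine ⟨0, c₀, hc₀, fun L H c r w hw hr1 hr2 hL2 hc hcH => ?_⟩
  obtain ⟨m1, m2⟩ := M L H c r w hw hr1 hr2 hL2 hc hcH
  exact ⟨fun m e e2 hm a1 a2 a3 ω₀ hω₀ hK hG ht _ => m1 m e e2 hm a1 a2 a3 ω₀ hω₀ hK hG ht, fun m e hm a1 a2 ω₀ hω₀ hK hG ht _ => m2 m e hm a1 a2 ω₀ hω₀ hK hG ht⟩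

theorem a3t86_alt_of_Lf {t : ℝ} (h : A3t86Lf t) : A3t86Alt t := by
  obtain ⟨n, c₀, hc₀, M⟩ := h
  refine ⟨n, c₀, hc₀, fun L H c r w hw hr1 hr2 hL2 hc hcH => ?_⟩
  obtain ⟨m1, m2⟩ := M L H c r w hw hr1 hr2 hL2 hc hcH
  have hL : 0 < L := by omega
  refine ⟨fun m e e2 hm a1 a2 a3 ω₀ hω₀ hK hG ht => ?_, fun m e hm a1 a2 ω₀ hω₀ hK hG ht => ?_⟩
  · by_cases hn : A3t86Near t L H n c (c + r) (5 * w + 1) (20 * w + 8) m e ω₀
    · exact Or.inl hn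
    · exact Or.inr (a3t86_far_of t hL (by omega) (by omega) (by omega) (by omega) (by omega) (by omega) (by omega) (by omega) ω₀ hG.1 ht
        (a3t86_Pc t L H c r w hw hr1 hr2 hL2 hc hcH m e hm (by omega) a3 ω₀ hG.1 ht) (m1 m e e2 hm a1 a2 a3 ω₀ hω₀ hK hG ht hn))
  · by_cases hn : A3t86Near t L H n c (c + r) (5 * w + 1) (20 * w + 8) m e ω₀
    · exact Or.inl hn
    · exact Or.inr (a3t86_far_of t hL (by omega) (by omega) (by omega) (by omega) (by omega) (by omega) (by omega) (by omega) ω₀ hG ht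
        (a3t86_Pc t L H c r w hw hr1 hr2 hL2 hc hcH m e hm a1 (by omega) ω₀ hG ht) (m2 m e hm a1 a2 ω₀ hω₀ hK hG ht hn))

/-- **(56) in the form consumed by the kit, from (L) for the far records** -/
theorem a3t86_rsw_Lf {t : ℝ} (h0 : 0 < t) (h1 : t < 1) (h : A3t86Lf t) : Krl96Rsw t := a3t86_rsw h0 h1 (a3t86_alt_of_Lf h)

theorem a3t86_eqns_cite4 : True := by
  have := @A3t86Lf.eq_1
  trivial

/-- dictionary: NEAR of this file = NEAR of 257 (the producers of 117, `RswNear117`, end in `Rtr257Near`) -/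
theorem a3t86_near_iff (t : ℝ) (L H n : ℕ) (c d w σ m e : ℤ) (ω₀ : RswCfg) : A3t86Near t L H n c d w σ m e ω₀ ↔ Rtr257Near t L H n c d w σ m e ω₀ := Iff.rfl

end Claimed.Agent.R292
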