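import Claimed.Agent.R292.Rsw.HpDefs12

/-!
# Row 292 (S0540), Rsw/HpAsm189 : R8 CORE, block A5-B5, leaf S6 = THE ASSEMBLY OF (HP) FROM THE CONTRACTS OF `Rsw/HpDefs12`      (owner helper189; prefix `hpa189_`)      0 sorry

`hpa189_hpd : Hpd12Cut t → Hpd12Top t → Hpd12Ord t → Hpd12Det → Hpd12Cyl t → RnzHPd t false (·.2) (·.1)`,   **`hpa189_hp : … → RnzHP t`** (colour flip + lattice symmetries of RenSep189 sec. 10, 11).
* `hpa189_core` : `(F, K)` in the fundamental domain of the tall cylinder `Y = rcy162Cyl L 0 B`, `K` above the row `H`.   `E` = minus blocking of the band `2 (H/10) + 1 .. 2 (H/5) + 1`, `Z₁ N₁` = sums under the lower prescriptions,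
  `Z₂ N₂` = sums under the upper ones.   (Ord) at `1 - 1_E` (increasing): `Z₁ N₂(E) ≤ N₁(E) Z₂`;   (Top): `N₂(E) = Q(E) Z₂ ≥ δ Z₂`;   (Det): `N₁(E) ≤ N₁(Sep)`;   (Cut): `N₁(Sep) Z_F(K) = N_F(K; Sep) Z₁`;   cancel `Z₁, Z₂ > 0`.
* `hpa189_hpd`  : translation of `(F, K)` by `(-x₀, -c)` (`rsyT`, `rrs189_map_PK_sep`);   `L = C H + H + 2`, `B` = top of `F` + `H` + 2.
-/

set_option autoImplicit false

namespace Claimed.Agent.R292

open Claims Claims.C0468 Claimed.Agent.R291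

/-- the complement of a minus blocking is an increasing event -/
theorem hpa189_blk_compl_inc (c d : ℤ) : CyInc (cyBlk (-1) c d)ᶜ := by
  intro τ τ' hl ht h'
  apply ht
  intro hx
  refine h' (cy_X_mono (Set.sdiff_subset_sdiff_right ?_) hx)
  intro u hu
  have h1 : τ' u = -1 := hu
  have h2 := hl u
  rw [h1] at h2
  exact le_antisymm h2 (SignType.neg_one_le _)

/-- the indicator of an increasing event of the field is an increasing observable of the system -/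
theorem hpa189_inc_fld (L : ℕ) (Y : Rcy162Sys) {E : Set CyF} (hE : CyInc E) : Rci69Inc Y (fun ω => rsxInd (rcy162Fld L Y ω ∈ E)) := by
  intro ω ω' hle
  show rsxInd (rcy162Fld L Y ω ∈ E) ≤ rsxInd (rcy162Fld L Y ω' ∈ E)
  by_cases h : rcy162Fld L Y ω ∈ E
  · rw [rsx_ind_pos h, rsx_ind_pos (hE _ _ (fun p => rcy162_fld_mono L hle p) h)]
  · rw [rsx_ind_neg h]; exact rsx_ind_nonneg _

/-- a separation event of `F` reads the inside of `F` only -/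
theorem hpa189_sep_inside (F A B : Finset (ℤ × ℤ)) (a : Bool) : RskInside F (fun ω => rsxInd (RswSep F a ω A B)) := by
  intro ω
  refine rsx_ind_congr (rrt109_sep_loc F A B a (rskIn F ω) ω ?_ ?_)
  · show ω.S ∩ cornersOf F ∩ cornersOf F = ω.S ∩ cornersOf F
    rw [Finset.inter_assoc, Finset.inter_self]
  · show ω.O ∩ rswInt F ∩ rswInt F = ω.O ∩ rswInt F
    rw [Finset.inter_assoc, Finset.inter_self]

/-- **the comparison in the tall cylinder** -/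
theorem hpa189_core {t : ℝ} (h0 : 0 < t) (h1 : t ≤ 1) (hCut : Hpd12Cut t) (hTop : Hpd12Top t) (hOrd : Hpd12Ord t) (hDet : Hpd12Det)
    {L H : ℕ} {B : ℤ} {F : Finset (ℤ × ℤ)} {K : RswCon} {δ : ℝ} (hL : 0 < L) (hH : 1 ≤ H) (hB : (H : ℤ) < B) (hG : Hpd12Geo L 0 B F)
    (hK : K.Legal (F.filter (fun f => (H : ℤ) ≤ f.2))) (hfe : K.Feas t F false)
    (hδ : δ ≤ rcy162Q t L H (cyBlk (-1) (2 * ((H / 10 : ℕ) : ℤ) + 1) (2 * ((H / 5 : ℕ) : ℤ) + 1))) :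
    δ ≤ rswPK t F false K (fun ω => RswSep F false ω (F.filter (fun f => f.2 ≤ ((H / 10 : ℕ) : ℤ))) (F.filter (fun f => ((H / 5 : ℕ) : ℤ) ≤ f.2))) := by
  obtain ⟨q, hq⟩ : ∃ q : ℕ, q = H / 10 := ⟨_, rfl⟩
  obtain ⟨q', hq'⟩ : ∃ q' : ℕ, q' = H / 5 := ⟨_, rfl⟩
  rw [← hq, ← hq'] at hδ ⊢
  have hH0 : (0 : ℤ) < (H : ℤ) := by omega
  obtain ⟨hZ1', hcut⟩ := hCut L 0 B F K hL (by omega) hG (rnz_legal_mono (Finset.filter_subset _ _) hK)
  have hZ1 := hZ1' hfe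
  obtain ⟨hZ2, htop⟩ := hTop L 0 H B hL hH0 hB
  have e2 := htop (cyBlk (-1) (2 * (q : ℤ) + 1) (2 * (q' : ℤ) + 1)) (cy_sup_mono (cy_sup_Blk _ _ _) (by omega) (by omega))
  rw [← rcy162_Q_eq_QM] at e2
  have hord := hOrd L 0 H B F K _ hL hH0 hB hG hK
    (hpa189_inc_fld L (rcy162Cyl L 0 B) (hpa189_blk_compl_inc (2 * (q : ℤ) + 1) (2 * (q' : ℤ) + 1)))
  have ec : ∀ P : RswCfg → Prop, (rcy162Cyl L 0 B).sum t P
        (fun ω => rsxInd (rcy162Fld L (rcy162Cyl L 0 B) ω ∈ (cyBlk (-1) (2 * (q : ℤ) + 1) (2 * (q' : ℤ) + 1))ᶜ)) =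
      (rcy162Cyl L 0 B).sum t P (fun _ => 1) -
        (rcy162Cyl L 0 B).sum t P (fun ω => rsxInd (rcy162Fld L (rcy162Cyl L 0 B) ω ∈ cyBlk (-1) (2 * (q : ℤ) + 1) (2 * (q' : ℤ) + 1))) := by
    intro P
    rw [← rcy162_sum_sub]
    refine congrArg _ (funext fun ω => ?_)
    by_cases h : rcy162Fld L (rcy162Cyl L 0 B) ω ∈ cyBlk (-1) (2 * (q : ℤ) + 1) (2 * (q' : ℤ) + 1)
    · rw [rsx_ind_pos h, rsx_ind_neg (fun hc => hc h)]; ring
    · rw [rsx_ind_neg h, rsx_ind_pos (show _ ∈ (cyBlk (-1) (2 * (q : ℤ) + 1) (2 * (q' : ℤ) + 1))ᶜ from h)]; ring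
  rw [ec, ec] at hord
  have hdet : (rcy162Cyl L 0 B).sum t (hpd12Lo L 0 B F K).Holds
        (fun ω => rsxInd (rcy162Fld L (rcy162Cyl L 0 B) ω ∈ cyBlk (-1) (2 * (q : ℤ) + 1) (2 * (q' : ℤ) + 1))) ≤
      (rcy162Cyl L 0 B).sum t (hpd12Lo L 0 B F K).Holds
        (fun ω => rsxInd (RswSep F false ω (F.filter (fun f => f.2 ≤ (q : ℤ))) (F.filter (fun f => (q' : ℤ) ≤ f.2)))) := by
    refine rcy162_sum_mono' _ _ h0.le h1 fun ω hω _ => ?_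
    by_cases h : rcy162Fld L (rcy162Cyl L 0 B) ω ∈ cyBlk (-1) (2 * (q : ℤ) + 1) (2 * (q' : ℤ) + 1)
    · have hd := hDet L 0 B q ((q' : ℤ) + 1) F ω hL hG hω.2.2 (by omega)
        (by rw [show 2 * ((q' : ℤ) + 1) - 1 = 2 * (q' : ℤ) + 1 by ring]; exact h)
      simp only [add_sub_cancel_right] at hd
      rw [rsx_ind_pos h, rsx_ind_pos hd]
    · rw [rsx_ind_neg h]; exact rsx_ind_nonneg _
  have hc := hcut _ (hpa189_sep_inside F (F.filter (fun f => f.2 ≤ (q : ℤ))) (F.filter (fun f => (q' : ℤ) ≤ f.2)) false)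
  have hZF : 0 < rnzZ t F false K := (rnz_feas_iff t F false K).1 hfe
  rw [rnz_PK_eq, le_div_iff₀ hZF]
  revert hZ1 hZ2 e2 hord hdet hc
  generalize (rcy162Cyl L 0 B).sum t (hpd12Lo L 0 B F K).Holds (fun _ => 1) = Z₁
  generalize (rcy162Cyl L 0 B).sum t (hpd12Up L 0 H B).Holds (fun _ => 1) = Z₂
  generalize (rcy162Cyl L 0 B).sum t (hpd12Lo L 0 B F K).Holds
    (fun ω => rsxInd (rcy162Fld L (rcy162Cyl L 0 B) ω ∈ cyBlk (-1) (2 * (q : ℤ) + 1) (2 * (q' : ℤ) + 1))) = N₁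
  generalize (rcy162Cyl L 0 B).sum t (hpd12Up L 0 H B).Holds
    (fun ω => rsxInd (rcy162Fld L (rcy162Cyl L 0 B) ω ∈ cyBlk (-1) (2 * (q : ℤ) + 1) (2 * (q' : ℤ) + 1))) = N₂
  generalize (rcy162Cyl L 0 B).sum t (hpd12Lo L 0 B F K).Holds
    (fun ω => rsxInd (RswSep F false ω (F.filter (fun f => f.2 ≤ (q : ℤ))) (F.filter (fun f => (q' : ℤ) ≤ f.2)))) = N₃
  generalize rnzN t F false K (fun ω => rsxInd (RswSep F false ω (F.filter (fun f => f.2 ≤ (q : ℤ))) (F.filter (fun f => (q' : ℤ) ≤ f.2)))) = NF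
  generalize rnzZ t F false K = ZF at hZF ⊢
  generalize rcy162Q t L H (cyBlk (-1) (2 * (q : ℤ) + 1) (2 * (q' : ℤ) + 1)) = Q at hδ
  intro hZ1 hZ2 e2 hord hdet hc
  -- `Z₁ N₂ ≤ N₁ Z₂`
  have a1 : Z₁ * N₂ ≤ N₁ * Z₂ := by nlinarith
  have a2 : Z₁ * (δ * Z₂) ≤ N₃ * Z₂ := by
    calc Z₁ * (δ * Z₂) ≤ Z₁ * (Q * Z₂) := mul_le_mul_of_nonneg_left (mul_le_mul_of_nonneg_right hδ hZ2.le) hZ1.le
      _ = Z₁ * N₂ := by rw [e2]
      _ ≤ N₁ * Z₂ := a1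
      _ ≤ N₃ * Z₂ := mul_le_mul_of_nonneg_right hdet hZ2.le
  have a3 : Z₁ * δ ≤ N₃ := by
    have : (Z₁ * δ) * Z₂ ≤ N₃ * Z₂ := by linarith [a2, mul_assoc Z₁ δ Z₂]
    exact le_of_mul_le_mul_right this hZ2
  have a4 : Z₁ * (δ * ZF) ≤ Z₁ * NF := by
    calc Z₁ * (δ * ZF) = (Z₁ * δ) * ZF := by ring
      _ ≤ N₃ * ZF := mul_le_mul_of_nonneg_right a3 hZF.le
      _ = NF * Z₁ := hc
      _ = Z₁ * NF := by ring
  exact le_of_mul_le_mul_left a4 hZ1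

/-- **(HP), minus colour, push upwards** -/
theorem hpa189_hpd {t : ℝ} (h0 : 0 < t) (h1 : t ≤ 1) (hCut : Hpd12Cut t) (hTop : Hpd12Top t) (hOrd : Hpd12Ord t) (hDet : Hpd12Det)
    (hCyl : Hpd12Cyl t) : RnzHPd t false (fun f => f.2) (fun f => f.1) := by
  intro C
  obtain ⟨δ, hδ, H₀, hA⟩ := hCyl (C + 3)
  refine ⟨δ, hδ, max H₀ 1, fun H c F K hH hF hw hK hfe => ?_⟩
  have hH1 : H₀ ≤ H := le_trans (le_max_left _ _) hH
  have hH2 : 1 ≤ H := le_trans (le_max_right _ _) hH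
  dsimp only at hF hw hK ⊢
  obtain ⟨x₀, hx⟩ : ∃ x₀ : ℤ, ∀ f ∈ F, x₀ ≤ f.1 ∧ f.1 ≤ x₀ + C * H := by
    rcases F.eq_empty_or_nonempty with rfl | hne
    · exact ⟨0, fun f hf => absurd hf (Finset.notMem_empty f)⟩
    · obtain ⟨f₀, hf₀, hmin⟩ := Finset.exists_min_image F (fun f => f.1) hne
      exact ⟨f₀.1, fun f hf => ⟨hmin f hf, by have := hw f hf f₀ hf₀; omega⟩⟩
  have hLc : ((C * H + H + 2 : ℕ) : ℤ) = (C : ℤ) * H + H + 2 := by push_cast; ring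
  have hLle : C * H + H + 2 ≤ (C + 3) * H := by
    have : (C + 3) * H = C * H + 3 * H := by ring
    omega
  have hsup : ∀ f ∈ F, f.2 - c ≤ ((F.sup (fun f => (f.2 - c).toNat) : ℕ) : ℤ) := fun f hf => by
    have h2 : (f.2 - c).toNat ≤ F.sup (fun f => (f.2 - c).toNat) := Finset.le_sup (f := fun f : ℤ × ℤ => (f.2 - c).toNat) hf
    have h3 := Int.self_le_toNat (f.2 - c)
    omega
  generalize F.sup (fun f => (f.2 - c).toNat) = T at hsup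
  have e1 : ((rsyT (-x₀, -c)).mF F).filter (fun f => (H : ℤ) ≤ f.2) = (rsyT (-x₀, -c)).mF (F.filter (fun f => c + H ≤ f.2)) :=
    rrs189_filter_mF _ F _ _ fun f => by
      show (H : ℤ) ≤ f.2 + -c ↔ c + H ≤ f.2
      constructor <;> intro h <;> omega
  have e2 : ((rsyT (-x₀, -c)).mF F).filter (fun f => f.2 ≤ ((H / 10 : ℕ) : ℤ)) = (rsyT (-x₀, -c)).mF (F.filter (fun f => f.2 ≤ c + ((H / 10 : ℕ) : ℤ))) :=
    rrs189_filter_mF _ F _ _ fun f => by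
      show f.2 + -c ≤ ((H / 10 : ℕ) : ℤ) ↔ f.2 ≤ c + ((H / 10 : ℕ) : ℤ)
      constructor <;> intro h <;> omega
  have e3 : ((rsyT (-x₀, -c)).mF F).filter (fun f => ((H / 5 : ℕ) : ℤ) ≤ f.2) = (rsyT (-x₀, -c)).mF (F.filter (fun f => c + ((H / 5 : ℕ) : ℤ) ≤ f.2)) :=
    rrs189_filter_mF _ F _ _ fun f => by
      show ((H / 5 : ℕ) : ℤ) ≤ f.2 + -c ↔ c + ((H / 5 : ℕ) : ℤ) ≤ f.2
      constructor <;> intro h <;> omega
  have hG : Hpd12Geo (C * H + H + 2) 0 ((T : ℤ) + H + 2) ((rsyT (-x₀, -c)).mF F) := by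
    unfold Hpd12Geo
    rw [rrs189_all_mF]
    intro f hf
    show 0 ≤ f.1 + -x₀ ∧ f.1 + -x₀ + 2 ≤ ((C * H + H + 2 : ℕ) : ℤ) ∧ 0 ≤ f.2 + -c ∧ f.2 + -c + 2 ≤ (T : ℤ) + H + 2
    rw [hLc]
    have a1 := hx f hf
    have a2 := hF f hf
    have a3 := hsup f hf
    refine ⟨by omega, by omega, by omega, by omega⟩
  have key := hpa189_core h0 h1 hCut hTop hOrd hDet (L := C * H + H + 2) (H := H) (B := (T : ℤ) + H + 2) (F := (rsyT (-x₀, -c)).mF F)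
    (K := rrsMapK (rsyT (-x₀, -c)) K) (δ := δ) (by omega) hH2 (by omega) hG
    (by rw [e1]; exact rrs189_mapK_legal _ hK) ((rrs189_map_feas _ t K F false).2 hfe) (hA _ H hH1 (by omega) hLle)
  rw [e2, e3, rrs189_map_PK_sep] at key
  exact key

/-- **(HP) FROM THE FIVE CONTRACTS OF `HpDefs12`** -/
theorem hpa189_hp {t : ℝ} (h0 : 0 < t) (h1 : t ≤ 1) (hCut : Hpd12Cut t) (hTop : Hpd12Top t) (hOrd : Hpd12Ord t) (hDet : Hpd12Det)
    (hCyl : Hpd12Cyl t) : RnzHP t :=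
  rrs189_hp_of_one (rrs189_hpd_flip (s := false) (hpa189_hpd h0 h1 hCut hTop hOrd hDet hCyl))

end Claimed.Agent.R292
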