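import Claimed.Agent.R292.Rsw.HpDefs12

/-!
# Row 292 (S0540), Rsw/HpDet31 : R8 CORE, block A5-B5 = (HP) FROM (CYL), leaf S5 = `Hpd12Det`      (owner helper31; prefix `hdt31`)      0 sorry

DETERMINISTIC: a minus blocking of the band `c..d` of the cylinder separates, inside a planar domain `F` of the fundamental domain, the faces below the row `c` from the faces above the row `d - 1`.
* `hdt31_step` : in the fundamental domain (`Hpd12Geo`) a step of `RswStep F s ω` between two faces of the rows `c..d-1` is a step of the cylinder `rcy162Cyl L c d` (the reduction is the identity there).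
* `hdt31_row` : one step changes the row by at most one.
* `hdt31_ivt` : discrete intermediate value: a chain of `F` from a row `≤ c` to a row `≥ d - 1` contains a chain of the band from the row `c` to the row `d - 1`.
* `hdt31_sep` : `Sep` of the band ⟹ `RswSep` in `F`   (both colours).
* **`hdt31_det : Hpd12Det`**   (with `rcd111_Blk_sep`).
* **`hdt31_cyl : Rct127CylM Hpd12Adm (hpd12P t) → Hpd12Cyl t`**   (leaf S7, arithmetic).
-/

set_option autoImplicit false
set_option linter.unusedVariables false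

namespace Claimed.Agent.R292

open Claims Claims.C0468 Claimed.Agent.R291

/-- a step of `F` between two faces of the rows `c..d-1` is a step of the band -/
theorem hdt31_step {L : ℕ} {a B c d : ℤ} {F : Finset (ℤ × ℤ)} {s : Bool} {ω : RswCfg} (hF : Hpd12Geo L a B F) {u v : ℤ × ℤ}
    (h : RswStep F s ω u v) (hu : c ≤ u.2 ∧ u.2 < d) (hv : c ≤ v.2 ∧ v.2 < d) : (rcy162Cyl L c d).Step s ω u v := by
  obtain ⟨h1, h2, e, he, hg⟩ := h
  have r1 := hF u h1
  have r2 := hF v h2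
  refine ⟨rcy162_mem_cylF.2 ⟨⟨r1.1, by omega⟩, hu⟩, rcy162_mem_cylF.2 ⟨⟨r2.1, by omega⟩, hv⟩, e, ?_, ?_⟩
  · show (u = e.1 ∧ v = rcy162Red L (rswCo e)) ∨ (v = e.1 ∧ u = rcy162Red L (rswCo e))
    rcases he with ⟨q1, q2⟩ | ⟨q1, q2⟩
    · left
      refine ⟨q1, ?_⟩
      rw [← q2, rcy162_red_of_range r2.1 (by omega)]
    · right
      refine ⟨q1, ?_⟩
      rw [← q2, rcy162_red_of_range r1.1 (by omega)]
  · intro hG
    apply hg
    have re : 0 ≤ e.1.1 ∧ e.1.1 + 2 ≤ L := by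
      rcases he with ⟨q1, _⟩ | ⟨q1, _⟩
      · rw [← q1]
        exact ⟨r1.1, r1.2.1⟩
      · rw [← q1]
        exact ⟨r2.1, r2.2.1⟩
    have hE : rcy162Red L (rswEnd e) = rswEnd e := by
      apply rcy162_red_of_range
      · unfold rswEnd
        split_ifs
        · exact re.1
        · show 0 ≤ e.1.1 + 1
          omega
      · unfold rswEnd
        split_ifs
        · show e.1.1 < L
          omega
        · show e.1.1 + 1 < L
          omega
    obtain ⟨g1, g2, g3⟩ := hG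
    refine ⟨g1, g2, ?_⟩
    rw [← hE]
    exact g3

/-- one step changes the row by at most one -/
theorem hdt31_row {F : Finset (ℤ × ℤ)} {s : Bool} {ω : RswCfg} {u v : ℤ × ℤ} (h : RswStep F s ω u v) : v.2 ≤ u.2 + 1 ∧ u.2 ≤ v.2 + 1 := by
  obtain ⟨_, _, e, he, _⟩ := h
  have hc : (rswCo e).2 ≤ e.1.2 ∧ e.1.2 ≤ (rswCo e).2 + 1 := by
    unfold rswCo
    split_ifs
    · show e.1.2 ≤ e.1.2 ∧ e.1.2 ≤ e.1.2 + 1
      omega
    · show e.1.2 - 1 ≤ e.1.2 ∧ e.1.2 ≤ e.1.2 - 1 + 1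
      omega
  rcases he with ⟨q1, q2⟩ | ⟨q1, q2⟩
  · rw [q1, q2]
    omega
  · rw [q1, q2]
    omega

/-- discrete intermediate value: along a chain of `F` which starts in a row `≤ c`, either the row is `< c`, or the face is joined inside the band to the row `c` and its row is `< d - 1` -/
theorem hdt31_ivt {L : ℕ} {a B c d : ℤ} {F : Finset (ℤ × ℤ)} {s : Bool} {ω : RswCfg} (hF : Hpd12Geo L a B F) (hcd : c < d)
    (hsep : (rcy162Cyl L c d).Sep s ω (rcy162Row L c) (rcy162Row L (d - 1))) {f g : ℤ × ℤ} (hf : f ∈ F) (hfc : f.2 ≤ c)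
    (h : Relation.ReflTransGen (RswStep F s ω) f g) :
    g.2 < c ∨ (∃ f' ∈ rcy162Row L c, Relation.ReflTransGen ((rcy162Cyl L c d).Step s ω) f' g ∧ c ≤ g.2 ∧ g.2 < d - 1) := by
  have base : ∀ u ∈ F, u.2 ≤ c →
      u.2 < c ∨ (∃ f' ∈ rcy162Row L c, Relation.ReflTransGen ((rcy162Cyl L c d).Step s ω) f' u ∧ c ≤ u.2 ∧ u.2 < d - 1) := by
    intro u hu huc
    rcases lt_or_eq_of_le huc with h1 | h1
    · exact Or.inl h1
    · right
      have r := hF u hu
      have hr : u ∈ rcy162Row L c := rcy162_mem_row.2 ⟨⟨r.1, by omega⟩, h1⟩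
      refine ⟨u, hr, Relation.ReflTransGen.refl, h1.ge, ?_⟩
      by_contra hn
      have h2 : u.2 = d - 1 := by omega
      exact hsep u hr u (rcy162_mem_row.2 ⟨⟨r.1, by omega⟩, h2⟩) Relation.ReflTransGen.refl
  induction h with
  | refl => exact base f hf hfc
  | @tail u v _ huv ih =>
    have hrow := hdt31_row huv
    have hv : v ∈ F := huv.2.1
    rcases ih with h1 | ⟨f', hf', hch, h2, h3⟩
    · exact base v hv (by omega)
    · by_cases h4 : v.2 < c
      · exact Or.inl h4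
      · right
        have hst := hdt31_step hF huv (c := c) (d := d) ⟨h2, by omega⟩ ⟨by omega, by omega⟩
        have hch' := hch.tail hst
        refine ⟨f', hf', hch', by omega, ?_⟩
        by_contra hn
        have h5 : v.2 = d - 1 := by omega
        have r := hF v hv
        exact hsep f' hf' v (rcy162_mem_row.2 ⟨⟨r.1, by omega⟩, h5⟩) hch'

/-- `Sep` of the band of the cylinder ⟹ `RswSep` in `F` -/
theorem hdt31_sep {L : ℕ} {a B c d : ℤ} {F : Finset (ℤ × ℤ)} {s : Bool} {ω : RswCfg} (hF : Hpd12Geo L a B F) (hcd : c < d)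
    (hsep : (rcy162Cyl L c d).Sep s ω (rcy162Row L c) (rcy162Row L (d - 1))) :
    RswSep F s ω (F.filter (fun f => f.2 ≤ c)) (F.filter (fun f => d - 1 ≤ f.2)) := by
  intro f hf g hg hch
  obtain ⟨hf1, hf2⟩ := Finset.mem_filter.1 hf
  obtain ⟨hg1, hg2⟩ := Finset.mem_filter.1 hg
  rcases hdt31_ivt hF hcd hsep hf1 hf2 hch with h1 | ⟨_, _, _, _, h3⟩
  · omega
  · omega

/-- **(S5)** of `HpDefs12` -/
theorem hdt31_det : Hpd12Det := by
  intro L a B c d F ω hL hF hω hcd hE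
  exact hdt31_sep hF hcd ((rcd111_Blk_sep (s := false) hL hω hcd).1 hE)

/-- **(S7)** of `HpDefs12`: (CYL), mirror form, at the unrefined sizes, from `Rct127CylM` at the refined sizes `2 L`, `2 H`, `ε = 1/20`, `c = 2 (H/10) + 1`, `d = 2 (H/5) + 1`, `H ≥ 20` -/
theorem hdt31_cyl {t : ℝ} (h : Rct127CylM Hpd12Adm (hpd12P t)) : Hpd12Cyl t := by
  intro C
  obtain ⟨δ, hδ, H₀, hH⟩ := h C (1 / 20) (by norm_num)
  refine ⟨δ, hδ, max H₀ 20, fun L H h1 h2 h3 => ?_⟩
  have h20 : 20 ≤ H := le_trans (le_max_right _ _) h1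
  have h0 : H₀ ≤ H := le_trans (le_max_left _ _) h1
  have key := hH (2 * L) (2 * H) true ⟨even_two_mul L, even_two_mul H⟩ (by omega) (by omega)
    (by rw [Nat.mul_left_comm]; omega) (2 * ((H / 10 : ℕ) : ℤ) + 1) (2 * ((H / 5 : ℕ) : ℤ) + 1) (by omega) ?_ (by push_cast; omega)
  · have e1 : 2 * L / 2 = L := by omega
    have e2 : 2 * H / 2 = H := by omega
    unfold hpd12P at key
    rw [e1, e2] at key
    exact key
  · have hz : 20 * ((H / 10 : ℕ) : ℤ) + (H : ℤ) ≤ 20 * ((H / 5 : ℕ) : ℤ) := by omega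
    have hr : 20 * (((H / 10 : ℕ) : ℤ) : ℝ) + ((H : ℤ) : ℝ) ≤ 20 * (((H / 5 : ℕ) : ℤ) : ℝ) := by exact_mod_cast hz
    have e3 : ((H : ℤ) : ℝ) = (H : ℝ) := by norm_cast
    rw [e3] at hr
    have e4 : ((2 * H : ℕ) : ℝ) = 2 * (H : ℝ) := by push_cast; ring
    have e5 : ((2 * ((H / 10 : ℕ) : ℤ) + 1 : ℤ) : ℝ) = 2 * (((H / 10 : ℕ) : ℤ) : ℝ) + 1 := by push_cast; ring
    have e6 : ((2 * ((H / 5 : ℕ) : ℤ) + 1 : ℤ) : ℝ) = 2 * (((H / 5 : ℕ) : ℤ) : ℝ) + 1 := by push_cast; ring
    rw [e4, e5, e6]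
    linarith

end Claimed.Agent.R292
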