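import Claimed.Agent.R292.Rsw.HpDefs12

/-!
# Row 292 (S0540), Rsw/HpTop109 : R8 CORE, block A5-B5, LEAVES S4 = `Hpd12Top t` AND S2 = `Hpd12Cut t`      (helper109; prefix `hpt109_`)      0 sorry

Contract of helper12 (`Rsw/HpDefs12`): in the TALL cylinder `Y = rcy162Cyl L a B` under the UPPER prescriptions `hpd12Up L a b B` (bottom row minus, everything in the rows `b..B` plus and open) the law of the status field
below the row `b` is the mixed law `rcy162QM t L a b` of the cylinder `a..b`; the prescriptions are feasible.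
Proof: the abstract cut of helper162 (`rcy162_cut_comp`, `rcy162_sub_cyl`, `rcy162_fld_in`, `rcy162_pin_mix`) with the constraint `K = (hpd12Up L a b B).Holds` (it reads only off the core of the small cylinder and implies the cut).
**`hpt109_top (h0 : 0 < t) (h1 : t ≤ 1) : Hpd12Top t`**.

S2: under the LOWER prescriptions `hpd12Lo L a B F K` (mixed rows, rim of `F` minus, edge pairs off `F` with a face in `F` open, `K`) the law inside the planar domain `F` is `P^-_F( . | K)`.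
`hpt109_sub` (`F` in the fundamental domain is an `Rcy162Sub` of the cylinder, core `rsxIn F`; the seam is excluded by `Hpd12Geo`), `hpt109_lo_iff` (`Lo.Holds ↔ Mix ∧ Cut ∧ K.Holds`), `hpt109_pin_bc`, `hpt109_cross`
(`rcy162_cut_cross`), `hpt109_G_pos` (one configuration), **`hpt109_cut_top (h0 : 0 < t) (h1 : t ≤ 1) : Hpd12Cut t`**.
-/

set_option autoImplicit false
set_option linter.unusedVariables false

namespace Claimed.Agent.R292

open Claims Claims.C0468 Claimed.Agent.R291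

theorem hpt109_mem_sp {L : ℕ} {a b B : ℤ} {v : ℤ × ℤ} : v ∈ (hpd12Up L a b B).Sp ↔ (0 ≤ v.1 ∧ v.1 < L) ∧ b ≤ v.2 ∧ v.2 ≤ B := by
  show v ∈ Finset.Ico (0 : ℤ) L ×ˢ Finset.Icc b B ↔ _
  rw [Finset.mem_product, Finset.mem_Ico, Finset.mem_Icc]

/-- an edge pair of the tall cylinder off the small one has its two endpoints in the rows `b..B` -/
theorem hpt109_ends {L : ℕ} (hL : 0 < L) {a b B : ℤ} {e : (ℤ × ℤ) × Bool} (he : e ∈ (rcy162Cyl L a B).E \ (rcy162Cyl L a b).E) :
    (rcy162Cyl L a B).p0 e ∈ (hpd12Up L a b B).Sp ∧ (rcy162Cyl L a B).p1 e ∈ (hpd12Up L a b B).Sp := by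
  obtain ⟨m1, m2⟩ := Finset.mem_sdiff.1 he
  obtain ⟨r1, r2⟩ := rcy162_mem_cylE.1 m1
  have r3 : ¬ ((e.2 = false ∧ a < e.1.2 ∧ e.1.2 < b) ∨ (e.2 = true ∧ a ≤ e.1.2 ∧ e.1.2 < b)) := fun hh => m2 (rcy162_mem_cylE.2 ⟨r1, hh⟩)
  rw [rcy162_cyl_p0, rcy162_cyl_p1, hpt109_mem_sp, hpt109_mem_sp]
  obtain ⟨⟨i, r⟩, bb⟩ := e
  cases bb
  · simp only [true_and, reduceCtorEq, false_and, or_false] at r2 r3
    refine ⟨⟨r1, by show b ≤ r; omega, by show r ≤ B; omega⟩, rcy162_red_range hL _, ?_, ?_⟩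
    · show b ≤ r; omega
    · show r ≤ B; omega
  · simp only [true_and, reduceCtorEq, false_and, false_or] at r2 r3
    refine ⟨⟨r1, by show b ≤ r; omega, by show r ≤ B; omega⟩, rcy162_red_range hL _, ?_, ?_⟩
    · show b ≤ r + 1; omega
    · show r + 1 ≤ B; omega

/-- the upper prescriptions read only off the core of the small cylinder -/
theorem hpt109_out {L : ℕ} {a b B : ℤ} (ω : RswCfg) :
    (hpd12Up L a b B).Holds (rcy162Out (rcy162Cyl L a b) (rcy162Core L a b) ω) ↔ (hpd12Up L a b B).Holds ω := by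
  have hp : ∀ v ∈ (hpd12Up L a b B).Sp, v ∉ rcy162Core L a b := by
    intro v hv hc
    have x := (hpt109_mem_sp.1 hv).2
    have y := (rcy162_mem_core.1 hc).2
    omega
  have hm : ∀ v ∈ (hpd12Up L a b B).Sm, v ∉ rcy162Core L a b := by
    intro v hv hc
    have x := (rcy162_mem_row.1 (show v ∈ rcy162Row L a from hv)).2
    have y := (rcy162_mem_core.1 hc).2
    omega
  have ho : ∀ e ∈ (hpd12Up L a b B).Oo, e ∉ (rcy162Cyl L a b).E := fun e he =>
    (Finset.mem_sdiff.1 (show e ∈ (rcy162Cyl L a B).E \ (rcy162Cyl L a b).E from he)).2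
  have hcl : ∀ (η : RswCfg), ∀ e ∈ (hpd12Up L a b B).Oc, e ∉ η.O := fun η e he => absurd (show e ∈ (∅ : Finset ((ℤ × ℤ) × Bool)) from he) (Finset.notMem_empty e)
  constructor
  · rintro ⟨x1, x2, x3, -⟩
    exact ⟨fun v hv => (rcy162_out_S (hp v hv)).1 (x1 hv), fun v hv hh => x2 v hv ((rcy162_out_S (hm v hv)).2 hh),
      fun e he => (rcy162_out_O (ho e he)).1 (x3 he), hcl ω⟩
  · rintro ⟨x1, x2, x3, -⟩
    exact ⟨fun v hv => (rcy162_out_S (hp v hv)).2 (x1 hv), fun v hv hh => x2 v hv ((rcy162_out_S (hm v hv)).1 hh),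
      fun e he => (rcy162_out_O (ho e he)).2 (x3 he), hcl _⟩

/-- the upper prescriptions imply the cut along the row `b` -/
theorem hpt109_cut {L : ℕ} {a b B : ℤ} (hab : a < b) (hbB : b < B) {ω : RswCfg} (h : (hpd12Up L a b B).Holds ω) :
    Rcy162Cut (rcy162Cyl L a B) (rcy162Cyl L a b) (rcy162Core L a b) (rcy162Row L b) ω := by
  obtain ⟨x1, x2, x3, -⟩ := h
  refine ⟨(rcy162_pin_mix hab ω).2 ⟨x2, fun v hv => x1 ?_⟩, fun e he _ => x3 he⟩
  obtain ⟨r1, r2⟩ := rcy162_mem_row.1 hv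
  exact hpt109_mem_sp.2 ⟨r1, by omega, by omega⟩

theorem hpt109_feas {t : ℝ} (h0 : 0 < t) {L : ℕ} (hL : 0 < L) {a b B : ℤ} (hab : a < b) (hbB : b < B) :
    (rcy162Cyl L a B).Feas t (hpd12Up L a b B).Holds := by
  classical
  refine rcy162_feas_of _ h0 (S := (hpd12Up L a b B).Sp) ?_ ⟨Finset.Subset.refl _, ?_, ?_, ?_⟩
  · intro v hv
    obtain ⟨r1, r2, r3⟩ := hpt109_mem_sp.1 hv
    exact rcy162_mem_cylV.2 ⟨r1, by omega, r3⟩
  · intro v hv hv'
    have x := (rcy162_mem_row.1 (show v ∈ rcy162Row L a from hv)).2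
    have y := (hpt109_mem_sp.1 (show v ∈ (hpd12Up L a b B).Sp from hv')).2
    omega
  · intro e he
    have he' : e ∈ (rcy162Cyl L a B).E \ (rcy162Cyl L a b).E := he
    obtain ⟨e0, e1⟩ := hpt109_ends hL he'
    show e ∈ (rcy162Cyl L a B).E.filter (fun e => ((rcy162Cyl L a B).p0 e ∈ (hpd12Up L a b B).Sp ↔ (rcy162Cyl L a B).p1 e ∈ (hpd12Up L a b B).Sp))
    exact Finset.mem_filter.2 ⟨(Finset.mem_sdiff.1 he').1, iff_of_true e0 e1⟩
  · intro e he
    exact absurd (show e ∈ (∅ : Finset ((ℤ × ℤ) × Bool)) from he) (Finset.notMem_empty e)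

/-- **(S4) TOP** -/
theorem hpt109_top {t : ℝ} (h0 : 0 < t) (h1 : t ≤ 1) : Hpd12Top t := by
  intro L a b B hL hab hbB
  refine ⟨rcy162_Z_pos _ _ h0.le h1 (hpt109_feas h0 hL hab hbB), fun E hE => ?_⟩
  have hs := rcy162_sub_cyl hL (le_refl a) hbB.le
  have key := rcy162_cut_comp hs (t := t) (K := (hpd12Up L a b B).Holds) hpt109_out (rcy162Row L b) (rcy162_pin_Z_ne h0 h1 L hab)
    (rcy162Ind fun ω => rcy162Fld L (rcy162Cyl L a b) ω ∈ E) (fun _ => 1)
  have e1 : (rcy162Cyl L a B).sum t (hpd12Up L a b B).Holds (fun ω => rsxInd (rcy162Fld L (rcy162Cyl L a B) ω ∈ E)) =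
      (rcy162Cyl L a B).sum t (hpd12Up L a b B).Holds (fun ω => rcy162CutI (rcy162Cyl L a B) (rcy162Cyl L a b) (rcy162Core L a b) (rcy162Row L b) ω *
        rcy162Ind (fun ω => rcy162Fld L (rcy162Cyl L a b) ω ∈ E) (rcy162In (rcy162Cyl L a b) ω) * 1) := by
    refine rcy162_sum_congr _ t _ fun ω _ hw => ?_
    have hc := hpt109_cut hab hbB (rcy162_K_of_wt _ hw)
    have c1 : rcy162CutI (rcy162Cyl L a B) (rcy162Cyl L a b) (rcy162Core L a b) (rcy162Row L b) ω = 1 := by
      unfold rcy162CutI; rw [if_pos hc]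
    have hiff : rcy162Fld L (rcy162Cyl L a B) ω ∈ E ↔ rcy162Fld L (rcy162Cyl L a b) (rcy162In (rcy162Cyl L a b) ω) ∈ E :=
      (hE _ _ fun u hu1 hu2 => rcy162_fld_in hL (le_refl a) hbB.le ω hu1 hu2).symm
    rw [c1, one_mul, mul_one]
    by_cases hh : rcy162Fld L (rcy162Cyl L a B) ω ∈ E
    · rw [rsx_ind_pos hh, rcy162_ind_pos (L := fun ω => rcy162Fld L (rcy162Cyl L a b) ω ∈ E) (hiff.1 hh)]
    · rw [rsx_ind_neg hh, rcy162_ind_neg (L := fun ω => rcy162Fld L (rcy162Cyl L a b) ω ∈ E) (fun x => hh (hiff.2 x))]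
  have e2 : (rcy162Cyl L a B).sum t (hpd12Up L a b B).Holds (fun _ => 1) =
      (rcy162Cyl L a B).sum t (hpd12Up L a b B).Holds (fun ω => rcy162CutI (rcy162Cyl L a B) (rcy162Cyl L a b) (rcy162Core L a b) (rcy162Row L b) ω * 1) := by
    refine rcy162_sum_congr _ t _ fun ω _ hw => ?_
    have hc := hpt109_cut hab hbB (rcy162_K_of_wt _ hw)
    unfold rcy162CutI
    rw [if_pos hc, one_mul]
  have e3 : rcy162QM t L a b E = (rcy162Cyl L a b).Ex t (Rcy162Pin (rcy162Cyl L a b) (rcy162Core L a b) (rcy162Row L b))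
      (rcy162Ind fun ω => rcy162Fld L (rcy162Cyl L a b) ω ∈ E) := by
    unfold rcy162QM
    rw [← rcy162_P_congr_K _ t (fun ω _ => rcy162_pin_mix hab ω)]
    rfl
  rw [e1, key, e3, ← e2]

/-! ## LEAF S2 = `Hpd12Cut t` : inside `F` the lower law is `P^-_F( . | K)` -/

/-- a planar domain in the fundamental domain is a subsystem of the cylinder, core = the strict inside -/
theorem hpt109_sub {L : ℕ} {a B : ℤ} {F : Finset (ℤ × ℤ)} (hG : Hpd12Geo L a B F) :
    Rcy162Sub (rcy162Cyl L a B) (rcy162Pl F) (rsxIn F) := by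
  have hend : ∀ e ∈ rswInt F, rcy162Red L (rswEnd e) = rswEnd e := by
    intro e he
    obtain ⟨g1, g2, -, -⟩ := hG _ (rsx_mem_int.1 he).1
    obtain ⟨⟨i, r⟩, bb⟩ := e
    cases bb
    · exact rcy162_red_of_range (by show 0 ≤ i + 1; simp only at g1; omega) (by show i + 1 < L; simp only at g2; omega)
    · exact rcy162_red_of_range (by show 0 ≤ i; simpa using g1) (by show i < L; simp only at g2; omega)
  refine ⟨fun v hv => ?_, fun f hf => ?_, fun e he => ?_, rsx_in_sub_corners F, rcy162_pl_wf F, fun _ _ => rfl, fun e he => (hend e he).symm,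
    fun _ _ => rfl, fun e he => ?_, fun e he hn => ⟨fun hc => hn (rsx_mem_int.2 (rsx_in_faces1 hc)), fun hc => ?_⟩⟩
  · have hv' : v ∈ cornersOf F := hv
    rw [rsx_mem_corners] at hv'
    refine rcy162_mem_cylV.2 ?_
    rcases hv' with h | h | h | h <;> obtain ⟨g1, g2, g3, g4⟩ := hG _ h <;> (try simp only at g1 g2 g3 g4) <;> refine ⟨⟨?_, ?_⟩, ?_, ?_⟩ <;> omega
  · obtain ⟨g1, g2, g3, g4⟩ := hG f hf
    exact rcy162_mem_cylF.2 ⟨⟨g1, by omega⟩, g3, by omega⟩
  · have he' := rsx_mem_int.1 (show e ∈ rswInt F from he)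
    obtain ⟨g1, g2, g3, g4⟩ := hG _ he'.1
    obtain ⟨k1, k2, k3, k4⟩ := hG _ he'.2
    obtain ⟨⟨i, r⟩, bb⟩ := e
    refine rcy162_mem_cylE.2 ⟨⟨g1, by omega⟩, ?_⟩
    cases bb
    · rw [rsx_co_false] at k3
      simp only at g3 g4 k3
      exact Or.inl ⟨rfl, by show a < r; omega, by show r < B; omega⟩
    · simp only at g3 g4
      exact Or.inr ⟨rfl, by show a ≤ r; omega, by show r < B; omega⟩
  · obtain ⟨k1, k2, -, -⟩ := hG _ (rsx_mem_int.1 (show e ∈ rswInt F from he)).2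
    exact (rcy162_red_of_range k1 (by omega)).symm
  · -- the second endpoint
    rw [rcy162_cyl_p1] at hc
    obtain ⟨r1, -⟩ := rcy162_mem_cylE.1 he
    by_cases hw : (rswEnd e).1 < L
    · have h0 : 0 ≤ (rswEnd e).1 := by
        obtain ⟨⟨i, r⟩, bb⟩ := e
        cases bb
        · show 0 ≤ i + 1; simp only at r1; omega
        · show 0 ≤ i; exact r1.1
      rw [rcy162_red_of_range h0 hw] at hc
      exact hn (rsx_mem_int.2 (rsx_in_faces2 hc))
    · -- the seam: the reduced endpoint lies in the column `0`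
      have hcol : (rcy162Red L (rswEnd e)).1 = 0 := by
        obtain ⟨⟨i, r⟩, bb⟩ := e
        cases bb
        · have : i + 1 = L := by
            have : ¬ (i + 1 < (L : ℤ)) := hw
            simp only at r1; omega
          show (i + 1) % (L : ℤ) = 0
          rw [this, Int.emod_self]
        · exact absurd (show i < (L : ℤ) from r1.2) hw
      have := (hG _ (rsx_mem_in.1 hc).2.1).1
      simp only at this
      omega

theorem hpt109_mix_out {L : ℕ} {a B : ℤ} {F : Finset (ℤ × ℤ)} (hG : Hpd12Geo L a B F) (ω : RswCfg) :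
    Rcy162Mix L a B (rcy162Out (rcy162Pl F) (rsxIn F) ω) ↔ Rcy162Mix L a B ω := by
  have ha : ∀ v ∈ rcy162Row L a, v ∉ rsxIn F := by
    intro v hv hc
    have x := (rcy162_mem_row.1 hv).2
    have y := (hG _ (rsx_mem_in.1 hc).2.2.1).2.2.1
    simp only at y
    omega
  have hb : ∀ v ∈ rcy162Row L B, v ∉ rsxIn F := by
    intro v hv hc
    have x := (rcy162_mem_row.1 hv).2
    have y := (hG _ (rsx_mem_in.1 hc).1).2.2.2
    omega
  unfold Rcy162Mix
  constructor
  · rintro ⟨x, y⟩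
    exact ⟨fun v hv hh => x v hv ((rcy162_out_S (ha v hv)).2 hh), fun v hv => (rcy162_out_S (hb v hv)).1 (y hv)⟩
  · rintro ⟨x, y⟩
    exact ⟨fun v hv hh => x v hv ((rcy162_out_S (ha v hv)).1 hh), fun v hv => (rcy162_out_S (hb v hv)).2 (y hv)⟩

/-- the lower prescriptions in words -/
theorem hpt109_lo_iff (L : ℕ) (a B : ℤ) (F : Finset (ℤ × ℤ)) (K : RswCon) (ω : RswCfg) :
    (hpd12Lo L a B F K).Holds ω ↔ Rcy162Mix L a B ω ∧ Rcy162Cut (rcy162Cyl L a B) (rcy162Pl F) (rsxIn F) ∅ ω ∧ K.Holds ω := by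
  classical
  constructor
  · rintro ⟨x1, x2, x3, x4⟩
    have p : ∀ v, v ∈ rcy162Row L B ∨ v ∈ K.Sp ∨ v ∈ rrsEnds K.Gp → v ∈ ω.S := fun v hv => x1 (by
      show v ∈ rcy162Row L B ∪ K.Sp ∪ rrsEnds K.Gp
      simp only [Finset.mem_union]; tauto)
    have m : ∀ v, v ∈ rcy162Row L a ∨ v ∈ cornersOf F \ rsxIn F ∨ v ∈ K.Sm ∨ v ∈ rrsEnds K.Gm → v ∉ ω.S := fun v hv => x2 v (by
      show v ∈ rcy162Row L a ∪ (cornersOf F \ rsxIn F) ∪ K.Sm ∪ rrsEnds K.Gm
      simp only [Finset.mem_union]; tauto)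
    have o : ∀ e, e ∈ hpd12Bd (rcy162Cyl L a B) F ∨ e ∈ K.Gp ∨ e ∈ K.Gm → e ∈ ω.O := fun e he => x3 (by
      show e ∈ hpd12Bd (rcy162Cyl L a B) F ∪ K.Gp ∪ K.Gm
      simp only [Finset.mem_union]; tauto)
    refine ⟨⟨fun v hv => m v (Or.inl hv), fun v hv => p v (Or.inl hv)⟩, ⟨fun v hv => ?_, fun e he hf => ?_⟩,
      fun v hv => p v (Or.inr (Or.inl hv)), fun v hv => m v (Or.inr (Or.inr (Or.inl hv))), fun e he => ?_, fun e he => ?_, x4⟩
    · exact iff_of_false (m v (Or.inr (Or.inl hv))) (Finset.notMem_empty v)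
    · exact o e (Or.inl (Finset.mem_filter.2 ⟨he, hf⟩))
    · exact ⟨o e (Or.inr (Or.inl he)), iff_of_true (p _ (Or.inr (Or.inr (rrs189_ends_fst he)))) rfl,
        iff_of_true (p _ (Or.inr (Or.inr (rrs189_ends_end he)))) rfl⟩
    · exact ⟨o e (Or.inr (Or.inr he)), iff_of_false (m _ (Or.inr (Or.inr (Or.inr (rrs189_ends_fst he))))) (by simp),
        iff_of_false (m _ (Or.inr (Or.inr (Or.inr (rrs189_ends_end he))))) (by simp)⟩
  · rintro ⟨⟨m1, m2⟩, ⟨c1, c2⟩, k1, k2, k3, k4, k5⟩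
    refine ⟨fun v hv => ?_, fun v hv => ?_, fun e he => ?_, k5⟩
    · have hv' : v ∈ rcy162Row L B ∪ K.Sp ∪ rrsEnds K.Gp := hv
      simp only [Finset.mem_union] at hv'
      rcases hv' with (h | h) | h
      · exact m2 h
      · exact k1 h
      · obtain ⟨e, he, rfl | rfl⟩ := rrs189_mem_ends h
        · exact (k3 e he).2.1.2 rfl
        · exact (k3 e he).2.2.2 rfl
    · have hv' : v ∈ rcy162Row L a ∪ (cornersOf F \ rsxIn F) ∪ K.Sm ∪ rrsEnds K.Gm := hv
      simp only [Finset.mem_union] at hv'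
      rcases hv' with ((h | h) | h) | h
      · exact m1 v h
      · exact fun hh => Finset.notMem_empty v ((c1 v h).1 hh)
      · exact k2 v h
      · obtain ⟨e, he, rfl | rfl⟩ := rrs189_mem_ends h
        · exact fun hh => by simpa using (k4 e he).2.1.1 hh
        · exact fun hh => by simpa using (k4 e he).2.2.1 hh
    · have he' : e ∈ hpd12Bd (rcy162Cyl L a B) F ∪ K.Gp ∪ K.Gm := he
      simp only [Finset.mem_union] at he'
      rcases he' with (h | h) | h
      · obtain ⟨h1, h2⟩ := Finset.mem_filter.1 h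
        exact c2 e h1 h2
      · exact (k3 e h).1
      · exact (k4 e h).1

theorem hpt109_pin_bc (F : Finset (ℤ × ℤ)) (ω : RswCfg) : Rcy162Pin (rcy162Pl F) (rsxIn F) ∅ ω ↔ RswBc F false ω := by
  constructor
  · intro h v hv hp
    have := h v (Finset.mem_sdiff.2 ⟨hv, fun hin => rsx_in_iff.1 hin hp⟩)
    exact iff_of_false (fun hh => Finset.notMem_empty v (this.1 hh)) (by simp)
  · intro h v hv
    obtain ⟨h1, h2⟩ := Finset.mem_sdiff.1 hv
    have := h v h1 (by by_contra hp; exact h2 (rsx_in_iff.2 hp))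
    exact iff_of_false (fun hh => by simpa using this.1 hh) (Finset.notMem_empty v)

/-- one cross identity -/
theorem hpt109_cross {t : ℝ} {L : ℕ} {a B : ℤ} {F : Finset (ℤ × ℤ)} {K : RswCon} (hG : Hpd12Geo L a B F) (hK : K.Legal F)
    {X : RswCfg → ℝ} (hX : RskInside F X) :
    (rcy162Cyl L a B).sum t (hpd12Lo L a B F K).Holds X * rswSum t F false (fun _ => 1) =
      rnzN t F false K X * (rcy162Cyl L a B).sum t (Rcy162Mix L a B)
        (fun ω => rcy162CutI (rcy162Cyl L a B) (rcy162Pl F) (rsxIn F) ∅ ω * 1) := by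
  classical
  have key := rcy162_cut_cross (hpt109_sub hG) t (K := Rcy162Mix L a B) (hpt109_mix_out hG) ∅ (fun ω => rsxInd (K.Holds ω) * X ω) (fun _ => 1)
  have e1 : (rcy162Cyl L a B).sum t (hpd12Lo L a B F K).Holds X = (rcy162Cyl L a B).sum t (Rcy162Mix L a B)
      (fun ω => rcy162CutI (rcy162Cyl L a B) (rcy162Pl F) (rsxIn F) ∅ ω *
        (fun ω => rsxInd (K.Holds ω) * X ω) (rcy162In (rcy162Pl F) ω) * (fun _ => 1) (rcy162Out (rcy162Pl F) (rsxIn F) ω)) := by
    rw [rcy162_sum_congr_K _ t (fun ω _ => hpt109_lo_iff L a B F K ω), rcy162_sum_and]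
    refine rcy162_sum_congr _ t _ fun ω _ _ => ?_
    have hin : K.Holds (rcy162In (rcy162Pl F) ω) ↔ K.Holds ω := by
      refine rrt109_holds_loc hK _ _ ?_ ?_
      · show (ω.S ∩ cornersOf F) ∩ cornersOf F = ω.S ∩ cornersOf F
        rw [Finset.inter_assoc, Finset.inter_self]
      · show (ω.O ∩ rswInt F) ∩ rswInt F = ω.O ∩ rswInt F
        rw [Finset.inter_assoc, Finset.inter_self]
    have hXin : X (rcy162In (rcy162Pl F) ω) = X ω := hX ω
    show _ = rcy162CutI (rcy162Cyl L a B) (rcy162Pl F) (rsxIn F) ∅ ω * (rsxInd (K.Holds (rcy162In (rcy162Pl F) ω)) * X (rcy162In (rcy162Pl F) ω)) * 1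
    rw [hXin, rsx_ind_congr hin]
    unfold rcy162CutI
    by_cases c : Rcy162Cut (rcy162Cyl L a B) (rcy162Pl F) (rsxIn F) ∅ ω
    · by_cases k : K.Holds ω
      · rw [if_pos ⟨c, k⟩, if_pos c, rsx_ind_pos k]; ring
      · rw [if_neg (fun h => k h.2), rsx_ind_neg k]; ring
    · rw [if_neg (fun h => c h.1), if_neg c]; ring
  have e2 : ∀ X' : RswCfg → ℝ, (rcy162Pl F).sum t (Rcy162Pin (rcy162Pl F) (rsxIn F) ∅) X' = rswSum t F false X' := fun X' => by
    rw [rcy162_sum_congr_K _ t (fun ω _ => hpt109_pin_bc F ω)]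
    rfl
  rw [e2, e2] at key
  rw [e1, key]
  rfl

theorem hpt109_G_pos {t : ℝ} (h0 : 0 < t) (h1 : t ≤ 1) {L : ℕ} (hL : 0 < L) {a B : ℤ} (haB : a < B) {F : Finset (ℤ × ℤ)} (hG : Hpd12Geo L a B F) :
    0 < (rcy162Cyl L a B).sum t (Rcy162Mix L a B) (fun ω => rcy162CutI (rcy162Cyl L a B) (rcy162Pl F) (rsxIn F) ∅ ω * 1) := by
  classical
  have hs := hpt109_sub hG
  have e : (rcy162Cyl L a B).sum t (Rcy162Mix L a B) (fun ω => rcy162CutI (rcy162Cyl L a B) (rcy162Pl F) (rsxIn F) ∅ ω * 1) =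
      (rcy162Cyl L a B).sum t (fun ω => Rcy162Mix L a B ω ∧ Rcy162Cut (rcy162Cyl L a B) (rcy162Pl F) (rsxIn F) ∅ ω) (fun _ => 1) := by
    rw [rcy162_sum_and]
    refine rcy162_sum_congr _ t _ fun ω _ _ => ?_
    unfold rcy162CutI
    rw [mul_one]
  rw [e]
  refine rcy162_Z_pos _ _ h0.le h1 (rcy162_feas_of _ h0 (S := rcy162Row L B) ?_ ⟨⟨?_, fun v hv => hv⟩, ?_, ?_⟩)
  · intro v hv
    obtain ⟨r1, r2⟩ := rcy162_mem_row.1 hv
    exact rcy162_mem_cylV.2 ⟨r1, by omega, by omega⟩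
  · intro v hv hv'
    have x := (rcy162_mem_row.1 hv).2
    have y := (rcy162_mem_row.1 (show v ∈ rcy162Row L B from hv')).2
    omega
  · -- the rim of `F` is minus
    intro v hv
    have hvc : v ∈ cornersOf F := (Finset.mem_sdiff.1 hv).1
    refine iff_of_false (fun hh => ?_) (Finset.notMem_empty v)
    have y := (rcy162_mem_row.1 (show v ∈ rcy162Row L B from hh)).2
    rw [rsx_mem_corners] at hvc
    rcases hvc with h | h | h | h <;> have g := (hG _ h).2.2.2 <;> (try simp only at g) <;> omega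
  · -- the edge pairs with a face in `F` have no endpoint on the top row
    intro e he hf
    obtain ⟨m1, -⟩ := Finset.mem_sdiff.1 he
    obtain ⟨r1, r2⟩ := rcy162_mem_cylE.1 m1
    have hrow : e.1.2 + 2 ≤ B ∨ (e.2 = false ∧ e.1.2 + 1 ≤ B) := by
      rcases hf with hf | hf
      · exact Or.inl (hG _ hf).2.2.2
      · have g := (hG _ hf).2.2.2
        rw [rcy162_cyl_f1, rcy162_red_snd] at g
        obtain ⟨⟨i, r⟩, bb⟩ := e
        cases bb
        · rw [rsx_co_false] at g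
          simp only at g
          exact Or.inr ⟨rfl, by show r + 1 ≤ B; omega⟩
        · rw [rsx_co_true] at g
          exact Or.inl g
    have n0 : (rcy162Cyl L a B).p0 e ∉ rcy162Row L B := by
      intro hh
      have y := (rcy162_mem_row.1 hh).2
      rw [rcy162_cyl_p0] at y
      rcases hrow with h | h <;> omega
    have n1 : (rcy162Cyl L a B).p1 e ∉ rcy162Row L B := by
      intro hh
      have y := (rcy162_mem_row.1 hh).2
      rw [rcy162_cyl_p1, rcy162_red_snd] at y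
      obtain ⟨⟨i, r⟩, bb⟩ := e
      cases bb
      · rw [rtd111_end_f] at y
        simp only at y hrow
        rcases hrow with h | h <;> omega
      · rw [rtd111_end_t] at y
        simp only at y hrow
        rcases hrow with h | h
        · omega
        · exact absurd h.1 (by simp)
    show e ∈ (rcy162Cyl L a B).E.filter (fun e => ((rcy162Cyl L a B).p0 e ∈ rcy162Row L B ↔ (rcy162Cyl L a B).p1 e ∈ rcy162Row L B))
    exact Finset.mem_filter.2 ⟨m1, iff_of_false n0 n1⟩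

/-- **(S2) CUT** -/
theorem hpt109_cut_top {t : ℝ} (h0 : 0 < t) (h1 : t ≤ 1) : Hpd12Cut t := by
  intro L a B F K hL haB hG hK
  have hP := rsx_Z_pos h0 h1 F false
  have hGp := hpt109_G_pos h0 h1 hL haB hG
  have c1 := hpt109_cross (t := t) hG hK (X := fun _ => 1) (fun _ => rfl)
  refine ⟨fun hfe => ?_, fun X hX => ?_⟩
  · have hZ : 0 < rnzN t F false K (fun _ => 1) := by
      have := (rrt109_feas_iff t F false K).1 hfe
      unfold rnzN
      simpa only [mul_one] using this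
    have : 0 < (rcy162Cyl L a B).sum t (hpd12Lo L a B F K).Holds (fun _ => 1) * rswSum t F false (fun _ => 1) := by
      rw [c1]; exact mul_pos hZ hGp
    exact (pos_iff_pos_of_mul_pos this).2 hP
  · have c2 := hpt109_cross (t := t) hG hK hX
    refine mul_right_cancel₀ hP.ne' ?_
    unfold rnzZ
    calc (rcy162Cyl L a B).sum t (hpd12Lo L a B F K).Holds X * rnzN t F false K (fun _ => 1) * rswSum t F false (fun _ => 1)
        = ((rcy162Cyl L a B).sum t (hpd12Lo L a B F K).Holds X * rswSum t F false (fun _ => 1)) * rnzN t F false K (fun _ => 1) := by ring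
      _ = rnzN t F false K X * ((rcy162Cyl L a B).sum t (hpd12Lo L a B F K).Holds (fun _ => 1) * rswSum t F false (fun _ => 1)) := by
          rw [c2, c1]; ring
      _ = _ := by ring

end Claimed.Agent.R292
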