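import Claimed.Agent.R292.Rsw.CylTop127
import Claimed.Agent.R292.Rsw.CylInst69

/-!
# Row 292 (S0540), Rsw/CapSym162 : R8 CORE, block (a) of the core of `recov` / `sym` = SELF-DUALITY OF THE CAPPED CYLINDER      (owner helper162; prefix `rcp162_` / `rcp162`)      0 sorry

Text of 69 (21:49Z).   `Y = rci69Cap L a b` (69, `CylInst69` par.7), `ν` = its FREE law (`K = True`).
* par.1  the self-duality `X` : `rcp162gV / gF / gE`, **`rcp162_hom`** : `Rcy162Hom (rcs127Sw Y) Y gV gF gE` (refined map `u ↦ (u.1 + 1, ρ₀ - u.2)`, `ρ₀ = 2 (a + b) - 1`, pole ↦ pole).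
* par.2  the field rule **`rcp162_fld`** : `Fld Y (Map ω) (p.1 + 1, ρ₀ - p.2) = FldD (Sw Y) ω p` on the refined rows `2 a .. 2 b - 1`.
* par.3  the event transfer `rcp162_blk` : `FldD ω ∈ cyBlk s c d ⟹ Fld (Map ω) ∈ cyBlk s (ρ₀ - d) (ρ₀ - c)`.
* par.5  ((p4) of the text of 121 for (perJ)) the ROTATION `rcp162rV / rF / rE` (an involution: `rcp162_rV_rF`, `rcp162_rF_rV`, `rcp162_rE_rE`), **`rcp162_rot_hom`**; `rcp162_hom_res` (restriction of a morphism to a sub-system), `rcp162_hom_sw`;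
         on ANY sub-system `rcs127Res (Sw Y) V' F' E'`: `rcp162_rot_res`, `rcp162_rot_fld`, `rcp162_rot_blk`, **`rcp162_rot_le`** (law form, any constraint).   (perJ) itself is NOT proved here.
* par.4  ALT on the capped cylinder `rcp162_alt_cfg`, the flips, and the EXIT **`rcp162_half`** : `1 / 2 ≤ ν(cyVP 1 κ (κ + m - 1)) + ν(cyBlk 1 κ (κ + m - 1))` for the self-mapped band `2 κ + m - 1 = ρ₀`.
-/

set_option autoImplicit false
set_option linter.unusedVariables false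
set_option linter.unusedSectionVars false
set_option linter.unusedSimpArgs false
set_option linter.unnecessarySeqFocus false
set_option linter.deprecated false

namespace Claimed.Agent.R292

open Claimed.Agent.R291 Claims Claims.C0468 Relation

/-! ## 1. the self-duality of the capped cylinder -/

/-- faces of `Y` ↦ sites of `Y` -/
def rcp162gV (L : ℕ) (a b : ℤ) (u : ℤ × ℤ) : ℤ × ℤ := rci69TopV b (rcy162Red L (u.1 + 1, a + b - 1 - u.2))

/-- sites of `Y` ↦ faces of `Y` -/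
def rcp162gF (L : ℕ) (a b : ℤ) (u : ℤ × ℤ) : ℤ × ℤ := rci69BotF a (rcy162Red L (u.1, a + b - 1 - u.2))

/-- edge pairs: horizontal ↦ vertical, vertical ↦ horizontal -/
def rcp162gE (L : ℕ) (a b : ℤ) (e : (ℤ × ℤ) × Bool) : (ℤ × ℤ) × Bool :=
  if e.2 then (rcy162Red L (e.1.1, a + b - 1 - e.1.2), false) else (rcy162Red L (e.1.1 + 1, a + b - 1 - e.1.2), true)

theorem rcp162_top_in {b : ℤ} {v : ℤ × ℤ} (h : v.2 ≠ b) : rci69TopV b v = v := by
  unfold rci69TopV; rw [if_neg h]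

theorem rcp162_top_pole {b : ℤ} {v : ℤ × ℤ} (h : v.2 = b) : rci69TopV b v = (0, b) := by
  unfold rci69TopV; rw [if_pos h]

theorem rcp162_bot_in {a : ℤ} {v : ℤ × ℤ} (h : v.2 ≠ a - 1) : rci69BotF a v = v := by
  unfold rci69BotF; rw [if_neg h]

theorem rcp162_bot_pole {a : ℤ} {v : ℤ × ℤ} (h : v.2 = a - 1) : rci69BotF a v = (0, a - 1) := by
  unfold rci69BotF; rw [if_pos h]

theorem rcp162_gV_in (L : ℕ) {a b : ℤ} {u : ℤ × ℤ} (h : u.2 ≠ a - 1) : rcp162gV L a b u = rcy162Red L (u.1 + 1, a + b - 1 - u.2) :=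
  rcp162_top_in (by rw [rcy162_red_snd]; simp only; omega)

theorem rcp162_gV_pole (L : ℕ) {a b : ℤ} {u : ℤ × ℤ} (h : u.2 = a - 1) : rcp162gV L a b u = (0, b) :=
  rcp162_top_pole (by rw [rcy162_red_snd]; simp only; omega)

theorem rcp162_gF_in (L : ℕ) {a b : ℤ} {u : ℤ × ℤ} (h : u.2 ≠ b) : rcp162gF L a b u = rcy162Red L (u.1, a + b - 1 - u.2) :=
  rcp162_bot_in (by rw [rcy162_red_snd]; simp only; omega)

theorem rcp162_gF_pole (L : ℕ) {a b : ℤ} {u : ℤ × ℤ} (h : u.2 = b) : rcp162gF L a b u = (0, a - 1) :=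
  rcp162_bot_pole (by rw [rcy162_red_snd]; simp only; omega)

theorem rcp162_gV_pole' (L : ℕ) (a b : ℤ) : rcp162gV L a b (0, a - 1) = (0, b) := rcp162_gV_pole L rfl

theorem rcp162_gF_pole' (L : ℕ) (a b : ℤ) : rcp162gF L a b (0, b) = (0, a - 1) := rcp162_gF_pole L rfl

theorem rcp162_gE_f (L : ℕ) (a b x j : ℤ) : rcp162gE L a b ((x, j), false) = (rcy162Red L (x + 1, a + b - 1 - j), true) := rfl

theorem rcp162_gE_t (L : ℕ) (a b x j : ℤ) : rcp162gE L a b ((x, j), true) = (rcy162Red L (x, a + b - 1 - j), false) := rfl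

theorem rcp162_cap_p0 (L : ℕ) (a b : ℤ) (e : (ℤ × ℤ) × Bool) : (rci69Cap L a b).p0 e = e.1 := rfl
theorem rcp162_cap_p1 (L : ℕ) (a b : ℤ) (e : (ℤ × ℤ) × Bool) : (rci69Cap L a b).p1 e = rci69TopV b (rcy162Red L (rswEnd e)) := rfl
theorem rcp162_cap_f0 (L : ℕ) (a b : ℤ) (e : (ℤ × ℤ) × Bool) : (rci69Cap L a b).f0 e = e.1 := rfl
theorem rcp162_cap_f1 (L : ℕ) (a b : ℤ) (e : (ℤ × ℤ) × Bool) : (rci69Cap L a b).f1 e = rci69BotF a (rcy162Red L (rswCo e)) := rfl

theorem rcp162_sw_p0 (Y : Rcy162Sys) (e : (ℤ × ℤ) × Bool) : (rcs127Sw Y).p0 e = Y.f0 e := rfl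
theorem rcp162_sw_p1 (Y : Rcy162Sys) (e : (ℤ × ℤ) × Bool) : (rcs127Sw Y).p1 e = Y.f1 e := rfl
theorem rcp162_sw_f0 (Y : Rcy162Sys) (e : (ℤ × ℤ) × Bool) : (rcs127Sw Y).f0 e = Y.p0 e := rfl
theorem rcp162_sw_f1 (Y : Rcy162Sys) (e : (ℤ × ℤ) × Bool) : (rcs127Sw Y).f1 e = Y.p1 e := rfl

/-- two reductions agree as soon as the abscissas differ by a multiple of `L` -/
theorem rcp162_red_eq (L : ℕ) {x x' y y' : ℤ} (k : ℤ) (h : x = x' + L * k) (hy : y = y') : rcy162Red L (x, y) = rcy162Red L (x', y') := by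
  subst hy
  exact rcy162_red_congr L y k h

theorem rcp162_red_fst (L : ℕ) (x y0 c y : ℤ) : rcy162Red L ((rcy162Red L (x, y0)).1 + c, y) = rcy162Red L (x + c, y) :=
  rcy162_red_congr L y (-(x / L)) (by show x % (L : ℤ) + c = _; rw [Int.emod_def]; ring)

theorem rcp162_red_mk (L : ℕ) (x y : ℤ) : rcy162Red L (x, y) = (x % (L : ℤ), y) := rfl

/-- **the self-duality of the capped cylinder** -/
theorem rcp162_hom {L : ℕ} (hL : 0 < L) (a b : ℤ) :
    Rcy162Hom (rcs127Sw (rci69Cap L a b)) (rci69Cap L a b) (rcp162gV L a b) (rcp162gF L a b) (rcp162gE L a b) := by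
  have hr := fun u => rcy162_red_range hL u
  have hL' : (0 : ℤ) < L := by exact_mod_cast hL
  have injV : Set.InjOn (rcp162gV L a b) (rci69Cap L a b).Fc := by
    intro u hu u' hu' h
    rcases rci69_mem_capF.1 hu with ⟨h1, h2, h3⟩ | rfl <;> rcases rci69_mem_capF.1 hu' with ⟨h1', h2', h3'⟩ | rfl
    · rw [rcp162_gV_in L (by omega), rcp162_gV_in L (by omega), rcp162_red_mk, rcp162_red_mk] at h
      simp only [Prod.mk.injEq] at h
      exact Prod.ext (rcy162_range_inj h1.1 h1.2 h1'.1 h1'.2 h.1 (Or.inl (by ring))) (by omega)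
    · rw [rcp162_gV_in L (by omega), rcp162_gV_pole' L a b, rcp162_red_mk] at h
      simp only [Prod.mk.injEq] at h
      omega
    · rw [rcp162_gV_in L (u := u') (by omega), rcp162_gV_pole' L a b, rcp162_red_mk] at h
      simp only [Prod.mk.injEq] at h
      omega
    · rfl
  have injF : Set.InjOn (rcp162gF L a b) (rci69Cap L a b).V := by
    intro u hu u' hu' h
    rcases rci69_mem_capV.1 hu with ⟨h1, h2, h3⟩ | rfl <;> rcases rci69_mem_capV.1 hu' with ⟨h1', h2', h3'⟩ | rfl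
    · rw [rcp162_gF_in L (by omega), rcp162_gF_in L (by omega), rcp162_red_mk, rcp162_red_mk] at h
      simp only [Prod.mk.injEq] at h
      exact Prod.ext (rcy162_range_inj h1.1 h1.2 h1'.1 h1'.2 h.1 (Or.inl (by ring))) (by omega)
    · rw [rcp162_gF_in L (by omega), rcp162_gF_pole' L a b, rcp162_red_mk] at h
      simp only [Prod.mk.injEq] at h
      omega
    · rw [rcp162_gF_in L (u := u') (by omega), rcp162_gF_pole' L a b, rcp162_red_mk] at h
      simp only [Prod.mk.injEq] at h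
      omega
    · rfl
  have injE : Set.InjOn (rcp162gE L a b) (rci69Cap L a b).E := by
    rintro ⟨u, bb⟩ he ⟨u', bb'⟩ he' h
    obtain ⟨r1, -⟩ := rci69_mem_capE.1 he
    obtain ⟨r2, -⟩ := rci69_mem_capE.1 he'
    simp only at r1 r2
    cases bb <;> cases bb' <;>
      simp only [rcp162gE, rcp162_red_mk, Prod.mk.injEq, if_true, if_false, Bool.false_eq_true, reduceCtorEq, and_false, and_true] at h
    · rw [Prod.ext (rcy162_range_inj r1.1 r1.2 r2.1 r2.2 h.1 (Or.inl (by ring))) (by omega : u.2 = u'.2)]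
    · rw [Prod.ext (rcy162_range_inj r1.1 r1.2 r2.1 r2.2 h.1 (Or.inl (by ring))) (by omega : u.2 = u'.2)]
  refine ⟨injV, injF, injE, ?_, ?_, ?_, ?_, ?_⟩
  · show (rci69Cap L a b).Fc.image (rcp162gV L a b) = _
    ext v
    rw [Finset.mem_image]
    constructor
    · rintro ⟨u, hu, rfl⟩
      rcases rci69_mem_capF.1 hu with ⟨h1, h2, h3⟩ | rfl
      · rw [rcp162_gV_in L (by omega)]
        exact rci69_mem_capV.2 (Or.inl ⟨hr _, by rw [rcy162_red_snd]; simp only; omega⟩)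
      · rw [rcp162_gV_pole' L a b]
        exact rci69_mem_capV.2 (Or.inr rfl)
    · intro hv
      rcases rci69_mem_capV.1 hv with ⟨h1, h2, h3⟩ | rfl
      · refine ⟨rcy162Red L (v.1 - 1, a + b - 1 - v.2), rci69_mem_capF.2 (Or.inl ⟨hr _, by rw [rcy162_red_snd]; simp only; omega⟩), ?_⟩
        rw [rcp162_gV_in L (by rw [rcy162_red_snd]; simp only; omega), rcp162_red_fst, rcy162_red_snd]
        rw [rcp162_red_eq L (x' := v.1) (y' := v.2) 0 (by ring) (by ring)]
        exact rcy162_red_of_range h1.1 h1.2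
      · exact ⟨(0, a - 1), rci69_mem_capF.2 (Or.inr rfl), rcp162_gV_pole' L a b⟩
  · show (rci69Cap L a b).V.image (rcp162gF L a b) = _
    ext v
    rw [Finset.mem_image]
    constructor
    · rintro ⟨u, hu, rfl⟩
      rcases rci69_mem_capV.1 hu with ⟨h1, h2, h3⟩ | rfl
      · rw [rcp162_gF_in L (by omega)]
        exact rci69_mem_capF.2 (Or.inl ⟨hr _, by rw [rcy162_red_snd]; simp only; omega⟩)
      · rw [rcp162_gF_pole' L a b]
        exact rci69_mem_capF.2 (Or.inr rfl)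
    · intro hv
      rcases rci69_mem_capF.1 hv with ⟨h1, h2, h3⟩ | rfl
      · refine ⟨(v.1, a + b - 1 - v.2), rci69_mem_capV.2 (Or.inl ⟨h1, by simp only; omega⟩), ?_⟩
        rw [rcp162_gF_in L (by simp only; omega)]
        simp only
        rw [rcp162_red_eq L (x' := v.1) (y' := v.2) 0 (by ring) (by ring)]
        exact rcy162_red_of_range h1.1 h1.2
      · exact ⟨(0, b), rci69_mem_capV.2 (Or.inr rfl), rcp162_gF_pole' L a b⟩
  · show (rci69Cap L a b).E.image (rcp162gE L a b) = _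
    ext e
    rw [Finset.mem_image]
    constructor
    · rintro ⟨⟨u, bb⟩, hu, rfl⟩
      obtain ⟨h1, h2, h3⟩ := rci69_mem_capE.1 hu
      simp only at h1 h2 h3
      cases bb
      · exact rci69_mem_capE.2 ⟨hr _, by show a ≤ a + b - 1 - u.2 ∧ a + b - 1 - u.2 < b; omega⟩
      · exact rci69_mem_capE.2 ⟨hr _, by show a ≤ a + b - 1 - u.2 ∧ a + b - 1 - u.2 < b; omega⟩
    · intro he
      obtain ⟨h1, h2, h3⟩ := rci69_mem_capE.1 he
      obtain ⟨v, bb⟩ := e
      simp only at h1 h2 h3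
      cases bb
      · refine ⟨((v.1, a + b - 1 - v.2), true), rci69_mem_capE.2 ⟨h1, by simp only; omega⟩, ?_⟩
        rw [rcp162_gE_t, rcp162_red_eq L (x' := v.1) (y' := v.2) 0 (by ring) (by ring), rcy162_red_of_range (u := (v.1, v.2)) h1.1 h1.2]
      · refine ⟨(rcy162Red L (v.1 - 1, a + b - 1 - v.2), false), rci69_mem_capE.2 ⟨hr _, by rw [rcy162_red_snd]; simp only; omega⟩, ?_⟩
        rw [rcp162_red_mk, rcp162_gE_f, rcp162_red_eq L (x' := v.1) (y' := v.2) (-((v.1 - 1) / L)) (by rw [Int.emod_def]; ring) (by ring),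
          rcy162_red_of_range (u := (v.1, v.2)) h1.1 h1.2]
  · rintro ⟨⟨x, j⟩, bb⟩ he
    have he' : ((x, j), bb) ∈ (rci69Cap L a b).E := he
    obtain ⟨h1, h2, h3⟩ := rci69_mem_capE.1 he'
    simp only at h1 h2 h3
    rw [rcp162_sw_p0, rcp162_sw_p1, rcp162_cap_p0, rcp162_cap_p1, rcp162_cap_f0, rcp162_cap_f1]
    cases bb
    · left
      rw [rcp162_gE_f, rtd111_co_f, rcp162_red_mk, rtd111_end_t]
      simp only
      constructor
      · rw [rcp162_gV_in L (by simp only; omega)]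
        rfl
      · by_cases hj : j = a
        · rw [rcp162_bot_pole (by rw [rcy162_red_snd]; simp only; omega), rcp162_gV_pole' L a b, rcp162_top_pole (by rw [rcy162_red_snd]; simp only; omega)]
        · rw [rcp162_bot_in (by rw [rcy162_red_snd]; simp only; omega), rcp162_gV_in L (by rw [rcy162_red_snd]; simp only; omega),
            rcp162_top_in (by rw [rcy162_red_snd]; simp only; omega), rcp162_red_mk L x]
          simp only
          rw [rcp162_red_eq L (x' := x + 1) (y' := a + b - j) (-((x + 1) / L)) (by rw [Int.emod_def]; ring) (by ring),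
            rcp162_red_eq L (x := x % (L : ℤ) + 1) (x' := x + 1) (y' := a + b - j) (-(x / L)) (by rw [Int.emod_def]; ring) (by ring)]
    · right
      rw [rcp162_gE_t, rtd111_co_t, rcp162_red_mk, rtd111_end_f]
      simp only
      constructor
      · rw [rcp162_bot_in (by rw [rcy162_red_snd]; simp only; omega), rcp162_gV_in L (by rw [rcy162_red_snd]; simp only; omega), rcp162_red_mk L (x - 1)]
        simp only
        rw [rcp162_red_eq L (x := (x - 1) % (L : ℤ) + 1) (x' := x) (y' := a + b - 1 - j) (-((x - 1) / L)) (by rw [Int.emod_def]; ring) rfl]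
        rfl
      · rw [rcp162_top_in (by rw [rcy162_red_snd]; simp only; omega), rcp162_gV_in L (by simp only; omega)]
        simp only
        rw [rcp162_red_eq L (x := x % (L : ℤ) + 1) (x' := x + 1) (y' := a + b - 1 - j) (-(x / L)) (by rw [Int.emod_def]; ring) rfl]
  · rintro ⟨⟨x, j⟩, bb⟩ he
    have he' : ((x, j), bb) ∈ (rci69Cap L a b).E := he
    obtain ⟨h1, h2, h3⟩ := rci69_mem_capE.1 he'
    simp only at h1 h2 h3
    rw [rcp162_sw_f0, rcp162_sw_f1, rcp162_cap_p0, rcp162_cap_p1, rcp162_cap_f0, rcp162_cap_f1]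
    cases bb
    · right
      rw [rcp162_gE_f, rtd111_end_f, rcp162_red_mk, rtd111_co_t]
      simp only
      constructor
      · rw [rcp162_top_in (by rw [rcy162_red_snd]; simp only; omega), rcp162_gF_in L (by rw [rcy162_red_snd]; simp only; omega), rcp162_red_mk L (x + 1)]
        simp only
        rw [rcp162_red_eq L (x := (x + 1) % (L : ℤ)) (x' := x + 1) (y' := a + b - 1 - j) (-((x + 1) / L)) (by rw [Int.emod_def]; ring) rfl]
        rfl
      · rw [rcp162_bot_in (by rw [rcy162_red_snd]; simp only; omega), rcp162_gF_in L (by simp only; omega)]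
        simp only
        rw [rcp162_red_eq L (x := (x + 1) % (L : ℤ) - 1) (x' := x) (y' := a + b - 1 - j) (-((x + 1) / L)) (by rw [Int.emod_def]; ring) rfl]
    · left
      rw [rcp162_gE_t, rtd111_end_t, rcp162_red_mk, rtd111_co_f]
      simp only
      constructor
      · rw [rcp162_gF_in L (by simp only; omega)]
        rfl
      · by_cases hj : j + 1 = b
        · rw [rcp162_top_pole (by rw [rcy162_red_snd]; exact hj), rcp162_gF_pole' L a b, rcp162_bot_pole (by rw [rcy162_red_snd]; simp only; omega)]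
        · rw [rcp162_top_in (by rw [rcy162_red_snd]; exact hj), rcp162_gF_in L (by rw [rcy162_red_snd]; exact hj),
            rcp162_bot_in (by rw [rcy162_red_snd]; simp only; omega), rcp162_red_mk L x (j + 1)]
          simp only
          rw [rcp162_red_eq L (x := x % (L : ℤ)) (x' := x) (y := a + b - 1 - j - 1) (y' := a + b - 2 - j) (-(x / L)) (by rw [Int.emod_def]; ring) (by ring),
            rcp162_red_eq L (x := x % (L : ℤ)) (x' := x) (y := a + b - 1 - (j + 1)) (y' := a + b - 2 - j) (-(x / L)) (by rw [Int.emod_def]; ring) (by ring)]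

/-! ## 2. the field rule -/

theorem rcp162_redE_mem {L : ℕ} (hL : 0 < L) {a b : ℤ} {e : (ℤ × ℤ) × Bool} (h1 : a ≤ e.1.2) (h2 : e.1.2 < b) : rcy162RedE L e ∈ (rci69Cap L a b).E :=
  rci69_mem_capE.2 ⟨rcy162_red_range hL _, h1, h2⟩

theorem rcp162_red_memV {L : ℕ} (hL : 0 < L) {a b : ℤ} {v : ℤ × ℤ} (h1 : a ≤ v.2) (h2 : v.2 < b) : rcy162Red L v ∈ (rci69Cap L a b).V :=
  rci69_mem_capV.2 (Or.inl ⟨rcy162_red_range hL _, h1, h2⟩)

theorem rcp162_red_memF {L : ℕ} (hL : 0 < L) {a b : ℤ} {v : ℤ × ℤ} (h1 : a ≤ v.2) (h2 : v.2 < b) : rcy162Red L v ∈ (rci69Cap L a b).Fc :=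
  rci69_mem_capF.2 (Or.inl ⟨rcy162_red_range hL _, h1, h2⟩)

/-- **the field rule**: the self-duality carries the status field of `d` to the status field of `s`, refined map `u ↦ (u.1 + 1, 2 (a + b) - 1 - u.2)` -/
theorem rcp162_fld {L : ℕ} (hL : 0 < L) (a b : ℤ) {ω : RswCfg} (hω : (rcs127Sw (rci69Cap L a b)).Cfg ω) (p : ℤ × ℤ) (h1 : 2 * a ≤ p.2)
    (h2 : p.2 ≤ 2 * b - 1) :
    rcy162Fld L (rci69Cap L a b) (rcy162Map (rcp162gV L a b) (rcp162gF L a b) (rcp162gE L a b) ω) (p.1 + 1, 2 * (a + b) - 1 - p.2)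
      = rcs127FldD L (rcs127Sw (rci69Cap L a b)) ω p := by
  have hh := rcp162_hom hL a b
  have hw : (rcs127Sw (rci69Cap L a b)).WF := rcs127_sw_wf (rci69_cap_wf hL a b)
  rcases rtd111_cases p with ⟨v, rfl⟩ | ⟨f, rfl⟩ | ⟨⟨⟨x, y⟩, bb⟩, rfl⟩
  · have e : ((rtd111P v).1 + 1, 2 * (a + b) - 1 - (rtd111P v).2) = rtd111F (v.1, a + b - 1 - v.2) := by
      unfold rtd111P rtd111F; ext <;> simp; ring
    rw [e, rcy162_fld_F, rcs127_fldD_P]
  · have e : ((rtd111F f).1 + 1, 2 * (a + b) - 1 - (rtd111F f).2) = rtd111P (f.1 + 1, a + b - 1 - f.2) := by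
      unfold rtd111P rtd111F; ext <;> simp <;> ring
    have g1 : (rtd111F f).2 = 2 * f.2 + 1 := rfl
    rw [g1] at h1 h2
    have hm : rcy162Red L f ∈ (rcs127Sw (rci69Cap L a b)).V := rcp162_red_memF (a := a) (b := b) hL (by omega) (by omega)
    rw [e, rcy162_fld_P, rcs127_fldD_F, ← rcy162_hom_sgV hh hω (v := rcy162Red L f) (fun h => absurd hm h),
      rcp162_gV_in L (by rw [rcy162_red_snd]; omega), rcy162_red_snd]
    obtain ⟨f1, f2⟩ := f
    rw [rcp162_red_fst]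
  · cases bb
    · have e : ((rtd111E ((x, y), false)).1 + 1, 2 * (a + b) - 1 - (rtd111E ((x, y), false)).2) = rtd111E ((x + 1, a + b - 1 - y), true) := by
        rw [rtd111_E_f, rtd111_E_t]; ext <;> simp <;> ring
      rw [rtd111_E_f] at h1 h2
      simp only at h1 h2
      have hm : rcy162RedE L ((x, y), false) ∈ (rcs127Sw (rci69Cap L a b)).E :=
        rcp162_redE_mem (a := a) (b := b) hL (show a ≤ y by omega) (show y < b by omega)
      rw [e, rcy162_fld_E, rcs127_fldD_E, ← rcy162_hom_sgE hh hw hω (e := rcy162RedE L ((x, y), false)) (fun h => absurd hm h)]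
      have e2 : rcp162gE L a b (rcy162RedE L ((x, y), false)) = rcy162RedE L ((x + 1, a + b - 1 - y), true) := by
        show rcp162gE L a b (((rcy162Red L (x, y)).1, y), false) = (rcy162Red L (x + 1, a + b - 1 - y), true)
        rw [rcp162_gE_f, rcp162_red_fst]
      rw [e2]
    · have e : ((rtd111E ((x, y), true)).1 + 1, 2 * (a + b) - 1 - (rtd111E ((x, y), true)).2) = rtd111E ((x, a + b - 1 - y), false) := by
        rw [rtd111_E_f, rtd111_E_t]; ext <;> simp <;> ring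
      rw [rtd111_E_t] at h1 h2
      simp only at h1 h2
      have hm : rcy162RedE L ((x, y), true) ∈ (rcs127Sw (rci69Cap L a b)).E :=
        rcp162_redE_mem (a := a) (b := b) hL (show a ≤ y by omega) (show y < b by omega)
      rw [e, rcy162_fld_E, rcs127_fldD_E, ← rcy162_hom_sgE hh hw hω (e := rcy162RedE L ((x, y), true)) (fun h => absurd hm h)]
      have e2 : rcp162gE L a b (rcy162RedE L ((x, y), true)) = rcy162RedE L ((x, a + b - 1 - y), false) := by
        show rcp162gE L a b (((rcy162Red L (x, y)).1, y), true) = (rcy162Red L (x, a + b - 1 - y), false)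
        rw [rcp162_gE_t]
        have := rcp162_red_fst L x y 0 (a + b - 1 - y)
        rw [add_zero, add_zero] at this
        rw [this]
      rw [e2]

/-! ## 3. the event transfer -/

/-- a (weakly) DUAL-refined field: `0` on the vertex points; a horizontal edge point of sign `s ≠ 0` has its upper face of sign `s`, a vertical one its left face -/
def Rcp162RefD (τ : CyF) : Prop :=
  (∀ v, τ (rtd111P v) = 0) ∧ (∀ x y : ℤ, τ (rtd111E ((x, y), false)) ≠ 0 → τ (rtd111F (x, y)) = τ (rtd111E ((x, y), false))) ∧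
    ∀ x y : ℤ, τ (rtd111E ((x, y), true)) ≠ 0 → τ (rtd111F (x - 1, y)) = τ (rtd111E ((x, y), true))

theorem rcp162_diag_off {τ : CyF} (hτ : Rcp162RefD τ) {s : SignType} (hs : s ≠ 0) : Rcy162Diag (cyOn s τ)ᶜ := by
  intro x y h1 h2
  simp only [cyOn, Set.mem_compl_iff, Set.mem_ofPred_eq] at h1 h2 ⊢
  rcases Int.even_or_odd' x with ⟨i, hi | hi⟩ <;> rcases Int.even_or_odd' y with ⟨j, hj | hj⟩ <;> subst hi hj
  · left
    intro h
    have := hτ.2.1 i j (by rw [rtd111_E_f, h]; exact hs)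
    rw [rtd111_E_f, h] at this
    exact h2 this
  · right
    have := hτ.1 (i, j + 1)
    have e : rtd111P (i, j + 1) = (2 * i, 2 * j + 1 + 1) := by unfold rtd111P; ext <;> simp; ring
    rw [e] at this
    rw [this]; exact Ne.symm hs
  · left
    have := hτ.1 (i + 1, j)
    have e : rtd111P (i + 1, j) = (2 * i + 1 + 1, 2 * j) := by unfold rtd111P; ext <;> simp; ring
    rw [e] at this
    rw [this]; exact Ne.symm hs
  · left
    intro h
    have e : rtd111E ((i + 1, j), true) = (2 * i + 1 + 1, 2 * j + 1) := by rw [rtd111_E_t]; ext <;> simp; ring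
    have := hτ.2.2 (i + 1) j (by rw [e, h]; exact hs)
    rw [e, h, add_sub_cancel_right] at this
    exact h1 this

theorem rcp162_diag_mv {T : Set (ℤ × ℤ)} (hT : Rcy162Diag T) (c : ℤ) : Rcy162Diag {u | (u.1 - c, u.2) ∈ T} := by
  intro x y h1 h2
  have h2' : (x - c + 1, y + 1) ∈ T := by
    have e : x - c + 1 = x + 1 - c := by ring
    rw [e]; exact h2
  rcases hT (x - c) y h1 h2' with h | h
  · left
    show (x + 1 - c, y) ∈ T
    have e : x + 1 - c = x - c + 1 := by ring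
    rw [e]; exact h
  · right
    exact h

/-- the status field of `d` on the capped cylinder is dual-refined -/
theorem rcp162_refD {L : ℕ} (hL : 0 < L) (a b : ℤ) (ω : RswCfg) : Rcp162RefD (rcs127FldD L (rcs127Sw (rci69Cap L a b)) ω) := by
  have hw : (rcs127Sw (rci69Cap L a b)).WF := rcs127_sw_wf (rci69_cap_wf hL a b)
  refine ⟨fun v => rcs127_fldD_P _ _ _ v, fun x y h => ?_, fun x y h => ?_⟩
  · rw [rcs127_fldD_E] at h ⊢
    rw [rcs127_fldD_F]
    have he : rcy162RedE L ((x, y), false) ∈ (rcs127Sw (rci69Cap L a b)).E := by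
      by_contra hn
      exact h (rcy162_sgE_of_not _ hn)
    have hv := hw.p0 _ he
    have e : (rcs127Sw (rci69Cap L a b)).p0 (rcy162RedE L ((x, y), false)) = rcy162Red L (x, y) := rfl
    rw [e] at hv
    rw [(rcs127_sgE_sg h).1, e, rcs127_sgV_sg (rcs127_sgV_ne ω hv)]
  · rw [rcs127_fldD_E] at h ⊢
    rw [rcs127_fldD_F]
    have he : rcy162RedE L ((x, y), true) ∈ (rcs127Sw (rci69Cap L a b)).E := by
      by_contra hn
      exact h (rcy162_sgE_of_not _ hn)
    have hv := hw.p1 _ he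
    have he' : rcy162RedE L ((x, y), true) ∈ (rci69Cap L a b).E := he
    obtain ⟨-, g1, g2⟩ := rci69_mem_capE.1 he'
    have g1' : a ≤ y := g1
    have e : (rcs127Sw (rci69Cap L a b)).p1 (rcy162RedE L ((x, y), true)) = rcy162Red L (x - 1, y) := by
      rw [rcp162_sw_p1, rcp162_cap_f1, rcs127_red_co, rtd111_co_t, rcp162_bot_in (by rw [rcy162_red_snd]; simp only; omega)]
    rw [e] at hv
    rw [(rcs127_sgE_sg h).2, e, rcs127_sgV_sg (rcs127_sgV_ne ω hv)]

/-- **the event transfer** (one direction): a blocking of the statuses of `d` becomes a blocking of the statuses of `s` -/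
theorem rcp162_blk {L : ℕ} (hL : 0 < L) (a b : ℤ) {ω : RswCfg} (hω : (rcs127Sw (rci69Cap L a b)).Cfg ω) {s : SignType} (hs : s ≠ 0) {c d : ℤ}
    (hc : 2 * a ≤ c) (hd : d ≤ 2 * b - 1) (h : rcs127FldD L (rcs127Sw (rci69Cap L a b)) ω ∈ cyBlk s c d) :
    rcy162Fld L (rci69Cap L a b) (rcy162Map (rcp162gV L a b) (rcp162gF L a b) (rcp162gE L a b) ω)
      ∈ cyBlk s (2 * (a + b) - 1 - d) (2 * (a + b) - 1 - c) := by
  intro hX
  apply h
  have hD : Rcy162Diag {u : ℤ × ℤ | (u.1 - 1, u.2) ∈ plsBand c d ∩ (cyOn s (rcs127FldD L (rcs127Sw (rci69Cap L a b)) ω))ᶜ} :=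
    rcp162_diag_mv (rcy162_diag_inter (rcy162_sq_band c d) (rcp162_diag_off (rcp162_refD hL a b ω) hs)) 1
  have k := rcy162_refl_X (2 * (a + b) - 1) (fun u hu => ?_) hD hX
  · rw [sub_sub_cancel, sub_sub_cancel] at k
    have := (cy_X_mv_iff (S := plsBand c d \ cyOn s (rcs127FldD L (rcs127Sw (rci69Cap L a b)) ω)) (1, 0) (fun z => ?_) c d).2
      (by simpa using k)
    · exact this
    · show ((z + (1, 0)).1 - 1, (z + (1, 0)).2) ∈ plsBand c d ∩ (cyOn s (rcs127FldD L (rcs127Sw (rci69Cap L a b)) ω))ᶜ ↔ _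
      have e : ((z + ((1 : ℤ), (0 : ℤ))).1 - 1, (z + ((1 : ℤ), (0 : ℤ))).2) = z := by ext <;> simp
      rw [e]
      exact Iff.rfl
  · obtain ⟨⟨u1, u2⟩, u3⟩ := hu
    have b1 : c ≤ 2 * (a + b) - 1 - u.2 := by omega
    have b2 : 2 * (a + b) - 1 - u.2 ≤ d := by omega
    refine ⟨⟨b1, b2⟩, fun hh => u3 ?_⟩
    have r := rcp162_fld hL a b hω (u.1 - 1, 2 * (a + b) - 1 - u.2) (by simp only; omega) (by simp only; omega)
    simp only [sub_add_cancel, sub_sub_cancel] at r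
    show rcy162Fld L (rci69Cap L a b) _ u = s
    rw [show u = (u.1, u.2) from rfl, r]
    exact hh

/-! ## 4. ALT on the capped cylinder; the flips; the exit -/

/-- **ALT, adapter on the capped cylinder** (copy of `rcs127_alt_cfg`; the poles are absorbed in the reference signs) -/
theorem rcp162_alt_cfg {L : ℕ} (hL : 0 < L) {a b : ℤ} {t : ℝ} {c d : ℤ} (hcd : c ≤ d) (hc : 2 * a ≤ c) (hd : d ≤ 2 * b - 1)
    {S D : Finset (ℤ × ℤ)} {O O' : Finset ((ℤ × ℤ) × Bool)} (hω : rcs127Wt2 (rci69Cap L a b) t S D O O' ≠ 0) :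
    rcy162Fld L (rci69Cap L a b) ⟨S, D, O⟩ ∈ cyVP 1 c d ∨ rcy162Fld L (rci69Cap L a b) ⟨S, D, O⟩ ∈ cyVP (-1) c d ∨
      rcs127FldD L (rcs127Sw (rci69Cap L a b)) ⟨D, S, O'⟩ ∈ cyBlk 1 c d ∨ rcs127FldD L (rcs127Sw (rci69Cap L a b)) ⟨D, S, O'⟩ ∈ cyBlk (-1) c d := by
  have hL2 : (0 : ℤ) < 2 * (L : ℤ) := by positivity
  refine cy_alt_det hL2 hcd _ _ (rcy162_fld_per L _ _) ?_ ?_ ?_
  · intro u hu
    have hu1 : c ≤ u.2 := hu.1
    have hu2 : u.2 ≤ d := hu.2
    rcases rtd111_cases u with ⟨v, rfl⟩ | ⟨f, rfl⟩ | ⟨⟨⟨x, y⟩, bb⟩, rfl⟩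
    · left
      rw [rcy162_fld_P]
      have e1 : (rtd111P v).2 = 2 * v.2 := rfl
      exact rcs127_sgV_ne _ (rcp162_red_memV (a := a) (b := b) hL (by omega) (by omega))
    · right
      rw [rcs127_fldD_F]
      have e1 : (rtd111F f).2 = 2 * f.2 + 1 := rfl
      exact rcs127_sgV_ne _ (show rcy162Red L f ∈ (rci69Cap L a b).Fc from rcp162_red_memF (a := a) (b := b) hL (by omega) (by omega))
    · have he : rcy162RedE L ((x, y), bb) ∈ (rci69Cap L a b).E := by
        cases bb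
        · rw [rtd111_E_f] at hu1 hu2
          simp only at hu1 hu2
          exact rcp162_redE_mem (a := a) (b := b) hL (show a ≤ y by omega) (show y < b by omega)
        · rw [rtd111_E_t] at hu1 hu2
          simp only at hu1 hu2
          exact rcp162_redE_mem (a := a) (b := b) hL (show a ≤ y by omega) (show y < b by omega)
      obtain ⟨h1, h2, h3⟩ := rcs127_wt2_cover _ hω he
      rcases h1 with h1 | h1
      · left
        rw [rcy162_fld_E]
        exact rcs127_sgE_ne he h1 (h2 h1)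
      · right
        rw [rcs127_fldD_E]
        exact rcs127_sgE_ne (Y := rcs127Sw (rci69Cap L a b)) he h1 (h3 h1)
  · intro u _ v _ huv h1 h2
    refine rcs127_same_P _ (fun w => rcs127Sg S (rci69TopV b (rcy162Red L w))) (fun w hw => ?_) (fun f => rcy162_fld_F _ _ _ f) (fun e he => ?_) huv h1 h2
    · rw [rcy162_fld_P] at hw ⊢
      have hm : rcy162Red L w ∈ (rci69Cap L a b).V := by
        by_contra hn
        exact hw (rcy162_sgV_of_not _ hn)
      have e : rci69TopV b (rcy162Red L w) = rcy162Red L w := by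
        rcases rci69_mem_capV.1 hm with ⟨-, -, g⟩ | g
        · exact rcp162_top_in (by omega)
        · rw [g]; exact rcp162_top_pole rfl
      rw [e]
      exact rcs127_sgV_sg hw
    · rw [rcy162_fld_E] at he ⊢
      have hm : rcy162RedE L e ∈ (rci69Cap L a b).E := by
        by_contra hn
        exact he (rcy162_sgE_of_not _ hn)
      obtain ⟨-, -, g⟩ := rci69_mem_capE.1 hm
      have g' : (rcy162Red L e.1).2 < b := g
      obtain ⟨g1, g2⟩ := rcs127_sgE_sg he
      refine ⟨?_, ?_⟩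
      · rw [g1, rcp162_top_in (by omega)]
        rfl
      · rw [g2, rcp162_cap_p1, rcs127_red_end]
  · intro u _ v _ huv h1 h2
    refine rcs127_same_F _ (fun w => rcs127Sg D (rci69BotF a (rcy162Red L w))) (fun w hw => ?_) (fun f => rcs127_fldD_P _ _ _ f) (fun e he => ?_) huv h1 h2
    · rw [rcs127_fldD_F] at hw ⊢
      have hm : rcy162Red L w ∈ (rci69Cap L a b).Fc := by
        by_contra hn
        exact hw (rcy162_sgV_of_not (Y := rcs127Sw (rci69Cap L a b)) _ hn)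
      have e : rci69BotF a (rcy162Red L w) = rcy162Red L w := by
        rcases rci69_mem_capF.1 hm with ⟨-, g, -⟩ | g
        · exact rcp162_bot_in (by omega)
        · rw [g]; exact rcp162_bot_pole rfl
      rw [e]
      exact rcs127_sgV_sg hw
    · rw [rcs127_fldD_E] at he ⊢
      have hm : rcy162RedE L e ∈ (rci69Cap L a b).E := by
        by_contra hn
        exact he (rcy162_sgE_of_not (Y := rcs127Sw (rci69Cap L a b)) _ hn)
      obtain ⟨-, g, -⟩ := rci69_mem_capE.1 hm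
      have g' : a ≤ (rcy162Red L e.1).2 := g
      obtain ⟨g1, g2⟩ := rcs127_sgE_sg he
      refine ⟨?_, ?_⟩
      · rw [g1, rcp162_bot_in (by omega)]
        rfl
      · rw [g2, rcp162_sw_p1, rcp162_cap_f1, rcs127_red_co]

/-- the FREE law of the capped cylinder, read on the status field of `s` -/
noncomputable def rcp162Nu (t : ℝ) (L : ℕ) (a b : ℤ) (E : Set CyF) : ℝ :=
  (rci69Cap L a b).Pr t (fun _ => True) (fun ω => rcy162Fld L (rci69Cap L a b) ω ∈ E)

/-- the FREE law of the capped cylinder, read on the status field of `d` -/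
noncomputable def rcp162NuD (t : ℝ) (L : ℕ) (a b : ℤ) (E : Set CyF) : ℝ :=
  (rcs127Sw (rci69Cap L a b)).Pr t (fun _ => True) (fun ω => rcs127FldD L (rcs127Sw (rci69Cap L a b)) ω ∈ E)

theorem rcp162_nu_neg (t : ℝ) {L : ℕ} (hL : 0 < L) (a b : ℤ) (E : Set CyF) : rcp162Nu t L a b {τ | (fun u => - τ u) ∈ E} = rcp162Nu t L a b E := by
  have hw := rci69_cap_wf hL a b
  unfold rcp162Nu
  rw [rcy162_flipS_Pr _ hw t (fun _ => True) (fun ω => rcy162Fld L (rci69Cap L a b) ω ∈ E)]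
  have e : ∀ ω, rcy162Fld L (rci69Cap L a b) ((rci69Cap L a b).flipS ω) = fun u => - rcy162Fld L (rci69Cap L a b) ω u :=
    fun ω => funext fun p => rcy162_flipS_fld L _ hw ω p
  simp only [e]
  rfl

theorem rcp162_nuD_neg (t : ℝ) {L : ℕ} (hL : 0 < L) (a b : ℤ) (E : Set CyF) : rcp162NuD t L a b {τ | (fun u => - τ u) ∈ E} = rcp162NuD t L a b E := by
  have hw : (rcs127Sw (rci69Cap L a b)).WF := rcs127_sw_wf (rci69_cap_wf hL a b)
  unfold rcp162NuD
  rw [rcy162_flipS_Pr _ hw t (fun _ => True) (fun ω => rcs127FldD L (rcs127Sw (rci69Cap L a b)) ω ∈ E)]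
  have e : ∀ ω, rcs127FldD L (rcs127Sw (rci69Cap L a b)) ((rcs127Sw (rci69Cap L a b)).flipS ω)
      = fun u => - rcs127FldD L (rcs127Sw (rci69Cap L a b)) ω u := fun ω => funext fun p => rcs127_flipS_fldD L _ hw ω p
  simp only [e]
  rfl

theorem rcp162_nu_VP (t : ℝ) {L : ℕ} (hL : 0 < L) (a b c d : ℤ) : rcp162Nu t L a b (cyVP (-1) c d) = rcp162Nu t L a b (cyVP 1 c d) := by
  rw [← rcp162_nu_neg t hL a b (cyVP 1 c d)]
  congr 1
  ext τ
  exact (rcs127_neg_VP 1 τ c d).symm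

theorem rcp162_nuD_Blk (t : ℝ) {L : ℕ} (hL : 0 < L) (a b c d : ℤ) : rcp162NuD t L a b (cyBlk (-1) c d) = rcp162NuD t L a b (cyBlk 1 c d) := by
  rw [← rcp162_nuD_neg t hL a b (cyBlk 1 c d)]
  congr 1
  ext τ
  exact (rcs127_neg_Blk 1 τ c d).symm

/-- the self-duality in law (one inequality) -/
theorem rcp162_nuD_le {t : ℝ} (h0 : 0 ≤ t) (h1 : t ≤ 1) {L : ℕ} (hL : 0 < L) (a b : ℤ) {s : SignType} (hs : s ≠ 0) {c d : ℤ} (hc : 2 * a ≤ c)
    (hd : d ≤ 2 * b - 1) : rcp162NuD t L a b (cyBlk s c d) ≤ rcp162Nu t L a b (cyBlk s (2 * (a + b) - 1 - d) (2 * (a + b) - 1 - c)) := by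
  have hw : (rcs127Sw (rci69Cap L a b)).WF := rcs127_sw_wf (rci69_cap_wf hL a b)
  unfold rcp162NuD rcp162Nu
  rw [rcy162_hom_Pr (rcp162_hom hL a b) hw t (fun _ => True)]
  exact rcy162_P_mono' _ _ h0 h1 fun ω hω _ h => rcp162_blk hL a b hω hs hc hd h

/-- ALT for the free law of the capped cylinder -/
theorem rcp162_alt {t : ℝ} (h0 : 1 / 2 ≤ t) (h1 : t ≤ 1) {L : ℕ} (hL : 0 < L) {a b c d : ℤ} (hcd : c ≤ d) (hc : 2 * a ≤ c) (hd : d ≤ 2 * b - 1) :
    1 ≤ 2 * rcp162Nu t L a b (cyVP 1 c d) + 2 * rcp162NuD t L a b (cyBlk 1 c d) := by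
  have ht : 0 < t := by linarith
  have h := rcs127_alt_P (rci69Cap L a b) h0 h1 (fun _ _ => True) (rci69_cap_feas ht L a b)
    (fun ω => rcy162Fld L (rci69Cap L a b) ω ∈ cyVP 1 c d) (fun ω => rcy162Fld L (rci69Cap L a b) ω ∈ cyVP (-1) c d)
    (fun ω => rcs127FldD L (rcs127Sw (rci69Cap L a b)) ω ∈ cyBlk 1 c d) (fun ω => rcs127FldD L (rcs127Sw (rci69Cap L a b)) ω ∈ cyBlk (-1) c d)
    (fun S D O O' _ _ _ _ _ hw => rcp162_alt_cfg hL hcd hc hd hw)
  have h' : 1 ≤ rcp162Nu t L a b (cyVP 1 c d) + rcp162Nu t L a b (cyVP (-1) c d) + rcp162NuD t L a b (cyBlk 1 c d) + rcp162NuD t L a b (cyBlk (-1) c d) := h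
  rw [rcp162_nu_VP t hL, rcp162_nuD_Blk t hL] at h'
  linarith

/-- **EXIT of block (a)**: in the band mapped to itself by the self-duality, the free law of the capped cylinder crosses or blocks by plus with probability `≥ 1/2` -/
theorem rcp162_half {t : ℝ} (h0 : 1 / 2 ≤ t) (h1 : t ≤ 1) {L : ℕ} (hL : 0 < L) {a b c d : ℤ} (hcd : c ≤ d) (hc : 2 * a ≤ c)
    (hsym : c + d = 2 * (a + b) - 1) : 1 / 2 ≤ rcp162Nu t L a b (cyVP 1 c d) + rcp162Nu t L a b (cyBlk 1 c d) := by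
  have hd : d ≤ 2 * b - 1 := by omega
  have k1 := rcp162_alt h0 h1 hL hcd hc hd
  have k2 := rcp162_nuD_le (by linarith : (0 : ℝ) ≤ t) h1 hL a b (s := 1) (by decide) hc hd
  have e1 : 2 * (a + b) - 1 - d = c := by omega
  have e2 : 2 * (a + b) - 1 - c = d := by omega
  rw [e1, e2] at k2
  linarith

/-- the form of the text of 69: band `κ .. κ + m - 1` -/
theorem rcp162_half' {t : ℝ} (h0 : 1 / 2 ≤ t) (h1 : t ≤ 1) {L : ℕ} (hL : 0 < L) {a b κ m : ℤ} (hm : 1 ≤ m) (hc : 2 * a ≤ κ)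
    (hsym : 2 * κ + m = 2 * (a + b)) : 1 / 2 ≤ rcp162Nu t L a b (cyVP 1 κ (κ + m - 1)) + rcp162Nu t L a b (cyBlk 1 κ (κ + m - 1)) :=
  rcp162_half h0 h1 hL (by omega) hc (by omega)

/-- **the exit in the shape asked by 69** (22:27Z): the capped cylinder contains the rows `0..H` strictly, the band is any `κ .. κ + m - 1`, `m` even, `0 ≤ κ` -/
theorem rcp162_exit {t : ℝ} (h0 : 1 / 2 ≤ t) (h1 : t ≤ 1) {L : ℕ} (hL : 0 < L) (H : ℕ) {κ m : ℤ} (hm : 1 ≤ m) (hme : Even m) (hκ : 0 ≤ κ) :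
    ∃ a b : ℤ, a ≤ 0 ∧ (H : ℤ) < b ∧
      1 / 2 ≤ (rci69Cap L a b).Pr t (fun _ => True) (fun ω => rcy162Fld L (rci69Cap L a b) ω ∈ cyVP 1 κ (κ + m - 1))
        + (rci69Cap L a b).Pr t (fun _ => True) (fun ω => rcy162Fld L (rci69Cap L a b) ω ∈ cyBlk 1 κ (κ + m - 1)) := by
  obtain ⟨r, hr⟩ := hme
  have hH : (0 : ℤ) ≤ H := Int.natCast_nonneg H
  refine ⟨-(H : ℤ) - 1 - r, (H : ℤ) + 1 + κ + m, by omega, by omega, ?_⟩
  exact rcp162_half' h0 h1 hL hm (by omega) (by omega)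

/-- the same with the two heights free: any `b` above the band and above `H` -/
theorem rcp162_exit' {t : ℝ} (h0 : 1 / 2 ≤ t) (h1 : t ≤ 1) {L : ℕ} (hL : 0 < L) {κ r b : ℤ} (hr : 1 ≤ r) (hκ : 0 ≤ κ) (hb : κ + r ≤ b) :
    1 / 2 ≤ (rci69Cap L (κ + r - b) b).Pr t (fun _ => True) (fun ω => rcy162Fld L (rci69Cap L (κ + r - b) b) ω ∈ cyVP 1 κ (κ + 2 * r - 1))
        + (rci69Cap L (κ + r - b) b).Pr t (fun _ => True) (fun ω => rcy162Fld L (rci69Cap L (κ + r - b) b) ω ∈ cyBlk 1 κ (κ + 2 * r - 1)) :=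
  rcp162_half' h0 h1 hL (by omega) (by omega) (by omega)

/-! ## 5. the ROTATION of the capped cylinder (an involution); sub-systems      ((p4) of the text of 121 for (perJ), 23:00Z) -/

/-- faces ↦ sites -/
def rcp162rV (L : ℕ) (a b : ℤ) (u : ℤ × ℤ) : ℤ × ℤ := rci69TopV b (rcy162Red L (-u.1, a + b - 1 - u.2))

/-- sites ↦ faces -/
def rcp162rF (L : ℕ) (a b : ℤ) (u : ℤ × ℤ) : ℤ × ℤ := rci69BotF a (rcy162Red L (-u.1, a + b - 1 - u.2))

/-- edge pairs: horizontal ↔ vertical -/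
def rcp162rE (L : ℕ) (a b : ℤ) (e : (ℤ × ℤ) × Bool) : (ℤ × ℤ) × Bool := (rcy162Red L (-e.1.1, a + b - 1 - e.1.2), !e.2)

theorem rcp162_rV_in (L : ℕ) {a b : ℤ} {u : ℤ × ℤ} (h : u.2 ≠ a - 1) : rcp162rV L a b u = rcy162Red L (-u.1, a + b - 1 - u.2) :=
  rcp162_top_in (by rw [rcy162_red_snd]; simp only; omega)

theorem rcp162_rV_pole (L : ℕ) {a b : ℤ} {u : ℤ × ℤ} (h : u.2 = a - 1) : rcp162rV L a b u = (0, b) :=
  rcp162_top_pole (by rw [rcy162_red_snd]; simp only; omega)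

theorem rcp162_rF_in (L : ℕ) {a b : ℤ} {u : ℤ × ℤ} (h : u.2 ≠ b) : rcp162rF L a b u = rcy162Red L (-u.1, a + b - 1 - u.2) :=
  rcp162_bot_in (by rw [rcy162_red_snd]; simp only; omega)

theorem rcp162_rF_pole (L : ℕ) {a b : ℤ} {u : ℤ × ℤ} (h : u.2 = b) : rcp162rF L a b u = (0, a - 1) :=
  rcp162_bot_pole (by rw [rcy162_red_snd]; simp only; omega)

theorem rcp162_rV_pole' (L : ℕ) (a b : ℤ) : rcp162rV L a b (0, a - 1) = (0, b) := rcp162_rV_pole L rfl

theorem rcp162_rF_pole' (L : ℕ) (a b : ℤ) : rcp162rF L a b (0, b) = (0, a - 1) := rcp162_rF_pole L rfl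

theorem rcp162_rE_mk (L : ℕ) (a b x j : ℤ) (bb : Bool) : rcp162rE L a b ((x, j), bb) = (rcy162Red L (-x, a + b - 1 - j), !bb) := rfl

theorem rcp162_red_neg (L : ℕ) (x y0 c y : ℤ) : rcy162Red L (-(rcy162Red L (x, y0)).1 + c, y) = rcy162Red L (-x + c, y) :=
  rcy162_red_congr L y (x / L) (by show -(x % (L : ℤ)) + c = _; rw [Int.emod_def]; ring)

theorem rcp162_red_neg0 (L : ℕ) (x y0 y : ℤ) : rcy162Red L (-(rcy162Red L (x, y0)).1, y) = rcy162Red L (-x, y) := by
  have := rcp162_red_neg L x y0 0 y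
  rwa [add_zero, add_zero] at this

theorem rcp162_rV_mem {L : ℕ} (hL : 0 < L) {a b : ℤ} {f : ℤ × ℤ} (hf : f ∈ (rci69Cap L a b).Fc) : rcp162rV L a b f ∈ (rci69Cap L a b).V := by
  rcases rci69_mem_capF.1 hf with ⟨h1, h2, h3⟩ | rfl
  · rw [rcp162_rV_in L (by omega)]
    exact rcp162_red_memV hL (by simp only; omega) (by simp only; omega)
  · rw [rcp162_rV_pole' L a b]
    exact rci69_mem_capV.2 (Or.inr rfl)

theorem rcp162_rF_mem {L : ℕ} (hL : 0 < L) {a b : ℤ} {v : ℤ × ℤ} (hv : v ∈ (rci69Cap L a b).V) : rcp162rF L a b v ∈ (rci69Cap L a b).Fc := by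
  rcases rci69_mem_capV.1 hv with ⟨h1, h2, h3⟩ | rfl
  · rw [rcp162_rF_in L (by omega)]
    exact rcp162_red_memF hL (by simp only; omega) (by simp only; omega)
  · rw [rcp162_rF_pole' L a b]
    exact rci69_mem_capF.2 (Or.inr rfl)

theorem rcp162_rE_mem {L : ℕ} (hL : 0 < L) {a b : ℤ} {e : (ℤ × ℤ) × Bool} (he : e ∈ (rci69Cap L a b).E) : rcp162rE L a b e ∈ (rci69Cap L a b).E := by
  obtain ⟨h1, h2, h3⟩ := rci69_mem_capE.1 he
  exact rci69_mem_capE.2 ⟨rcy162_red_range hL _, by show a ≤ a + b - 1 - e.1.2 ∧ a + b - 1 - e.1.2 < b; omega⟩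

/-- the rotation is an involution -/
theorem rcp162_rV_rF {L : ℕ} (hL : 0 < L) {a b : ℤ} {v : ℤ × ℤ} (hv : v ∈ (rci69Cap L a b).V) : rcp162rV L a b (rcp162rF L a b v) = v := by
  rcases rci69_mem_capV.1 hv with ⟨h1, h2, h3⟩ | rfl
  · rw [rcp162_rF_in L (by omega), rcp162_rV_in L (by rw [rcy162_red_snd]; simp only; omega), rcp162_red_neg0, rcy162_red_snd]
    rw [rcp162_red_eq L (x' := v.1) (y' := v.2) 0 (by ring) (by ring)]
    exact rcy162_red_of_range h1.1 h1.2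
  · rw [rcp162_rF_pole' L a b, rcp162_rV_pole' L a b]

theorem rcp162_rF_rV {L : ℕ} (hL : 0 < L) {a b : ℤ} {f : ℤ × ℤ} (hf : f ∈ (rci69Cap L a b).Fc) : rcp162rF L a b (rcp162rV L a b f) = f := by
  rcases rci69_mem_capF.1 hf with ⟨h1, h2, h3⟩ | rfl
  · rw [rcp162_rV_in L (by omega), rcp162_rF_in L (by rw [rcy162_red_snd]; simp only; omega), rcp162_red_neg0, rcy162_red_snd]
    rw [rcp162_red_eq L (x' := f.1) (y' := f.2) 0 (by ring) (by ring)]
    exact rcy162_red_of_range h1.1 h1.2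
  · rw [rcp162_rV_pole' L a b, rcp162_rF_pole' L a b]

theorem rcp162_rE_rE {L : ℕ} (hL : 0 < L) {a b : ℤ} {e : (ℤ × ℤ) × Bool} (he : e ∈ (rci69Cap L a b).E) : rcp162rE L a b (rcp162rE L a b e) = e := by
  obtain ⟨h1, h2, h3⟩ := rci69_mem_capE.1 he
  obtain ⟨⟨x, j⟩, bb⟩ := e
  simp only at h1 h2 h3
  rw [rcp162_rE_mk]
  show (rcy162Red L (-(rcy162Red L (-x, a + b - 1 - j)).1, a + b - 1 - (a + b - 1 - j)), !!bb) = _
  rw [rcp162_red_neg0, rcp162_red_eq L (x' := x) (y' := j) 0 (by ring) (by ring), rcy162_red_of_range (u := (x, j)) h1.1 h1.2, Bool.not_not]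

/-- **the rotation is a self-duality of the capped cylinder** -/
theorem rcp162_rot_hom {L : ℕ} (hL : 0 < L) (a b : ℤ) :
    Rcy162Hom (rcs127Sw (rci69Cap L a b)) (rci69Cap L a b) (rcp162rV L a b) (rcp162rF L a b) (rcp162rE L a b) := by
  have injV : Set.InjOn (rcp162rV L a b) (rci69Cap L a b).Fc := fun u hu u' hu' h => by
    rw [← rcp162_rF_rV hL hu, ← rcp162_rF_rV hL hu', h]
  have injF : Set.InjOn (rcp162rF L a b) (rci69Cap L a b).V := fun u hu u' hu' h => by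
    rw [← rcp162_rV_rF hL hu, ← rcp162_rV_rF hL hu', h]
  have injE : Set.InjOn (rcp162rE L a b) (rci69Cap L a b).E := fun u hu u' hu' h => by
    rw [← rcp162_rE_rE hL hu, ← rcp162_rE_rE hL hu', h]
  refine ⟨injV, injF, injE, ?_, ?_, ?_, ?_, ?_⟩
  · show (rci69Cap L a b).Fc.image (rcp162rV L a b) = _
    ext v
    rw [Finset.mem_image]
    exact ⟨fun ⟨u, hu, e⟩ => e ▸ rcp162_rV_mem hL hu, fun hv => ⟨_, rcp162_rF_mem hL hv, rcp162_rV_rF hL hv⟩⟩
  · show (rci69Cap L a b).V.image (rcp162rF L a b) = _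
    ext v
    rw [Finset.mem_image]
    exact ⟨fun ⟨u, hu, e⟩ => e ▸ rcp162_rF_mem hL hu, fun hv => ⟨_, rcp162_rV_mem hL hv, rcp162_rF_rV hL hv⟩⟩
  · show (rci69Cap L a b).E.image (rcp162rE L a b) = _
    ext v
    rw [Finset.mem_image]
    exact ⟨fun ⟨u, hu, e⟩ => e ▸ rcp162_rE_mem hL hu, fun hv => ⟨_, rcp162_rE_mem hL hv, rcp162_rE_rE hL hv⟩⟩
  · rintro ⟨⟨x, j⟩, bb⟩ he
    have he' : ((x, j), bb) ∈ (rci69Cap L a b).E := he
    obtain ⟨h1, h2, h3⟩ := rci69_mem_capE.1 he'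
    simp only at h1 h2 h3
    left
    rw [rcp162_sw_p0, rcp162_sw_p1, rcp162_cap_p0, rcp162_cap_p1, rcp162_cap_f0, rcp162_cap_f1, rcp162_rE_mk]
    refine ⟨(rcp162_rV_in L (u := (x, j)) (show j ≠ a - 1 by omega)).symm, ?_⟩
    cases bb
    · rw [rtd111_co_f, rcp162_red_mk L (-x), Bool.not_false, rtd111_end_t]
      by_cases hj : j = a
      · rw [rcp162_bot_pole (by rw [rcy162_red_snd]; simp only; omega), rcp162_rV_pole' L a b, rcp162_top_pole (by rw [rcy162_red_snd]; simp only; omega)]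
      · rw [rcp162_bot_in (by rw [rcy162_red_snd]; simp only; omega), rcp162_rV_in L (by rw [rcy162_red_snd]; simp only; omega),
          rcp162_top_in (by rw [rcy162_red_snd]; simp only; omega), rcp162_red_neg0, rcy162_red_snd]
        rw [rcp162_red_eq L (x := -x % (L : ℤ)) (x' := -x) (y' := a + b - 1 - (j - 1)) (-(-x / L)) (by rw [Int.emod_def]; ring) (by ring)]
    · rw [rtd111_co_t, rcp162_red_mk L (-x), Bool.not_true, rtd111_end_f]
      rw [rcp162_bot_in (by rw [rcy162_red_snd]; simp only; omega), rcp162_rV_in L (by rw [rcy162_red_snd]; simp only; omega),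
        rcp162_top_in (by rw [rcy162_red_snd]; simp only; omega), rcp162_red_neg0, rcy162_red_snd]
      rw [rcp162_red_eq L (x := -x % (L : ℤ) + 1) (x' := -(x - 1)) (y' := a + b - 1 - j) (-(-x / L)) (by rw [Int.emod_def]; ring) rfl]
  · rintro ⟨⟨x, j⟩, bb⟩ he
    have he' : ((x, j), bb) ∈ (rci69Cap L a b).E := he
    obtain ⟨h1, h2, h3⟩ := rci69_mem_capE.1 he'
    simp only at h1 h2 h3
    left
    rw [rcp162_sw_f0, rcp162_sw_f1, rcp162_cap_p0, rcp162_cap_p1, rcp162_cap_f0, rcp162_cap_f1, rcp162_rE_mk]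
    refine ⟨(rcp162_rF_in L (u := (x, j)) (show j ≠ b by omega)).symm, ?_⟩
    cases bb
    · rw [rtd111_end_f, rcp162_red_mk L (-x), Bool.not_false, rtd111_co_t]
      rw [rcp162_top_in (by rw [rcy162_red_snd]; simp only; omega), rcp162_rF_in L (by rw [rcy162_red_snd]; simp only; omega),
        rcp162_bot_in (by rw [rcy162_red_snd]; simp only; omega), rcp162_red_neg0, rcy162_red_snd]
      rw [rcp162_red_eq L (x := -x % (L : ℤ) - 1) (x' := -(x + 1)) (y' := a + b - 1 - j) (-(-x / L)) (by rw [Int.emod_def]; ring) rfl]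
    · rw [rtd111_end_t, rcp162_red_mk L (-x), Bool.not_true, rtd111_co_f]
      by_cases hj : j + 1 = b
      · rw [rcp162_top_pole (by rw [rcy162_red_snd]; exact hj), rcp162_rF_pole' L a b, rcp162_bot_pole (by rw [rcy162_red_snd]; simp only; omega)]
      · rw [rcp162_top_in (by rw [rcy162_red_snd]; exact hj), rcp162_rF_in L (by rw [rcy162_red_snd]; exact hj),
          rcp162_bot_in (by rw [rcy162_red_snd]; simp only; omega), rcp162_red_neg0, rcy162_red_snd]
        rw [rcp162_red_eq L (x := -x % (L : ℤ)) (x' := -x) (y' := a + b - 1 - (j + 1)) (-(-x / L)) (by rw [Int.emod_def]; ring) (by ring)]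

/-- **restriction of a morphism to a sub-system** -/
theorem rcp162_hom_res {Z Y : Rcy162Sys} {gV gF : ℤ × ℤ → ℤ × ℤ} {gE : (ℤ × ℤ) × Bool → (ℤ × ℤ) × Bool} (h : Rcy162Hom Z Y gV gF gE)
    {V' F' : Finset (ℤ × ℤ)} {E' : Finset ((ℤ × ℤ) × Bool)} (hV : V' ⊆ Z.V) (hF : F' ⊆ Z.Fc) (hE : E' ⊆ Z.E) :
    Rcy162Hom (rcs127Res Z V' F' E') (rcs127Res Y (V'.image gV) (F'.image gF) (E'.image gE)) gV gF gE :=
  ⟨h.injV.mono (Finset.coe_subset.2 hV), h.injF.mono (Finset.coe_subset.2 hF), h.injE.mono (Finset.coe_subset.2 hE), rfl, rfl, rfl,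
    fun e he => h.pp e (hE he), fun e he => h.ff e (hE he)⟩

/-- the exchange of a morphism -/
theorem rcp162_hom_sw {Z Y : Rcy162Sys} {gV gF : ℤ × ℤ → ℤ × ℤ} {gE : (ℤ × ℤ) × Bool → (ℤ × ℤ) × Bool} (h : Rcy162Hom Z Y gV gF gE) :
    Rcy162Hom (rcs127Sw Z) (rcs127Sw Y) gF gV gE :=
  ⟨h.injF, h.injV, h.injE, h.imF, h.imV, h.imE, h.ff, h.pp⟩

/-- the point reflection of the refined lattice preserves the adjacency -/
theorem rcp162_rot_adj (c₀ ρ : ℤ) (p q : ℤ × ℤ) (h : Claims.C0467.triAdj p q) : Claims.C0467.triAdj (c₀ - p.1, ρ - p.2) (c₀ - q.1, ρ - q.2) := by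
  rw [tsc_adj_iff] at h ⊢
  simp only
  omega

theorem rcp162_rot_X (c₀ ρ : ℤ) {c d : ℤ} {S S' : Set (ℤ × ℤ)} (hS : ∀ u ∈ S, (c₀ - u.1, ρ - u.2) ∈ S') (h : CyX S c d) : CyX S' (ρ - d) (ρ - c) := by
  obtain ⟨u, v, hu, h1, h2, h3⟩ := h
  exact ⟨(c₀ - v.1, ρ - v.2), (c₀ - u.1, ρ - u.2), hS v (tsc_R_mem h3 hu), by simp only [h2], by simp only [h1],
    tsc_R_symm (cy_R_map (fun z => (c₀ - z.1, ρ - z.2)) (rcp162_rot_adj c₀ ρ) hS h3)⟩

section sub

variable {L : ℕ} (hL : 0 < L) (a b : ℤ) {V' F' : Finset (ℤ × ℤ)} {E' : Finset ((ℤ × ℤ) × Bool)}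
  (hV : V' ⊆ (rci69Cap L a b).Fc) (hF : F' ⊆ (rci69Cap L a b).V) (hE : E' ⊆ (rci69Cap L a b).E)

include hL hV hF hE

/-- the rotation on a sub-system `(V', F', E')` of the exchanged capped cylinder -/
theorem rcp162_rot_res : Rcy162Hom (rcs127Res (rcs127Sw (rci69Cap L a b)) V' F' E')
    (rcs127Res (rci69Cap L a b) (V'.image (rcp162rV L a b)) (F'.image (rcp162rF L a b)) (E'.image (rcp162rE L a b)))
    (rcp162rV L a b) (rcp162rF L a b) (rcp162rE L a b) :=
  rcp162_hom_res (rcp162_rot_hom hL a b) hV hF hE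

/-- **the field rule on a sub-system**, refined map `u ↦ (1 - u.1, 2 (a + b) - 1 - u.2)` -/
theorem rcp162_rot_fld (hw : (rcs127Res (rcs127Sw (rci69Cap L a b)) V' F' E').WF) {ω : RswCfg}
    (hω : (rcs127Res (rcs127Sw (rci69Cap L a b)) V' F' E').Cfg ω) (p : ℤ × ℤ) (h1 : 2 * a ≤ p.2) (h2 : p.2 ≤ 2 * b - 1) :
    rcy162Fld L (rcs127Res (rci69Cap L a b) (V'.image (rcp162rV L a b)) (F'.image (rcp162rF L a b)) (E'.image (rcp162rE L a b)))
      (rcy162Map (rcp162rV L a b) (rcp162rF L a b) (rcp162rE L a b) ω) (1 - p.1, 2 * (a + b) - 1 - p.2)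
      = rcs127FldD L (rcs127Res (rcs127Sw (rci69Cap L a b)) V' F' E') ω p := by
  have hh := rcp162_rot_res hL a b hV hF hE
  have h0 := rcp162_rot_hom hL a b
  rcases rtd111_cases p with ⟨v, rfl⟩ | ⟨f, rfl⟩ | ⟨⟨⟨x, y⟩, bb⟩, rfl⟩
  · have e : (1 - (rtd111P v).1, 2 * (a + b) - 1 - (rtd111P v).2) = rtd111F (-v.1, a + b - 1 - v.2) := by
      unfold rtd111P rtd111F; ext <;> simp <;> ring
    rw [e, rcy162_fld_F, rcs127_fldD_P]
  · have e : (1 - (rtd111F f).1, 2 * (a + b) - 1 - (rtd111F f).2) = rtd111P (-f.1, a + b - 1 - f.2) := by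
      unfold rtd111P rtd111F; ext <;> simp <;> ring
    have g1 : (rtd111F f).2 = 2 * f.2 + 1 := rfl
    rw [g1] at h1 h2
    have hm : rcy162Red L f ∈ (rci69Cap L a b).Fc := rcp162_red_memF (a := a) (b := b) hL (by omega) (by omega)
    have hoff : rcy162Red L f ∉ (rcs127Res (rcs127Sw (rci69Cap L a b)) V' F' E').V → rcp162rV L a b (rcy162Red L f) ∉
        (rcs127Res (rci69Cap L a b) (V'.image (rcp162rV L a b)) (F'.image (rcp162rF L a b)) (E'.image (rcp162rE L a b))).V := by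
      intro hn hc
      obtain ⟨u, hu, e⟩ := Finset.mem_image.1 hc
      exact hn ((h0.injV (hV hu) hm e) ▸ hu)
    rw [e, rcy162_fld_P, rcs127_fldD_F, ← rcy162_hom_sgV hh hω (v := rcy162Red L f) hoff,
      rcp162_rV_in L (by rw [rcy162_red_snd]; omega), rcy162_red_snd]
    obtain ⟨f1, f2⟩ := f
    rw [rcp162_red_neg0]
  · have hy : a ≤ y ∧ y < b := by
      cases bb
      · rw [rtd111_E_f] at h1 h2
        simp only at h1 h2
        omega
      · rw [rtd111_E_t] at h1 h2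
        simp only at h1 h2
        omega
    have hm : rcy162RedE L ((x, y), bb) ∈ (rci69Cap L a b).E := rcp162_redE_mem (a := a) (b := b) hL hy.1 hy.2
    have hoff : rcy162RedE L ((x, y), bb) ∉ (rcs127Res (rcs127Sw (rci69Cap L a b)) V' F' E').E → rcp162rE L a b (rcy162RedE L ((x, y), bb)) ∉
        (rcs127Res (rci69Cap L a b) (V'.image (rcp162rV L a b)) (F'.image (rcp162rF L a b)) (E'.image (rcp162rE L a b))).E := by
      intro hn hc
      obtain ⟨u, hu, e⟩ := Finset.mem_image.1 hc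
      exact hn ((h0.injE (hE hu) hm e) ▸ hu)
    have e2 : rcp162rE L a b (rcy162RedE L ((x, y), bb)) = rcy162RedE L ((-x, a + b - 1 - y), !bb) := by
      show (rcy162Red L (-(rcy162Red L (x, y)).1, a + b - 1 - y), !bb) = (rcy162Red L (-x, a + b - 1 - y), !bb)
      rw [rcp162_red_neg0]
    have e : (1 - (rtd111E ((x, y), bb)).1, 2 * (a + b) - 1 - (rtd111E ((x, y), bb)).2) = rtd111E ((-x, a + b - 1 - y), !bb) := by
      cases bb
      · rw [rtd111_E_f, Bool.not_false, rtd111_E_t]; ext <;> simp <;> ring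
      · rw [rtd111_E_t, Bool.not_true, rtd111_E_f]; ext <;> simp <;> ring
    rw [e, rcy162_fld_E, rcs127_fldD_E, ← rcy162_hom_sgE hh hw hω (e := rcy162RedE L ((x, y), bb)) hoff, e2]

/-- **the event transfer on a sub-system** -/
theorem rcp162_rot_blk (hw : (rcs127Res (rcs127Sw (rci69Cap L a b)) V' F' E').WF) {ω : RswCfg}
    (hω : (rcs127Res (rcs127Sw (rci69Cap L a b)) V' F' E').Cfg ω) (s : SignType) {c d : ℤ} (hc : 2 * a ≤ c) (hd : d ≤ 2 * b - 1)
    (h : rcs127FldD L (rcs127Res (rcs127Sw (rci69Cap L a b)) V' F' E') ω ∈ cyBlk s c d) :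
    rcy162Fld L (rcs127Res (rci69Cap L a b) (V'.image (rcp162rV L a b)) (F'.image (rcp162rF L a b)) (E'.image (rcp162rE L a b)))
      (rcy162Map (rcp162rV L a b) (rcp162rF L a b) (rcp162rE L a b) ω) ∈ cyBlk s (2 * (a + b) - 1 - d) (2 * (a + b) - 1 - c) := by
  intro hX
  apply h
  have k := rcp162_rot_X 1 (2 * (a + b) - 1) (S' := plsBand c d \ cyOn s (rcs127FldD L (rcs127Res (rcs127Sw (rci69Cap L a b)) V' F' E') ω))
    (fun u hu => ?_) hX
  · rwa [sub_sub_cancel, sub_sub_cancel] at k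
  · obtain ⟨⟨u1, u2⟩, u3⟩ := hu
    have b1 : c ≤ 2 * (a + b) - 1 - u.2 := by omega
    have b2 : 2 * (a + b) - 1 - u.2 ≤ d := by omega
    refine ⟨⟨b1, b2⟩, fun hh => u3 ?_⟩
    have r := rcp162_rot_fld hL a b hV hF hE hw hω (1 - u.1, 2 * (a + b) - 1 - u.2) (by simp only; omega) (by simp only; omega)
    simp only [sub_sub_cancel] at r
    show rcy162Fld L _ _ u = s
    rw [show u = (u.1, u.2) from rfl, r]
    exact hh

/-- **(p4), law form**: any constraint `K` on the image system -/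
theorem rcp162_rot_le {t : ℝ} (h0 : 0 ≤ t) (h1 : t ≤ 1) (hw : (rcs127Res (rcs127Sw (rci69Cap L a b)) V' F' E').WF) (K : RswCfg → Prop)
    (s : SignType) {c d : ℤ} (hc : 2 * a ≤ c) (hd : d ≤ 2 * b - 1) :
    (rcs127Res (rcs127Sw (rci69Cap L a b)) V' F' E').Pr t (fun ω => K (rcy162Map (rcp162rV L a b) (rcp162rF L a b) (rcp162rE L a b) ω))
        (fun ω => rcs127FldD L (rcs127Res (rcs127Sw (rci69Cap L a b)) V' F' E') ω ∈ cyBlk s c d)
      ≤ (rcs127Res (rci69Cap L a b) (V'.image (rcp162rV L a b)) (F'.image (rcp162rF L a b)) (E'.image (rcp162rE L a b))).Pr t K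
        (fun ω => rcy162Fld L (rcs127Res (rci69Cap L a b) (V'.image (rcp162rV L a b)) (F'.image (rcp162rF L a b)) (E'.image (rcp162rE L a b))) ω
          ∈ cyBlk s (2 * (a + b) - 1 - d) (2 * (a + b) - 1 - c)) := by
  rw [rcy162_hom_Pr (rcp162_rot_res hL a b hV hF hE) hw t K]
  exact rcy162_P_mono' _ _ h0 h1 fun ω hω _ h => rcp162_rot_blk hL a b hV hF hE hw hω s hc hd h

end sub

theorem rcp162_defs_eqns_cite : True := by
  have := @rcp162gV.eq_1
  have := @rcp162gF.eq_1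
  have := @rcp162gE.eq_1
  have := @Rcp162RefD.eq_1
  have := @rcp162Nu.eq_1
  have := @rcp162NuD.eq_1
  have := @rcp162rV.eq_1
  have := @rcp162rF.eq_1
  have := @rcp162rE.eq_1
  trivial

end Claimed.Agent.R292
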