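import Claimed.Agent.R292.Rsw.Sys162
import Claimed.Agent.R292.Rsw.CylTop127
import Claimed.Agent.R292.Rsw.CapSym162

/-!
# Row 292 (S0540), Rsw/CylDict111 : THE PLANAR DICTIONARY OF `TriDict111` READ ON THE FIELD `rcy162Fld` OF THE CYLINDER OF `Sys162`      (owner helper111; prefix `rcd111`, `Rcd111`)      0 sorry

§1 `rcd111_spec` : `Rtd111Spec (cyOn (rcd111Sg s) (rcy162Fld L (rcy162Cyl L a b) ω)) (Rcd111G L (rcy162Cyl L a b) s ω)`, so ALL the lemmas `rtd111_c_*` of `TriDict111` Sec. 10, 11 apply to the field of 162;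
   `rcd111_G_per` (the lifted good edges are `L`-periodic).
§2 cover <-> quotient: dual chains of the cover in the band of faces `c ≤ f.2 < d` = chains of `(rcy162Cyl L c d).Step`: `rcd111_step_proj`, `rcd111_chain_proj`, `rcd111_chain_lift`.
§3 the events in the words of `Sys162`: **`rcd111_Blk_sep`** : `rcy162Fld .. ω ∈ cyBlk (rcd111Sg s) (2 c + 1) (2 d - 1) ↔ (rcy162Cyl L c d).Sep s ω (rcy162Row L c) (rcy162Row L (d - 1))`,
   **`rcd111_Blk_circuit`** (a circuit of good edges which winds once), `rcd111_VP_cocircuit`.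
§4 the geometry of the search of 127 (`Rcs127Adm` of `CylTop127`): **`rcd111_adm`** (ANY set of faces of the cylinder), **`rcd111_adm_sw`** (G1: ANY set of sites, exchanged cylinder, `a + 2 ≤ b`).
§5 (G2) the record of the exchanged cylinder stays below a circuit of the field of `d`: `rcd111_sw_step_lift`, `rcd111_sw_chain_lift` (site chains of the search lift to the refined lattice, off the sign `s`), **`rcd111_rec_below`**, `rcd111_rec_below'`.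
§6 the two deterministic contracts of `CylTop127` Sec. 8 closed word for word: **`rcd111_G1 : Rcs127G1 L H`** (`2 ≤ H`), **`rcd111_G2 : Rcs127G2 L H`**, **`rcd111_search_of_perJ : Rcs127PerJ t L H → Rcs127Search t L H`** (= `rcd111_search`), **`rcd111_sym`** (the field `sym` word for word from `Rcs127PerJ` alone).
§7 (request of 69, field `recov`) the record of faces of the cylinder stays below a circuit of the field of `s`: `rcd111_wstep_off`, `rcd111_wchain_off`, **`rcd111_rec_below_F`**.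
§8 (G3, request of 127) the faces of the pairs deleted by a CONNECTED set of sites form one class: **`rcd111_G3 : Rcs127G3 (rcy162Cyl L 0 H) J (0, 0)`**; **`rcd111_search_of_perJc`**, **`rcd111_sym_c`** : the field `sym` from `Rcs127PerJc` (connected records) alone.  `Rcs127PerJc` is NOT proved here: it is the open contract of `sym`.
§9 step (a) of (perJ): `rcd111_alt_local` (ALT of `rcs127_alt_cfg` from the cover property of the pairs of the band only), `rcd111_band_mem_out`, **`rcd111_alt_out`** (ALT on the support in EVERY unexplored system, band above `J`), **`rcd111_alt_out_N`** (number form, through `rcs127_alt`).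
§10 (p3) of (perJ), frame-independent (split of 121): `rcd111_fld_cap`, `rcd111_fldD_cap`, `rcd111_ev_cap` (the cap `rci69Cap L a b` and the cylinder `rcy162Cyl L 0 H` read the same fields and events on the refined rows `1 .. 2 H - 1`), **`rcd111_alt_sys`**, **`rcd111_alt_sys_N`** (ALT for ANY system which contains the pairs of the band with the incidence of the cylinder, ANY constraint on `(s, d)`), `rcd111_hW_cap`; (E) rows of `ρ J`: `rcd111_rho_high`, `rcd111_rho_inv_high`, `rcd111_cap_rows`, `rcd111_touch_high`, `rcd111_band_survive`.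
§11 (G3) for the cap: **`rcd111_G3_cap : Rcs127G3 (rci69Cap L 0 b) J (0, -1)`** (connected low `J ⊇` row `0`; pole = the bottom pole); `rcd111_conn_cap`, `rcd111_sub_capV`, **`rcd111_G3_cap'`** (from the hypotheses of `Rcs127PerJc`).
-/

set_option autoImplicit false
set_option linter.unusedVariables false
set_option linter.unusedSimpArgs false

namespace Claimed.Agent.R292

open Relation Claimed.Agent.R291
open Claims.C0467 (triAdj)

/-! ## 1. the instance -/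

/-- the sign of a colour -/
def rcd111Sg (s : Bool) : SignType := if s then 1 else -1

theorem rcd111_Sg_t : rcd111Sg true = 1 := rfl
theorem rcd111_Sg_f : rcd111Sg false = -1 := rfl

/-- the good edge pairs of colour `s` of the system, lifted to the cover -/
def Rcd111G (L : ℕ) (Y : Rcy162Sys) (s : Bool) (ω : RswCfg) (e : (ℤ × ℤ) × Bool) : Prop :=
  rcy162RedE L e ∈ Y.E ∧ Y.Good s ω (rcy162RedE L e)

section inst

variable {L : ℕ} {Y : Rcy162Sys} {s : Bool} {ω : RswCfg}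

theorem rcd111_on_P {v : ℤ × ℤ} :
    rtd111P v ∈ cyOn (rcd111Sg s) (rcy162Fld L Y ω) ↔ rcy162Red L v ∈ Y.V ∧ (rcy162Red L v ∈ ω.S ↔ s = true) := by
  rw [cy_mem_on, rcy162_fld_P]
  cases s
  · rw [rcd111_Sg_f, rcy162_sgV_neg]; simp
  · rw [rcd111_Sg_t, rcy162_sgV_one]; simp

theorem rcd111_on_F (f : ℤ × ℤ) : rtd111F f ∉ cyOn (rcd111Sg s) (rcy162Fld L Y ω) := by
  rw [cy_mem_on, rcy162_fld_F]
  cases s
  · rw [rcd111_Sg_f]; decide
  · rw [rcd111_Sg_t]; decide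

theorem rcd111_on_E {e : (ℤ × ℤ) × Bool} : rtd111E e ∈ cyOn (rcd111Sg s) (rcy162Fld L Y ω) ↔ Rcd111G L Y s ω e := by
  rw [cy_mem_on, rcy162_fld_E]
  cases s
  · rw [rcd111_Sg_f, rcy162_sgE_neg]; rfl
  · rw [rcd111_Sg_t, rcy162_sgE_one]; rfl

end inst

theorem rcd111_redE_def (L : ℕ) (e : (ℤ × ℤ) × Bool) : rcy162RedE L e = (rcy162Red L e.1, e.2) := rfl

theorem rcd111_red_def (L : ℕ) (u : ℤ × ℤ) : rcy162Red L u = (u.1 % (L : ℤ), u.2) := rfl

theorem rcd111_red_end (L : ℕ) (e : (ℤ × ℤ) × Bool) : rcy162Red L (rswEnd (rcy162RedE L e)) = rcy162Red L (rswEnd e) := by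
  obtain ⟨⟨x, y⟩, b⟩ := e
  have h := Int.emod_add_mul_ediv x (L : ℤ)
  cases b
  · show rcy162Red L (rswEnd ((x % (L : ℤ), y), false)) = rcy162Red L (rswEnd ((x, y), false))
    rw [rtd111_end_f, rtd111_end_f]
    exact rcy162_red_congr L y (-(x / (L : ℤ))) (by linarith)
  · show rcy162Red L (rswEnd ((x % (L : ℤ), y), true)) = rcy162Red L (rswEnd ((x, y), true))
    rw [rtd111_end_t, rtd111_end_t]
    exact rcy162_red_congr L (y + 1) (-(x / (L : ℤ))) (by linarith)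

theorem rcd111_red_co (L : ℕ) (e : (ℤ × ℤ) × Bool) : rcy162Red L (rswCo (rcy162RedE L e)) = rcy162Red L (rswCo e) := by
  obtain ⟨⟨x, y⟩, b⟩ := e
  have h := Int.emod_add_mul_ediv x (L : ℤ)
  cases b
  · show rcy162Red L (rswCo ((x % (L : ℤ), y), false)) = rcy162Red L (rswCo ((x, y), false))
    rw [rtd111_co_f, rtd111_co_f]
    exact rcy162_red_congr L (y - 1) (-(x / (L : ℤ))) (by linarith)
  · show rcy162Red L (rswCo ((x % (L : ℤ), y), true)) = rcy162Red L (rswCo ((x, y), true))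
    rw [rtd111_co_t, rtd111_co_t]
    exact rcy162_red_congr L y (-(x / (L : ℤ))) (by linarith)

/-- **THE INSTANCE**: the cells of sign `s` of the field of 162 on the cylinder code the lifted good edge pairs of colour `s` -/
theorem rcd111_spec {L : ℕ} (hL : 0 < L) (a b : ℤ) (s : Bool) (ω : RswCfg) :
    Rtd111Spec (cyOn (rcd111Sg s) (rcy162Fld L (rcy162Cyl L a b) ω)) (Rcd111G L (rcy162Cyl L a b) s ω) where
  F := fun f => rcd111_on_F f
  E := fun e => rcd111_on_E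
  P1 := fun e hg => rcd111_on_P.2 ⟨(rcy162_cyl_wf hL a b).p0 _ hg.1, hg.2.2.1⟩
  P2 := fun e hg => rcd111_on_P.2 (by
    rw [← rcd111_red_end]
    exact ⟨(rcy162_cyl_wf hL a b).p1 _ hg.1, hg.2.2.2⟩)

/-- the lifted good edge pairs are periodic -/
theorem rcd111_G_per (L : ℕ) (Y : Rcy162Sys) (s : Bool) (ω : RswCfg) : Rtd111Per (L : ℤ) (Rcd111G L Y s ω) := by
  intro x y b
  have : rcy162RedE L ((x + (L : ℤ), y), b) = rcy162RedE L ((x, y), b) := by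
    rw [rcd111_redE_def, rcd111_redE_def]
    simp only [rcy162_red_add]
  unfold Rcd111G
  rw [this]

/-- `Good` does not see the rows of the cylinder -/
theorem rcd111_good_rows (L : ℕ) (a b c d : ℤ) (s : Bool) (ω : RswCfg) (e : (ℤ × ℤ) × Bool) :
    (rcy162Cyl L c d).Good s ω e ↔ (rcy162Cyl L a b).Good s ω e := Iff.rfl

/-- for a configuration of the system the lifted good edge pairs are the edges whose reduction is good -/
theorem rcd111_G_iff {L : ℕ} {Y : Rcy162Sys} {s : Bool} {ω : RswCfg} (hω : ω.O ⊆ Y.E) (e : (ℤ × ℤ) × Bool) :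
    Rcd111G L Y s ω e ↔ Y.Good s ω (rcy162RedE L e) :=
  ⟨fun h => h.2, fun h => ⟨hω h.1, h⟩⟩

/-! ## 2. cover and quotient -/

theorem rcd111_red_eq {L : ℕ} {u u' : ℤ × ℤ} (h : rcy162Red L u = rcy162Red L u') : ∃ k : ℤ, u = (u'.1 + k * L, u'.2) := by
  rw [rcd111_red_def, rcd111_red_def, Prod.mk.injEq] at h
  have h1 := Int.emod_add_mul_ediv u.1 (L : ℤ)
  have h2 := Int.emod_add_mul_ediv u'.1 (L : ℤ)
  refine ⟨u.1 / (L : ℤ) - u'.1 / (L : ℤ), Prod.ext ?_ h.2⟩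
  simp only
  have h3 := h.1
  linarith

theorem rcd111_red_shift (L : ℕ) (x y k : ℤ) : rcy162Red L (x + k * L, y) = rcy162Red L (x, y) :=
  rcy162_red_congr L y k (by ring)

theorem rcd111_mem_Fc {L : ℕ} (hL : 0 < L) {c d : ℤ} {f : ℤ × ℤ} : rcy162Red L f ∈ (rcy162Cyl L c d).Fc ↔ f ∈ rtd111Bd c d := by
  rw [rcy162_mem_cylF, rtd111_mem_Bd, rcy162_red_snd]
  exact ⟨fun h => h.2, fun h => ⟨rcy162_red_range hL f, h⟩⟩

section quot

variable {L : ℕ} {a b c d : ℤ} {s : Bool} {ω : RswCfg}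

/-- a dual step of the cover projects to a step of the cylinder of rows `c .. d` -/
theorem rcd111_step_proj (hL : 0 < L) (hω : ω.O ⊆ (rcy162Cyl L a b).E) {f g : ℤ × ℤ}
    (h : Rtd111WStep (rtd111Bd c d) (Rcd111G L (rcy162Cyl L a b) s ω) f g) :
    (rcy162Cyl L c d).Step s ω (rcy162Red L f) (rcy162Red L g) := by
  obtain ⟨hf, hg, e, he, hG⟩ := h
  refine ⟨(rcd111_mem_Fc hL).2 hf, (rcd111_mem_Fc hL).2 hg, rcy162RedE L e, ?_, fun hh => hG ((rcd111_G_iff hω e).2 hh)⟩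
  rcases he with ⟨rfl, rfl⟩ | ⟨rfl, rfl⟩
  · exact Or.inl ⟨rfl, (rcd111_red_co L e).symm⟩
  · exact Or.inr ⟨rfl, (rcd111_red_co L e).symm⟩

theorem rcd111_chain_proj (hL : 0 < L) (hω : ω.O ⊆ (rcy162Cyl L a b).E) {f g : ℤ × ℤ}
    (h : ReflTransGen (Rtd111WStep (rtd111Bd c d) (Rcd111G L (rcy162Cyl L a b) s ω)) f g) :
    ReflTransGen ((rcy162Cyl L c d).Step s ω) (rcy162Red L f) (rcy162Red L g) :=
  ReflTransGen.lift (rcy162Red L) (fun _ _ hab => rcd111_step_proj hL hω hab) _ _ h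

/-- the shift of an edge -/
theorem rcd111_co_shift (e : (ℤ × ℤ) × Bool) (m : ℤ) : rswCo ((e.1.1 + m, e.1.2), e.2) = ((rswCo e).1 + m, (rswCo e).2) := by
  obtain ⟨⟨x, y⟩, b⟩ := e
  cases b
  · simp only [rtd111_co_f]
  · simp only [rtd111_co_t]; exact Prod.ext (by simp only; ring) rfl

/-- a step of the cylinder lifts to the cover, from any lift of its first face -/
theorem rcd111_step_lift (hL : 0 < L) {f g f' : ℤ × ℤ} (h : (rcy162Cyl L c d).Step s ω f g) (hf' : rcy162Red L f' = f) :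
    ∃ g', rcy162Red L g' = g ∧ Rtd111WStep (rtd111Bd c d) (Rcd111G L (rcy162Cyl L a b) s ω) f' g' := by
  obtain ⟨hf, hg, e, he, hG⟩ := h
  have hfB : f' ∈ rtd111Bd c d := (rcd111_mem_Fc hL).1 (by rw [hf']; exact hf)
  rcases he with ⟨h1, h2⟩ | ⟨h1, h2⟩
  · -- `f = e.1`, `g = Red (rswCo e)`
    have h1' : f = e.1 := h1
    have h2' : g = rcy162Red L (rswCo e) := h2
    have hE : rcy162RedE L (f', e.2) = e := by
      rw [rcd111_redE_def]
      simp only [hf', h1']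
    have hg' : rcy162Red L (rswCo (f', e.2)) = g := by
      rw [← rcd111_red_co, hE, h2']
    refine ⟨rswCo (f', e.2), hg', hfB, (rcd111_mem_Fc hL).1 (by rw [hg']; exact hg), (f', e.2), Or.inl ⟨rfl, rfl⟩, ?_⟩
    intro hh
    have := hh.2
    rw [hE] at this
    exact hG this
  · -- `g = e.1`, `f = Red (rswCo e)`
    have h1' : g = e.1 := h1
    have h2' : f = rcy162Red L (rswCo e) := h2
    obtain ⟨k, hk⟩ := rcd111_red_eq (hf'.trans h2')
    have hgr : rcy162Red L g = g := by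
      obtain ⟨r1, _⟩ := rcy162_mem_cylF.1 hg
      exact rcy162_red_of_range r1.1 r1.2
    have hE : rcy162RedE L ((e.1.1 + k * L, e.1.2), e.2) = e := by
      rw [rcd111_redE_def]
      simp only [rcd111_red_shift]
      have : rcy162Red L (e.1.1, e.1.2) = e.1 := by rw [← h1']; exact hgr
      rw [this]
    have hg' : rcy162Red L (e.1.1 + k * L, e.1.2) = g := by
      rw [rcd111_red_shift, h1']
      have : rcy162Red L (e.1.1, e.1.2) = e.1 := by rw [← h1']; exact hgr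
      exact this
    refine ⟨(e.1.1 + k * L, e.1.2), hg', hfB, (rcd111_mem_Fc hL).1 (by rw [hg']; exact hg), ((e.1.1 + k * L, e.1.2), e.2),
      Or.inr ⟨rfl, ?_⟩, ?_⟩
    · rw [rcd111_co_shift, hk]
    · intro hh
      have := hh.2
      rw [hE] at this
      exact hG this

theorem rcd111_chain_lift (hL : 0 < L) {f g : ℤ × ℤ} (h : ReflTransGen ((rcy162Cyl L c d).Step s ω) f g) :
    ∀ f', rcy162Red L f' = f → ∃ g', rcy162Red L g' = g ∧ ReflTransGen (Rtd111WStep (rtd111Bd c d) (Rcd111G L (rcy162Cyl L a b) s ω)) f' g' := by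
  induction h with
  | refl => exact fun f' hf' => ⟨f', hf', ReflTransGen.refl⟩
  | tail _ hs ih =>
    intro f' hf'
    obtain ⟨x', hx', hc⟩ := ih f' hf'
    obtain ⟨g', hg', hst⟩ := rcd111_step_lift (a := a) (b := b) hL hs hx'
    exact ⟨g', hg', hc.tail hst⟩

/-! ## 3. the events in the words of `Sys162` -/

/-- **`cyBlk` on the field of 162 = `Sep` on the cylinder of rows `c .. d`**: the good edge pairs of colour `s` separate the bottom row of faces from the top row -/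
theorem rcd111_Blk_sep (hL : 0 < L) (hω : ω.O ⊆ (rcy162Cyl L a b).E) (hcd : c < d) :
    rcy162Fld L (rcy162Cyl L a b) ω ∈ cyBlk (rcd111Sg s) (2 * c + 1) (2 * d - 1) ↔
      (rcy162Cyl L c d).Sep s ω (rcy162Row L c) (rcy162Row L (d - 1)) := by
  rw [rtd111_c_Blk (rcd111_spec hL a b s ω) hcd]
  constructor
  · intro h f hf g hg hfg
    obtain ⟨r1, r2⟩ := rcy162_mem_row.1 hf
    obtain ⟨g', hg', hc⟩ := rcd111_chain_lift (a := a) (b := b) hL hfg f (rcy162_red_of_range r1.1 r1.2)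
    refine h ⟨f, g', r2, ?_, hc⟩
    rw [← rcy162_red_snd L g', hg']
    exact (rcy162_mem_row.1 hg).2
  · rintro h ⟨f, g, hf, hg, hfg⟩
    exact h (rcy162Red L f) (rcy162_mem_row.2 ⟨rcy162_red_range hL f, hf⟩) (rcy162Red L g) (rcy162_mem_row.2 ⟨rcy162_red_range hL g, hg⟩)
      (rcd111_chain_proj hL hω hfg)

/-- **`cyBlk` on the field of 162 = a circuit of good interior edge pairs which winds once** -/
theorem rcd111_Blk_circuit (hL : 0 < L) (hcd : c < d) :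
    rcy162Fld L (rcy162Cyl L a b) ω ∈ cyBlk (rcd111Sg s) (2 * c + 1) (2 * d - 1) ↔
      ∃ u : ℤ × ℤ, ReflTransGen (Rtd111BStep (Rtd111In (rtd111Bd c d) (Rcd111G L (rcy162Cyl L a b) s ω))) u (u.1 + L, u.2) :=
  rtd111_c_Blk_circuit (rcd111_spec hL a b s ω) (by exact_mod_cast hL) hcd (rcd111_G_per L _ s ω)

/-- **no vertical crossing by cells of sign `s` = a dual circuit which winds once** -/
theorem rcd111_VP_cocircuit (hL : 0 < L) (hcd : c < d) :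
    rcy162Fld L (rcy162Cyl L a b) ω ∉ cyVP (rcd111Sg s) (2 * c) (2 * d) ↔
      ∃ f : ℤ × ℤ, f ∈ rtd111Bd c d ∧ ReflTransGen (Rtd111WStep (rtd111Bd c d) (Rcd111G L (rcy162Cyl L a b) s ω)) f (f.1 + L, f.2) :=
  rtd111_c_VP_cocircuit (rcd111_spec hL a b s ω) (by exact_mod_cast hL) hcd (rcy162_fld_per L _ ω)

end quot

/-! ## 4. THE GEOMETRY OF THE SEARCH OF 127 (`Rcs127Adm`) ON THE CYLINDER AND ON THE EXCHANGED CYLINDER -/

section adm

variable {L : ℕ} {a b : ℤ}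

theorem rcd111_cyl_p0 (e : (ℤ × ℤ) × Bool) : (rcy162Cyl L a b).p0 e = e.1 := rfl
theorem rcd111_cyl_p1 (e : (ℤ × ℤ) × Bool) : (rcy162Cyl L a b).p1 e = rcy162Red L (rswEnd e) := rfl
theorem rcd111_cyl_f0 (e : (ℤ × ℤ) × Bool) : (rcy162Cyl L a b).f0 e = e.1 := rfl
theorem rcd111_cyl_f1 (e : (ℤ × ℤ) × Bool) : (rcy162Cyl L a b).f1 e = rcy162Red L (rswCo e) := rfl

/-- the four edge pairs at the site `v`: right, up, left, down -/
theorem rcd111_at_site {e : (ℤ × ℤ) × Bool} (he : e ∈ (rcy162Cyl L a b).E) {v : ℤ × ℤ}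
    (hv : (rcy162Cyl L a b).p0 e = v ∨ (rcy162Cyl L a b).p1 e = v) :
    e = (v, false) ∨ e = (v, true) ∨ e = (rcy162Red L (v.1 - 1, v.2), false) ∨ e = ((v.1, v.2 - 1), true) := by
  obtain ⟨⟨x, y⟩, b'⟩ := e
  obtain ⟨r, _⟩ := rcy162_mem_cylE.1 he
  simp only at r
  rcases hv with hv | hv
  · rw [rcd111_cyl_p0] at hv
    simp only at hv
    subst hv
    cases b'
    · exact Or.inl rfl
    · exact Or.inr (Or.inl rfl)
  · rw [rcd111_cyl_p1] at hv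
    subst hv
    cases b'
    · right; right; left
      rw [rtd111_end_f]
      have h := rcd111_red_co L ((x + 1, y), true)
      rw [rtd111_co_t, add_sub_cancel_right, rcy162_red_of_range (u := (x, y)) r.1 r.2] at h
      have h2 : rswCo (rcy162RedE L ((x + 1, y), true)) = ((rcy162Red L (x + 1, y)).1 - 1, (rcy162Red L (x + 1, y)).2) := rfl
      rw [h2] at h
      rw [h]
    · right; right; right
      rw [rtd111_end_t, rcy162_red_of_range (u := (x, y + 1)) r.1 r.2]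
      simp

theorem rcd111_mem_V0 {Z : Rcy162Sys} {J : Finset (ℤ × ℤ)} {e : (ℤ × ℤ) × Bool} {v : ℤ × ℤ} (he : e ∈ Z.E) (hJ : ¬ (Z.f0 e ∈ J ↔ Z.f1 e ∈ J))
    (hv : Z.p0 e = v ∨ Z.p1 e = v) : v ∈ rcs127V0 Z J := by
  have h0 : e ∈ rcs127E0 Z J := rcs127_mem_E0.2 ⟨he, hJ⟩
  unfold rcs127V0
  rcases hv with hv | hv
  · exact Finset.mem_union_left _ (Finset.mem_image.2 ⟨e, h0, hv⟩)
  · exact Finset.mem_union_right _ (Finset.mem_image.2 ⟨e, h0, hv⟩)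

theorem rcd111_prop4 (pA pB pC pD : Prop) (Hout : (¬ pA ∧ ¬ pD) ∨ (¬ pA ∧ ¬ pB) ∨ (¬ pB ∧ ¬ pC) ∨ (¬ pD ∧ ¬ pC))
    (Hin : (pA ∧ pD) ∨ (pA ∧ pB) ∨ (pB ∧ pC) ∨ (pD ∧ pC)) : ¬ (pA ↔ pD) ∨ ¬ (pA ↔ pB) ∨ ¬ (pB ↔ pC) ∨ ¬ (pD ↔ pC) := by
  tauto

/-- **going round a site**: a site of an edge pair with no face in `J` and of an edge pair with both faces in `J` is a site of an edge pair with exactly one face in `J` -/
theorem rcd111_round_site (hL : 0 < L) {J : Finset (ℤ × ℤ)} {v : ℤ × ℤ} {e e' : (ℤ × ℤ) × Bool}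
    (he : e ∈ rcs127E2 (rcy162Cyl L a b) J) (hv : (rcy162Cyl L a b).p0 e = v ∨ (rcy162Cyl L a b).p1 e = v)
    (he' : e' ∈ rcs127E1 (rcy162Cyl L a b) J) (hv' : (rcy162Cyl L a b).p0 e' = v ∨ (rcy162Cyl L a b).p1 e' = v) :
    v ∈ rcs127V0 (rcy162Cyl L a b) J := by
  obtain ⟨hE, n0, n1⟩ := rcs127_mem_E2.1 he
  obtain ⟨hE', m0, m1⟩ := rcs127_mem_E1.1 he'
  have hw := rcy162_cyl_wf hL a b
  have hvV : v ∈ (rcy162Cyl L a b).V := by
    rcases hv with h | h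
    · rw [← h]; exact hw.p0 _ hE
    · rw [← h]; exact hw.p1 _ hE
  obtain ⟨x, y⟩ := v
  obtain ⟨r, _, _⟩ := rcy162_mem_cylV.1 hvV
  simp only at r
  -- the four faces
  set B : ℤ × ℤ := rcy162Red L (x - 1, y) with hB
  set C : ℤ × ℤ := rcy162Red L (x - 1, y - 1) with hC
  set D : ℤ × ℤ := (x, y - 1) with hD
  have rB := rcy162_red_range hL (x - 1, y)
  have fR1 : (rcy162Cyl L a b).f1 ((x, y), false) = D := by
    rw [rcd111_cyl_f1, rtd111_co_f]; exact rcy162_red_of_range r.1 r.2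
  have fU1 : (rcy162Cyl L a b).f1 ((x, y), true) = B := rfl
  have fL1 : (rcy162Cyl L a b).f1 (B, false) = C := by
    have h := rcd111_red_co L ((x - 1, y), false)
    rw [rtd111_co_f] at h
    exact h
  have fD1 : (rcy162Cyl L a b).f1 (D, true) = C := rfl
  have pL1 : (rcy162Cyl L a b).p1 (B, false) = (x, y) := by
    have h := rcd111_red_end L ((x - 1, y), false)
    rw [rtd111_end_f, sub_add_cancel, rcy162_red_of_range (u := (x, y)) r.1 r.2] at h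
    exact h
  have pD1 : (rcy162Cyl L a b).p1 (D, true) = (x, y) := by
    rw [rcd111_cyl_p1, hD, rtd111_end_t, sub_add_cancel]; exact rcy162_red_of_range r.1 r.2
  have mR : ((x, y), false) ∈ (rcy162Cyl L a b).E ↔ a < y ∧ y < b := by
    rw [rcy162_mem_cylE]; simp only [true_and, reduceCtorEq, false_and, or_false]; exact ⟨fun h => h.2, fun h => ⟨r, h⟩⟩
  have mU : ((x, y), true) ∈ (rcy162Cyl L a b).E ↔ a ≤ y ∧ y < b := by
    rw [rcy162_mem_cylE]; simp only [true_and, reduceCtorEq, false_and, false_or]; exact ⟨fun h => h.2, fun h => ⟨r, h⟩⟩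
  have mL : (B, false) ∈ (rcy162Cyl L a b).E ↔ a < y ∧ y < b := by
    rw [rcy162_mem_cylE]; simp only [true_and, reduceCtorEq, false_and, or_false]; exact ⟨fun h => h.2, fun h => ⟨rB, h⟩⟩
  have mD : (D, true) ∈ (rcy162Cyl L a b).E ↔ a ≤ y - 1 ∧ y - 1 < b := by
    rw [rcy162_mem_cylE]; simp only [true_and, reduceCtorEq, false_and, false_or]; exact ⟨fun h => h.2, fun h => ⟨r, h⟩⟩
  have Hout : (a < y ∧ y < b ∧ (x, y) ∉ J ∧ D ∉ J) ∨ (a ≤ y ∧ y < b ∧ (x, y) ∉ J ∧ B ∉ J) ∨ (a < y ∧ y < b ∧ B ∉ J ∧ C ∉ J) ∨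
      (a ≤ y - 1 ∧ y - 1 < b ∧ D ∉ J ∧ C ∉ J) := by
    rcases rcd111_at_site hE hv with rfl | rfl | rfl | rfl
    · rw [fR1] at n1; exact Or.inl ⟨(mR.1 hE).1, (mR.1 hE).2, n0, n1⟩
    · rw [fU1] at n1; exact Or.inr (Or.inl ⟨(mU.1 hE).1, (mU.1 hE).2, n0, n1⟩)
    · rw [fL1] at n1; exact Or.inr (Or.inr (Or.inl ⟨(mL.1 hE).1, (mL.1 hE).2, n0, n1⟩))
    · rw [fD1] at n1; exact Or.inr (Or.inr (Or.inr ⟨(mD.1 hE).1, (mD.1 hE).2, n0, n1⟩))
  have Hin : (a < y ∧ y < b ∧ (x, y) ∈ J ∧ D ∈ J) ∨ (a ≤ y ∧ y < b ∧ (x, y) ∈ J ∧ B ∈ J) ∨ (a < y ∧ y < b ∧ B ∈ J ∧ C ∈ J) ∨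
      (a ≤ y - 1 ∧ y - 1 < b ∧ D ∈ J ∧ C ∈ J) := by
    rcases rcd111_at_site hE' hv' with rfl | rfl | rfl | rfl
    · rw [fR1] at m1; exact Or.inl ⟨(mR.1 hE').1, (mR.1 hE').2, m0, m1⟩
    · rw [fU1] at m1; exact Or.inr (Or.inl ⟨(mU.1 hE').1, (mU.1 hE').2, m0, m1⟩)
    · rw [fL1] at m1; exact Or.inr (Or.inr (Or.inl ⟨(mL.1 hE').1, (mL.1 hE').2, m0, m1⟩))
    · rw [fD1] at m1; exact Or.inr (Or.inr (Or.inr ⟨(mD.1 hE').1, (mD.1 hE').2, m0, m1⟩))
  -- the site is an inner site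
  have hin : a < y ∧ y < b := by
    rcases Hout with ⟨h1, h2, h3, h4⟩ | ⟨h1, h2, h3, h4⟩ | ⟨h1, h2, h3, h4⟩ | ⟨h1, h2, h3, h4⟩ <;>
      rcases Hin with ⟨k1, k2, k3, k4⟩ | ⟨k1, k2, k3, k4⟩ | ⟨k1, k2, k3, k4⟩ | ⟨k1, k2, k3, k4⟩ <;>
      first
        | exact ⟨by omega, by omega⟩
        | exact absurd k3 h3
        | exact absurd k4 h4
  have key : ¬ ((x, y) ∈ J ↔ D ∈ J) ∨ ¬ ((x, y) ∈ J ↔ B ∈ J) ∨ ¬ (B ∈ J ↔ C ∈ J) ∨ ¬ (D ∈ J ↔ C ∈ J) :=
    rcd111_prop4 _ _ _ _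
      (Hout.imp (fun h => h.2.2) (Or.imp (fun h => h.2.2) (Or.imp (fun h => h.2.2) (fun h => h.2.2))))
      (Hin.imp (fun h => h.2.2) (Or.imp (fun h => h.2.2) (Or.imp (fun h => h.2.2) (fun h => h.2.2))))
  rcases key with k | k | k | k
  · exact rcd111_mem_V0 (mR.2 hin) (by rw [fR1]; exact k) (Or.inl rfl)
  · exact rcd111_mem_V0 (mU.2 ⟨hin.1.le, hin.2⟩) (by rw [fU1]; exact k) (Or.inl rfl)
  · exact rcd111_mem_V0 (mL.2 hin) (by rw [fL1]; exact k) (Or.inr pL1)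
  · exact rcd111_mem_V0 (mD.2 ⟨by omega, by omega⟩) (by rw [fD1]; exact k) (Or.inr pD1)

theorem rcd111_mem_V1 {Z : Rcy162Sys} {J : Finset (ℤ × ℤ)} {v : ℤ × ℤ} (h : v ∈ rcs127V1 Z J) :
    v ∈ rcs127V0 Z J ∨ ∃ e ∈ rcs127E1 Z J, Z.p0 e = v ∨ Z.p1 e = v := by
  unfold rcs127V1 at h
  rcases Finset.mem_union.1 h with h | h
  · right
    rcases Finset.mem_union.1 h with h | h
    · obtain ⟨e, he, hv⟩ := Finset.mem_image.1 h
      exact ⟨e, he, Or.inl hv⟩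
    · obtain ⟨e, he, hv⟩ := Finset.mem_image.1 h
      exact ⟨e, he, Or.inr hv⟩
  · exact Or.inl h

/-- **every set of faces of the cylinder is an admissible record** (`Rcs127Adm` of 127, for `recov`) -/
theorem rcd111_adm (hL : 0 < L) {A₀ J : Finset (ℤ × ℤ)} (h0 : A₀ ⊆ J) (hJ : J ⊆ (rcy162Cyl L a b).Fc) : Rcs127Adm (rcy162Cyl L a b) A₀ J where
  sub0 := h0
  subF := hJ
  geo := by
    intro e he
    constructor
    · intro h
      rcases rcd111_mem_V1 h with h | ⟨e', he', hv'⟩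
      · exact h
      · exact rcd111_round_site hL he (Or.inl rfl) he' hv'
    · intro h
      rcases rcd111_mem_V1 h with h | ⟨e', he', hv'⟩
      · exact h
      · exact rcd111_round_site hL he (Or.inr rfl) he' hv'

/-- the four edge pairs round the face `f`: bottom, left, top, right -/
theorem rcd111_at_face {e : (ℤ × ℤ) × Bool} (he : e ∈ (rcy162Cyl L a b).E) {f : ℤ × ℤ}
    (hf : (rcy162Cyl L a b).f0 e = f ∨ (rcy162Cyl L a b).f1 e = f) :
    e = (f, false) ∨ e = (f, true) ∨ e = ((f.1, f.2 + 1), false) ∨ e = (rcy162Red L (f.1 + 1, f.2), true) := by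
  obtain ⟨⟨x, y⟩, b'⟩ := e
  obtain ⟨r, _⟩ := rcy162_mem_cylE.1 he
  simp only at r
  rcases hf with hf | hf
  · rw [rcd111_cyl_f0] at hf
    simp only at hf
    subst hf
    cases b'
    · exact Or.inl rfl
    · exact Or.inr (Or.inl rfl)
  · rw [rcd111_cyl_f1] at hf
    subst hf
    cases b'
    · right; right; left
      rw [rtd111_co_f, rcy162_red_of_range (u := (x, y - 1)) r.1 r.2]
      simp
    · right; right; right
      rw [rtd111_co_t]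
      have h := rcd111_red_end L ((x - 1, y), false)
      rw [rtd111_end_f, sub_add_cancel, rcy162_red_of_range (u := (x, y)) r.1 r.2] at h
      have h2 : rswEnd (rcy162RedE L ((x - 1, y), false)) = ((rcy162Red L (x - 1, y)).1 + 1, (rcy162Red L (x - 1, y)).2) := rfl
      rw [h2] at h
      rw [h]

theorem rcd111_prop4' (pP pQ pR pS : Prop) (Hout : (¬ pP ∧ ¬ pQ) ∨ (¬ pP ∧ ¬ pS) ∨ (¬ pS ∧ ¬ pR) ∨ (¬ pQ ∧ ¬ pR))
    (Hin : (pP ∧ pQ) ∨ (pP ∧ pS) ∨ (pS ∧ pR) ∨ (pQ ∧ pR)) (k1 : pP ↔ pS) (k2 : pQ ↔ pR) : ¬ (pP ↔ pQ) ∧ ¬ (pS ↔ pR) := by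
  tauto

/-- **going round a face**: a face of an edge pair with no end in `J` and of an edge pair with both ends in `J` is a face of an edge pair with exactly one end in `J` -/
theorem rcd111_round_face (hL : 0 < L) (hab : a + 2 ≤ b) {J : Finset (ℤ × ℤ)} {f : ℤ × ℤ} {e e' : (ℤ × ℤ) × Bool}
    (he : e ∈ rcs127E2 (rcs127Sw (rcy162Cyl L a b)) J) (hf : (rcy162Cyl L a b).f0 e = f ∨ (rcy162Cyl L a b).f1 e = f)
    (he' : e' ∈ rcs127E1 (rcs127Sw (rcy162Cyl L a b)) J) (hf' : (rcy162Cyl L a b).f0 e' = f ∨ (rcy162Cyl L a b).f1 e' = f) :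
    f ∈ rcs127V0 (rcs127Sw (rcy162Cyl L a b)) J := by
  obtain ⟨hE, n0, n1⟩ := rcs127_mem_E2.1 he
  obtain ⟨hE', m0, m1⟩ := rcs127_mem_E1.1 he'
  have hE : e ∈ (rcy162Cyl L a b).E := hE
  have hE' : e' ∈ (rcy162Cyl L a b).E := hE'
  have n0 : (rcy162Cyl L a b).p0 e ∉ J := n0
  have n1 : (rcy162Cyl L a b).p1 e ∉ J := n1
  have m0 : (rcy162Cyl L a b).p0 e' ∈ J := m0
  have m1 : (rcy162Cyl L a b).p1 e' ∈ J := m1
  have hw := rcy162_cyl_wf hL a b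
  have hfF : f ∈ (rcy162Cyl L a b).Fc := by
    rcases hf with h | h
    · rw [← h]; exact hw.f0 _ hE
    · rw [← h]; exact hw.f1 _ hE
  obtain ⟨x, y⟩ := f
  obtain ⟨r, ry1, ry2⟩ := rcy162_mem_cylF.1 hfF
  simp only at r ry1 ry2
  -- the four corners
  set Q : ℤ × ℤ := rcy162Red L (x + 1, y) with hQ
  set R : ℤ × ℤ := rcy162Red L (x + 1, y + 1) with hR
  set S : ℤ × ℤ := (x, y + 1) with hS
  have rQ := rcy162_red_range hL (x + 1, y)
  have pB1 : (rcy162Cyl L a b).p1 ((x, y), false) = Q := rfl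
  have pL1 : (rcy162Cyl L a b).p1 ((x, y), true) = S := by
    rw [rcd111_cyl_p1, rtd111_end_t]; exact rcy162_red_of_range r.1 r.2
  have pT1 : (rcy162Cyl L a b).p1 (S, false) = R := rfl
  have pR1 : (rcy162Cyl L a b).p1 (Q, true) = R := by
    have h := rcd111_red_end L ((x + 1, y), true)
    rw [rtd111_end_t] at h
    exact h
  have fT1 : (rcy162Cyl L a b).f1 (S, false) = (x, y) := by
    rw [rcd111_cyl_f1, hS, rtd111_co_f, add_sub_cancel_right]; exact rcy162_red_of_range r.1 r.2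
  have fR1 : (rcy162Cyl L a b).f1 (Q, true) = (x, y) := by
    have h := rcd111_red_co L ((x + 1, y), true)
    rw [rtd111_co_t, add_sub_cancel_right, rcy162_red_of_range (u := (x, y)) r.1 r.2] at h
    exact h
  have mB : ((x, y), false) ∈ (rcy162Cyl L a b).E ↔ a < y ∧ y < b := by
    rw [rcy162_mem_cylE]; simp only [true_and, reduceCtorEq, false_and, or_false]; exact ⟨fun h => h.2, fun h => ⟨r, h⟩⟩
  have mL : ((x, y), true) ∈ (rcy162Cyl L a b).E ↔ a ≤ y ∧ y < b := by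
    rw [rcy162_mem_cylE]; simp only [true_and, reduceCtorEq, false_and, false_or]; exact ⟨fun h => h.2, fun h => ⟨r, h⟩⟩
  have mT : (S, false) ∈ (rcy162Cyl L a b).E ↔ a < y + 1 ∧ y + 1 < b := by
    rw [rcy162_mem_cylE]; simp only [true_and, reduceCtorEq, false_and, or_false]; exact ⟨fun h => h.2, fun h => ⟨r, h⟩⟩
  have mR : (Q, true) ∈ (rcy162Cyl L a b).E ↔ a ≤ y ∧ y < b := by
    rw [rcy162_mem_cylE]; simp only [true_and, reduceCtorEq, false_and, false_or]; exact ⟨fun h => h.2, fun h => ⟨rQ, h⟩⟩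
  have Hout : ((x, y) ∉ J ∧ Q ∉ J) ∨ ((x, y) ∉ J ∧ S ∉ J) ∨ (S ∉ J ∧ R ∉ J) ∨ (Q ∉ J ∧ R ∉ J) := by
    rcases rcd111_at_face hE hf with rfl | rfl | rfl | rfl
    · rw [pB1] at n1; exact Or.inl ⟨n0, n1⟩
    · rw [pL1] at n1; exact Or.inr (Or.inl ⟨n0, n1⟩)
    · rw [pT1] at n1; exact Or.inr (Or.inr (Or.inl ⟨n0, n1⟩))
    · rw [pR1] at n1; exact Or.inr (Or.inr (Or.inr ⟨n0, n1⟩))
  have Hin : ((x, y) ∈ J ∧ Q ∈ J) ∨ ((x, y) ∈ J ∧ S ∈ J) ∨ (S ∈ J ∧ R ∈ J) ∨ (Q ∈ J ∧ R ∈ J) := by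
    rcases rcd111_at_face hE' hf' with rfl | rfl | rfl | rfl
    · rw [pB1] at m1; exact Or.inl ⟨m0, m1⟩
    · rw [pL1] at m1; exact Or.inr (Or.inl ⟨m0, m1⟩)
    · rw [pT1] at m1; exact Or.inr (Or.inr (Or.inl ⟨m0, m1⟩))
    · rw [pR1] at m1; exact Or.inr (Or.inr (Or.inr ⟨m0, m1⟩))
  have V0 : ∀ e0 : (ℤ × ℤ) × Bool, e0 ∈ (rcy162Cyl L a b).E → ¬ ((rcy162Cyl L a b).p0 e0 ∈ J ↔ (rcy162Cyl L a b).p1 e0 ∈ J) →
      ((rcy162Cyl L a b).f0 e0 = (x, y) ∨ (rcy162Cyl L a b).f1 e0 = (x, y)) → (x, y) ∈ rcs127V0 (rcs127Sw (rcy162Cyl L a b)) J :=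
    fun e0 h1 h2 h3 => rcd111_mem_V0 (Z := rcs127Sw (rcy162Cyl L a b)) h1 h2 h3
  by_cases k1 : ((x, y) ∈ J ↔ S ∈ J)
  · by_cases k2 : (Q ∈ J ↔ R ∈ J)
    · obtain ⟨k3, k4⟩ := rcd111_prop4' _ _ _ _ Hout Hin k1 k2
      by_cases hy : a < y
      · exact V0 _ (mB.2 ⟨hy, ry2⟩) (by rw [pB1]; exact k3) (Or.inl rfl)
      · exact V0 _ (mT.2 ⟨by omega, by omega⟩) (by rw [pT1]; exact k4) (Or.inr fT1)
    · exact V0 _ (mR.2 ⟨ry1, ry2⟩) (by rw [pR1]; exact k2) (Or.inr fR1)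
  · exact V0 _ (mL.2 ⟨ry1, ry2⟩) (by rw [pL1]; exact k1) (Or.inl rfl)

/-- **(G1) every set of sites of the cylinder is an admissible record of the exchanged cylinder** (`Rcs127Adm` of 127, for `sym`) -/
theorem rcd111_adm_sw (hL : 0 < L) (hab : a + 2 ≤ b) {A₀ J : Finset (ℤ × ℤ)} (h0 : A₀ ⊆ J) (hJ : J ⊆ (rcy162Cyl L a b).V) :
    Rcs127Adm (rcs127Sw (rcy162Cyl L a b)) A₀ J where
  sub0 := h0
  subF := hJ
  geo := by
    intro e he
    constructor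
    · intro h
      rcases rcd111_mem_V1 h with h | ⟨e', he', hv'⟩
      · exact h
      · exact rcd111_round_face hL hab he (Or.inl rfl) he' hv'
    · intro h
      rcases rcd111_mem_V1 h with h | ⟨e', he', hv'⟩
      · exact h
      · exact rcd111_round_face hL hab he (Or.inr rfl) he' hv'

end adm

/-! ## 5. THE RECORD OF THE EXCHANGED CYLINDER STAYS BELOW A CIRCUIT OF THE FIELD OF `d`      (G2 of 127) -/

section below

variable {L : ℕ} {a b : ℤ} {s : Bool} {ω : RswCfg}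

/-- the shift of an edge, endpoints -/
theorem rcd111_end_shift (e : (ℤ × ℤ) × Bool) (m : ℤ) : rswEnd ((e.1.1 + m, e.1.2), e.2) = ((rswEnd e).1 + m, (rswEnd e).2) := by
  obtain ⟨⟨x, y⟩, b⟩ := e
  cases b
  · simp only [rtd111_end_f]; exact Prod.ext (by simp only; ring) rfl
  · simp only [rtd111_end_t]

/-- the points of the refined lattice where the field of `d` is not `rcd111Sg s` -/
def rcd111Off (L : ℕ) (Z : Rcy162Sys) (s : Bool) (ω : RswCfg) : Set (ℤ × ℤ) := {u | u ∉ cyOn (rcd111Sg s) (rcs127FldD L Z ω)}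

theorem rcd111_off_P (Z : Rcy162Sys) (v : ℤ × ℤ) : rtd111P v ∈ rcd111Off L Z s ω := by
  show ¬ (rcs127FldD L Z ω (rtd111P v) = rcd111Sg s)
  rw [rcs127_fldD_P]
  cases s
  · rw [rcd111_Sg_f]; decide
  · rw [rcd111_Sg_t]; decide

theorem rcd111_off_E {Z : Rcy162Sys} {e : (ℤ × ℤ) × Bool} (h : ¬ Z.Good s ω (rcy162RedE L e)) : rtd111E e ∈ rcd111Off L Z s ω := by
  show ¬ (rcs127FldD L Z ω (rtd111E e) = rcd111Sg s)
  rw [rcs127_fldD_E]
  intro hh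
  cases s
  · rw [rcd111_Sg_f] at hh; exact h (rcy162_sgE_neg.1 hh).2
  · rw [rcd111_Sg_t] at hh; exact h (rcy162_sgE_one.1 hh).2

/-- a step of the search of the exchanged cylinder lifts to two steps of the refined lattice off the circuits of the field of `d` -/
theorem rcd111_sw_step_lift (hL : 0 < L) {f g f' : ℤ × ℤ} (h : (rcs127Sw (rcy162Cyl L a b)).Step s ω f g) (hf' : rcy162Red L f' = f) :
    ∃ g', rcy162Red L g' = g ∧ TscR tscG (rcd111Off L (rcs127Sw (rcy162Cyl L a b)) s ω) (rtd111P f') (rtd111P g') := by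
  obtain ⟨hf, hg, e, he, hG⟩ := h
  rcases he with ⟨h1, h2⟩ | ⟨h1, h2⟩
  · have h1' : f = e.1 := h1
    have h2' : g = rcy162Red L (rswEnd e) := h2
    have hE : rcy162RedE L (f', e.2) = e := by
      rw [rcd111_redE_def]
      simp only [hf', h1']
    have hg' : rcy162Red L (rswEnd (f', e.2)) = g := by
      rw [← rcd111_red_end, hE, h2']
    have hoE : rtd111E (f', e.2) ∈ rcd111Off L (rcs127Sw (rcy162Cyl L a b)) s ω := rcd111_off_E (by rw [hE]; exact hG)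
    refine ⟨rswEnd (f', e.2), hg', tsc_R_trans (tsc_R_step (rtd111_adj_P1 (f', e.2)) (rcd111_off_P _ _) hoE)
      (tsc_R_step (rtd111_adj_symm (rtd111_adj_P2 (f', e.2))) hoE (rcd111_off_P _ _))⟩
  · have h1' : g = e.1 := h1
    have h2' : f = rcy162Red L (rswEnd e) := h2
    obtain ⟨k, hk⟩ := rcd111_red_eq (hf'.trans h2')
    have hgr : rcy162Red L g = g := by
      obtain ⟨r1, _⟩ := rcy162_mem_cylV.1 hg
      exact rcy162_red_of_range r1.1 r1.2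
    have hE : rcy162RedE L ((e.1.1 + k * L, e.1.2), e.2) = e := by
      rw [rcd111_redE_def]
      simp only [rcd111_red_shift]
      have : rcy162Red L (e.1.1, e.1.2) = e.1 := by rw [← h1']; exact hgr
      rw [this]
    have hg' : rcy162Red L (e.1.1 + k * L, e.1.2) = g := by
      rw [rcd111_red_shift, h1']
      have : rcy162Red L (e.1.1, e.1.2) = e.1 := by rw [← h1']; exact hgr
      exact this
    have hoE : rtd111E ((e.1.1 + k * L, e.1.2), e.2) ∈ rcd111Off L (rcs127Sw (rcy162Cyl L a b)) s ω := rcd111_off_E (by rw [hE]; exact hG)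
    have hend : rswEnd ((e.1.1 + k * L, e.1.2), e.2) = f' := by rw [rcd111_end_shift, hk]
    have a2 := rtd111_adj_P2 ((e.1.1 + k * L, e.1.2), e.2)
    rw [hend] at a2
    refine ⟨(e.1.1 + k * L, e.1.2), hg', tsc_R_trans (tsc_R_step a2 (rcd111_off_P _ _) hoE)
      (tsc_R_step (rtd111_adj_symm (rtd111_adj_P1 ((e.1.1 + k * L, e.1.2), e.2))) hoE (rcd111_off_P _ _))⟩

theorem rcd111_sw_chain_lift (hL : 0 < L) {f g : ℤ × ℤ} (h : ReflTransGen ((rcs127Sw (rcy162Cyl L a b)).Step s ω) f g) :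
    ∀ f', rcy162Red L f' = f → ∃ g', rcy162Red L g' = g ∧ TscR tscG (rcd111Off L (rcs127Sw (rcy162Cyl L a b)) s ω) (rtd111P f') (rtd111P g') := by
  induction h with
  | refl => exact fun f' hf' => ⟨f', hf', tsc_R_refl _⟩
  | tail _ hs ih =>
    intro f' hf'
    obtain ⟨x', hx', hc⟩ := ih f' hf'
    obtain ⟨g', hg', hst⟩ := rcd111_sw_step_lift hL hs hx'
    exact ⟨g', hg', tsc_R_trans hc hst⟩

/-- **(G2) the record of the row `j` stays below every circuit of the field of `d`**: if the band `c .. d` of the refined lattice (`2 j ≤ c ≤ d`) is blocked by the points of sign `s`, every site of the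
record of the search from the row `j` has `2 v.2 < d` -/
theorem rcd111_rec_below (hL : 0 < L) {j c d : ℤ} (hjc : 2 * j ≤ c) (hcd : c ≤ d)
    (hB : rcs127FldD L (rcs127Sw (rcy162Cyl L a b)) ω ∈ cyBlk (rcd111Sg s) c d) {v : ℤ × ℤ}
    (hv : v ∈ rcs127Rec (rcs127Sw (rcy162Cyl L a b)) s (rcy162Row L j) ω) : 2 * v.2 < d := by
  by_contra hlt
  obtain ⟨_, f, hf, hch⟩ := rcs127_mem_rec.1 hv
  obtain ⟨r1, r2⟩ := rcy162_mem_row.1 hf
  obtain ⟨g', hg', hR⟩ := rcd111_sw_chain_lift hL hch f (rcy162_red_of_range r1.1 r1.2)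
  have e2 : g'.2 = v.2 := by rw [← hg', rcy162_red_snd]
  have hX := cy_sub_v (c := c) (d := d) (rcd111_off_P _ _) hR (by show 2 * f.2 ≤ c; omega) hcd (by show d ≤ 2 * g'.2; omega)
  apply hB
  have : rcd111Off L (rcs127Sw (rcy162Cyl L a b)) s ω ∩ plsBand c d = plsBand c d \ cyOn (rcd111Sg s) (rcs127FldD L (rcs127Sw (rcy162Cyl L a b)) ω) := by
    ext u
    exact ⟨fun h => ⟨h.2, h.1⟩, fun h => ⟨h.2, h.1⟩⟩
  rw [← this]
  exact hX

/-- the form asked by 127 -/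
theorem rcd111_rec_below' (hL : 0 < L) {H : ℕ} {c d : ℤ} (hc : 0 ≤ c) (hcd : c ≤ d)
    (hB : rcs127FldD L (rcs127Sw (rcy162Cyl L 0 H)) ω ∈ cyBlk 1 c d) :
    ∀ v ∈ rcs127Rec (rcs127Sw (rcy162Cyl L 0 H)) true (rcy162Row L 0) ω, 2 * v.2 < d :=
  fun v hv => rcd111_rec_below (s := true) hL (by omega) hcd hB hv

end below

/-! ## 6. THE TWO DETERMINISTIC CONTRACTS OF `CylTop127` Sec. 8, CLOSED -/

/-- **(G1)**, the contract of 127 word for word -/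
theorem rcd111_G1 {L H : ℕ} (hL : 0 < L) (hH : 2 ≤ H) : Rcs127G1 L H := by
  intro J h0 hJ
  have h2 : (0 : ℤ) + 2 ≤ (H : ℤ) := by
    have : (2 : ℤ) ≤ (H : ℤ) := by exact_mod_cast hH
    omega
  exact rcd111_adm_sw hL h2 h0 hJ

/-- **(G2)**, the contract of 127 word for word -/
theorem rcd111_G2 {L : ℕ} (hL : 0 < L) (H : ℕ) : Rcs127G2 L H :=
  fun ω c d _ hc hcd _ hB => rcd111_rec_below' hL (by omega) hcd hB

/-- **the search input of the field `sym` from the input per record ALONE** -/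
theorem rcd111_search_of_perJ {t : ℝ} (h0 : 0 < t) (h1 : t ≤ 1) {L H : ℕ} (hL : 0 < L) (hp : Rcs127PerJ t L H) : Rcs127Search t L H := by
  by_cases hH : 2 ≤ H
  · exact rcs127_search_of_perJ h0 h1 hL (rcd111_G1 hL hH) (rcd111_G2 hL H) hp
  · intro k m κ hm hme hk hκ hκH hN
    exfalso
    have : (H : ℤ) < 2 := by exact_mod_cast not_le.1 hH
    omega

/-- the name asked by 127 -/
theorem rcd111_search {t : ℝ} (h0 : 0 < t) (h1 : t ≤ 1) {L H : ℕ} (hL : 0 < L) (hp : Rcs127PerJ t L H) : Rcs127Search t L H :=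
  rcd111_search_of_perJ h0 h1 hL hp

/-- **the field `sym` of `Rct127Law (2 L) (2 H) (fun _ _ => rcy162Q t L H)`, word for word, from the input per record ALONE** -/
theorem rcd111_sym {t : ℝ} (h0 : 1 / 2 ≤ t) (h1 : t ≤ 1) {L H : ℕ} (hL : 0 < L) (hp : Rcs127PerJ t L H) :
    ∀ (T : Bool) (k m κ : ℤ), 1 ≤ m → Even m → 3 ≤ k → k + m + 3 ≤ κ → κ + m - 1 ≤ ((2 * H : ℕ) : ℤ) - 4 → ((2 * H : ℕ) : ℤ) + k + m + 7 ≤ 2 * κ →
    1 ≤ (fun (_ _ : Bool) => rcy162Q t L H) T T (cyVP 1 k (k + m - 1)) + (fun (_ _ : Bool) => rcy162Q t L H) T T (cyVP (-1) k (k + m - 1))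
      + 4 * ((fun (_ _ : Bool) => rcy162Q t L H) T T (cyVP 1 κ (κ + m - 1)) + (fun (_ _ : Bool) => rcy162Q t L H) T (!T) (cyBlk 1 κ (κ + m - 1))) :=
  rcs127_sym h0 h1 hL (rcd111_search (by linarith) h1 hL hp)

/-! ## 7. THE RECORD OF THE CYLINDER STAYS BELOW A CIRCUIT OF THE FIELD OF `s`      (request of 69, for the field `recov`) -/

section belowF

variable {L : ℕ} {a b : ℤ} {s : Bool} {ω : RswCfg}

/-- a dual step of the cover = two steps of the refined lattice off the sign `s` of the field of `s` -/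
theorem rcd111_wstep_off {B : Set (ℤ × ℤ)} {Y : Rcy162Sys} {f g : ℤ × ℤ} (h : Rtd111WStep B (Rcd111G L Y s ω) f g) :
    TscR tscG (cyOn (rcd111Sg s) (rcy162Fld L Y ω))ᶜ (rtd111F f) (rtd111F g) := by
  obtain ⟨_, _, e, he, hG⟩ := h
  have hE : rtd111E e ∈ (cyOn (rcd111Sg s) (rcy162Fld L Y ω))ᶜ := fun hh => hG (rcd111_on_E.1 hh)
  rcases he with ⟨rfl, rfl⟩ | ⟨rfl, rfl⟩
  · exact tsc_R_trans (tsc_R_step (rtd111_adj_F1 e) (rcd111_on_F _) hE) (tsc_R_step (rtd111_adj_symm (rtd111_adj_F2 e)) hE (rcd111_on_F _))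
  · exact tsc_R_trans (tsc_R_step (rtd111_adj_F2 e) (rcd111_on_F _) hE) (tsc_R_step (rtd111_adj_symm (rtd111_adj_F1 e)) hE (rcd111_on_F _))

theorem rcd111_wchain_off {B : Set (ℤ × ℤ)} {Y : Rcy162Sys} {f g : ℤ × ℤ} (h : ReflTransGen (Rtd111WStep B (Rcd111G L Y s ω)) f g) :
    TscR tscG (cyOn (rcd111Sg s) (rcy162Fld L Y ω))ᶜ (rtd111F f) (rtd111F g) := by
  induction h with
  | refl => exact tsc_R_refl _
  | tail _ hs ih => exact tsc_R_trans ih (rcd111_wstep_off hs)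

/-- **the record of the row `j` of faces stays below every circuit of the field of `s`** -/
theorem rcd111_rec_below_F (hL : 0 < L) {j c d : ℤ} (hjc : 2 * j + 1 ≤ c) (hcd : c ≤ d)
    (hB : rcy162Fld L (rcy162Cyl L a b) ω ∈ cyBlk (rcd111Sg s) c d) {g : ℤ × ℤ}
    (hg : g ∈ rcs127Rec (rcy162Cyl L a b) s (rcy162Row L j) ω) : 2 * g.2 + 1 < d := by
  by_contra hlt
  obtain ⟨_, f, hf, hch⟩ := rcs127_mem_rec.1 hg
  obtain ⟨r1, r2⟩ := rcy162_mem_row.1 hf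
  obtain ⟨g', hg', hR⟩ := rcd111_chain_lift (a := a) (b := b) hL hch f (rcy162_red_of_range r1.1 r1.2)
  have e2 : g'.2 = g.2 := by rw [← hg', rcy162_red_snd]
  have hX := cy_sub_v (c := c) (d := d) (rcd111_on_F (s := s) (ω := ω) (L := L) (Y := rcy162Cyl L a b) f) (rcd111_wchain_off hR)
    (by show 2 * f.2 + 1 ≤ c; omega) hcd (by show d ≤ 2 * g'.2 + 1; omega)
  apply hB
  have : (cyOn (rcd111Sg s) (rcy162Fld L (rcy162Cyl L a b) ω))ᶜ ∩ plsBand c d = plsBand c d \ cyOn (rcd111Sg s) (rcy162Fld L (rcy162Cyl L a b) ω) := by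
    ext u
    exact ⟨fun h => ⟨h.2, h.1⟩, fun h => ⟨h.2, h.1⟩⟩
  rw [← this]
  exact hX

end belowF

/-! ## 8. (G3) THE FACES OF THE PAIRS DELETED BY A CONNECTED RECORD FORM ONE CLASS      (request of 127, `CylTop127` Sec. 10) -/

section g3

variable {L H : ℕ} {J : Finset (ℤ × ℤ)} {d : ℤ × ℤ → ZMod 2}

/-- WEST: across the vertical pair which starts at a site of `J` -/
theorem rcd111_g3_west (hJ : J ⊆ (rcy162Cyl L 0 H).V) (hlow : ∀ v ∈ J, v.2 < H)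
    (hd : ∀ e ∈ (rcy162Cyl L 0 H).E, ((rcy162Cyl L 0 H).p0 e ∈ J ∨ (rcy162Cyl L 0 H).p1 e ∈ J) → d ((rcy162Cyl L 0 H).f0 e) = d ((rcy162Cyl L 0 H).f1 e))
    {w : ℤ × ℤ} (hw : w ∈ J) : d w = d (rcy162Red L (w.1 - 1, w.2)) := by
  obtain ⟨r1, r2, r3⟩ := rcy162_mem_cylV.1 (hJ hw)
  have hE : ((w, true) : (ℤ × ℤ) × Bool) ∈ (rcy162Cyl L 0 H).E := rcy162_mem_cylE.2 ⟨r1, Or.inr ⟨rfl, r2, hlow w hw⟩⟩
  exact hd (w, true) hE (Or.inl hw)

/-- SOUTH: across the horizontal pair which starts at a site of `J` -/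
theorem rcd111_g3_south (hJ : J ⊆ (rcy162Cyl L 0 H).V) (hlow : ∀ v ∈ J, v.2 < H)
    (hd : ∀ e ∈ (rcy162Cyl L 0 H).E, ((rcy162Cyl L 0 H).p0 e ∈ J ∨ (rcy162Cyl L 0 H).p1 e ∈ J) → d ((rcy162Cyl L 0 H).f0 e) = d ((rcy162Cyl L 0 H).f1 e))
    {w : ℤ × ℤ} (hw : w ∈ J) (h0 : 0 < w.2) : d w = d (w.1, w.2 - 1) := by
  obtain ⟨r1, r2, r3⟩ := rcy162_mem_cylV.1 (hJ hw)
  have hE : ((w, false) : (ℤ × ℤ) × Bool) ∈ (rcy162Cyl L 0 H).E := rcy162_mem_cylE.2 ⟨r1, Or.inl ⟨rfl, h0, hlow w hw⟩⟩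
  have h := hd (w, false) hE (Or.inl hw)
  have e1 : (rcy162Cyl L 0 H).f1 (w, false) = (w.1, w.2 - 1) := by
    show rcy162Red L (w.1, w.2 - 1) = _
    exact rcy162_red_of_range r1.1 r1.2
  rw [e1] at h
  exact h

/-- the reduction of the east neighbour, one step to the west -/
theorem rcd111_g3_back {a b : ℤ} (h0 : 0 ≤ a) (h1 : a < L) : rcy162Red L ((rcy162Red L (a + 1, b)).1 - 1, b) = (a, b) := by
  have hk := Int.emod_add_mul_ediv (a + 1) (L : ℤ)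
  have e : (rcy162Red L (a + 1, b)).1 = (a + 1) % (L : ℤ) := rfl
  rw [e, rcy162_red_congr L b (-((a + 1) / (L : ℤ))) (x' := a) (by linarith)]
  exact rcy162_red_of_range h0 h1

/-- the two ends of a pair, both in `J`, carry the same value -/
theorem rcd111_g3_pair (hJ : J ⊆ (rcy162Cyl L 0 H).V) (hlow : ∀ v ∈ J, v.2 < H)
    (hd : ∀ e ∈ (rcy162Cyl L 0 H).E, ((rcy162Cyl L 0 H).p0 e ∈ J ∨ (rcy162Cyl L 0 H).p1 e ∈ J) → d ((rcy162Cyl L 0 H).f0 e) = d ((rcy162Cyl L 0 H).f1 e))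
    {e : (ℤ × ℤ) × Bool} (h0 : 0 ≤ e.1.1 ∧ e.1.1 < L) (hy : 0 ≤ e.1.2) (h1 : rcy162Red L (rswEnd e) ∈ J) : d e.1 = d (rcy162Red L (rswEnd e)) := by
  obtain ⟨⟨a, b⟩, c⟩ := e
  cases c
  · rw [rtd111_end_f] at h1 ⊢
    have h := rcd111_g3_west hJ hlow hd h1
    have e2 : (rcy162Red L (a + 1, b)).2 = b := rfl
    rw [e2, rcd111_g3_back h0.1 h0.2] at h
    exact h.symm
  · rw [rtd111_end_t] at h1 ⊢
    have er : rcy162Red L (a, b + 1) = (a, b + 1) := rcy162_red_of_range h0.1 h0.2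
    rw [er] at h1 ⊢
    have h := rcd111_g3_south hJ hlow hd h1 (by show 0 < b + 1; simp only at hy; omega)
    have e2 : ((a, b + 1) : ℤ × ℤ).2 - 1 = b := by simp
    rw [e2] at h
    exact h.symm

/-- the row `0` -/
theorem rcd111_g3_row (h0 : rcy162Row L 0 ⊆ J) (hJ : J ⊆ (rcy162Cyl L 0 H).V) (hlow : ∀ v ∈ J, v.2 < H)
    (hd : ∀ e ∈ (rcy162Cyl L 0 H).E, ((rcy162Cyl L 0 H).p0 e ∈ J ∨ (rcy162Cyl L 0 H).p1 e ∈ J) → d ((rcy162Cyl L 0 H).f0 e) = d ((rcy162Cyl L 0 H).f1 e))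
    (n : ℕ) (hn : n < L) : d ((n : ℤ), 0) = d (0, 0) := by
  induction n with
  | zero => rfl
  | succ n ih =>
    have hm : (((n + 1 : ℕ) : ℤ), (0 : ℤ)) ∈ J := h0 (rcy162_mem_row.2 ⟨⟨by positivity, by show ((n + 1 : ℕ) : ℤ) < L; exact_mod_cast hn⟩, rfl⟩)
    have h := rcd111_g3_west hJ hlow hd hm
    have e1 : rcy162Red L ((((n + 1 : ℕ) : ℤ), (0 : ℤ)).1 - 1, (((n + 1 : ℕ) : ℤ), (0 : ℤ)).2) = ((n : ℤ), 0) := by
      have : (((n + 1 : ℕ) : ℤ), (0 : ℤ)).1 - 1 = (n : ℤ) := by push_cast; ring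
      rw [this]
      exact rcy162_red_of_range (by positivity) (by show (n : ℤ) < L; exact_mod_cast (by omega : n < L))
    rw [e1] at h
    rw [h]
    exact ih (by omega)

/-- every site of a connected `J` carries the value of the pole -/
theorem rcd111_g3_all (h0 : rcy162Row L 0 ⊆ J) (hJ : J ⊆ (rcy162Cyl L 0 H).V) (hlow : ∀ v ∈ J, v.2 < H)
    (hc : Rcs127Conn (rcs127Sw (rcy162Cyl L 0 H)) (rcy162Row L 0) J)
    (hd : ∀ e ∈ (rcy162Cyl L 0 H).E, ((rcy162Cyl L 0 H).p0 e ∈ J ∨ (rcy162Cyl L 0 H).p1 e ∈ J) → d ((rcy162Cyl L 0 H).f0 e) = d ((rcy162Cyl L 0 H).f1 e))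
    {v : ℤ × ℤ} (hv : v ∈ J) : d v = d (0, 0) := by
  obtain ⟨f, hf, hch⟩ := hc v hv
  induction hch with
  | refl =>
    obtain ⟨r1, r2⟩ := rcy162_mem_row.1 hf
    have e : f = (((f.1.toNat : ℕ) : ℤ), 0) := Prod.ext (by simp only; omega) r2
    rw [e]
    exact rcd111_g3_row h0 hJ hlow hd _ (by omega)
  | @tail x y _ hs ih =>
    obtain ⟨hx, hy, e, he⟩ := hs
    have ihx := ih hx
    rcases he with ⟨e1, e2⟩ | ⟨e1, e2⟩
    · have e1' : x = e.1 := e1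
      have e2' : y = rcy162Red L (rswEnd e) := e2
      obtain ⟨r1, r2, _⟩ := rcy162_mem_cylV.1 (hJ hx)
      have h := rcd111_g3_pair hJ hlow hd (e := e) (by rw [← e1']; exact r1) (by rw [← e1']; exact r2) (by rw [← e2']; exact hy)
      rw [e2', ← h, ← e1']
      exact ihx
    · have e1' : y = e.1 := e1
      have e2' : x = rcy162Red L (rswEnd e) := e2
      obtain ⟨r1, r2, _⟩ := rcy162_mem_cylV.1 (hJ hy)
      have h := rcd111_g3_pair hJ hlow hd (e := e) (by rw [← e1']; exact r1) (by rw [← e1']; exact r2) (by rw [← e2']; exact hx)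
      rw [e1', h, ← e2']
      exact ihx

/-- **(G3)**, the contract of 127 word for word -/
theorem rcd111_G3 (hL : 0 < L) (hH : 2 ≤ H) (h0 : rcy162Row L 0 ⊆ J) (hJ : J ⊆ (rcy162Cyl L 0 H).V) (hlow : ∀ v ∈ J, v.2 < H)
    (hc : Rcs127Conn (rcs127Sw (rcy162Cyl L 0 H)) (rcy162Row L 0) J) : Rcs127G3 (rcy162Cyl L 0 H) J (0, 0) := by
  have hL' : (0 : ℤ) < L := by exact_mod_cast hL
  have hH' : (2 : ℤ) ≤ H := by exact_mod_cast hH
  refine ⟨?_, fun d hd e he hJe => ?_⟩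
  · -- the pole is a face of the pair `((0,0), true)`
    have hH0 : (0 : ℤ) < H := by omega
    have hE0 : (((0, 0), true) : (ℤ × ℤ) × Bool) ∈ (rcy162Cyl L 0 H).E :=
      rcy162_mem_cylE.2 ⟨⟨le_refl (0 : ℤ), hL'⟩, Or.inr ⟨rfl, le_refl (0 : ℤ), hH0⟩⟩
    have hE : (((0, 0), true) : (ℤ × ℤ) × Bool) ∈ (rcs127Sw (rcy162Cyl L 0 H)).E := hE0
    have h000 : ((0, 0) : ℤ × ℤ) ∈ J := h0 (rcy162_mem_row.2 ⟨⟨le_refl (0 : ℤ), hL'⟩, rfl⟩)
    have h00 : (rcs127Sw (rcy162Cyl L 0 H)).f0 ((0, 0), true) ∈ J := h000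
    by_cases h1 : (rcs127Sw (rcy162Cyl L 0 H)).f1 ((0, 0), true) ∈ J
    · have hE1 : (((0, 0), true) : (ℤ × ℤ) × Bool) ∈ rcs127E1 (rcs127Sw (rcy162Cyl L 0 H)) J := rcs127_mem_E1.2 ⟨hE, h00, h1⟩
      unfold rcs127V1
      exact Finset.mem_union_left _ (Finset.mem_union_left _ (Finset.mem_image.2 ⟨_, hE1, rfl⟩))
    · exact rcs127_V0_sub_V1 (rcd111_mem_V0 hE (fun hh => h1 (hh.1 h00)) (Or.inl rfl))
  · obtain ⟨r1, r2⟩ := rcy162_mem_cylE.1 he
    have hy : 0 ≤ e.1.2 := by rcases r2 with ⟨_, h, _⟩ | ⟨_, h, _⟩ <;> omega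
    show d e.1 = d (0, 0)
    rcases hJe with h | h
    · exact rcd111_g3_all h0 hJ hlow hc hd h
    · have h' : rcy162Red L (rswEnd e) ∈ J := h
      rw [rcd111_g3_pair hJ hlow hd r1 hy h']
      exact rcd111_g3_all h0 hJ hlow hc hd h'

end g3

/-- **the search input of the field `sym` from the input per CONNECTED record alone** -/
theorem rcd111_search_of_perJc {t : ℝ} (h0 : 0 < t) (h1 : t ≤ 1) {L H : ℕ} (hL : 0 < L) (hp : Rcs127PerJc t L H) : Rcs127Search t L H := by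
  by_cases hH : 2 ≤ H
  · exact rcs127_search_of_perJc h0 h1 hL (rcd111_G1 hL hH) (rcd111_G2 hL H) hp
  · intro k m κ hm hme hk hκ hκH hN
    exfalso
    have : (H : ℤ) < 2 := by exact_mod_cast not_le.1 hH
    omega

/-- **the field `sym`, word for word, from the input per CONNECTED record alone** -/
theorem rcd111_sym_c {t : ℝ} (h0 : 1 / 2 ≤ t) (h1 : t ≤ 1) {L H : ℕ} (hL : 0 < L) (hp : Rcs127PerJc t L H) :
    ∀ (T : Bool) (k m κ : ℤ), 1 ≤ m → Even m → 3 ≤ k → k + m + 3 ≤ κ → κ + m - 1 ≤ ((2 * H : ℕ) : ℤ) - 4 → ((2 * H : ℕ) : ℤ) + k + m + 7 ≤ 2 * κ →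
    1 ≤ (fun (_ _ : Bool) => rcy162Q t L H) T T (cyVP 1 k (k + m - 1)) + (fun (_ _ : Bool) => rcy162Q t L H) T T (cyVP (-1) k (k + m - 1))
      + 4 * ((fun (_ _ : Bool) => rcy162Q t L H) T T (cyVP 1 κ (κ + m - 1)) + (fun (_ _ : Bool) => rcy162Q t L H) T (!T) (cyBlk 1 κ (κ + m - 1))) :=
  rcs127_sym h0 h1 hL (rcd111_search_of_perJc (by linarith) h1 hL hp)

/-! ## 9. ALT IN A BAND, LOCAL FORM, AND ALT IN EVERY UNEXPLORED SYSTEM -/

/-- **ALT, local form**: the four-way alternative of `rcs127_alt_cfg` in the band `c .. d` asks the cover property (T6) of the pairs OF THE BAND only -/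
theorem rcd111_alt_local {L : ℕ} (hL : 0 < L) {a b : ℤ} {c d : ℤ} (hcd : c ≤ d) (hc : 2 * a + 1 ≤ c) (hd : d ≤ 2 * b - 1)
    {S D : Finset (ℤ × ℤ)} {O O' : Finset ((ℤ × ℤ) × Bool)}
    (hcov : ∀ e : (ℤ × ℤ) × Bool, c ≤ (rtd111E e).2 → (rtd111E e).2 ≤ d →
      (rcy162RedE L e ∈ O ∨ rcy162RedE L e ∈ O') ∧
      (rcy162RedE L e ∈ O → ((rcy162Cyl L a b).p0 (rcy162RedE L e) ∈ S ↔ (rcy162Cyl L a b).p1 (rcy162RedE L e) ∈ S)) ∧
      (rcy162RedE L e ∈ O' → ((rcy162Cyl L a b).f0 (rcy162RedE L e) ∈ D ↔ (rcy162Cyl L a b).f1 (rcy162RedE L e) ∈ D))) :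
    rcy162Fld L (rcy162Cyl L a b) ⟨S, D, O⟩ ∈ cyVP 1 c d ∨ rcy162Fld L (rcy162Cyl L a b) ⟨S, D, O⟩ ∈ cyVP (-1) c d ∨
      rcs127FldD L (rcs127Sw (rcy162Cyl L a b)) ⟨D, S, O'⟩ ∈ cyBlk 1 c d ∨ rcs127FldD L (rcs127Sw (rcy162Cyl L a b)) ⟨D, S, O'⟩ ∈ cyBlk (-1) c d := by
  have hL2 : (0 : ℤ) < 2 * (L : ℤ) := by positivity
  refine cy_alt_det hL2 hcd _ _ (rcy162_fld_per L _ _) ?_ ?_ ?_
  · intro u hu
    have hu1 : c ≤ u.2 := hu.1
    have hu2 : u.2 ≤ d := hu.2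
    rcases rtd111_cases u with ⟨v, rfl⟩ | ⟨f, rfl⟩ | ⟨e, rfl⟩
    · left
      rw [rcy162_fld_P]
      refine rcs127_sgV_ne _ (rcy162_mem_cylV.2 ⟨rcy162_red_range hL _, ?_⟩)
      have e1 : (rtd111P v).2 = 2 * v.2 := rfl
      rw [rcy162_red_snd]
      constructor <;> omega
    · right
      rw [rcs127_fldD_F]
      refine rcs127_sgV_ne _ (show rcy162Red L f ∈ (rcy162Cyl L a b).Fc from rcy162_mem_cylF.2 ⟨rcy162_red_range hL _, ?_⟩)
      have e1 : (rtd111F f).2 = 2 * f.2 + 1 := rfl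
      rw [rcy162_red_snd]
      constructor <;> omega
    · have he : rcy162RedE L e ∈ (rcy162Cyl L a b).E := rcs127_redE_mem hL (by omega) (by omega)
      obtain ⟨h1, h2, h3⟩ := hcov e hu1 hu2
      rcases h1 with h1 | h1
      · left
        rw [rcy162_fld_E]
        exact rcs127_sgE_ne he h1 (h2 h1)
      · right
        rw [rcs127_fldD_E]
        exact rcs127_sgE_ne (Y := rcs127Sw (rcy162Cyl L a b)) he h1 (h3 h1)
  · intro u _ v _ huv h1 h2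
    refine rcs127_same_P _ (fun w => rcs127Sg S (rcy162Red L w)) (fun w hw => ?_) (fun f => rcy162_fld_F _ _ _ f) (fun e he => ?_) huv h1 h2
    · rw [rcy162_fld_P] at hw ⊢
      exact rcs127_sgV_sg hw
    · rw [rcy162_fld_E] at he ⊢
      obtain ⟨g1, g2⟩ := rcs127_sgE_sg he
      refine ⟨g1, ?_⟩
      rw [g2]
      show rcs127Sg S (rcy162Red L (rswEnd (rcy162RedE L e))) = _
      rw [rcs127_red_end]
  · intro u _ v _ huv h1 h2
    refine rcs127_same_F _ (fun w => rcs127Sg D (rcy162Red L w)) (fun w hw => ?_) (fun f => rcs127_fldD_P _ _ _ f) (fun e he => ?_) huv h1 h2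
    · rw [rcs127_fldD_F] at hw ⊢
      exact rcs127_sgV_sg hw
    · rw [rcs127_fldD_E] at he ⊢
      obtain ⟨g1, g2⟩ := rcs127_sgE_sg he
      refine ⟨g1, ?_⟩
      rw [g2]
      show rcs127Sg D (rcy162Red L (rswCo (rcy162RedE L e))) = _
      rw [rcs127_red_co]

/-- a pair of a band above `J` is a pair of the unexplored system -/
theorem rcd111_band_mem_out {L : ℕ} (hL : 0 < L) {a b c d : ℤ} (hc : 2 * a + 1 ≤ c) (hd : d ≤ 2 * b - 1) {J : Finset (ℤ × ℤ)} (hlow : ∀ v ∈ J, 2 * v.2 + 1 < c)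
    {e : (ℤ × ℤ) × Bool} (h1 : c ≤ (rtd111E e).2) (h2 : (rtd111E e).2 ≤ d) : rcy162RedE L e ∈ (rcs127OutP (rcy162Cyl L a b) J).E := by
  have he : rcy162RedE L e ∈ (rcy162Cyl L a b).E := rcs127_redE_mem hL (by omega) (by omega)
  show rcy162RedE L e ∈ rcs127E2 (rcs127Sw (rcy162Cyl L a b)) J
  refine rcs127_mem_E2.2 ⟨he, fun h => ?_, fun h => ?_⟩
  · have h' := hlow _ h
    have e0 : ((rcs127Sw (rcy162Cyl L a b)).f0 (rcy162RedE L e)).2 = e.1.2 := rfl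
    rw [e0] at h'
    obtain ⟨⟨x, y⟩, q⟩ := e
    cases q
    · rw [rtd111_E_f] at h1; simp only at h1 h'; omega
    · rw [rtd111_E_t] at h1; simp only at h1 h'; omega
  · have h' := hlow _ h
    have e0 : ((rcs127Sw (rcy162Cyl L a b)).f1 (rcy162RedE L e)).2 = (rswEnd (rcy162RedE L e)).2 := rfl
    rw [e0] at h'
    obtain ⟨⟨x, y⟩, q⟩ := e
    cases q
    · rw [rtd111_E_f] at h1
      have e1 : (rswEnd (rcy162RedE L ((x, y), false))).2 = y := rfl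
      rw [e1] at h'
      simp only at h1; omega
    · rw [rtd111_E_t] at h1
      have e1 : (rswEnd (rcy162RedE L ((x, y), true))).2 = y + 1 := rfl
      rw [e1] at h'
      simp only at h1; omega

/-- **ALT in every unexplored system**: on the support of the two-status weight of `rcs127OutP (cylinder) J` the four-way alternative holds in every band above `J` (= the hypothesis `hdet` of `rcs127_alt` on that system) -/
theorem rcd111_alt_out {L : ℕ} (hL : 0 < L) {a b : ℤ} {t : ℝ} {c d : ℤ} (hcd : c ≤ d) (hc : 2 * a + 1 ≤ c) (hd : d ≤ 2 * b - 1)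
    {J : Finset (ℤ × ℤ)} (hlow : ∀ v ∈ J, 2 * v.2 + 1 < c)
    {S D : Finset (ℤ × ℤ)} {O O' : Finset ((ℤ × ℤ) × Bool)} (hω : rcs127Wt2 (rcs127OutP (rcy162Cyl L a b) J) t S D O O' ≠ 0) :
    rcy162Fld L (rcy162Cyl L a b) ⟨S, D, O⟩ ∈ cyVP 1 c d ∨ rcy162Fld L (rcy162Cyl L a b) ⟨S, D, O⟩ ∈ cyVP (-1) c d ∨
      rcs127FldD L (rcs127Sw (rcy162Cyl L a b)) ⟨D, S, O'⟩ ∈ cyBlk 1 c d ∨ rcs127FldD L (rcs127Sw (rcy162Cyl L a b)) ⟨D, S, O'⟩ ∈ cyBlk (-1) c d :=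
  rcd111_alt_local hL hcd hc hd fun e h1 h2 => rcs127_wt2_cover (rcs127OutP (rcy162Cyl L a b) J) hω (rcd111_band_mem_out hL hc hd hlow h1 h2)

open Classical in
/-- **step (a) of (perJ): ALT, number form, in the unexplored system** (`d = +` on the faces of the cut pairs, any constraint `k₂` on `s`): the band is crossed by plus or by minus cells of `s`, or blocked by plus or by minus
cells of `d` -/
theorem rcd111_alt_out_N {L : ℕ} (hL : 0 < L) {a b : ℤ} {t : ℝ} (h0 : 1 / 2 ≤ t) (h1 : t ≤ 1) {c d : ℤ} (hcd : c ≤ d) (hc : 2 * a + 1 ≤ c) (hd : d ≤ 2 * b - 1)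
    {J : Finset (ℤ × ℤ)} (hlow : ∀ v ∈ J, 2 * v.2 + 1 < c) (k₂ : Finset (ℤ × ℤ) → Prop) :
    (rcs127OutP (rcy162Cyl L a b) J).sum t (Rcs127KP (rcy162Cyl L a b) J k₂) (fun _ => 1) ≤
      (rcs127OutP (rcy162Cyl L a b) J).sum t (Rcs127KP (rcy162Cyl L a b) J k₂) (fun ω => if rcy162Fld L (rcy162Cyl L a b) ω ∈ cyVP 1 c d then 1 else 0) +
      (rcs127OutP (rcy162Cyl L a b) J).sum t (Rcs127KP (rcy162Cyl L a b) J k₂) (fun ω => if rcy162Fld L (rcy162Cyl L a b) ω ∈ cyVP (-1) c d then 1 else 0) +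
      (rcs127Sw (rcs127OutP (rcy162Cyl L a b) J)).sum t (fun ω => Rcs127KP (rcy162Cyl L a b) J k₂ ⟨ω.D, ω.S, ω.O⟩)
        (fun ω => if rcs127FldD L (rcs127Sw (rcy162Cyl L a b)) ω ∈ cyBlk 1 c d then 1 else 0) +
      (rcs127Sw (rcs127OutP (rcy162Cyl L a b) J)).sum t (fun ω => Rcs127KP (rcy162Cyl L a b) J k₂ ⟨ω.D, ω.S, ω.O⟩)
        (fun ω => if rcs127FldD L (rcs127Sw (rcy162Cyl L a b)) ω ∈ cyBlk (-1) c d then 1 else 0) :=
  rcs127_alt (rcs127OutP (rcy162Cyl L a b) J) h0 h1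
    (fun S D => (∀ f ∈ rcs127V0 (rcs127Sw (rcy162Cyl L a b)) J, (f ∈ D ↔ true = true)) ∧ k₂ S)
    (fun ω => rcy162Fld L (rcy162Cyl L a b) ω ∈ cyVP 1 c d) (fun ω => rcy162Fld L (rcy162Cyl L a b) ω ∈ cyVP (-1) c d)
    (fun ω => rcs127FldD L (rcs127Sw (rcy162Cyl L a b)) ω ∈ cyBlk 1 c d) (fun ω => rcs127FldD L (rcs127Sw (rcy162Cyl L a b)) ω ∈ cyBlk (-1) c d)
    (fun S D O O' _ _ _ _ _ hω => rcd111_alt_out hL hcd hc hd hlow hω)

/-! ## 10. (p3) OF (perJ), FRAME-INDEPENDENT: THE CAP AND THE CYLINDER READ THE SAME FIELDS IN A BAND; ALT IN ANY SUB-SYSTEM; THE ROWS OF `ρ J`      (split of 121, 23:00Z) -/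

theorem rcd111_sgV_congr {Y Y' : Rcy162Sys} (ω : RswCfg) {v : ℤ × ℤ} (h : v ∈ Y.V ↔ v ∈ Y'.V) : Y.sgV ω v = Y'.sgV ω v := by
  classical
  unfold Rcy162Sys.sgV
  simp only [h]

theorem rcd111_sgE_congr {Y Y' : Rcy162Sys} (ω : RswCfg) {e : (ℤ × ℤ) × Bool} (h : e ∈ Y.E ↔ e ∈ Y'.E) (h0 : Y.p0 e = Y'.p0 e) (h1 : Y.p1 e = Y'.p1 e) :
    Y.sgE ω e = Y'.sgE ω e := by
  classical
  have g : ∀ s : Bool, Y.Good s ω e ↔ Y'.Good s ω e := by
    intro s
    unfold Rcy162Sys.Good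
    rw [h0, h1]
  unfold Rcy162Sys.sgE
  by_cases he : e ∈ Y.E
  · rw [if_pos he, if_pos (h.1 he)]
    simp only [g]
  · rw [if_neg he, if_neg (fun hh => he (h.2 hh))]

section cap

variable {L H : ℕ} {a b : ℤ}

/-- the rows of a pair of the band -/
theorem rcd111_band_rows {e : (ℤ × ℤ) × Bool} (h1 : 1 ≤ (rtd111E e).2) (h2 : (rtd111E e).2 ≤ 2 * (H : ℤ) - 1) :
    0 ≤ e.1.2 ∧ e.1.2 < H ∧ (rswEnd e).2 ≤ H ∧ 0 ≤ (rswCo e).2 := by
  obtain ⟨⟨x, y⟩, q⟩ := e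
  cases q
  · rw [rtd111_E_f] at h1 h2
    rw [rtd111_end_f, rtd111_co_f]
    simp only at h1 h2 ⊢
    refine ⟨?_, ?_, ?_, ?_⟩ <;> omega
  · rw [rtd111_E_t] at h1 h2
    rw [rtd111_end_t, rtd111_co_t]
    simp only at h1 h2 ⊢
    refine ⟨?_, ?_, ?_, ?_⟩ <;> omega

/-- on the pairs of the band the cap and the cylinder have the same incidence maps -/
theorem rcd111_cap_inc (ha : a ≤ 0) (hb : (H : ℤ) < b) {e : (ℤ × ℤ) × Bool} (h1 : 1 ≤ (rtd111E e).2) (h2 : (rtd111E e).2 ≤ 2 * (H : ℤ) - 1) :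
    (rci69Cap L a b).p1 (rcy162RedE L e) = (rcy162Cyl L 0 H).p1 (rcy162RedE L e) ∧
    (rci69Cap L a b).f1 (rcy162RedE L e) = (rcy162Cyl L 0 H).f1 (rcy162RedE L e) := by
  obtain ⟨r0, r1, r2, r3⟩ := rcd111_band_rows h1 h2
  constructor
  · show rci69TopV b (rcy162Red L (rswEnd (rcy162RedE L e))) = rcy162Red L (rswEnd (rcy162RedE L e))
    refine rcp162_top_in ?_
    rw [rcd111_red_end, rcy162_red_snd]
    omega
  · show rci69BotF a (rcy162Red L (rswCo (rcy162RedE L e))) = rcy162Red L (rswCo (rcy162RedE L e))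
    refine rcp162_bot_in ?_
    rw [rcd111_red_co, rcy162_red_snd]
    omega

/-- **(A)** the field of `s` of the cap = the field of `s` of the cylinder on the refined rows `1 .. 2 H - 1` -/
theorem rcd111_fld_cap (hL : 0 < L) (ha : a ≤ 0) (hb : (H : ℤ) < b) (ω : RswCfg) (u : ℤ × ℤ) (h1 : 1 ≤ u.2) (h2 : u.2 ≤ 2 * (H : ℤ) - 1) :
    rcy162Fld L (rci69Cap L a b) ω u = rcy162Fld L (rcy162Cyl L 0 H) ω u := by
  rcases rtd111_cases u with ⟨v, rfl⟩ | ⟨f, rfl⟩ | ⟨e, rfl⟩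
  · rw [rcy162_fld_P, rcy162_fld_P]
    have e1 : (rtd111P v).2 = 2 * v.2 := rfl
    refine rcd111_sgV_congr ω (iff_of_true (rcp162_red_memV hL (by omega) (by omega)) (rcy162_mem_cylV.2 ⟨rcy162_red_range hL _, ?_⟩))
    rw [rcy162_red_snd]
    constructor <;> omega
  · rw [rcy162_fld_F, rcy162_fld_F]
  · rw [rcy162_fld_E, rcy162_fld_E]
    obtain ⟨r0, r1, r2, r3⟩ := rcd111_band_rows h1 h2
    exact rcd111_sgE_congr ω (iff_of_true (rcp162_redE_mem hL (by omega) (by omega)) (rcs127_redE_mem hL (by omega) (by omega))) rfl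
      (rcd111_cap_inc ha hb h1 h2).1

/-- **(B)** the field of `d` of the cap = the field of `d` of the cylinder on the refined rows `1 .. 2 H - 1` -/
theorem rcd111_fldD_cap (hL : 0 < L) (ha : a ≤ 0) (hb : (H : ℤ) < b) (ω : RswCfg) (u : ℤ × ℤ) (h1 : 1 ≤ u.2) (h2 : u.2 ≤ 2 * (H : ℤ) - 1) :
    rcs127FldD L (rcs127Sw (rci69Cap L a b)) ω u = rcs127FldD L (rcs127Sw (rcy162Cyl L 0 H)) ω u := by
  rcases rtd111_cases u with ⟨v, rfl⟩ | ⟨f, rfl⟩ | ⟨e, rfl⟩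
  · rw [rcs127_fldD_P, rcs127_fldD_P]
  · rw [rcs127_fldD_F, rcs127_fldD_F]
    have e1 : (rtd111F f).2 = 2 * f.2 + 1 := rfl
    refine rcd111_sgV_congr ω (iff_of_true (show rcy162Red L f ∈ (rci69Cap L a b).Fc from rcp162_red_memF hL (by omega) (by omega))
      (show rcy162Red L f ∈ (rcy162Cyl L 0 H).Fc from rcy162_mem_cylF.2 ⟨rcy162_red_range hL _, ?_⟩))
    rw [rcy162_red_snd]
    constructor <;> omega
  · rw [rcs127_fldD_E, rcs127_fldD_E]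
    obtain ⟨r0, r1, r2, r3⟩ := rcd111_band_rows h1 h2
    exact rcd111_sgE_congr ω (iff_of_true (show rcy162RedE L e ∈ (rci69Cap L a b).E from rcp162_redE_mem hL (by omega) (by omega))
      (show rcy162RedE L e ∈ (rcy162Cyl L 0 H).E from rcs127_redE_mem hL (by omega) (by omega))) rfl
      (rcd111_cap_inc ha hb h1 h2).2

/-- **(C)** the events of a band `1 ≤ c`, `d ≤ 2 H - 1` are the same for the two reference systems -/
theorem rcd111_ev_cap (hL : 0 < L) (ha : a ≤ 0) (hb : (H : ℤ) < b) (ω : RswCfg) {c d : ℤ} (hc : 1 ≤ c) (hd : d ≤ 2 * (H : ℤ) - 1) {E : Set CyF} (hE : CySup c d E) :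
    (rcy162Fld L (rci69Cap L a b) ω ∈ E ↔ rcy162Fld L (rcy162Cyl L 0 H) ω ∈ E) ∧
    (rcs127FldD L (rcs127Sw (rci69Cap L a b)) ω ∈ E ↔ rcs127FldD L (rcs127Sw (rcy162Cyl L 0 H)) ω ∈ E) :=
  ⟨hE _ _ fun u h1 h2 => rcd111_fld_cap hL ha hb ω u (by omega) (by omega), hE _ _ fun u h1 h2 => rcd111_fldD_cap hL ha hb ω u (by omega) (by omega)⟩

/-- **(D) ALT on the support of ANY system** which contains the pairs of the band, with the incidence maps of the cylinder on them -/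
theorem rcd111_alt_sys (hL : 0 < L) {t : ℝ} {c d : ℤ} (hcd : c ≤ d) (hc : 1 ≤ c) (hd : d ≤ 2 * (H : ℤ) - 1) (W : Rcy162Sys)
    (hW : ∀ e : (ℤ × ℤ) × Bool, c ≤ (rtd111E e).2 → (rtd111E e).2 ≤ d → rcy162RedE L e ∈ W.E ∧
      W.p0 (rcy162RedE L e) = (rcy162Cyl L 0 H).p0 (rcy162RedE L e) ∧ W.p1 (rcy162RedE L e) = (rcy162Cyl L 0 H).p1 (rcy162RedE L e) ∧
      W.f0 (rcy162RedE L e) = (rcy162Cyl L 0 H).f0 (rcy162RedE L e) ∧ W.f1 (rcy162RedE L e) = (rcy162Cyl L 0 H).f1 (rcy162RedE L e))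
    {S D : Finset (ℤ × ℤ)} {O O' : Finset ((ℤ × ℤ) × Bool)} (hω : rcs127Wt2 W t S D O O' ≠ 0) :
    rcy162Fld L (rcy162Cyl L 0 H) ⟨S, D, O⟩ ∈ cyVP 1 c d ∨ rcy162Fld L (rcy162Cyl L 0 H) ⟨S, D, O⟩ ∈ cyVP (-1) c d ∨
      rcs127FldD L (rcs127Sw (rcy162Cyl L 0 H)) ⟨D, S, O'⟩ ∈ cyBlk 1 c d ∨ rcs127FldD L (rcs127Sw (rcy162Cyl L 0 H)) ⟨D, S, O'⟩ ∈ cyBlk (-1) c d := by
  refine rcd111_alt_local hL hcd (by omega) hd fun e h1 h2 => ?_
  obtain ⟨hE, q0, q1, q2, q3⟩ := hW e h1 h2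
  have h := rcs127_wt2_cover W hω hE
  rw [q0, q1, q2, q3] at h
  exact h

open Classical in
/-- **(D), number form**: ANY system as in `rcd111_alt_sys`, ANY constraint `κ` on the pair `(s, d)` (pins `d = +` on a rim, `s = +` on another rim, ...) -/
theorem rcd111_alt_sys_N (hL : 0 < L) {t : ℝ} (h0 : 1 / 2 ≤ t) (h1 : t ≤ 1) {c d : ℤ} (hcd : c ≤ d) (hc : 1 ≤ c) (hd : d ≤ 2 * (H : ℤ) - 1) (W : Rcy162Sys)
    (hW : ∀ e : (ℤ × ℤ) × Bool, c ≤ (rtd111E e).2 → (rtd111E e).2 ≤ d → rcy162RedE L e ∈ W.E ∧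
      W.p0 (rcy162RedE L e) = (rcy162Cyl L 0 H).p0 (rcy162RedE L e) ∧ W.p1 (rcy162RedE L e) = (rcy162Cyl L 0 H).p1 (rcy162RedE L e) ∧
      W.f0 (rcy162RedE L e) = (rcy162Cyl L 0 H).f0 (rcy162RedE L e) ∧ W.f1 (rcy162RedE L e) = (rcy162Cyl L 0 H).f1 (rcy162RedE L e))
    (κ : Finset (ℤ × ℤ) → Finset (ℤ × ℤ) → Prop) :
    W.sum t (fun ω => κ ω.S ω.D) (fun _ => 1) ≤
      W.sum t (fun ω => κ ω.S ω.D) (fun ω => if rcy162Fld L (rcy162Cyl L 0 H) ω ∈ cyVP 1 c d then 1 else 0) +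
      W.sum t (fun ω => κ ω.S ω.D) (fun ω => if rcy162Fld L (rcy162Cyl L 0 H) ω ∈ cyVP (-1) c d then 1 else 0) +
      (rcs127Sw W).sum t (fun ω => κ ω.D ω.S) (fun ω => if rcs127FldD L (rcs127Sw (rcy162Cyl L 0 H)) ω ∈ cyBlk 1 c d then 1 else 0) +
      (rcs127Sw W).sum t (fun ω => κ ω.D ω.S) (fun ω => if rcs127FldD L (rcs127Sw (rcy162Cyl L 0 H)) ω ∈ cyBlk (-1) c d then 1 else 0) :=
  rcs127_alt W h0 h1 κ
    (fun ω => rcy162Fld L (rcy162Cyl L 0 H) ω ∈ cyVP 1 c d) (fun ω => rcy162Fld L (rcy162Cyl L 0 H) ω ∈ cyVP (-1) c d)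
    (fun ω => rcs127FldD L (rcs127Sw (rcy162Cyl L 0 H)) ω ∈ cyBlk 1 c d) (fun ω => rcs127FldD L (rcs127Sw (rcy162Cyl L 0 H)) ω ∈ cyBlk (-1) c d)
    (fun S D O O' _ _ _ _ _ hω => rcd111_alt_sys hL hcd hc hd W hW hω)

/-- the hypothesis `hW` for a system which has the incidence maps OF THE CAP (a restriction `rcs127Res (cap) ..`, `rcs127OutP (cap) J`, ...) and contains the pairs of the band -/
theorem rcd111_hW_cap (ha : a ≤ 0) (hb : (H : ℤ) < b) {c d : ℤ} (hc : 1 ≤ c) (hd : d ≤ 2 * (H : ℤ) - 1) (W : Rcy162Sys)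
    (q0 : W.p0 = (rci69Cap L a b).p0) (q1 : W.p1 = (rci69Cap L a b).p1) (q2 : W.f0 = (rci69Cap L a b).f0) (q3 : W.f1 = (rci69Cap L a b).f1)
    (hE : ∀ e : (ℤ × ℤ) × Bool, c ≤ (rtd111E e).2 → (rtd111E e).2 ≤ d → rcy162RedE L e ∈ W.E) :
    ∀ e : (ℤ × ℤ) × Bool, c ≤ (rtd111E e).2 → (rtd111E e).2 ≤ d → rcy162RedE L e ∈ W.E ∧
      W.p0 (rcy162RedE L e) = (rcy162Cyl L 0 H).p0 (rcy162RedE L e) ∧ W.p1 (rcy162RedE L e) = (rcy162Cyl L 0 H).p1 (rcy162RedE L e) ∧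
      W.f0 (rcy162RedE L e) = (rcy162Cyl L 0 H).f0 (rcy162RedE L e) ∧ W.f1 (rcy162RedE L e) = (rcy162Cyl L 0 H).f1 (rcy162RedE L e) := by
  intro e h1 h2
  obtain ⟨i1, i2⟩ := rcd111_cap_inc (L := L) ha hb (e := e) (by omega) (by omega)
  refine ⟨hE e h1 h2, ?_, ?_, ?_, ?_⟩
  · rw [q0]; rfl
  · rw [q1]; exact i1
  · rw [q2]; rfl
  · rw [q3]; exact i2

end cap

/-! ### (E) the rows of `ρ J` -/

theorem rcd111_top_snd (b : ℤ) (v : ℤ × ℤ) : (rci69TopV b v).2 = v.2 := by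
  unfold rci69TopV
  split_ifs with h
  · exact h.symm
  · rfl

theorem rcd111_bot_snd (a : ℤ) (v : ℤ × ℤ) : (rci69BotF a v).2 = v.2 := by
  unfold rci69BotF
  split_ifs with h
  · exact h.symm
  · rfl

/-- the row of the face `ρ v` of a site `v` -/
theorem rcd111_gF_snd (L : ℕ) (a b : ℤ) (v : ℤ × ℤ) : (rcp162gF L a b v).2 = a + b - 1 - v.2 := by
  unfold rcp162gF
  rw [rcd111_bot_snd, rcy162_red_snd]

/-- the row of the site `ρ f` of a face `f` -/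
theorem rcd111_gV_snd (L : ℕ) (a b : ℤ) (f : ℤ × ℤ) : (rcp162gV L a b f).2 = a + b - 1 - f.2 := by
  unfold rcp162gV
  rw [rcd111_top_snd, rcy162_red_snd]

/-- **the faces `ρ J` lie above the refined row `2 H + m + 7`** (`ρ₀ = 2 b - 1 = 2 κ + m - 1`, `J` under the refined row `k + m - 1`) -/
theorem rcd111_rho_high {L H : ℕ} {b k m κ : ℤ} (hb : 2 * b - 1 = 2 * κ + m - 1) (hN : 2 * (H : ℤ) + k + m + 7 ≤ 2 * κ) {v : ℤ × ℤ} (hv : 2 * v.2 < k + m - 1) :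
    2 * (H : ℤ) + m + 7 < 2 * (rcp162gF L 0 b v).2 + 1 := by
  rw [rcd111_gF_snd]
  omega

/-- **the faces `ρ⁻¹ J` lie above the refined row `2 H + m + 7`** -/
theorem rcd111_rho_inv_high {L H : ℕ} {b k m κ : ℤ} (hb : 2 * b - 1 = 2 * κ + m - 1) (hN : 2 * (H : ℤ) + k + m + 7 ≤ 2 * κ) {f : ℤ × ℤ}
    (hv : 2 * (rcp162gV L 0 b f).2 < k + m - 1) : 2 * (H : ℤ) + m + 7 < 2 * f.2 + 1 := by
  rw [rcd111_gV_snd] at hv
  omega

/-- the rows of the two faces and of the two ends of a pair of the cap -/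
theorem rcd111_cap_rows (L : ℕ) (a b : ℤ) (e : (ℤ × ℤ) × Bool) :
    2 * ((rci69Cap L a b).f0 e).2 ≤ (rtd111E e).2 ∧ 2 * ((rci69Cap L a b).f1 e).2 ≤ (rtd111E e).2 ∧
    (rtd111E e).2 ≤ 2 * ((rci69Cap L a b).f0 e).2 + 2 ∧ (rtd111E e).2 ≤ 2 * ((rci69Cap L a b).f1 e).2 + 2 ∧
    (rtd111E e).2 ≤ 2 * ((rci69Cap L a b).p0 e).2 + 1 ∧ (rtd111E e).2 ≤ 2 * ((rci69Cap L a b).p1 e).2 := by
  have e0 : ((rci69Cap L a b).f0 e).2 = e.1.2 := rfl
  have e1 : ((rci69Cap L a b).f1 e).2 = (rswCo e).2 := by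
    show (rci69BotF a (rcy162Red L (rswCo e))).2 = _
    rw [rcd111_bot_snd, rcy162_red_snd]
  have e2 : ((rci69Cap L a b).p0 e).2 = e.1.2 := rfl
  have e3 : ((rci69Cap L a b).p1 e).2 = (rswEnd e).2 := by
    show (rci69TopV b (rcy162Red L (rswEnd e))).2 = _
    rw [rcd111_top_snd, rcy162_red_snd]
  rw [e0, e1, e2, e3]
  obtain ⟨⟨x, y⟩, q⟩ := e
  cases q
  · rw [rtd111_E_f, rtd111_co_f, rtd111_end_f]
    simp only
    refine ⟨?_, ?_, ?_, ?_, ?_, ?_⟩ <;> omega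
  · rw [rtd111_E_t, rtd111_co_t, rtd111_end_t]
    simp only
    refine ⟨?_, ?_, ?_, ?_, ?_, ?_⟩ <;> omega

/-- **a pair of the cap with a face above the refined row `r` lies above the refined row `r - 1`, and so do its two ends**: the prescriptions `K±` of (perJ) live above the row `H` -/
theorem rcd111_touch_high (L : ℕ) (a b : ℤ) {r : ℤ} {e : (ℤ × ℤ) × Bool}
    (h : r < 2 * ((rci69Cap L a b).f0 e).2 + 1 ∨ r < 2 * ((rci69Cap L a b).f1 e).2 + 1) :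
    r - 1 < (rtd111E e).2 ∧ r - 2 < 2 * ((rci69Cap L a b).p0 e).2 ∧ r - 1 < 2 * ((rci69Cap L a b).p1 e).2 := by
  obtain ⟨h0, h1, _, _, h4, h5⟩ := rcd111_cap_rows L a b e
  rcases h with h | h <;> refine ⟨?_, ?_, ?_⟩ <;> omega

/-- **the pairs of a band survive**: no end in a set `J` of sites under the band, no face in a set `T` of faces above the band -/
theorem rcd111_band_survive (L : ℕ) (a b : ℤ) {c d : ℤ} {J T : Finset (ℤ × ℤ)} (hJ : ∀ v ∈ J, 2 * v.2 + 1 < c) (hT : ∀ f ∈ T, d < 2 * f.2)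
    {e : (ℤ × ℤ) × Bool} (h1 : c ≤ (rtd111E e).2) (h2 : (rtd111E e).2 ≤ d) :
    (rci69Cap L a b).p0 (rcy162RedE L e) ∉ J ∧ (rci69Cap L a b).p1 (rcy162RedE L e) ∉ J ∧
    (rci69Cap L a b).f0 (rcy162RedE L e) ∉ T ∧ (rci69Cap L a b).f1 (rcy162RedE L e) ∉ T := by
  obtain ⟨g0, g1, _, _, g4, g5⟩ := rcd111_cap_rows L a b (rcy162RedE L e)
  have er : (rtd111E (rcy162RedE L e)).2 = (rtd111E e).2 := by
    obtain ⟨⟨x, y⟩, q⟩ := e
    cases q <;> rfl
  rw [er] at g0 g1 g4 g5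
  refine ⟨fun h => ?_, fun h => ?_, fun h => ?_, fun h => ?_⟩
  · have := hJ _ h; omega
  · have := hJ _ h; omega
  · have := hT _ h; omega
  · have := hT _ h; omega

/-! ## 11. (G3) FOR THE CAP      (split of 121: the frame of (perJ) is `rcs127OutC (rci69Cap L 0 b) J pole`) -/

section g3cap

variable {L : ℕ} {b : ℤ} {J : Finset (ℤ × ℤ)} {d : ℤ × ℤ → ZMod 2}

/-- a site of a low `J` is a regular site of the cap -/
theorem rcd111_c3_reg (hJ : J ⊆ (rci69Cap L 0 b).V) (hlow : ∀ v ∈ J, v.2 < b) {w : ℤ × ℤ} (hw : w ∈ J) : (0 ≤ w.1 ∧ w.1 < L) ∧ 0 ≤ w.2 ∧ w.2 < b := by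
  rcases rci69_mem_capV.1 (hJ hw) with h | h
  · exact h
  · have := hlow w hw
    rw [h] at this
    simp only at this
    omega

theorem rcd111_c3_west (hJ : J ⊆ (rci69Cap L 0 b).V) (hlow : ∀ v ∈ J, v.2 < b)
    (hd : ∀ e ∈ (rci69Cap L 0 b).E, ((rci69Cap L 0 b).p0 e ∈ J ∨ (rci69Cap L 0 b).p1 e ∈ J) → d ((rci69Cap L 0 b).f0 e) = d ((rci69Cap L 0 b).f1 e))
    {w : ℤ × ℤ} (hw : w ∈ J) : d w = d (rcy162Red L (w.1 - 1, w.2)) := by
  obtain ⟨r1, r2, r3⟩ := rcd111_c3_reg hJ hlow hw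
  have hE : ((w, true) : (ℤ × ℤ) × Bool) ∈ (rci69Cap L 0 b).E := rci69_mem_capE.2 ⟨r1, r2, r3⟩
  have h := hd (w, true) hE (Or.inl hw)
  have e1 : (rci69Cap L 0 b).f1 (w, true) = rcy162Red L (w.1 - 1, w.2) := by
    show rci69BotF 0 (rcy162Red L (w.1 - 1, w.2)) = _
    refine rcp162_bot_in ?_
    rw [rcy162_red_snd]
    simp only
    omega
  rw [e1] at h
  exact h

theorem rcd111_c3_south (hJ : J ⊆ (rci69Cap L 0 b).V) (hlow : ∀ v ∈ J, v.2 < b)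
    (hd : ∀ e ∈ (rci69Cap L 0 b).E, ((rci69Cap L 0 b).p0 e ∈ J ∨ (rci69Cap L 0 b).p1 e ∈ J) → d ((rci69Cap L 0 b).f0 e) = d ((rci69Cap L 0 b).f1 e))
    {w : ℤ × ℤ} (hw : w ∈ J) (h0 : 0 < w.2) : d w = d (w.1, w.2 - 1) := by
  obtain ⟨r1, r2, r3⟩ := rcd111_c3_reg hJ hlow hw
  have hE : ((w, false) : (ℤ × ℤ) × Bool) ∈ (rci69Cap L 0 b).E := rci69_mem_capE.2 ⟨r1, r2, r3⟩
  have h := hd (w, false) hE (Or.inl hw)
  have e1 : (rci69Cap L 0 b).f1 (w, false) = (w.1, w.2 - 1) := by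
    show rci69BotF 0 (rcy162Red L (w.1, w.2 - 1)) = _
    rw [rcp162_bot_in (by rw [rcy162_red_snd]; simp only; omega)]
    exact rcy162_red_of_range r1.1 r1.2
  rw [e1] at h
  exact h

/-- the bottom pole: across the horizontal pair of the row `0` -/
theorem rcd111_c3_pole (hJ : J ⊆ (rci69Cap L 0 b).V) (hlow : ∀ v ∈ J, v.2 < b)
    (hd : ∀ e ∈ (rci69Cap L 0 b).E, ((rci69Cap L 0 b).p0 e ∈ J ∨ (rci69Cap L 0 b).p1 e ∈ J) → d ((rci69Cap L 0 b).f0 e) = d ((rci69Cap L 0 b).f1 e))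
    {w : ℤ × ℤ} (hw : w ∈ J) (h0 : w.2 = 0) : d w = d (0, -1) := by
  obtain ⟨r1, r2, r3⟩ := rcd111_c3_reg hJ hlow hw
  have hE : ((w, false) : (ℤ × ℤ) × Bool) ∈ (rci69Cap L 0 b).E := rci69_mem_capE.2 ⟨r1, r2, r3⟩
  have h := hd (w, false) hE (Or.inl hw)
  have e1 : (rci69Cap L 0 b).f1 (w, false) = (0, -1) := by
    show rci69BotF 0 (rcy162Red L (w.1, w.2 - 1)) = _
    rw [rcp162_bot_pole (by rw [rcy162_red_snd]; simp only; omega)]
    rfl
  rw [e1] at h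
  exact h

theorem rcd111_c3_pair (hJ : J ⊆ (rci69Cap L 0 b).V) (hlow : ∀ v ∈ J, v.2 < b)
    (hd : ∀ e ∈ (rci69Cap L 0 b).E, ((rci69Cap L 0 b).p0 e ∈ J ∨ (rci69Cap L 0 b).p1 e ∈ J) → d ((rci69Cap L 0 b).f0 e) = d ((rci69Cap L 0 b).f1 e))
    {e : (ℤ × ℤ) × Bool} (h0 : 0 ≤ e.1.1 ∧ e.1.1 < L) (hy : 0 ≤ e.1.2) (h1 : (rci69Cap L 0 b).p1 e ∈ J) : d e.1 = d ((rci69Cap L 0 b).p1 e) := by
  have hrow := hlow _ h1
  have ep : (rci69Cap L 0 b).p1 e = rcy162Red L (rswEnd e) := by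
    show rci69TopV b (rcy162Red L (rswEnd e)) = _
    refine rcp162_top_in ?_
    have : ((rci69Cap L 0 b).p1 e).2 = (rcy162Red L (rswEnd e)).2 := rcd111_top_snd b _
    omega
  rw [ep] at h1 ⊢
  obtain ⟨⟨x, y⟩, c⟩ := e
  cases c
  · rw [rtd111_end_f] at h1 ⊢
    have h := rcd111_c3_west hJ hlow hd h1
    have e2 : (rcy162Red L (x + 1, y)).2 = y := rfl
    rw [e2, rcd111_g3_back h0.1 h0.2] at h
    exact h.symm
  · rw [rtd111_end_t] at h1 ⊢
    have er : rcy162Red L (x, y + 1) = (x, y + 1) := rcy162_red_of_range h0.1 h0.2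
    rw [er] at h1 ⊢
    have h := rcd111_c3_south hJ hlow hd h1 (by show 0 < y + 1; simp only at hy; omega)
    have e2 : ((x, y + 1) : ℤ × ℤ).2 - 1 = y := by simp
    rw [e2] at h
    exact h.symm

/-- every site of a connected `J` carries the value of the bottom pole -/
theorem rcd111_c3_all (h0 : rcy162Row L 0 ⊆ J) (hJ : J ⊆ (rci69Cap L 0 b).V) (hlow : ∀ v ∈ J, v.2 < b)
    (hc : Rcs127Conn (rcs127Sw (rci69Cap L 0 b)) (rcy162Row L 0) J)
    (hd : ∀ e ∈ (rci69Cap L 0 b).E, ((rci69Cap L 0 b).p0 e ∈ J ∨ (rci69Cap L 0 b).p1 e ∈ J) → d ((rci69Cap L 0 b).f0 e) = d ((rci69Cap L 0 b).f1 e))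
    {v : ℤ × ℤ} (hv : v ∈ J) : d v = d (0, -1) := by
  obtain ⟨f, hf, hch⟩ := hc v hv
  induction hch with
  | refl => exact rcd111_c3_pole hJ hlow hd hv (rcy162_mem_row.1 hf).2
  | @tail x y _ hs ih =>
    obtain ⟨hx, hy, e, he⟩ := hs
    have ihx := ih hx
    rcases he with ⟨e1, e2⟩ | ⟨e1, e2⟩
    · have e1' : x = e.1 := e1
      have e2' : y = (rci69Cap L 0 b).p1 e := e2
      obtain ⟨r1, r2, _⟩ := rcd111_c3_reg hJ hlow hx
      have h := rcd111_c3_pair hJ hlow hd (e := e) (by rw [← e1']; exact r1) (by rw [← e1']; exact r2) (by rw [← e2']; exact hy)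
      rw [e2', ← h, ← e1']
      exact ihx
    · have e1' : y = e.1 := e1
      have e2' : x = (rci69Cap L 0 b).p1 e := e2
      obtain ⟨r1, r2, _⟩ := rcd111_c3_reg hJ hlow hy
      have h := rcd111_c3_pair hJ hlow hd (e := e) (by rw [← e1']; exact r1) (by rw [← e1']; exact r2) (by rw [← e2']; exact hx)
      rw [e1', h, ← e2']
      exact ihx

/-- **(G3) for the cap, pole = the bottom pole `(0, -1)`** -/
theorem rcd111_G3_cap (hL : 0 < L) (hb : 0 < b) (h0 : rcy162Row L 0 ⊆ J) (hJ : J ⊆ (rci69Cap L 0 b).V) (hlow : ∀ v ∈ J, v.2 < b)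
    (hc : Rcs127Conn (rcs127Sw (rci69Cap L 0 b)) (rcy162Row L 0) J) : Rcs127G3 (rci69Cap L 0 b) J (0, -1) := by
  have hL' : (0 : ℤ) < L := by exact_mod_cast hL
  refine ⟨?_, fun d hd e he hJe => ?_⟩
  · -- the pole is a face of the pair `((0,0), false)`
    have hE0 : (((0, 0), false) : (ℤ × ℤ) × Bool) ∈ (rci69Cap L 0 b).E := rci69_mem_capE.2 ⟨⟨le_refl (0 : ℤ), hL'⟩, le_refl (0 : ℤ), hb⟩
    have hE : (((0, 0), false) : (ℤ × ℤ) × Bool) ∈ (rcs127Sw (rci69Cap L 0 b)).E := hE0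
    have h000 : ((0, 0) : ℤ × ℤ) ∈ J := h0 (rcy162_mem_row.2 ⟨⟨le_refl (0 : ℤ), hL'⟩, rfl⟩)
    have h00 : (rcs127Sw (rci69Cap L 0 b)).f0 ((0, 0), false) ∈ J := h000
    have hp : (rcs127Sw (rci69Cap L 0 b)).p1 ((0, 0), false) = (0, -1) := by
      show rci69BotF 0 (rcy162Red L ((0 : ℤ), (0 : ℤ) - 1)) = _
      rw [rcp162_bot_pole (by rw [rcy162_red_snd])]
      rfl
    by_cases h1 : (rcs127Sw (rci69Cap L 0 b)).f1 ((0, 0), false) ∈ J
    · have hE1 : (((0, 0), false) : (ℤ × ℤ) × Bool) ∈ rcs127E1 (rcs127Sw (rci69Cap L 0 b)) J := rcs127_mem_E1.2 ⟨hE, h00, h1⟩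
      unfold rcs127V1
      exact Finset.mem_union_left _ (Finset.mem_union_right _ (Finset.mem_image.2 ⟨_, hE1, hp⟩))
    · exact rcs127_V0_sub_V1 (rcd111_mem_V0 hE (fun hh => h1 (hh.1 h00)) (Or.inr hp))
  · obtain ⟨r1, r2, r3⟩ := rci69_mem_capE.1 he
    show d e.1 = d (0, -1)
    rcases hJe with h | h
    · exact rcd111_c3_all h0 hJ hlow hc hd h
    · rw [rcd111_c3_pair hJ hlow hd r1 r2 h]
      exact rcd111_c3_all h0 hJ hlow hc hd h

end g3cap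

/-- **connected in the cylinder ⟹ connected in the cap** (sets of sites under the top pole) -/
theorem rcd111_conn_cap {L H : ℕ} {a b : ℤ} {A₀ J : Finset (ℤ × ℤ)} (hlow : ∀ v ∈ J, v.2 < b)
    (hc : Rcs127Conn (rcs127Sw (rcy162Cyl L 0 H)) A₀ J) : Rcs127Conn (rcs127Sw (rci69Cap L a b)) A₀ J := by
  intro g hg
  obtain ⟨f, hf, hch⟩ := hc g hg
  refine ⟨f, hf, ReflTransGen.mono (fun x y hxy => ?_) _ _ hch⟩
  obtain ⟨hx, hy, e, he⟩ := hxy
  refine ⟨hx, hy, e, ?_⟩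
  rcases he with ⟨e1, e2⟩ | ⟨e1, e2⟩
  · left
    refine ⟨e1, ?_⟩
    have e2' : y = rcy162Red L (rswEnd e) := e2
    show y = rci69TopV b (rcy162Red L (rswEnd e))
    rw [← e2', rcp162_top_in (by have := hlow y hy; omega)]
  · right
    refine ⟨e1, ?_⟩
    have e2' : x = rcy162Red L (rswEnd e) := e2
    show x = rci69TopV b (rcy162Red L (rswEnd e))
    rw [← e2', rcp162_top_in (by have := hlow x hx; omega)]

/-- a set of sites of the cylinder under the row `b` is a set of sites of the cap -/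
theorem rcd111_sub_capV {L H : ℕ} {b : ℤ} {J : Finset (ℤ × ℤ)} (hJ : J ⊆ (rcy162Cyl L 0 H).V) (hlow : ∀ v ∈ J, v.2 < b) : J ⊆ (rci69Cap L 0 b).V := by
  intro v hv
  obtain ⟨r1, r2, _⟩ := rcy162_mem_cylV.1 (hJ hv)
  exact rci69_mem_capV.2 (Or.inl ⟨r1, r2, hlow v hv⟩)

/-- **(G3) for the cap from the hypotheses of `Rcs127PerJc`** -/
theorem rcd111_G3_cap' {L H : ℕ} {b : ℤ} {J : Finset (ℤ × ℤ)} (hL : 0 < L) (hb : 0 < b) (h0 : rcy162Row L 0 ⊆ J) (hJ : J ⊆ (rcy162Cyl L 0 H).V)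
    (hlow : ∀ v ∈ J, v.2 < b) (hc : Rcs127Conn (rcs127Sw (rcy162Cyl L 0 H)) (rcy162Row L 0) J) : Rcs127G3 (rci69Cap L 0 b) J (0, -1) :=
  rcd111_G3_cap hL hb h0 (rcd111_sub_capV hJ hlow) hlow (rcd111_conn_cap hlow hc)

/-- the on-demand equation lemmas of the definitions of this file are generated HERE (RULES.md, rule 6) -/
theorem rcd111_eqns_cite : True := by
  have := @rcd111Sg.eq_1
  have := @Rcd111G.eq_1
  have := @rcd111Off.eq_1
  trivial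

end Claimed.Agent.R292
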