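import Claimed.Agent.R292.Rsw.CylInst69
import Claimed.Agent.R292.Rsw.CylDict111
import Claimed.Agent.R292.Rsw.CapSym162
/-!
# R292 / Rsw / Recov69 (69): FIELD `recov` of `Rct127Law` for the mixed cylinder law `rcy162Q` (c1_post 1), CLOSED for `1/2 ≤ t ≤ 1`

New file because of the import layer (needs `CylDict111` and `CapSym162`, which sit above `CylInst69`).   Prefix `rcv69_` / `Rcv69`.

* abstract: `rcv69_fld_sub` (field of a subsystem), `rcv69_out_sub` (the unexplored system of the search of 127 is an `Rcy162Sub`);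
* rows: `rcv69_rows`, `rcv69_mem_V2`, `rcv69_mem_E2`, `rcv69_fld_band`, `rcv69_ev_out`, `rcv69_ev_sup`;
* domination: `rcv69_dom_ev` (free law of the capped cylinder `rci69Cap` ≤ unexplored system with the plus rim; `rci69_dom` + `rci69_cap_fkg`);
* geometry: `rcv69_out_pin`, `rcv69_out_rim`, `rcv69_out_cap`, `rcv69_geo : Rcv69Geo L H a b`;
* one record `rcv69_per` (with `rcp162_half'` of 162), sum over the records `rcv69_recov` (`rcs127_search` of 127, `rcd111_rec_below_F`, `rcd111_adm` of 111);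
* exits: **`rcv69_recov_closed`**, **`rcv69_law`** (only `sym` remains).

## Note for a reader who wants the field `sym` (69, 22:58Z of the last day; at that hour proved nowhere)

**CLOSED at 23:45Z.**   The text at the end of this note was typed as the frame `Rsw/PerJ69.lean` (69) and its contracts were proved by 291, 127, 111, 162, 12, 31:
`rhp31_perJc` (`Rsw/RenHP31.lean`) = `rcf121_perJc` (`Rsw/CoreFrontier121.lean`) `: Rcs127PerJc t L H` for `1/2 ≤ t ≤ 1`, `0 < L`, no hypothesis; `sym` is `rcd111_sym_c` of it,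
so `rcv69_law` has no hypothesis left.   The note stays for the record.

`sym` is reduced (127, 111) to `Rcs127PerJc t L H`: in the unexplored system `P_J` of a search in the statuses of `d` (rim `d = +`, which is the FREE
boundary for `s`; row `H` pinned `s = +`) the high band is crossed or blocked by plus cells of `s` with probability `≥ 1/2`.   What is at hand:
ALT (`rcs127_alt_P`), the flips, eq. (3.5) on the minor (`rcs127_hat_outC`, hence T1 / T2 on `P_J` by `rci69_fkg_Pr`, `rci69_holley_Pr`),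
the Markov property and the domination across a cut (`rci69_markov`, `rci69_dom`), the self-duality of the cap (`rcp162_hom`, `rcp162_half`).
A ROAD WHICH FAILS: with `ν` the law of `P_J`, `R ⊂ P_J` the rows `a..H` symmetric about the high band and `C_a` the regular `d`-plus cut at the face row `a - 1`, one gets
`1 ≤ 2 ν(VP_s⁺) + 2 ν_D(Blk_d⁺)` and `ν_D(Blk_d⁺) ≤ ν_D(Blk_d⁺ | C_a) = ν_R(Blk_s⁺)`, but `ν_R(Blk_s⁺) = ν(Blk_s⁺ | C_a) ≤ ν(Blk_s⁺)` (an `s`-increasing event against a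
`d`-increasing cut) does not follow from T1 / T2: the joint weight satisfies the lattice condition neither in the order `(s, d)` nor in `(s, -d)`.
THE TEXT (typed one hour later, `Rsw/PerJ69.lean`): use the DOUBLED domain `R'' ⊇ P_J` between the rim of `J` (`d = +`) and its mirror image (`s = +`), which lies above the row `H` because
`2 H + k + m + 7 ≤ 2 κ`.   `R''` is self-dual, so ALT, the self-duality and T2 + flip (for the two minus terms) give `1 ≤ 2 ν''(VP_s⁺) + 2 ν''(Blk_s⁺)`;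
then only the `s`-increasing test is transferred: `ν_J = ν''( · | plus cut at the row H) ≥ ν''` by `rci69_dom` (T1 on `R''`).
The mirror must be an involution: the glide of `rcp162_hom` has square = the shift by one site, so one needs the half-turn `u ↦ (1 - u.1, ρ₀ - u.2)`.
-/

set_option autoImplicit false
set_option linter.unusedVariables false
set_option linter.unusedSectionVars false
set_option linter.unusedSimpArgs false
set_option linter.unnecessarySeqFocus false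
set_option linter.deprecated false

namespace Claimed.Agent.R292
open Claimed.Agent.R291 Claims Claims.C0468 Relation

/-- the field of a subsystem read inside = the field of the system, at the points which belong to the subsystem -/
theorem rcv69_fld_sub {L : ℕ} {Y Y' : Rcy162Sys} {C : Finset (ℤ × ℤ)} (hs : Rcy162Sub Y Y' C) (ω : RswCfg) {p : ℤ × ℤ}
    (hV : ∀ v, p = rtd111P v → rcy162Red L v ∈ Y'.V) (hE : ∀ e, p = rtd111E e → rcy162RedE L e ∈ Y'.E) :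
    rcy162Fld L Y' (rcy162In Y' ω) p = rcy162Fld L Y ω p := by
  classical
  rcases rtd111_cases p with ⟨v, rfl⟩ | ⟨f, rfl⟩ | ⟨e, rfl⟩
  · rw [rcy162_fld_P, rcy162_fld_P]
    have m' := hV v rfl
    have m := hs.sV m'
    unfold Rcy162Sys.sgV rcy162In
    simp only [m, m', Finset.mem_inter, and_true, if_true]
  · rw [rcy162_fld_F, rcy162_fld_F]
  · rw [rcy162_fld_E, rcy162_fld_E]
    have m' := hE e rfl
    have m := hs.sE m'
    unfold Rcy162Sys.sgE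
    simp only [m, m', rcy162_good_in hs _ ω m', if_true]

/-- the unexplored system is a subsystem of the system -/
theorem rcv69_out_sub {Z : Rcy162Sys} {A₀ J : Finset (ℤ × ℤ)} (hw : Z.WF) (h : Rcs127Adm Z A₀ J) :
    Rcy162Sub Z (rcs127Out Z J) (Z.V \ rcs127V1 Z J) where
  sV := by
    intro v hv
    rcases Finset.mem_union.1 hv with h1 | h1
    · exact (Finset.mem_sdiff.1 h1).1
    · exact rcs127_V0_sub hw h1
  sF := Finset.sdiff_subset
  sE := fun e he => (rcs127_mem_E2.1 he).1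
  sC := Finset.subset_union_left
  wf := by
    have c := rcs127_adm_cut hw h
    exact ⟨fun e he => (c.p2 e he).1, fun e he => (c.p2 e he).2.1, fun e he => (c.p2 e he).2.2.1, fun e he => (c.p2 e he).2.2.2⟩
  p0 := fun _ _ => rfl
  p1 := fun _ _ => rfl
  f0 := fun _ _ => rfl
  f1 := fun _ _ => rfl
  core := by
    intro e he hne
    have c := rcs127_adm_cut hw h
    have : e ∈ (rcs127E0 Z J ∪ rcs127E1 Z J) ∪ rcs127E2 Z J := by rw [c.E]; exact he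
    rcases Finset.mem_union.1 this with h1 | h1
    · rcases Finset.mem_union.1 h1 with h2 | h2
      · have := c.p0 e h2
        exact ⟨fun x => (Finset.mem_sdiff.1 x).2 (Finset.mem_inter.1 this.1).1, fun x => (Finset.mem_sdiff.1 x).2 (Finset.mem_inter.1 this.2).1⟩
      · have := c.p1 e h2
        exact ⟨fun x => (Finset.mem_sdiff.1 x).2 this.1, fun x => (Finset.mem_sdiff.1 x).2 this.2.1⟩
    · exact absurd h1 hne

theorem rcv69_in_eq (Z : Rcy162Sys) (J : Finset (ℤ × ℤ)) (ω : RswCfg) : rcy162In (rcs127Out Z J) ω = rcs127ROut Z J ω := rfl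

theorem rcv69_in_in (Y' : Rcy162Sys) (ω : RswCfg) : rcy162In Y' (rcy162In Y' ω) = rcy162In Y' ω := by
  unfold rcy162In
  simp only [Finset.inter_assoc, Finset.inter_self]

section geo

variable {L H : ℕ} {J : Finset (ℤ × ℤ)} {d : ℤ}

/-- an endpoint of an edge pair of the cylinder is at most one row above each of its faces -/
theorem rcv69_rows (a b : ℤ) (e : (ℤ × ℤ) × Bool) :
    (((rcy162Cyl L a b).p0 e).2 ≤ ((rcy162Cyl L a b).f0 e).2 + 1 ∧ ((rcy162Cyl L a b).p1 e).2 ≤ ((rcy162Cyl L a b).f0 e).2 + 1) ∧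
    (((rcy162Cyl L a b).p0 e).2 ≤ ((rcy162Cyl L a b).f1 e).2 + 1 ∧ ((rcy162Cyl L a b).p1 e).2 ≤ ((rcy162Cyl L a b).f1 e).2 + 1) := by
  obtain ⟨⟨x, y⟩, bb⟩ := e
  rw [rcd111_cyl_p0, rcd111_cyl_p1, rcd111_cyl_f0, rcd111_cyl_f1, rcy162_red_snd, rcy162_red_snd]
  cases bb
  · rw [rtd111_end_f, rtd111_co_f]; simp only; omega
  · rw [rtd111_end_t, rtd111_co_t]; simp only; omega

/-- the sites above the record belong to the unexplored system -/
theorem rcv69_mem_V2 (hL : 0 < L) (hlow : ∀ g ∈ J, 2 * g.2 + 1 < d) {v : ℤ × ℤ} (h1 : d < 2 * v.2) (h0 : 0 ≤ v.2) (h2 : v.2 ≤ H) :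
    rcy162Red L v ∈ rcs127V2 (rcy162Cyl L 0 H) J := by
  have hV : rcy162Red L v ∈ (rcy162Cyl L 0 H).V := rcy162_mem_cylV.2 ⟨rcy162_red_range hL _, h0, h2⟩
  by_cases hv : rcy162Red L v ∈ rcs127V1 (rcy162Cyl L 0 H) J
  · rcases rcd111_mem_V1 hv with h | ⟨e, he, hp⟩
    · exact rcs127_V0_sub_V2 h
    · exfalso
      have hf := hlow _ (rcs127_mem_E1.1 he).2.1
      have hr := (rcv69_rows (L := L) 0 H e).1
      have hs : (rcy162Red L v).2 = v.2 := rfl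
      rcases hp with hp | hp
      · rw [hp] at hr; omega
      · rw [hp] at hr; omega
  · exact Finset.mem_union.2 (Or.inl (Finset.mem_sdiff.2 ⟨hV, hv⟩))

/-- the edge pairs above the record belong to the unexplored system -/
theorem rcv69_mem_E2 (hL : 0 < L) (hd : 0 ≤ d) (hlow : ∀ g ∈ J, 2 * g.2 + 1 < d) {e : (ℤ × ℤ) × Bool} (h1 : d + 2 ≤ (rtd111E e).2)
    (h2 : (rtd111E e).2 ≤ 2 * (H : ℤ) - 1) : rcy162RedE L e ∈ rcs127E2 (rcy162Cyl L 0 H) J := by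
  obtain ⟨⟨x, y⟩, bb⟩ := e
  rw [rcs127_mem_E2, rcd111_cyl_f0, rcd111_cyl_f1]
  cases bb
  · rw [rtd111_E_f] at h1 h2
    simp only at h1 h2
    refine ⟨rcy162_mem_cylE.2 ⟨rcy162_red_range hL _, Or.inl ⟨rfl, by show 0 < y; omega, by show y < H; omega⟩⟩, fun h => ?_, fun h => ?_⟩
    · have := hlow _ h
      have e1 : (rcy162RedE L ((x, y), false)).1.2 = y := rfl
      omega
    · have := hlow _ h
      have e1 : (rcy162Red L (rswCo (rcy162RedE L ((x, y), false)))).2 = y - 1 := rfl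
      omega
  · rw [rtd111_E_t] at h1 h2
    simp only at h1 h2
    refine ⟨rcy162_mem_cylE.2 ⟨rcy162_red_range hL _, Or.inr ⟨rfl, by show 0 ≤ y; omega, by show y < H; omega⟩⟩, fun h => ?_, fun h => ?_⟩
    · have := hlow _ h
      have e1 : (rcy162RedE L ((x, y), true)).1.2 = y := rfl
      omega
    · have := hlow _ h
      have e1 : (rcy162Red L (rswCo (rcy162RedE L ((x, y), true)))).2 = y := rfl
      omega

/-- **band lemma**: above the record the field of any system `Y ⊇ Out` is the field of `Out` read inside -/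
theorem rcv69_fld_band (hL : 0 < L) (hd : 0 ≤ d) (hlow : ∀ g ∈ J, 2 * g.2 + 1 < d) {Y : Rcy162Sys} {C : Finset (ℤ × ℤ)}
    (hs : Rcy162Sub Y (rcs127Out (rcy162Cyl L 0 H) J) C) (ω : RswCfg) {p : ℤ × ℤ} (h1 : d + 2 ≤ p.2) (h2 : p.2 ≤ 2 * (H : ℤ) - 1) :
    rcy162Fld L (rcs127Out (rcy162Cyl L 0 H) J) (rcs127ROut (rcy162Cyl L 0 H) J ω) p = rcy162Fld L Y ω p := by
  refine rcv69_fld_sub hs ω (fun v hv => ?_) (fun e he => ?_)
  · subst hv
    simp only [rtd111P] at h1 h2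
    exact rcv69_mem_V2 hL hlow (by omega) (by omega) (by omega)
  · subst he
    exact rcv69_mem_E2 hL hd hlow h1 h2

end geo

section per

variable {L H : ℕ} {J : Finset (ℤ × ℤ)} {d : ℤ}

/-- reading the unexplored part does not change an event of the band above the record -/
theorem rcv69_ev_out (hL : 0 < L) (hd : 0 ≤ d) (h0J : rcy162Row L 0 ⊆ J) (hJ : J ⊆ (rcy162Cyl L 0 H).Fc) (hlow : ∀ g ∈ J, 2 * g.2 + 1 < d)
    {c' d' : ℤ} (hc' : d + 2 ≤ c') (hd' : d' ≤ 2 * (H : ℤ) - 1) {E : Set CyF} (hE : CySup c' d' E) (ω : RswCfg) :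
    rcy162Fld L (rcy162Cyl L 0 H) (rcs127ROut (rcy162Cyl L 0 H) J ω) ∈ E ↔ rcy162Fld L (rcy162Cyl L 0 H) ω ∈ E := by
  have hs := rcv69_out_sub (rcy162_cyl_wf hL 0 H) (rcd111_adm hL h0J hJ)
  have e1 : rcs127ROut (rcy162Cyl L 0 H) J (rcs127ROut (rcy162Cyl L 0 H) J ω) = rcs127ROut (rcy162Cyl L 0 H) J ω :=
    rcv69_in_in (rcs127Out (rcy162Cyl L 0 H) J) ω
  refine hE _ _ fun u hu1 hu2 => ?_
  rw [← rcv69_fld_band hL hd hlow hs _ (by omega) (by omega), ← rcv69_fld_band hL hd hlow hs ω (by omega) (by omega), e1]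

/-- an event of the band above the record, read in a system which contains the unexplored system -/
theorem rcv69_ev_sup (hL : 0 < L) (hd : 0 ≤ d) (h0J : rcy162Row L 0 ⊆ J) (hJ : J ⊆ (rcy162Cyl L 0 H).Fc) (hlow : ∀ g ∈ J, 2 * g.2 + 1 < d)
    {Y : Rcy162Sys} {C : Finset (ℤ × ℤ)} (hsub : Rcy162Sub Y (rcs127Out (rcy162Cyl L 0 H) J) C)
    {c' d' : ℤ} (hc' : d + 2 ≤ c') (hd' : d' ≤ 2 * (H : ℤ) - 1) {E : Set CyF} (hE : CySup c' d' E) (ω : RswCfg) :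
    rcy162Fld L (rcy162Cyl L 0 H) (rcy162In (rcs127Out (rcy162Cyl L 0 H) J) ω) ∈ E ↔ rcy162Fld L Y ω ∈ E := by
  have hs := rcv69_out_sub (rcy162_cyl_wf hL 0 H) (rcd111_adm hL h0J hJ)
  have e1 : rcs127ROut (rcy162Cyl L 0 H) J (rcs127ROut (rcy162Cyl L 0 H) J ω) = rcs127ROut (rcy162Cyl L 0 H) J ω :=
    rcv69_in_in (rcs127Out (rcy162Cyl L 0 H) J) ω
  refine hE _ _ fun u hu1 hu2 => ?_
  rw [rcv69_in_eq, ← rcv69_fld_band hL hd hlow hs _ (by omega) (by omega), ← rcv69_fld_band hL hd hlow hsub ω (by omega) (by omega), e1]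

/-- **domination of the free law of the capped cylinder by the unexplored system with the plus rim**, for one increasing event of the band -/
theorem rcv69_dom_ev {t : ℝ} (h0 : 0 < t) (h1 : t ≤ 1) (hL : 0 < L) (hd : 0 ≤ d) (h0J : rcy162Row L 0 ⊆ J) (hJ : J ⊆ (rcy162Cyl L 0 H).Fc)
    (hlow : ∀ g ∈ J, 2 * g.2 + 1 < d) {a b : ℤ} (hab : a < b) {C : Finset (ℤ × ℤ)}
    (hsub : Rcy162Sub (rci69Cap L a b) (rcs127Out (rcy162Cyl L 0 H) J) C)
    (hrim : ∀ e ∈ (rci69Cap L a b).E \ (rcs127Out (rcy162Cyl L 0 H) J).E,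
      ((rci69Cap L a b).f0 e ∈ (rcs127Out (rcy162Cyl L 0 H) J).Fc ∨ (rci69Cap L a b).f1 e ∈ (rcs127Out (rcy162Cyl L 0 H) J).Fc) →
      (rci69Cap L a b).p0 e ∈ (rcs127Out (rcy162Cyl L 0 H) J).V \ C ∧ (rci69Cap L a b).p1 e ∈ (rcs127Out (rcy162Cyl L 0 H) J).V \ C)
    {c' d' : ℤ} (hc' : d + 2 ≤ c') (hd' : d' ≤ 2 * (H : ℤ) - 1) {E : Set CyF} (hE : CySup c' d' E) (hI : CyInc E) :
    rcp162Nu t L a b E ≤ (rcs127Out (rcy162Cyl L 0 H) J).Pr t (Rcy162Pin (rcs127Out (rcy162Cyl L 0 H) J) C (rcs127Out (rcy162Cyl L 0 H) J).V)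
      (fun ω => rcy162Fld L (rcy162Cyl L 0 H) ω ∈ E) := by
  have key := fun ω => rcv69_ev_sup hL hd h0J hJ hlow hsub hc' hd' hE ω
  have hdom := rci69_dom hsub h0 h1 (K := fun _ => True) (fun _ => Iff.rfl)
    (fun A A' hA hA' => rci69_cap_fkg h0 h1 hL hab hA hA') hrim (rci69_cap_wf hL a b) trivial
    (B := fun ω => rcy162Fld L (rcy162Cyl L 0 H) ω ∈ E)
    (fun ω ω' hle hω => (key ω').2 (hI _ _ (rcy162_fld_mono L hle) ((key ω).1 hω)))
  refine le_trans (le_of_eq ?_) hdom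
  unfold rcp162Nu
  exact rcy162_P_congr _ _ t fun ω _ _ => (key ω).symm

end per

/-- the core of the unexplored system inside the capped cylinder -/
noncomputable def rcv69C (L H : ℕ) (J : Finset (ℤ × ℤ)) : Finset (ℤ × ℤ) :=
  ((rcy162Cyl L 0 H).V \ rcs127V1 (rcy162Cyl L 0 H) J) \ rcy162Row L H

/-- **the geometry of the unexplored system inside the capped cylinder** (G-SUB, G-RIM, G-PIN) -/
def Rcv69Geo (L H : ℕ) (a b : ℤ) : Prop :=
  ∀ J : Finset (ℤ × ℤ), rcy162Row L 0 ⊆ J → J ⊆ (rcy162Cyl L 0 H).Fc → (∀ g ∈ J, g.2 + 2 ≤ H) →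
    Rcy162Sub (rci69Cap L a b) (rcs127Out (rcy162Cyl L 0 H) J) (rcv69C L H J) ∧
    (∀ e ∈ (rci69Cap L a b).E \ (rcs127Out (rcy162Cyl L 0 H) J).E,
      ((rci69Cap L a b).f0 e ∈ (rcs127Out (rcy162Cyl L 0 H) J).Fc ∨ (rci69Cap L a b).f1 e ∈ (rcs127Out (rcy162Cyl L 0 H) J).Fc) →
      (rci69Cap L a b).p0 e ∈ (rcs127Out (rcy162Cyl L 0 H) J).V \ rcv69C L H J ∧
        (rci69Cap L a b).p1 e ∈ (rcs127Out (rcy162Cyl L 0 H) J).V \ rcv69C L H J) ∧
    (rcs127Out (rcy162Cyl L 0 H) J).V \ rcv69C L H J = rcs127V0 (rcy162Cyl L 0 H) J ∪ rcy162Row L H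

section fin

variable {L H : ℕ} {J : Finset (ℤ × ℤ)} {d : ℤ}

/-- the bottom row belongs to the explored part -/
theorem rcv69_row0_V1 (hL : 0 < L) (hH : 0 < H) (h0J : rcy162Row L 0 ⊆ J) : rcy162Row L 0 ⊆ rcs127V1 (rcy162Cyl L 0 H) J := by
  intro v hv
  obtain ⟨r1, r2⟩ := rcy162_mem_row.1 hv
  have hH' : (0 : ℤ) < H := by exact_mod_cast hH
  have he : (v, true) ∈ rcs127E1 (rcy162Cyl L 0 H) J := by
    rw [rcs127_mem_E1, rcd111_cyl_f0, rcd111_cyl_f1]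
    refine ⟨rcy162_mem_cylE.2 ⟨r1, Or.inr ⟨rfl, by show 0 ≤ v.2; omega, by show v.2 < H; omega⟩⟩, h0J hv, h0J ?_⟩
    exact rcy162_mem_row.2 ⟨rcy162_red_range hL _, by obtain ⟨x, y⟩ := v; exact r2⟩
  exact Finset.mem_union.2 (Or.inl (Finset.mem_union.2 (Or.inl (Finset.mem_image.2 ⟨_, he, rfl⟩))))

/-- the top row belongs to the unexplored part -/
theorem rcv69_rowH_V2 (hL : 0 < L) (hlow : ∀ g ∈ J, 2 * g.2 + 1 < d) (hdH : d < 2 * (H : ℤ)) : rcy162Row L H ⊆ rcs127V2 (rcy162Cyl L 0 H) J := by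
  intro v hv
  obtain ⟨r1, r2⟩ := rcy162_mem_row.1 hv
  have := rcv69_mem_V2 (H := H) hL hlow (v := v) (by omega) (by omega) (by omega)
  rwa [rcy162_red_of_range r1.1 r1.2] at this

/-- the mixed boundary condition splits along the record -/
theorem rcv69_mix_split (hL : 0 < L) (hH : 0 < H) (h0J : rcy162Row L 0 ⊆ J) (hlow : ∀ g ∈ J, 2 * g.2 + 1 < d) (hdH : d < 2 * (H : ℤ)) (ω : RswCfg) :
    Rcy162Mix L 0 H ω ↔ (∀ v ∈ rcy162Row L 0, v ∉ (rcs127RIn (rcy162Cyl L 0 H) J ω).S) ∧ rcy162Row L H ⊆ (rcs127ROut (rcy162Cyl L 0 H) J ω).S := by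
  have a1 := rcv69_row0_V1 hL hH h0J
  have a2 := rcv69_rowH_V2 hL hlow hdH
  have e1 : (rcs127RIn (rcy162Cyl L 0 H) J ω).S = ω.S ∩ rcs127V1 (rcy162Cyl L 0 H) J := rfl
  have e2 : (rcs127ROut (rcy162Cyl L 0 H) J ω).S = ω.S ∩ rcs127V2 (rcy162Cyl L 0 H) J := rfl
  rw [e1, e2]
  unfold Rcy162Mix
  constructor
  · rintro ⟨x, y⟩
    exact ⟨fun v hv hh => x v hv (Finset.mem_inter.1 hh).1, fun v hv => Finset.mem_inter.2 ⟨y hv, a2 hv⟩⟩
  · rintro ⟨x, y⟩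
    exact ⟨fun v hv hh => x v hv (Finset.mem_inter.2 ⟨hh, a1 hv⟩), fun v hv => (Finset.mem_inter.1 (y hv)).1⟩

end fin

section geo2

variable {L H : ℕ} {J : Finset (ℤ × ℤ)} {a b : ℤ}

/-- (G-PIN) the rim of the unexplored system -/
theorem rcv69_out_pin (hL : 0 < L) (hlow : ∀ g ∈ J, g.2 + 2 ≤ H) :
    (rcs127Out (rcy162Cyl L 0 H) J).V \ rcv69C L H J = rcs127V0 (rcy162Cyl L 0 H) J ∪ rcy162Row L H := by
  have hV : (rcs127Out (rcy162Cyl L 0 H) J).V = ((rcy162Cyl L 0 H).V \ rcs127V1 (rcy162Cyl L 0 H) J) ∪ rcs127V0 (rcy162Cyl L 0 H) J := rfl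
  have hR := rcv69_rowH_V2 (J := J) (H := H) (d := 2 * (H : ℤ) - 1) hL (fun g hg => by have := hlow g hg; omega) (by omega)
  ext v
  unfold rcv69C
  rw [Finset.mem_sdiff, Finset.mem_union, Finset.mem_sdiff]
  constructor
  · rintro ⟨h1, h2⟩
    rw [hV] at h1
    rcases Finset.mem_union.1 h1 with h | h
    · by_cases hr : v ∈ rcy162Row L H
      · exact Or.inr hr
      · exact absurd ⟨h, hr⟩ h2
    · exact Or.inl h
  · rintro (h | h)
    · exact ⟨rcs127_V0_sub_V2 h, fun x => (Finset.mem_sdiff.1 x.1).2 (rcs127_V0_sub_V1 h)⟩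
    · exact ⟨hR h, fun x => x.2 h⟩

theorem rcv69_top_of {b : ℤ} {v : ℤ × ℤ} (h : v.2 ≠ b) : rci69TopV b v = v := by unfold rci69TopV; rw [if_neg h]

theorem rcv69_bot_of {a : ℤ} {v : ℤ × ℤ} (h : v.2 ≠ a - 1) : rci69BotF a v = v := by unfold rci69BotF; rw [if_neg h]

theorem rcv69_bot_snd (a : ℤ) (v : ℤ × ℤ) : (rci69BotF a v).2 = v.2 := by
  unfold rci69BotF
  split_ifs with h
  · exact h.symm
  · rfl

/-- on the edge pairs of the cylinder the capped cylinder has the same incidences -/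
theorem rcv69_cap_eq (ha : a ≤ 0) (hb : (H : ℤ) < b) {e : (ℤ × ℤ) × Bool} (he : e ∈ (rcy162Cyl L 0 H).E) :
    (rci69Cap L a b).p1 e = (rcy162Cyl L 0 H).p1 e ∧ (rci69Cap L a b).f1 e = (rcy162Cyl L 0 H).f1 e := by
  obtain ⟨⟨x, y⟩, bb⟩ := e
  obtain ⟨_, h⟩ := rcy162_mem_cylE.1 he
  simp only at h
  constructor
  · show rci69TopV b (rcy162Red L (rswEnd ((x, y), bb))) = rcy162Red L (rswEnd ((x, y), bb))
    apply rcv69_top_of
    rw [rcy162_red_snd]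
    rcases h with ⟨rfl, h⟩ | ⟨rfl, h⟩
    · rw [rtd111_end_f]; simp only; omega
    · rw [rtd111_end_t]; simp only; omega
  · show rci69BotF a (rcy162Red L (rswCo ((x, y), bb))) = rcy162Red L (rswCo ((x, y), bb))
    apply rcv69_bot_of
    rw [rcy162_red_snd]
    rcases h with ⟨rfl, h⟩ | ⟨rfl, h⟩
    · rw [rtd111_co_f]; simp only; omega
    · rw [rtd111_co_t]; simp only; omega

/-- (G-RIM) the pairs of the cut end on the rim -/
theorem rcv69_out_rim (hL : 0 < L) (ha : a ≤ 0) (hb : (H : ℤ) < b) (h0J : rcy162Row L 0 ⊆ J) (hlow : ∀ g ∈ J, g.2 + 2 ≤ H) :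
    ∀ e ∈ (rci69Cap L a b).E \ (rcs127Out (rcy162Cyl L 0 H) J).E,
      ((rci69Cap L a b).f0 e ∈ (rcs127Out (rcy162Cyl L 0 H) J).Fc ∨ (rci69Cap L a b).f1 e ∈ (rcs127Out (rcy162Cyl L 0 H) J).Fc) →
      (rci69Cap L a b).p0 e ∈ (rcs127Out (rcy162Cyl L 0 H) J).V \ rcv69C L H J ∧
        (rci69Cap L a b).p1 e ∈ (rcs127Out (rcy162Cyl L 0 H) J).V \ rcv69C L H J := by
  intro e he hf
  rw [rcv69_out_pin hL hlow]
  obtain ⟨heY, heN⟩ := Finset.mem_sdiff.1 he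
  have hFc : ∀ f, f ∈ (rcs127Out (rcy162Cyl L 0 H) J).Fc ↔ f ∈ (rcy162Cyl L 0 H).Fc ∧ f ∉ J := fun f => Finset.mem_sdiff
  have heN' : e ∉ rcs127E2 (rcy162Cyl L 0 H) J := heN
  by_cases heZ : e ∈ (rcy162Cyl L 0 H).E
  · obtain ⟨q1, q2⟩ := rcv69_cap_eq (L := L) ha hb heZ
    have q0 : (rci69Cap L a b).f0 e = (rcy162Cyl L 0 H).f0 e := rfl
    have q3 : (rci69Cap L a b).p0 e = (rcy162Cyl L 0 H).p0 e := rfl
    rw [q0, q2, hFc, hFc] at hf
    rw [q1, q3]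
    have hE0 : e ∈ rcs127E0 (rcy162Cyl L 0 H) J := by
      rw [rcs127_mem_E0]
      refine ⟨heZ, fun hiff => heN' (rcs127_mem_E2.2 ⟨heZ, ?_⟩)⟩
      rcases hf with h | h
      · exact ⟨h.2, fun x => h.2 (hiff.2 x)⟩
      · exact ⟨fun x => h.2 (hiff.1 x), h.2⟩
    have := rcs127_p_V0 hE0
    exact ⟨Finset.mem_union.2 (Or.inl this.1), Finset.mem_union.2 (Or.inl this.2)⟩
  · obtain ⟨⟨x, y⟩, bb⟩ := e
    obtain ⟨r1, r2, r3⟩ := rci69_mem_capE.1 heY
    simp only at r1 r2 r3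
    have hnZ := fun h => heZ (rcy162_mem_cylE.2 ⟨r1, h⟩)
    simp only at hnZ
    have f0e : (rci69Cap L a b).f0 ((x, y), bb) = (x, y) := rfl
    have f1e : (rci69Cap L a b).f1 ((x, y), bb) = rci69BotF a (rcy162Red L (rswCo ((x, y), bb))) := rfl
    rw [f0e, f1e, hFc, hFc] at hf
    cases bb
    · have hy : y = H := by
        rcases hf with ⟨h, hJ⟩ | ⟨h, hJ⟩
        · obtain ⟨_, s1, s2⟩ := rcy162_mem_cylF.1 h
          simp only at s1 s2
          by_cases h0 : y = 0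
          · exact absurd (h0J (rcy162_mem_row.2 ⟨r1, h0⟩)) hJ
          · exact absurd (Or.inl ⟨rfl, by omega, s2⟩) hnZ
        · obtain ⟨_, s1, s2⟩ := rcy162_mem_cylF.1 h
          rw [rcv69_bot_snd, rcy162_red_snd, rtd111_co_f] at s1 s2
          simp only at s1 s2
          by_contra hne
          exact hnZ (Or.inl ⟨rfl, by omega, by omega⟩)
      subst hy
      refine ⟨Finset.mem_union.2 (Or.inr (rcy162_mem_row.2 ⟨r1, rfl⟩)), Finset.mem_union.2 (Or.inr ?_)⟩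
      show rci69TopV b (rcy162Red L (rswEnd ((x, (H : ℤ)), false))) ∈ _
      rw [rcv69_top_of (by rw [rcy162_red_snd, rtd111_end_f]; simp only; omega)]
      exact rcy162_mem_row.2 ⟨rcy162_red_range hL _, rfl⟩
    · exfalso
      rcases hf with ⟨h, hJ⟩ | ⟨h, hJ⟩
      · obtain ⟨_, s1, s2⟩ := rcy162_mem_cylF.1 h
        exact hnZ (Or.inr ⟨rfl, s1, s2⟩)
      · obtain ⟨_, s1, s2⟩ := rcy162_mem_cylF.1 h
        rw [rcv69_bot_snd, rcy162_red_snd, rtd111_co_t] at s1 s2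
        exact hnZ (Or.inr ⟨rfl, s1, s2⟩)


theorem rcv69_top_snd (b : ℤ) (v : ℤ × ℤ) : (rci69TopV b v).2 = v.2 := by
  unfold rci69TopV
  split_ifs with h
  · exact h.symm
  · rfl

/-- the sites of the rows `≤ 0` and `≥ H` are off the core -/
theorem rcv69_not_C (hL : 0 < L) (hH : 0 < H) (h0J : rcy162Row L 0 ⊆ J) {v : ℤ × ℤ} (h : v.2 ≤ 0 ∨ (H : ℤ) ≤ v.2) : v ∉ rcv69C L H J := by
  intro hv
  unfold rcv69C at hv
  obtain ⟨h1, h2⟩ := Finset.mem_sdiff.1 hv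
  obtain ⟨h3, h4⟩ := Finset.mem_sdiff.1 h1
  obtain ⟨r1, r2, r3⟩ := rcy162_mem_cylV.1 h3
  rcases h with h | h
  · exact h4 (rcv69_row0_V1 hL hH h0J (rcy162_mem_row.2 ⟨r1, by omega⟩))
  · exact h2 (rcy162_mem_row.2 ⟨r1, by omega⟩)

/-- (G-SUB) the unexplored system is a subsystem of the capped cylinder -/
theorem rcv69_out_cap (hL : 0 < L) (hH : 0 < H) (ha : a ≤ 0) (hb : (H : ℤ) < b) (h0J : rcy162Row L 0 ⊆ J) (hJ : J ⊆ (rcy162Cyl L 0 H).Fc) :
    Rcy162Sub (rci69Cap L a b) (rcs127Out (rcy162Cyl L 0 H) J) (rcv69C L H J) := by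
  have hs := rcv69_out_sub (rcy162_cyl_wf hL 0 H) (rcd111_adm hL h0J hJ)
  have hCs : rcv69C L H J ⊆ (rcy162Cyl L 0 H).V \ rcs127V1 (rcy162Cyl L 0 H) J := Finset.sdiff_subset
  refine ⟨fun v hv => ?_, fun f hf => ?_, fun e he => ?_, fun v hv => hs.sC (hCs hv), hs.wf, fun _ _ => rfl, fun e he => ?_, fun _ _ => rfl,
    fun e he => ?_, fun e he hne => ?_⟩
  · obtain ⟨r1, r2, r3⟩ := rcy162_mem_cylV.1 (hs.sV hv)
    exact rci69_mem_capV.2 (Or.inl ⟨r1, by omega, by omega⟩)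
  · obtain ⟨r1, r2, r3⟩ := rcy162_mem_cylF.1 (hs.sF hf)
    exact rci69_mem_capF.2 (Or.inl ⟨r1, by omega, by omega⟩)
  · obtain ⟨r1, r2⟩ := rcy162_mem_cylE.1 (hs.sE he)
    exact rci69_mem_capE.2 ⟨r1, by omega, by omega⟩
  · exact (rcv69_cap_eq (L := L) ha hb (hs.sE he)).1.symm
  · exact (rcv69_cap_eq (L := L) ha hb (hs.sE he)).2.symm
  · by_cases heZ : e ∈ (rcy162Cyl L 0 H).E
    · obtain ⟨c0, c1⟩ := hs.core e heZ hne
      rw [(rcv69_cap_eq (L := L) ha hb heZ).1]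
      exact ⟨fun x => c0 (hCs x), fun x => c1 (hCs x)⟩
    · obtain ⟨⟨x, y⟩, bb⟩ := e
      obtain ⟨r1, r2, r3⟩ := rci69_mem_capE.1 he
      simp only at r1 r2 r3
      have hnZ := fun h => heZ (rcy162_mem_cylE.2 ⟨r1, h⟩)
      simp only at hnZ
      have p0e : (rci69Cap L a b).p0 ((x, y), bb) = (x, y) := rfl
      have p1e : (rci69Cap L a b).p1 ((x, y), bb) = rci69TopV b (rcy162Red L (rswEnd ((x, y), bb))) := rfl
      rw [p0e, p1e]
      cases bb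
      · have hy : y ≤ 0 ∨ (H : ℤ) ≤ y := by
          by_contra hh
          exact hnZ (Or.inl ⟨rfl, by omega, by omega⟩)
        exact ⟨rcv69_not_C hL hH h0J hy, rcv69_not_C hL hH h0J (by rw [rcv69_top_snd, rcy162_red_snd, rtd111_end_f]; exact hy)⟩
      · have hy : y < 0 ∨ (H : ℤ) ≤ y := by
          by_contra hh
          exact hnZ (Or.inr ⟨rfl, by omega, by omega⟩)
        refine ⟨rcv69_not_C hL hH h0J (by show y ≤ 0 ∨ (H : ℤ) ≤ y; omega), rcv69_not_C hL hH h0J ?_⟩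
        rw [rcv69_top_snd, rcy162_red_snd, rtd111_end_t]
        show y + 1 ≤ 0 ∨ (H : ℤ) ≤ y + 1
        omega

/-- **the geometry of the unexplored system inside the capped cylinder** -/
theorem rcv69_geo (hL : 0 < L) (hH : 0 < H) (ha : a ≤ 0) (hb : (H : ℤ) < b) : Rcv69Geo L H a b :=
  fun J h0J hJ hlow => ⟨rcv69_out_cap hL hH ha hb h0J hJ, rcv69_out_rim hL ha hb h0J hlow, rcv69_out_pin hL hlow⟩

end geo2

/-- the pins of the search = the all plus rim -/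
theorem rcv69_pin_iff {L H : ℕ} {J : Finset (ℤ × ℤ)}
    (hpin : (rcs127Out (rcy162Cyl L 0 H) J).V \ rcv69C L H J = rcs127V0 (rcy162Cyl L 0 H) J ∪ rcy162Row L H) (ω : RswCfg) :
    (Rcs127Pin (rcs127V0 (rcy162Cyl L 0 H) J) true ω ∧ rcy162Row L H ⊆ ω.S) ↔
      Rcy162Pin (rcs127Out (rcy162Cyl L 0 H) J) (rcv69C L H J) (rcs127Out (rcy162Cyl L 0 H) J).V ω := by
  unfold Rcy162Pin Rcs127Pin
  constructor
  · rintro ⟨x, y⟩ v hv
    refine ⟨fun _ => (Finset.mem_sdiff.1 hv).1, fun _ => ?_⟩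
    rw [hpin] at hv
    rcases Finset.mem_union.1 hv with h | h
    · exact (x v h).2 rfl
    · exact y h
  · intro x
    refine ⟨fun v hv => ⟨fun _ => rfl, fun _ => ?_⟩, fun v hv => ?_⟩
    · have hv' : v ∈ (rcs127Out (rcy162Cyl L 0 H) J).V \ rcv69C L H J := by rw [hpin]; exact Finset.mem_union.2 (Or.inl hv)
      exact (x v hv').2 (Finset.mem_sdiff.1 hv').1
    · have hv' : v ∈ (rcs127Out (rcy162Cyl L 0 H) J).V \ rcv69C L H J := by rw [hpin]; exact Finset.mem_union.2 (Or.inr hv)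
      exact (x v hv').2 (Finset.mem_sdiff.1 hv').1

/-- **one record**: in the unexplored system with the plus rim the band is crossed or blocked by plus with probability `≥ 1/2` -/
theorem rcv69_per {t : ℝ} (ht : 1 / 2 ≤ t) (h1 : t ≤ 1) {L H : ℕ} (hL : 0 < L) {a b : ℤ} (ha : a ≤ 0) (hb : (H : ℤ) < b) (hgeo : Rcv69Geo L H a b)
    {J : Finset (ℤ × ℤ)} {d κ m : ℤ} (hd : 0 ≤ d) (h0J : rcy162Row L 0 ⊆ J) (hJ : J ⊆ (rcy162Cyl L 0 H).Fc) (hlow : ∀ g ∈ J, 2 * g.2 + 1 < d)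
    (hdκ : d + 2 ≤ κ) (hm : 1 ≤ m) (hκ : κ + m - 1 ≤ 2 * (H : ℤ) - 4) (hsym : 2 * κ + m = 2 * (a + b)) :
    (rcs127Out (rcy162Cyl L 0 H) J).sum t (fun ω => Rcs127Pin (rcs127V0 (rcy162Cyl L 0 H) J) true ω ∧ rcy162Row L H ⊆ ω.S) (fun _ => 1) ≤
      2 * (rcs127Out (rcy162Cyl L 0 H) J).sum t (fun ω => Rcs127Pin (rcs127V0 (rcy162Cyl L 0 H) J) true ω ∧ rcy162Row L H ⊆ ω.S)
        (fun ω => rcy162Ind (fun ω => rcy162Fld L (rcy162Cyl L 0 H) ω ∈ cyVP 1 κ (κ + m - 1)) ω +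
          rcy162Ind (fun ω => rcy162Fld L (rcy162Cyl L 0 H) ω ∈ cyBlk 1 κ (κ + m - 1)) ω) := by
  have h0 : 0 < t := by linarith
  obtain ⟨hsub, hrim, hpin⟩ := hgeo J h0J hJ (fun g hg => by have := hlow g hg; omega)
  have half := rcp162_half' ht h1 hL (a := a) (b := b) hm (by omega) hsym
  have d1 := rcv69_dom_ev h0 h1 hL hd h0J hJ hlow (a := a) (b := b) (by omega) hsub hrim hdκ (by omega) (cy_sup_VP 1 κ (κ + m - 1)) (cy_inc_VP _ _)
  have d2 := rcv69_dom_ev h0 h1 hL hd h0J hJ hlow (a := a) (b := b) (by omega) hsub hrim hdκ (by omega) (cy_sup_Blk 1 κ (κ + m - 1)) (cy_inc_Blk _ _)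
  rw [rcy162_sum_congr_K _ t (fun ω _ => rcv69_pin_iff hpin ω), rcy162_sum_congr_K _ t (fun ω _ => rcv69_pin_iff hpin ω), rcy162_sum_add]
  have hZ : 0 < (rcs127Out (rcy162Cyl L 0 H) J).sum t (Rcy162Pin (rcs127Out (rcy162Cyl L 0 H) J) (rcv69C L H J) (rcs127Out (rcy162Cyl L 0 H) J).V) (fun _ => 1) :=
    rcy162_Z_pos _ _ h0.le h1 (rcy162_feas_of _ h0 (S := (rcs127Out (rcy162Cyl L 0 H) J).V) (Finset.Subset.refl _)
      (fun v hv => ⟨fun _ => (Finset.mem_sdiff.1 hv).1, fun x => x⟩))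
  rw [rcy162_P_ind] at d1 d2
  have h3 := (half.trans (add_le_add d1 d2))
  rw [← add_div, le_div_iff₀ hZ] at h3
  linarith

open Classical in
/-- **FIELD `recov` of `Rct127Law` for the mixed cylinder law `rcy162Q`** (`1/2 ≤ t ≤ 1`), from the geometry `Rcv69Geo` -/
theorem rcv69_recov {t : ℝ} (ht : 1 / 2 ≤ t) (h1 : t ≤ 1) {L H : ℕ} (hL : 0 < L) (hH : 0 < H)
    (hgeo : ∀ a b : ℤ, a ≤ 0 → (H : ℤ) < b → Rcv69Geo L H a b)
    (c d κ m : ℤ) (hc : 3 ≤ c) (hcd : c ≤ d) (hdκ : d + 3 ≤ κ) (hm : 1 ≤ m) (hme : Even m) (hκ : κ + m - 1 ≤ ((2 * H : ℕ) : ℤ) - 4) :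
    rcy162Q t L H (cyBlk 1 c d) ≤ 2 * (rcy162Q t L H (cyVP 1 κ (κ + m - 1)) + rcy162Q t L H (cyBlk 1 κ (κ + m - 1))) := by
  have h0 : 0 < t := by linarith
  push_cast at hκ
  obtain ⟨k, hk⟩ := hme
  have hH' : (0 : ℤ) < H := by exact_mod_cast hH
  have hw := rcy162_cyl_wf hL 0 (H : ℤ)
  set 𝒥 : Finset (Finset (ℤ × ℤ)) := (rcy162Cyl L 0 H).Fc.powerset.filter (fun J => rcy162Row L 0 ⊆ J ∧ ∀ g ∈ J, 2 * g.2 + 1 < d) with h𝒥
  have mem𝒥 : ∀ J, J ∈ 𝒥 ↔ J ⊆ (rcy162Cyl L 0 H).Fc ∧ rcy162Row L 0 ⊆ J ∧ ∀ g ∈ J, 2 * g.2 + 1 < d := by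
    intro J
    rw [h𝒥, Finset.mem_filter, Finset.mem_powerset]
  have key := rcs127_search (Z := rcy162Cyl L 0 H) (A₀ := rcy162Row L 0) hw h0.le h1 true 𝒥
    (fun J hJ => rcd111_adm hL ((mem𝒥 J).1 hJ).2.1 ((mem𝒥 J).1 hJ).1)
    (Rcy162Mix L 0 H) (fun ω => ∀ v ∈ rcy162Row L 0, v ∉ ω.S) (fun ω => rcy162Row L H ⊆ ω.S)
    (fun J hJ ω _ => rcv69_mix_split hL hH ((mem𝒥 J).1 hJ).2.1 ((mem𝒥 J).1 hJ).2.2 (by omega) ω)
    (fun ω => rcy162Fld L (rcy162Cyl L 0 H) ω ∈ cyBlk 1 c d)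
    (fun ω _ _ hB => by
      rw [mem𝒥]
      refine ⟨fun g hg => (rcs127_mem_rec.1 hg).1, fun g hg => ?_, fun g hg => rcd111_rec_below_F (s := true) hL (by omega) hcd hB hg⟩
      obtain ⟨r1, r2⟩ := rcy162_mem_row.1 hg
      exact rcs127_mem_rec.2 ⟨rcy162_mem_cylF.2 ⟨r1, by omega, by omega⟩, g, hg, ReflTransGen.refl⟩)
    (fun ω => rcy162Ind (fun ω => rcy162Fld L (rcy162Cyl L 0 H) ω ∈ cyVP 1 κ (κ + m - 1)) ω +
          rcy162Ind (fun ω => rcy162Fld L (rcy162Cyl L 0 H) ω ∈ cyBlk 1 κ (κ + m - 1)) ω)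
    (fun ω => add_nonneg (rcy162_ind_nonneg _ _) (rcy162_ind_nonneg _ _))
    (fun J hJ ω => by
      obtain ⟨j1, j2, j3⟩ := (mem𝒥 J).1 hJ
      show rcy162Ind _ _ + rcy162Ind _ _ = _
      rw [rcy162_ind_iff (L := fun ω => rcy162Fld L (rcy162Cyl L 0 H) ω ∈ cyVP 1 κ (κ + m - 1))
          (L' := fun ω => rcy162Fld L (rcy162Cyl L 0 H) ω ∈ cyVP 1 κ (κ + m - 1)) (ω' := ω)
          (rcv69_ev_out hL (by omega : 0 ≤ d) j2 j1 j3 (by omega : d + 2 ≤ κ) (by omega) (cy_sup_VP 1 κ (κ + m - 1)) ω),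
        rcy162_ind_iff (L := fun ω => rcy162Fld L (rcy162Cyl L 0 H) ω ∈ cyBlk 1 κ (κ + m - 1))
          (L' := fun ω => rcy162Fld L (rcy162Cyl L 0 H) ω ∈ cyBlk 1 κ (κ + m - 1)) (ω' := ω)
          (rcv69_ev_out hL (by omega : 0 ≤ d) j2 j1 j3 (by omega : d + 2 ≤ κ) (by omega) (cy_sup_Blk 1 κ (κ + m - 1)) ω)])
    (c := 2) (by norm_num)
    (fun J hJ => by
      obtain ⟨j1, j2, j3⟩ := (mem𝒥 J).1 hJ
      exact rcv69_per ht h1 hL (a := κ + k - (2 * H + 5)) (b := 2 * H + 5) (by omega) (by omega) (hgeo _ _ (by omega) (by omega))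
        (by omega) j2 j1 j3 (by omega) hm hκ (by omega))
  rw [rcy162_sum_add] at key
  have hZ : 0 < (rcy162Cyl L 0 H).sum t (Rcy162Mix L 0 H) (fun _ => 1) := rcy162_Z_pos _ _ h0.le h1 (rcy162_mix_feas h0 L hH')
  show (rcy162Cyl L 0 H).sum t (Rcy162Mix L 0 H) (rcy162Ind _) / _ ≤ 2 * ((rcy162Cyl L 0 H).sum t (Rcy162Mix L 0 H) (rcy162Ind _) / _ +
    (rcy162Cyl L 0 H).sum t (Rcy162Mix L 0 H) (rcy162Ind _) / _)
  rw [← add_div, ← mul_div_assoc]
  exact div_le_div_of_nonneg_right key hZ.le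

/-- **FIELD `recov` of `Rct127Law` for `rcy162Q`, CLOSED** (`1/2 ≤ t ≤ 1`; c1_post 1) -/
theorem rcv69_recov_closed {t : ℝ} (ht : 1 / 2 ≤ t) (h1 : t ≤ 1) {L H : ℕ} (hL : 0 < L) (hH : 0 < H)
    (c d κ m : ℤ) (hc : 3 ≤ c) (hcd : c ≤ d) (hdκ : d + 3 ≤ κ) (hm : 1 ≤ m) (hme : Even m) (hκ : κ + m - 1 ≤ ((2 * H : ℕ) : ℤ) - 4) :
    rcy162Q t L H (cyBlk 1 c d) ≤ 2 * (rcy162Q t L H (cyVP 1 κ (κ + m - 1)) + rcy162Q t L H (cyBlk 1 κ (κ + m - 1))) :=
  rcv69_recov ht h1 hL hH (fun _ _ ha hb => rcv69_geo hL hH ha hb) c d κ m hc hcd hdκ hm hme hκ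

/-- **the law of the mixed cylinder: only `sym` remains** -/
theorem rcv69_law {t : ℝ} (ht : 1 / 2 ≤ t) (h1 : t ≤ 1) {L H : ℕ} (hL : 0 < L) (hH : 0 < H)
    (sym : ∀ (k m κ : ℤ), 1 ≤ m → Even m → 3 ≤ k → k + m + 3 ≤ κ → κ + m - 1 ≤ ((2 * H : ℕ) : ℤ) - 4 → ((2 * H : ℕ) : ℤ) + k + m + 7 ≤ 2 * κ →
      1 ≤ rcy162Q t L H (cyVP 1 k (k + m - 1)) + rcy162Q t L H (cyVP (-1) k (k + m - 1))
        + 4 * (rcy162Q t L H (cyVP 1 κ (κ + m - 1)) + rcy162Q t L H (cyBlk 1 κ (κ + m - 1)))) :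
    Rct127Law (2 * L) (2 * H) (fun _ _ => rcy162Q t L H) :=
  rci69_law2 (by linarith) h1 hL hH sym (rcv69_recov_closed ht h1 hL hH)

/-- the equation lemmas of the definitions of this file are generated HERE (RULES.md, rule 6) -/
theorem rcv69_eqns_cite : True := by
  have := @rcv69C.eq_1
  have := @Rcv69Geo.eq_1
  trivial

end Claimed.Agent.R292
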