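import Claimed.Agent.R292.Rsw.HolSys12
import Claimed.Agent.R292.Rsw.HpAsm189
import Claimed.Agent.R292.Rsw.HpTop109
import Claimed.Agent.R292.Rsw.HpDet31
import Claimed.Agent.R292.Rsw.Recov69

/-!
# Row 292 (S0540), Rsw/A5Top12 : R8 CORE, TOP OF BLOCK A5 (`RcRec t` of `CoreTop121`)      (owner helper12; prefix `a5t12`)      0 sorry

WHAT IS PROVED HERE (all the rest of A5 is on main, 0 sorry):
* `a5t12_cor : RnzLSS t → RnzCor t`   (B6 = 109's `rrt109_cord_plus` + `hol12_ord` + 189's flip)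
* `a5t12_hp : Hpd12Cut t → Rct127CylM Hpd12Adm (hpd12P t) → RnzHP t`   (B5 = S3 `hsy12_ord`, S4 `hpt109_top`, S5 `hdt31_det`, S6 `hpa189_hp`, S7 `hdt31_cyl`)
* **`a5t12_rec : Hpd12Cut t → Rct127CylM Hpd12Adm (hpd12P t) → RnzLSS t → RcRec t`**, `a5t12_rec_kit` (from the kit of `CylTop127`), `a5t12_law` (the field `law` of the kit from `sym`, `recov` on `rcy162Q`).
* v2 (22:35Z): (S2) `hpt109_cut_top` (109) and the field `recov` (69, `Recov69`) are on main:   **`a5t12_hp_closed : Rct127CylM Hpd12Adm (hpd12P t) → RnzHP t`**,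
  **`a5t12_rec_closed : Rct127CylM Hpd12Adm (hpd12P t) → RnzLSS t → RcRec t`**, **`a5t12_rec_kit_closed : Rct127Kit Hpd12Adm (hpd12P t) → RnzLSS t → RcRec t`**, `a5t12_law_sym` (field `law` from `sym` alone).   B5 and B6 have NO open input of their own.
OPEN INPUTS at v1 (contracts of OTHER blocks, hypotheses here; at v2 `Hpd12Cut t` and `recov` are proved): `Hpd12Cut t` (S2 of B5: the planar cut in the tall cylinder), the kit `Rct127Kit Hpd12Adm (hpd12P t)` (A4 fields `sym`, `recov`; A3 + A2 `rswl`; A1 `glue`), `RnzLSS t` (A1).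
-/

set_option autoImplicit false
set_option linter.unusedVariables false

namespace Claimed.Agent.R292

open Claims Claims.C0468 Claimed.Agent.R291

/-- **B6** from the contract with A1 -/
theorem a5t12_cor {t : ℝ} (h0 : 0 < t) (h1 : t ≤ 1) (hL : RnzLSS t) : RnzCor t :=
  rrs189_cor_of_plus (rrt109_cord_plus h0 h1 (Or.inl ⟨rfl, rfl⟩) hL.1 (hol12_ord h0 h1))
    (rrt109_cord_plus h0 h1 (Or.inr ⟨rfl, rfl⟩) hL.2 (hol12_ord h0 h1))

/-- **B5** from (S2) and (CYL) -/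
theorem a5t12_hp {t : ℝ} (h0 : 0 < t) (h1 : t ≤ 1) (hCut : Hpd12Cut t) (hCyl : Rct127CylM Hpd12Adm (hpd12P t)) : RnzHP t :=
  hpa189_hp h0 h1 hCut (hpt109_top h0 h1) (hsy12_ord h0 h1) hdt31_det (hdt31_cyl hCyl)

/-- **A5** -/
theorem a5t12_rec {t : ℝ} (ht1 : 1 / 2 ≤ t) (ht2 : t < 1) (hCut : Hpd12Cut t) (hCyl : Rct127CylM Hpd12Adm (hpd12P t)) (hL : RnzLSS t) : RcRec t :=
  rrs189_rec ht1 ht2 (a5t12_hp (by linarith) ht2.le hCut hCyl) (a5t12_cor (by linarith) ht2.le hL)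

/-- **A5 ∘ A4-TOP** -/
theorem a5t12_rec_kit {t : ℝ} (ht1 : 1 / 2 ≤ t) (ht2 : t < 1) (hCut : Hpd12Cut t) (hKit : Rct127Kit Hpd12Adm (hpd12P t)) (hL : RnzLSS t) : RcRec t :=
  a5t12_rec ht1 ht2 hCut (rct127_main_minus hKit (rct127_main hKit)) hL

/-- the field `law` of the kit for the family `hpd12P t`, from the two hard fields on `rcy162Q` -/
theorem a5t12_law {t : ℝ} (h0 : 0 < t) (h1 : t ≤ 1)
    (sym : ∀ (L H : ℕ) (k m κ : ℤ), 0 < L → 0 < H → 1 ≤ m → Even m → 3 ≤ k → k + m + 3 ≤ κ → κ + m - 1 ≤ ((2 * H : ℕ) : ℤ) - 4 →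
      ((2 * H : ℕ) : ℤ) + k + m + 7 ≤ 2 * κ →
      1 ≤ rcy162Q t L H (cyVP 1 k (k + m - 1)) + rcy162Q t L H (cyVP (-1) k (k + m - 1))
        + 4 * (rcy162Q t L H (cyVP 1 κ (κ + m - 1)) + rcy162Q t L H (cyBlk 1 κ (κ + m - 1))))
    (recov : ∀ (L H : ℕ) (c d κ m : ℤ), 0 < L → 0 < H → 3 ≤ c → c ≤ d → d + 3 ≤ κ → 1 ≤ m → Even m → κ + m - 1 ≤ ((2 * H : ℕ) : ℤ) - 4 →
      rcy162Q t L H (cyBlk 1 c d) ≤ 2 * (rcy162Q t L H (cyVP 1 κ (κ + m - 1)) + rcy162Q t L H (cyBlk 1 κ (κ + m - 1)))) :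
    ∀ L H : ℕ, Hpd12Adm L H → 20 ≤ H → H ≤ L → Rct127Law L H (hpd12P t L H) := by
  rintro L H ⟨⟨L', rfl⟩, ⟨H', rfl⟩⟩ h20 hHL
  have hH : 0 < H' := by omega
  have hL : 0 < L' := by omega
  have key := rci69_law2 h0 h1 hL hH (fun k m κ => sym L' H' k m κ hL hH) (fun c d κ m => recov L' H' c d κ m hL hH)
  have e1 : L' + L' = 2 * L' := by ring
  have e2 : H' + H' = 2 * H' := by ring
  have e3 : hpd12P t (2 * L') (2 * H') = fun _ _ => rcy162Q t L' H' := by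
    funext a b E
    unfold hpd12P
    rw [Nat.mul_div_cancel_left _ (by norm_num : 0 < 2), Nat.mul_div_cancel_left _ (by norm_num : 0 < 2)]
  rw [e1, e2, e3]
  exact key

/-! ## v2: (S2) and `recov` are proved -/

/-- **B5, CLOSED**: (HP) from (CYL) -/
theorem a5t12_hp_closed {t : ℝ} (h0 : 0 < t) (h1 : t ≤ 1) (hCyl : Rct127CylM Hpd12Adm (hpd12P t)) : RnzHP t :=
  a5t12_hp h0 h1 (hpt109_cut_top h0 h1) hCyl

/-- **A5, CLOSED**: `RcRec t` from (CYL) [A4] and (LSS) [A1] -/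
theorem a5t12_rec_closed {t : ℝ} (ht1 : 1 / 2 ≤ t) (ht2 : t < 1) (hCyl : Rct127CylM Hpd12Adm (hpd12P t)) (hL : RnzLSS t) : RcRec t :=
  a5t12_rec ht1 ht2 (hpt109_cut_top (by linarith) ht2.le) hCyl hL

/-- **A5 ∘ A4-TOP, CLOSED** -/
theorem a5t12_rec_kit_closed {t : ℝ} (ht1 : 1 / 2 ≤ t) (ht2 : t < 1) (hKit : Rct127Kit Hpd12Adm (hpd12P t)) (hL : RnzLSS t) : RcRec t :=
  a5t12_rec_kit ht1 ht2 (hpt109_cut_top (by linarith) ht2.le) hKit hL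

/-- the field `law` of the kit from `sym` alone -/
theorem a5t12_law_sym {t : ℝ} (ht : 1 / 2 ≤ t) (h1 : t ≤ 1)
    (sym : ∀ (L H : ℕ) (k m κ : ℤ), 0 < L → 0 < H → 1 ≤ m → Even m → 3 ≤ k → k + m + 3 ≤ κ → κ + m - 1 ≤ ((2 * H : ℕ) : ℤ) - 4 →
      ((2 * H : ℕ) : ℤ) + k + m + 7 ≤ 2 * κ →
      1 ≤ rcy162Q t L H (cyVP 1 k (k + m - 1)) + rcy162Q t L H (cyVP (-1) k (k + m - 1))
        + 4 * (rcy162Q t L H (cyVP 1 κ (κ + m - 1)) + rcy162Q t L H (cyBlk 1 κ (κ + m - 1)))) :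
    ∀ L H : ℕ, Hpd12Adm L H → 20 ≤ H → H ≤ L → Rct127Law L H (hpd12P t L H) :=
  a5t12_law (by linarith) h1 sym (fun L H c d κ m hL hH => rcv69_recov_closed ht h1 hL hH c d κ m)

end Claimed.Agent.R292
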