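import Claimed.Agent.R292.Rsw.Expl107
import Claimed.Agent.R292.Rsw.Cut91
import Claimed.Agent.R292.Model.Arm101
import Claimed.Agent.R292.Jordan.Arm197
import Claimed.Agent.R292.Jordan.Scale19
import Claimed.Agent.R292.Bridge.Rect89

/-!
# Row 292 (S0540), Rsw/Arch107 : THE ATTACHED ARM `exit_rsw_arm`      (unit RSW, head helper122; pen helper107; prefix `rsa107_` / `Rsa107`)

TEX 03-spatial, prop:circuits (2)+(3), eq:spatial-attached-arm, for the flat plus problem in a Jordan face set `F` whose wall reaches `rswBox z r`.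

**`rsa107_arm`** = the type of `exit_rsw_arm` (Exit/Arch, 281) WORD FOR WORD, from two records:
* `Arm101Circ t p n0`   (Model/Arm101) = the conclusion of `mdl1_circ_cond` (S1 CIRC-COND, prop:circuits (1), bulk, no pins);
* `Rsa107Fkg t`         positive association in the order (3.4), NO pins = `exit_mdl_cmp` at the empty prescription.

ROUTE ("exact completion", TEX l.330-345, then ONE use of positive association; no wall version of S1, no iteration with pins):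
`F⁺ = rswBox z M` so large that `F`, its neighbours and `rswBox z R` lie in it.
(1) `rsk_cut_comp` (91): `Σ_{F⁺} 1_cut(F) X(rskIn F ω) = P_F(X) Σ_{F⁺} 1_cut(F)`,   `X = 1[¬ RswSepW F ω (F ∩ Λ_r) (F \ Λ_R)]`.
(2) `ja7_arm_scale` (197) with `ω := rskIn F ω`, `ω' := ω`:   `X(rskIn F ω) ≤ 1 - 1[RswSep F⁺ true ω Λ_r (F⁺ \ Λ_{R-1})]`.
(3) the cut and the separation are increasing:   `Σ(1_cut (1 - 1_Sep)) Σ(1) ≤ Σ(1_cut) Σ(1 - 1_Sep)`.
(4) `arm101_arm` (101) in `F⁺`:   `P_{F⁺}(¬ Sep) ≤ C ((r+1)/(R-1))^α`.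
-/

set_option autoImplicit false

namespace Claimed.Agent.R292

open Claims Claims.C0468 Finset

/-- RECORD: positive association of the flat laws in the order (3.4), no pins (`exit_mdl_cmp` at the empty prescription) -/
def Rsa107Fkg (t : ℝ) : Prop :=
  ∀ F : Finset (ℤ × ℤ), RswJordan F → ∀ (b a : Bool) (X Y : RswCfg → ℝ), MdlInc a X → MdlInc a Y →
    rswSum t F b X * rswSum t F b Y ≤ rswSum t F b (fun _ => 1) * rswSum t F b (fun ω => X ω * Y ω)

theorem rsa107_eqns_cite : True := by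
  have := @Rsa107Fkg.eq_1
  trivial

/-! ## 1. Boxes -/

/-- a box is a Jordan face set -/
theorem rsa107_box_jordan (z : ℤ × ℤ) {n : ℕ} (hn : 1 ≤ n) : RswJordan (rswBox z n) := by
  have hx : z.1 - (n : ℤ) < z.1 + n := by omega
  have hy : z.2 - (n : ℤ) < z.2 + n := by omega
  have hreg := atb89_rect_region (δ := 1) one_pos (z.1 - n) (z.1 + n) (z.2 - n) (z.2 + n) hx hy
  have c1 : ((z.1 - (n : ℤ) : ℤ) : ℝ) < ((z.1 + (n : ℤ) : ℤ) : ℝ) := by exact_mod_cast hx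
  have c2 : ((z.2 - (n : ℤ) : ℤ) : ℝ) < ((z.2 + (n : ℤ) : ℤ) : ℝ) := by exact_mod_cast hy
  have a1 : 0 < ((1 : ℝ) * ((z.1 + (n : ℤ) : ℤ) : ℝ) - 1 * ((z.1 - (n : ℤ) : ℤ) : ℝ)) / 2 := by linarith
  have a2 : 0 < ((1 : ℝ) * ((z.2 + (n : ℤ) : ℤ) : ℝ) - 1 * ((z.2 - (n : ℤ) : ℤ) : ℝ)) / 2 := by linarith
  set c : ℝ × ℝ := (((1 : ℝ) * ((z.1 - (n : ℤ) : ℤ) : ℝ) + 1 * ((z.1 + (n : ℤ) : ℤ) : ℝ)) / 2,
    ((1 : ℝ) * ((z.2 - (n : ℤ) : ℤ) : ℝ) + 1 * ((z.2 + (n : ℤ) : ℤ) : ℝ)) / 2) with hc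
  refine ⟨atb89Curve _ c, atb89_curve_cont (atb89_rectG a1 a2) c, atb89_curve_inj (atb89_rectG a1 a2) c, ?_⟩
  rw [atb89_curve_range (atb89_rectG a1 a2)]
  exact congrArg frontier hreg.symm

/-- the layer of `Λ_{N+1}` lies off `Λ_N` -/
theorem rsa107_layer_off (z : ℤ × ℤ) (N : ℕ) {f : ℤ × ℤ} (hf : f ∈ rswLayer (rswBox z (N + 1))) : f ∉ rswBox z N := by
  intro hin
  obtain ⟨_, v, hv, hp⟩ := rsx_mem_layer.1 hf
  apply hp
  rw [ja7_mem_box] at hin
  simp only [Finset.mem_insert, Finset.mem_singleton] at hv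
  rcases hv with rfl | rfl | rfl | rfl <;>
  · simp only [ja7_mem_box]
    push_cast
    refine ⟨⟨⟨?_, ?_⟩, ?_, ?_⟩, ⟨⟨?_, ?_⟩, ?_, ?_⟩, ⟨⟨?_, ?_⟩, ?_, ?_⟩, ⟨?_, ?_⟩, ?_, ?_⟩ <;> omega

/-- a separation in `F⁺` blocks the box -/
theorem rsa107_block {Fp : Finset (ℤ × ℤ)} {z : ℤ × ℤ} {r N : ℕ} (hsub : rswBox z (N + 1) ⊆ Fp) {ω : RswCfg}
    (h : RswSep Fp true ω (rswBox z r) (Fp \ rswBox z N)) :
    RswSep (rswBox z (N + 1)) true ω (rswBox z r) (rswLayer (rswBox z (N + 1))) := by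
  intro f hf g hg hr
  refine h f hf g (Finset.mem_sdiff.2 ⟨hsub (rsx_layer_sub _ hg), rsa107_layer_off z N hg⟩) ?_
  exact Relation.ReflTransGen.mono (r := RswStep (rswBox z (N + 1)) true ω) (p := RswStep Fp true ω)
    (fun a b hs => ⟨hsub hs.1, hsub hs.2.1, hs.2.2⟩) _ _ hr

/-- a finite set of faces lies in a box -/
theorem rsa107_in_box (F : Finset (ℤ × ℤ)) (z : ℤ × ℤ) : ∃ M : ℕ, F ⊆ rswBox z M := by
  refine ⟨F.sup (fun f => (f.1 - z.1).natAbs + (f.2 - z.2).natAbs) + 1, fun f hf => ?_⟩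
  have h := Finset.le_sup (f := fun f : ℤ × ℤ => (f.1 - z.1).natAbs + (f.2 - z.2).natAbs) hf
  rw [ja7_mem_box]
  push_cast
  omega

/-- the two faces of an edge are neighbours -/
theorem rsa107_edge_box {z : ℤ × ℤ} {M : ℕ} {e : (ℤ × ℤ) × Bool} (h : e.1 ∈ rswBox z M ∨ rswCo e ∈ rswBox z M) :
    e.1 ∈ rswBox z (M + 1) ∧ rswCo e ∈ rswBox z (M + 1) := by
  obtain ⟨v, b⟩ := e
  cases b
  · simp only [rsx_co_false, ja7_mem_box] at h ⊢
    push_cast
    omega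
  · simp only [rsx_co_true, ja7_mem_box] at h ⊢
    push_cast
    omega

/-! ## 2. Increasing events -/

theorem rsa107_ind_eq (F : Finset (ℤ × ℤ)) (a : Bool) (ω : RswCfg) : rskInd F a ω = rsxInd (RswCut F a ω) := rfl

theorem rsa107_ind_mono {p q : Prop} (h : p → q) : rsxInd p ≤ rsxInd q := by
  by_cases hp : p
  · rw [rsx_ind_pos hp, rsx_ind_pos (h hp)]
  · rw [rsx_ind_neg hp]; exact rsx_ind_nonneg q

theorem rsa107_inc_cut (F : Finset (ℤ × ℤ)) : MdlInc true (rskInd F true) := by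
  intro ω ω' hle
  rw [rsa107_ind_eq, rsa107_ind_eq]
  exact rsa107_ind_mono fun h e he => hle.2.1 e (h e he)

theorem rsa107_inc_sep (Fp A B : Finset (ℤ × ℤ)) : MdlInc true (fun ω => rsxInd (RswSep Fp true ω A B)) := by
  intro ω ω' hle
  refine rsa107_ind_mono fun h f hf g hg hr => h f hf g hg ?_
  refine Relation.ReflTransGen.mono (r := RswStep Fp true ω') (p := RswStep Fp true ω) (fun a b hs => ?_) _ _ hr
  obtain ⟨h1, h2, e, he, hg⟩ := hs
  exact ⟨h1, h2, e, he, fun hh => hg (hle.2.1 e hh)⟩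

theorem rsa107_ind_not (p : Prop) : rsxInd (¬ p) = 1 - rsxInd p := by
  by_cases hp : p
  · rw [rsx_ind_pos hp, rsx_ind_neg (not_not.2 hp)]; ring
  · rw [rsx_ind_neg hp, rsx_ind_pos hp]; ring

/-! ## 3. The constant configuration -/

theorem rsa107_cst_mem (F : Finset (ℤ × ℤ)) (b : Bool) : rsxCst F b ∈ rsxCfgs F := by
  rw [rsx_mem_cfgs]
  refine ⟨?_, Finset.empty_subset _, Finset.Subset.refl _⟩
  unfold rsxCst
  cases b <;> simp

theorem rsa107_cst_pos {t : ℝ} (h0 : 0 < t) (F : Finset (ℤ × ℤ)) (b : Bool) : 0 < rswWt t F b (rsxCst F b) := by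
  have hbc : RswBc F b (rsxCst F b) := fun v hv _ => rsx_cst_S hv
  rw [rsx_wt_eq, rsx_ind_pos hbc, one_mul]
  refine Finset.prod_pos fun e he => ?_
  have he' := rsx_mem_int.1 he
  have e1 : e.1 ∈ (rsxCst F b).S ↔ rswEnd e ∈ (rsxCst F b).S := by
    rw [rsx_cst_S (rsx_end_corner1 (Or.inl he'.1)), rsx_cst_S (rsx_end_corner2 (Or.inl he'.1))]
  rw [rsx_fac_eq]
  unfold rsxFacP
  rw [if_pos (show e ∈ (rsxCst F b).O from he), if_pos e1]
  exact h0

theorem rsa107_cst_cut {F Fp : Finset (ℤ × ℤ)} (h : ∀ e, RskBd F e → e.1 ∈ Fp ∧ rswCo e ∈ Fp) : RswCut F true (rsxCst Fp true) := by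
  intro e he
  have hh := h e he
  exact ⟨rsx_mem_int.2 hh, rsx_cst_S (rsx_end_corner1 (Or.inl hh.1)), rsx_cst_S (rsx_end_corner2 (Or.inl hh.1))⟩

theorem rsa107_cut_pos {t : ℝ} (h0 : 0 < t) (h1 : t ≤ 1) {F Fp : Finset (ℤ × ℤ)} (h : ∀ e, RskBd F e → e.1 ∈ Fp ∧ rswCo e ∈ Fp) :
    0 < rswSum t Fp true (rskInd F true) := by
  rw [rsx_sum_eq]
  refine Finset.sum_pos' (fun ω _ => mul_nonneg (rsx_wt_nonneg h0.le h1 Fp true ω) ?_) ⟨_, rsa107_cst_mem Fp true, ?_⟩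
  · rw [rsa107_ind_eq]; exact rsx_ind_nonneg _
  · rw [rsa107_ind_eq, rsx_ind_pos (rsa107_cst_cut h), mul_one]
    exact rsa107_cst_pos h0 Fp true

/-! ## 4. The flat law of `F` against the bulk law of `F⁺` -/

theorem rsa107_good_in {F : Finset (ℤ × ℤ)} {ω : RswCfg} {e : (ℤ × ℤ) × Bool} (h1 : e.1 ∈ F) (h2 : rswCo e ∈ F)
    (hg : RswGood true ω e) : RswGood true (rskIn F ω) e := by
  obtain ⟨g1, g2, g3⟩ := hg
  refine ⟨Finset.mem_inter.2 ⟨g1, rsx_mem_int.2 ⟨h1, h2⟩⟩, ⟨fun _ => rfl, fun _ => ?_⟩, ⟨fun _ => rfl, fun _ => ?_⟩⟩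
  · exact Finset.mem_inter.2 ⟨g2.2 rfl, rsx_end_corner1 (Or.inl h1)⟩
  · exact Finset.mem_inter.2 ⟨g3.2 rfl, rsx_end_corner2 (Or.inl h1)⟩

theorem rsa107_cmp {t : ℝ} (h0 : 0 < t) (h1 : t ≤ 1) (HF : Rsa107Fkg t) {F Fp : Finset (ℤ × ℤ)} (hF : RswJordan F)
    (hJ : RswJordan Fp) (hsub : F ⊆ Fp) (hnb : ∀ e, RskBd F e → e.1 ∈ Fp ∧ rswCo e ∈ Fp) (z : ℤ × ℤ) (r N : ℕ)
    (hrN : r ≤ N + 1) (hbox : rswBox z (N + 1) ⊆ Fp) (hout : ¬ rswBox z r ⊆ F) :
    rswP t F true (fun ω => ¬ RswSepW F ω (F ∩ rswBox z r) (F \ rswBox z (N + 1)))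
      ≤ rswP t Fp true (fun ω => ¬ RswSep Fp true ω (rswBox z r) (Fp \ rswBox z N)) := by
  set X : RswCfg → ℝ := fun ω => rsxInd (¬ RswSepW F ω (F ∩ rswBox z r) (F \ rswBox z (N + 1))) with hX
  set S : RswCfg → ℝ := fun ω => rsxInd (RswSep Fp true ω (rswBox z r) (Fp \ rswBox z N)) with hS
  have hpoly := jd19_poly_of_rsw hF
  have hK0 : ∀ ω, 0 ≤ rskInd F true ω := fun ω => by rw [rsa107_ind_eq]; exact rsx_ind_nonneg _
  -- (1) the exact cut
  have e1 := rsk_cut_comp h0 h1 hsub true true X (fun _ => 1)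
  -- (2) the topology
  have e2 : ∀ ω, X (rskIn F ω) ≤ 1 - S ω := by
    intro ω
    by_cases hs : RswSep Fp true ω (rswBox z r) (Fp \ rswBox z N)
    · have hW : RswSepW F (rskIn F ω) (F ∩ rswBox z r) (F \ rswBox z (N + 1)) :=
        ja7_arm_scale hpoly (rskIn F ω) ω (fun e he1 he2 hg => rsa107_good_in he1 he2 hg) z r r (N + 1) (N + 1)
          le_rfl hrN le_rfl (rsa107_block hbox hs) hout
      simp only [hX, hS]
      rw [rsx_ind_neg (not_not.2 hW), rsx_ind_pos hs]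
      norm_num
    · simp only [hX, hS]
      rw [rsx_ind_neg hs, sub_zero]
      exact rsx_ind_le_one _
  -- (3) positive association
  have fk := HF Fp hJ true true (rskInd F true) S (rsa107_inc_cut F) (rsa107_inc_sep Fp _ _)
  have add1 : rswSum t Fp true (rskInd F true)
      = rswSum t Fp true (fun ω => rskInd F true ω * S ω) + rswSum t Fp true (fun ω => rskInd F true ω * (1 - S ω)) := by
    rw [← arm101_sum_add]
    exact rsx_sum_congr t Fp true fun ω => by ring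
  have add2 : rswSum t Fp true (fun _ => 1) = rswSum t Fp true S + rswSum t Fp true (fun ω => 1 - S ω) := by
    rw [← arm101_sum_add]
    exact rsx_sum_congr t Fp true fun ω => by ring
  have le1 : rswSum t Fp true (fun ω => rskInd F true ω * X (rskIn F ω) * 1)
      ≤ rswSum t Fp true (fun ω => rskInd F true ω * (1 - S ω)) :=
    rsx_sum_mono h0.le h1 Fp true fun ω => by
      rw [mul_one]; exact mul_le_mul_of_nonneg_left (e2 ω) (hK0 ω)
  have e3 : rswSum t Fp true (fun ω => rskInd F true ω * 1) = rswSum t Fp true (rskInd F true) :=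
    rsx_sum_congr t Fp true fun ω => by ring
  rw [e3] at e1
  have ha := rsa107_cut_pos h0 h1 hnb
  have hZ := rsx_Z_pos h0 h1 Fp true
  have e4 : rswP t Fp true (fun ω => ¬ RswSep Fp true ω (rswBox z r) (Fp \ rswBox z N))
      = rswSum t Fp true (fun ω => 1 - S ω) / rswSum t Fp true (fun _ => 1) := by
    rw [rsx_P_eq, rsx_E_eq]
    congr 1
    exact rsx_sum_congr t Fp true fun ω => rsa107_ind_not _
  rw [e4, rsx_P_eq, le_div_iff₀ hZ]
  refine le_of_mul_le_mul_left ?_ ha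
  set P := rswE t F true X with hP
  set a := rswSum t Fp true (rskInd F true) with ha'
  set Z := rswSum t Fp true (fun _ => 1) with hZ'
  have hPa : P * a ≤ rswSum t Fp true (fun ω => rskInd F true ω * (1 - S ω)) := by rw [← e1]; exact le1
  nlinarith [mul_le_mul_of_nonneg_left hPa hZ.le]

/-! ## 5. The arm -/

theorem rsa107_P_le_one {t : ℝ} (h0 : 0 < t) (h1 : t ≤ 1) (F : Finset (ℤ × ℤ)) (b : Bool) (L : RswCfg → Prop) : rswP t F b L ≤ 1 := by
  rw [rsx_P_eq]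
  refine (rsx_E_mono h0 h1 F b (Y := fun _ => 1) fun ω => rsx_ind_le_one _).trans ?_
  rw [rsx_E_eq, div_self (rsx_Z_pos h0 h1 F b).ne']

/-- **[ARM]** = the type of `exit_rsw_arm` (Exit/Arch), from the two records -/
theorem rsa107_arm (t : ℝ) (ht1 : 1 / 2 ≤ t) (ht2 : t < 1) {p : ℝ} {n0 : ℕ} (hp : 0 < p) (H : Arm101Circ t p n0) (HF : Rsa107Fkg t) :
    ∃ C α : ℝ, 0 < C ∧ 0 < α ∧ ∀ (F : Finset (ℤ × ℤ)) (z : ℤ × ℤ) (r R : ℕ), RswJordan F → 1 ≤ r → r ≤ R → ¬ rswBox z r ⊆ F →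
      rswP t F true (fun ω => ¬ RswSepW F ω (F ∩ rswBox z r) (F \ rswBox z R)) ≤ C * ((r : ℝ) / R) ^ α := by
  have h0 : 0 < t := by linarith
  obtain ⟨C0, α, hC0, hα, harm⟩ := arm101_arm h0.le ht2.le hp H
  refine ⟨1 + C0 * (4 : ℝ) ^ α, α, by positivity, hα, fun F z r R hF hr hrR hout => ?_⟩
  have hr0 : (0 : ℝ) < r := by exact_mod_cast hr
  have hR0 : (0 : ℝ) < R := by exact_mod_cast (hr.trans hrR)
  have hq0 : 0 ≤ ((r : ℝ) / R) ^ α := Real.rpow_nonneg (div_pos hr0 hR0).le _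
  rcases Nat.lt_or_ge R 2 with hR2 | hR2
  · -- `r = R = 1`
    have hr1 : r = 1 := by omega
    have hR1 : R = 1 := by omega
    subst hr1; subst hR1
    have := rsa107_P_le_one h0 ht2.le F true (fun ω => ¬ RswSepW F ω (F ∩ rswBox z 1) (F \ rswBox z 1))
    have hpos : 0 ≤ C0 * (4 : ℝ) ^ α := by positivity
    simp only [Nat.cast_one, div_one, Real.one_rpow, mul_one]
    linarith
  · obtain ⟨N, rfl⟩ : ∃ N, R = N + 1 := ⟨R - 1, by omega⟩
    have hN : 1 ≤ N := by omega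
    obtain ⟨M0, hM0⟩ := rsa107_in_box F z
    set M := M0 + 1 + (N + 1) with hM
    have hJ : RswJordan (rswBox z M) := rsa107_box_jordan z (by omega)
    have hsub : F ⊆ rswBox z M := hM0.trans (ja7_box_mono z (by omega))
    have hnb : ∀ e, RskBd F e → e.1 ∈ rswBox z M ∧ rswCo e ∈ rswBox z M := by
      intro e he
      have h1 : e.1 ∈ rswBox z M0 ∨ rswCo e ∈ rswBox z M0 := by
        rcases he with he | he
        · exact Or.inl (hM0 he.1)
        · exact Or.inr (hM0 he.2)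
      have h2 := rsa107_edge_box h1
      exact ⟨ja7_box_mono z (by omega) h2.1, ja7_box_mono z (by omega) h2.2⟩
    have hbox : rswBox z (N + 1) ⊆ rswBox z M := ja7_box_mono z (by omega)
    have hc := rsa107_cmp h0 ht2.le HF hF hJ hsub hnb z r N hrR hbox hout
    have ha := harm (rswBox z M) z true true (fun _ => True) r N hN hJ (ja7_box_mono z (by omega)) (arm101_ext_const _ True)
    have e1 : rswP t (rswBox z M) true (fun ω => True ∧ ¬ RswSep (rswBox z M) true ω (rswBox z r) (rswBox z M \ rswBox z N))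
        = rswP t (rswBox z M) true (fun ω => ¬ RswSep (rswBox z M) true ω (rswBox z r) (rswBox z M \ rswBox z N)) :=
      arm101_P_congr t _ _ fun ω => ⟨fun h => h.2, fun h => ⟨trivial, h⟩⟩
    rw [e1] at ha
    have hT := rsa107_P_le_one h0 ht2.le (rswBox z M) true (fun _ => True)
    have hN0 : (0 : ℝ) < N := by exact_mod_cast hN
    have hb0 : 0 ≤ C0 * (((r : ℝ) + 1) / N) ^ α := by positivity
    have h3 : C0 * (((r : ℝ) + 1) / N) ^ α * rswP t (rswBox z M) true (fun _ => True) ≤ C0 * (((r : ℝ) + 1) / N) ^ α := by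
      have := mul_le_mul_of_nonneg_left hT hb0
      rwa [mul_one] at this
    have h4 : ((r : ℝ) + 1) / N ≤ 4 * ((r : ℝ) / ((N + 1 : ℕ) : ℝ)) := by
      have hr1 : (1 : ℝ) ≤ r := by exact_mod_cast hr
      have hN1 : (1 : ℝ) ≤ N := by exact_mod_cast hN
      push_cast
      rw [div_le_iff₀ hN0, mul_div_assoc', div_mul_eq_mul_div, le_div_iff₀ (by positivity)]
      nlinarith
    have h5 : (((r : ℝ) + 1) / N) ^ α ≤ (4 : ℝ) ^ α * ((r : ℝ) / ((N + 1 : ℕ) : ℝ)) ^ α := by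
      rw [← Real.mul_rpow (by norm_num) (div_pos hr0 hR0).le]
      exact Real.rpow_le_rpow (by positivity) h4 hα.le
    calc rswP t F true (fun ω => ¬ RswSepW F ω (F ∩ rswBox z r) (F \ rswBox z (N + 1)))
        ≤ C0 * (((r : ℝ) + 1) / N) ^ α := hc.trans (ha.trans h3)
      _ ≤ C0 * ((4 : ℝ) ^ α * ((r : ℝ) / ((N + 1 : ℕ) : ℝ)) ^ α) := mul_le_mul_of_nonneg_left h5 hC0.le
      _ ≤ (1 + C0 * (4 : ℝ) ^ α) * ((r : ℝ) / ((N + 1 : ℕ) : ℝ)) ^ α := by nlinarith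

/-! ## 6. The plain form (order RSW-7b of 122, adapter `at92f_box_P_le` of 292) -/

/-- a separation by seals is a separation by good plus edges -/
theorem rsa107_sep_of_sepW {F : Finset (ℤ × ℤ)} {ω : RswCfg} {A B : Finset (ℤ × ℤ)} (h : RswSepW F ω A B) : RswSep F true ω A B := by
  intro f hf g hg hr
  refine h f hf g hg ?_
  refine Relation.ReflTransGen.mono (r := RswStep F true ω) (p := RswStepW F ω) (fun a b hs => ?_) _ _ hr
  obtain ⟨h1, h2, e, he, hgd⟩ := hs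
  exact ⟨h1, h2, e, he, fun hh => hgd hh.1⟩

/-- **[ARM], plain form**: the good plus edges separate `F ∩ Λ_r` from `F \ Λ_R` up to probability `C (r / R) ^ α` -/
theorem rsa107_arm_plain (t : ℝ) (ht1 : 1 / 2 ≤ t) (ht2 : t < 1) {p : ℝ} {n0 : ℕ} (hp : 0 < p) (H : Arm101Circ t p n0)
    (HF : Rsa107Fkg t) :
    ∃ C α : ℝ, 0 < C ∧ 0 < α ∧ ∀ (F : Finset (ℤ × ℤ)) (z : ℤ × ℤ) (r R : ℕ), RswJordan F → 1 ≤ r → r ≤ R → ¬ rswBox z r ⊆ F →
      rswP t F true (fun ω => ¬ RswSep F true ω (F ∩ rswBox z r) (F \ rswBox z R)) ≤ C * ((r : ℝ) / R) ^ α := by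
  obtain ⟨C, α, hC, hα, h⟩ := rsa107_arm t ht1 ht2 hp H HF
  refine ⟨C, α, hC, hα, fun F z r R hF hr hrR hout => le_trans ?_ (h F z r R hF hr hrR hout)⟩
  exact arm101_P_mono (by linarith) ht2.le F true fun ω hn hW => hn (rsa107_sep_of_sepW hW)

end Claimed.Agent.R292
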