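import Claimed.Agent.R292.Defs.RSW

/-!
# Row 292 (S0540), Rsw/Sd231 : BLOCK R5 "SELFDUAL"      (owner helper231; prefix `rss_` / `rss` / `Rss`)      no sorry

The exchange primal <-> dual of the edge representation `(S, D, O)` of `Defs/RSW` (TEX 03-spatial, eq:spatial-edge-weight), `1/2 ≤ t ≤ 1`.

* `rss_prod_dom`      product weights on the subsets of a finite set: same total mass at every point, larger mass of "open" ⟹ larger sums of increasing observables
* `rssFacD`           the factor of the edge representation of the OTHER lattice: `O` = set of the edges `e` whose DUAL edge is an open `W†` edge (`d` plays `s`)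
* `rssSum t fac I VS VD g X`      the general problem: factors on the edges `I`, spins `S ⊆ VS`, `D ⊆ VD`, any weight `g S D ≥ 0` of the spins (pins, boundary conditions)
* `rss_flat`          `rswSum t F b X` is the problem `I = rswInt F`, `VS = cornersOf F`, `VD = F`, `g = 1[RswBc]`
* `rss_marg`          both representations have the same spin marginal
* **`rss_dom_N`**     `N = I \ O` (the dual current = complement of `W`) is dominated by `W†`:   `Σ_W X(S, D, I \ O) ≤ Σ_W† X(S, D, O)`, `X` increasing in the edges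
* **`rss_dom_N'`**    `N' = I \ O†` (the primal current) is dominated by `W`  ("`W` dominates the current of its own lattice", `t ≥ 1 - t`)
* `rssSig`, `rssTau`, `rssEx`      THE EXCHANGE = reflection in the line `x + y = 1/2`: vertex `(x,y)` ↦ face `(-y,-x)`, face `(x,y)` ↦ vertex `(-y,-x)`, edge `(v,o)` ↦ `(σ v, o)`
                      (the reflected primal edge is the DUAL of the image edge);   `rss_fac_ex : rswFac t (rssEx ω) (rssTau e) = rssFacD t ω e`
* **`rss_exchange`**  transport of the general problem;   `RssSym`  symmetric problems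
* **`rss_seed`**      symmetric problem, `C` increasing, `C O ∨ C (τ (I \ O))` for all `O ⊆ I` (duality of R4a + the reflection) ⟹ `Σ 1 ≤ 2 Σ 1[C O]` (probability `≥ 1/2`)
-/

set_option autoImplicit false
set_option linter.unusedVariables false

namespace Claimed.Agent.R292

open Claims Claims.C0468 Finset

/-! ## 1. Product weights -/

theorem rss_prod_dom {ι : Type*} [DecidableEq ι] (I : Finset ι) (p q p' q' : ι → ℝ)
    (hp : ∀ i ∈ I, 0 ≤ p i) (hq : ∀ i ∈ I, 0 ≤ q i) (hq' : ∀ i ∈ I, 0 ≤ q' i)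
    (hs : ∀ i ∈ I, p i + q i = p' i + q' i) (hpp : ∀ i ∈ I, p i ≤ p' i) :
    ∀ X : Finset ι → ℝ, (∀ A B, A ⊆ B → B ⊆ I → X A ≤ X B) →
    ∑ O ∈ I.powerset, (∏ i ∈ I, if i ∈ O then p i else q i) * X O
      ≤ ∑ O ∈ I.powerset, (∏ i ∈ I, if i ∈ O then p' i else q' i) * X O := by
  induction I using Finset.induction_on with
  | empty => intro X _; simp
  | insert a I ha ih =>
    intro X hX
    have ih' := ih (fun i hi => hp i (mem_insert_of_mem hi)) (fun i hi => hq i (mem_insert_of_mem hi))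
      (fun i hi => hq' i (mem_insert_of_mem hi)) (fun i hi => hs i (mem_insert_of_mem hi))
      (fun i hi => hpp i (mem_insert_of_mem hi))
    have hpa := hp a (mem_insert_self a I)
    have hqa := hq a (mem_insert_self a I)
    have hqa' := hq' a (mem_insert_self a I)
    have hsa := hs a (mem_insert_self a I)
    have hppa := hpp a (mem_insert_self a I)
    -- expansion of a sum over the subsets of `insert a I`
    have expand : ∀ r s : ι → ℝ, ∑ O ∈ (insert a I).powerset, (∏ i ∈ insert a I, if i ∈ O then r i else s i) * X O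
        = ∑ O ∈ I.powerset, (∏ i ∈ I, if i ∈ O then r i else s i) * (s a * X O + r a * X (insert a O)) := by
      intro r s
      rw [Finset.sum_powerset_insert ha, ← Finset.sum_add_distrib]
      refine Finset.sum_congr rfl fun O hO => ?_
      have hO' : O ⊆ I := Finset.mem_powerset.1 hO
      have haO : a ∉ O := fun h => ha (hO' h)
      rw [Finset.prod_insert ha, Finset.prod_insert ha, if_neg haO, if_pos (mem_insert_self a O)]
      have e : ∏ i ∈ I, (if i ∈ insert a O then r i else s i) = ∏ i ∈ I, if i ∈ O then r i else s i := by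
        refine Finset.prod_congr rfl fun i hi => ?_
        have hia : i ≠ a := fun h => ha (h ▸ hi)
        simp only [Finset.mem_insert, hia, false_or]
      rw [e]
      ring
    rw [expand, expand]
    have h1 := ih' (fun O => q a * X O + p a * X (insert a O)) (fun A B hAB hB => by
      have x1 := hX A B hAB (hB.trans (subset_insert a I))
      have x2 := hX (insert a A) (insert a B) (insert_subset_insert a hAB) (insert_subset_insert a hB)
      nlinarith)
    refine h1.trans (Finset.sum_le_sum fun O hO => ?_)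
    have hO' : O ⊆ I := Finset.mem_powerset.1 hO
    have hw : 0 ≤ ∏ i ∈ I, if i ∈ O then p' i else q' i := by
      refine Finset.prod_nonneg fun i hi => ?_
      split_ifs
      · exact (hp i (mem_insert_of_mem hi)).trans (hpp i (mem_insert_of_mem hi))
      · exact hq' i (mem_insert_of_mem hi)
    refine mul_le_mul_of_nonneg_left ?_ hw
    have x3 := hX O (insert a O) (subset_insert a O) (insert_subset_insert a hO')
    have e : q' a * X O + p' a * X (insert a O) - (q a * X O + p a * X (insert a O))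
        = (p' a - p a) * (X (insert a O) - X O) := by
      have : q a = p' a + q' a - p a := by linarith
      rw [this]; ring
    have := mul_nonneg (sub_nonneg.2 hppa) (sub_nonneg.2 x3)
    linarith

/-- re-indexing by the complement -/
theorem rss_sum_compl {ι : Type*} [DecidableEq ι] (I : Finset ι) (p q : ι → ℝ) (X : Finset ι → ℝ) :
    ∑ O ∈ I.powerset, (∏ i ∈ I, if i ∈ O then p i else q i) * X (I \ O)
      = ∑ N ∈ I.powerset, (∏ i ∈ I, if i ∈ N then q i else p i) * X N := by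
  refine Finset.sum_nbij' (fun O => I \ O) (fun N => I \ N) ?_ ?_ ?_ ?_ ?_
  · intro O _; exact Finset.mem_powerset.2 Finset.sdiff_subset
  · intro N _; exact Finset.mem_powerset.2 Finset.sdiff_subset
  · intro O hO; exact Finset.sdiff_sdiff_eq_self (Finset.mem_powerset.1 hO)
  · intro N hN; exact Finset.sdiff_sdiff_eq_self (Finset.mem_powerset.1 hN)
  · intro O _
    congr 1
    refine Finset.prod_congr rfl fun i hi => ?_
    by_cases hiO : i ∈ O
    · rw [if_pos hiO, if_neg (fun h => (Finset.mem_sdiff.1 h).2 hiO)]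
    · rw [if_neg hiO, if_pos (Finset.mem_sdiff.2 ⟨hi, hiO⟩)]

/-! ## 2. The two edge representations -/

/-- edges -/
abbrev RssE : Type := (ℤ × ℤ) × Bool

/-- `s` agrees along the edge -/
def RssSa (S : Finset (ℤ × ℤ)) (e : RssE) : Prop := e.1 ∈ S ↔ rswEnd e ∈ S

/-- `d` agrees across the edge -/
def RssDa (D : Finset (ℤ × ℤ)) (e : RssE) : Prop := e.1 ∈ D ↔ rswCo e ∈ D

/-- the factor of the edge representation of the other lattice: `e ∈ ω.O` means that the DUAL edge of `e` is an open `W†` edge -/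
noncomputable def rssFacD (t : ℝ) (ω : RswCfg) (e : RssE) : ℝ :=
  open Classical in
  if e ∈ ω.O then (if (e.1 ∈ ω.D ↔ rswCo e ∈ ω.D) then t else 0)
  else if (e.1 ∈ ω.S ↔ rswEnd e ∈ ω.S) then (if (e.1 ∈ ω.D ↔ rswCo e ∈ ω.D) then 1 - t else t) else 0

open Classical in
/-- weight of "`W` open" -/
noncomputable def rssWo (t : ℝ) (S : Finset (ℤ × ℤ)) (e : RssE) : ℝ := if RssSa S e then t else 0

open Classical in
/-- weight of "`W` closed" -/
noncomputable def rssWc (t : ℝ) (S D : Finset (ℤ × ℤ)) (e : RssE) : ℝ :=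
  if RssDa D e then (if RssSa S e then 1 - t else t) else 0

open Classical in
/-- weight of "`W†` open" -/
noncomputable def rssDo (t : ℝ) (D : Finset (ℤ × ℤ)) (e : RssE) : ℝ := if RssDa D e then t else 0

open Classical in
/-- weight of "`W†` closed" -/
noncomputable def rssDc (t : ℝ) (S D : Finset (ℤ × ℤ)) (e : RssE) : ℝ :=
  if RssSa S e then (if RssDa D e then 1 - t else t) else 0

theorem rss_fac_eq (t : ℝ) (S D : Finset (ℤ × ℤ)) (O : Finset RssE) (e : RssE) :
    rswFac t ⟨S, D, O⟩ e = if e ∈ O then rssWo t S e else rssWc t S D e := by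
  unfold rswFac rssWo rssWc RssSa RssDa
  by_cases h1 : e ∈ O <;> by_cases h2 : (e.1 ∈ S ↔ rswEnd e ∈ S) <;> by_cases h3 : (e.1 ∈ D ↔ rswCo e ∈ D) <;>
    simp only [h1, h2, h3, if_true, if_false]

theorem rss_facD_eq (t : ℝ) (S D : Finset (ℤ × ℤ)) (O : Finset RssE) (e : RssE) :
    rssFacD t ⟨S, D, O⟩ e = if e ∈ O then rssDo t D e else rssDc t S D e := by
  unfold rssFacD rssDo rssDc RssSa RssDa
  by_cases h1 : e ∈ O <;> by_cases h2 : (e.1 ∈ S ↔ rswEnd e ∈ S) <;> by_cases h3 : (e.1 ∈ D ↔ rswCo e ∈ D) <;>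
    simp only [h1, h2, h3, if_true, if_false]

theorem rss_Wo_nonneg {t : ℝ} (h0 : 0 ≤ t) (S : Finset (ℤ × ℤ)) (e : RssE) : 0 ≤ rssWo t S e := by
  unfold rssWo; split_ifs <;> linarith

theorem rss_Wc_nonneg {t : ℝ} (h0 : 0 ≤ t) (h1 : t ≤ 1) (S D : Finset (ℤ × ℤ)) (e : RssE) : 0 ≤ rssWc t S D e := by
  unfold rssWc; split_ifs <;> linarith

theorem rss_Do_nonneg {t : ℝ} (h0 : 0 ≤ t) (D : Finset (ℤ × ℤ)) (e : RssE) : 0 ≤ rssDo t D e := by
  unfold rssDo; split_ifs <;> linarith

theorem rss_Dc_nonneg {t : ℝ} (h0 : 0 ≤ t) (h1 : t ≤ 1) (S D : Finset (ℤ × ℤ)) (e : RssE) : 0 ≤ rssDc t S D e := by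
  unfold rssDc; split_ifs <;> linarith

theorem rss_fac_nonneg {t : ℝ} (h0 : 0 ≤ t) (h1 : t ≤ 1) (ω : RswCfg) (e : RssE) : 0 ≤ rswFac t ω e := by
  obtain ⟨S, D, O⟩ := ω
  rw [rss_fac_eq]
  split_ifs
  · exact rss_Wo_nonneg h0 S e
  · exact rss_Wc_nonneg h0 h1 S D e

theorem rss_facD_nonneg {t : ℝ} (h0 : 0 ≤ t) (h1 : t ≤ 1) (ω : RswCfg) (e : RssE) : 0 ≤ rssFacD t ω e := by
  obtain ⟨S, D, O⟩ := ω
  rw [rss_facD_eq]
  split_ifs
  · exact rss_Do_nonneg h0 D e
  · exact rss_Dc_nonneg h0 h1 S D e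

/-- same total mass at every edge: `1 / t / t / 0` -/
theorem rss_mass (t : ℝ) (S D : Finset (ℤ × ℤ)) (e : RssE) : rssWc t S D e + rssWo t S e = rssDo t D e + rssDc t S D e := by
  unfold rssWc rssWo rssDo rssDc; split_ifs <;> ring

theorem rss_Wc_le_Do {t : ℝ} (h1 : 1 / 2 ≤ t) (S D : Finset (ℤ × ℤ)) (e : RssE) : rssWc t S D e ≤ rssDo t D e := by
  unfold rssWc rssDo; split_ifs <;> linarith

theorem rss_Dc_le_Wo {t : ℝ} (h1 : 1 / 2 ≤ t) (S D : Finset (ℤ × ℤ)) (e : RssE) : rssDc t S D e ≤ rssWo t S e := by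
  unfold rssDc rssWo; split_ifs <;> linarith

/-- THE GENERAL PROBLEM: factors `fac` on the edges `I`, spins `S ⊆ VS`, `D ⊆ VD`, weight `g S D` of the spins -/
noncomputable def rssSum (fac : RswCfg → RssE → ℝ) (I : Finset RssE) (VS VD : Finset (ℤ × ℤ))
    (g : Finset (ℤ × ℤ) → Finset (ℤ × ℤ) → ℝ) (X : RswCfg → ℝ) : ℝ :=
  ∑ S ∈ VS.powerset, ∑ D ∈ VD.powerset, ∑ O ∈ I.powerset, g S D * ((∏ e ∈ I, fac ⟨S, D, O⟩ e) * X ⟨S, D, O⟩)

open Classical in
/-- the flat problems of `Defs/RSW` are general problems -/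
theorem rss_flat (t : ℝ) (F : Finset (ℤ × ℤ)) (b : Bool) (X : RswCfg → ℝ) :
    rswSum t F b X = rssSum (rswFac t) (rswInt F) (cornersOf F) F (fun S _ => if RswBc F b ⟨S, ∅, ∅⟩ then 1 else 0) X := by
  unfold rswSum rssSum rswWt
  refine Finset.sum_congr rfl fun S _ => Finset.sum_congr rfl fun D _ => Finset.sum_congr rfl fun O _ => ?_
  beta_reduce
  by_cases h : RswBc F b ⟨S, ∅, ∅⟩
  · rw [if_pos h, if_pos (show RswBc F b ⟨S, D, O⟩ from h), one_mul]
  · rw [if_neg h, if_neg (show ¬ RswBc F b ⟨S, D, O⟩ from h), zero_mul, zero_mul]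

theorem rss_sum_le {fac : RswCfg → RssE → ℝ} (hfac : ∀ ω e, 0 ≤ fac ω e) (I : Finset RssE) (VS VD : Finset (ℤ × ℤ))
    {g : Finset (ℤ × ℤ) → Finset (ℤ × ℤ) → ℝ} (hg : ∀ S D, 0 ≤ g S D) {X Y : RswCfg → ℝ}
    (h : ∀ S D O, S ⊆ VS → D ⊆ VD → O ⊆ I → X ⟨S, D, O⟩ ≤ Y ⟨S, D, O⟩) : rssSum fac I VS VD g X ≤ rssSum fac I VS VD g Y := by
  unfold rssSum
  refine Finset.sum_le_sum fun S hS => Finset.sum_le_sum fun D hD => Finset.sum_le_sum fun O hO => ?_
  exact mul_le_mul_of_nonneg_left (mul_le_mul_of_nonneg_left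
    (h S D O (Finset.mem_powerset.1 hS) (Finset.mem_powerset.1 hD) (Finset.mem_powerset.1 hO))
    (Finset.prod_nonneg fun e _ => hfac _ e)) (hg S D)

theorem rss_sum_add (fac : RswCfg → RssE → ℝ) (I : Finset RssE) (VS VD : Finset (ℤ × ℤ))
    (g : Finset (ℤ × ℤ) → Finset (ℤ × ℤ) → ℝ) (X Y : RswCfg → ℝ) :
    rssSum fac I VS VD g (fun ω => X ω + Y ω) = rssSum fac I VS VD g X + rssSum fac I VS VD g Y := by
  unfold rssSum
  simp only [mul_add, Finset.sum_add_distrib]

theorem rss_sum_smul (fac : RswCfg → RssE → ℝ) (I : Finset RssE) (VS VD : Finset (ℤ × ℤ))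
    (g : Finset (ℤ × ℤ) → Finset (ℤ × ℤ) → ℝ) (a : ℝ) (X : RswCfg → ℝ) :
    rssSum fac I VS VD g (fun ω => a * X ω) = a * rssSum fac I VS VD g X := by
  unfold rssSum
  simp only [Finset.mul_sum]
  refine Finset.sum_congr rfl fun S _ => Finset.sum_congr rfl fun D _ => Finset.sum_congr rfl fun O _ => ?_
  ring

/-- **the dual current `N = I \ O` is dominated by `W†`** -/
theorem rss_dom_N {t : ℝ} (h1 : 1 / 2 ≤ t) (h2 : t ≤ 1) (I : Finset RssE) (VS VD : Finset (ℤ × ℤ))
    {g : Finset (ℤ × ℤ) → Finset (ℤ × ℤ) → ℝ} (hg : ∀ S D, 0 ≤ g S D) (X : RswCfg → ℝ)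
    (hX : ∀ S D A B, A ⊆ B → B ⊆ I → X ⟨S, D, A⟩ ≤ X ⟨S, D, B⟩) :
    rssSum (rswFac t) I VS VD g (fun ω => X ⟨ω.S, ω.D, I \ ω.O⟩) ≤ rssSum (rssFacD t) I VS VD g X := by
  have h0 : 0 ≤ t := by linarith
  unfold rssSum
  refine Finset.sum_le_sum fun S _ => Finset.sum_le_sum fun D _ => ?_
  rw [← Finset.mul_sum, ← Finset.mul_sum]
  refine mul_le_mul_of_nonneg_left ?_ (hg S D)
  simp only [rss_fac_eq, rss_facD_eq]
  rw [rss_sum_compl I (rssWo t S) (rssWc t S D) (fun N => X ⟨S, D, N⟩)]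
  exact rss_prod_dom I (rssWc t S D) (rssWo t S) (rssDo t D) (rssDc t S D) (fun e _ => rss_Wc_nonneg h0 h2 S D e)
    (fun e _ => rss_Wo_nonneg h0 S e) (fun e _ => rss_Dc_nonneg h0 h2 S D e) (fun e _ => rss_mass t S D e)
    (fun e _ => rss_Wc_le_Do h1 S D e) (fun N => X ⟨S, D, N⟩) (hX S D)

/-- **`W` dominates the current `N' = I \ O†` of its own lattice** -/
theorem rss_dom_N' {t : ℝ} (h1 : 1 / 2 ≤ t) (h2 : t ≤ 1) (I : Finset RssE) (VS VD : Finset (ℤ × ℤ))
    {g : Finset (ℤ × ℤ) → Finset (ℤ × ℤ) → ℝ} (hg : ∀ S D, 0 ≤ g S D) (X : RswCfg → ℝ)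
    (hX : ∀ S D A B, A ⊆ B → B ⊆ I → X ⟨S, D, A⟩ ≤ X ⟨S, D, B⟩) :
    rssSum (rssFacD t) I VS VD g (fun ω => X ⟨ω.S, ω.D, I \ ω.O⟩) ≤ rssSum (rswFac t) I VS VD g X := by
  have h0 : 0 ≤ t := by linarith
  unfold rssSum
  refine Finset.sum_le_sum fun S _ => Finset.sum_le_sum fun D _ => ?_
  rw [← Finset.mul_sum, ← Finset.mul_sum]
  refine mul_le_mul_of_nonneg_left ?_ (hg S D)
  simp only [rss_fac_eq, rss_facD_eq]
  rw [rss_sum_compl I (rssDo t D) (rssDc t S D) (fun N => X ⟨S, D, N⟩)]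
  exact rss_prod_dom I (rssDc t S D) (rssDo t D) (rssWo t S) (rssWc t S D) (fun e _ => rss_Dc_nonneg h0 h2 S D e)
    (fun e _ => rss_Do_nonneg h0 D e) (fun e _ => rss_Wc_nonneg h0 h2 S D e)
    (fun e _ => by have := rss_mass t S D e; linarith)
    (fun e _ => rss_Dc_le_Wo h1 S D e) (fun N => X ⟨S, D, N⟩) (hX S D)

/-- both representations have the same spin marginal -/
theorem rss_marg {t : ℝ} (h1 : 1 / 2 ≤ t) (h2 : t ≤ 1) (I : Finset RssE) (VS VD : Finset (ℤ × ℤ))
    {g : Finset (ℤ × ℤ) → Finset (ℤ × ℤ) → ℝ} (hg : ∀ S D, 0 ≤ g S D) (Y : Finset (ℤ × ℤ) → Finset (ℤ × ℤ) → ℝ) :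
    rssSum (rswFac t) I VS VD g (fun ω => Y ω.S ω.D) = rssSum (rssFacD t) I VS VD g (fun ω => Y ω.S ω.D) := by
  refine le_antisymm (rss_dom_N h1 h2 I VS VD hg (fun ω => Y ω.S ω.D) (fun _ _ _ _ _ _ => le_rfl))
    (rss_dom_N' h1 h2 I VS VD hg (fun ω => Y ω.S ω.D) (fun _ _ _ _ _ _ => le_rfl))

/-! ## 3. The exchange -/

/-- reflection in the line `x + y = 1/2`: vertex `(x,y)` ↦ face `(-y,-x)`, face `(x,y)` ↦ vertex `(-y,-x)` -/
def rssSig : (ℤ × ℤ) ≃ (ℤ × ℤ) where
  toFun v := (-v.2, -v.1)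
  invFun v := (-v.2, -v.1)
  left_inv v := by simp
  right_inv v := by simp

/-- the edge whose dual is the reflected edge -/
def rssTau : RssE ≃ RssE where
  toFun e := (rssSig e.1, e.2)
  invFun e := (rssSig e.1, e.2)
  left_inv e := by simp [rssSig]
  right_inv e := by simp [rssSig]

theorem rss_sig_sig (v : ℤ × ℤ) : rssSig (rssSig v) = v := by simp [rssSig]

theorem rss_tau_tau (e : RssE) : rssTau (rssTau e) = e := by simp [rssTau, rssSig]

theorem rss_tau_fst (e : RssE) : (rssTau e).1 = rssSig e.1 := rfl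

theorem rss_end_tau (e : RssE) : rswEnd (rssTau e) = rssSig (rswCo e) := by
  obtain ⟨⟨x, y⟩, o⟩ := e
  cases o <;> simp [rswEnd, rswCo, rssTau, rssSig] <;> ring

theorem rss_co_tau (e : RssE) : rswCo (rssTau e) = rssSig (rswEnd e) := by
  obtain ⟨⟨x, y⟩, o⟩ := e
  cases o <;> simp [rswEnd, rswCo, rssTau, rssSig] <;> ring

/-- the exchanged configuration -/
def rssEx (ω : RswCfg) : RswCfg :=
  ⟨ω.D.map rssSig.toEmbedding, ω.S.map rssSig.toEmbedding, ω.O.map rssTau.toEmbedding⟩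

theorem rss_map_sig_sig (A : Finset (ℤ × ℤ)) : (A.map rssSig.toEmbedding).map rssSig.toEmbedding = A := by
  ext x
  simp only [Finset.mem_map_equiv]
  have : rssSig.symm (rssSig.symm x) = x := by simp [rssSig]
  rw [this]

theorem rss_map_tau_tau (A : Finset RssE) : (A.map rssTau.toEmbedding).map rssTau.toEmbedding = A := by
  ext x
  simp only [Finset.mem_map_equiv]
  have : rssTau.symm (rssTau.symm x) = x := by simp [rssTau, rssSig]
  rw [this]

theorem rss_ex_ex (ω : RswCfg) : rssEx (rssEx ω) = ω := by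
  obtain ⟨S, D, O⟩ := ω
  simp only [rssEx, rss_map_sig_sig, rss_map_tau_tau]

theorem rss_mem_sig (A : Finset (ℤ × ℤ)) (v : ℤ × ℤ) : rssSig v ∈ A.map rssSig.toEmbedding ↔ v ∈ A :=
  Finset.mem_map' rssSig.toEmbedding

theorem rss_mem_tau (A : Finset RssE) (e : RssE) : rssTau e ∈ A.map rssTau.toEmbedding ↔ e ∈ A :=
  Finset.mem_map' rssTau.toEmbedding

/-- **the exchange turns the factor of `W` into the factor of `W†`** -/
theorem rss_fac_ex (t : ℝ) (ω : RswCfg) (e : RssE) : rswFac t (rssEx ω) (rssTau e) = rssFacD t ω e := by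
  obtain ⟨S, D, O⟩ := ω
  rw [rss_facD_eq]
  show rswFac t ⟨D.map rssSig.toEmbedding, S.map rssSig.toEmbedding, O.map rssTau.toEmbedding⟩ (rssTau e) = _
  rw [rss_fac_eq]
  have a1 : RssSa (D.map rssSig.toEmbedding) (rssTau e) ↔ RssDa D e := by
    unfold RssSa RssDa
    rw [rss_tau_fst, rss_end_tau, rss_mem_sig, rss_mem_sig]
  have a2 : RssDa (S.map rssSig.toEmbedding) (rssTau e) ↔ RssSa S e := by
    unfold RssSa RssDa
    rw [rss_tau_fst, rss_co_tau, rss_mem_sig, rss_mem_sig]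
  unfold rssWo rssWc rssDo rssDc
  rw [propext a1, propext a2]
  simp only [rss_mem_tau]

theorem rss_sum_powerset_map {α : Type*} [DecidableEq α] (f : α ≃ α) (V : Finset α) (F : Finset α → ℝ) :
    ∑ A ∈ (V.map f.toEmbedding).powerset, F A = ∑ A ∈ V.powerset, F (A.map f.toEmbedding) := by
  symm
  refine Finset.sum_nbij' (fun A => A.map f.toEmbedding) (fun B => B.map f.symm.toEmbedding) ?_ ?_ ?_ ?_ ?_
  · intro A hA
    exact Finset.mem_powerset.2 (Finset.map_subset_map.2 (Finset.mem_powerset.1 hA))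
  · intro B hB
    rw [Finset.mem_powerset] at hB ⊢
    intro x hx
    rw [Finset.mem_map_equiv] at hx
    have := hB hx
    rw [Finset.mem_map_equiv] at this
    simpa using this
  · intro A _
    ext x
    simp [Finset.mem_map_equiv]
  · intro B _
    ext x
    simp [Finset.mem_map_equiv]
  · intro A _
    rfl

/-- **transport of the general problem by the exchange** -/
theorem rss_exchange (t : ℝ) (I : Finset RssE) (VS VD : Finset (ℤ × ℤ)) (g : Finset (ℤ × ℤ) → Finset (ℤ × ℤ) → ℝ)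
    (X : RswCfg → ℝ) :
    rssSum (rswFac t) (I.map rssTau.toEmbedding) (VD.map rssSig.toEmbedding) (VS.map rssSig.toEmbedding)
        (fun S' D' => g (D'.map rssSig.toEmbedding) (S'.map rssSig.toEmbedding)) X
      = rssSum (rssFacD t) I VS VD g (fun ω => X (rssEx ω)) := by
  unfold rssSum
  simp only [rss_sum_powerset_map]
  rw [Finset.sum_comm]
  refine Finset.sum_congr rfl fun S _ => Finset.sum_congr rfl fun D _ => Finset.sum_congr rfl fun O _ => ?_
  rw [rss_map_sig_sig, rss_map_sig_sig, Finset.prod_map]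
  congr 2
  exact Finset.prod_congr rfl fun e _ => rss_fac_ex t ⟨S, D, O⟩ e

/-- symmetric problems -/
structure RssSym (I : Finset RssE) (VS VD : Finset (ℤ × ℤ)) (g : Finset (ℤ × ℤ) → Finset (ℤ × ℤ) → ℝ) : Prop where
  edges : I.map rssTau.toEmbedding = I
  verts : VS.map rssSig.toEmbedding = VD
  wt : ∀ S D, g (D.map rssSig.toEmbedding) (S.map rssSig.toEmbedding) = g S D

/-- in a symmetric problem the law of `W†` is the reflected law of `W` -/
theorem rss_exchange_sym (t : ℝ) {I : Finset RssE} {VS VD : Finset (ℤ × ℤ)} {g : Finset (ℤ × ℤ) → Finset (ℤ × ℤ) → ℝ}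
    (h : RssSym I VS VD g) (X : RswCfg → ℝ) :
    rssSum (rssFacD t) I VS VD g (fun ω => X (rssEx ω)) = rssSum (rswFac t) I VS VD g X := by
  have h2 : VD.map rssSig.toEmbedding = VS := by rw [← h.verts, rss_map_sig_sig]
  have h3 : (fun S' D' : Finset (ℤ × ℤ) => g (D'.map rssSig.toEmbedding) (S'.map rssSig.toEmbedding)) = g := by
    funext S' D'; exact h.wt S' D'
  have := rss_exchange t I VS VD g X
  rw [h.edges, h.verts, h2, h3] at this
  exact this.symm

/-! ## 4. The seed -/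

open Classical in
/-- **THE SEED**: in a symmetric problem an increasing self-dual event of `W` has probability at least `1/2` -/
theorem rss_seed {t : ℝ} (h1 : 1 / 2 ≤ t) (h2 : t ≤ 1) {I : Finset RssE} {VS VD : Finset (ℤ × ℤ)}
    {g : Finset (ℤ × ℤ) → Finset (ℤ × ℤ) → ℝ} (hsym : RssSym I VS VD g) (hg : ∀ S D, 0 ≤ g S D) (C : Finset RssE → Prop)
    (hinc : ∀ A B, A ⊆ B → C A → C B) (hdual : ∀ O, O ⊆ I → C O ∨ C ((I \ O).map rssTau.toEmbedding)) :
    rssSum (rswFac t) I VS VD g (fun _ => 1) ≤ 2 * rssSum (rswFac t) I VS VD g (fun ω => if C ω.O then 1 else 0) := by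
  have h0 : 0 ≤ t := by linarith
  -- step 1: the two events cover
  have s1 : rssSum (rswFac t) I VS VD g (fun _ => 1) ≤ rssSum (rswFac t) I VS VD g (fun ω => if C ω.O then 1 else 0)
      + rssSum (rswFac t) I VS VD g (fun ω => if C ((I \ ω.O).map rssTau.toEmbedding) then 1 else 0) := by
    rw [← rss_sum_add]
    refine rss_sum_le (rss_fac_nonneg h0 h2) I VS VD hg fun S D O _ _ hO => ?_
    show (1 : ℝ) ≤ (if C O then 1 else 0) + (if C ((I \ O).map rssTau.toEmbedding) then 1 else 0)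
    rcases hdual O hO with h | h
    · rw [if_pos h]; split_ifs <;> norm_num
    · rw [if_pos h]; split_ifs <;> norm_num
  -- step 2: domination
  have s2 := rss_dom_N h1 h2 I VS VD hg (fun ω => if C (ω.O.map rssTau.toEmbedding) then 1 else 0) (fun S D A B hAB _ => by
    show (if C (A.map rssTau.toEmbedding) then (1 : ℝ) else 0) ≤ if C (B.map rssTau.toEmbedding) then 1 else 0
    by_cases hA : C (A.map rssTau.toEmbedding)
    · rw [if_pos hA, if_pos (hinc _ _ (Finset.map_subset_map.2 hAB) hA)]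
    · rw [if_neg hA]; split_ifs <;> norm_num)
  -- step 3: exchange
  have s3 := rss_exchange_sym t hsym (fun ω => if C ω.O then (1 : ℝ) else 0)
  have e : (fun ω : RswCfg => if C (rssEx ω).O then (1 : ℝ) else 0) = fun ω => if C (ω.O.map rssTau.toEmbedding) then 1 else 0 := rfl
  rw [e] at s3
  linarith

/-! ## 5. Symmetric problems: any reflection-invariant set of sites, pins on both lattices -/

/-- the edges whose two endpoints and two faces lie in `V` -/
def rssIn (V : Finset (ℤ × ℤ)) : Finset RssE :=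
  (V ×ˢ (Finset.univ : Finset Bool)).filter (fun e => rswEnd e ∈ V ∧ rswCo e ∈ V)

theorem rss_mem_in (V : Finset (ℤ × ℤ)) (e : RssE) : e ∈ rssIn V ↔ e.1 ∈ V ∧ rswEnd e ∈ V ∧ rswCo e ∈ V := by
  simp [rssIn]

theorem rss_mem_of_inv {V : Finset (ℤ × ℤ)} (hV : V.map rssSig.toEmbedding = V) (v : ℤ × ℤ) : rssSig v ∈ V ↔ v ∈ V := by
  conv_lhs => rw [← hV]
  exact rss_mem_sig V v

theorem rss_in_inv {V : Finset (ℤ × ℤ)} (hV : V.map rssSig.toEmbedding = V) : (rssIn V).map rssTau.toEmbedding = rssIn V := by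
  ext e
  rw [Finset.mem_map_equiv]
  have hs : rssTau.symm e = rssTau e := rfl
  rw [hs, rss_mem_in, rss_mem_in, rss_tau_fst, rss_end_tau, rss_co_tau, rss_mem_of_inv hV, rss_mem_of_inv hV, rss_mem_of_inv hV]
  tauto

open Classical in
/-- plus pins: `s = +` on `PS`, `d = +` on `PD` -/
noncomputable def rssPin (PS PD : Finset (ℤ × ℤ)) (S D : Finset (ℤ × ℤ)) : ℝ := if PS ⊆ S ∧ PD ⊆ D then 1 else 0

theorem rss_pin_nonneg (PS PD S D : Finset (ℤ × ℤ)) : 0 ≤ rssPin PS PD S D := by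
  unfold rssPin; split_ifs <;> norm_num

theorem rss_map_sig_subset (A B : Finset (ℤ × ℤ)) : A.map rssSig.toEmbedding ⊆ B ↔ A ⊆ B.map rssSig.toEmbedding := by
  constructor
  · intro h
    have := Finset.map_subset_map (f := rssSig.toEmbedding).2 h
    rwa [rss_map_sig_sig] at this
  · intro h
    have := Finset.map_subset_map (f := rssSig.toEmbedding).2 h
    rwa [rss_map_sig_sig] at this

/-- a reflection-invariant set of sites with reflected pins is a symmetric problem -/
theorem rss_sym_pin {V : Finset (ℤ × ℤ)} (hV : V.map rssSig.toEmbedding = V) (PS : Finset (ℤ × ℤ)) :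
    RssSym (rssIn V) V V (rssPin PS (PS.map rssSig.toEmbedding)) := by
  refine ⟨rss_in_inv hV, hV, fun S D => ?_⟩
  unfold rssPin
  have e1 : PS ⊆ D.map rssSig.toEmbedding ↔ PS.map rssSig.toEmbedding ⊆ D := (rss_map_sig_subset PS D).symm
  have e2 : PS.map rssSig.toEmbedding ⊆ S.map rssSig.toEmbedding ↔ PS ⊆ S := Finset.map_subset_map
  have e : (PS ⊆ D.map rssSig.toEmbedding ∧ PS.map rssSig.toEmbedding ⊆ S.map rssSig.toEmbedding)
      ↔ (PS ⊆ S ∧ PS.map rssSig.toEmbedding ⊆ D) := by rw [e1, e2]; tauto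
  by_cases h : PS ⊆ S ∧ PS.map rssSig.toEmbedding ⊆ D
  · rw [if_pos h, if_pos (e.2 h)]
  · rw [if_neg h, if_neg (fun h' => h (e.1 h'))]

/-- the square `[-n, n]²` of vertices = of faces -/
noncomputable def rssSq (n : ℕ) : Finset (ℤ × ℤ) := Finset.Icc (-(n : ℤ)) n ×ˢ Finset.Icc (-(n : ℤ)) n

theorem rss_sq_inv (n : ℕ) : (rssSq n).map rssSig.toEmbedding = rssSq n := by
  ext v
  rw [Finset.mem_map_equiv]
  have hs : rssSig.symm v = (-v.2, -v.1) := rfl
  rw [hs]
  simp only [rssSq, Finset.mem_product, Finset.mem_Icc]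
  constructor <;> rintro ⟨⟨a, b⟩, c, d⟩ <;> refine ⟨⟨?_, ?_⟩, ?_, ?_⟩ <;> linarith

open Classical in
/-- **the seed in the self-dual square**, any reflected pins -/
theorem rss_seed_sq {t : ℝ} (h1 : 1 / 2 ≤ t) (h2 : t ≤ 1) (n : ℕ) (PS : Finset (ℤ × ℤ)) (C : Finset RssE → Prop)
    (hinc : ∀ A B, A ⊆ B → C A → C B)
    (hdual : ∀ O, O ⊆ rssIn (rssSq n) → C O ∨ C ((rssIn (rssSq n) \ O).map rssTau.toEmbedding)) :
    rssSum (rswFac t) (rssIn (rssSq n)) (rssSq n) (rssSq n) (rssPin PS (PS.map rssSig.toEmbedding)) (fun _ => 1)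
      ≤ 2 * rssSum (rswFac t) (rssIn (rssSq n)) (rssSq n) (rssSq n) (rssPin PS (PS.map rssSig.toEmbedding))
          (fun ω => if C ω.O then 1 else 0) :=
  rss_seed h1 h2 (rss_sym_pin (rss_sq_inv n) PS) (rss_pin_nonneg _ _) C hinc hdual

/-- the equation lemmas of the definitions of this file are generated HERE (RULES.md, rule 6) -/
theorem rss_defs_eqns_cite : True := by
  have := @RssSa.eq_1
  have := @RssDa.eq_1
  have := @rssFacD.eq_1
  have := @rssWo.eq_1
  have := @rssWc.eq_1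
  have := @rssDo.eq_1
  have := @rssDc.eq_1
  have := @rssSum.eq_1
  have := @rssSig.eq_1
  have := @rssTau.eq_1
  have := @rssEx.eq_1
  have := @rssIn.eq_1
  have := @rssPin.eq_1
  have := @rssSq.eq_1
  trivial

end Claimed.Agent.R292
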