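import Claimed.Agent.R292.Rsw.CoreTop121
import Claimed.Agent.R292.Rsw.Sd231
import Claimed.Agent.R292.Rsw.Cut91
import Claimed.Agent.R292.Rsw.Search122

/-!
# Row 292 (S0540), Rsw/Chain299 : (R3) THE CHAIN LEMMA `RcChain`      (owner helper299; prefix `rch299`, `Rch299`)

`U(n, M) ≥ (1/4) (1 - π(m', M)) (1 - π(n, m))`   for `n < m ≤ m' < M`.      Port of R291 `Ann/Chain` to `ℤ²`.

LAWS.  `rswSum t G true`  = flat plus law of `G`, statuses `W`   (factor `rswFac`);     `rch299Nd t G` = THE SAME spin law, statuses `W†` (factor `rssFacD`).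
 (HALF)   `Rch299Half`:  `Nd_G [ the a-good W† edges separate the polygon of G from A ] ≥ (1/2) (Z_G - N_G [ plus good W chain from A to the polygon ])`
     (a) flip of `d`;   (b) ONE SIGN `Rch299OneSign` (potential on `ℤ²`);   (c) `rss_dom_N'`: the `W†`-closed edges are dominated by the `W`-open ones.
 (HALF')  `Rch299HalfW`: the same for the statuses `W` of the flat law: the CLOSED `W` edges whose two faces have colour `a` separate (no domination needed).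
 (SH)     `Rch299SH`:    (i) `rss_dom_N`: `N_F [minus good W circuit] ≥ Nd_F [circuit of W†-CLOSED edges with two minus ends]`;  (ii) the exchange `rssEx` turns `Nd_F` into a `W` problem on
     `F₀ = σ(corners F)` (`d` pinned on the layer, `s` free);  (iii) search of the outermost plus good cut from the layer of `F₀` (Search122 + the product formula of Cut91 for a general ambient):
     inside the cut the law is the flat plus law of `G = F₀ \ Inv`, and the event of (i) is the event of (HALF') in `G`.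
 (T2)     `Rch299T2`:    domain monotonicity of `π`.
 outer step = (HALF) in `Box M`, `A = corners (Box m')`, colour plus;   inner step = (HALF') in `G`, `A = σ (Box n)`, colour minus, + (T2).
-/

set_option autoImplicit false

namespace Claimed.Agent.R292

open Claims Claims.C0468

/-! ## 0. vocabulary -/

/-- the dual of `e` is an open `W†` edge whose two faces have colour `a` -/
def Rch299Good (a : Bool) (ω : RswCfg) (e : RssE) : Prop :=
  e ∈ ω.O ∧ (e.1 ∈ ω.D ↔ a = true) ∧ (rswCo e ∈ ω.D ↔ a = true)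

/-- one primal step along an interior edge of `F` whose dual is NOT good -/
def Rch299Step (F : Finset (ℤ × ℤ)) (a : Bool) (ω : RswCfg) (u v : ℤ × ℤ) : Prop :=
  ∃ e ∈ rswInt F, ¬ Rch299Good a ω e ∧ ((u = e.1 ∧ v = rswEnd e) ∨ (v = e.1 ∧ u = rswEnd e))

/-- one primal step along an interior edge of `F` which is not in `ω.O` -/
def Rch299StepC (F : Finset (ℤ × ℤ)) (ω : RswCfg) (u v : ℤ × ℤ) : Prop :=
  ∃ e ∈ rswInt F, e ∉ ω.O ∧ ((u = e.1 ∧ v = rswEnd e) ∨ (v = e.1 ∧ u = rswEnd e))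

/-- the vertices of the polygon of `F` -/
def rch299Pol (F : Finset (ℤ × ℤ)) : Set (ℤ × ℤ) := {v | v ∈ cornersOf F ∧ OnPolygon F v}

/-- the good `W†` edges of colour `a` separate the polygon of `F` from the vertices `A` -/
def Rch299Sep (F : Finset (ℤ × ℤ)) (a : Bool) (ω : RswCfg) (A : Set (ℤ × ℤ)) : Prop :=
  ∀ u ∈ rch299Pol F, ∀ v ∈ A, ¬ Relation.ReflTransGen (Rch299Step F a ω) u v

/-- no chain of edges off `ω.O` joins the polygon of `F` to `A` -/
def Rch299SepC (F : Finset (ℤ × ℤ)) (ω : RswCfg) (A : Set (ℤ × ℤ)) : Prop :=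
  ∀ u ∈ rch299Pol F, ∀ v ∈ A, ¬ Relation.ReflTransGen (Rch299StepC F ω) u v

/-- connectedness of a set of vertices in potential form: a function which is constant along the lattice edges inside `K` is constant on `K` -/
def Rch299Conn (K : Set (ℤ × ℤ)) : Prop :=
  ∀ φ : ℤ × ℤ → Bool, (∀ e : RssE, e.1 ∈ K → rswEnd e ∈ K → φ e.1 = φ (rswEnd e)) → ∀ u ∈ K, ∀ v ∈ K, φ u = φ v

open Classical in
/-- the flat plus problem of `F` with the statuses `W†` -/
noncomputable def rch299Nd (t : ℝ) (F : Finset (ℤ × ℤ)) (X : RswCfg → ℝ) : ℝ :=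
  rssSum (rssFacD t) (rswInt F) (cornersOf F) F (fun S _ => if RswBc F true ⟨S, ∅, ∅⟩ then 1 else 0) X

/-! ## 1. the records -/

open Classical in
/-- **(HALF)** -/
def Rch299Half (t : ℝ) : Prop :=
  ∀ (G : Finset (ℤ × ℤ)) (A : Set (ℤ × ℤ)) (a : Bool), Rch299Conn {v | OnPolygon G v} → Rch299Conn A → (∀ v ∈ A, ¬ OnPolygon G v) →
    1 / 2 * (rswSum t G true (fun _ => 1) - rswSum t G true (fun ω => if RcCon G true ω A (rch299Pol G) then 1 else 0))
      ≤ rch299Nd t G (fun ω => if Rch299Sep G a ω A then 1 else 0)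

/-- **(T2)** for `π`: domain monotonicity -/
def Rch299T2 (t : ℝ) : Prop :=
  ∀ (n m : ℕ) (G : Finset (ℤ × ℤ)), n < m → rswBox 0 m ⊆ G →
    rswP t G false (fun ω => RcCon G false ω (↑(cornersOf (rswBox 0 n))) (rch299Pol G)) ≤ rcPi t n m

open Classical in
/-- **(HALF')** the same for the statuses `W`: the CLOSED `W` edges whose two faces have colour `a` separate -/
def Rch299HalfW (t : ℝ) : Prop :=
  ∀ (G : Finset (ℤ × ℤ)) (A : Set (ℤ × ℤ)) (a : Bool), Rch299Conn {v | OnPolygon G v} → Rch299Conn A → (∀ v ∈ A, ¬ OnPolygon G v) →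
    1 / 2 * (rswSum t G true (fun _ => 1) - rswSum t G true (fun ω => if RcCon G true ω A (rch299Pol G) then 1 else 0))
      ≤ rswSum t G true (fun ω => if Rch299Sep G a ⟨ω.S, ω.D, rswInt G \ ω.O⟩ A then 1 else 0)

open Classical in
/-- **(SH)** domination + exchange + search -/
def Rch299SH (t : ℝ) : Prop :=
  ∀ (n m M : ℕ) (c : ℝ), 1 ≤ n → n < m → m < M → 0 ≤ c →
    (∀ G : Finset (ℤ × ℤ), rswBox 0 m ⊆ G → Rch299Conn {v | OnPolygon G v} →
      c * rswSum t G true (fun _ => 1)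
        ≤ rswSum t G true (fun ω => if Rch299Sep G false ⟨ω.S, ω.D, rswInt G \ ω.O⟩ (↑((rswBox 0 n).map rssSig.toEmbedding)) then 1 else 0)) →
    c * rch299Nd t (rswBox 0 M) (fun ω => if Rch299Sep (rswBox 0 M) true ω (↑(cornersOf (rswBox 0 m))) then 1 else 0)
      ≤ rswSum t (rswBox 0 M) true
          (fun ω => if RswSep (rswBox 0 M) false ω (rswBox 0 n) (rswLayer (rswBox 0 M)) then 1 else 0)

/-- **(ONE SIGN)**, deterministic -/
def Rch299OneSign : Prop :=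
  ∀ (G : Finset (ℤ × ℤ)) (A : Set (ℤ × ℤ)) (ω : RswCfg), Rch299Conn {v | OnPolygon G v} → Rch299Conn A → (∀ v ∈ A, ¬ OnPolygon G v) →
    (∀ e ∈ rswInt G, e ∈ ω.O → (e.1 ∈ ω.D ↔ rswCo e ∈ ω.D)) → Rch299SepC G ω A →
    Rch299Sep G true ω A ∨ Rch299Sep G false ω A

/-- **(GEO 1)** the complement of the open rectangle is connected -/
def Rch299GeoBox : Prop := ∀ x0 x1 y0 y1 : ℤ, Rch299Conn {v | OnPolygon (Finset.Ico x0 x1 ×ˢ Finset.Ico y0 y1) v}

/-- **(GEO 2)** rectangles of vertices are connected -/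
def Rch299GeoRect : Prop := ∀ x0 x1 y0 y1 : ℤ, Rch299Conn (↑(Finset.Icc x0 x1 ×ˢ Finset.Icc y0 y1) : Set (ℤ × ℤ))

/-- **(GEO 3)** the domain left by the search from the layer (`rs122Inv` of Search122) has a connected complement -/
def Rch299GeoDom : Prop :=
  ∀ (F : Finset (ℤ × ℤ)) (a : Bool) (ω : RswCfg), Rch299Conn {v | OnPolygon F v} →
    Rch299Conn {v | OnPolygon (F \ rs122Inv F a ω (rswLayer F)) v}

/-! ## 2. the chain lemma from the records -/

theorem rch299_mem_box {n : ℕ} {v : ℤ × ℤ} :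
    v ∈ rswBox 0 n ↔ (-(n : ℤ) ≤ v.1 ∧ v.1 < n) ∧ (-(n : ℤ) ≤ v.2 ∧ v.2 < n) := by
  unfold rswBox
  simp [Finset.mem_product, Finset.mem_Ico]

theorem rch299_mem_corners_box {n : ℕ} (hn : 1 ≤ n) {v : ℤ × ℤ} :
    v ∈ cornersOf (rswBox 0 n) ↔ (-(n : ℤ) ≤ v.1 ∧ v.1 ≤ n) ∧ (-(n : ℤ) ≤ v.2 ∧ v.2 ≤ n) := by
  rw [rsk_mem_corners]
  simp only [rch299_mem_box]
  omega

theorem rch299_inner_box {n : ℕ} {v : ℤ × ℤ} :
    ¬ OnPolygon (rswBox 0 n) v ↔ (-(n : ℤ) < v.1 ∧ v.1 < n) ∧ (-(n : ℤ) < v.2 ∧ v.2 < n) := by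
  unfold OnPolygon
  rw [not_not]
  simp only [rch299_mem_box]
  omega

theorem rch299_box_mono {n m : ℕ} (h : n ≤ m) : rswBox 0 n ⊆ rswBox 0 m := by
  intro v hv
  rw [rch299_mem_box] at hv ⊢
  omega

theorem rch299_inner_mono {F G : Finset (ℤ × ℤ)} (h : F ⊆ G) {v : ℤ × ℤ} (hv : ¬ OnPolygon F v) : ¬ OnPolygon G v := by
  unfold OnPolygon at hv ⊢
  rw [not_not] at hv ⊢
  exact ⟨h hv.1, h hv.2.1, h hv.2.2.1, h hv.2.2.2⟩

theorem rch299_con_flipS {G : Finset (ℤ × ℤ)} {a : Bool} {ω : RswCfg} {A B : Set (ℤ × ℤ)} :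
    RcCon G (!a) (rsbFlipS G ω) A B ↔ RcCon G a ω A B := by
  have : RcStepP G (!a) (rsbFlipS G ω) = RcStepP G a ω := by
    funext u v
    unfold RcStepP
    refine propext (exists_congr fun e => and_congr_right fun he => ?_)
    rw [rsb_good_flipS he]
  unfold RcCon
  rw [this]

open Classical in
theorem rch299_sum_con {t : ℝ} (h0 : 0 < t) (h1 : t ≤ 1) (G : Finset (ℤ × ℤ)) (A B : Set (ℤ × ℤ)) :
    rswSum t G true (fun ω => if RcCon G true ω A B then 1 else 0)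
      = rswSum t G true (fun _ => 1) * rswP t G false (fun ω => RcCon G false ω A B) := by
  have e := rsb_P_flipS t G true (fun ω => RcCon G false ω A B)
  have e2 : (fun ω => RcCon G false (rsbFlipS G ω) A B) = fun ω => RcCon G true ω A B := by
    funext ω
    exact propext (rch299_con_flipS (a := true))
  rw [e2] at e
  have e3 : rswP t G false (fun ω => RcCon G false ω A B) = rswP t G true fun ω => RcCon G true ω A B := e
  rw [e3]
  unfold rswP rswE
  have hZ := rsb_Z_pos h0 h1 G true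
  field_simp

theorem rch299_con_mono {G : Finset (ℤ × ℤ)} {a : Bool} {ω : RswCfg} {A A' B : Set (ℤ × ℤ)} (h : A ⊆ A')
    (hc : RcCon G a ω A B) : RcCon G a ω A' B := by
  obtain ⟨u, hu, v, hv, hr⟩ := hc
  exact ⟨u, h hu, v, hv, hr⟩

theorem rch299_sig_box {n : ℕ} {v : ℤ × ℤ} (hv : v ∈ (rswBox 0 n).map rssSig.toEmbedding) :
    (-(n : ℤ) < v.1 ∧ v.1 ≤ n) ∧ (-(n : ℤ) < v.2 ∧ v.2 ≤ n) := by
  rw [Finset.mem_map] at hv
  obtain ⟨f, hf, rfl⟩ := hv
  rw [rch299_mem_box] at hf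
  simp only [Equiv.coe_toEmbedding, rssSig, Equiv.coe_fn_mk]
  omega

theorem rch299_sig_box_eq (n : ℕ) :
    (rswBox 0 n).map rssSig.toEmbedding = Finset.Icc (-(n : ℤ) + 1) n ×ˢ Finset.Icc (-(n : ℤ) + 1) n := by
  ext v
  constructor
  · intro hv
    have := rch299_sig_box hv
    rw [Finset.mem_product, Finset.mem_Icc, Finset.mem_Icc]
    omega
  · intro hv
    rw [Finset.mem_product, Finset.mem_Icc, Finset.mem_Icc] at hv
    rw [Finset.mem_map]
    refine ⟨(-v.2, -v.1), ?_, ?_⟩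
    · rw [rch299_mem_box]
      simp only
      omega
    · simp [rssSig]

theorem rch299_corners_box_eq {n : ℕ} (hn : 1 ≤ n) :
    cornersOf (rswBox 0 n) = Finset.Icc (-(n : ℤ)) n ×ˢ Finset.Icc (-(n : ℤ)) n := by
  ext v
  rw [rch299_mem_corners_box hn, Finset.mem_product, Finset.mem_Icc, Finset.mem_Icc]

/-- **the chain lemma from the records** -/
theorem rch299_chain_of {t : ℝ} (ht1 : 1 / 2 ≤ t) (ht2 : t < 1) (hH : Rch299Half t) (hW : Rch299HalfW t) (hT : Rch299T2 t) (hS : Rch299SH t)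
    (hB : Rch299GeoBox) (hR : Rch299GeoRect) (n m m' M : ℕ) (hn : 1 ≤ n) (hnm : n < m) (hmm : m ≤ m') (hmM : m' < M) :
    1 / 4 * ((1 - rcPi t m' M) * (1 - rcPi t n m)) ≤ rcU t n M := by
  classical
  have h0 : 0 < t := by linarith
  have h1 : t ≤ 1 := ht2.le
  have hπ1 : rcPi t n m ≤ 1 := rc_pi_le_one h0 h1 _ _
  have hπ2 : rcPi t m' M ≤ 1 := rc_pi_le_one h0 h1 _ _
  set c : ℝ := 1 / 2 * (1 - rcPi t n m) with hc
  have hc0 : 0 ≤ c := by rw [hc]; linarith
  -- the inner step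
  have inner : ∀ G : Finset (ℤ × ℤ), rswBox 0 m' ⊆ G → Rch299Conn {v | OnPolygon G v} →
      c * rswSum t G true (fun _ => 1)
        ≤ rswSum t G true (fun ω => if Rch299Sep G false ⟨ω.S, ω.D, rswInt G \ ω.O⟩ (↑((rswBox 0 n).map rssSig.toEmbedding)) then 1 else 0) := by
    intro G hG hGc
    have hZ := rsb_Z_pos h0 h1 G true
    have hA : Rch299Conn (↑((rswBox 0 n).map rssSig.toEmbedding) : Set (ℤ × ℤ)) := by
      rw [rch299_sig_box_eq]
      exact hR _ _ _ _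
    have hin : ∀ v ∈ (↑((rswBox 0 n).map rssSig.toEmbedding) : Set (ℤ × ℤ)), ¬ OnPolygon G v := by
      intro v hv
      have := rch299_sig_box (Finset.mem_coe.1 hv)
      refine rch299_inner_mono hG ?_
      rw [rch299_inner_box]
      omega
    refine le_trans ?_ (hW G _ false hGc hA hin)
    rw [rch299_sum_con h0 h1]
    have hle : rswP t G false (fun ω => RcCon G false ω (↑((rswBox 0 n).map rssSig.toEmbedding)) (rch299Pol G)) ≤ rcPi t n m := by
      refine le_trans (rsb_P_mono h0 h1 fun ω _ _ h => rch299_con_mono ?_ h) (hT n m G hnm ((rch299_box_mono hmm).trans hG))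
      intro v hv
      have := rch299_sig_box (Finset.mem_coe.1 hv)
      rw [Finset.mem_coe, rch299_mem_corners_box hn]
      omega
    rw [hc]
    nlinarith
  have key := hS n m' M c hn (by omega) hmM hc0 inner
  -- the outer step
  have hm' : 1 ≤ m' := by omega
  have hA : Rch299Conn (↑(cornersOf (rswBox 0 m')) : Set (ℤ × ℤ)) := by
    rw [rch299_corners_box_eq hm']
    exact hR _ _ _ _
  have hin : ∀ v ∈ (↑(cornersOf (rswBox 0 m')) : Set (ℤ × ℤ)), ¬ OnPolygon (rswBox 0 M) v := by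
    intro v hv
    rw [Finset.mem_coe, rch299_mem_corners_box hm'] at hv
    rw [rch299_inner_box]
    omega
  have outer := hH (rswBox 0 M) _ true (hB _ _ _ _) hA hin
  rw [rch299_sum_con h0 h1] at outer
  have hZ := rsb_Z_pos h0 h1 (rswBox 0 M) true
  have e1 : rswP t (rswBox 0 M) false (fun ω => RcCon (rswBox 0 M) false ω (↑(cornersOf (rswBox 0 m'))) (rch299Pol (rswBox 0 M)))
      = rcPi t m' M := rfl
  rw [e1] at outer
  have e2 : rcU t n M = rswSum t (rswBox 0 M) true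
      (fun ω => if RswSep (rswBox 0 M) false ω (rswBox 0 n) (rswLayer (rswBox 0 M)) then 1 else 0) / rswSum t (rswBox 0 M) true (fun _ => 1) := rfl
  rw [e2, le_div_iff₀ hZ]
  refine le_trans ?_ key
  refine le_trans ?_ (mul_le_mul_of_nonneg_left outer hc0)
  rw [hc]
  apply le_of_eq
  ring

/-! ## 3. (HALF) from (ONE SIGN) -/

/-- comparison on the support -/
theorem rch299_sum_le_supp {fac : RswCfg → RssE → ℝ} (hfac : ∀ ω e, 0 ≤ fac ω e) (I : Finset RssE) (VS VD : Finset (ℤ × ℤ))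
    {g : Finset (ℤ × ℤ) → Finset (ℤ × ℤ) → ℝ} (hg : ∀ S D, 0 ≤ g S D) {X Y : RswCfg → ℝ}
    (h : ∀ S D O, S ⊆ VS → D ⊆ VD → O ⊆ I → g S D ≠ 0 → (∀ e ∈ I, fac ⟨S, D, O⟩ e ≠ 0) → X ⟨S, D, O⟩ ≤ Y ⟨S, D, O⟩) :
    rssSum fac I VS VD g X ≤ rssSum fac I VS VD g Y := by
  unfold rssSum
  refine Finset.sum_le_sum fun S hS => Finset.sum_le_sum fun D hD => Finset.sum_le_sum fun O hO => ?_
  by_cases h1 : g S D = 0
  · rw [h1, zero_mul, zero_mul]
  by_cases h2 : ∏ e ∈ I, fac ⟨S, D, O⟩ e = 0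
  · rw [h2, zero_mul, zero_mul]
  exact mul_le_mul_of_nonneg_left (mul_le_mul_of_nonneg_left
    (h S D O (Finset.mem_powerset.1 hS) (Finset.mem_powerset.1 hD) (Finset.mem_powerset.1 hO) h1
      (fun e he => (Finset.prod_ne_zero_iff.1 h2) e he))
    (Finset.prod_nonneg fun e _ => hfac _ e)) (hg S D)

theorem rch299_facD_ne {t : ℝ} {ω : RswCfg} {e : RssE} (h : rssFacD t ω e ≠ 0) :
    (e ∈ ω.O → (e.1 ∈ ω.D ↔ rswCo e ∈ ω.D)) ∧ (e ∉ ω.O → (e.1 ∈ ω.S ↔ rswEnd e ∈ ω.S)) := by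
  classical
  unfold rssFacD at h
  constructor
  · intro he
    rw [if_pos he] at h
    by_contra hn
    rw [if_neg hn] at h
    exact h rfl
  · intro he
    rw [if_neg he] at h
    by_contra hn
    rw [if_neg hn] at h
    exact h rfl

open Classical in
theorem rch299_g_nonneg (F : Finset (ℤ × ℤ)) (S D : Finset (ℤ × ℤ)) :
    (0 : ℝ) ≤ (fun (S : Finset (ℤ × ℤ)) (_ : Finset (ℤ × ℤ)) => if RswBc F true ⟨S, ∅, ∅⟩ then (1 : ℝ) else 0) S D := by
  beta_reduce
  split_ifs <;> norm_num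

theorem rch299_Nd_one {t : ℝ} (h1 : 1 / 2 ≤ t) (h2 : t ≤ 1) (G : Finset (ℤ × ℤ)) :
    rch299Nd t G (fun _ => 1) = rswSum t G true (fun _ => 1) := by
  classical
  rw [rss_flat]
  exact (rss_marg h1 h2 (rswInt G) (cornersOf G) G (rch299_g_nonneg G) (fun _ _ => 1)).symm

theorem rch299_Nd_add (t : ℝ) (G : Finset (ℤ × ℤ)) (X Y : RswCfg → ℝ) :
    rch299Nd t G (fun ω => X ω + Y ω) = rch299Nd t G X + rch299Nd t G Y := rss_sum_add _ _ _ _ _ X Y

/-- (c) a chain of `W†`-closed edges from the polygon is a chain of plus spins; domination by `W` -/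
theorem rch299_dom {t : ℝ} (h1 : 1 / 2 ≤ t) (h2 : t ≤ 1) (G : Finset (ℤ × ℤ)) (A : Set (ℤ × ℤ)) :
    open Classical in
    rch299Nd t G (fun ω => if Rch299SepC G ω A then 0 else 1)
      ≤ rswSum t G true (fun ω => if RcCon G true ω A (rch299Pol G) then 1 else 0) := by
  classical
  have h0 : 0 ≤ t := by linarith
  rw [rss_flat]
  refine le_trans ?_ (rss_dom_N' h1 h2 (rswInt G) (cornersOf G) G (rch299_g_nonneg G)
    (fun ω => if RcCon G true ω A (rch299Pol G) then 1 else 0) ?_)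
  · refine rch299_sum_le_supp (rss_facD_nonneg h0 h2) _ _ _ (rch299_g_nonneg G) ?_
    intro S D O _ _ _ hg hf
    by_cases hs : Rch299SepC G ⟨S, D, O⟩ A
    · rw [if_pos hs]
      split_ifs <;> norm_num
    rw [if_neg hs]
    have hbc : RswBc G true ⟨S, ∅, ∅⟩ := by
      by_contra hn
      exact hg (if_neg hn)
    suffices hc : RcCon G true ⟨S, D, rswInt G \ O⟩ A (rch299Pol G) by
      rw [if_pos hc]
    unfold Rch299SepC at hs
    push Not at hs
    obtain ⟨u, hu, v, hv, hr⟩ := hs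
    have key : ∀ w, Relation.ReflTransGen (Rch299StepC G ⟨S, D, O⟩) u w →
        w ∈ S ∧ Relation.ReflTransGen (RcStepP G true ⟨S, D, rswInt G \ O⟩) w u := by
      intro w hw
      induction hw with
      | refl => exact ⟨(hbc u hu.1 hu.2).2 rfl, Relation.ReflTransGen.refl⟩
      | @tail b c _ hbc' ih =>
        obtain ⟨e, he, heO, hh⟩ := hbc'
        have hag := (rch299_facD_ne (hf e he)).2 heO
        have hag' : e.1 ∈ S ↔ rswEnd e ∈ S := hag
        rcases hh with ⟨rfl, rfl⟩ | ⟨rfl, rfl⟩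
        · have hgood : RswGood true ⟨S, D, rswInt G \ O⟩ e :=
            ⟨Finset.mem_sdiff.2 ⟨he, heO⟩, iff_of_true ih.1 rfl, iff_of_true (hag'.1 ih.1) rfl⟩
          exact ⟨hag'.1 ih.1, Relation.ReflTransGen.head ⟨e, he, hgood, Or.inr ⟨rfl, rfl⟩⟩ ih.2⟩
        · have hgood : RswGood true ⟨S, D, rswInt G \ O⟩ e :=
            ⟨Finset.mem_sdiff.2 ⟨he, heO⟩, iff_of_true (hag'.2 ih.1) rfl, iff_of_true ih.1 rfl⟩
          exact ⟨hag'.2 ih.1, Relation.ReflTransGen.head ⟨e, he, hgood, Or.inl ⟨rfl, rfl⟩⟩ ih.2⟩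
    exact ⟨v, hv, u, hu, (key v hr).2⟩
  · intro S D N N' hNN _
    by_cases hc : RcCon G true ⟨S, D, N⟩ A (rch299Pol G)
    · have hc' : RcCon G true ⟨S, D, N'⟩ A (rch299Pol G) := by
        obtain ⟨u, hu, v, hv, hr⟩ := hc
        refine ⟨u, hu, v, hv, Relation.ReflTransGen.mono ?_ _ _ hr⟩
        rintro a b ⟨e, he, hgood, hh⟩
        exact ⟨e, he, ⟨hNN hgood.1, hgood.2⟩, hh⟩
      rw [if_pos hc, if_pos hc']
    · rw [if_neg hc]
      split_ifs <;> norm_num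

/-- (a) the flip of `d` -/
theorem rch299_flipD (t : ℝ) (G : Finset (ℤ × ℤ)) (A : Set (ℤ × ℤ)) :
    open Classical in
    rch299Nd t G (fun ω => if Rch299Sep G true ω A then 1 else 0) = rch299Nd t G (fun ω => if Rch299Sep G false ω A then 1 else 0) := by
  classical
  unfold rch299Nd rssSum
  refine Finset.sum_congr rfl fun S _ => ?_
  rw [← rsb_sum_powerset_sdiff]
  refine Finset.sum_congr rfl fun D _ => Finset.sum_congr rfl fun O _ => ?_
  have hm : ∀ e ∈ rswInt G, ((e.1 ∈ G \ D ↔ e.1 ∉ D) ∧ (rswCo e ∈ G \ D ↔ rswCo e ∉ D)) := by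
    intro e he
    rw [rsk_mem_int] at he
    simp [Finset.mem_sdiff, he.1, he.2]
  have e1 : ∏ e ∈ rswInt G, rssFacD t ⟨S, G \ D, O⟩ e = ∏ e ∈ rswInt G, rssFacD t ⟨S, D, O⟩ e := by
    refine Finset.prod_congr rfl fun e he => ?_
    unfold rssFacD
    simp only [(hm e he).1, (hm e he).2, not_iff_not]
  have e2 : Rch299Step G true ⟨S, G \ D, O⟩ = Rch299Step G false ⟨S, D, O⟩ := by
    funext u v
    unfold Rch299Step Rch299Good
    refine propext (exists_congr fun e => and_congr_right fun he => ?_)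
    simp only [(hm e he).1, (hm e he).2]
    simp
  have e3 : Rch299Sep G true ⟨S, G \ D, O⟩ A ↔ Rch299Sep G false ⟨S, D, O⟩ A := by
    unfold Rch299Sep
    rw [e2]
  rw [e1]
  simp only [e3]

/-- **(HALF)** from (ONE SIGN) -/
theorem rch299_half {t : ℝ} (h1 : 1 / 2 ≤ t) (h2 : t ≤ 1) (hO : Rch299OneSign) : Rch299Half t := by
  classical
  intro G A a hG hA hin
  have h0 : 0 ≤ t := by linarith
  have d := rch299_dom h1 h2 G A
  have f := rch299_flipD t G A
  have one : rch299Nd t G (fun ω => if Rch299SepC G ω A then 1 else 0)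
      ≤ rch299Nd t G (fun ω => (if Rch299Sep G true ω A then 1 else 0) + (if Rch299Sep G false ω A then 1 else 0)) := by
    refine rch299_sum_le_supp (rss_facD_nonneg h0 h2) _ _ _ (rch299_g_nonneg G) ?_
    intro S D O _ _ _ _ hf
    by_cases hs : Rch299SepC G ⟨S, D, O⟩ A
    · rw [if_pos hs]
      rcases hO G A ⟨S, D, O⟩ hG hA hin (fun e he heO => (rch299_facD_ne (hf e he)).1 heO) hs with h | h
      · rw [if_pos h]
        split_ifs <;> norm_num
      · rw [if_pos h]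
        split_ifs <;> norm_num
    · rw [if_neg hs]
      split_ifs <;> norm_num
  rw [rch299_Nd_add] at one
  have tot : rch299Nd t G (fun ω => if Rch299SepC G ω A then 1 else 0) + rch299Nd t G (fun ω => if Rch299SepC G ω A then 0 else 1)
      = rswSum t G true (fun _ => 1) := by
    rw [← rch299_Nd_add, ← rch299_Nd_one h1 h2]
    congr 1
    funext ω
    split_ifs <;> norm_num
  cases a
  · linarith
  · linarith

/-! ## 4. (HALF') from (ONE SIGN) -/

theorem rch299_sep_flipD (G S D : Finset (ℤ × ℤ)) (O : Finset RssE) (A : Set (ℤ × ℤ)) :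
    Rch299Sep G true ⟨S, G \ D, O⟩ A ↔ Rch299Sep G false ⟨S, D, O⟩ A := by
  classical
  have hm : ∀ e ∈ rswInt G, ((e.1 ∈ G \ D ↔ e.1 ∉ D) ∧ (rswCo e ∈ G \ D ↔ rswCo e ∉ D)) := by
    intro e he
    rw [rsk_mem_int] at he
    simp [Finset.mem_sdiff, he.1, he.2]
  have e2 : Rch299Step G true ⟨S, G \ D, O⟩ = Rch299Step G false ⟨S, D, O⟩ := by
    funext u v
    unfold Rch299Step Rch299Good
    refine propext (exists_congr fun e => and_congr_right fun he => ?_)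
    simp only [(hm e he).1, (hm e he).2]
    simp
  unfold Rch299Sep
  rw [e2]

/-- **(HALF')** from (ONE SIGN) -/
theorem rch299_halfW {t : ℝ} (h0 : 0 < t) (h1 : t ≤ 1) (hO : Rch299OneSign) : Rch299HalfW t := by
  classical
  intro G A a hG hA hin
  have f : rswSum t G true (fun ω => if Rch299Sep G true ⟨ω.S, ω.D, rswInt G \ ω.O⟩ A then 1 else 0)
      = rswSum t G true (fun ω => if Rch299Sep G false ⟨ω.S, ω.D, rswInt G \ ω.O⟩ A then 1 else 0) := by
    rw [rsb_sum_flipD]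
    refine congrArg _ (funext fun ω => ?_)
    exact if_congr (rch299_sep_flipD G ω.S ω.D _ A) rfl rfl
  have one : rswSum t G true (fun ω => if Rch299SepC G ⟨ω.S, ω.D, rswInt G \ ω.O⟩ A then 1 else 0)
      ≤ rswSum t G true (fun ω => (if Rch299Sep G true ⟨ω.S, ω.D, rswInt G \ ω.O⟩ A then 1 else 0)
          + (if Rch299Sep G false ⟨ω.S, ω.D, rswInt G \ ω.O⟩ A then 1 else 0)) := by
    refine rsb_sum_mono h0.le h1 fun ω _ hw => ?_
    have hs := (rsb_wt_ne_zero hw).2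
    by_cases hc : Rch299SepC G ⟨ω.S, ω.D, rswInt G \ ω.O⟩ A
    · rw [if_pos hc]
      rcases hO G A ⟨ω.S, ω.D, rswInt G \ ω.O⟩ hG hA hin
        (fun e he heO => (hs e he).2.2 (Finset.mem_sdiff.1 heO).2) hc with h | h
      · rw [if_pos h]
        split_ifs <;> norm_num
      · rw [if_pos h]
        split_ifs <;> norm_num
    · rw [if_neg hc]
      split_ifs <;> norm_num
  have d : rswSum t G true (fun ω => if Rch299SepC G ⟨ω.S, ω.D, rswInt G \ ω.O⟩ A then 0 else 1)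
      ≤ rswSum t G true (fun ω => if RcCon G true ω A (rch299Pol G) then 1 else 0) := by
    refine rsb_sum_mono h0.le h1 fun ω _ hw => ?_
    obtain ⟨hbc, hs⟩ := rsb_wt_ne_zero hw
    by_cases hc : Rch299SepC G ⟨ω.S, ω.D, rswInt G \ ω.O⟩ A
    · rw [if_pos hc]
      split_ifs <;> norm_num
    rw [if_neg hc]
    suffices hcon : RcCon G true ω A (rch299Pol G) by
      rw [if_pos hcon]
    unfold Rch299SepC at hc
    push Not at hc
    obtain ⟨u, hu, v, hv, hr⟩ := hc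
    have key : ∀ w, Relation.ReflTransGen (Rch299StepC G ⟨ω.S, ω.D, rswInt G \ ω.O⟩) u w →
        w ∈ ω.S ∧ Relation.ReflTransGen (RcStepP G true ω) w u := by
      intro w hw
      induction hw with
      | refl => exact ⟨(hbc u hu.1 hu.2).2 rfl, Relation.ReflTransGen.refl⟩
      | @tail b c _ hbc' ih =>
        obtain ⟨e, he, heO, hh⟩ := hbc'
        have heO' : e ∈ ω.O := by
          by_contra hn
          exact heO (Finset.mem_sdiff.2 ⟨he, hn⟩)
        have hag := (hs e he).2.1 heO'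
        rcases hh with ⟨rfl, rfl⟩ | ⟨rfl, rfl⟩
        · have hgood : RswGood true ω e := ⟨heO', iff_of_true ih.1 rfl, iff_of_true (hag.1 ih.1) rfl⟩
          exact ⟨hag.1 ih.1, Relation.ReflTransGen.head ⟨e, he, hgood, Or.inr ⟨rfl, rfl⟩⟩ ih.2⟩
        · have hgood : RswGood true ω e := ⟨heO', iff_of_true (hag.2 ih.1) rfl, iff_of_true ih.1 rfl⟩
          exact ⟨hag.2 ih.1, Relation.ReflTransGen.head ⟨e, he, hgood, Or.inl ⟨rfl, rfl⟩⟩ ih.2⟩
    exact ⟨v, hv, u, hu, (key v hr).2⟩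
  rw [rsb_sum_add] at one
  have tot : rswSum t G true (fun ω => if Rch299SepC G ⟨ω.S, ω.D, rswInt G \ ω.O⟩ A then 1 else 0)
      + rswSum t G true (fun ω => if Rch299SepC G ⟨ω.S, ω.D, rswInt G \ ω.O⟩ A then 0 else 1)
      = rswSum t G true (fun _ => 1) := by
    rw [← rsb_sum_add]
    congr 1
    funext ω
    split_ifs <;> norm_num
  cases a
  · linarith
  · linarith

/-! ## 5. the product formula of Cut91 in a general ambient problem -/

/-- the sum over the outside, general ambient -/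
noncomputable def rch299GG (t : ℝ) (I₀ : Finset RssE) (VS₀ VD₀ : Finset (ℤ × ℤ)) (g₀ : Finset (ℤ × ℤ) → Finset (ℤ × ℤ) → ℝ)
    (F' : Finset (ℤ × ℤ)) (a : Bool) (Y : RswCfg → ℝ) : ℝ :=
  ∑ S ∈ (VS₀ \ rskCore F').powerset, ∑ D ∈ (VD₀ \ F').powerset, ∑ O ∈ (I₀ \ rswInt F').powerset,
    rskInd F' a ⟨S, D, O⟩ * (g₀ S D * ∏ e ∈ I₀ \ rswInt F', rswFac t ⟨S, D, O⟩ e) * Y ⟨S, D, O⟩

theorem rch299_term (t : ℝ) {I₀ : Finset RssE} {VS₀ VD₀ : Finset (ℤ × ℤ)} {g₀ : Finset (ℤ × ℤ) → Finset (ℤ × ℤ) → ℝ}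
    {F' : Finset (ℤ × ℤ)} (hI : rswInt F' ⊆ I₀) (hg : ∀ S D, g₀ (S \ rskCore F') (D \ F') = g₀ S D) (a : Bool) (X Y : RswCfg → ℝ)
    {S₁ S₂ D₁ D₂ : Finset (ℤ × ℤ)} {O₁ O₂ : Finset RssE}
    (hS₁ : S₁ ⊆ rskCore F') (hS₂ : S₂ ⊆ VS₀ \ rskCore F') (hD₁ : D₁ ⊆ F') (hD₂ : D₂ ⊆ VD₀ \ F')
    (hO₁ : O₁ ⊆ rswInt F') (hO₂ : O₂ ⊆ I₀ \ rswInt F') :
    g₀ (S₁ ∪ S₂) (D₁ ∪ D₂) * ((∏ e ∈ I₀, rswFac t ⟨S₁ ∪ S₂, D₁ ∪ D₂, O₁ ∪ O₂⟩ e) *
        (rskInd F' a ⟨S₁ ∪ S₂, D₁ ∪ D₂, O₁ ∪ O₂⟩ * X (rskIn F' ⟨S₁ ∪ S₂, D₁ ∪ D₂, O₁ ∪ O₂⟩) *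
          Y (rskOut F' ⟨S₁ ∪ S₂, D₁ ∪ D₂, O₁ ∪ O₂⟩))) =
      (rswWt t F' a ⟨S₁ ∪ rskRim F' a, D₁, O₁⟩ * X ⟨S₁ ∪ rskRim F' a, D₁, O₁⟩) *
        (rskInd F' a ⟨S₂, D₂, O₂⟩ * (g₀ S₂ D₂ * ∏ e ∈ I₀ \ rswInt F', rswFac t ⟨S₂, D₂, O₂⟩ e) * Y ⟨S₂, D₂, O₂⟩) := by
  classical
  have hout : rskOut F' ⟨S₁ ∪ S₂, D₁ ∪ D₂, O₁ ∪ O₂⟩ = ⟨S₂, D₂, O₂⟩ := by
    unfold rskOut
    simp only [rsk_union_sdiff hS₁ hS₂, rsk_union_sdiff hD₁ hD₂, rsk_union_sdiff hO₁ hO₂]
  have hg' : g₀ (S₁ ∪ S₂) (D₁ ∪ D₂) = g₀ S₂ D₂ := by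
    rw [← hg (S₁ ∪ S₂) (D₁ ∪ D₂), rsk_union_sdiff hS₁ hS₂, rsk_union_sdiff hD₁ hD₂]
  by_cases hc : RswCut F' a ⟨S₁ ∪ S₂, D₁ ∪ D₂, O₁ ∪ O₂⟩
  · have hc' : RswCut F' a ⟨S₂, D₂, O₂⟩ := by
      rw [← hout]; exact rsk_cut_out.2 hc
    have hin : rskIn F' ⟨S₁ ∪ S₂, D₁ ∪ D₂, O₁ ∪ O₂⟩ = ⟨S₁ ∪ rskRim F' a, D₁, O₁⟩ := by
      unfold rskIn
      simp only [rsk_union_inter hD₁ hD₂, rsk_union_inter hO₁ hO₂]
      congr 1
      ext v
      simp only [Finset.mem_inter, Finset.mem_union, rsk_mem_rim]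
      by_cases hv : v ∈ rskCore F'
      · have h2 : v ∉ S₂ := fun h => (Finset.mem_sdiff.1 (hS₂ h)).2 hv
        have h3 := rsk_core_sub F' hv
        simp [hv, h2, h3]
      · have h1 : v ∉ S₁ := fun h => hv (hS₁ h)
        by_cases h3 : v ∈ cornersOf F'
        · have h4 := rsk_cut_rim hc h3 hv
          simp only [Finset.mem_union, h1, false_or] at h4
          simp [hv, h1, h3, h4]
        · simp [h1, h3]
    have hw : ∏ e ∈ I₀, rswFac t ⟨S₁ ∪ S₂, D₁ ∪ D₂, O₁ ∪ O₂⟩ e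
        = rswWt t F' a ⟨S₁ ∪ rskRim F' a, D₁, O₁⟩ * ∏ e ∈ I₀ \ rswInt F', rswFac t ⟨S₂, D₂, O₂⟩ e := by
      rw [← hin, ← hout]
      unfold rswWt
      rw [if_pos (rsk_bc_in hc), ← Finset.prod_sdiff hI, mul_comm]
      congr 1
      · exact Finset.prod_congr rfl (fun e he => (rsk_fac_in t F' _ he).symm)
      · exact Finset.prod_congr rfl (fun e he => (rsk_fac_out t hc (Finset.mem_sdiff.1 he).2).symm)
    rw [hw, hout, hin, hg']
    unfold rskInd
    rw [if_pos hc, if_pos hc']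
    ring
  · have hc' : ¬ RswCut F' a ⟨S₂, D₂, O₂⟩ := by
      rw [← hout]; exact fun h => hc (rsk_cut_out.1 h)
    unfold rskInd
    rw [if_neg hc, if_neg hc']
    ring

/-- **product formula, general ambient** -/
theorem rch299_cut_prod (t : ℝ) {I₀ : Finset RssE} {VS₀ VD₀ : Finset (ℤ × ℤ)} {g₀ : Finset (ℤ × ℤ) → Finset (ℤ × ℤ) → ℝ}
    {F' : Finset (ℤ × ℤ)} (hF : F' ⊆ VD₀) (hC : rskCore F' ⊆ VS₀) (hI : rswInt F' ⊆ I₀)
    (hg : ∀ S D, g₀ (S \ rskCore F') (D \ F') = g₀ S D) (a : Bool) (X Y : RswCfg → ℝ) :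
    rssSum (rswFac t) I₀ VS₀ VD₀ g₀ (fun ω => rskInd F' a ω * X (rskIn F' ω) * Y (rskOut F' ω))
      = rswSum t F' a X * rch299GG t I₀ VS₀ VD₀ g₀ F' a Y := by
  classical
  rw [rsk_sum_in t F' a X]
  unfold rch299GG
  rw [← rsk_sum6 _ _ _ _ _ _
    (fun S D O => rswWt t F' a ⟨S ∪ rskRim F' a, D, O⟩ * X ⟨S ∪ rskRim F' a, D, O⟩)
    (fun S D O => rskInd F' a ⟨S, D, O⟩ * (g₀ S D * ∏ e ∈ I₀ \ rswInt F', rswFac t ⟨S, D, O⟩ e) * Y ⟨S, D, O⟩)]
  unfold rssSum
  rw [rsk_sum_powerset_split hC]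
  refine Finset.sum_congr rfl (fun S₁ hS₁ => Finset.sum_congr rfl (fun S₂ hS₂ => ?_))
  rw [rsk_sum_powerset_split hF]
  refine Finset.sum_congr rfl (fun D₁ hD₁ => Finset.sum_congr rfl (fun D₂ hD₂ => ?_))
  rw [rsk_sum_powerset_split hI]
  refine Finset.sum_congr rfl (fun O₁ hO₁ => Finset.sum_congr rfl (fun O₂ hO₂ => ?_))
  rw [Finset.mem_powerset] at hS₁ hS₂ hD₁ hD₂ hO₁ hO₂
  exact rch299_term t hI hg a X Y hS₁ hS₂ hD₁ hD₂ hO₁ hO₂

theorem rch299_GG_nonneg {t : ℝ} (h0 : 0 ≤ t) (h1 : t ≤ 1) (I₀ : Finset RssE) (VS₀ VD₀ : Finset (ℤ × ℤ))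
    {g₀ : Finset (ℤ × ℤ) → Finset (ℤ × ℤ) → ℝ} (hg : ∀ S D, 0 ≤ g₀ S D) (F' : Finset (ℤ × ℤ)) (a : Bool)
    {Y : RswCfg → ℝ} (hY : ∀ ω, 0 ≤ Y ω) : 0 ≤ rch299GG t I₀ VS₀ VD₀ g₀ F' a Y := by
  unfold rch299GG
  refine Finset.sum_nonneg fun S _ => Finset.sum_nonneg fun D _ => Finset.sum_nonneg fun O _ => ?_
  refine mul_nonneg (mul_nonneg ?_ (mul_nonneg (hg S D) (Finset.prod_nonneg fun e _ => rss_fac_nonneg h0 h1 _ e))) (hY _)
  unfold rskInd
  split_ifs <;> norm_num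

/-- **the search in a general ambient**, inequality form -/
theorem rch299_search {t : ℝ} (h0 : 0 ≤ t) (h1 : t ≤ 1) {I₀ : Finset RssE} {VS₀ F₀ : Finset (ℤ × ℤ)}
    {g₀ : Finset (ℤ × ℤ) → Finset (ℤ × ℤ) → ℝ} (hg0 : ∀ S D, 0 ≤ g₀ S D) (a : Bool) (I' : Finset (ℤ × ℤ))
    (hC : rskCore (F₀ \ I') ⊆ VS₀) (hI : rswInt (F₀ \ I') ⊆ I₀)
    (hg : ∀ S D, g₀ (S \ rskCore (F₀ \ I')) (D \ (F₀ \ I')) = g₀ S D) (X : RswCfg → ℝ) (c : ℝ)
    (hc : c * rswSum t (F₀ \ I') a (fun _ => 1) ≤ rswSum t (F₀ \ I') a X) :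
    c * rssSum (rswFac t) I₀ VS₀ F₀ g₀ (fun ω => rs122Ind F₀ a (rswLayer F₀) I' ω)
      ≤ rssSum (rswFac t) I₀ VS₀ F₀ g₀ (fun ω => rs122Ind F₀ a (rswLayer F₀) I' ω * X (rskIn (F₀ \ I') ω)) := by
  have p1 := rch299_cut_prod t (Finset.sdiff_subset (s := F₀) (t := I')) hC hI hg a X (rs122Ind F₀ a (rswLayer F₀) I')
  have p2 := rch299_cut_prod t (Finset.sdiff_subset (s := F₀) (t := I')) hC hI hg a (fun _ => 1) (rs122Ind F₀ a (rswLayer F₀) I')
  have e1 : (fun ω => rskInd (F₀ \ I') a ω * X (rskIn (F₀ \ I') ω) * rs122Ind F₀ a (rswLayer F₀) I' (rskOut (F₀ \ I') ω))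
      = fun ω => rs122Ind F₀ a (rswLayer F₀) I' ω * X (rskIn (F₀ \ I') ω) := by
    funext ω
    rw [rs122_ind_outside F₀ a (rswLayer F₀) I' ω]
    calc rskInd (F₀ \ I') a ω * X (rskIn (F₀ \ I') ω) * rs122Ind F₀ a (rswLayer F₀) I' ω
        = (rskInd (F₀ \ I') a ω * rs122Ind F₀ a (rswLayer F₀) I' ω) * X (rskIn (F₀ \ I') ω) := by ring
      _ = _ := by rw [rs122_ind_cut le_rfl I' ω]
  have e2 : (fun ω => rskInd (F₀ \ I') a ω * (fun _ => (1 : ℝ)) (rskIn (F₀ \ I') ω) * rs122Ind F₀ a (rswLayer F₀) I' (rskOut (F₀ \ I') ω))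
      = fun ω => rs122Ind F₀ a (rswLayer F₀) I' ω := by
    funext ω
    rw [rs122_ind_outside F₀ a (rswLayer F₀) I' ω, mul_one, rs122_ind_cut le_rfl I' ω]
  rw [e1] at p1
  rw [e2] at p2
  rw [p1, p2, ← mul_assoc]
  exact mul_le_mul_of_nonneg_right hc (rch299_GG_nonneg h0 h1 _ _ _ hg0 _ a (rs122_ind_nonneg F₀ a _ I'))

/-! ## 6. (SH): the exchanged ambient problem, the two dictionaries (E1) (E2), domination of the target, assembly -/

theorem rch299_mem_map {A : Finset (ℤ × ℤ)} {w : ℤ × ℤ} : w ∈ A.map rssSig.toEmbedding ↔ rssSig w ∈ A := by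
  rw [← rss_mem_sig A (rssSig w), rss_sig_sig]

theorem rch299_mem_mapT {B : Finset RssE} {e : RssE} : e ∈ B.map rssTau.toEmbedding ↔ rssTau e ∈ B := by
  rw [← rss_mem_tau B (rssTau e), rss_tau_tau]

/-- the exchanged set of faces -/
def rch299F0 (F : Finset (ℤ × ℤ)) : Finset (ℤ × ℤ) := (cornersOf F).map rssSig.toEmbedding

theorem rch299_inner_F0 {F : Finset (ℤ × ℤ)} {w : ℤ × ℤ} :
    ¬ OnPolygon (rch299F0 F) w ↔ ((-w.2, -w.1) ∈ cornersOf F ∧ (-w.2, -w.1 + 1) ∈ cornersOf F ∧ (-w.2 + 1, -w.1) ∈ cornersOf F ∧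
      (-w.2 + 1, -w.1 + 1) ∈ cornersOf F) := by
  unfold OnPolygon rch299F0
  rw [not_not]
  simp only [rch299_mem_map]
  have hs : ∀ v : ℤ × ℤ, rssSig v = (-v.2, -v.1) := fun _ => rfl
  simp only [hs, neg_sub]
  have e1 : (1 : ℤ) - w.1 = -w.1 + 1 := by ring
  have e2 : (1 : ℤ) - w.2 = -w.2 + 1 := by ring
  rw [e1, e2]


/-- a face whose four corners are corners of `F` is a face of `F` (true for boxes) -/
def Rch299Full (F : Finset (ℤ × ℤ)) : Prop :=
  ∀ f : ℤ × ℤ, f ∈ cornersOf F → (f.1, f.2 + 1) ∈ cornersOf F → (f.1 + 1, f.2) ∈ cornersOf F → (f.1 + 1, f.2 + 1) ∈ cornersOf F → f ∈ F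

theorem rch299_inner_face {F : Finset (ℤ × ℤ)} (hB : Rch299Full F) {w : ℤ × ℤ} (h : ¬ OnPolygon (rch299F0 F) w) : rssSig w ∈ F := by
  rw [rch299_inner_F0] at h
  exact hB (-w.2, -w.1) h.1 h.2.1 h.2.2.1 h.2.2.2

theorem rch299_face_corners {F : Finset (ℤ × ℤ)} {f : ℤ × ℤ} (hf : f ∈ F) :
    f ∈ cornersOf F ∧ (f.1, f.2 + 1) ∈ cornersOf F ∧ (f.1 + 1, f.2) ∈ cornersOf F ∧ (f.1 + 1, f.2 + 1) ∈ cornersOf F := by
  simp only [rsk_mem_corners, add_sub_cancel_right]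
  exact ⟨Or.inl hf, Or.inr (Or.inr (Or.inl hf)), Or.inr (Or.inl hf), Or.inr (Or.inr (Or.inr hf))⟩

theorem rch299_face_inner {F : Finset (ℤ × ℤ)} {w : ℤ × ℤ} (h : rssSig w ∈ F) : ¬ OnPolygon (rch299F0 F) w := by
  rw [rch299_inner_F0]
  exact rch299_face_corners h

theorem rch299_sig_r (v : ℤ × ℤ) : ((rssSig v).1 + 1, (rssSig v).2) = rssSig (v.1, v.2 - 1) := by
  show (-v.2 + 1, -v.1) = (-(v.2 - 1), -v.1)
  rw [neg_sub]; congr 1; ring

theorem rch299_sig_u (v : ℤ × ℤ) : ((rssSig v).1, (rssSig v).2 + 1) = rssSig (v.1 - 1, v.2) := by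
  show (-v.2, -v.1 + 1) = (-v.2, -(v.1 - 1))
  rw [neg_sub]; congr 1; ring

theorem rch299_sig_ru (v : ℤ × ℤ) : ((rssSig v).1 + 1, (rssSig v).2 + 1) = rssSig (v.1 - 1, v.2 - 1) := by
  show (-v.2 + 1, -v.1 + 1) = (-(v.2 - 1), -(v.1 - 1))
  rw [neg_sub, neg_sub]; congr 1 <;> ring

theorem rch299_core_F0 {F : Finset (ℤ × ℤ)} (hB : Rch299Full F) : rskCore (rch299F0 F) ⊆ F.map rssSig.toEmbedding := by
  intro w hw
  rw [rch299_mem_map]
  exact rch299_inner_face hB (rsk_core_iff.1 hw)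

theorem rch299_pol_layer {F : Finset (ℤ × ℤ)} (hB : Rch299Full F) {v : ℤ × ℤ} (hv : v ∈ cornersOf F) (hp : OnPolygon F v) :
    rssSig v ∈ rswLayer (rch299F0 F) := by
  rw [rs122_mem_layer]
  refine ⟨(rss_mem_sig _ v).2 hv, ?_⟩
  by_contra hn
  push Not at hn
  apply hp
  have h1 := rch299_inner_face hB (hn (rssSig v) (by simp))
  have h2 := rch299_inner_face hB (hn _ (by simp : ((rssSig v).1 + 1, (rssSig v).2) ∈ _))
  have h3 := rch299_inner_face hB (hn _ (by simp : ((rssSig v).1, (rssSig v).2 + 1) ∈ _))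
  have h4 := rch299_inner_face hB (hn _ (by simp : ((rssSig v).1 + 1, (rssSig v).2 + 1) ∈ _))
  rw [rss_sig_sig] at h1
  rw [rch299_sig_r, rss_sig_sig] at h2
  rw [rch299_sig_u, rss_sig_sig] at h3
  rw [rch299_sig_ru, rss_sig_sig] at h4
  exact ⟨h1, h3, h2, h4⟩

theorem rch299_layer_pol {F : Finset (ℤ × ℤ)} {f' : ℤ × ℤ} (h : f' ∈ rswLayer (rch299F0 F)) :
    rssSig f' ∈ cornersOf F ∧ OnPolygon F (rssSig f') := by
  rw [rs122_mem_layer] at h
  obtain ⟨h1, w, hw, hp⟩ := h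
  refine ⟨rch299_mem_map.1 h1, ?_⟩
  obtain ⟨v, rfl⟩ : ∃ v, f' = rssSig v := ⟨rssSig f', (rss_sig_sig f').symm⟩
  rw [rss_sig_sig]
  intro hin
  apply hp
  simp only [Finset.mem_insert, Finset.mem_singleton] at hw
  by_contra hp'
  rcases hw with rfl | rfl | rfl | rfl
  · exact rch299_face_inner (by rw [rss_sig_sig]; exact hin.1) hp'
  · exact rch299_face_inner (by rw [rch299_sig_r, rss_sig_sig]; exact hin.2.2.1) hp'
  · exact rch299_face_inner (by rw [rch299_sig_u, rss_sig_sig]; exact hin.2.1) hp'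
  · exact rch299_face_inner (by rw [rch299_sig_ru, rss_sig_sig]; exact hin.2.2.2) hp'

theorem rch299_core_mono {F' F : Finset (ℤ × ℤ)} (h : F' ⊆ F) : rskCore F' ⊆ rskCore F := by
  intro v hv
  rw [rsk_mem_core] at hv ⊢
  exact ⟨h hv.1, h hv.2.1, h hv.2.2.1, h hv.2.2.2⟩

theorem rch299_int_sub {F : Finset (ℤ × ℤ)} (hB : Rch299Full F) {I' : Finset (ℤ × ℤ)} (hL : rswLayer (rch299F0 F) ⊆ I') :
    rswInt (rch299F0 F \ I') ⊆ (rswInt F).map rssTau.toEmbedding := by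
  intro e he
  have h1 := Finset.mem_sdiff.1 (rsk_mem_int.1 he).1
  have hnl : e.1 ∉ rswLayer (rch299F0 F) := fun h => h1.2 (hL h)
  rw [rs122_mem_layer] at hnl
  push Not at hnl
  have hc := hnl h1.1
  rw [rch299_mem_mapT, rsk_mem_int, rss_tau_fst, rss_co_tau]
  refine ⟨rch299_inner_face hB (fun h => hc e.1 (by simp) h), rch299_inner_face hB (fun h => hc (rswEnd e) ?_ h)⟩
  obtain ⟨v, b⟩ := e
  cases b <;> simp [rswEnd]


open Classical in
/-- the pins of the exchanged ambient problem -/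
noncomputable def rch299g0 (F : Finset (ℤ × ℤ)) : Finset (ℤ × ℤ) → Finset (ℤ × ℤ) → ℝ :=
  fun _ D' => if RswBc F true ⟨D'.map rssSig.toEmbedding, ∅, ∅⟩ then 1 else 0

theorem rch299_g0_nonneg (F S D : Finset (ℤ × ℤ)) : 0 ≤ rch299g0 F S D := by
  unfold rch299g0
  split_ifs <;> norm_num

theorem rch299_g0_out {F : Finset (ℤ × ℤ)} (hB : Rch299Full F) {I' : Finset (ℤ × ℤ)} (hL : rswLayer (rch299F0 F) ⊆ I')
    (S D : Finset (ℤ × ℤ)) : rch299g0 F (S \ rskCore (rch299F0 F \ I')) (D \ (rch299F0 F \ I')) = rch299g0 F S D := by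
  classical
  unfold rch299g0
  refine if_congr ?_ rfl rfl
  unfold RswBc
  refine forall_congr' fun v => imp_congr_right fun hv => imp_congr_right fun hp => ?_
  simp only [rch299_mem_map, Finset.mem_sdiff]
  have := hL (rch299_pol_layer hB hv hp)
  tauto

/-- the exchanged ambient problem: statuses `W`, `d` pinned plus on the layer of `F₀`, `s` free -/
noncomputable def rch299Amb (t : ℝ) (F : Finset (ℤ × ℤ)) (X : RswCfg → ℝ) : ℝ :=
  rssSum (rswFac t) ((rswInt F).map rssTau.toEmbedding) (F.map rssSig.toEmbedding) (rch299F0 F) (rch299g0 F) X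

theorem rch299_amb (t : ℝ) (F : Finset (ℤ × ℤ)) (X : RswCfg → ℝ) :
    rch299Amb t F X = rch299Nd t F (fun ω => X (rssEx ω)) := by
  classical
  unfold rch299Amb rch299Nd rch299F0 rch299g0
  exact rss_exchange t (rswInt F) (cornersOf F) F (fun S _ => if RswBc F true ⟨S, ∅, ∅⟩ then 1 else 0) X

theorem rch299_good_ex (a : Bool) (ω' : RswCfg) (e' : RssE) : Rch299Good a (rssEx ω') (rssTau e') ↔ RswGood a ω' e' := by
  unfold Rch299Good RswGood rssEx
  simp only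
  rw [rss_mem_tau, rss_tau_fst, rss_mem_sig, rss_co_tau, rss_mem_sig]

theorem rch299_end_pol {F : Finset (ℤ × ℤ)} {e : RssE} (h : e ∉ rswInt F) : OnPolygon F e.1 ∧ OnPolygon F (rswEnd e) := by
  constructor
  · by_contra hn
    exact h (rsk_fst_core (rsk_core_iff.2 hn))
  · by_contra hn
    exact h (rsk_end_core (rsk_core_iff.2 hn))

/-- (E1) the event of the outer step in the exchanged picture -/
theorem rch299_E1 {F : Finset (ℤ × ℤ)} {ω' : RswCfg} {B : Finset (ℤ × ℤ)} (h : Rch299Sep F true (rssEx ω') (↑B)) :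
    RswSep (rch299F0 F) true ω' (rswLayer (rch299F0 F)) (B.map rssSig.toEmbedding) := by
  intro f' hf' b' hb' hr
  have key : ∀ w', Relation.ReflTransGen (RswStep (rch299F0 F) true ω') f' w' →
      ∃ u ∈ rch299Pol F, Relation.ReflTransGen (Rch299Step F true (rssEx ω')) u (rssSig w') := by
    intro w' hw'
    induction hw' with
    | refl => exact ⟨rssSig f', rch299_layer_pol hf', Relation.ReflTransGen.refl⟩
    | @tail x y _ hs ih =>
      obtain ⟨hx, hy, e', he', hng⟩ := hs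
      obtain ⟨u, hu, hru⟩ := ih
      by_cases hint : rssTau e' ∈ rswInt F
      · refine ⟨u, hu, hru.tail ⟨rssTau e', hint, fun hg => hng ((rch299_good_ex true ω' e').1 hg), ?_⟩⟩
        rw [rss_tau_fst, rss_end_tau]
        rcases he' with ⟨rfl, rfl⟩ | ⟨rfl, rfl⟩
        · exact Or.inl ⟨rfl, rfl⟩
        · exact Or.inr ⟨rfl, rfl⟩
      · have hp := rch299_end_pol hint
        rw [rss_tau_fst, rss_end_tau] at hp
        refine ⟨rssSig y, ⟨rch299_mem_map.1 hy, ?_⟩, Relation.ReflTransGen.refl⟩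
        rcases he' with ⟨rfl, rfl⟩ | ⟨rfl, rfl⟩
        · exact hp.2
        · exact hp.1
  obtain ⟨u, hu, hru⟩ := key b' hr
  exact h u hu (rssSig b') (Finset.mem_coe.2 (rch299_mem_map.1 hb')) hru

theorem rch299_sig_l (g : ℤ × ℤ) : ((rssSig g).1 - 1, (rssSig g).2) = rssSig (g.1, g.2 + 1) := by
  show (-g.2 - 1, -g.1) = (-(g.2 + 1), -g.1)
  congr 1; ring

theorem rch299_sig_d (g : ℤ × ℤ) : ((rssSig g).1, (rssSig g).2 - 1) = rssSig (g.1 + 1, g.2) := by
  show (-g.2, -g.1 - 1) = (-g.2, -(g.1 + 1))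
  congr 1; ring

theorem rch299_sig_ld (g : ℤ × ℤ) : ((rssSig g).1 - 1, (rssSig g).2 - 1) = rssSig (g.1 + 1, g.2 + 1) := by
  show (-g.2 - 1, -g.1 - 1) = (-(g.2 + 1), -(g.1 + 1))
  congr 1 <;> ring

/-- (E2) the event of the inner step gives the circuit of the target -/
theorem rch299_E2 {F : Finset (ℤ × ℤ)} (hB : Rch299Full F) {ω' : RswCfg} {I' : Finset (ℤ × ℤ)} (hL : rswLayer (rch299F0 F) ⊆ I')
    {Bn : Finset (ℤ × ℤ)} (hBn : ∀ f ∈ Bn, ¬ OnPolygon (rch299F0 F \ I') (rssSig f))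
    (h : Rch299Sep (rch299F0 F \ I') false ⟨(rskIn (rch299F0 F \ I') ω').S, (rskIn (rch299F0 F \ I') ω').D,
      rswInt (rch299F0 F \ I') \ (rskIn (rch299F0 F \ I') ω').O⟩ (↑(Bn.map rssSig.toEmbedding))) :
    RswSep F false ⟨(rssEx ω').S, (rssEx ω').D, rswInt F \ (rssEx ω').O⟩ Bn (rswLayer F) := by
  classical
  set F' := rch299F0 F \ I' with hF'
  set η : RswCfg := ⟨(rskIn F' ω').S, (rskIn F' ω').D, rswInt F' \ (rskIn F' ω').O⟩ with hη
  set ωc : RswCfg := ⟨(rssEx ω').S, (rssEx ω').D, rswInt F \ (rssEx ω').O⟩ with hωc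
  intro f₀ hf₀ g hg hr
  have good : ∀ e : RssE, rssTau e ∈ rswInt F' → Rch299Good false η (rssTau e) → RswGood false ωc e := by
    intro e he hgd
    obtain ⟨g1, g2, g3⟩ := hgd
    have hi := rsk_mem_int.1 he
    have a1 : rssTau e ∉ ω'.O := by
      intro hO
      exact (Finset.mem_sdiff.1 g1).2 (Finset.mem_inter.2 ⟨hO, he⟩)
    have a2 : (rssTau e).1 ∉ ω'.D := by
      intro hD
      have := g2.1 (Finset.mem_inter.2 ⟨hD, hi.1⟩)
      exact absurd this (by simp)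
    have a3 : rswCo (rssTau e) ∉ ω'.D := by
      intro hD
      have := g3.1 (Finset.mem_inter.2 ⟨hD, hi.2⟩)
      exact absurd this (by simp)
    have b0 : e ∈ rswInt F := by
      have := rch299_mem_mapT.1 (rch299_int_sub hB hL he)
      rwa [rss_tau_tau] at this
    refine ⟨Finset.mem_sdiff.2 ⟨b0, fun hO => a1 (rch299_mem_mapT.1 hO)⟩, ?_, ?_⟩
    · refine iff_of_false (fun hS => a2 ?_) (by simp)
      exact rch299_mem_map.1 hS
    · refine iff_of_false (fun hS => a3 ?_) (by simp)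
      rw [rss_co_tau]
      exact rch299_mem_map.1 hS
  have key : ∀ w, Relation.ReflTransGen (RswStep F false ωc) f₀ w →
      (Relation.ReflTransGen (Rch299Step F' false η) (rssSig w) (rssSig f₀) ∧ ¬ OnPolygon F' (rssSig w)) ∨
      (∃ p ∈ rch299Pol F', Relation.ReflTransGen (Rch299Step F' false η) p (rssSig f₀)) := by
    intro w hw
    induction hw with
    | refl => exact Or.inl ⟨Relation.ReflTransGen.refl, hBn f₀ hf₀⟩
    | @tail x y _ hs ih =>
      rcases ih with ⟨hrx, hinx⟩ | hp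
      · obtain ⟨_, _, e, he, hng⟩ := hs
        have hcore : rssSig x ∈ rskCore F' := rsk_core_iff.2 hinx
        have he' : rssTau e ∈ rswInt F' := by
          rcases he with ⟨rfl, rfl⟩ | ⟨rfl, rfl⟩
          · exact rsk_fst_core (by rw [rss_tau_fst]; exact hcore)
          · exact rsk_end_core (by rw [rss_end_tau]; exact hcore)
        have hstep : Rch299Step F' false η (rssSig y) (rssSig x) := by
          refine ⟨rssTau e, he', fun hgd => hng (good e he' hgd), ?_⟩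
          rw [rss_tau_fst, rss_end_tau]
          rcases he with ⟨rfl, rfl⟩ | ⟨rfl, rfl⟩
          · exact Or.inr ⟨rfl, rfl⟩
          · exact Or.inl ⟨rfl, rfl⟩
        have hpath := Relation.ReflTransGen.head hstep hrx
        by_cases hpy : OnPolygon F' (rssSig y)
        · refine Or.inr ⟨rssSig y, ⟨?_, hpy⟩, hpath⟩
          have c1 := rsk_int_fst he'
          have c2 := rsk_int_end he'
          rw [rss_tau_fst] at c1
          rw [rss_end_tau] at c2
          rcases he with ⟨rfl, rfl⟩ | ⟨rfl, rfl⟩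
          · exact c2
          · exact c1
        · exact Or.inl ⟨hpath, hpy⟩
      · exact Or.inr hp
  rcases key g hr with ⟨_, hin⟩ | ⟨p, hp, hrp⟩
  · apply hin
    rw [rs122_mem_layer] at hg
    obtain ⟨hgF, v, hv, hpv⟩ := hg
    have hc := rch299_face_corners hgF
    have out : ∀ v, v ∈ cornersOf F → OnPolygon F v → rssSig v ∉ F' := fun v h1 h2 h3 =>
      (Finset.mem_sdiff.1 h3).2 (hL (rch299_pol_layer hB h1 h2))
    simp only [Finset.mem_insert, Finset.mem_singleton] at hv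
    intro hall
    rw [rch299_sig_l, rch299_sig_d, rch299_sig_ld] at hall
    rcases hv with rfl | rfl | rfl | rfl
    · exact out _ hc.1 hpv hall.1
    · exact out _ hc.2.2.1 hpv hall.2.2.1
    · exact out _ hc.2.1 hpv hall.2.1
    · exact out _ hc.2.2.2 hpv hall.2.2.2
  · exact h p hp (rssSig f₀) (Finset.mem_coe.2 ((rss_mem_sig _ _).2 hf₀)) hrp


/-! ### domination of the target -/

theorem rch299_sep_mono_O {F : Finset (ℤ × ℤ)} {a : Bool} {S D : Finset (ℤ × ℤ)} {O O' : Finset RssE} {A B : Finset (ℤ × ℤ)}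
    (hO : O ⊆ O') (h : RswSep F a ⟨S, D, O⟩ A B) : RswSep F a ⟨S, D, O'⟩ A B := by
  intro f hf g hg hr
  refine h f hf g hg (Relation.ReflTransGen.mono ?_ _ _ hr)
  rintro x y ⟨hx, hy, e, he, hn⟩
  exact ⟨hx, hy, e, he, fun hgd => hn ⟨hO hgd.1, hgd.2⟩⟩

theorem rch299_Tdom {t : ℝ} (h1 : 1 / 2 ≤ t) (h2 : t ≤ 1) (F A B : Finset (ℤ × ℤ)) :
    open Classical in
    rch299Nd t F (fun ω => if RswSep F false ⟨ω.S, ω.D, rswInt F \ ω.O⟩ A B then 1 else 0)
      ≤ rswSum t F true (fun ω => if RswSep F false ω A B then 1 else 0) := by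
  classical
  have h0 : 0 ≤ t := by linarith
  have dom := rss_dom_N h1 h2 (rswInt F) (cornersOf F) F (rch299_g_nonneg F)
    (fun ω => if RswSep F false ⟨ω.S, ω.D, rswInt F \ ω.O⟩ A B then 0 else 1) (by
      intro S D N N' hNN _
      by_cases hs : RswSep F false ⟨S, D, rswInt F \ N'⟩ A B
      · have hs' : RswSep F false ⟨S, D, rswInt F \ N⟩ A B :=
          rch299_sep_mono_O (Finset.sdiff_subset_sdiff le_rfl hNN) hs
        simp only [if_pos hs, if_pos hs', le_refl]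
      · simp only [if_neg hs]
        split_ifs <;> norm_num)
  have e1 : rswSum t F true (fun ω => if RswSep F false ω A B then 0 else 1)
      ≤ rssSum (rswFac t) (rswInt F) (cornersOf F) F (fun S _ => if RswBc F true ⟨S, ∅, ∅⟩ then 1 else 0)
        (fun ω => (fun ω : RswCfg => if RswSep F false ⟨ω.S, ω.D, rswInt F \ ω.O⟩ A B then (0 : ℝ) else 1) ⟨ω.S, ω.D, rswInt F \ ω.O⟩) := by
    rw [rss_flat]
    refine rss_sum_le (rss_fac_nonneg h0 h2) _ _ _ (rch299_g_nonneg F) ?_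
    intro S D O _ _ hO
    simp only [Finset.sdiff_sdiff_eq_self hO, le_refl]
  have tot1 : rswSum t F true (fun ω => if RswSep F false ω A B then 1 else 0) + rswSum t F true (fun ω => if RswSep F false ω A B then 0 else 1)
      = rswSum t F true (fun _ => 1) := by
    rw [← rsb_sum_add]
    congr 1
    funext ω
    split_ifs <;> norm_num
  have tot2 : rch299Nd t F (fun ω => if RswSep F false ⟨ω.S, ω.D, rswInt F \ ω.O⟩ A B then 1 else 0)
      + rch299Nd t F (fun ω => if RswSep F false ⟨ω.S, ω.D, rswInt F \ ω.O⟩ A B then 0 else 1) = rswSum t F true (fun _ => 1) := by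
    rw [← rch299_Nd_add, ← rch299_Nd_one h1 h2]
    congr 1
    funext ω
    split_ifs <;> norm_num
  have dom' : rswSum t F true (fun ω => if RswSep F false ω A B then 0 else 1)
      ≤ rch299Nd t F (fun ω => if RswSep F false ⟨ω.S, ω.D, rswInt F \ ω.O⟩ A B then 0 else 1) := e1.trans dom
  linarith

theorem rch299_sum_zero (fac : RswCfg → RssE → ℝ) (I : Finset RssE) (VS VD : Finset (ℤ × ℤ))
    (g : Finset (ℤ × ℤ) → Finset (ℤ × ℤ) → ℝ) : rssSum fac I VS VD g (fun _ => 0) = 0 := by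
  unfold rssSum
  simp

theorem rch299_sum_finset_sum {ι : Type*} (fac : RswCfg → RssE → ℝ) (I : Finset RssE) (VS VD : Finset (ℤ × ℤ))
    (g : Finset (ℤ × ℤ) → Finset (ℤ × ℤ) → ℝ) (s : Finset ι) (X : ι → RswCfg → ℝ) :
    rssSum fac I VS VD g (fun ω => ∑ i ∈ s, X i ω) = ∑ i ∈ s, rssSum fac I VS VD g (X i) := by
  classical
  induction s using Finset.induction_on with
  | empty => simpa using rch299_sum_zero fac I VS VD g
  | insert i s hi ih =>
    simp only [Finset.sum_insert hi]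
    rw [rss_sum_add, ih]

/-! ### the box -/

theorem rch299_full_box {M : ℕ} (hM : 1 ≤ M) : Rch299Full (rswBox 0 M) := by
  intro f h1 h2 h3 h4
  rw [rch299_mem_corners_box hM] at h1 h2 h3 h4
  rw [rch299_mem_box]
  simp only at h2 h3 h4
  omega

theorem rch299_F0_box {M : ℕ} (hM : 1 ≤ M) :
    rch299F0 (rswBox 0 M) = Finset.Ico (-(M : ℤ)) (M + 1) ×ˢ Finset.Ico (-(M : ℤ)) (M + 1) := by
  ext w
  unfold rch299F0
  rw [rch299_mem_map, rch299_mem_corners_box hM, Finset.mem_product, Finset.mem_Ico, Finset.mem_Ico]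
  show ((-(M : ℤ) ≤ -w.2 ∧ -w.2 ≤ M) ∧ (-(M : ℤ) ≤ -w.1 ∧ -w.1 ≤ M)) ↔ _
  omega


/-- **(SH)** from the two geometric records -/
theorem rch299_SH {t : ℝ} (h1 : 1 / 2 ≤ t) (h2 : t ≤ 1) (hGB : Rch299GeoBox) (hGD : Rch299GeoDom) : Rch299SH t := by
  classical
  intro n m M c hn hnm hmM hc0 hyp
  have h0 : 0 ≤ t := by linarith
  have hM : 1 ≤ M := by omega
  have hm : 1 ≤ m := by omega
  set F := rswBox 0 M with hF
  set F₀ := rch299F0 F with hF₀
  set L₀ := rswLayer F₀ with hL₀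
  set B₀ := (cornersOf (rswBox 0 m)).map rssSig.toEmbedding with hB₀
  set Bn := rswBox 0 n with hBn
  have hfull : Rch299Full F := rch299_full_box hM
  have hB₀F : B₀ ⊆ F₀ := Finset.map_subset_map.2 (rsk_corners_mono (rch299_box_mono hmM.le))
  have hconn0 : Rch299Conn {v | OnPolygon F₀ v} := by
    rw [hF₀, hF, rch299_F0_box hM]
    exact hGB _ _ _ _
  -- the inner statistic
  set X : Finset (ℤ × ℤ) → RswCfg → ℝ := fun I' η =>
    if Rch299Sep (F₀ \ I') false ⟨η.S, η.D, rswInt (F₀ \ I') \ η.O⟩ (↑(Bn.map rssSig.toEmbedding)) then 1 else 0 with hX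
  set T : RswCfg → ℝ := fun ω => if RswSep F false ⟨ω.S, ω.D, rswInt F \ ω.O⟩ Bn (rswLayer F) then 1 else 0 with hT
  set P := F₀.powerset.filter (fun I' => Disjoint I' B₀) with hP
  refine le_trans ?_ (rch299_Tdom h1 h2 F Bn (rswLayer F))
  -- to the exchanged picture
  have a1 : rch299Nd t F T = rch299Amb t F (fun ω' => T (rssEx ω')) := by
    rw [rch299_amb]
    simp only [rss_ex_ex]
  have a2 : rch299Nd t F (fun ω => if Rch299Sep F true ω (↑(cornersOf (rswBox 0 m))) then 1 else 0)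
      = rch299Amb t F (fun ω' => if Rch299Sep F true (rssEx ω') (↑(cornersOf (rswBox 0 m))) then 1 else 0) := by
    rw [rch299_amb]
    simp only [rss_ex_ex]
  rw [show rch299Nd t F (fun ω => if RswSep F false ⟨ω.S, ω.D, rswInt F \ ω.O⟩ Bn (rswLayer F) then 1 else 0) = rch299Nd t F T from rfl,
    a1, a2]
  -- (E1)
  have s3 : rch299Amb t F (fun ω' => if Rch299Sep F true (rssEx ω') (↑(cornersOf (rswBox 0 m))) then 1 else 0)
      ≤ rch299Amb t F (fun ω' => if RswSep F₀ true ω' L₀ B₀ then 1 else 0) := by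
    refine rss_sum_le (rss_fac_nonneg h0 h2) _ _ _ (rch299_g0_nonneg F) ?_
    intro S D O _ _ _
    by_cases hs : Rch299Sep F true (rssEx ⟨S, D, O⟩) (↑(cornersOf (rswBox 0 m)))
    · rw [if_pos hs, if_pos (rch299_E1 hs)]
    · rw [if_neg hs]
      split_ifs <;> norm_num
  -- decomposition over the found set
  have s4 : rch299Amb t F (fun ω' => if RswSep F₀ true ω' L₀ B₀ then 1 else 0)
      = ∑ I' ∈ P, rch299Amb t F (fun ω' => rs122Ind F₀ true L₀ I' ω') := by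
    unfold rch299Amb
    rw [← rch299_sum_finset_sum]
    congr 1
    funext ω'
    exact rs122_sep_ind true L₀ hB₀F ω'
  -- the search
  have s5 : ∀ I' ∈ P, c * rch299Amb t F (fun ω' => rs122Ind F₀ true L₀ I' ω')
      ≤ rch299Amb t F (fun ω' => rs122Ind F₀ true L₀ I' ω' * X I' (rskIn (F₀ \ I') ω')) := by
    intro I' hI'
    obtain ⟨hI1, hI2⟩ := Finset.mem_filter.1 hI'
    by_cases hex : ∃ ω₁, rs122Inv F₀ true ω₁ L₀ = I'
    · obtain ⟨ω₁, hω₁⟩ := hex
      have hL : L₀ ⊆ I' := by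
        intro f hf
        rw [← hω₁]
        exact rs122_seed hf (rs122_mem_layer.1 hf).1
      have hsub : B₀ ⊆ F₀ \ I' := fun f hf => Finset.mem_sdiff.2 ⟨hB₀F hf, fun h => Finset.disjoint_left.1 hI2 h hf⟩
      have hbox : rswBox 0 m ⊆ F₀ \ I' := by
        intro f hf
        apply hsub
        rw [hB₀, rch299_mem_map, rch299_mem_corners_box hm]
        rw [rch299_mem_box] at hf
        show (-(m : ℤ) ≤ -f.2 ∧ -f.2 ≤ m) ∧ (-(m : ℤ) ≤ -f.1 ∧ -f.1 ≤ m)
        omega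
      have hconn : Rch299Conn {v | OnPolygon (F₀ \ I') v} := by
        rw [← hω₁]
        exact hGD F₀ true ω₁ hconn0
      exact rch299_search h0 h2 (rch299_g0_nonneg F) true I'
        ((rch299_core_mono Finset.sdiff_subset).trans (rch299_core_F0 hfull)) (rch299_int_sub hfull hL)
        (rch299_g0_out hfull hL) (X I') c (hyp (F₀ \ I') hbox hconn)
    · have hz : ∀ ω', rs122Ind F₀ true L₀ I' ω' = 0 := by
        intro ω'
        unfold rs122Ind
        rw [if_neg (fun h => hex ⟨ω', h⟩)]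
      simp only [hz, zero_mul]
      unfold rch299Amb
      rw [rch299_sum_zero, mul_zero]
  -- (E2)
  have s6 : ∑ I' ∈ P, rch299Amb t F (fun ω' => rs122Ind F₀ true L₀ I' ω' * X I' (rskIn (F₀ \ I') ω'))
      ≤ rch299Amb t F (fun ω' => T (rssEx ω')) := by
    unfold rch299Amb
    rw [← rch299_sum_finset_sum]
    refine rss_sum_le (rss_fac_nonneg h0 h2) _ _ _ (rch299_g0_nonneg F) ?_
    intro S D O _ _ _
    have hT0 : 0 ≤ T (rssEx ⟨S, D, O⟩) := by
      rw [hT]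
      beta_reduce
      split_ifs <;> norm_num
    simp only [rs122Ind, ite_mul, one_mul, zero_mul, Finset.sum_ite_eq]
    split_ifs with hmem
    · obtain ⟨hI1, hI2⟩ := Finset.mem_filter.1 hmem
      set I' := rs122Inv F₀ true ⟨S, D, O⟩ L₀ with hI'
      have hL : L₀ ⊆ I' := fun f hf => rs122_seed hf (rs122_mem_layer.1 hf).1
      have hsub : B₀ ⊆ F₀ \ I' := fun f hf => Finset.mem_sdiff.2 ⟨hB₀F hf, fun h => Finset.disjoint_left.1 hI2 h hf⟩
      have hin : ∀ f ∈ Bn, ¬ OnPolygon (F₀ \ I') (rssSig f) := by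
        intro f hf
        unfold OnPolygon
        rw [not_not, rch299_sig_l, rch299_sig_d, rch299_sig_ld]
        rw [hBn, rch299_mem_box] at hf
        have mem : ∀ v : ℤ × ℤ, ((-(m : ℤ) ≤ v.1 ∧ v.1 ≤ m) ∧ (-(m : ℤ) ≤ v.2 ∧ v.2 ≤ m)) → rssSig v ∈ F₀ \ I' := by
          intro v hv
          apply hsub
          rw [hB₀, rss_mem_sig, rch299_mem_corners_box hm]
          exact hv
        refine ⟨mem _ ?_, mem _ ?_, mem _ ?_, mem _ ?_⟩ <;> (try simp only) <;> omega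
      by_cases hx : Rch299Sep (F₀ \ I') false ⟨(rskIn (F₀ \ I') ⟨S, D, O⟩).S, (rskIn (F₀ \ I') ⟨S, D, O⟩).D,
          rswInt (F₀ \ I') \ (rskIn (F₀ \ I') ⟨S, D, O⟩).O⟩ (↑(Bn.map rssSig.toEmbedding))
      · have := rch299_E2 hfull hL hin hx
        rw [hX, hT]
        beta_reduce
        rw [if_pos hx, if_pos this]
      · rw [hX]
        beta_reduce
        rw [if_neg hx]
        exact hT0
    · exact hT0
  calc c * rch299Amb t F (fun ω' => if Rch299Sep F true (rssEx ω') (↑(cornersOf (rswBox 0 m))) then 1 else 0)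
      ≤ c * rch299Amb t F (fun ω' => if RswSep F₀ true ω' L₀ B₀ then 1 else 0) := mul_le_mul_of_nonneg_left s3 hc0
    _ = ∑ I' ∈ P, c * rch299Amb t F (fun ω' => rs122Ind F₀ true L₀ I' ω') := by rw [s4, Finset.mul_sum]
    _ ≤ ∑ I' ∈ P, rch299Amb t F (fun ω' => rs122Ind F₀ true L₀ I' ω' * X I' (rskIn (F₀ \ I') ω')) := Finset.sum_le_sum s5
    _ ≤ _ := s6


/-! ## 7. the chain lemma from (ONE SIGN), (GEO 1-3) and (T2) -/

/-- **the chain lemma**, general radii, from the deterministic records and (T2) -/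
theorem rch299_chain_gen {t : ℝ} (ht1 : 1 / 2 ≤ t) (ht2 : t < 1) (hO : Rch299OneSign) (hB : Rch299GeoBox) (hR : Rch299GeoRect)
    (hD : Rch299GeoDom) (hT : Rch299T2 t) (n m m' M : ℕ) (hn : 1 ≤ n) (hnm : n < m) (hmm : m ≤ m') (hmM : m' < M) :
    1 / 4 * ((1 - rcPi t m' M) * (1 - rcPi t n m)) ≤ rcU t n M :=
  rch299_chain_of ht1 ht2 (rch299_half ht1 ht2.le hO) (rch299_halfW (by linarith) ht2.le hO) hT (rch299_SH ht1 ht2.le hB hD) hB hR
    n m m' M hn hnm hmm hmM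

/-- **`RcChain t`** from the deterministic records and (T2) -/
theorem rch299_chain {t : ℝ} (ht1 : 1 / 2 ≤ t) (ht2 : t < 1) (hO : Rch299OneSign) (hB : Rch299GeoBox) (hR : Rch299GeoRect)
    (hD : Rch299GeoDom) (hT : Rch299T2 t) : RcChain t :=
  fun n m M hn hnm hmM => rch299_chain_gen ht1 ht2 hO hB hR hD hT n m (m + 2) M hn hnm (by omega) hmM

/-- the equation lemmas of the definitions of this file are generated HERE (RULES.md, rule 6) -/
theorem rch299_defs_eqns_cite : True := by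
  have := @Rch299Good.eq_1
  have := @Rch299Step.eq_1
  have := @Rch299StepC.eq_1
  have := @rch299Pol.eq_1
  have := @Rch299Sep.eq_1
  have := @Rch299SepC.eq_1
  have := @Rch299Conn.eq_1
  have := @rch299Nd.eq_1
  have := @Rch299Half.eq_1
  have := @Rch299HalfW.eq_1
  have := @Rch299T2.eq_1
  have := @Rch299SH.eq_1
  have := @Rch299OneSign.eq_1
  have := @Rch299GeoBox.eq_1
  have := @Rch299GeoRect.eq_1
  have := @Rch299GeoDom.eq_1
  have := @rch299GG.eq_1
  have := @rch299F0.eq_1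
  have := @Rch299Full.eq_1
  have := @rch299g0.eq_1
  have := @rch299Amb.eq_1
  trivial

end Claimed.Agent.R292
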