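import Claimed.Agent.R292.Rsw.Chain299
import Claimed.Agent.R292.Rsw.Dual251

/-!
# Row 292 (S0540), Rsw/ChainGeo251 : the four deterministic records of `Rsw/Chain299`      (pen helper251)

PART 1. Wiring only: the proofs are in `Rsw/Dual251` sec. 12 (potentials on `ℤ²`, connectedness in potential form).
PART 2. N1 of CORE_DICT for the self-dual square `rssSq n` of `Rsw/Sd231`: `rdu251_selfdual_sq` (= the hypothesis `hdual` of `rss_seed_sq`: bond duality of Dual251 + the reflection `rssSig`),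
`rdu251_seed_sq` (`Z ≤ 2 N[W-open left-right crossing]`, any reflected pins), `rdu251_seed_sq_good` (left column pinned plus: `Z ≤ 2 N[PLUS GOOD left-right crossing]`), `rdu251_open_good`.
-/

set_option autoImplicit false

namespace Claimed.Agent.R292

open Claims Claims.C0468

/-- **(ONE SIGN)** -/
theorem rdu251_oneSign : Rch299OneSign := fun G A ω h1 h2 h3 h4 h5 => rdu251_one_sign G A ω h1 h2 h3 h4 h5

/-- **(GEO 1)** -/
theorem rdu251_geoBox : Rch299GeoBox := fun x0 x1 y0 y1 => rdu251_geo_ico x0 x1 y0 y1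

/-- **(GEO 2)** -/
theorem rdu251_geoRect : Rch299GeoRect := fun x0 x1 y0 y1 => rdu251_geo_rect x0 x1 y0 y1

/-- **(GEO 3)** -/
theorem rdu251_geoDom : Rch299GeoDom := fun F a ω h =>
  rdu251_geo_inv F (rs122Inv F a ω (rswLayer F)) a ω (fun _ => rs122_mem) h

/-- **(HALF)** without hypotheses on the geometry -/
theorem rdu251_half {t : ℝ} (h1 : 1 / 2 ≤ t) (h2 : t ≤ 1) : Rch299Half t := rch299_half h1 h2 rdu251_oneSign

/-! ## N1 of CORE_DICT for the self-dual square: the duality hypothesis of `rss_seed_sq` (Rsw/Sd231) and the seed -/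

theorem rdu251_mem_sq {n : ℕ} {v : ℤ × ℤ} : v ∈ rssSq n ↔ (-(n : ℤ) ≤ v.1 ∧ v.1 ≤ n) ∧ (-(n : ℤ) ≤ v.2 ∧ v.2 ≤ n) := by
  simp only [rssSq, Finset.mem_product, Finset.mem_Icc]

/-- the reflected dual step: the reflection of the dual of an edge `e` of `I \ O` is a step along `τ e` -/
theorem rdu251_refl_step {F : Set (ℤ × ℤ)} {A : Finset RssE} {e : RssE} (he : e ∈ A) (h1 : rssSig e.1 ∈ F)
    (h2 : rssSig (rswEnd e) ∈ F) :
    rdu251PStep F (↑(A.map rssTau.toEmbedding) : Set RssE) (rssSig e.1) (rssSig (rswCo e)) :=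
  ⟨rssTau e, Finset.mem_coe.2 ((rss_mem_tau A e).2 he), h1, by rw [rss_co_tau]; exact h2,
    Or.inl ⟨rfl, (rss_end_tau e).symm⟩⟩

/-- **self-duality of the left-right crossing of the self-dual square** (= `hdual` of `rss_seed_sq`) -/
theorem rdu251_selfdual_sq {n : ℕ} (hn : 1 ≤ n) (O : Finset RssE) :
    Rdu251PrimLR (-(n : ℤ)) n (-(n : ℤ)) (n + 1) (↑O : Set RssE) ∨
      Rdu251PrimLR (-(n : ℤ)) n (-(n : ℤ)) (n + 1) (↑((rssIn (rssSq n) \ O).map rssTau.toEmbedding) : Set RssE) := by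
  by_cases hp : Rdu251PrimLR (-(n : ℤ)) n (-(n : ℤ)) (n + 1) (↑O : Set RssE)
  · exact Or.inl hp
  right
  have hd : Rdu251DualBT (-(n : ℤ)) n (-(n : ℤ)) (n + 1) (↑O : Set RssE) := by
    by_contra hnd
    exact hp ((rdu251_duality (by omega) (by omega) _).2 hnd)
  obtain ⟨f, g, hfR, hf, hgR, hg, hch⟩ := hd
  have key : ∀ b, Relation.ReflTransGen (rdu251Step (rdu251Rect (-(n : ℤ)) n (-(n : ℤ)) (n + 1)) (↑O : Set RssE)) f b →
      Rdu251PrimLR (-(n : ℤ)) n (-(n : ℤ)) (n + 1) (↑((rssIn (rssSq n) \ O).map rssTau.toEmbedding) : Set RssE) ∨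
      (b.2 ≤ n - 1 ∧ ∃ u : ℤ × ℤ, u.1 = n ∧ Relation.ReflTransGen (rdu251PStep (rdu251Rect (-(n : ℤ)) n (-(n : ℤ)) (n + 1))
        (↑((rssIn (rssSq n) \ O).map rssTau.toEmbedding) : Set RssE)) u (rssSig b)) := by
    intro b hb
    induction hb with
    | refl =>
      right
      refine ⟨by omega, rssSig f, ?_, Relation.ReflTransGen.refl⟩
      show -f.2 = n
      omega
    | @tail b c _ hstep ih =>
      rcases ih with ih | ⟨ih1, u, hu, hub⟩
      · exact Or.inl ih
      obtain ⟨hbR, hcR, e, hcase, heO⟩ := hstep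
      obtain ⟨b1, b2, b3, b4⟩ := hbR
      obtain ⟨c1, c2, c3, c4⟩ := hcR
      by_cases hc0 : c.2 = -(n : ℤ)
      · right
        refine ⟨by omega, rssSig c, ?_, Relation.ReflTransGen.refl⟩
        show -c.2 = n
        omega
      -- the reflected step
      have hst : rdu251PStep (rdu251Rect (-(n : ℤ)) n (-(n : ℤ)) (n + 1))
          (↑((rssIn (rssSq n) \ O).map rssTau.toEmbedding) : Set RssE) (rssSig b) (rssSig c) := by
        have hgen : rdu251PStep (rdu251Rect (-(n : ℤ)) n (-(n : ℤ)) (n + 1))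
            (↑((rssIn (rssSq n) \ O).map rssTau.toEmbedding) : Set RssE) (rssSig e.1) (rssSig (rswCo e)) := by
          obtain ⟨⟨x, y⟩, o⟩ := e
          have hfaces : ((x, y) = b ∧ rswCo ((x, y), o) = c) ∨ ((x, y) = c ∧ rswCo ((x, y), o) = b) := by
            rcases hcase with ⟨h1, h2⟩ | ⟨h1, h2⟩
            · exact Or.inl ⟨h1.symm, h2.symm⟩
            · exact Or.inr ⟨h1.symm, h2.symm⟩
          cases o
          · have hxy : (-(n : ℤ) ≤ x ∧ x < n) ∧ (-(n : ℤ) + 1 ≤ y ∧ y ≤ n) := by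
              simp only [rswCo, Bool.false_eq_true, if_false] at hfaces
              rcases hfaces with ⟨rfl, rfl⟩ | ⟨rfl, rfl⟩ <;> dsimp only at b1 b2 b3 b4 c1 c2 c3 c4 <;> omega
            refine rdu251_refl_step (Finset.mem_sdiff.2 ⟨(rss_mem_in _ _).2 ⟨?_, ?_, ?_⟩, fun h => heO (Finset.mem_coe.2 h)⟩) ?_ ?_
            · rw [rdu251_mem_sq]; dsimp only; omega
            · rw [rdu251_mem_sq]; simp only [rswEnd, Bool.false_eq_true, if_false]; omega
            · rw [rdu251_mem_sq]; simp only [rswCo, Bool.false_eq_true, if_false]; omega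
            · show (-y, -x) ∈ rdu251Rect _ _ _ _
              rw [rdu251_mem_rect]; dsimp only; omega
            · simp only [rswEnd, Bool.false_eq_true, if_false]
              show (-y, -(x + 1)) ∈ rdu251Rect _ _ _ _
              rw [rdu251_mem_rect]; dsimp only; omega
          · have hxy : (-(n : ℤ) + 1 ≤ x ∧ x < n) ∧ (-(n : ℤ) + 1 ≤ y ∧ y ≤ n - 1) := by
              simp only [rswCo, if_true] at hfaces
              rcases hfaces with ⟨rfl, rfl⟩ | ⟨rfl, rfl⟩ <;> dsimp only at b1 b2 b3 b4 c1 c2 c3 c4 ih1 hc0 <;> omega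
            refine rdu251_refl_step (Finset.mem_sdiff.2 ⟨(rss_mem_in _ _).2 ⟨?_, ?_, ?_⟩, fun h => heO (Finset.mem_coe.2 h)⟩) ?_ ?_
            · rw [rdu251_mem_sq]; dsimp only; omega
            · rw [rdu251_mem_sq]; simp only [rswEnd, if_true]; omega
            · rw [rdu251_mem_sq]; simp only [rswCo, if_true]; omega
            · show (-y, -x) ∈ rdu251Rect _ _ _ _
              rw [rdu251_mem_rect]; dsimp only; omega
            · simp only [rswEnd, if_true]
              show (-(y + 1), -x) ∈ rdu251Rect _ _ _ _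
              rw [rdu251_mem_rect]; dsimp only; omega
        rcases hcase with ⟨rfl, rfl⟩ | ⟨rfl, rfl⟩
        · exact hgen
        · exact rdu251_pstep_symm hgen
      have huc := hub.tail hst
      by_cases hcn : c.2 = n
      · left
        refine ⟨rssSig c, u, ?_, hu, rdu251_pchain_symm huc⟩
        show -c.2 = -(n : ℤ)
        omega
      · right
        exact ⟨by omega, u, hu, huc⟩
  rcases key g hch with h | ⟨h1, _⟩
  · exact h
  · omega

open Classical in
/-- **THE SEED IN THE SELF-DUAL SQUARE**: under any reflected pins the `W`-open edges cross from left to right with probability `≥ 1/2` -/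
theorem rdu251_seed_sq {t : ℝ} (h1 : 1 / 2 ≤ t) (h2 : t ≤ 1) {n : ℕ} (hn : 1 ≤ n) (PS : Finset (ℤ × ℤ)) :
    rssSum (rswFac t) (rssIn (rssSq n)) (rssSq n) (rssSq n) (rssPin PS (PS.map rssSig.toEmbedding)) (fun _ => 1)
      ≤ 2 * rssSum (rswFac t) (rssIn (rssSq n)) (rssSq n) (rssSq n) (rssPin PS (PS.map rssSig.toEmbedding))
          (fun ω => if Rdu251PrimLR (-(n : ℤ)) n (-(n : ℤ)) (n + 1) (↑ω.O : Set RssE) then 1 else 0) :=
  rss_seed_sq h1 h2 n PS (fun O => Rdu251PrimLR (-(n : ℤ)) n (-(n : ℤ)) (n + 1) (↑O : Set RssE))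
    (fun _ _ hAB h => rdu251_primLR_mono le_rfl le_rfl (Finset.coe_subset.2 hAB) h)
    (fun O _ => rdu251_selfdual_sq hn O)

theorem rdu251_supp_S {t : ℝ} {ω : RswCfg} {e : RssE} (h : rswFac t ω e ≠ 0) (he : e ∈ ω.O) :
    (e.1 ∈ ω.S ↔ rswEnd e ∈ ω.S) := by
  classical
  by_contra hc
  apply h
  unfold rswFac
  rw [if_pos he, if_neg hc]

/-- a chain of open edges which starts at a plus vertex is a chain of plus good edges (on the support of the weights) -/
theorem rdu251_open_good {F : Set (ℤ × ℤ)} {ω : RswCfg} {u v : ℤ × ℤ}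
    (hs : ∀ e ∈ ω.O, (e.1 ∈ ω.S ↔ rswEnd e ∈ ω.S)) (hu : ∀ e ∈ ω.O, (e.1 = u ∨ rswEnd e = u) → u ∈ ω.S)
    (h : Relation.ReflTransGen (rdu251PStep F (↑ω.O : Set RssE)) u v) :
    Relation.ReflTransGen (rdu251PStep F (rdu251Good true ω)) u v := by
  have key : ∀ b, Relation.ReflTransGen (rdu251PStep F (↑ω.O : Set RssE)) u b →
      Relation.ReflTransGen (rdu251PStep F (rdu251Good true ω)) u b ∧ (b = u ∨ b ∈ ω.S) := by
    intro b hb
    induction hb with
    | refl => exact ⟨Relation.ReflTransGen.refl, Or.inl rfl⟩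
    | @tail b c _ hstep ih =>
      obtain ⟨ih1, ih2⟩ := ih
      obtain ⟨e, heO, hf1, hf2, hcase⟩ := hstep
      have heO' : e ∈ ω.O := Finset.mem_coe.1 heO
      have hbS : b ∈ ω.S := by
        rcases ih2 with rfl | h
        · rcases hcase with ⟨h1, _⟩ | ⟨_, h1⟩
          · exact hu e heO' (Or.inl h1.symm)
          · exact hu e heO' (Or.inr h1.symm)
        · exact h
      have hse := hs e heO'
      have hboth : e.1 ∈ ω.S ∧ rswEnd e ∈ ω.S := by
        rcases hcase with ⟨rfl, _⟩ | ⟨_, rfl⟩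
        · exact ⟨hbS, hse.1 hbS⟩
        · exact ⟨hse.2 hbS, hbS⟩
      have hgood : e ∈ rdu251Good true ω := ⟨heO', iff_of_true hboth.1 rfl, iff_of_true hboth.2 rfl⟩
      refine ⟨ih1.tail ⟨e, hgood, hf1, hf2, hcase⟩, Or.inr ?_⟩
      rcases hcase with ⟨_, rfl⟩ | ⟨rfl, _⟩
      · exact hboth.2
      · exact hboth.1
  exact (key v h).1

open Classical in
/-- **THE SEED, PLUS GOOD FORM**: if the left column is pinned plus (and any other reflected pins), the PLUS GOOD edges cross the self-dual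
square from left to right with probability `≥ 1/2` -/
theorem rdu251_seed_sq_good {t : ℝ} (h1 : 1 / 2 ≤ t) (h2 : t ≤ 1) {n : ℕ} (hn : 1 ≤ n) (PS : Finset (ℤ × ℤ))
    (hL : ∀ y : ℤ, -(n : ℤ) ≤ y → y ≤ n → (-(n : ℤ), y) ∈ PS) :
    rssSum (rswFac t) (rssIn (rssSq n)) (rssSq n) (rssSq n) (rssPin PS (PS.map rssSig.toEmbedding)) (fun _ => 1)
      ≤ 2 * rssSum (rswFac t) (rssIn (rssSq n)) (rssSq n) (rssSq n) (rssPin PS (PS.map rssSig.toEmbedding))
          (fun ω => if Rdu251PrimLR (-(n : ℤ)) n (-(n : ℤ)) (n + 1) (rdu251Good true ω) then 1 else 0) := by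
  have h0 : 0 ≤ t := by linarith
  refine (rdu251_seed_sq h1 h2 hn PS).trans (mul_le_mul_of_nonneg_left ?_ (by norm_num))
  refine rch299_sum_le_supp (rss_fac_nonneg h0 h2) _ _ _ (rss_pin_nonneg _ _) fun S D O _ _ hO hg hf => ?_
  show (if Rdu251PrimLR (-(n : ℤ)) n (-(n : ℤ)) (n + 1) (↑O : Set RssE) then (1 : ℝ) else 0)
    ≤ if Rdu251PrimLR (-(n : ℤ)) n (-(n : ℤ)) (n + 1) (rdu251Good true ⟨S, D, O⟩) then 1 else 0
  by_cases hc : Rdu251PrimLR (-(n : ℤ)) n (-(n : ℤ)) (n + 1) (↑O : Set RssE)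
  · have hPS : PS ⊆ S := by
      by_contra hn'
      apply hg
      unfold rssPin
      rw [if_neg (fun h => hn' h.1)]
    obtain ⟨u, v, hu, hv, hch⟩ := hc
    have hgood : Rdu251PrimLR (-(n : ℤ)) n (-(n : ℤ)) (n + 1) (rdu251Good true ⟨S, D, O⟩) := by
      refine ⟨u, v, hu, hv, rdu251_open_good (ω := ⟨S, D, O⟩) (fun e he => rdu251_supp_S (hf e (hO he)) he) ?_ hch⟩
      intro e he hend
      have hI := (rss_mem_in _ _).1 (hO he)
      have huV : u ∈ rssSq n := by
        rcases hend with rfl | rfl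
        · exact hI.1
        · exact hI.2.1
      rw [rdu251_mem_sq] at huV
      have : u = (-(n : ℤ), u.2) := by rw [← hu]
      rw [this]
      exact hPS (hL _ huV.2.1 huV.2.2)
    rw [if_pos ⟨u, v, hu, hv, hch⟩, if_pos hgood]
  · rw [if_neg hc]
    split_ifs <;> norm_num

end Claimed.Agent.R292
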