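import Claimed.Agent.R292.Rsw.RenTop109
import Claimed.Agent.R292.Rsw.Sd231
import Claimed.Agent.R292.Rsw.Chain299

/-!
# Row 292 (S0540), Rsw/Model22 : A0, THE MODEL ADAPTER ON `ℤ²`, PIECES UNDER `RcChain`      (pen helper22; prefix `rmo22` / `Rmo22`)      no sorry

(T1) (T2) (T3) (T8) of A0 are held by 12 (`Rsw/RenFkg12`), 189, 291, 159, 109, 122, 107, 237, 251.   HERE: what the chain lemma (R3) of 299 (`Rsw/Chain299`) consumes from the model.

## §1  (T2) for `π`
* `rmo22_exit`      deterministic FIRST EXIT: `F ⊆ G`, a chain of good edges of `G` from a corner of `F` to the polygon of `G` contains a chain of good edges of `F` to the polygon of `F`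
* `rmo22_ncon_inc`, `rmo22_ncon_loc`      "no minus chain" is `RswInc` and `RnzLoc F`
* **`rmo22_T2 : Rrt109Dom t → `** the statement `Rch299T2 t` of 299, unfolded, for ANY `F ⊆ G` and any set `A` of corners of `F`;   `rmo22_T2' : Rrt109Dom t → Rch299T2 t`
## §2  (HALF') for the statuses `W`
* `rmo22_flipD`      flip of `d`: the two colours of the closed cut have the same mass
* `rmo22_open_chain`      on the support of the plus flat law a chain of OPEN `W` edges from the polygon is a chain of plus good edges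
* **`rmo22_halfW : 0 < t → t ≤ 1 → Rch299OneSign → Rch299HalfW t`**
-/

set_option autoImplicit false

namespace Claimed.Agent.R292

open Claims Claims.C0468 Relation

/-! ## 1. (T2) for `π` -/

/-- the vertices of the polygon of `F`      (`rch299Pol` of 299) -/
def rmo22Pol (F : Finset (ℤ × ℤ)) : Set (ℤ × ℤ) := {v | v ∈ cornersOf F ∧ OnPolygon F v}

/-- an edge with an endpoint off the polygon of `F` is an interior edge of `F` -/
theorem rmo22_int_of_inner {F : Finset (ℤ × ℤ)} {e : (ℤ × ℤ) × Bool} {w : ℤ × ℤ} (hw : ¬ OnPolygon F w)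
    (he : w = e.1 ∨ w = rswEnd e) : e ∈ rswInt F := by
  unfold OnPolygon at hw
  rw [not_not] at hw
  obtain ⟨h1, h2, h3, h4⟩ := hw
  obtain ⟨⟨x, y⟩, β⟩ := e
  rw [rsb_mem_int]
  rcases he with rfl | rfl <;> cases β <;>
    simp only [rswEnd, rswCo, Bool.false_eq_true, if_false, if_true, add_sub_cancel_right] at h1 h2 h3 h4 ⊢
  · exact ⟨h1, h3⟩
  · exact ⟨h1, h2⟩
  · exact ⟨h2, h4⟩
  · exact ⟨h3, h4⟩

theorem rmo22_onPolygon_mono {F G : Finset (ℤ × ℤ)} (h : F ⊆ G) {v : ℤ × ℤ} (hv : OnPolygon G v) : OnPolygon F v := by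
  unfold OnPolygon at hv ⊢
  exact fun ⟨h1, h2, h3, h4⟩ => hv ⟨h h1, h h2, h h3, h h4⟩

/-- **first exit** -/
theorem rmo22_exit {F G : Finset (ℤ × ℤ)} (h : F ⊆ G) {a : Bool} {ω : RswCfg} {A : Set (ℤ × ℤ)} (hA : A ⊆ ↑(cornersOf F))
    (hc : RcCon G a ω A (rmo22Pol G)) : RcCon F a ω A (rmo22Pol F) := by
  obtain ⟨u, hu, v, hv, hr⟩ := hc
  have key : (∃ w ∈ rmo22Pol F, ReflTransGen (RcStepP F a ω) u w) ∨ (¬ OnPolygon F v ∧ ReflTransGen (RcStepP F a ω) u v) := by
    clear hv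
    induction hr with
    | refl =>
      by_cases hp : OnPolygon F u
      · exact Or.inl ⟨u, ⟨hA hu, hp⟩, ReflTransGen.refl⟩
      · exact Or.inr ⟨hp, ReflTransGen.refl⟩
    | @tail w c _ hwc ih =>
      rcases ih with ih | ⟨hin, hch⟩
      · exact Or.inl ih
      · obtain ⟨e, _, hg, hor⟩ := hwc
        have heF : e ∈ rswInt F := rmo22_int_of_inner hin (by rcases hor with ⟨h1, _⟩ | ⟨_, h1⟩ <;> simp [h1])
        have hst : RcStepP F a ω w c := ⟨e, heF, hg, hor⟩
        have hcc : c ∈ cornersOf F := by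
          rcases hor with ⟨_, h1⟩ | ⟨h1, _⟩ <;> rw [h1]
          · exact rsb_int_end_corner heF
          · exact rsb_int_fst_corner heF
        by_cases hp : OnPolygon F c
        · exact Or.inl ⟨c, ⟨hcc, hp⟩, hch.tail hst⟩
        · exact Or.inr ⟨hp, hch.tail hst⟩
  rcases key with ⟨w, hw, hch⟩ | ⟨hin, _⟩
  · exact ⟨u, hu, w, hw, hch⟩
  · exact (hin (rmo22_onPolygon_mono h hv.2)).elim

theorem rmo22_con_mono {F : Finset (ℤ × ℤ)} {a : Bool} {ω ω' : RswCfg} {A B : Set (ℤ × ℤ)}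
    (h : ∀ e ∈ rswInt F, RswGood a ω e → RswGood a ω' e) (hc : RcCon F a ω A B) : RcCon F a ω' A B := by
  obtain ⟨u, hu, v, hv, hr⟩ := hc
  have hm : ∀ x y, RcStepP F a ω x y → RcStepP F a ω' x y := fun _ _ ⟨e, he, hg, hor⟩ => ⟨e, he, h e he hg, hor⟩
  refine ⟨u, hu, v, hv, ?_⟩
  clear hv
  induction hr with
  | refl => exact ReflTransGen.refl
  | tail _ hs ih => exact ih.tail (hm _ _ hs)

/-- "no minus chain" is increasing -/
theorem rmo22_ncon_inc (F : Finset (ℤ × ℤ)) (A B : Set (ℤ × ℤ)) : RswInc (fun ω => ¬ RcCon F false ω A B) :=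
  fun _ _ hle hn hc => hn (rmo22_con_mono (fun e _ => hle.2.2 e) hc)

/-- "a plus chain" is increasing -/
theorem rmo22_con_inc (F : Finset (ℤ × ℤ)) (A B : Set (ℤ × ℤ)) : RswInc (fun ω => RcCon F true ω A B) :=
  fun _ _ hle hc => rmo22_con_mono (fun e _ => hle.2.1 e) hc

/-- chains of good edges of `F` are read inside `F` -/
theorem rmo22_con_loc (F : Finset (ℤ × ℤ)) (a : Bool) (A B : Set (ℤ × ℤ)) : RnzLoc F (fun ω => RcCon F a ω A B) :=
  fun _ _ hS hO => ⟨rmo22_con_mono fun _ he => (rrt109_good_congr hS hO he).1,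
    rmo22_con_mono fun _ he => (rrt109_good_congr hS hO he).2⟩

theorem rmo22_ncon_loc (F : Finset (ℤ × ℤ)) (a : Bool) (A B : Set (ℤ × ℤ)) : RnzLoc F (fun ω => ¬ RcCon F a ω A B) :=
  fun ω ω' hS hO => not_congr (rmo22_con_loc F a A B ω ω' hS hO)

/-- **(T2) for `π`**, any `F ⊆ G` -/
theorem rmo22_T2_gen {t : ℝ} (h0 : 0 < t) (h1 : t ≤ 1) (hD : Rrt109Dom t) {F G : Finset (ℤ × ℤ)} (h : F ⊆ G)
    {A : Set (ℤ × ℤ)} (hA : A ⊆ ↑(cornersOf F)) :
    rswP t G false (fun ω => RcCon G false ω A (rmo22Pol G)) ≤ rswP t F false (fun ω => RcCon F false ω A (rmo22Pol F)) := by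
  have e1 := hD F G _ h (rmo22_ncon_inc F A (rmo22Pol F)) (rmo22_ncon_loc F false A (rmo22Pol F))
  rw [rsb_P_compl h0 h1, rsb_P_compl h0 h1] at e1
  have e2 : rswP t G false (fun ω => RcCon G false ω A (rmo22Pol G)) ≤ rswP t G false (fun ω => RcCon F false ω A (rmo22Pol F)) :=
    rsb_P_mono h0 h1 fun ω _ _ hc => rmo22_exit h hA hc
  linarith

theorem rmo22_corners_mono {F G : Finset (ℤ × ℤ)} (h : F ⊆ G) : cornersOf F ⊆ cornersOf G := by
  unfold cornersOf
  exact Finset.biUnion_subset_biUnion_of_subset_left _ h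

/-- **`Rch299T2 t`** of `Rsw/Chain299`, unfolded (`rch299Pol = rmo22Pol` by `rfl`) -/
theorem rmo22_T2 {t : ℝ} (h0 : 0 < t) (h1 : t ≤ 1) (hD : Rrt109Dom t) (n m : ℕ) (G : Finset (ℤ × ℤ)) (hnm : n < m)
    (hG : rswBox 0 m ⊆ G) :
    rswP t G false (fun ω => RcCon G false ω (↑(cornersOf (rswBox 0 n))) {v | v ∈ cornersOf G ∧ OnPolygon G v}) ≤ rcPi t n m :=
  rmo22_T2_gen h0 h1 hD hG (Finset.coe_subset.2 (rmo22_corners_mono (rrt109_box_mono 0 hnm.le)))

/-- the equation lemmas of the definitions of this file are generated HERE (RULES.md, rule 6) -/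
theorem rmo22_defs_eqns_cite : True := by
  have := @rmo22Pol.eq_1
  trivial

theorem rmo22_T2' {t : ℝ} (h0 : 0 < t) (h1 : t ≤ 1) (hD : Rrt109Dom t) : Rch299T2 t :=
  fun n m G hnm hG => rmo22_T2 h0 h1 hD n m G hnm hG

/-! ## 2. (HALF') -/

/-- the configuration whose "open" edges are the CLOSED `W` edges of `G` -/
def rmo22Cl (G : Finset (ℤ × ℤ)) (ω : RswCfg) : RswCfg := ⟨ω.S, ω.D, rswInt G \ ω.O⟩

/-- (a) the flip of `d` -/
theorem rmo22_flipD (t : ℝ) (G : Finset (ℤ × ℤ)) (A : Set (ℤ × ℤ)) :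
    open Classical in
    rswSum t G true (fun ω => if Rch299Sep G true (rmo22Cl G ω) A then 1 else 0)
      = rswSum t G true (fun ω => if Rch299Sep G false (rmo22Cl G ω) A then 1 else 0) := by
  classical
  rw [rsb_sum_flipD]
  refine rsb_sum_congr fun ω _ _ => ?_
  have hm : ∀ e ∈ rswInt G, ((e.1 ∈ G \ ω.D ↔ e.1 ∉ ω.D) ∧ (rswCo e ∈ G \ ω.D ↔ rswCo e ∉ ω.D)) := by
    intro e he
    rw [rsb_mem_int] at he
    simp [Finset.mem_sdiff, he.1, he.2]
  have e2 : Rch299Step G true (rmo22Cl G (rsbFlipD G ω)) = Rch299Step G false (rmo22Cl G ω) := by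
    funext u v
    unfold Rch299Step Rch299Good rmo22Cl rsbFlipD
    refine propext (exists_congr fun e => and_congr_right fun he => ?_)
    simp only [(hm e he).1, (hm e he).2]
    simp
  have e3 : Rch299Sep G true (rmo22Cl G (rsbFlipD G ω)) A ↔ Rch299Sep G false (rmo22Cl G ω) A := by
    unfold Rch299Sep
    rw [e2]
  simp only [e3]

/-- (c) on the support a chain of open `W` edges from the polygon is a chain of plus good edges -/
theorem rmo22_open_chain {t : ℝ} {G : Finset (ℤ × ℤ)} {ω : RswCfg} (hw : rswWt t G true ω ≠ 0) {A : Set (ℤ × ℤ)}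
    (hs : ¬ Rch299SepC G (rmo22Cl G ω) A) : RcCon G true ω A (rch299Pol G) := by
  obtain ⟨hbc, hf⟩ := rsb_wt_ne_zero hw
  unfold Rch299SepC at hs
  push Not at hs
  obtain ⟨u, hu, v, hv, hr⟩ := hs
  have key : ∀ w, ReflTransGen (Rch299StepC G (rmo22Cl G ω)) u w → w ∈ ω.S ∧ ReflTransGen (RcStepP G true ω) w u := by
    intro w hw
    induction hw with
    | refl => exact ⟨(hbc u hu.1 hu.2).2 rfl, ReflTransGen.refl⟩
    | @tail b c _ hbc' ih =>
      obtain ⟨e, he, heO, hh⟩ := hbc'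
      have heO' : e ∈ ω.O := by
        by_contra hn
        exact heO (Finset.mem_sdiff.2 ⟨he, hn⟩)
      have hag := (hf e he).2.1 heO'
      rcases hh with ⟨rfl, rfl⟩ | ⟨rfl, rfl⟩
      · have hgood : RswGood true ω e := ⟨heO', iff_of_true ih.1 rfl, iff_of_true (hag.1 ih.1) rfl⟩
        exact ⟨hag.1 ih.1, ReflTransGen.head ⟨e, he, hgood, Or.inr ⟨rfl, rfl⟩⟩ ih.2⟩
      · have hgood : RswGood true ω e := ⟨heO', iff_of_true (hag.2 ih.1) rfl, iff_of_true ih.1 rfl⟩
        exact ⟨hag.2 ih.1, ReflTransGen.head ⟨e, he, hgood, Or.inl ⟨rfl, rfl⟩⟩ ih.2⟩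
  exact ⟨v, hv, u, hu, (key v hr).2⟩

/-- **(HALF')** from (ONE SIGN) -/
theorem rmo22_halfW {t : ℝ} (h0 : 0 < t) (h1 : t ≤ 1) (hO : Rch299OneSign) : Rch299HalfW t := by
  classical
  intro G A a hG hA hin
  have f := rmo22_flipD t G A
  have one : rswSum t G true (fun ω => 1 - if RcCon G true ω A (rch299Pol G) then 1 else 0)
      ≤ rswSum t G true (fun ω => (if Rch299Sep G true (rmo22Cl G ω) A then 1 else 0) + (if Rch299Sep G false (rmo22Cl G ω) A then 1 else 0)) := by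
    refine rsb_sum_mono h0.le h1 fun ω _ hw => ?_
    by_cases hs : Rch299SepC G (rmo22Cl G ω) A
    · have hd : ∀ e ∈ rswInt G, e ∈ (rmo22Cl G ω).O → (e.1 ∈ (rmo22Cl G ω).D ↔ rswCo e ∈ (rmo22Cl G ω).D) :=
        fun e he heO => ((rsb_wt_ne_zero hw).2 e he).2.2 (Finset.mem_sdiff.1 heO).2
      rcases hO G A (rmo22Cl G ω) hG hA hin hd hs with h | h
      · rw [if_pos h]
        split_ifs <;> norm_num
      · rw [if_pos h]
        split_ifs <;> norm_num
    · rw [if_pos (rmo22_open_chain hw hs)]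
      split_ifs <;> norm_num
  rw [rsb_sum_add, rsb_sum_sub] at one
  have goal : ∀ b : Bool, rswSum t G true (fun ω => if Rch299Sep G b ⟨ω.S, ω.D, rswInt G \ ω.O⟩ A then 1 else 0)
      = rswSum t G true (fun ω => if Rch299Sep G b (rmo22Cl G ω) A then 1 else 0) := fun _ => rfl
  rw [goal]
  cases a
  · linarith
  · linarith

theorem rmo22_defs_eqns_cite2 : True := by
  have := @rmo22Cl.eq_1
  trivial

end Claimed.Agent.R292
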