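import Claimed.Agent.R292.Rsw.Chain299
import Claimed.Agent.R292.Rsw.ChainGeo251
import Claimed.Agent.R292.Rsw.Model22
import Claimed.Agent.R292.Rsw.RenSep189

/-!
# Row 292 (S0540), Rsw/ChainTop299 : (R3) `RcChain t` WITHOUT HYPOTHESES      (owner helper299; prefix `rch299`)

Second file of the pen because of the import layer: `ChainGeo251` (251: ONE SIGN, GEO 1-3) and `Model22` (22: T2 for `π`, on `rrs189_rrt_dom` of 189) import `Chain299`.
-/

set_option autoImplicit false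

namespace Claimed.Agent.R292

open Claims Claims.C0468

/-- (T2) for `π` -/
theorem rch299_T2 (t : ℝ) (ht1 : 1 / 2 ≤ t) (ht2 : t < 1) : Rch299T2 t :=
  fun n m G hnm hG => rmo22_T2 (by linarith) ht2.le (rrs189_rrt_dom ht1 ht2) n m G hnm hG

/-- the chain lemma, general radii -/
theorem rch299_chain_radii (t : ℝ) (ht1 : 1 / 2 ≤ t) (ht2 : t < 1) (n m m' M : ℕ) (hn : 1 ≤ n) (hnm : n < m) (hmm : m ≤ m')
    (hmM : m' < M) : 1 / 4 * ((1 - rcPi t m' M) * (1 - rcPi t n m)) ≤ rcU t n M :=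
  rch299_chain_gen ht1 ht2 rdu251_oneSign rdu251_geoBox rdu251_geoRect rdu251_geoDom (rch299_T2 t ht1 ht2) n m m' M hn hnm hmm hmM

/-- **(R3) THE CHAIN LEMMA** -/
theorem rch299_rcChain (t : ℝ) (ht1 : 1 / 2 ≤ t) (ht2 : t < 1) : RcChain t :=
  rch299_chain ht1 ht2 rdu251_oneSign rdu251_geoBox rdu251_geoRect rdu251_geoDom (rch299_T2 t ht1 ht2)

end Claimed.Agent.R292
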