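import Claimed.Agent.R292.Rsw.TriDict111
import Claimed.Agent.R292.Rsw.Expl107
import Claimed.Agent.R292.Rsw.Dual251

/-!
# Row 292 (S0540), Rsw/Circ237 : R4b CIRC = ONE CIRCUIT      (owner helper237; prefix `rsq`, `Rsq`)

Deterministic.  Vocabulary of `Defs/RSW`, dictionary `TriDict111`, planar kit of R291 (`tsc_plane_timar`, `tsc_plane_meets`).

* §1 `rsq_circuit` (faces inside, good edges around): `C` = the faces reached from `f0` by dual steps inside `F` over edges not in `G`; if every edge of a face of `C` has both faces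
  in `F` and the face `x` is not reached, then the set `rsqCirc F G f0 x` of edges (touching `C`, seen from `x`) consists of edges of `G`, is CONNECTED through primal vertices,
  and separates `C` from `x` in the WHOLE PLANE.   `rsq_circuit_const`: a function which is constant along the edges of `G` takes ONE value on the circuit (T8: one colour, one height).
* §2 `rsq_cocircuit` (vertices inside, dual circuit around): the mirror statement: `C` = the vertices joined to `v0` by edges of `G`; the faces and non-`G` edges which touch `C`, seen from `x`,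
  form ONE dual chain which separates `C` from `x`.
* §3 the vocabulary of `Defs/RSW`: `RswSep` monotone (`rsq_sep_mono`, `rsq_sep_mono_dom`, `rsq_sep_fill`), `rsq_sep_circuit` : `RswSep F a ω A (rswLayer F)`, `A` dual connected  ⟹  one connected circuit of
  good interior edges which separates `A` from every face that is not strictly inside; boxes are dual connected (`rsq_box_conn`); nested annuli (`rsq_sep_nested`).
* §4 SITE DUALITY on a rectangle of VERTICES `[X0,X1] × [Y0,Y1]` (N5 / LSS, order of 121, 21:10Z; from `rdu251_duality` with the edges both of whose ends lie in `M`):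
  `rsq_site_duality` : nn left-right crossing of `M`  ⟺  NO star bottom-top crossing of `Mᶜ`; `rsq_site_duality'` (transposed); `rsq_site_dichotomy`; `rsq_BT_mono`, `rsq_LR_mono`, `rsq_BT_swap`, `rsq_LR_swap`.
* §5 PEIERLS: `K = rsqCompP (rsqInd M) v0` = the nn-component of `v0` in `M` (`rsq_compP_sub`, `_closed`, `_conn`), `w ∉ K`: `rsq_peierls` (every edge of the dual circuit `rsqCoc` has one end in `K`, the other outside `M`),
  `rsq_cocircuit_const'`, `rsq_fac_pos_of_ne`, `rsq_peierls_D` (positive factors: `s` differs, the edges are closed, `d` is CONSTANT on the faces of the circuit),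
  `rsqOut` = outer vertex boundary: `rsq_out_sub` (outside `M`), `rsq_out_nn`, `rsq_outer_star` (STAR CONNECTED), `rsq_out_blocks` (no nn-path from `K` to `w` avoids it).
-/

set_option autoImplicit false
set_option linter.unusedVariables false

namespace Claimed.Agent.R292

open Relation Claimed.Agent.R291
open Claims.C0467 (triAdj)
open Claims Claims.C0468

/-! ## 1. faces inside, a circuit of edges of `G` around -/

/-- the faces reached from `f0` -/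
def rsqComp (F : Set (ℤ × ℤ)) (G : (ℤ × ℤ) × Bool → Prop) (f0 : ℤ × ℤ) : Set (ℤ × ℤ) :=
  {g | ReflTransGen (Rtd111WStep F G) f0 g}

/-- every edge of a face of `C` has both faces in `F` -/
def RsqInner (F C : Set (ℤ × ℤ)) : Prop :=
  ∀ e : (ℤ × ℤ) × Bool, (e.1 ∈ C ∨ rswCo e ∈ C) → e.1 ∈ F ∧ rswCo e ∈ F

/-- the white component of `f0` in the refined lattice -/
def rsqW (F : Set (ℤ × ℤ)) (G : (ℤ × ℤ) × Bool → Prop) (f0 : ℤ × ℤ) : Set (ℤ × ℤ) :=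
  tscComp tscG (rtd111Wh F G) (rtd111F f0)

/-- the outer layer of the white component seen from the refined point `x` -/
def rsqLay (F : Set (ℤ × ℤ)) (G : (ℤ × ℤ) × Bool → Prop) (f0 x : ℤ × ℤ) : Set (ℤ × ℤ) :=
  {d | d ∈ tscComp tscG (rsqW F G f0)ᶜ x ∧ ∃ c ∈ rsqW F G f0, triAdj c d}

/-- THE CIRCUIT: the edges whose point lies in the outer layer seen from the face `x` -/
def rsqCirc (F : Set (ℤ × ℤ)) (G : (ℤ × ℤ) × Bool → Prop) (f0 x : ℤ × ℤ) : Set ((ℤ × ℤ) × Bool) :=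
  {e | rtd111E e ∈ rsqLay F G f0 (rtd111F x)}

theorem rsq_face_of_W {F : Set (ℤ × ℤ)} {G : (ℤ × ℤ) × Bool → Prop} {f0 c g : ℤ × ℤ} (hc : c ∈ rsqW F G f0)
    (hg : Rtd111Face c g) : g ∈ rsqComp F G f0 := rtd111_white_proj hc.2 g hg

theorem rsq_F_mem_W {F : Set (ℤ × ℤ)} {G : (ℤ × ℤ) × Bool → Prop} {f0 g : ℤ × ℤ} (hf0 : f0 ∈ F) :
    rtd111F g ∈ rsqW F G f0 ↔ g ∈ rsqComp F G f0 := by
  constructor
  · intro h
    exact rsq_face_of_W h (Or.inl rfl)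
  · intro h
    have h1 : TscR tscG (rtd111Wh F G) (rtd111F f0) (rtd111F g) := rtd111_white_iff.1 h
    exact ⟨tsc_R_mem h1 (rtd111_F_mem_Wh.2 hf0), h1⟩

theorem rsq_comp_sub {F : Set (ℤ × ℤ)} {G : (ℤ × ℤ) × Bool → Prop} {f0 g : ℤ × ℤ} (hf0 : f0 ∈ F)
    (h : g ∈ rsqComp F G f0) : g ∈ F := rtd111_wchain_mem h hf0

/-- the outer layer is black: vertices and edges of `G` which touch the component -/
theorem rsq_lay_black {F : Set (ℤ × ℤ)} {G : (ℤ × ℤ) × Bool → Prop} {f0 x d : ℤ × ℤ}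
    (hin : RsqInner F (rsqComp F G f0)) (hd : d ∈ rsqLay F G f0 x) :
    (∃ v, d = rtd111P v) ∨ ∃ e : (ℤ × ℤ) × Bool, d = rtd111E e ∧ G e ∧ e.1 ∈ F ∧ rswCo e ∈ F ∧
      (e.1 ∈ rsqComp F G f0 ∨ rswCo e ∈ rsqComp F G f0) := by
  obtain ⟨hdD, c, hc, hcd⟩ := hd
  have hdC : d ∉ rsqW F G f0 := hdD.1
  have hnW : d ∉ rtd111Wh F G := fun hW => hdC (tsc_comp_adj hc hW hcd)
  rcases rtd111_cases d with ⟨v, rfl⟩ | ⟨g, rfl⟩ | ⟨e', rfl⟩
  · exact Or.inl ⟨v, rfl⟩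
  · exfalso
    rcases hc.1 with ⟨f', _, rfl⟩ | ⟨e, h1, h2, _, rfl⟩
    · exact rtd111_adj_FF f' g hcd
    · rcases rtd111_adj_FE (rtd111_adj_symm hcd) with rfl | rfl
      · exact hnW (rtd111_F_mem_Wh.2 h1)
      · exact hnW (rtd111_F_mem_Wh.2 h2)
  · right
    have key : e'.1 ∈ rsqComp F G f0 ∨ rswCo e' ∈ rsqComp F G f0 := by
      rcases hc.1 with ⟨f', _, rfl⟩ | ⟨e, _, _, _, rfl⟩
      · have hf' : f' ∈ rsqComp F G f0 := rsq_face_of_W hc (Or.inl rfl)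
        rcases rtd111_adj_FE hcd with rfl | rfl
        · exact Or.inl hf'
        · exact Or.inr hf'
      · rcases rtd111_adj_EE hcd with h | ⟨h, _⟩
        · exact Or.inl (h ▸ rsq_face_of_W hc (Or.inr ⟨e, rfl, Or.inl rfl⟩))
        · exact Or.inr (h ▸ rsq_face_of_W hc (Or.inr ⟨e, rfl, Or.inr rfl⟩))
    obtain ⟨h1, h2⟩ := hin e' key
    refine ⟨e', rfl, ?_, h1, h2, key⟩
    by_contra hG
    exact hnW (rtd111_E_mem_Wh.2 ⟨h1, h2, hG⟩)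

theorem rsq_lay_sub_Bl {F : Set (ℤ × ℤ)} {G : (ℤ × ℤ) × Bool → Prop} {f0 x : ℤ × ℤ}
    (hin : RsqInner F (rsqComp F G f0)) : rsqLay F G f0 x ⊆ rsqLay F G f0 x ∩ rtd111Bl G := by
  intro d hd
  refine ⟨hd, ?_⟩
  rcases rsq_lay_black hin hd with ⟨v, rfl⟩ | ⟨e, rfl, hG, _⟩
  · exact rtd111_P_mem_Bl v
  · exact rtd111_E_mem_Bl.2 hG

theorem rsq_lay_conn (F : Set (ℤ × ℤ)) (G : (ℤ × ℤ) × Bool → Prop) (f0 x : ℤ × ℤ) : TscConn tscG (rsqLay F G f0 x) :=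
  tsc_plane_timar (tsc_comp_conn (rtd111F f0)) x

/-- **ONE CIRCUIT.** -/
theorem rsq_circuit {F : Set (ℤ × ℤ)} {G : (ℤ × ℤ) × Bool → Prop} {f0 x : ℤ × ℤ} (hf0 : f0 ∈ F)
    (hin : RsqInner F (rsqComp F G f0)) (hx : x ∉ rsqComp F G f0) :
    (∀ e ∈ rsqCirc F G f0 x, G e ∧ e.1 ∈ F ∧ rswCo e ∈ F ∧ (e.1 ∈ rsqComp F G f0 ∨ rswCo e ∈ rsqComp F G f0)) ∧
    (∀ e ∈ rsqCirc F G f0 x, ∀ e' ∈ rsqCirc F G f0 x, ∀ w, (w = e'.1 ∨ w = rswEnd e') →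
      ReflTransGen (Rtd111BStep (fun e => e ∈ rsqCirc F G f0 x)) e.1 w) ∧
    (∀ g ∈ rsqComp F G f0, ¬ ReflTransGen (Rtd111WStep Set.univ (fun e => e ∈ rsqCirc F G f0 x)) g x) := by
  refine ⟨?_, ?_, ?_⟩
  · intro e he
    rcases rsq_lay_black hin he with ⟨v, hv⟩ | ⟨e', he', h⟩
    · exact absurd hv.symm (rtd111_P_ne_E v e)
    · rw [rtd111_E_inj he']
      exact h
  · intro e he e' he' w hw
    have hG : G e := by
      rcases rsq_lay_black hin he with ⟨v, hv⟩ | ⟨e2, he2, h, _⟩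
      · exact absurd hv.symm (rtd111_P_ne_E v e)
      · rw [rtd111_E_inj he2]
        exact h
    have h1 : TscR tscG (rsqLay F G f0 (rtd111F x) ∩ rtd111Bl G) (rtd111E e) (rtd111E e') :=
      tsc_R_mono (rsq_lay_sub_Bl hin) (rsq_lay_conn F G f0 (rtd111F x) _ he _ he')
    have h2 := rtd111_black_proj h1 (u := e.1) (by
      rintro w (hw | ⟨e2, he2, hw⟩)
      · exact absurd hw.symm (rtd111_P_ne_E w e)
      · rw [← rtd111_E_inj he2] at hw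
        rcases hw with rfl | rfl
        · exact ReflTransGen.refl
        · exact ReflTransGen.single ⟨e, ⟨hG, he⟩, Or.inl ⟨rfl, rfl⟩⟩) w (Or.inr ⟨e', rfl, hw⟩)
    refine ReflTransGen.mono (fun a b hab => ?_) _ _ h2
    obtain ⟨e3, ⟨_, h3⟩, h4⟩ := hab
    exact ⟨e3, h3, h4⟩
  · intro g hg hch
    have h1 : TscR tscG (rtd111Wh Set.univ (fun e => e ∈ rsqCirc F G f0 x)) (rtd111F g) (rtd111F x) := rtd111_white_iff.1 hch
    have hxC : rtd111F x ∈ (rsqW F G f0)ᶜ := fun h => hx ((rsq_F_mem_W hf0).1 h)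
    obtain ⟨q, hqQ, hqL⟩ := tsc_plane_meets (C := rsqW F G f0) (x := rtd111F x) (b := rtd111F x) (c := rtd111F g)
      (tsc_comp_self hxC) ((rsq_F_mem_W hf0).2 hg) (tsc_R_symm h1)
    have hqL' : q ∈ rsqLay F G f0 (rtd111F x) := hqL
    rcases hqQ with ⟨f', _, rfl⟩ | ⟨e, _, _, hne, rfl⟩
    · exact rtd111_F_not_mem_Bl f' (rsq_lay_sub_Bl hin hqL').2
    · exact hne hqL'

/-- **ONE VALUE ON THE CIRCUIT** (T8) -/
theorem rsq_circuit_const {α : Type*} {F : Set (ℤ × ℤ)} {G : (ℤ × ℤ) × Bool → Prop} {f0 x : ℤ × ℤ} (hf0 : f0 ∈ F)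
    (hin : RsqInner F (rsqComp F G f0)) (hx : x ∉ rsqComp F G f0) (σ : ℤ × ℤ → α) (hσ : ∀ e, G e → σ e.1 = σ (rswEnd e))
    {e e' : (ℤ × ℤ) × Bool} (he : e ∈ rsqCirc F G f0 x) (he' : e' ∈ rsqCirc F G f0 x) :
    σ e.1 = σ e'.1 ∧ σ e.1 = σ (rswEnd e') := by
  obtain ⟨c1, c2, _⟩ := rsq_circuit hf0 hin hx
  have aux : ∀ w, ReflTransGen (Rtd111BStep (fun e => e ∈ rsqCirc F G f0 x)) e.1 w → σ e.1 = σ w := by
    intro w h
    induction h with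
    | refl => rfl
    | tail _ hs ih =>
      obtain ⟨e3, h3, h4⟩ := hs
      rcases h4 with ⟨rfl, rfl⟩ | ⟨rfl, rfl⟩
      · rw [ih, hσ e3 (c1 e3 h3).1]
      · rw [ih, hσ e3 (c1 e3 h3).1]
  exact ⟨aux _ (c2 e he e' he' _ (Or.inl rfl)), aux _ (c2 e he e' he' _ (Or.inr rfl))⟩

/-! ## 2. vertices inside, a dual circuit around -/

/-- the vertices joined to `v0` by edges of `G` -/
def rsqCompP (G : (ℤ × ℤ) × Bool → Prop) (v0 : ℤ × ℤ) : Set (ℤ × ℤ) := {w | ReflTransGen (Rtd111BStep G) v0 w}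

/-- the black component of `v0` in the refined lattice -/
def rsqB (G : (ℤ × ℤ) × Bool → Prop) (v0 : ℤ × ℤ) : Set (ℤ × ℤ) := tscComp tscG (rtd111Bl G) (rtd111P v0)

/-- its outer layer seen from the refined point `x` -/
def rsqLayP (G : (ℤ × ℤ) × Bool → Prop) (v0 x : ℤ × ℤ) : Set (ℤ × ℤ) :=
  {d | d ∈ tscComp tscG (rsqB G v0)ᶜ x ∧ ∃ c ∈ rsqB G v0, triAdj c d}

/-- THE DUAL CIRCUIT: the edges whose point lies in the outer layer seen from the vertex `w` -/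
def rsqCoc (G : (ℤ × ℤ) × Bool → Prop) (v0 w : ℤ × ℤ) : Set ((ℤ × ℤ) × Bool) := {e | rtd111E e ∈ rsqLayP G v0 (rtd111P w)}

theorem rsq_vert_of_B {G : (ℤ × ℤ) × Bool → Prop} {v0 c u : ℤ × ℤ} (hc : c ∈ rsqB G v0) (hu : Rtd111Vert c u) :
    u ∈ rsqCompP G v0 := by
  have h' : TscR tscG (Set.univ ∩ rtd111Bl G) (rtd111P v0) c := by
    rw [Set.univ_inter]
    exact hc.2
  have := rtd111_black_proj h' (u := v0) (by
    rintro w (hw | ⟨e, he, _⟩)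
    · rw [rtd111_P_inj hw]
    · exact absurd he (rtd111_P_ne_E v0 e)) u hu
  refine ReflTransGen.mono (fun a b hab => ?_) _ _ this
  obtain ⟨e, ⟨h1, _⟩, h2⟩ := hab
  exact ⟨e, h1, h2⟩

theorem rsq_P_mem_B {G : (ℤ × ℤ) × Bool → Prop} {v0 u : ℤ × ℤ} : rtd111P u ∈ rsqB G v0 ↔ u ∈ rsqCompP G v0 := by
  constructor
  · intro h
    exact rsq_vert_of_B h (Or.inl rfl)
  · intro h
    exact ⟨rtd111_P_mem_Bl u, rtd111_black_iff.1 h⟩

/-- the outer layer is white: faces and edges not in `G` which touch the component -/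
theorem rsq_layP_white {G : (ℤ × ℤ) × Bool → Prop} {v0 x d : ℤ × ℤ} (hd : d ∈ rsqLayP G v0 x) :
    (∃ g, d = rtd111F g) ∨ ∃ e : (ℤ × ℤ) × Bool, d = rtd111E e ∧ ¬ G e ∧ (e.1 ∈ rsqCompP G v0 ∨ rswEnd e ∈ rsqCompP G v0) := by
  obtain ⟨hdD, c, hc, hcd⟩ := hd
  have hdC : d ∉ rsqB G v0 := hdD.1
  have hnB : d ∉ rtd111Bl G := fun hB => hdC (tsc_comp_adj hc hB hcd)
  rcases rtd111_cases d with ⟨v, rfl⟩ | ⟨g, rfl⟩ | ⟨e', rfl⟩
  · exact absurd (rtd111_P_mem_Bl v) hnB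
  · exact Or.inl ⟨g, rfl⟩
  · right
    refine ⟨e', rfl, fun hG => hnB (rtd111_E_mem_Bl.2 hG), ?_⟩
    rcases hc.1 with ⟨v, rfl⟩ | ⟨e, _, rfl⟩
    · have hv : v ∈ rsqCompP G v0 := rsq_vert_of_B hc (Or.inl rfl)
      rcases rtd111_adj_PE hcd with rfl | rfl
      · exact Or.inl hv
      · exact Or.inr hv
    · rcases rtd111_adj_EE hcd with h | ⟨_, h⟩
      · exact Or.inl (h ▸ rsq_vert_of_B hc (Or.inr ⟨e, rfl, Or.inl rfl⟩))
      · exact Or.inr (h ▸ rsq_vert_of_B hc (Or.inr ⟨e, rfl, Or.inr rfl⟩))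

theorem rsq_layP_conn (G : (ℤ × ℤ) × Bool → Prop) (v0 x : ℤ × ℤ) : TscConn tscG (rsqLayP G v0 x) :=
  tsc_plane_timar (tsc_comp_conn (rtd111P v0)) x

theorem rsq_layP_sub_Wh (G : (ℤ × ℤ) × Bool → Prop) (v0 w : ℤ × ℤ) :
    rsqLayP G v0 (rtd111P w) ⊆ rtd111Wh Set.univ (fun e => e ∉ rsqCoc G v0 w) := by
  intro d hd
  rcases rsq_layP_white hd with ⟨g, rfl⟩ | ⟨e, rfl, _, _⟩
  · exact rtd111_F_mem_Wh.2 trivial
  · exact rtd111_E_mem_Wh.2 ⟨trivial, trivial, fun h => h hd⟩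

/-- **ONE DUAL CIRCUIT.** -/
theorem rsq_cocircuit {G : (ℤ × ℤ) × Bool → Prop} {v0 w : ℤ × ℤ} (hw : w ∉ rsqCompP G v0) :
    (∀ e ∈ rsqCoc G v0 w, ¬ G e ∧ (e.1 ∈ rsqCompP G v0 ∨ rswEnd e ∈ rsqCompP G v0)) ∧
    (∀ e ∈ rsqCoc G v0 w, ∀ e' ∈ rsqCoc G v0 w, ∀ g, (g = e'.1 ∨ g = rswCo e') →
      ReflTransGen (Rtd111WStep Set.univ (fun e => e ∉ rsqCoc G v0 w)) e.1 g) ∧
    (∀ v ∈ rsqCompP G v0, ¬ ReflTransGen (Rtd111BStep (fun e => e ∉ rsqCoc G v0 w)) v w) := by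
  refine ⟨?_, ?_, ?_⟩
  · intro e he
    rcases rsq_layP_white he with ⟨g, hg⟩ | ⟨e', he', h⟩
    · exact absurd hg.symm (rtd111_F_ne_E g e)
    · rw [rtd111_E_inj he']
      exact h
  · intro e he e' he' g hg
    have hsub := rsq_layP_sub_Wh G v0 w
    have h0 : TscR tscG (rtd111Wh Set.univ (fun e => e ∉ rsqCoc G v0 w)) (rtd111F e.1) (rtd111E e) :=
      tsc_R_step (G := tscG) (rtd111_adj_F1 e) (rtd111_F_mem_Wh.2 trivial) (hsub he)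
    have h1 : TscR tscG (rtd111Wh Set.univ (fun e => e ∉ rsqCoc G v0 w)) (rtd111E e) (rtd111E e') :=
      tsc_R_mono hsub (rsq_layP_conn G v0 (rtd111P w) _ he _ he')
    exact rtd111_white_proj (h0.trans h1) g (Or.inr ⟨e', rfl, hg⟩)
  · intro v hv hch
    have h1 : TscR tscG (rtd111Bl (fun e => e ∉ rsqCoc G v0 w)) (rtd111P v) (rtd111P w) := rtd111_black_iff.1 hch
    have hwC : rtd111P w ∈ (rsqB G v0)ᶜ := fun h => hw (rsq_P_mem_B.1 h)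
    obtain ⟨q, hqQ, hqL⟩ := tsc_plane_meets (C := rsqB G v0) (x := rtd111P w) (b := rtd111P w) (c := rtd111P v)
      (tsc_comp_self hwC) (rsq_P_mem_B.2 hv) (tsc_R_symm h1)
    have hqL' : q ∈ rsqLayP G v0 (rtd111P w) := hqL
    rcases hqQ with ⟨u, rfl⟩ | ⟨e, hne, rfl⟩
    · exact rtd111_P_not_mem_Wh u (rsq_layP_sub_Wh G v0 w hqL')
    · exact hne hqL'

/-- **ONE VALUE ON THE DUAL CIRCUIT** (T8 for the face spin) -/
theorem rsq_cocircuit_const {α : Type*} {G : (ℤ × ℤ) × Bool → Prop} {v0 w : ℤ × ℤ} (hw : w ∉ rsqCompP G v0)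
    (σ : ℤ × ℤ → α) (hσ : ∀ e, ¬ G e → σ e.1 = σ (rswCo e))
    {e e' : (ℤ × ℤ) × Bool} (he : e ∈ rsqCoc G v0 w) (he' : e' ∈ rsqCoc G v0 w) :
    σ e.1 = σ e'.1 ∧ σ e.1 = σ (rswCo e') := by
  obtain ⟨c1, c2, _⟩ := rsq_cocircuit hw
  have aux : ∀ g, ReflTransGen (Rtd111WStep Set.univ (fun e => e ∉ rsqCoc G v0 w)) e.1 g → σ e.1 = σ g := by
    intro g h
    induction h with
    | refl => rfl
    | tail _ hs ih =>
      obtain ⟨_, _, e3, h4, h3⟩ := hs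
      have h3' : e3 ∈ rsqCoc G v0 w := not_not.1 h3
      rcases h4 with ⟨rfl, rfl⟩ | ⟨rfl, rfl⟩
      · rw [ih, hσ e3 (c1 e3 h3').1]
      · rw [ih, hσ e3 (c1 e3 h3').1]
  exact ⟨aux _ (c2 e he e' he' _ (Or.inl rfl)), aux _ (c2 e he e' he' _ (Or.inr rfl))⟩

/-! ## 3. the vocabulary of `Defs/RSW` -/

theorem rsq_sep_mono {F : Finset (ℤ × ℤ)} {a : Bool} {ω : RswCfg} {A B A' B' : Finset (ℤ × ℤ)} (hA : A' ⊆ A) (hB : B' ⊆ B)
    (h : RswSep F a ω A B) : RswSep F a ω A' B' := fun f hf g hg => h f (hA hf) g (hB hg)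

theorem rsq_sep_mono_dom {F F' : Finset (ℤ × ℤ)} {a : Bool} {ω : RswCfg} {A B : Finset (ℤ × ℤ)} (hF : F' ⊆ F)
    (h : RswSep F a ω A B) : RswSep F' a ω A B := by
  intro f hf g hg hch
  refine h f hf g hg (ReflTransGen.mono (fun x y hxy => ?_) _ _ hch)
  exact ⟨hF hxy.1, hF hxy.2.1, hxy.2.2⟩

/-- more good edges: the separation persists -/
theorem rsq_sep_mono_cfg {F : Finset (ℤ × ℤ)} {a : Bool} {ω ω' : RswCfg} {A B : Finset (ℤ × ℤ)}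
    (hG : ∀ e ∈ rswInt F, RswGood a ω e → RswGood a ω' e) (h : RswSep F a ω A B) : RswSep F a ω' A B := by
  intro f hf g hg hch
  refine h f hf g hg (ReflTransGen.mono (fun x y hxy => ?_) _ _ hch)
  obtain ⟨hx, hy, e, he, hne⟩ := hxy
  refine ⟨hx, hy, e, he, fun hgood => hne (hG e ?_ hgood)⟩
  rcases he with ⟨rfl, rfl⟩ | ⟨rfl, rfl⟩
  · exact rsx_mem_int.2 ⟨hx, hy⟩
  · exact rsx_mem_int.2 ⟨hy, hx⟩

theorem rsq_sep_symm {F : Finset (ℤ × ℤ)} {a : Bool} {ω : RswCfg} {A B : Finset (ℤ × ℤ)} (h : RswSep F a ω A B) :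
    RswSep F a ω B A := fun f hf g hg hch => h g hg f hf (rsx_reach_symm hch)

/-- a face of the layer of the big domain which lies in the small domain is in the layer of the small domain -/
theorem rsq_layer_anti {F F' : Finset (ℤ × ℤ)} (hF : F' ⊆ F) {g : ℤ × ℤ} (hg : g ∈ rswLayer F) (hg' : g ∈ F') : g ∈ rswLayer F' := by
  obtain ⟨_, v, hv, hp⟩ := rsx_mem_layer.1 hg
  exact rsx_mem_layer.2 ⟨hg', v, hv, fun hh => hp ⟨hF hh.1, hF hh.2.1, hF hh.2.2.1, hF hh.2.2.2⟩⟩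

/-- **a circuit of the small domain works in every larger domain** -/
theorem rsq_sep_enlarge {F F' : Finset (ℤ × ℤ)} {a : Bool} {ω : RswCfg} {A B : Finset (ℤ × ℤ)} (hA : A ⊆ F')
    (h : RswSep F' a ω A (rswLayer F')) (hB : ∀ g ∈ B, g ∉ F' ∨ g ∈ rswLayer F') : RswSep F a ω A B := by
  intro f hf g hg hch
  have claim : ∀ y, ReflTransGen (RswStep F a ω) f y → (y ∈ F' ∧ y ∉ rswLayer F' ∧ ReflTransGen (RswStep F' a ω) f y) := by
    intro y hy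
    induction hy with
    | refl => exact ⟨hA hf, fun hl => h f hf f hl ReflTransGen.refl, ReflTransGen.refl⟩
    | @tail y z _ hyz ih =>
      obtain ⟨hyF, hyL, hyc⟩ := ih
      obtain ⟨_, _, e, he, hne⟩ := hyz
      have hzF : z ∈ F' := by
        by_contra hz
        rcases he with ⟨rfl, rfl⟩ | ⟨rfl, rfl⟩
        · exact hyL (rsx_layer_of_edge.1 hyF hz)
        · exact hyL (rsx_layer_of_edge.2 hyF hz)
      have hzc : ReflTransGen (RswStep F' a ω) f z := hyc.tail ⟨hyF, hzF, e, he, hne⟩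
      exact ⟨hzF, fun hl => h f hf z hl hzc, hzc⟩
  obtain ⟨h1, h2, _⟩ := claim g hch
  rcases hB g hg with h3 | h3
  · exact h3 h1
  · exact h2 h3

/-- the deterministic half of (T2) for `U`: the event of `exit_rsw_circuit` increases with the domain -/
theorem rsq_sep_layer_mono {F F' : Finset (ℤ × ℤ)} {a : Bool} {ω : RswCfg} {A : Finset (ℤ × ℤ)} (hF : F' ⊆ F) (hA : A ⊆ F')
    (h : RswSep F' a ω A (rswLayer F')) : RswSep F a ω A (rswLayer F) :=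
  rsq_sep_enlarge hA h (fun g hg => by
    by_cases hg' : g ∈ F'
    · exact Or.inr (rsq_layer_anti hF hg hg')
    · exact Or.inl hg')

/-- `A` is dual connected -/
def RsqConn (A : Set (ℤ × ℤ)) : Prop := ∀ f ∈ A, ∀ g ∈ A, ReflTransGen (Rtd111WStep A (fun _ => False)) f g

/-- the good edges which are not inside `A` -/
def rsqFill (a : Bool) (ω : RswCfg) (A : Finset (ℤ × ℤ)) (e : (ℤ × ℤ) × Bool) : Prop :=
  RswGood a ω e ∧ ¬ (e.1 ∈ A ∧ rswCo e ∈ A)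

/-- forgetting the good edges inside `A` does not destroy a separation of `A` -/
theorem rsq_sep_fill {F : Finset (ℤ × ℤ)} {a : Bool} {ω : RswCfg} {A : Finset (ℤ × ℤ)} {f0 g : ℤ × ℤ} (hf0 : f0 ∈ A)
    (h : ReflTransGen (Rtd111WStep (↑F : Set (ℤ × ℤ)) (rsqFill a ω A)) f0 g) :
    ∃ f ∈ A, ReflTransGen (RswStep F a ω) f g := by
  induction h with
  | refl => exact ⟨f0, hf0, ReflTransGen.refl⟩
  | @tail y z _ hyz ih =>
    obtain ⟨f, hf, hch⟩ := ih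
    obtain ⟨hy, hz, e, he, hne⟩ := hyz
    by_cases hgood : RswGood a ω e
    · have hin : e.1 ∈ A ∧ rswCo e ∈ A := by
        by_contra hcon
        exact hne ⟨hgood, hcon⟩
      rcases he with ⟨rfl, rfl⟩ | ⟨rfl, rfl⟩
      · exact ⟨_, hin.2, ReflTransGen.refl⟩
      · exact ⟨_, hin.1, ReflTransGen.refl⟩
    · exact ⟨f, hf, hch.tail ⟨hy, hz, e, he, hgood⟩⟩

/-- **`RswSep` GIVES ONE CIRCUIT**: `A` dual connected and separated from the layer: there is a set `Γ` of good interior edges, connected through primal vertices,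
which separates `A` in the whole plane from every face `x` that is outside `F` or in the layer -/
theorem rsq_sep_circuit {F : Finset (ℤ × ℤ)} {a : Bool} {ω : RswCfg} {A : Finset (ℤ × ℤ)} (hAF : A ⊆ F)
    (hA : RsqConn (↑A : Set (ℤ × ℤ))) (hne : A.Nonempty) (h : RswSep F a ω A (rswLayer F)) {x : ℤ × ℤ} (hx : x ∉ F ∨ x ∈ rswLayer F) :
    ∃ Γ : Set ((ℤ × ℤ) × Bool), (∀ e ∈ Γ, RswGood a ω e ∧ e ∈ rswInt F ∧ ¬ (e.1 ∈ A ∧ rswCo e ∈ A)) ∧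
      (∀ e ∈ Γ, ∀ e' ∈ Γ, ∀ w, (w = e'.1 ∨ w = rswEnd e') → ReflTransGen (Rtd111BStep (fun e => e ∈ Γ)) e.1 w) ∧
      (∀ g ∈ A, ¬ ReflTransGen (Rtd111WStep Set.univ (fun e => e ∈ Γ)) g x) := by
  obtain ⟨f0, hf0⟩ := hne
  have hf0F : f0 ∈ (↑F : Set (ℤ × ℤ)) := hAF hf0
  have hcomp : ∀ g ∈ rsqComp (↑F : Set (ℤ × ℤ)) (rsqFill a ω A) f0, g ∈ F ∧ g ∉ rswLayer F := by
    intro g hg
    refine ⟨rsq_comp_sub hf0F hg, fun hl => ?_⟩
    obtain ⟨f, hf, hch⟩ := rsq_sep_fill hf0 hg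
    exact h f hf g hl hch
  have hin : RsqInner (↑F : Set (ℤ × ℤ)) (rsqComp (↑F : Set (ℤ × ℤ)) (rsqFill a ω A) f0) := by
    intro e he
    rcases he with he | he
    · obtain ⟨h1, h2⟩ := hcomp _ he
      refine ⟨h1, ?_⟩
      by_contra hcon
      exact h2 (rsx_layer_of_edge.1 h1 hcon)
    · obtain ⟨h1, h2⟩ := hcomp _ he
      refine ⟨?_, h1⟩
      by_contra hcon
      exact h2 (rsx_layer_of_edge.2 h1 hcon)
  have hxc : x ∉ rsqComp (↑F : Set (ℤ × ℤ)) (rsqFill a ω A) f0 := by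
    intro hxc
    obtain ⟨h1, h2⟩ := hcomp _ hxc
    rcases hx with hx | hx
    · exact hx h1
    · exact h2 hx
  have hAc : ∀ g ∈ A, g ∈ rsqComp (↑F : Set (ℤ × ℤ)) (rsqFill a ω A) f0 := by
    intro g hg
    refine ReflTransGen.mono (fun y z hyz => ?_) _ _ (hA f0 hf0 g hg)
    obtain ⟨hy, hz, e, he, _⟩ := hyz
    refine ⟨hAF hy, hAF hz, e, he, fun hfill => hfill.2 ?_⟩
    rcases he with ⟨rfl, rfl⟩ | ⟨rfl, rfl⟩
    · exact ⟨hy, hz⟩
    · exact ⟨hz, hy⟩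
  obtain ⟨c1, c2, c3⟩ := rsq_circuit hf0F hin hxc
  refine ⟨rsqCirc (↑F : Set (ℤ × ℤ)) (rsqFill a ω A) f0 x, fun e he => ?_, c2, fun g hg => c3 g (hAc g hg)⟩
  obtain ⟨h1, h2, h3, _⟩ := c1 e he
  exact ⟨h1.1, rsx_mem_int.2 ⟨h2, h3⟩, h1.2⟩

/-- rectangles of faces are dual connected -/
theorem rsq_rect_conn (a b c d : ℤ) : RsqConn (rtd111FB a b c d) := by
  have hor : ∀ (k : ℕ) (x y : ℤ), (x, y) ∈ rtd111FB a b c d → (x + k, y) ∈ rtd111FB a b c d →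
      ReflTransGen (Rtd111WStep (rtd111FB a b c d) (fun _ => False)) (x, y) (x + k, y) := by
    intro k
    induction k with
    | zero =>
      intro x y _ _
      simp only [Nat.cast_zero, add_zero]
      exact ReflTransGen.refl
    | succ k ih =>
      intro x y h1 h2
      have e1 := rtd111_mem_FB.1 h1
      have e2 := rtd111_mem_FB.1 h2
      simp only [Nat.cast_add, Nat.cast_one] at e2
      have h3 : (x + k, y) ∈ rtd111FB a b c d := rtd111_mem_FB.2 ⟨by simp only; omega, by simp only; omega, e1.2.2.1, e1.2.2.2⟩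
      refine (ih x y h1 h3).tail ⟨h3, h2, ((x + (k + 1 : ℕ), y), true), Or.inr ⟨rfl, ?_⟩, fun hh => hh⟩
      rw [rtd111_co_t]
      simp only [Nat.cast_add, Nat.cast_one, Prod.mk.injEq, and_true]
      ring
  have ver : ∀ (k : ℕ) (x y : ℤ), (x, y) ∈ rtd111FB a b c d → (x, y + k) ∈ rtd111FB a b c d →
      ReflTransGen (Rtd111WStep (rtd111FB a b c d) (fun _ => False)) (x, y) (x, y + k) := by
    intro k
    induction k with
    | zero =>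
      intro x y _ _
      simp only [Nat.cast_zero, add_zero]
      exact ReflTransGen.refl
    | succ k ih =>
      intro x y h1 h2
      have e1 := rtd111_mem_FB.1 h1
      have e2 := rtd111_mem_FB.1 h2
      simp only [Nat.cast_add, Nat.cast_one] at e2
      have h3 : (x, y + k) ∈ rtd111FB a b c d := rtd111_mem_FB.2 ⟨e1.1, e1.2.1, by simp only; omega, by simp only; omega⟩
      refine (ih x y h1 h3).tail ⟨h3, h2, ((x, y + (k + 1 : ℕ)), false), Or.inr ⟨rfl, ?_⟩, fun hh => hh⟩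
      rw [rtd111_co_f]
      simp only [Nat.cast_add, Nat.cast_one, Prod.mk.injEq, true_and]
      ring
  have symm : ∀ {p q : ℤ × ℤ}, ReflTransGen (Rtd111WStep (rtd111FB a b c d) (fun _ => False)) p q →
      ReflTransGen (Rtd111WStep (rtd111FB a b c d) (fun _ => False)) q p := by
    intro p q h
    induction h with
    | refl => exact ReflTransGen.refl
    | tail _ hs ih => exact ReflTransGen.head (rtd111_wstep_symm hs) ih
  have hor' : ∀ (x x' y : ℤ), (x, y) ∈ rtd111FB a b c d → (x', y) ∈ rtd111FB a b c d →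
      ReflTransGen (Rtd111WStep (rtd111FB a b c d) (fun _ => False)) (x, y) (x', y) := by
    intro x x' y h1 h2
    rcases le_total x x' with hle | hle
    · obtain ⟨k, rfl⟩ : ∃ k : ℕ, x' = x + k := ⟨(x' - x).toNat, by omega⟩
      exact hor k x y h1 h2
    · obtain ⟨k, rfl⟩ : ∃ k : ℕ, x = x' + k := ⟨(x - x').toNat, by omega⟩
      exact symm (hor k x' y h2 h1)
  have ver' : ∀ (x y y' : ℤ), (x, y) ∈ rtd111FB a b c d → (x, y') ∈ rtd111FB a b c d →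
      ReflTransGen (Rtd111WStep (rtd111FB a b c d) (fun _ => False)) (x, y) (x, y') := by
    intro x y y' h1 h2
    rcases le_total y y' with hle | hle
    · obtain ⟨k, rfl⟩ : ∃ k : ℕ, y' = y + k := ⟨(y' - y).toNat, by omega⟩
      exact ver k x y h1 h2
    · obtain ⟨k, rfl⟩ : ∃ k : ℕ, y = y' + k := ⟨(y - y').toNat, by omega⟩
      exact symm (ver k x y' h2 h1)
  rintro ⟨x, y⟩ h1 ⟨x', y'⟩ h2
  have e1 := rtd111_mem_FB.1 h1
  have e2 := rtd111_mem_FB.1 h2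
  have h3 : (x', y) ∈ rtd111FB a b c d := rtd111_mem_FB.2 ⟨e2.1, e2.2.1, e1.2.2.1, e1.2.2.2⟩
  exact (hor' x x' y h1 h3).trans (ver' x' y y' h3 h2)

theorem rsq_box_conn (z : ℤ × ℤ) (n : ℕ) : RsqConn (↑(rswBox z n) : Set (ℤ × ℤ)) := by
  rw [rtd111_rswBox, rtd111_coe_Rc]
  exact rsq_rect_conn _ _ _ _

theorem rsq_box_sub (z : ℤ × ℤ) {n m : ℕ} (h : n ≤ m) : rswBox z n ⊆ rswBox z m := by
  intro p hp
  simp only [rswBox, Finset.mem_product, Finset.mem_Ico] at hp ⊢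
  have : (n : ℤ) ≤ m := by exact_mod_cast h
  omega

theorem rsq_box_nonempty (z : ℤ × ℤ) {n : ℕ} (h : 1 ≤ n) : (rswBox z n).Nonempty := by
  refine ⟨z, ?_⟩
  simp only [rswBox, Finset.mem_product, Finset.mem_Ico]
  have : (1 : ℤ) ≤ n := by exact_mod_cast h
  omega

/-- nested annuli: the event of `exit_rsw_circuit` is monotone in both radii -/
theorem rsq_sep_nested (z : ℤ × ℤ) {n n' N N' : ℕ} (hn : n' ≤ n) (hnN : n ≤ N) (hN : N ≤ N') {a : Bool} {ω : RswCfg}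
    (h : RswSep (rswBox z N) a ω (rswBox z n) (rswLayer (rswBox z N))) :
    RswSep (rswBox z N') a ω (rswBox z n') (rswLayer (rswBox z N')) :=
  rsq_sep_mono (rsq_box_sub z hn) (Finset.Subset.refl _) (rsq_sep_layer_mono (rsq_box_sub z hN) (rsq_box_sub z hnN) h)

/-- the event of `exit_rsw_circuit` gives ONE circuit of good edges round the inner box -/
theorem rsq_box_circuit (z : ℤ × ℤ) {n N : ℕ} (hn : 1 ≤ n) (hnN : n ≤ N) {a : Bool} {ω : RswCfg}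
    (h : RswSep (rswBox z N) a ω (rswBox z n) (rswLayer (rswBox z N))) {x : ℤ × ℤ} (hx : x ∉ rswBox z N ∨ x ∈ rswLayer (rswBox z N)) :
    ∃ Γ : Set ((ℤ × ℤ) × Bool), (∀ e ∈ Γ, RswGood a ω e ∧ e ∈ rswInt (rswBox z N) ∧ ¬ (e.1 ∈ rswBox z n ∧ rswCo e ∈ rswBox z n)) ∧
      (∀ e ∈ Γ, ∀ e' ∈ Γ, ∀ w, (w = e'.1 ∨ w = rswEnd e') → ReflTransGen (Rtd111BStep (fun e => e ∈ Γ)) e.1 w) ∧
      (∀ g ∈ rswBox z n, ¬ ReflTransGen (Rtd111WStep Set.univ (fun e => e ∈ Γ)) g x) :=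
  rsq_sep_circuit (rsq_box_sub z hnN) (rsq_box_conn z n) (rsq_box_nonempty z hn) h hx

/-- the equation lemmas of the definitions of this file are generated HERE (RULES.md, rule 6) -/
theorem rsq_defs_eqns_cite : True := by
  have := @rsqComp.eq_1
  have := @RsqInner.eq_1
  have := @rsqW.eq_1
  have := @rsqLay.eq_1
  have := @rsqCirc.eq_1
  have := @rsqCompP.eq_1
  have := @rsqB.eq_1
  have := @rsqLayP.eq_1
  have := @rsqCoc.eq_1
  have := @RsqConn.eq_1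
  have := @rsqFill.eq_1
  trivial

/-! ## 4. SITE duality on a rectangle of vertices (N5 / LSS): nn-paths of `M` against star-paths of `Mᶜ` -/

/-- nearest neighbours -/
def RsqNN (u v : ℤ × ℤ) : Prop :=
  (u.2 = v.2 ∧ (v.1 = u.1 + 1 ∨ u.1 = v.1 + 1)) ∨ (u.1 = v.1 ∧ (v.2 = u.2 + 1 ∨ u.2 = v.2 + 1))

/-- star neighbours (or equal) -/
def RsqStar (u v : ℤ × ℤ) : Prop := u.1 - v.1 ≤ 1 ∧ v.1 - u.1 ≤ 1 ∧ u.2 - v.2 ≤ 1 ∧ v.2 - u.2 ≤ 1

/-- one step of a path inside `A` -/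
def RsqIn (r : ℤ × ℤ → ℤ × ℤ → Prop) (A : Set (ℤ × ℤ)) (u v : ℤ × ℤ) : Prop := u ∈ A ∧ v ∈ A ∧ r u v

/-- the rectangle of VERTICES `[X0,X1] × [Y0,Y1]` -/
def rsqVR (X0 X1 Y0 Y1 : ℤ) : Set (ℤ × ℤ) := {v | X0 ≤ v.1 ∧ v.1 ≤ X1 ∧ Y0 ≤ v.2 ∧ v.2 ≤ Y1}

/-- an `r`-path of vertices of `A` inside the rectangle from the left column to the right column -/
def RsqLR (r : ℤ × ℤ → ℤ × ℤ → Prop) (X0 X1 Y0 Y1 : ℤ) (A : Set (ℤ × ℤ)) : Prop :=
  ∃ u v : ℤ × ℤ, u ∈ A ∩ rsqVR X0 X1 Y0 Y1 ∧ u.1 = X0 ∧ v.1 = X1 ∧ ReflTransGen (RsqIn r (A ∩ rsqVR X0 X1 Y0 Y1)) u v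

/-- an `r`-path of vertices of `A` inside the rectangle from the bottom row to the top row -/
def RsqBT (r : ℤ × ℤ → ℤ × ℤ → Prop) (X0 X1 Y0 Y1 : ℤ) (A : Set (ℤ × ℤ)) : Prop :=
  ∃ u v : ℤ × ℤ, u ∈ A ∩ rsqVR X0 X1 Y0 Y1 ∧ u.2 = Y0 ∧ v.2 = Y1 ∧ ReflTransGen (RsqIn r (A ∩ rsqVR X0 X1 Y0 Y1)) u v

/-- the edges with both ends in `M` -/
def rsqInd (M : Set (ℤ × ℤ)) (e : (ℤ × ℤ) × Bool) : Prop := e.1 ∈ M ∧ rswEnd e ∈ M

/-- `M` inside the rectangle, with one full column added on the left and on the right -/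
def rsqExt (X0 X1 Y0 Y1 : ℤ) (M : Set (ℤ × ℤ)) : Set (ℤ × ℤ) :=
  {v | Y0 ≤ v.2 ∧ v.2 ≤ Y1 ∧ (v.1 = X0 - 1 ∨ v.1 = X1 + 1 ∨ (X0 ≤ v.1 ∧ v.1 ≤ X1 ∧ v ∈ M))}

/-- `c` is a corner of the face `z` -/
def RsqCorner (z c : ℤ × ℤ) : Prop := (c.1 = z.1 ∨ c.1 = z.1 + 1) ∧ (c.2 = z.2 ∨ c.2 = z.2 + 1)

theorem rsq_in_mem {r : ℤ × ℤ → ℤ × ℤ → Prop} {A : Set (ℤ × ℤ)} {u v : ℤ × ℤ} (h : ReflTransGen (RsqIn r A) u v)
    (hu : u ∈ A) : v ∈ A := by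
  cases h with
  | refl => exact hu
  | tail _ hs => exact hs.2.1

theorem rsq_nn_edge (e : (ℤ × ℤ) × Bool) : RsqNN e.1 (rswEnd e) ∧ RsqNN (rswEnd e) e.1 := by
  obtain ⟨⟨a, b⟩, t⟩ := e
  cases t <;> simp [RsqNN, rswEnd]

theorem rsq_corner_edge (e : (ℤ × ℤ) × Bool) :
    RsqCorner e.1 e.1 ∧ RsqCorner e.1 (rswEnd e) ∧ RsqCorner (rswCo e) e.1 ∧ RsqCorner (rswCo e) (rswEnd e) := by
  obtain ⟨⟨a, b⟩, t⟩ := e
  cases t <;> simp [RsqCorner, rswEnd, rswCo]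

theorem rsq_corner_star {z c c' : ℤ × ℤ} (h : RsqCorner z c) (h' : RsqCorner z c') : RsqStar c c' := by
  obtain ⟨h1, h2⟩ := h
  obtain ⟨h3, h4⟩ := h'
  refine ⟨?_, ?_, ?_, ?_⟩ <;> omega

theorem rsq_star_of_nn {u v : ℤ × ℤ} (h : RsqNN u v) : RsqStar u v := by
  unfold RsqNN at h
  refine ⟨?_, ?_, ?_, ?_⟩ <;> omega

theorem rsq_around_mem {z f : ℤ × ℤ} :
    f ∈ rdu251Around z ↔ (f.1 = z.1 ∨ f.1 = z.1 - 1) ∧ (f.2 = z.2 ∨ f.2 = z.2 - 1) := by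
  obtain ⟨a, b⟩ := f
  obtain ⟨c, d⟩ := z
  simp only [rdu251Around, Set.mem_ofPred_eq, Prod.mk.injEq]
  constructor
  · rintro (⟨rfl, rfl⟩ | ⟨rfl, rfl⟩ | ⟨rfl, rfl⟩ | ⟨rfl, rfl⟩) <;> simp
  · rintro ⟨rfl | rfl, rfl | rfl⟩ <;> simp

/-- a left-right chain of edges of the extended set gives an nn-crossing -/
theorem rsq_nnLR_of_prim {X0 X1 Y0 Y1 : ℤ} (hX : X0 ≤ X1) (M : Set (ℤ × ℤ))
    (h : Rdu251PrimLR (X0 - 1) (X1 + 1) (Y0 - 1) (Y1 + 1) {e | rsqInd (rsqExt X0 X1 Y0 Y1 M) e}) :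
    RsqLR RsqNN X0 X1 Y0 Y1 M := by
  obtain ⟨u, v, hu, hv, hch⟩ := h
  by_contra hno
  have key : ∀ z, ReflTransGen (rdu251PStep (rdu251Rect (X0 - 1) (X1 + 1) (Y0 - 1) (Y1 + 1))
      {e | rsqInd (rsqExt X0 X1 Y0 Y1 M) e}) u z →
      z.1 = X0 - 1 ∨ (z ∈ M ∩ rsqVR X0 X1 Y0 Y1 ∧ ∃ b, b ∈ M ∩ rsqVR X0 X1 Y0 Y1 ∧ b.1 = X0 ∧
        ReflTransGen (RsqIn RsqNN (M ∩ rsqVR X0 X1 Y0 Y1)) b z) := by
    intro z hz
    induction hz with
    | refl => exact Or.inl hu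
    | @tail z z' _ hs ih =>
      obtain ⟨e, heG, _, _, hzz⟩ := hs
      have hnn : RsqNN z z' ∧ z' ∈ rsqExt X0 X1 Y0 Y1 M := by
        rcases hzz with ⟨rfl, rfl⟩ | ⟨rfl, rfl⟩
        · exact ⟨(rsq_nn_edge e).1, heG.2⟩
        · exact ⟨(rsq_nn_edge e).2, heG.1⟩
      obtain ⟨hnn, h1, h2, h3⟩ := hnn
      have hst := rsq_star_of_nn hnn
      obtain ⟨s1, s2, s3, s4⟩ := hst
      rcases h3 with h3 | h3 | ⟨h3, h4, h5⟩
      · exact Or.inl h3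
      · exfalso
        rcases ih with ih | ⟨hzM, b, hb, hb0, hbz⟩
        · omega
        · refine hno ⟨b, z, hb, hb0, ?_, hbz⟩
          have := hzM.2.2.1
          omega
      · have hz'M : z' ∈ M ∩ rsqVR X0 X1 Y0 Y1 := ⟨h5, h3, h4, h1, h2⟩
        rcases ih with ih | ⟨hzM, b, hb, hb0, hbz⟩
        · exact Or.inr ⟨hz'M, z', hz'M, by omega, ReflTransGen.refl⟩
        · exact Or.inr ⟨hz'M, b, hb, hb0, hbz.tail ⟨hzM, hz'M, hnn⟩⟩
  rcases key v hch with h | ⟨h, _⟩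
  · omega
  · have := h.2.2.1
    omega

theorem rsq_pstep_of_nn {X0 X1 Y0 Y1 : ℤ} {M : Set (ℤ × ℤ)} {z z' : ℤ × ℤ} (hz : z ∈ M ∩ rsqVR X0 X1 Y0 Y1)
    (hz' : z' ∈ M ∩ rsqVR X0 X1 Y0 Y1) (h : RsqNN z z') :
    rdu251PStep (rdu251Rect (X0 - 1) (X1 + 1) (Y0 - 1) (Y1 + 1)) {e | rsqInd (rsqExt X0 X1 Y0 Y1 M) e} z z' := by
  obtain ⟨hzM, a1, a2, a3, a4⟩ := hz
  obtain ⟨hz'M, b1, b2, b3, b4⟩ := hz'
  have hzE : z ∈ rsqExt X0 X1 Y0 Y1 M := ⟨a3, a4, Or.inr (Or.inr ⟨a1, a2, hzM⟩)⟩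
  have hz'E : z' ∈ rsqExt X0 X1 Y0 Y1 M := ⟨b3, b4, Or.inr (Or.inr ⟨b1, b2, hz'M⟩)⟩
  obtain ⟨x, y⟩ := z
  obtain ⟨x', y'⟩ := z'
  simp only at a1 a2 a3 a4 b1 b2 b3 b4
  simp only [RsqNN] at h
  rcases h with ⟨h1, h2 | h2⟩ | ⟨h1, h2 | h2⟩
  · subst h1 h2
    refine ⟨((x, y), false), ⟨hzE, by simpa [rswEnd] using hz'E⟩, ?_, ?_, Or.inl ⟨rfl, by simp [rswEnd]⟩⟩
    · exact ⟨by simp only; omega, by simp only; omega, by simp only; omega, by simp only; omega⟩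
    · simp only [rswCo]
      exact ⟨by simp <;> omega, by simp <;> omega, by simp <;> omega, by simp <;> omega⟩
  · subst h1 h2
    refine ⟨((x', y), false), ⟨hz'E, by simpa [rswEnd] using hzE⟩, ?_, ?_, Or.inr ⟨rfl, by simp [rswEnd]⟩⟩
    · exact ⟨by simp only; omega, by simp only; omega, by simp only; omega, by simp only; omega⟩
    · simp only [rswCo]
      exact ⟨by simp <;> omega, by simp <;> omega, by simp <;> omega, by simp <;> omega⟩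
  · subst h1 h2
    refine ⟨((x, y), true), ⟨hzE, by simpa [rswEnd] using hz'E⟩, ?_, ?_, Or.inl ⟨rfl, by simp [rswEnd]⟩⟩
    · exact ⟨by simp only; omega, by simp only; omega, by simp only; omega, by simp only; omega⟩
    · simp only [rswCo]
      exact ⟨by simp <;> omega, by simp <;> omega, by simp <;> omega, by simp <;> omega⟩
  · subst h1 h2
    refine ⟨((x, y'), true), ⟨hz'E, by simpa [rswEnd] using hzE⟩, ?_, ?_, Or.inr ⟨rfl, by simp [rswEnd]⟩⟩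
    · exact ⟨by simp only; omega, by simp only; omega, by simp only; omega, by simp only; omega⟩
    · simp only [rswCo]
      exact ⟨by simp <;> omega, by simp <;> omega, by simp <;> omega, by simp <;> omega⟩

/-- an nn-crossing gives a left-right chain of edges of the extended set -/
theorem rsq_prim_of_nnLR {X0 X1 Y0 Y1 : ℤ} (M : Set (ℤ × ℤ)) (h : RsqLR RsqNN X0 X1 Y0 Y1 M) :
    Rdu251PrimLR (X0 - 1) (X1 + 1) (Y0 - 1) (Y1 + 1) {e | rsqInd (rsqExt X0 X1 Y0 Y1 M) e} := by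
  obtain ⟨u, v, huM, hu, hv, hch⟩ := h
  have hvM := rsq_in_mem hch huM
  have hmid : ReflTransGen (rdu251PStep (rdu251Rect (X0 - 1) (X1 + 1) (Y0 - 1) (Y1 + 1))
      {e | rsqInd (rsqExt X0 X1 Y0 Y1 M) e}) u v :=
    ReflTransGen.mono (fun a b hab => rsq_pstep_of_nn hab.1 hab.2.1 hab.2.2) _ _ hch
  obtain ⟨huM', a1, a2, a3, a4⟩ := huM
  obtain ⟨hvM', b1, b2, b3, b4⟩ := hvM
  have huE : u ∈ rsqExt X0 X1 Y0 Y1 M := ⟨a3, a4, Or.inr (Or.inr ⟨a1, a2, huM'⟩)⟩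
  have hvE : v ∈ rsqExt X0 X1 Y0 Y1 M := ⟨b3, b4, Or.inr (Or.inr ⟨b1, b2, hvM'⟩)⟩
  obtain ⟨x, y⟩ := u
  obtain ⟨x', y'⟩ := v
  simp only at a1 a2 a3 a4 b1 b2 b3 b4 hu hv
  subst hu hv
  have hfirst : rdu251PStep (rdu251Rect (x - 1) (x' + 1) (Y0 - 1) (Y1 + 1))
      {e | rsqInd (rsqExt x x' Y0 Y1 M) e} (x - 1, y) (x, y) := by
    refine ⟨((x - 1, y), false), ⟨⟨a3, a4, Or.inl rfl⟩, by simpa [rswEnd] using huE⟩, ?_, ?_, Or.inl ⟨rfl, by simp [rswEnd]⟩⟩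
    · exact ⟨by simp only; omega, by simp only; omega, by simp only; omega, by simp only; omega⟩
    · simp only [rswCo]
      exact ⟨by simp <;> omega, by simp <;> omega, by simp <;> omega, by simp <;> omega⟩
  have hlast : rdu251PStep (rdu251Rect (x - 1) (x' + 1) (Y0 - 1) (Y1 + 1))
      {e | rsqInd (rsqExt x x' Y0 Y1 M) e} (x', y') (x' + 1, y') := by
    refine ⟨((x', y'), false), ⟨hvE, ?_⟩, ?_, ?_, Or.inl ⟨rfl, by simp [rswEnd]⟩⟩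
    · simp only [rswEnd]
      exact ⟨b3, b4, Or.inr (Or.inl (by simp))⟩
    · exact ⟨by simp only; omega, by simp only; omega, by simp only; omega, by simp only; omega⟩
    · simp only [rswCo]
      exact ⟨by simp <;> omega, by simp <;> omega, by simp <;> omega, by simp <;> omega⟩
  exact ⟨(x - 1, y), (x' + 1, y'), rfl, rfl, ((ReflTransGen.single hfirst).trans hmid).tail hlast⟩

/-- a bottom-top chain of faces which crosses no edge of the extended set gives a star-crossing of the complement -/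
theorem rsq_starBT_of_dual {X0 X1 Y0 Y1 : ℤ} (hY : Y0 ≤ Y1) (M : Set (ℤ × ℤ))
    (h : Rdu251DualBT (X0 - 1) (X1 + 1) (Y0 - 1) (Y1 + 1) {e | rsqInd (rsqExt X0 X1 Y0 Y1 M) e}) :
    RsqBT RsqStar X0 X1 Y0 Y1 Mᶜ := by
  obtain ⟨f, g, hfR, hf, hgR, hg, hch⟩ := h
  by_contra hno
  have top : ∀ z c b : ℤ × ℤ, z.2 = Y1 → RsqCorner z c → c ∈ Mᶜ ∩ rsqVR X0 X1 Y0 Y1 → b ∈ Mᶜ ∩ rsqVR X0 X1 Y0 Y1 → b.2 = Y0 →
      ReflTransGen (RsqIn RsqStar (Mᶜ ∩ rsqVR X0 X1 Y0 Y1)) b c → False := by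
    intro z c b hz hc hcM hb hb0 hbc
    refine hno ⟨b, c, hb, hb0, ?_, hbc⟩
    have h1 := hc.2
    have h2 := hcM.2.2.2.2
    omega
  have key : ∀ z, ReflTransGen (rdu251Step (rdu251Rect (X0 - 1) (X1 + 1) (Y0 - 1) (Y1 + 1))
      {e | rsqInd (rsqExt X0 X1 Y0 Y1 M) e}) f z →
      z.2 = Y0 - 1 ∨ ∃ c b : ℤ × ℤ, RsqCorner z c ∧ c ∈ Mᶜ ∩ rsqVR X0 X1 Y0 Y1 ∧ b ∈ Mᶜ ∩ rsqVR X0 X1 Y0 Y1 ∧ b.2 = Y0 ∧
        ReflTransGen (RsqIn RsqStar (Mᶜ ∩ rsqVR X0 X1 Y0 Y1)) b c := by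
    intro z hz
    induction hz with
    | refl => exact Or.inl hf
    | @tail z z' _ hs ih =>
      obtain ⟨hzR, hz'R, e, hzz, heG⟩ := hs
      have hp : ∃ p : ℤ × ℤ, RsqCorner z p ∧ RsqCorner z' p ∧ p ∉ rsqExt X0 X1 Y0 Y1 M := by
        have hc := rsq_corner_edge e
        have hne : e.1 ∉ rsqExt X0 X1 Y0 Y1 M ∨ rswEnd e ∉ rsqExt X0 X1 Y0 Y1 M := by
          by_contra hcon
          push Not at hcon
          exact heG ⟨hcon.1, hcon.2⟩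
        rcases hzz with ⟨rfl, rfl⟩ | ⟨rfl, rfl⟩
        · rcases hne with hne | hne
          · exact ⟨_, hc.1, hc.2.2.1, hne⟩
          · exact ⟨_, hc.2.1, hc.2.2.2, hne⟩
        · rcases hne with hne | hne
          · exact ⟨_, hc.2.2.1, hc.1, hne⟩
          · exact ⟨_, hc.2.2.2, hc.2.1, hne⟩
      obtain ⟨p, hpz, hpz', hpE⟩ := hp
      obtain ⟨r1, r2, r3, r4⟩ := hzR
      obtain ⟨r1', r2', r3', r4'⟩ := hz'R
      have c1 := hpz.1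
      have c2 := hpz.2
      have c1' := hpz'.1
      have c2' := hpz'.2
      by_cases hbot : z'.2 = Y0 - 1
      · exact Or.inl hbot
      right
      by_cases hlow : p.2 < Y0
      · exfalso; omega
      by_cases hhigh : Y1 < p.2
      · exfalso
        rcases ih with ih | ⟨c, b, hc, hcM, hb, hb0, hbc⟩
        · omega
        · exact top z c b (by omega) hc hcM hb hb0 hbc
      have hpM : p ∈ Mᶜ ∩ rsqVR X0 X1 Y0 Y1 := by
        have h1 : p.1 ≠ X0 - 1 := fun h => hpE ⟨by omega, by omega, Or.inl h⟩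
        have h2 : p.1 ≠ X1 + 1 := fun h => hpE ⟨by omega, by omega, Or.inr (Or.inl h)⟩
        refine ⟨fun hM => hpE ⟨by omega, by omega, Or.inr (Or.inr ⟨by omega, by omega, hM⟩)⟩, by omega, by omega, by omega, by omega⟩
      rcases ih with ih | ⟨c, b, hc, hcM, hb, hb0, hbc⟩
      · exact ⟨p, p, hpz', hpM, hpM, by omega, ReflTransGen.refl⟩
      · exact ⟨p, b, hpz', hpM, hb, hb0, hbc.tail ⟨hcM, hpM, rsq_corner_star hc hpz⟩⟩
  rcases key g hch with h | ⟨c, b, hc, hcM, hb, hb0, hbc⟩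
  · omega
  · exact top g c b (by omega) hc hcM hb hb0 hbc

/-- a star-crossing of the complement gives a bottom-top chain of faces which crosses no edge of the extended set -/
theorem rsq_dual_of_starBT {X0 X1 Y0 Y1 : ℤ} (M : Set (ℤ × ℤ)) (h : RsqBT RsqStar X0 X1 Y0 Y1 Mᶜ) :
    Rdu251DualBT (X0 - 1) (X1 + 1) (Y0 - 1) (Y1 + 1) {e | rsqInd (rsqExt X0 X1 Y0 Y1 M) e} := by
  obtain ⟨u, v, huM, hu, hv, hch⟩ := h
  have hfree : ∀ z ∈ Mᶜ ∩ rsqVR X0 X1 Y0 Y1, ∀ e : (ℤ × ℤ) × Bool, (e.1 = z ∨ rswEnd e = z) →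
      e ∉ {e | rsqInd (rsqExt X0 X1 Y0 Y1 M) e} := by
    intro z hz e he heG
    have hzE : z ∈ rsqExt X0 X1 Y0 Y1 M := by
      rcases he with rfl | rfl
      · exact heG.1
      · exact heG.2
    obtain ⟨hzM, a1, a2, a3, a4⟩ := hz
    obtain ⟨_, _, h3 | h3 | h3⟩ := hzE
    · omega
    · omega
    · exact hzM h3.2.2
  have hR : ∀ z ∈ Mᶜ ∩ rsqVR X0 X1 Y0 Y1, ∀ f ∈ rdu251Around z, f ∈ rdu251Rect (X0 - 1) (X1 + 1) (Y0 - 1) (Y1 + 1) := by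
    intro z hz f hf
    obtain ⟨_, a1, a2, a3, a4⟩ := hz
    obtain ⟨h1, h2⟩ := rsq_around_mem.1 hf
    exact ⟨by omega, by omega, by omega, by omega⟩
  have hself : ∀ z : ℤ × ℤ, z ∈ rdu251Around z := fun z => Or.inl rfl
  have key : ∀ z, ReflTransGen (RsqIn RsqStar (Mᶜ ∩ rsqVR X0 X1 Y0 Y1)) u z →
      ReflTransGen (rdu251Step (rdu251Rect (X0 - 1) (X1 + 1) (Y0 - 1) (Y1 + 1))
        {e | rsqInd (rsqExt X0 X1 Y0 Y1 M) e}) (u.1, u.2 - 1) z := by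
    intro z hz
    induction hz with
    | refl =>
      have h0 : (u.1, u.2 - 1) ∈ rdu251Around u := rsq_around_mem.2 ⟨Or.inl rfl, Or.inr rfl⟩
      exact rdu251_around_joined u (hfree u huM) h0 (hR u huM _ h0) (hself u) (hR u huM _ (hself u))
    | @tail z z' _ hs ih =>
      obtain ⟨hzM, hz'M, s1, s2, s3, s4⟩ := hs
      have hm : (min z.1 z'.1, min z.2 z'.2) ∈ rdu251Around z := by
        refine rsq_around_mem.2 ⟨?_, ?_⟩ <;> simp only <;> omega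
      have hm' : (min z.1 z'.1, min z.2 z'.2) ∈ rdu251Around z' := by
        refine rsq_around_mem.2 ⟨?_, ?_⟩ <;> simp only <;> omega
      exact (ih.trans (rdu251_around_joined z (hfree z hzM) (hself z) (hR z hzM _ (hself z)) hm (hR z hzM _ hm))).trans
        (rdu251_around_joined z' (hfree z' hz'M) hm' (hR z' hz'M _ hm') (hself z') (hR z' hz'M _ (hself z')))
  have hvM := rsq_in_mem hch huM
  have h0 : (u.1, u.2 - 1) ∈ rdu251Around u := rsq_around_mem.2 ⟨Or.inl rfl, Or.inr rfl⟩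
  exact ⟨(u.1, u.2 - 1), v, hR u huM _ h0, by simp only; omega, hR v hvM _ (hself v), by omega, key v hch⟩

/-- **SITE DUALITY (a)**: in a rectangle of vertices there is a nearest-neighbour left-right crossing of `M`
iff there is NO star bottom-top crossing of the complement. -/
theorem rsq_site_duality {X0 X1 Y0 Y1 : ℤ} (hX : X0 ≤ X1) (hY : Y0 ≤ Y1) (M : Set (ℤ × ℤ)) :
    RsqLR RsqNN X0 X1 Y0 Y1 M ↔ ¬ RsqBT RsqStar X0 X1 Y0 Y1 Mᶜ := by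
  have hd := rdu251_duality (x0 := X0 - 1) (x1 := X1 + 1) (y0 := Y0 - 1) (y1 := Y1 + 1) (by omega) (by omega)
    {e | rsqInd (rsqExt X0 X1 Y0 Y1 M) e}
  constructor
  · intro h hs
    exact hd.1 (rsq_prim_of_nnLR M h) (rsq_dual_of_starBT M hs)
  · intro h
    exact rsq_nnLR_of_prim hX M (hd.2 (fun hdual => h (rsq_starBT_of_dual hY M hdual)))

/-! ### transposition, monotonicity -/

theorem rsq_chain_swap {r : ℤ × ℤ → ℤ × ℤ → Prop} (hr : ∀ u v, r u v → r u.swap v.swap) {X0 X1 Y0 Y1 : ℤ} {A : Set (ℤ × ℤ)}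
    {u v : ℤ × ℤ} (h : ReflTransGen (RsqIn r (A ∩ rsqVR X0 X1 Y0 Y1)) u v) :
    ReflTransGen (RsqIn r ((Prod.swap ⁻¹' A) ∩ rsqVR Y0 Y1 X0 X1)) u.swap v.swap := by
  have hm : ∀ z, z ∈ A ∩ rsqVR X0 X1 Y0 Y1 → z.swap ∈ (Prod.swap ⁻¹' A) ∩ rsqVR Y0 Y1 X0 X1 := by
    rintro ⟨x, y⟩ ⟨h1, h2, h3, h4, h5⟩
    exact ⟨h1, h4, h5, h2, h3⟩
  exact ReflTransGen.lift (Prod.swap : ℤ × ℤ → ℤ × ℤ) (fun a b hab => ⟨hm a hab.1, hm b hab.2.1, hr a b hab.2.2⟩) _ _ h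

theorem rsq_BT_swap {r : ℤ × ℤ → ℤ × ℤ → Prop} (hr : ∀ u v, r u v → r u.swap v.swap) {X0 X1 Y0 Y1 : ℤ} {A : Set (ℤ × ℤ)}
    (h : RsqBT r X0 X1 Y0 Y1 A) : RsqLR r Y0 Y1 X0 X1 (Prod.swap ⁻¹' A) := by
  obtain ⟨⟨x, y⟩, v, ⟨h1, h2, h3, h4, h5⟩, hu, hv, hch⟩ := h
  exact ⟨(y, x), v.swap, ⟨h1, h4, h5, h2, h3⟩, hu, hv, rsq_chain_swap hr hch⟩

theorem rsq_LR_swap {r : ℤ × ℤ → ℤ × ℤ → Prop} (hr : ∀ u v, r u v → r u.swap v.swap) {X0 X1 Y0 Y1 : ℤ} {A : Set (ℤ × ℤ)}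
    (h : RsqLR r X0 X1 Y0 Y1 A) : RsqBT r Y0 Y1 X0 X1 (Prod.swap ⁻¹' A) := by
  obtain ⟨⟨x, y⟩, v, ⟨h1, h2, h3, h4, h5⟩, hu, hv, hch⟩ := h
  exact ⟨(y, x), v.swap, ⟨h1, h4, h5, h2, h3⟩, hu, hv, rsq_chain_swap hr hch⟩

theorem rsq_nn_swap (u v : ℤ × ℤ) (h : RsqNN u v) : RsqNN u.swap v.swap := by
  unfold RsqNN at h ⊢
  simp only [Prod.fst_swap, Prod.snd_swap]
  omega

theorem rsq_star_swap (u v : ℤ × ℤ) (h : RsqStar u v) : RsqStar u.swap v.swap :=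
  ⟨h.2.2.1, h.2.2.2, h.1, h.2.1⟩

theorem rsq_swap_swap (A : Set (ℤ × ℤ)) : Prod.swap ⁻¹' (Prod.swap ⁻¹' A) = A := by
  ext ⟨x, y⟩
  rfl

/-- **SITE DUALITY (a), the other direction**: nn bottom-top crossing of `M` iff no star left-right crossing of the complement. -/
theorem rsq_site_duality' {X0 X1 Y0 Y1 : ℤ} (hX : X0 ≤ X1) (hY : Y0 ≤ Y1) (M : Set (ℤ × ℤ)) :
    RsqBT RsqNN X0 X1 Y0 Y1 M ↔ ¬ RsqLR RsqStar X0 X1 Y0 Y1 Mᶜ := by
  have hd := rsq_site_duality hY hX (Prod.swap ⁻¹' M)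
  constructor
  · intro h hs
    exact hd.1 (rsq_BT_swap rsq_nn_swap h) (rsq_LR_swap rsq_star_swap hs)
  · intro h
    have h1 : ¬ RsqBT RsqStar Y0 Y1 X0 X1 (Prod.swap ⁻¹' M)ᶜ := by
      intro hs
      have := rsq_BT_swap rsq_star_swap hs
      rw [← Set.preimage_compl, rsq_swap_swap] at this
      exact h this
    have := rsq_LR_swap rsq_nn_swap (hd.2 h1)
    rw [rsq_swap_swap] at this
    exact this

theorem rsq_BT_mono {r r' : ℤ × ℤ → ℤ × ℤ → Prop} (hr : ∀ u v, r u v → r' u v) {X0 X1 Y0 Y1 : ℤ} {A A' : Set (ℤ × ℤ)} (hA : A ⊆ A')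
    (h : RsqBT r X0 X1 Y0 Y1 A) : RsqBT r' X0 X1 Y0 Y1 A' := by
  obtain ⟨u, v, hu, h1, h2, hch⟩ := h
  exact ⟨u, v, ⟨hA hu.1, hu.2⟩, h1, h2,
    ReflTransGen.mono (fun a b hab => ⟨⟨hA hab.1.1, hab.1.2⟩, ⟨hA hab.2.1.1, hab.2.1.2⟩, hr a b hab.2.2⟩) _ _ hch⟩

theorem rsq_LR_mono {r r' : ℤ × ℤ → ℤ × ℤ → Prop} (hr : ∀ u v, r u v → r' u v) {X0 X1 Y0 Y1 : ℤ} {A A' : Set (ℤ × ℤ)} (hA : A ⊆ A')
    (h : RsqLR r X0 X1 Y0 Y1 A) : RsqLR r' X0 X1 Y0 Y1 A' := by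
  obtain ⟨u, v, hu, h1, h2, hch⟩ := h
  exact ⟨u, v, ⟨hA hu.1, hu.2⟩, h1, h2,
    ReflTransGen.mono (fun a b hab => ⟨⟨hA hab.1.1, hab.1.2⟩, ⟨hA hab.2.1.1, hab.2.1.2⟩, hr a b hab.2.2⟩) _ _ hch⟩

/-- the dichotomy used for the bound `1/2` (N5): a star bottom-top crossing of `S`, or an nn left-right crossing of `Sᶜ` -/
theorem rsq_site_dichotomy {X0 X1 Y0 Y1 : ℤ} (hX : X0 ≤ X1) (hY : Y0 ≤ Y1) (S : Set (ℤ × ℤ)) :
    RsqBT RsqStar X0 X1 Y0 Y1 S ∨ RsqLR RsqNN X0 X1 Y0 Y1 Sᶜ := by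
  by_cases h : RsqBT RsqStar X0 X1 Y0 Y1 S
  · exact Or.inl h
  · refine Or.inr ((rsq_site_duality hX hY Sᶜ).2 ?_)
    rwa [compl_compl]

/-! ## 5. PEIERLS (b), (c): the interface of an nn-component `K` of `M`, seen from a vertex `w` outside -/

theorem rsq_compP_sub {M : Set (ℤ × ℤ)} {v0 : ℤ × ℤ} (hv0 : v0 ∈ M) : rsqCompP (rsqInd M) v0 ⊆ M := by
  intro u hu
  have hu' : ReflTransGen (Rtd111BStep (rsqInd M)) v0 u := hu
  cases hu' with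
  | refl => exact hv0
  | tail _ hs =>
    obtain ⟨e, he, ⟨_, h⟩ | ⟨h, _⟩⟩ := hs
    · rw [h]; exact he.2
    · rw [h]; exact he.1

theorem rsq_edge_of_nn {u v : ℤ × ℤ} (h : RsqNN u v) :
    ∃ e : (ℤ × ℤ) × Bool, (u = e.1 ∧ v = rswEnd e) ∨ (v = e.1 ∧ u = rswEnd e) := by
  obtain ⟨x, y⟩ := u
  obtain ⟨x', y'⟩ := v
  simp only [RsqNN] at h
  rcases h with ⟨h1, h2 | h2⟩ | ⟨h1, h2 | h2⟩
  · subst h1 h2
    exact ⟨((x, y), false), Or.inl ⟨rfl, by simp [rswEnd]⟩⟩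
  · subst h1 h2
    exact ⟨((x', y), false), Or.inr ⟨rfl, by simp [rswEnd]⟩⟩
  · subst h1 h2
    exact ⟨((x, y), true), Or.inl ⟨rfl, by simp [rswEnd]⟩⟩
  · subst h1 h2
    exact ⟨((x, y'), true), Or.inr ⟨rfl, by simp [rswEnd]⟩⟩

/-- `K` is an nn-component of `M`: closed under nn-steps inside `M` -/
theorem rsq_compP_closed {M : Set (ℤ × ℤ)} {v0 u v : ℤ × ℤ} (hv0 : v0 ∈ M) (hu : u ∈ rsqCompP (rsqInd M) v0) (hv : v ∈ M)
    (h : RsqNN u v) : v ∈ rsqCompP (rsqInd M) v0 := by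
  have huM := rsq_compP_sub hv0 hu
  obtain ⟨e, he⟩ := rsq_edge_of_nn h
  have hu' : ReflTransGen (Rtd111BStep (rsqInd M)) v0 u := hu
  refine hu'.tail ⟨e, ?_, he⟩
  rcases he with ⟨rfl, rfl⟩ | ⟨rfl, rfl⟩
  · exact ⟨huM, hv⟩
  · exact ⟨hv, huM⟩

/-- and it is nn-connected inside `M` -/
theorem rsq_compP_conn {M : Set (ℤ × ℤ)} {v0 u : ℤ × ℤ} (hu : u ∈ rsqCompP (rsqInd M) v0) :
    ReflTransGen (RsqIn RsqNN M) v0 u := by
  have hu' : ReflTransGen (Rtd111BStep (rsqInd M)) v0 u := hu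
  refine ReflTransGen.mono (fun a b hab => ?_) _ _ hu'
  obtain ⟨e, he, ⟨rfl, rfl⟩ | ⟨rfl, rfl⟩⟩ := hab
  · exact ⟨he.1, he.2, (rsq_nn_edge e).1⟩
  · exact ⟨he.2, he.1, (rsq_nn_edge e).2⟩

/-- **PEIERLS (b1)**: every edge of the dual circuit has one end in `K` and the other end outside `M` -/
theorem rsq_peierls {M : Set (ℤ × ℤ)} {v0 w : ℤ × ℤ} (hv0 : v0 ∈ M) (hw : w ∉ rsqCompP (rsqInd M) v0)
    {e : (ℤ × ℤ) × Bool} (he : e ∈ rsqCoc (rsqInd M) v0 w) :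
    (e.1 ∈ rsqCompP (rsqInd M) v0 ∧ rswEnd e ∉ M) ∨ (rswEnd e ∈ rsqCompP (rsqInd M) v0 ∧ e.1 ∉ M) := by
  obtain ⟨hG, h | h⟩ := (rsq_cocircuit hw).1 e he
  · exact Or.inl ⟨h, fun h' => hG ⟨rsq_compP_sub hv0 h, h'⟩⟩
  · exact Or.inr ⟨h, fun h' => hG ⟨h', rsq_compP_sub hv0 h⟩⟩

/-- **ONE VALUE ON THE DUAL CIRCUIT**, hypothesis only on the edges of the circuit -/
theorem rsq_cocircuit_const' {α : Type*} {G : (ℤ × ℤ) × Bool → Prop} {v0 w : ℤ × ℤ} (hw : w ∉ rsqCompP G v0)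
    (σ : ℤ × ℤ → α) (hσ : ∀ e ∈ rsqCoc G v0 w, σ e.1 = σ (rswCo e))
    {e e' : (ℤ × ℤ) × Bool} (he : e ∈ rsqCoc G v0 w) (he' : e' ∈ rsqCoc G v0 w) :
    σ e.1 = σ e'.1 ∧ σ e.1 = σ (rswCo e') := by
  obtain ⟨_, c2, _⟩ := rsq_cocircuit hw
  have aux : ∀ g, ReflTransGen (Rtd111WStep Set.univ (fun e => e ∉ rsqCoc G v0 w)) e.1 g → σ e.1 = σ g := by
    intro g h
    induction h with
    | refl => rfl
    | tail _ hs ih =>
      obtain ⟨_, _, e3, h4, h3⟩ := hs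
      have h3' : e3 ∈ rsqCoc G v0 w := not_not.1 h3
      rcases h4 with ⟨rfl, rfl⟩ | ⟨rfl, rfl⟩
      · rw [ih, hσ e3 h3']
      · rw [ih, hσ e3 h3']
  exact ⟨aux _ (c2 e he e' he' _ (Or.inl rfl)), aux _ (c2 e he e' he' _ (Or.inr rfl))⟩

/-- the vertices of colour `a` -/
def rsqCol (a : Bool) (ω : RswCfg) : Set (ℤ × ℤ) := {v | v ∈ ω.S ↔ a = true}

/-- one edge: `s` different at the ends and a positive factor: the edge is closed and `d` is equal across it -/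
theorem rsq_fac_pos_of_ne {t : ℝ} {ω : RswCfg} {e : (ℤ × ℤ) × Bool} (hs : ¬ (e.1 ∈ ω.S ↔ rswEnd e ∈ ω.S))
    (hpos : 0 < rswFac t ω e) : e ∉ ω.O ∧ (e.1 ∈ ω.D ↔ rswCo e ∈ ω.D) := by
  unfold rswFac at hpos
  by_cases hO : e ∈ ω.O
  · rw [if_pos hO, if_neg hs] at hpos
    exact absurd hpos (lt_irrefl _)
  · refine ⟨hO, ?_⟩
    by_contra hD
    rw [if_neg hO, if_neg hD] at hpos
    exact absurd hpos (lt_irrefl _)

/-- **PEIERLS (b2)**: `K` = an nn-component of the vertices of colour `a` inside `V`; if the edges of its dual circuit have both ends in `V` and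
positive factors, then along the circuit `s` differs at the ends, the edges are closed, and `d` is CONSTANT on all faces of the circuit. -/
theorem rsq_peierls_D {t : ℝ} {a : Bool} {ω : RswCfg} {V : Set (ℤ × ℤ)} {v0 w : ℤ × ℤ} (hv0 : v0 ∈ rsqCol a ω ∩ V)
    (hw : w ∉ rsqCompP (rsqInd (rsqCol a ω ∩ V)) v0)
    (hV : ∀ e ∈ rsqCoc (rsqInd (rsqCol a ω ∩ V)) v0 w, e.1 ∈ V ∧ rswEnd e ∈ V)
    (hpos : ∀ e ∈ rsqCoc (rsqInd (rsqCol a ω ∩ V)) v0 w, 0 < rswFac t ω e) :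
    (∀ e ∈ rsqCoc (rsqInd (rsqCol a ω ∩ V)) v0 w,
      ¬ (e.1 ∈ ω.S ↔ rswEnd e ∈ ω.S) ∧ e ∉ ω.O ∧ (e.1 ∈ ω.D ↔ rswCo e ∈ ω.D)) ∧
    (∀ e ∈ rsqCoc (rsqInd (rsqCol a ω ∩ V)) v0 w, ∀ e' ∈ rsqCoc (rsqInd (rsqCol a ω ∩ V)) v0 w,
      (e.1 ∈ ω.D ↔ e'.1 ∈ ω.D) ∧ (e.1 ∈ ω.D ↔ rswCo e' ∈ ω.D)) := by
  have h1 : ∀ e ∈ rsqCoc (rsqInd (rsqCol a ω ∩ V)) v0 w,
      ¬ (e.1 ∈ ω.S ↔ rswEnd e ∈ ω.S) ∧ e ∉ ω.O ∧ (e.1 ∈ ω.D ↔ rswCo e ∈ ω.D) := by
    intro e he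
    have hs : ¬ (e.1 ∈ ω.S ↔ rswEnd e ∈ ω.S) := by
      intro hiff
      rcases rsq_peierls hv0 hw he with ⟨hK, hn⟩ | ⟨hK, hn⟩
      · have hc : e.1 ∈ ω.S ↔ a = true := (rsq_compP_sub hv0 hK).1
        exact hn ⟨hiff.symm.trans hc, (hV e he).2⟩
      · have hc : rswEnd e ∈ ω.S ↔ a = true := (rsq_compP_sub hv0 hK).1
        exact hn ⟨hiff.trans hc, (hV e he).1⟩
    exact ⟨hs, rsq_fac_pos_of_ne hs (hpos e he)⟩
  refine ⟨h1, fun e he e' he' => ?_⟩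
  have := rsq_cocircuit_const' hw (fun f => (f ∈ ω.D : Prop)) (fun e he => propext (h1 e he).2.2) he he'
  exact ⟨iff_of_eq this.1, iff_of_eq this.2⟩

/-- the outer vertex boundary of the component seen from `w` -/
def rsqOut (G : (ℤ × ℤ) × Bool → Prop) (v0 w : ℤ × ℤ) : Set (ℤ × ℤ) :=
  {z | z ∉ rsqCompP G v0 ∧ ∃ e ∈ rsqCoc G v0 w, z = e.1 ∨ z = rswEnd e}

/-- every edge of the circuit has an end in the outer boundary -/
theorem rsq_out_of_coc {M : Set (ℤ × ℤ)} {v0 w : ℤ × ℤ} (hv0 : v0 ∈ M) (hw : w ∉ rsqCompP (rsqInd M) v0)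
    {e : (ℤ × ℤ) × Bool} (he : e ∈ rsqCoc (rsqInd M) v0 w) :
    e.1 ∈ rsqOut (rsqInd M) v0 w ∨ rswEnd e ∈ rsqOut (rsqInd M) v0 w := by
  rcases rsq_peierls hv0 hw he with ⟨_, hn⟩ | ⟨_, hn⟩
  · exact Or.inr ⟨fun h => hn (rsq_compP_sub hv0 h), e, he, Or.inr rfl⟩
  · exact Or.inl ⟨fun h => hn (rsq_compP_sub hv0 h), e, he, Or.inl rfl⟩

/-- the outer boundary lies outside `M` -/
theorem rsq_out_sub {M : Set (ℤ × ℤ)} {v0 w : ℤ × ℤ} (hv0 : v0 ∈ M) (hw : w ∉ rsqCompP (rsqInd M) v0) :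
    rsqOut (rsqInd M) v0 w ⊆ Mᶜ := by
  rintro z ⟨hzK, e, he, rfl | rfl⟩
  · rcases rsq_peierls hv0 hw he with ⟨hK, _⟩ | ⟨_, hn⟩
    · exact absurd hK hzK
    · exact hn
  · rcases rsq_peierls hv0 hw he with ⟨_, hn⟩ | ⟨hK, _⟩
    · exact hn
    · exact absurd hK hzK

/-- every vertex of the outer boundary is an nn-neighbour of `K` -/
theorem rsq_out_nn {M : Set (ℤ × ℤ)} {v0 w z : ℤ × ℤ} (hv0 : v0 ∈ M) (hw : w ∉ rsqCompP (rsqInd M) v0)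
    (hz : z ∈ rsqOut (rsqInd M) v0 w) : ∃ u ∈ rsqCompP (rsqInd M) v0, RsqNN u z := by
  obtain ⟨hzK, e, he, rfl | rfl⟩ := hz
  · rcases rsq_peierls hv0 hw he with ⟨hK, _⟩ | ⟨hK, _⟩
    · exact absurd hK hzK
    · exact ⟨_, hK, (rsq_nn_edge e).2⟩
  · rcases rsq_peierls hv0 hw he with ⟨hK, _⟩ | ⟨hK, _⟩
    · exact ⟨_, hK, (rsq_nn_edge e).1⟩
    · exact absurd hK hzK

/-- **(c) THE OUTER VERTEX BOUNDARY IS STAR CONNECTED** -/
theorem rsq_outer_star {M : Set (ℤ × ℤ)} {v0 w : ℤ × ℤ} (hv0 : v0 ∈ M) (hw : w ∉ rsqCompP (rsqInd M) v0)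
    {z z' : ℤ × ℤ} (hz : z ∈ rsqOut (rsqInd M) v0 w) (hz' : z' ∈ rsqOut (rsqInd M) v0 w) :
    ReflTransGen (RsqIn RsqStar (rsqOut (rsqInd M) v0 w)) z z' := by
  obtain ⟨_, e, he, hze⟩ := id hz
  obtain ⟨_, e', he', hze'⟩ := id hz'
  have hc0 : RsqCorner e.1 z := by
    rcases hze with rfl | rfl
    · exact (rsq_corner_edge e).1
    · exact (rsq_corner_edge e).2.1
  have hc1 : RsqCorner e'.1 z' := by
    rcases hze' with rfl | rfl
    · exact (rsq_corner_edge e').1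
    · exact (rsq_corner_edge e').2.1
  have key : ∀ g, ReflTransGen (Rtd111WStep Set.univ (fun e => e ∉ rsqCoc (rsqInd M) v0 w)) e.1 g →
      ∃ c ∈ rsqOut (rsqInd M) v0 w, RsqCorner g c ∧ ReflTransGen (RsqIn RsqStar (rsqOut (rsqInd M) v0 w)) z c := by
    intro g hg
    induction hg with
    | refl => exact ⟨z, hz, hc0, ReflTransGen.refl⟩
    | @tail g g' _ hs ih =>
      obtain ⟨c, hcO, hcg, hzc⟩ := ih
      obtain ⟨_, _, e3, h4, h3⟩ := hs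
      have h3' : e3 ∈ rsqCoc (rsqInd M) v0 w := not_not.1 h3
      have hce := rsq_corner_edge e3
      have hp : ∃ p ∈ rsqOut (rsqInd M) v0 w, RsqCorner g p ∧ RsqCorner g' p := by
        rcases h4 with ⟨rfl, rfl⟩ | ⟨rfl, rfl⟩
        · rcases rsq_out_of_coc hv0 hw h3' with h | h
          · exact ⟨_, h, hce.1, hce.2.2.1⟩
          · exact ⟨_, h, hce.2.1, hce.2.2.2⟩
        · rcases rsq_out_of_coc hv0 hw h3' with h | h
          · exact ⟨_, h, hce.2.2.1, hce.1⟩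
          · exact ⟨_, h, hce.2.2.2, hce.2.1⟩
      obtain ⟨p, hpO, hpg, hpg'⟩ := hp
      exact ⟨p, hpO, hpg', hzc.tail ⟨hcO, hpO, rsq_corner_star hcg hpg⟩⟩
  obtain ⟨c, hcO, hcg, hzc⟩ := key e'.1 ((rsq_cocircuit hw).2.1 e he e' he' _ (Or.inl rfl))
  exact hzc.tail ⟨hcO, hz', rsq_corner_star hcg hc1⟩

/-- **(c') IT BLOCKS**: no nn-path of the plane from `K` to `w` avoids the outer boundary -/
theorem rsq_out_blocks {M : Set (ℤ × ℤ)} {v0 w v : ℤ × ℤ} (hv0 : v0 ∈ M) (hw : w ∉ rsqCompP (rsqInd M) v0)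
    (hv : v ∈ rsqCompP (rsqInd M) v0) : ¬ ReflTransGen (RsqIn RsqNN (rsqOut (rsqInd M) v0 w)ᶜ) v w := by
  intro hch
  refine (rsq_cocircuit hw).2.2 v hv (ReflTransGen.mono (fun a b hab => ?_) _ _ hch)
  obtain ⟨ha, hb, hnn⟩ := hab
  obtain ⟨e, he⟩ := rsq_edge_of_nn hnn
  refine ⟨e, fun heC => ?_, he⟩
  rcases he with ⟨rfl, rfl⟩ | ⟨rfl, rfl⟩
  · rcases rsq_out_of_coc hv0 hw heC with h | h
    · exact ha h
    · exact hb h
  · rcases rsq_out_of_coc hv0 hw heC with h | h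
    · exact hb h
    · exact ha h

/-- the equation lemmas of the definitions of sections 4, 5 are generated HERE (RULES.md, rule 6) -/
theorem rsq_defs_eqns_cite2 : True := by
  have := @RsqNN.eq_1
  have := @RsqStar.eq_1
  have := @RsqIn.eq_1
  have := @rsqVR.eq_1
  have := @RsqLR.eq_1
  have := @RsqBT.eq_1
  have := @rsqInd.eq_1
  have := @rsqExt.eq_1
  have := @RsqCorner.eq_1
  have := @rsqCol.eq_1
  have := @rsqOut.eq_1
  trivial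

end Claimed.Agent.R292
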