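import Claimed.Agent.R292.Model.Circ1
import Claimed.Agent.R292.Rsw.CmpPin291
import Claimed.Agent.R292.Height
import Claimed.Agent.R292.Rsw.Arch107

/-!
# Row 292 (S0540), Rsw/CircExt31 : (S0), (S1) and the circuits of ratio 2 ON THE CLASSES `Mdl41Conn` / `At92hExt`, MODULO the circuit statement      (pen helper31, order RSW-10 of 122; prefix `rce31_`)

A file of its own because of the IMPORT LAYER: `Rsw/PlaneIn31` is a producer of `exit_rsw_plane` and of `RcMono` (a piece of `exit_rsw_circuit`) and has to stay BELOW `Exit/RSW`,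
whereas `Model/Circ1` (whose lemmas are used here) imports `Exit/RSW`.  Nothing here uses a contract of `Exit/RSW`: the circuit statement is a HYPOTHESIS.

* `rce31_conn`      `At92hExt F → Mdl41Conn F` (the two forms of "the exterior faces are star connected")
* `rce31_fkg_conn`, `rce31_fkg`   (S0) ON THE CLASSES `Mdl41Conn`, `At92hExt`: association under prescriptions (`cmq291_fkg_pin` + `cmi291_dual_of_conn` of 291), both colours
* `rce31_circ_of`   (S1) of seat 1 (`mdl1_exit_circ_of`) with the FKG hypothesis AT THE DOMAIN instead of the class `RswJordan` (his proof, word for word)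
* `rce31_circ_conn`, `rce31_circ_ext`  (S1) on the classes `Mdl41Conn`, `At92hExt`
* `rce31_circ_box`  RATIO 2: a circuit of colour `a` in `Λ_{2ρ}(z) \ Λ_ρ(z)` under EVERY flat law `(F, b)`, `Mdl41Conn F`, `Λ_{2ρ}(z) ⊆ F` (`F = Λ_{2ρ}(z)` allowed), `ρ ≥ ρ0`
* `rce31_circ151`   the record (CIRC) of `Rsw/CutStop151` v1 (class `At92hExt`, ratio 2), its body written out
All from the statement of `exit_rsw_circuit` (verbatim, as a hypothesis).
-/

set_option autoImplicit false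

namespace Claimed.Agent.R292

open Claims Claims.C0468

/-! ## 1. association on the class `At92hExt` -/

theorem rce31_conn {F : Finset (ℤ × ℤ)} (h : At92hExt F) : Mdl41Conn F := by
  intro S f0 h0 h0S hS g hg
  have := h {f | f ∈ S ∧ f ∉ F} (fun f hf => hf.2) ⟨f0, h0S, h0⟩
    (fun f hf g' hg' hadj => ⟨hS f g' hf.2 hg' hadj hf.1, hg'⟩) g hg
  exact this.1

/-- (S0) on the class `Mdl41Conn` -/
theorem rce31_fkg_conn {t : ℝ} (ht1 : 1 / 2 ≤ t) (ht2 : t < 1) {F : Finset (ℤ × ℤ)} (hF : Mdl41Conn F) (b a : Bool)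
    (K : MdlPin) (hK : K.Ok) : MdlFkgAt t F b a K := by
  intro X Y hX hY
  have h0 : 0 < t := by linarith
  have hD := cmi291_dual_of_conn hF
  cases a with
  | true =>
    exact cmq291_fkg_pin h0 ht2.le hD b K hK (fun ω ω' h => hX ω ω' (cmq291_le_mdl_true h))
      (fun ω ω' h => hY ω ω' (cmq291_le_mdl_true h))
  | false =>
    have key := cmq291_fkg_pin h0 ht2.le hD b K hK (X := fun ω => - X ω) (Y := fun ω => - Y ω)
      (fun ω ω' h => neg_le_neg (hX ω' ω (cmq291_le_mdl_false h)))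
      (fun ω ω' h => neg_le_neg (hY ω' ω (cmq291_le_mdl_false h)))
    rw [cmq291_sumK_neg, cmq291_sumK_neg, neg_mul_neg] at key
    simpa only [neg_mul_neg] using key

/-- (S0) on the class `At92hExt` -/
theorem rce31_fkg {t : ℝ} (ht1 : 1 / 2 ≤ t) (ht2 : t < 1) {F : Finset (ℤ × ℤ)} (hF : At92hExt F) (b a : Bool)
    (K : MdlPin) (hK : K.Ok) : MdlFkgAt t F b a K :=
  rce31_fkg_conn ht1 ht2 (rce31_conn hF) b a K hK

/-! ## 2. (S1) with the association at the domain -/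

/-- (S1) = `mdl1_exit_circ_of` of seat 1, the class `RswJordan` replaced by the association AT THE DOMAIN `F` (the only use of the class in his proof) -/
theorem rce31_circ_of (t : ℝ) (ht1 : 1 / 2 ≤ t) (ht2 : t < 1)
    (hcirc : ∃ (κ n0 : ℕ) (p : ℝ), 2 ≤ κ ∧ 0 < p ∧ ∀ n : ℕ, n0 ≤ n → ∀ (x : ℤ × ℤ) (a : Bool),
      p ≤ rswP t (rswBox x (κ * n)) (!a)
        (fun ω => RswSep (rswBox x (κ * n)) a ω (rswBox x n) (rswLayer (rswBox x (κ * n))))) (k : ℕ) :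
    ∃ p : ℝ, 0 < p ∧ ∃ n0 : ℕ, ∀ n : ℕ, n0 ≤ n → ∀ (F : Finset (ℤ × ℤ)) (z : ℤ × ℤ) (b a : Bool) (L : RswCfg → Prop),
      (∀ K : MdlPin, K.Ok → MdlFkgAt t F b a K) → rswBox z ((k + 3) * n) ⊆ F →
      MdlExt (rswBox z ((k + 3) * n) \ rswBox z (k * n)) L →
      p * rswP t F b L ≤
        rswP t F b fun ω => L ω ∧ RswSep F a ω (rswBox z ((k + 1) * n)) (F \ rswBox z ((k + 2) * n)) := by
  classical
  have ht0 : 0 < t := by linarith
  obtain ⟨κ, n0', p0, hκ, hp0, hc⟩ := hcirc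
  have hp1 : 0 < min p0 1 := lt_min hp0 one_pos
  refine ⟨(min p0 1) ^ ((2 * (8 * κ * (k + 2))) ^ 2), pow_pos hp1 _, 8 * κ * (n0' + 1), ?_⟩
  intro n hn F z b a L hJ hsub hL
  set r : ℕ := n / (8 * κ) with hr
  set R : ℕ := κ * r with hR
  set m : ℕ := (k + 1) * n + 4 * R with hm
  have h8κ : 0 < 8 * κ := by omega
  have hr1 : n0' + 1 ≤ r := (Nat.le_div_iff_mul_le h8κ).2 (by rw [mul_comm]; exact hn)
  have h8R : 8 * R ≤ n := by
    have := Nat.mul_div_le n (8 * κ)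
    calc 8 * R = 8 * κ * (n / (8 * κ)) := by rw [hR, hr]; ring
      _ ≤ n := this
  have hrR : r ≤ R := Nat.le_mul_of_pos_left r (by omega)
  have hnlt : n < 8 * κ * (r + 1) := Nat.lt_mul_div_succ n h8κ
  have e1 : (k + 1) * n = k * n + n := by ring
  have e2 : (k + 2) * n = k * n + 2 * n := by ring
  have e3 : (k + 3) * n = k * n + 3 * n := by ring
  set B : Finset (ℤ × ℤ) := rswBox z ((k + 3) * n) \ rswBox z (k * n) with hB
  have hBF : B ⊆ F := fun f hf => hsub (Finset.mem_sdiff.1 hf).1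
  set Sh : Finset (ℤ × ℤ) := rswBox z (m + 1) \ rswBox z m with hSh
  set Cs : Finset (ℤ × ℤ) := Sh.image (mdl1Cen z r) with hCs
  have hcard : Cs.card ≤ (2 * (8 * κ * (k + 2))) ^ 2 := by
    refine mdl1_card_cen z (by omega) (H := m + 1) ?_ Sh Finset.sdiff_subset
    have h1 : m + 1 ≤ (k + 2) * n := by omega
    have h2 : n ≤ 16 * κ * r := by
      have : 8 * κ * (r + 1) ≤ 16 * κ * r := by
        have : 8 * κ * 1 ≤ 8 * κ * r := Nat.mul_le_mul_left _ (by omega)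
        calc 8 * κ * (r + 1) = 8 * κ * r + 8 * κ * 1 := by ring
          _ ≤ 8 * κ * r + 8 * κ * r := by omega
          _ = 16 * κ * r := by ring
      omega
    calc m + 1 ≤ (k + 2) * n := h1
      _ ≤ (k + 2) * (16 * κ * r) := Nat.mul_le_mul_left _ h2
      _ = 2 * r * (8 * κ * (k + 2)) := by ring
  have hCsu : ∀ x ∈ Cs, ∃ u, u ∈ rswBox z (m + 1) ∧ u ∉ rswBox z m ∧ u ∈ rswBox x r := by
    intro x hx
    obtain ⟨u, hu, rfl⟩ := Finset.mem_image.1 hx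
    exact ⟨u, (Finset.mem_sdiff.1 hu).1, (Finset.mem_sdiff.1 hu).2, mdl1_mem_cen z (by omega) u⟩
  have hsub2 : ∀ x ∈ Cs, rswBox x R ⊆ rswBox z ((k + 2) * n) := by
    intro x hx
    obtain ⟨u, hu1, _, hux⟩ := hCsu x hx
    exact mdl1_geo_sub hu1 hux (by omega)
  have key : ∀ ξ ∈ mdl1aT F B, (min p0 1) ^ ((2 * (8 * κ * (k + 2))) ^ 2) * mdlSumK t F b (mdl1aK F B ξ) (fun _ => 1)
      ≤ mdlSumK t F b (mdl1aK F B ξ)
        (fun ω => if RswSep F a ω (rswBox z ((k + 1) * n)) (F \ rswBox z ((k + 2) * n)) then 1 else 0) := by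
    intro ξ hξ
    have hZ : 0 ≤ mdlSumK t F b (mdl1aK F B ξ) (fun _ => 1) :=
      mdl1_sumK_nonneg ht0.le ht2.le F b _ (fun _ => zero_le_one)
    have h1 := mdl1_atom ht0 ht2 hBF b a (mdl1a_ok hξ) (hJ _ (mdl1a_ok hξ))
      (fun v hv => by rw [mdl1a_pins hξ] at hv; exact (mdl1a_mem_V.1 hv).2) Cs hrR
      (fun x hx => (hsub2 x hx).trans ((mdl1_box_mono z (by omega)).trans hsub))
      (fun x hx => by
        obtain ⟨u, hu1, hu2, hux⟩ := hCsu x hx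
        exact mdl1_geo_core hu1 hu2 hux (by omega) (by omega))
      hp1.le (fun x _ => le_trans (min_le_left _ _) (hc r (by omega) x a))
      (Q := fun ω => RswSep F a ω (rswBox z ((k + 1) * n)) (F \ rswBox z ((k + 2) * n)))
      (fun ω hall => mdl1_cover a ω z m (mdl1_box_mono z (by omega))
        (fun g hg => ⟨(Finset.mem_sdiff.1 hg).1, fun h' => (Finset.mem_sdiff.1 hg).2 (mdl1_box_mono z (by omega) h')⟩)
        Cs r R (fun u hu1 hu2 => ⟨mdl1Cen z r u, Finset.mem_image_of_mem _ (Finset.mem_sdiff.2 ⟨hu1, hu2⟩),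
          mdl1_mem_cen z (by omega) u⟩)
        (fun x hx g hg h' => (Finset.mem_sdiff.1 hg).2 (hsub2 x hx h')) hall)
    refine le_trans (mul_le_mul_of_nonneg_right ?_ hZ) h1
    exact pow_le_pow_of_le_one hp1.le (min_le_right _ _) hcard
  have hfin := mdl1_sum_atoms F b hL key
  unfold rswP rswE
  rw [← mul_div_assoc]
  refine div_le_div_of_nonneg_right (le_trans hfin (le_of_eq ?_)) (rsk_sum_one_pos ht0 ht2.le F b).le
  congr 1
  funext ω
  congr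

/-- (S1) on the class `Mdl41Conn` (it contains `RswJordan` and `At92hExt`), every ratio `k`, both colours, any exterior data -/
theorem rce31_circ_conn (t : ℝ) (ht1 : 1 / 2 ≤ t) (ht2 : t < 1)
    (hcirc : ∃ (κ n0 : ℕ) (p : ℝ), 2 ≤ κ ∧ 0 < p ∧ ∀ n : ℕ, n0 ≤ n →
      p ≤ rswP t (rswBox 0 (κ * n)) true
        (fun ω => RswSep (rswBox 0 (κ * n)) false ω (rswBox 0 n) (rswLayer (rswBox 0 (κ * n))))) (k : ℕ) :
    ∃ p : ℝ, 0 < p ∧ ∃ n0 : ℕ, ∀ n : ℕ, n0 ≤ n → ∀ (F : Finset (ℤ × ℤ)) (z : ℤ × ℤ) (b a : Bool) (L : RswCfg → Prop),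
      Mdl41Conn F → rswBox z ((k + 3) * n) ⊆ F → MdlExt (rswBox z ((k + 3) * n) \ rswBox z (k * n)) L →
      p * rswP t F b L ≤
        rswP t F b fun ω => L ω ∧ RswSep F a ω (rswBox z ((k + 1) * n)) (F \ rswBox z ((k + 2) * n)) := by
  obtain ⟨κ, n0, p, hκ, hp, h⟩ := hcirc
  obtain ⟨q, hq, n1, H⟩ := rce31_circ_of t ht1 ht2
    ⟨κ, n0, p, hκ, hp, fun n hn x a => cs101_of_record (h n hn) x a⟩ k
  exact ⟨q, hq, n1, fun n hn F z b a L hF hsub hL =>
    H n hn F z b a L (fun K hK => rce31_fkg_conn ht1 ht2 hF b a K hK) hsub hL⟩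

/-- (S1) on the class `At92hExt` (the chambers of a stopped cut), every ratio `k`, both colours, any exterior data -/
theorem rce31_circ_ext (t : ℝ) (ht1 : 1 / 2 ≤ t) (ht2 : t < 1)
    (hcirc : ∃ (κ n0 : ℕ) (p : ℝ), 2 ≤ κ ∧ 0 < p ∧ ∀ n : ℕ, n0 ≤ n →
      p ≤ rswP t (rswBox 0 (κ * n)) true
        (fun ω => RswSep (rswBox 0 (κ * n)) false ω (rswBox 0 n) (rswLayer (rswBox 0 (κ * n))))) (k : ℕ) :
    ∃ p : ℝ, 0 < p ∧ ∃ n0 : ℕ, ∀ n : ℕ, n0 ≤ n → ∀ (F : Finset (ℤ × ℤ)) (z : ℤ × ℤ) (b a : Bool) (L : RswCfg → Prop),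
      At92hExt F → rswBox z ((k + 3) * n) ⊆ F → MdlExt (rswBox z ((k + 3) * n) \ rswBox z (k * n)) L →
      p * rswP t F b L ≤
        rswP t F b fun ω => L ω ∧ RswSep F a ω (rswBox z ((k + 1) * n)) (F \ rswBox z ((k + 2) * n)) := by
  obtain ⟨q, hq, n1, H⟩ := rce31_circ_conn t ht1 ht2 hcirc k
  exact ⟨q, hq, n1, fun n hn F z b a L hF hsub hL => H n hn F z b a L (rce31_conn hF) hsub hL⟩

/-! ## 3. ratio 2 -/

/-- a separation in `F` blocks the box (`rsa107_block` of 107, any colour) -/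
theorem rce31_block {F : Finset (ℤ × ℤ)} {z : ℤ × ℤ} {r N : ℕ} (a : Bool) (hsub : rswBox z (N + 1) ⊆ F) {ω : RswCfg}
    (h : RswSep F a ω (rswBox z r) (F \ rswBox z N)) :
    RswSep (rswBox z (N + 1)) a ω (rswBox z r) (rswLayer (rswBox z (N + 1))) := by
  intro f hf g hg hr
  refine h f hf g (Finset.mem_sdiff.2 ⟨hsub (rsx_layer_sub _ hg), rsa107_layer_off z N hg⟩) ?_
  exact Relation.ReflTransGen.mono (r := RswStep (rswBox z (N + 1)) a ω) (p := RswStep F a ω)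
    (fun _ _ hs => ⟨hsub hs.1, hsub hs.2.1, hs.2.2⟩) _ _ hr

/-- **RATIO 2**, any colours, any domain of the class which contains the outer box (the outer box itself included) -/
theorem rce31_circ_box (t : ℝ) (ht1 : 1 / 2 ≤ t) (ht2 : t < 1)
    (hcirc : ∃ (κ n0 : ℕ) (p : ℝ), 2 ≤ κ ∧ 0 < p ∧ ∀ n : ℕ, n0 ≤ n →
      p ≤ rswP t (rswBox 0 (κ * n)) true
        (fun ω => RswSep (rswBox 0 (κ * n)) false ω (rswBox 0 n) (rswLayer (rswBox 0 (κ * n))))) :
    ∃ (c1 : ℝ) (ρ0 : ℕ), 0 < c1 ∧ ∀ (F : Finset (ℤ × ℤ)) (z : ℤ × ℤ) (ρ : ℕ) (b a : Bool),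
      Mdl41Conn F → ρ0 ≤ ρ → rswBox z (2 * ρ) ⊆ F →
      c1 ≤ rswP t F b (fun ω => RswSep (rswBox z (2 * ρ)) a ω (rswBox z ρ) (rswLayer (rswBox z (2 * ρ)))) := by
  have ht0 : 0 < t := by linarith
  obtain ⟨p, hp, n0, H⟩ := rce31_circ_conn t ht1 ht2 hcirc 3
  refine ⟨p, 4 * n0 + 9, hp, fun F z ρ b a hF hρ hsub => ?_⟩
  -- `n = ⌈ρ/4⌉`
  set n : ℕ := (ρ + 3) / 4 with hn
  have h1 : ρ ≤ 4 * n := by omega
  have h2 : 5 * n + 1 ≤ 2 * ρ := by omega
  have h3 : 6 * n ≤ 2 * ρ := by omega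
  have h4 : n0 ≤ n := by omega
  have hb : rswBox z ((3 + 3) * n) ⊆ F := (mdl1_box_mono z (by omega)).trans hsub
  have key := H n h4 F z b a (fun _ => True) hF hb (fun _ _ _ _ => Iff.rfl)
  rw [rsb_P_true ht0 ht2.le, mul_one] at key
  refine le_trans key (rsb_P_mono ht0 ht2.le fun ω _ _ hω => ?_)
  obtain ⟨N, hN⟩ : ∃ N, 2 * ρ = N + 1 := ⟨2 * ρ - 1, by omega⟩
  rw [hN] at hsub ⊢
  refine rce31_block a hsub ?_
  intro f hf g hg
  refine hω.2 f (mdl1_box_mono z (by omega) hf) g ?_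
  exact Finset.mem_sdiff.2 ⟨(Finset.mem_sdiff.1 hg).1, fun hc => (Finset.mem_sdiff.1 hg).2 (mdl1_box_mono z (by omega) hc)⟩

/-- the record (CIRC) of `Rsw/CutStop151` v1 (`Mpl151Circ t` of 19:50Z: class `At92hExt`, ratio 2), body written out -/
theorem rce31_circ151 (t : ℝ) (ht1 : 1 / 2 ≤ t) (ht2 : t < 1)
    (hcirc : ∃ (κ n0 : ℕ) (p : ℝ), 2 ≤ κ ∧ 0 < p ∧ ∀ n : ℕ, n0 ≤ n →
      p ≤ rswP t (rswBox 0 (κ * n)) true
        (fun ω => RswSep (rswBox 0 (κ * n)) false ω (rswBox 0 n) (rswLayer (rswBox 0 (κ * n))))) :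
    ∃ (c1 : ℝ) (L1 ρ0 : ℕ), 0 < c1 ∧ ∀ (F0 : Finset (ℤ × ℤ)) (z0 : ℤ × ℤ) (ρ : ℕ),
      At92hExt F0 → ρ0 ≤ ρ → rswBox z0 (L1 * ρ) ⊆ F0 →
      c1 ≤ rswP t F0 true (fun ω => RswSep (rswBox z0 (2 * ρ)) true ω (rswBox z0 ρ) (rswLayer (rswBox z0 (2 * ρ)))) := by
  obtain ⟨c1, ρ0, hc, H⟩ := rce31_circ_box t ht1 ht2 hcirc
  exact ⟨c1, 2, ρ0, hc, fun F0 z0 ρ hF hρ hsub => H F0 z0 ρ true true (rce31_conn hF) hρ hsub⟩

end Claimed.Agent.R292
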