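import Mathlib
import Claimed.Agent.R291.Tool.IsingZ

/-!
# Row 292 (S0540), unit RSW, Cmp291 : COMPARISON WITH PINS AND WIRES      (owner helper291; prefix `cmp291_`, defs `cmp291*`)

AT paper Sec. 3.1, Proposition 3.2 (`prop:comparison`), on ANY finite multigraph (edge `i : ι` joins `p i`, `q i`).

* Sec. 1  two-level Holley / FKG: a weight `w x y` on a product of two finite distributive lattices which satisfies
          (a) the Holley condition in `y` between the fibres over `x ≤ x'`, (b) the lattice condition of the `x`-marginal,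
          is positively associated (`cmp291_two_fkg`), resp. ordered (`cmp291_two_holley`).  Zeros allowed, signed observables,
          unnormalised.  NB the JOINT lattice condition fails for the `(s, W)` law when `r < 1`.
* Sec. 2  `cmp291E` even-subgraph partition function: nonnegative, increasing (Griffiths I, characters of `𝔽₂^V`),
          log-supermodular on `[0,1]^E` (Griffiths II in FK form), `cmp291FK` its FK weights.
* Sec. 3  the `(s, W⁺, W⁻)` weight `cmp291W`, **`cmp291_holley`**, **`cmp291_fkg`** in the order `(s, W⁺, -W⁻)`.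
* Sec. 4  product form of the vertex factor (fields = pins, pair factors), the paper's parameters.
-/

set_option autoImplicit false
set_option linter.unusedSectionVars false
set_option linter.unusedVariables false
set_option linter.unusedSimpArgs false

namespace Claimed.Agent.R292

open Finset
open Claimed.Agent.R291

/-! ## 1. two-level Holley and FKG -/

section TwoLevel

variable {α β : Type*} [DistribLattice α] [Fintype α] [DistribLattice β] [Fintype β]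

/-- a sum of nonnegative terms which vanishes has vanishing weighted sums -/
theorem cmp291_sum_zero {w : β → ℝ} (h0 : ∀ y, 0 ≤ w y) (hz : ∑ y, w y = 0) (f : β → ℝ) :
    ∑ y, w y * f y = 0 := by
  refine Finset.sum_eq_zero fun y _ => ?_
  have := (Finset.sum_eq_zero_iff_of_nonneg (fun y _ => h0 y)).1 hz y (Finset.mem_univ y)
  rw [this, zero_mul]

/-- fibre step: Holley between the fibres over `x ≤ z` -/
theorem cmp291_fibre {w₁ w₂ : β → ℝ} (h1 : ∀ y, 0 ≤ w₁ y) (h2 : ∀ y, 0 ≤ w₂ y)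
    (ha : ∀ y y', w₁ y * w₂ y' ≤ w₁ (y ⊓ y') * w₂ (y ⊔ y'))
    {f g : β → ℝ} (hg : Monotone g) (hfg : ∀ y, f y ≤ g y) :
    (∑ y, w₁ y * f y) * (∑ y, w₂ y) ≤ (∑ y, w₁ y) * ∑ y, w₂ y * g y := by
  have e1 : ∑ y, w₁ y * f y ≤ ∑ y, w₁ y * g y :=
    Finset.sum_le_sum fun y _ => mul_le_mul_of_nonneg_left (hfg y) (h1 y)
  have e2 : 0 ≤ ∑ y, w₂ y := Finset.sum_nonneg fun y _ => h2 y
  exact (mul_le_mul_of_nonneg_right e1 e2).trans (isz_holley h1 h2 hg ha)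

/-- two-level Holley, nonnegative observable -/
theorem cmp291_two_holley_nonneg {w₁ w₂ : α → β → ℝ} (h1 : ∀ x y, 0 ≤ w₁ x y) (h2 : ∀ x y, 0 ≤ w₂ x y)
    (ha : ∀ x x', x ≤ x' → ∀ y y', w₁ x y * w₂ x' y' ≤ w₁ x (y ⊓ y') * w₂ x' (y ⊔ y'))
    (hb : ∀ x x', (∑ y, w₁ x y) * (∑ y, w₂ x' y) ≤ (∑ y, w₁ (x ⊓ x') y) * ∑ y, w₂ (x ⊔ x') y)
    {f : α → β → ℝ} (hf : ∀ x x' y y', x ≤ x' → y ≤ y' → f x y ≤ f x' y') (hf0 : ∀ x y, 0 ≤ f x y) :
    (∑ x, ∑ y, w₁ x y * f x y) * (∑ x, ∑ y, w₂ x y)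
      ≤ (∑ x, ∑ y, w₁ x y) * ∑ x, ∑ y, w₂ x y * f x y := by
  refine four_functions_theorem_univ (fun x => ∑ y, w₁ x y * f x y) (fun x => ∑ y, w₂ x y)
    (fun x => ∑ y, w₁ x y) (fun x => ∑ y, w₂ x y * f x y)
    (fun x => Finset.sum_nonneg fun y _ => mul_nonneg (h1 x y) (hf0 x y))
    (fun x => Finset.sum_nonneg fun y _ => h2 x y)
    (fun x => Finset.sum_nonneg fun y _ => h1 x y)
    (fun x => Finset.sum_nonneg fun y _ => mul_nonneg (h2 x y) (hf0 x y)) ?_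
  intro x x'
  show (∑ y, w₁ x y * f x y) * (∑ y, w₂ x' y)
    ≤ (∑ y, w₁ (x ⊓ x') y) * ∑ y, w₂ (x ⊔ x') y * f (x ⊔ x') y
  have hin : (∑ y, w₁ x y * f x y) * (∑ y, w₂ (x ⊔ x') y)
      ≤ (∑ y, w₁ x y) * ∑ y, w₂ (x ⊔ x') y * f (x ⊔ x') y :=
    cmp291_fibre (h1 x) (h2 _) (ha x _ le_sup_left)
      (fun y y' hy => hf _ _ _ _ le_rfl hy) (fun y => hf _ _ _ _ le_sup_left le_rfl)
  have hA : 0 ≤ ∑ y, w₁ x y * f x y := Finset.sum_nonneg fun y _ => mul_nonneg (h1 x y) (hf0 x y)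
  have hD : 0 ≤ ∑ y, w₂ (x ⊔ x') y * f (x ⊔ x') y :=
    Finset.sum_nonneg fun y _ => mul_nonneg (h2 _ y) (hf0 _ y)
  have hM1 : 0 ≤ ∑ y, w₁ x y := Finset.sum_nonneg fun y _ => h1 x y
  have hM2 : 0 ≤ ∑ y, w₂ x' y := Finset.sum_nonneg fun y _ => h2 x' y
  have hMi : 0 ≤ ∑ y, w₁ (x ⊓ x') y := Finset.sum_nonneg fun y _ => h1 _ y
  have hMz : 0 ≤ ∑ y, w₂ (x ⊔ x') y := Finset.sum_nonneg fun y _ => h2 _ y
  rcases hMz.eq_or_lt with hz | hz
  · have hb' := hb x x'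
    rw [← hz, mul_zero] at hb'
    have h0 : (∑ y, w₁ x y) * (∑ y, w₂ x' y) = 0 := le_antisymm hb' (mul_nonneg hM1 hM2)
    rcases mul_eq_zero.1 h0 with h | h
    · rw [cmp291_sum_zero (h1 x) h, zero_mul]
      exact mul_nonneg hMi hD
    · rw [h, mul_zero]
      exact mul_nonneg hMi hD
  · refine le_of_mul_le_mul_right ?_ hz
    calc (∑ y, w₁ x y * f x y) * (∑ y, w₂ x' y) * (∑ y, w₂ (x ⊔ x') y)
        = ((∑ y, w₁ x y * f x y) * (∑ y, w₂ (x ⊔ x') y)) * (∑ y, w₂ x' y) := by ring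
      _ ≤ ((∑ y, w₁ x y) * ∑ y, w₂ (x ⊔ x') y * f (x ⊔ x') y) * (∑ y, w₂ x' y) :=
          mul_le_mul_of_nonneg_right hin hM2
      _ = ((∑ y, w₁ x y) * (∑ y, w₂ x' y)) * ∑ y, w₂ (x ⊔ x') y * f (x ⊔ x') y := by ring
      _ ≤ ((∑ y, w₁ (x ⊓ x') y) * ∑ y, w₂ (x ⊔ x') y) * ∑ y, w₂ (x ⊔ x') y * f (x ⊔ x') y :=
          mul_le_mul_of_nonneg_right (hb x x') hD
      _ = _ := by ring

/-- a finite family of reals indexed by a product is bounded below -/
theorem cmp291_shift (f : α → β → ℝ) : ∃ c : ℝ, ∀ x y, 0 ≤ f x y + c := by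
  refine ⟨∑ x, ∑ y, |f x y|, fun x y => ?_⟩
  have h1 : |f x y| ≤ ∑ y, |f x y| :=
    Finset.single_le_sum (f := fun y => |f x y|) (fun i _ => abs_nonneg _) (Finset.mem_univ y)
  have h2 : ∑ y, |f x y| ≤ ∑ x, ∑ y, |f x y| :=
    Finset.single_le_sum (f := fun x => ∑ y, |f x y|)
      (fun i _ => Finset.sum_nonneg fun j _ => abs_nonneg _) (Finset.mem_univ x)
  have h3 := neg_abs_le (f x y)
  linarith

/-- **two-level Holley**: unnormalised, zeros allowed, signed increasing observable -/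
theorem cmp291_two_holley {w₁ w₂ : α → β → ℝ} (h1 : ∀ x y, 0 ≤ w₁ x y) (h2 : ∀ x y, 0 ≤ w₂ x y)
    (ha : ∀ x x', x ≤ x' → ∀ y y', w₁ x y * w₂ x' y' ≤ w₁ x (y ⊓ y') * w₂ x' (y ⊔ y'))
    (hb : ∀ x x', (∑ y, w₁ x y) * (∑ y, w₂ x' y) ≤ (∑ y, w₁ (x ⊓ x') y) * ∑ y, w₂ (x ⊔ x') y)
    {f : α → β → ℝ} (hf : ∀ x x' y y', x ≤ x' → y ≤ y' → f x y ≤ f x' y') :
    (∑ x, ∑ y, w₁ x y * f x y) * (∑ x, ∑ y, w₂ x y)
      ≤ (∑ x, ∑ y, w₁ x y) * ∑ x, ∑ y, w₂ x y * f x y := by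
  obtain ⟨c, hc⟩ := cmp291_shift f
  have key := cmp291_two_holley_nonneg h1 h2 ha hb (f := fun x y => f x y + c)
    (fun x x' y y' hx hy => by have := hf x x' y y' hx hy; linarith) hc
  simp only [mul_add, Finset.sum_add_distrib, ← Finset.sum_mul] at key
  nlinarith [key]

/-- two-level FKG, nonnegative observables -/
theorem cmp291_two_fkg_nonneg {w : α → β → ℝ} (h0 : ∀ x y, 0 ≤ w x y)
    (ha : ∀ x x', x ≤ x' → ∀ y y', w x y * w x' y' ≤ w x (y ⊓ y') * w x' (y ⊔ y'))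
    (hb : ∀ x x', (∑ y, w x y) * (∑ y, w x' y) ≤ (∑ y, w (x ⊓ x') y) * ∑ y, w (x ⊔ x') y)
    {f g : α → β → ℝ} (hf : ∀ x x' y y', x ≤ x' → y ≤ y' → f x y ≤ f x' y') (hf0 : ∀ x y, 0 ≤ f x y)
    (hg : ∀ x x' y y', x ≤ x' → y ≤ y' → g x y ≤ g x' y') (hg0 : ∀ x y, 0 ≤ g x y) :
    (∑ x, ∑ y, w x y * f x y) * (∑ x, ∑ y, w x y * g x y)
      ≤ (∑ x, ∑ y, w x y) * ∑ x, ∑ y, w x y * (f x y * g x y) := by
  refine four_functions_theorem_univ (fun x => ∑ y, w x y * f x y) (fun x => ∑ y, w x y * g x y)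
    (fun x => ∑ y, w x y) (fun x => ∑ y, w x y * (f x y * g x y))
    (fun x => Finset.sum_nonneg fun y _ => mul_nonneg (h0 x y) (hf0 x y))
    (fun x => Finset.sum_nonneg fun y _ => mul_nonneg (h0 x y) (hg0 x y))
    (fun x => Finset.sum_nonneg fun y _ => h0 x y)
    (fun x => Finset.sum_nonneg fun y _ => mul_nonneg (h0 x y) (mul_nonneg (hf0 x y) (hg0 x y))) ?_
  intro x x'
  show (∑ y, w x y * f x y) * (∑ y, w x' y * g x' y)
    ≤ (∑ y, w (x ⊓ x') y) * ∑ y, w (x ⊔ x') y * (f (x ⊔ x') y * g (x ⊔ x') y)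
  have hinf : (∑ y, w x y * f x y) * (∑ y, w (x ⊔ x') y)
      ≤ (∑ y, w x y) * ∑ y, w (x ⊔ x') y * f (x ⊔ x') y :=
    cmp291_fibre (h0 x) (h0 _) (ha x _ le_sup_left)
      (fun y y' hy => hf _ _ _ _ le_rfl hy) (fun y => hf _ _ _ _ le_sup_left le_rfl)
  have hing : (∑ y, w x' y * g x' y) * (∑ y, w (x ⊔ x') y)
      ≤ (∑ y, w x' y) * ∑ y, w (x ⊔ x') y * g (x ⊔ x') y :=
    cmp291_fibre (h0 x') (h0 _) (ha x' _ le_sup_right)
      (fun y y' hy => hg _ _ _ _ le_rfl hy) (fun y => hg _ _ _ _ le_sup_right le_rfl)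
  have hz3 : (∑ y, w (x ⊔ x') y * f (x ⊔ x') y) * (∑ y, w (x ⊔ x') y * g (x ⊔ x') y)
      ≤ (∑ y, w (x ⊔ x') y) * ∑ y, w (x ⊔ x') y * (f (x ⊔ x') y * g (x ⊔ x') y) :=
    isz_fkg (h0 _) (fun y y' hy => hf _ _ _ _ le_rfl hy) (fun y y' hy => hg _ _ _ _ le_rfl hy)
      (ha _ _ le_rfl)
  have hA : 0 ≤ ∑ y, w x y * f x y := Finset.sum_nonneg fun y _ => mul_nonneg (h0 x y) (hf0 x y)
  have hB : 0 ≤ ∑ y, w x' y * g x' y := Finset.sum_nonneg fun y _ => mul_nonneg (h0 x' y) (hg0 x' y)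
  have hAz : 0 ≤ ∑ y, w (x ⊔ x') y * f (x ⊔ x') y :=
    Finset.sum_nonneg fun y _ => mul_nonneg (h0 _ y) (hf0 _ y)
  have hBz : 0 ≤ ∑ y, w (x ⊔ x') y * g (x ⊔ x') y :=
    Finset.sum_nonneg fun y _ => mul_nonneg (h0 _ y) (hg0 _ y)
  have hD : 0 ≤ ∑ y, w (x ⊔ x') y * (f (x ⊔ x') y * g (x ⊔ x') y) :=
    Finset.sum_nonneg fun y _ => mul_nonneg (h0 _ y) (mul_nonneg (hf0 _ y) (hg0 _ y))
  have hM1 : 0 ≤ ∑ y, w x y := Finset.sum_nonneg fun y _ => h0 x y
  have hM2 : 0 ≤ ∑ y, w x' y := Finset.sum_nonneg fun y _ => h0 x' y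
  have hMi : 0 ≤ ∑ y, w (x ⊓ x') y := Finset.sum_nonneg fun y _ => h0 _ y
  have hMz : 0 ≤ ∑ y, w (x ⊔ x') y := Finset.sum_nonneg fun y _ => h0 _ y
  rcases hMz.eq_or_lt with hz | hz
  · have hb' := hb x x'
    rw [← hz, mul_zero] at hb'
    have h00 : (∑ y, w x y) * (∑ y, w x' y) = 0 := le_antisymm hb' (mul_nonneg hM1 hM2)
    rcases mul_eq_zero.1 h00 with h | h
    · rw [cmp291_sum_zero (h0 x) h, zero_mul]
      exact mul_nonneg hMi hD
    · rw [cmp291_sum_zero (h0 x') h, mul_zero]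
      exact mul_nonneg hMi hD
  · refine le_of_mul_le_mul_right ?_ (mul_pos hz hz)
    calc (∑ y, w x y * f x y) * (∑ y, w x' y * g x' y) * ((∑ y, w (x ⊔ x') y) * (∑ y, w (x ⊔ x') y))
        = ((∑ y, w x y * f x y) * (∑ y, w (x ⊔ x') y))
            * ((∑ y, w x' y * g x' y) * (∑ y, w (x ⊔ x') y)) := by ring
      _ ≤ ((∑ y, w x y) * ∑ y, w (x ⊔ x') y * f (x ⊔ x') y)
            * ((∑ y, w x' y) * ∑ y, w (x ⊔ x') y * g (x ⊔ x') y) :=
          mul_le_mul hinf hing (mul_nonneg hB hMz) (mul_nonneg hM1 hAz)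
      _ = ((∑ y, w x y) * (∑ y, w x' y))
            * ((∑ y, w (x ⊔ x') y * f (x ⊔ x') y) * (∑ y, w (x ⊔ x') y * g (x ⊔ x') y)) := by ring
      _ ≤ ((∑ y, w (x ⊓ x') y) * ∑ y, w (x ⊔ x') y)
            * ((∑ y, w (x ⊔ x') y) * ∑ y, w (x ⊔ x') y * (f (x ⊔ x') y * g (x ⊔ x') y)) :=
          mul_le_mul (hb x x') hz3 (mul_nonneg hAz hBz) (mul_nonneg hMi hMz)
      _ = _ := by ring

/-- **two-level FKG**: unnormalised, zeros allowed, signed increasing observables -/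
theorem cmp291_two_fkg {w : α → β → ℝ} (h0 : ∀ x y, 0 ≤ w x y)
    (ha : ∀ x x', x ≤ x' → ∀ y y', w x y * w x' y' ≤ w x (y ⊓ y') * w x' (y ⊔ y'))
    (hb : ∀ x x', (∑ y, w x y) * (∑ y, w x' y) ≤ (∑ y, w (x ⊓ x') y) * ∑ y, w (x ⊔ x') y)
    {f g : α → β → ℝ} (hf : ∀ x x' y y', x ≤ x' → y ≤ y' → f x y ≤ f x' y')
    (hg : ∀ x x' y y', x ≤ x' → y ≤ y' → g x y ≤ g x' y') :
    (∑ x, ∑ y, w x y * f x y) * (∑ x, ∑ y, w x y * g x y)
      ≤ (∑ x, ∑ y, w x y) * ∑ x, ∑ y, w x y * (f x y * g x y) := by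
  obtain ⟨c, hc⟩ := cmp291_shift f
  obtain ⟨d, hd⟩ := cmp291_shift g
  have key := cmp291_two_fkg_nonneg h0 ha hb (f := fun x y => f x y + c) (g := fun x y => g x y + d)
    (fun x x' y y' hx hy => by have := hf x x' y y' hx hy; linarith) hc
    (fun x x' y y' hx hy => by have := hg x x' y y' hx hy; linarith) hd
  have e : ∀ x y, w x y * ((f x y + c) * (g x y + d))
      = w x y * (f x y * g x y) + (w x y * f x y) * d + (w x y * g x y) * c + w x y * (c * d) := by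
    intro x y; ring
  simp only [e] at key
  simp only [mul_add, Finset.sum_add_distrib, ← Finset.sum_mul] at key
  nlinarith [key]

end TwoLevel

/-! ## 2. the even-subgraph partition function and its FK weights -/

section Even

variable {V ι : Type*} [Fintype V] [DecidableEq V] [Fintype ι] [DecidableEq ι]

/-- the sign of a pair of colours -/
def cmp291Chi (a b : Bool) : ℝ := if a = b then 1 else -1

theorem cmp291_chi_mul (a b c d : Bool) :
    cmp291Chi (xor a c) (xor b d) = cmp291Chi a b * cmp291Chi c d := by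
  cases a <;> cases b <;> cases c <;> cases d <;> simp [cmp291Chi]

/-- `2^{|V|}` times the even-subgraph partition function with edge parameters `u` -/
noncomputable def cmp291E (p q : ι → V) (u : ι → ℝ) : ℝ :=
  ∑ ρ : V → Bool, ∏ i, (1 + u i * cmp291Chi (ρ (p i)) (ρ (q i)))

/-- FK weight (cluster weight `2`): `2^{k(A)} ∏_{A} 2u ∏_{Aᶜ} (1 - u)` -/
noncomputable def cmp291FK (p q : ι → V) (u : ι → ℝ) (A : Finset ι) : ℝ :=
  (iszN Bool p q A : ℝ) * ∏ i, (if i ∈ A then 2 * u i else 1 - u i)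

/-- character sum of `𝔽₂^V` -/
noncomputable def cmp291T (p q : ι → V) (t : Finset ι) : ℝ :=
  ∑ ρ : V → Bool, ∏ i ∈ t, cmp291Chi (ρ (p i)) (ρ (q i))

theorem cmp291_T_nonneg (p q : ι → V) (t : Finset ι) : 0 ≤ cmp291T p q t := by
  set ψ : (V → Bool) → ℝ := fun ρ => ∏ i ∈ t, cmp291Chi (ρ (p i)) (ρ (q i)) with hψ
  have hT : cmp291T p q t = ∑ ρ, ψ ρ := rfl
  have hmul : ∀ ρ ρ₀ : V → Bool, ψ (fun v => xor (ρ v) (ρ₀ v)) = ψ ρ * ψ ρ₀ := by
    intro ρ ρ₀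
    simp only [hψ, cmp291_chi_mul, Finset.prod_mul_distrib]
  have hinv : ∀ ρ₀ : V → Bool,
      Function.Involutive (fun ρ : V → Bool => fun v => xor (ρ v) (ρ₀ v)) := by
    intro ρ₀ ρ
    funext v
    simp [Bool.xor_assoc]
  have key : ∀ ρ₀, cmp291T p q t * ψ ρ₀ = cmp291T p q t := by
    intro ρ₀
    rw [hT, Finset.sum_mul]
    exact Fintype.sum_equiv (hinv ρ₀).toPerm _ _ (fun ρ => (hmul ρ ρ₀).symm)
  have h2 : cmp291T p q t * cmp291T p q t = (Fintype.card (V → Bool) : ℝ) * cmp291T p q t := by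
    calc cmp291T p q t * cmp291T p q t = cmp291T p q t * ∑ ρ₀, ψ ρ₀ := by rw [← hT]
      _ = ∑ ρ₀, cmp291T p q t * ψ ρ₀ := Finset.mul_sum _ _ _
      _ = ∑ _ρ₀ : V → Bool, cmp291T p q t := Finset.sum_congr rfl (fun ρ₀ _ => key ρ₀)
      _ = _ := by rw [Finset.sum_const, Finset.card_univ, nsmul_eq_mul]
  by_contra hneg
  push Not at hneg
  have h3 : 0 < cmp291T p q t * cmp291T p q t := mul_pos_of_neg_of_neg hneg hneg
  have h4 : (Fintype.card (V → Bool) : ℝ) * cmp291T p q t ≤ 0 :=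
    mul_nonpos_of_nonneg_of_nonpos (Nat.cast_nonneg _) hneg.le
  linarith

/-- high-temperature expansion -/
theorem cmp291_E_expand (p q : ι → V) (u : ι → ℝ) :
    cmp291E p q u = ∑ t : Finset ι, (∏ i ∈ t, u i) * cmp291T p q t := by
  unfold cmp291E cmp291T
  simp_rw [Finset.prod_one_add, Finset.prod_mul_distrib, Finset.powerset_univ]
  rw [Finset.sum_comm]
  refine Finset.sum_congr rfl fun t _ => ?_
  rw [Finset.mul_sum]

theorem cmp291_E_nonneg (p q : ι → V) {u : ι → ℝ} (h0 : ∀ i, 0 ≤ u i) : 0 ≤ cmp291E p q u := by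
  rw [cmp291_E_expand]
  exact Finset.sum_nonneg fun t _ =>
    mul_nonneg (Finset.prod_nonneg fun i _ => h0 i) (cmp291_T_nonneg p q t)

/-- **Griffiths I**: the even-subgraph partition function increases with the edge parameters -/
theorem cmp291_E_mono (p q : ι → V) {u u' : ι → ℝ} (h0 : ∀ i, 0 ≤ u i) (h : ∀ i, u i ≤ u' i) :
    cmp291E p q u ≤ cmp291E p q u' := by
  rw [cmp291_E_expand, cmp291_E_expand]
  exact Finset.sum_le_sum fun t _ => mul_le_mul_of_nonneg_right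
    (Finset.prod_le_prod (fun i _ => h0 i) (fun i _ => h i)) (cmp291_T_nonneg p q t)

theorem cmp291_FK_nonneg (p q : ι → V) {u : ι → ℝ} (h0 : ∀ i, 0 ≤ u i) (h1 : ∀ i, u i ≤ 1)
    (A : Finset ι) : 0 ≤ cmp291FK p q u A := by
  unfold cmp291FK
  refine mul_nonneg (Nat.cast_nonneg _) (Finset.prod_nonneg fun i _ => ?_)
  split_ifs
  · linarith [h0 i]
  · linarith [h1 i]

/-- FK (random cluster) expansion -/
theorem cmp291_sum_FK (p q : ι → V) (u : ι → ℝ) :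
    ∑ A : Finset ι, cmp291FK p q u A = cmp291E p q u := by
  classical
  unfold cmp291E cmp291FK iszN
  have h1 : ∀ ρ : V → Bool, ∏ i, (1 + u i * cmp291Chi (ρ (p i)) (ρ (q i)))
      = ∑ ω : Finset ι, (if ∀ i ∈ ω, ρ (p i) = ρ (q i) then (1:ℝ) else 0)
          * ∏ i, (if i ∈ ω then 2 * u i else 1 - u i) := by
    intro ρ
    have h2 : ∀ i, 1 + u i * cmp291Chi (ρ (p i)) (ρ (q i))
        = (if ρ (p i) = ρ (q i) then 2 * u i else 0) + (1 - u i) := by
      intro i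
      unfold cmp291Chi
      split_ifs <;> ring
    simp_rw [h2]
    rw [Finset.prod_add]
    rw [← Finset.powerset_univ]
    refine Finset.sum_congr rfl fun ω _ => ?_
    have h3 : ∏ i, (if i ∈ ω then 2 * u i else 1 - u i)
        = (∏ i ∈ ω, (2 * u i)) * ∏ i ∈ univ \ ω, (1 - u i) := by
      rw [← Finset.prod_sdiff (Finset.subset_univ ω), mul_comm]
      congr 1
      · refine Finset.prod_congr rfl fun i hi => ?_
        rw [if_pos hi]
      · refine Finset.prod_congr rfl fun i hi => ?_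
        rw [if_neg (Finset.mem_sdiff.1 hi).2]
    rw [h3, ← mul_assoc]
    congr 1
    by_cases h : ∀ i ∈ ω, ρ (p i) = ρ (q i)
    · rw [if_pos h, one_mul]
      refine Finset.prod_congr rfl fun i hi => ?_
      rw [if_pos (h i hi)]
    · rw [if_neg h, zero_mul]
      push Not at h
      obtain ⟨i, hi, hne⟩ := h
      exact Finset.prod_eq_zero hi (if_neg hne)
  simp_rw [h1]
  rw [Finset.sum_comm]
  refine Finset.sum_congr rfl fun ω _ => ?_
  rw [← Finset.sum_mul]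
  congr 1
  rw [Finset.card_filter]
  push_cast
  rfl

theorem cmp291_edge_ineq {a b : ℝ} (ha0 : 0 ≤ a) (ha1 : a ≤ 1) (hb0 : 0 ≤ b) (hb1 : b ≤ 1)
    (P Q : Prop) [Decidable P] [Decidable Q] :
    (if P then 2 * a else 1 - a) * (if Q then 2 * b else 1 - b)
      ≤ (if P ∧ Q then 2 * min a b else 1 - min a b) * (if P ∨ Q then 2 * max a b else 1 - max a b) := by
  rcases le_total a b with h | h
  · rw [max_eq_right h, min_eq_left h]
    by_cases hp : P <;> by_cases hq : Q <;> simp only [hp, hq, if_true, if_false, and_true,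
      and_false, or_true, or_false, true_and, false_and, true_or, false_or] <;> nlinarith
  · rw [max_eq_left h, min_eq_right h]
    by_cases hp : P <;> by_cases hq : Q <;> simp only [hp, hq, if_true, if_false, and_true,
      and_false, or_true, or_false, true_and, false_and, true_or, false_or] <;> nlinarith

/-- the four-function inequality of the FK weights -/
theorem cmp291_FK_super (p q : ι → V) {u u' : ι → ℝ} (h0 : ∀ i, 0 ≤ u i) (h1 : ∀ i, u i ≤ 1)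
    (h0' : ∀ i, 0 ≤ u' i) (h1' : ∀ i, u' i ≤ 1) (A A' : Finset ι) :
    cmp291FK p q u A * cmp291FK p q u' A'
      ≤ cmp291FK p q (u ⊓ u') (A ∩ A') * cmp291FK p q (u ⊔ u') (A ∪ A') := by
  unfold cmp291FK
  have hN : (iszN Bool p q A : ℝ) * (iszN Bool p q A' : ℝ)
      ≤ (iszN Bool p q (A ∩ A') : ℝ) * (iszN Bool p q (A ∪ A') : ℝ) := by
    exact_mod_cast isz_N_super (S := Bool) Fintype.card_bool p q A A'
  have hP0 : 0 ≤ (∏ i, (if i ∈ A then 2 * u i else 1 - u i))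
      * ∏ i, (if i ∈ A' then 2 * u' i else 1 - u' i) := by
    refine mul_nonneg (Finset.prod_nonneg fun i _ => ?_) (Finset.prod_nonneg fun i _ => ?_)
    · split_ifs
      · linarith [h0 i]
      · linarith [h1 i]
    · split_ifs
      · linarith [h0' i]
      · linarith [h1' i]
  have hP : (∏ i, (if i ∈ A then 2 * u i else 1 - u i)) * ∏ i, (if i ∈ A' then 2 * u' i else 1 - u' i)
      ≤ (∏ i, (if i ∈ A ∩ A' then 2 * (u ⊓ u') i else 1 - (u ⊓ u') i))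
        * ∏ i, (if i ∈ A ∪ A' then 2 * (u ⊔ u') i else 1 - (u ⊔ u') i) := by
    rw [← Finset.prod_mul_distrib, ← Finset.prod_mul_distrib]
    refine Finset.prod_le_prod (fun i _ => ?_) fun i _ => ?_
    · refine mul_nonneg ?_ ?_
      · split_ifs
        · linarith [h0 i]
        · linarith [h1 i]
      · split_ifs
        · linarith [h0' i]
        · linarith [h1' i]
    · have h := cmp291_edge_ineq (h0 i) (h1 i) (h0' i) (h1' i) (i ∈ A) (i ∈ A')
      simp only [Finset.mem_inter, Finset.mem_union, Pi.sup_apply, Pi.inf_apply]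
      exact h
  calc (iszN Bool p q A : ℝ) * (∏ i, (if i ∈ A then 2 * u i else 1 - u i))
        * ((iszN Bool p q A' : ℝ) * ∏ i, (if i ∈ A' then 2 * u' i else 1 - u' i))
      = ((iszN Bool p q A : ℝ) * (iszN Bool p q A' : ℝ))
        * ((∏ i, (if i ∈ A then 2 * u i else 1 - u i))
          * ∏ i, (if i ∈ A' then 2 * u' i else 1 - u' i)) := by ring
    _ ≤ ((iszN Bool p q (A ∩ A') : ℝ) * (iszN Bool p q (A ∪ A') : ℝ))
        * ((∏ i, (if i ∈ A ∩ A' then 2 * (u ⊓ u') i else 1 - (u ⊓ u') i))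
          * ∏ i, (if i ∈ A ∪ A' then 2 * (u ⊔ u') i else 1 - (u ⊔ u') i)) :=
        mul_le_mul hN hP hP0 (mul_nonneg (Nat.cast_nonneg _) (Nat.cast_nonneg _))
    _ = _ := by ring

/-- Holley condition of the FK weights for ordered couplings -/
theorem cmp291_FK_holley (p q : ι → V) {u u' : ι → ℝ} (h0 : ∀ i, 0 ≤ u i) (h : ∀ i, u i ≤ u' i)
    (h1' : ∀ i, u' i ≤ 1) (A A' : Finset ι) :
    cmp291FK p q u A * cmp291FK p q u' A' ≤ cmp291FK p q u (A ∩ A') * cmp291FK p q u' (A ∪ A') := by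
  have key := cmp291_FK_super p q h0 (fun i => (h i).trans (h1' i)) (fun i => (h0 i).trans (h i)) h1' A A'
  have hle : u ≤ u' := h
  rwa [inf_eq_left.2 hle, sup_eq_right.2 hle] at key

/-- **Griffiths II** in lattice form: log-supermodularity on `[0,1]^E` -/
theorem cmp291_E_super (p q : ι → V) {u u' : ι → ℝ} (h0 : ∀ i, 0 ≤ u i) (h1 : ∀ i, u i ≤ 1)
    (h0' : ∀ i, 0 ≤ u' i) (h1' : ∀ i, u' i ≤ 1) :
    cmp291E p q u * cmp291E p q u' ≤ cmp291E p q (u ⊓ u') * cmp291E p q (u ⊔ u') := by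
  rw [← cmp291_sum_FK, ← cmp291_sum_FK, ← cmp291_sum_FK, ← cmp291_sum_FK]
  refine four_functions_theorem_univ _ _ _ _ (cmp291_FK_nonneg p q h0 h1) (cmp291_FK_nonneg p q h0' h1')
    (cmp291_FK_nonneg p q (fun i => le_min (h0 i) (h0' i)) (fun i => (min_le_left _ _).trans (h1 i)))
    (cmp291_FK_nonneg p q (fun i => (h0 i).trans (le_max_left _ _)) (fun i => max_le (h1 i) (h1' i)))
    fun A A' => ?_
  exact cmp291_FK_super p q h0 h1 h0' h1' A A'

/-- the mixed inequality (3.7) of the paper in coupling form -/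
theorem cmp291_E_mixed (p q : ι → V) {u u' v v' : ι → ℝ} (h0 : ∀ i, 0 ≤ u i) (h1 : ∀ i, u i ≤ 1)
    (h0' : ∀ i, 0 ≤ u' i) (h1' : ∀ i, u' i ≤ 1) (hv : ∀ i, min (u i) (u' i) ≤ v i)
    (hv' : ∀ i, max (u i) (u' i) ≤ v' i) :
    cmp291E p q u * cmp291E p q u' ≤ cmp291E p q v * cmp291E p q v' := by
  refine (cmp291_E_super p q h0 h1 h0' h1').trans ?_
  have hm0 : ∀ i, 0 ≤ (u ⊓ u') i := fun i => le_min (h0 i) (h0' i)
  have hM0 : ∀ i, 0 ≤ (u ⊔ u') i := fun i => (h0 i).trans (le_max_left _ _)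
  exact mul_le_mul (cmp291_E_mono p q hm0 hv) (cmp291_E_mono p q hM0 hv') (cmp291_E_nonneg p q hM0)
    (cmp291_E_nonneg p q fun i => (hm0 i).trans (hv i))

end Even

/-! ## 3. the `(s, W⁺, W⁻)` weight: comparison and association in the order `(s, W⁺, -W⁻)` -/

section Model

variable {V ι : Type*} [Fintype V] [DecidableEq V] [Fintype ι] [DecidableEq ι]

/-- the plus couplings available under `s` : `a i` on the edges with two plus ends -/
def cmp291Up (p q : ι → V) (a : ι → ℝ) (s : V → Bool) : ι → ℝ :=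
  fun i => if s (p i) = true ∧ s (q i) = true then a i else 0

/-- the minus couplings available under `s` : `b i` on the edges with two minus ends -/
def cmp291Um (p q : ι → V) (b : ι → ℝ) (s : V → Bool) : ι → ℝ :=
  fun i => if s (p i) = false ∧ s (q i) = false then b i else 0

theorem cmp291_Up_nonneg (p q : ι → V) {a : ι → ℝ} (h0 : ∀ i, 0 ≤ a i) (s : V → Bool) (i : ι) :
    0 ≤ cmp291Up p q a s i := by
  unfold cmp291Up; split_ifs
  · exact h0 i
  · exact le_rfl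

theorem cmp291_Up_le_one (p q : ι → V) {a : ι → ℝ} (h1 : ∀ i, a i ≤ 1) (s : V → Bool) (i : ι) :
    cmp291Up p q a s i ≤ 1 := by
  unfold cmp291Up; split_ifs
  · exact h1 i
  · exact zero_le_one

theorem cmp291_Um_nonneg (p q : ι → V) {a : ι → ℝ} (h0 : ∀ i, 0 ≤ a i) (s : V → Bool) (i : ι) :
    0 ≤ cmp291Um p q a s i := by
  unfold cmp291Um; split_ifs
  · exact h0 i
  · exact le_rfl

theorem cmp291_Um_le_one (p q : ι → V) {a : ι → ℝ} (h1 : ∀ i, a i ≤ 1) (s : V → Bool) (i : ι) :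
    cmp291Um p q a s i ≤ 1 := by
  unfold cmp291Um; split_ifs
  · exact h1 i
  · exact zero_le_one

/-- plus couplings increase with `s` and with the parameter -/
theorem cmp291_Up_mono (p q : ι → V) {a a' : ι → ℝ} (h0 : ∀ i, 0 ≤ a i) (h : ∀ i, a i ≤ a' i)
    {s s' : V → Bool} (hs : s ≤ s') (i : ι) : cmp291Up p q a s i ≤ cmp291Up p q a' s' i := by
  unfold cmp291Up
  by_cases h1 : s (p i) = true ∧ s (q i) = true
  · have h2 : s' (p i) = true ∧ s' (q i) = true :=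
      ⟨le_antisymm le_top (h1.1 ▸ hs (p i)), le_antisymm le_top (h1.2 ▸ hs (q i))⟩
    rw [if_pos h1, if_pos h2]
    exact h i
  · rw [if_neg h1]
    split_ifs
    · exact (h0 i).trans (h i)
    · exact le_rfl

/-- minus couplings decrease with `s` and increase with the parameter -/
theorem cmp291_Um_anti (p q : ι → V) {b b' : ι → ℝ} (h0 : ∀ i, 0 ≤ b i) (h : ∀ i, b i ≤ b' i)
    {s s' : V → Bool} (hs : s ≤ s') (i : ι) : cmp291Um p q b s' i ≤ cmp291Um p q b' s i := by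
  unfold cmp291Um
  by_cases h1 : s' (p i) = false ∧ s' (q i) = false
  · have h2 : s (p i) = false ∧ s (q i) = false :=
      ⟨le_antisymm (h1.1 ▸ hs (p i)) bot_le, le_antisymm (h1.2 ▸ hs (q i)) bot_le⟩
    rw [if_pos h1, if_pos h2]
    exact h i
  · rw [if_neg h1]
    split_ifs
    · exact (h0 i).trans (h i)
    · exact le_rfl

theorem cmp291_bool_inf (x y x' y' : Bool) {α α' : ℝ} (h0 : 0 ≤ α) (h : α ≤ α') :
    min (if x = true ∧ y = true then α else 0) (if x' = true ∧ y' = true then α' else 0)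
      ≤ if (x ⊓ x') = true ∧ (y ⊓ y') = true then α else 0 := by
  have h0' : 0 ≤ α' := h0.trans h
  cases x <;> cases y <;> cases x' <;> cases y' <;> simp [h0, h0', h]

theorem cmp291_bool_sup (x y x' y' : Bool) {α α' : ℝ} (h0 : 0 ≤ α) (h : α ≤ α') :
    min (if x = false ∧ y = false then α' else 0) (if x' = false ∧ y' = false then α else 0)
      ≤ if (x ⊔ x') = false ∧ (y ⊔ y') = false then α else 0 := by
  have h0' : 0 ≤ α' := h0.trans h
  cases x <;> cases y <;> cases x' <;> cases y' <;> simp [h0, h0', h]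

theorem cmp291_Up_inf (p q : ι → V) {a a' : ι → ℝ} (h0 : ∀ i, 0 ≤ a i) (h : ∀ i, a i ≤ a' i)
    (s s' : V → Bool) (i : ι) :
    min (cmp291Up p q a s i) (cmp291Up p q a' s' i) ≤ cmp291Up p q a (s ⊓ s') i :=
  cmp291_bool_inf _ _ _ _ (h0 i) (h i)

theorem cmp291_Um_inf (p q : ι → V) {b b' : ι → ℝ} (h0 : ∀ i, 0 ≤ b i) (h : ∀ i, b i ≤ b' i)
    (s s' : V → Bool) (i : ι) :
    min (cmp291Um p q b' s i) (cmp291Um p q b s' i) ≤ cmp291Um p q b (s ⊔ s') i :=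
  cmp291_bool_sup _ _ _ _ (h0 i) (h i)

/-- the weight of `(s, W⁺, W⁻)`: vertex factor `G s`, FK weights of the two monochromatic graphs; the second edge
coordinate lives in the ORDER DUAL -/
noncomputable def cmp291W (p q : ι → V) (G : (V → Bool) → ℝ) (a b : ι → ℝ) (s : V → Bool)
    (y : Finset ι × (Finset ι)ᵒᵈ) : ℝ :=
  G s * (cmp291FK p q (cmp291Up p q a s) y.1 * cmp291FK p q (cmp291Um p q b s) (OrderDual.ofDual y.2))

theorem cmp291_W_nonneg (p q : ι → V) {G : (V → Bool) → ℝ} (hG : ∀ s, 0 ≤ G s) {a b : ι → ℝ}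
    (ha0 : ∀ i, 0 ≤ a i) (ha1 : ∀ i, a i ≤ 1) (hb0 : ∀ i, 0 ≤ b i) (hb1 : ∀ i, b i ≤ 1)
    (s : V → Bool) (y : Finset ι × (Finset ι)ᵒᵈ) : 0 ≤ cmp291W p q G a b s y :=
  mul_nonneg (hG s) (mul_nonneg
    (cmp291_FK_nonneg p q (cmp291_Up_nonneg p q ha0 s) (cmp291_Up_le_one p q ha1 s) _)
    (cmp291_FK_nonneg p q (cmp291_Um_nonneg p q hb0 s) (cmp291_Um_le_one p q hb1 s) _))

/-- the `s`-marginal: vertex factor times the even-subgraph partition functions of the two monochromatic graphs -/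
theorem cmp291_W_marginal (p q : ι → V) (G : (V → Bool) → ℝ) (a b : ι → ℝ) (s : V → Bool) :
    ∑ y, cmp291W p q G a b s y
      = G s * (cmp291E p q (cmp291Up p q a s) * cmp291E p q (cmp291Um p q b s)) := by
  unfold cmp291W
  rw [← Finset.mul_sum, Fintype.sum_prod_type]
  congr 1
  simp only
  rw [← cmp291_sum_FK, ← cmp291_sum_FK, Finset.sum_mul_sum]
  refine Finset.sum_congr rfl fun A _ => ?_
  exact Fintype.sum_equiv OrderDual.ofDual _ _ (fun B => rfl)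

/-- (a) Holley condition between the fibres over `s ≤ s'` -/
theorem cmp291_W_fibre (p q : ι → V) {G₁ G₂ : (V → Bool) → ℝ} (hG1 : ∀ s, 0 ≤ G₁ s) (hG2 : ∀ s, 0 ≤ G₂ s)
    {a₁ a₂ b₁ b₂ : ι → ℝ} (ha0 : ∀ i, 0 ≤ a₁ i) (ha : ∀ i, a₁ i ≤ a₂ i) (ha1 : ∀ i, a₂ i ≤ 1)
    (hb0 : ∀ i, 0 ≤ b₂ i) (hb : ∀ i, b₂ i ≤ b₁ i) (hb1 : ∀ i, b₁ i ≤ 1)
    {s s' : V → Bool} (hs : s ≤ s') (y y' : Finset ι × (Finset ι)ᵒᵈ) :
    cmp291W p q G₁ a₁ b₁ s y * cmp291W p q G₂ a₂ b₂ s' y'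
      ≤ cmp291W p q G₁ a₁ b₁ s (y ⊓ y') * cmp291W p q G₂ a₂ b₂ s' (y ⊔ y') := by
  unfold cmp291W
  have e1 := cmp291_FK_holley p q (cmp291_Up_nonneg p q ha0 s) (cmp291_Up_mono p q ha0 ha hs)
    (cmp291_Up_le_one p q ha1 s') y.1 y'.1
  have e2 := cmp291_FK_holley p q (cmp291_Um_nonneg p q hb0 s') (cmp291_Um_anti p q hb0 hb hs)
    (cmp291_Um_le_one p q hb1 s) (OrderDual.ofDual y'.2) (OrderDual.ofDual y.2)
  have n1 := cmp291_FK_nonneg p q (cmp291_Up_nonneg p q ha0 s)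
    (cmp291_Up_le_one p q (fun i => (ha i).trans (ha1 i)) s)
  have n2 := cmp291_FK_nonneg p q (cmp291_Up_nonneg p q (fun i => (ha0 i).trans (ha i)) s')
    (cmp291_Up_le_one p q ha1 s')
  have n3 := cmp291_FK_nonneg p q (cmp291_Um_nonneg p q (fun i => (hb0 i).trans (hb i)) s)
    (cmp291_Um_le_one p q hb1 s)
  have n4 := cmp291_FK_nonneg p q (cmp291_Um_nonneg p q hb0 s')
    (cmp291_Um_le_one p q (fun i => (hb i).trans (hb1 i)) s')
  have f1 : (y ⊓ y').1 = y.1 ∩ y'.1 := rfl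
  have f2 : (y ⊔ y').1 = y.1 ∪ y'.1 := rfl
  have f3 : OrderDual.ofDual (y ⊓ y').2 = OrderDual.ofDual y'.2 ∪ OrderDual.ofDual y.2 :=
    Finset.union_comm _ _
  have f4 : OrderDual.ofDual (y ⊔ y').2 = OrderDual.ofDual y'.2 ∩ OrderDual.ofDual y.2 :=
    Finset.inter_comm _ _
  rw [f1, f2, f3, f4]
  have hGG : 0 ≤ G₁ s * G₂ s' := mul_nonneg (hG1 s) (hG2 s')
  calc G₁ s * (cmp291FK p q (cmp291Up p q a₁ s) y.1 * cmp291FK p q (cmp291Um p q b₁ s) (OrderDual.ofDual y.2))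
        * (G₂ s' * (cmp291FK p q (cmp291Up p q a₂ s') y'.1
          * cmp291FK p q (cmp291Um p q b₂ s') (OrderDual.ofDual y'.2)))
      = (G₁ s * G₂ s') * ((cmp291FK p q (cmp291Up p q a₁ s) y.1 * cmp291FK p q (cmp291Up p q a₂ s') y'.1)
          * (cmp291FK p q (cmp291Um p q b₂ s') (OrderDual.ofDual y'.2)
            * cmp291FK p q (cmp291Um p q b₁ s) (OrderDual.ofDual y.2))) := by ring
    _ ≤ (G₁ s * G₂ s') * ((cmp291FK p q (cmp291Up p q a₁ s) (y.1 ∩ y'.1)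
            * cmp291FK p q (cmp291Up p q a₂ s') (y.1 ∪ y'.1))
          * (cmp291FK p q (cmp291Um p q b₂ s') (OrderDual.ofDual y'.2 ∩ OrderDual.ofDual y.2)
            * cmp291FK p q (cmp291Um p q b₁ s) (OrderDual.ofDual y'.2 ∪ OrderDual.ofDual y.2))) :=
        mul_le_mul_of_nonneg_left
          (mul_le_mul e1 e2 (mul_nonneg (n4 _) (n3 _)) (mul_nonneg (n1 _) (n2 _))) hGG
    _ = _ := by ring

/-- (b) lattice condition of the `s`-marginals -/
theorem cmp291_W_base (p q : ι → V) {G₁ G₂ : (V → Bool) → ℝ} (hG1 : ∀ s, 0 ≤ G₁ s) (hG2 : ∀ s, 0 ≤ G₂ s)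
    (hG : ∀ s s', G₁ s * G₂ s' ≤ G₁ (s ⊓ s') * G₂ (s ⊔ s'))
    {a₁ a₂ b₁ b₂ : ι → ℝ} (ha0 : ∀ i, 0 ≤ a₁ i) (ha : ∀ i, a₁ i ≤ a₂ i) (ha1 : ∀ i, a₂ i ≤ 1)
    (hb0 : ∀ i, 0 ≤ b₂ i) (hb : ∀ i, b₂ i ≤ b₁ i) (hb1 : ∀ i, b₁ i ≤ 1) (s s' : V → Bool) :
    (∑ y, cmp291W p q G₁ a₁ b₁ s y) * (∑ y, cmp291W p q G₂ a₂ b₂ s' y)
      ≤ (∑ y, cmp291W p q G₁ a₁ b₁ (s ⊓ s') y) * ∑ y, cmp291W p q G₂ a₂ b₂ (s ⊔ s') y := by
  rw [cmp291_W_marginal, cmp291_W_marginal, cmp291_W_marginal, cmp291_W_marginal]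
  have ha0' : ∀ i, 0 ≤ a₂ i := fun i => (ha0 i).trans (ha i)
  have ha1' : ∀ i, a₁ i ≤ 1 := fun i => (ha i).trans (ha1 i)
  have hb0' : ∀ i, 0 ≤ b₁ i := fun i => (hb0 i).trans (hb i)
  have hb1' : ∀ i, b₂ i ≤ 1 := fun i => (hb i).trans (hb1 i)
  have e1 : cmp291E p q (cmp291Up p q a₁ s) * cmp291E p q (cmp291Up p q a₂ s')
      ≤ cmp291E p q (cmp291Up p q a₁ (s ⊓ s')) * cmp291E p q (cmp291Up p q a₂ (s ⊔ s')) :=
    cmp291_E_mixed p q (cmp291_Up_nonneg p q ha0 s) (cmp291_Up_le_one p q ha1' s)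
      (cmp291_Up_nonneg p q ha0' s') (cmp291_Up_le_one p q ha1 s') (cmp291_Up_inf p q ha0 ha s s')
      (fun i => max_le (cmp291_Up_mono p q ha0 ha le_sup_left i)
        (cmp291_Up_mono p q ha0' (fun _ => le_rfl) le_sup_right i))
  have e2 : cmp291E p q (cmp291Um p q b₁ s) * cmp291E p q (cmp291Um p q b₂ s')
      ≤ cmp291E p q (cmp291Um p q b₂ (s ⊔ s')) * cmp291E p q (cmp291Um p q b₁ (s ⊓ s')) :=
    cmp291_E_mixed p q (cmp291_Um_nonneg p q hb0' s) (cmp291_Um_le_one p q hb1 s)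
      (cmp291_Um_nonneg p q hb0 s') (cmp291_Um_le_one p q hb1' s') (cmp291_Um_inf p q hb0 hb s s')
      (fun i => max_le (cmp291_Um_anti p q hb0' (fun _ => le_rfl) inf_le_left i)
        (cmp291_Um_anti p q hb0 hb inf_le_right i))
  have n1 := fun s => cmp291_E_nonneg p q (cmp291_Up_nonneg p q ha0 s)
  have n2 := fun s => cmp291_E_nonneg p q (cmp291_Up_nonneg p q ha0' s)
  have n3 := fun s => cmp291_E_nonneg p q (cmp291_Um_nonneg p q hb0' s)
  have n4 := fun s => cmp291_E_nonneg p q (cmp291_Um_nonneg p q hb0 s)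
  calc G₁ s * (cmp291E p q (cmp291Up p q a₁ s) * cmp291E p q (cmp291Um p q b₁ s))
        * (G₂ s' * (cmp291E p q (cmp291Up p q a₂ s') * cmp291E p q (cmp291Um p q b₂ s')))
      = (G₁ s * G₂ s') * ((cmp291E p q (cmp291Up p q a₁ s) * cmp291E p q (cmp291Up p q a₂ s'))
          * (cmp291E p q (cmp291Um p q b₁ s) * cmp291E p q (cmp291Um p q b₂ s'))) := by ring
    _ ≤ (G₁ (s ⊓ s') * G₂ (s ⊔ s'))
          * ((cmp291E p q (cmp291Up p q a₁ (s ⊓ s')) * cmp291E p q (cmp291Up p q a₂ (s ⊔ s')))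
          * (cmp291E p q (cmp291Um p q b₂ (s ⊔ s')) * cmp291E p q (cmp291Um p q b₁ (s ⊓ s')))) :=
        mul_le_mul (hG s s') (mul_le_mul e1 e2 (mul_nonneg (n3 _) (n4 _)) (mul_nonneg (n1 _) (n2 _)))
          (mul_nonneg (mul_nonneg (n1 _) (n2 _)) (mul_nonneg (n3 _) (n4 _)))
          (mul_nonneg (hG1 _) (hG2 _))
    _ = _ := by ring

/-- **Proposition 3.2, comparison**: raising the vertex factor (pins, fields), the plus couplings (plus wires) and lowering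
the minus couplings (minus wires) raises the law of `(s, W⁺, -W⁻)`.  Unnormalised, zeros allowed. -/
theorem cmp291_holley (p q : ι → V) {G₁ G₂ : (V → Bool) → ℝ} (hG1 : ∀ s, 0 ≤ G₁ s) (hG2 : ∀ s, 0 ≤ G₂ s)
    (hG : ∀ s s', G₁ s * G₂ s' ≤ G₁ (s ⊓ s') * G₂ (s ⊔ s'))
    {a₁ a₂ b₁ b₂ : ι → ℝ} (ha0 : ∀ i, 0 ≤ a₁ i) (ha : ∀ i, a₁ i ≤ a₂ i) (ha1 : ∀ i, a₂ i ≤ 1)
    (hb0 : ∀ i, 0 ≤ b₂ i) (hb : ∀ i, b₂ i ≤ b₁ i) (hb1 : ∀ i, b₁ i ≤ 1)
    {f : (V → Bool) → Finset ι × (Finset ι)ᵒᵈ → ℝ}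
    (hf : ∀ s s' y y', s ≤ s' → y ≤ y' → f s y ≤ f s' y') :
    (∑ s, ∑ y, cmp291W p q G₁ a₁ b₁ s y * f s y) * (∑ s, ∑ y, cmp291W p q G₂ a₂ b₂ s y)
      ≤ (∑ s, ∑ y, cmp291W p q G₁ a₁ b₁ s y) * ∑ s, ∑ y, cmp291W p q G₂ a₂ b₂ s y * f s y :=
  cmp291_two_holley
    (cmp291_W_nonneg p q hG1 ha0 (fun i => (ha i).trans (ha1 i)) (fun i => (hb0 i).trans (hb i)) hb1)
    (cmp291_W_nonneg p q hG2 (fun i => (ha0 i).trans (ha i)) ha1 hb0 (fun i => (hb i).trans (hb1 i)))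
    (fun _ _ hs y y' => cmp291_W_fibre p q hG1 hG2 ha0 ha ha1 hb0 hb hb1 hs y y')
    (cmp291_W_base p q hG1 hG2 hG ha0 ha ha1 hb0 hb hb1) hf

/-- **Proposition 3.2, association**: the law of `(s, W⁺, -W⁻)` is positively associated.  Unnormalised, zeros allowed. -/
theorem cmp291_fkg (p q : ι → V) {G : (V → Bool) → ℝ} (hG0 : ∀ s, 0 ≤ G s)
    (hG : ∀ s s', G s * G s' ≤ G (s ⊓ s') * G (s ⊔ s'))
    {a b : ι → ℝ} (ha0 : ∀ i, 0 ≤ a i) (ha1 : ∀ i, a i ≤ 1) (hb0 : ∀ i, 0 ≤ b i) (hb1 : ∀ i, b i ≤ 1)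
    {f g : (V → Bool) → Finset ι × (Finset ι)ᵒᵈ → ℝ}
    (hf : ∀ s s' y y', s ≤ s' → y ≤ y' → f s y ≤ f s' y')
    (hg : ∀ s s' y y', s ≤ s' → y ≤ y' → g s y ≤ g s' y') :
    (∑ s, ∑ y, cmp291W p q G a b s y * f s y) * (∑ s, ∑ y, cmp291W p q G a b s y * g s y)
      ≤ (∑ s, ∑ y, cmp291W p q G a b s y) * ∑ s, ∑ y, cmp291W p q G a b s y * (f s y * g s y) :=
  cmp291_two_fkg (cmp291_W_nonneg p q hG0 ha0 ha1 hb0 hb1)
    (fun _ _ hs y y' => cmp291_W_fibre p q hG0 hG0 ha0 (fun _ => le_rfl) ha1 hb0 (fun _ => le_rfl) hb1 hs y y')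
    (cmp291_W_base p q hG0 hG0 hG ha0 (fun _ => le_rfl) ha1 hb0 (fun _ => le_rfl) hb1) hf hg

/-! ## 4. vertex factors in product form: fields (pins) and pair factors -/

/-- product vertex factor: single-site fields and pair factors along the edges -/
noncomputable def cmp291G (p q : ι → V) (fld : V → Bool → ℝ) (H : ι → Bool → Bool → ℝ) (s : V → Bool) : ℝ :=
  (∏ v, fld v (s v)) * ∏ i, H i (s (p i)) (s (q i))

theorem cmp291_G_nonneg (p q : ι → V) {fld : V → Bool → ℝ} {H : ι → Bool → Bool → ℝ}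
    (hf : ∀ v x, 0 ≤ fld v x) (hH : ∀ i x y, 0 ≤ H i x y) (s : V → Bool) : 0 ≤ cmp291G p q fld H s :=
  mul_nonneg (Finset.prod_nonneg fun v _ => hf v _) (Finset.prod_nonneg fun i _ => hH i _ _)

theorem cmp291_G_holley (p q : ι → V) {fld₁ fld₂ : V → Bool → ℝ} {H₁ H₂ : ι → Bool → Bool → ℝ}
    (hf1 : ∀ v x, 0 ≤ fld₁ v x) (hf2 : ∀ v x, 0 ≤ fld₂ v x)
    (hH1 : ∀ i x y, 0 ≤ H₁ i x y) (hH2 : ∀ i x y, 0 ≤ H₂ i x y)
    (hf : ∀ v x x', fld₁ v x * fld₂ v x' ≤ fld₁ v (x ⊓ x') * fld₂ v (x ⊔ x'))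
    (hH : ∀ i x y x' y', H₁ i x y * H₂ i x' y' ≤ H₁ i (x ⊓ x') (y ⊓ y') * H₂ i (x ⊔ x') (y ⊔ y'))
    (s s' : V → Bool) :
    cmp291G p q fld₁ H₁ s * cmp291G p q fld₂ H₂ s'
      ≤ cmp291G p q fld₁ H₁ (s ⊓ s') * cmp291G p q fld₂ H₂ (s ⊔ s') := by
  unfold cmp291G
  have e1 : (∏ v, fld₁ v (s v)) * ∏ v, fld₂ v (s' v)
      ≤ (∏ v, fld₁ v ((s ⊓ s') v)) * ∏ v, fld₂ v ((s ⊔ s') v) := by
    rw [← Finset.prod_mul_distrib, ← Finset.prod_mul_distrib]
    exact Finset.prod_le_prod (fun v _ => mul_nonneg (hf1 v _) (hf2 v _)) (fun v _ => hf v _ _)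
  have e2 : (∏ i, H₁ i (s (p i)) (s (q i))) * ∏ i, H₂ i (s' (p i)) (s' (q i))
      ≤ (∏ i, H₁ i ((s ⊓ s') (p i)) ((s ⊓ s') (q i))) * ∏ i, H₂ i ((s ⊔ s') (p i)) ((s ⊔ s') (q i)) := by
    rw [← Finset.prod_mul_distrib, ← Finset.prod_mul_distrib]
    exact Finset.prod_le_prod (fun i _ => mul_nonneg (hH1 i _ _) (hH2 i _ _)) (fun i _ => hH i _ _ _ _)
  have n1 : 0 ≤ (∏ i, H₁ i (s (p i)) (s (q i))) * ∏ i, H₂ i (s' (p i)) (s' (q i)) :=
    mul_nonneg (Finset.prod_nonneg fun i _ => hH1 i _ _) (Finset.prod_nonneg fun i _ => hH2 i _ _)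
  have n2 : 0 ≤ (∏ v, fld₁ v ((s ⊓ s') v)) * ∏ v, fld₂ v ((s ⊔ s') v) :=
    mul_nonneg (Finset.prod_nonneg fun v _ => hf1 v _) (Finset.prod_nonneg fun v _ => hf2 v _)
  calc (∏ v, fld₁ v (s v)) * (∏ i, H₁ i (s (p i)) (s (q i)))
        * ((∏ v, fld₂ v (s' v)) * ∏ i, H₂ i (s' (p i)) (s' (q i)))
      = ((∏ v, fld₁ v (s v)) * ∏ v, fld₂ v (s' v))
        * ((∏ i, H₁ i (s (p i)) (s (q i))) * ∏ i, H₂ i (s' (p i)) (s' (q i))) := by ring
    _ ≤ _ := mul_le_mul e1 e2 n1 n2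
    _ = _ := by ring

/-- monotone likelihood ratio is the Holley condition of a single site -/
theorem cmp291_fld_holley {φ₁ φ₂ : Bool → ℝ} (h : φ₁ true * φ₂ false ≤ φ₁ false * φ₂ true) (x x' : Bool) :
    φ₁ x * φ₂ x' ≤ φ₁ (x ⊓ x') * φ₂ (x ⊔ x') := by
  cases x <;> cases x'
  · exact le_rfl
  · exact le_rfl
  · exact h
  · exact le_rfl

/-- the pair factor: `kp` on `++`, `km` on `--`, `c` on a disagreement -/
def cmp291H (kp km c : ℝ) : Bool → Bool → ℝ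
  | true, true => kp
  | false, false => km
  | _, _ => c

theorem cmp291_H_nonneg {kp km c : ℝ} (h1 : 0 ≤ kp) (h2 : 0 ≤ km) (h3 : 0 ≤ c) (x y : Bool) :
    0 ≤ cmp291H kp km c x y := by
  cases x <;> cases y <;> simp [cmp291H, h1, h2, h3]

/-- ferromagnetic pair factor: `c² ≤ k₋ k₊` -/
theorem cmp291_H_super {kp km c : ℝ} (h : c * c ≤ km * kp) (x y x' y' : Bool) :
    cmp291H kp km c x y * cmp291H kp km c x' y'
      ≤ cmp291H kp km c (x ⊓ x') (y ⊓ y') * cmp291H kp km c (x ⊔ x') (y ⊔ y') := by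
  cases x <;> cases y <;> cases x' <;> cases y' <;>
    first
      | exact le_rfl
      | exact (mul_comm _ _).le
      | exact h

/-! ## 5. the paper's `(s, W)` weight and the order (3.4) -/

/-- edges with two plus ends -/
def cmp291Ep (p q : ι → V) (s : V → Bool) : Finset ι :=
  univ.filter fun i => s (p i) = true ∧ s (q i) = true

/-- edges with two minus ends -/
def cmp291Em (p q : ι → V) (s : V → Bool) : Finset ι :=
  univ.filter fun i => s (p i) = false ∧ s (q i) = false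

theorem cmp291_mem_Ep (p q : ι → V) (s : V → Bool) (i : ι) :
    i ∈ cmp291Ep p q s ↔ s (p i) = true ∧ s (q i) = true := by simp [cmp291Ep]

theorem cmp291_mem_Em (p q : ι → V) (s : V → Bool) (i : ι) :
    i ∈ cmp291Em p q s ↔ s (p i) = false ∧ s (q i) = false := by simp [cmp291Em]

theorem cmp291_Ep_mono (p q : ι → V) {s s' : V → Bool} (hs : s ≤ s') :
    cmp291Ep p q s ⊆ cmp291Ep p q s' := by
  intro i hi
  rw [cmp291_mem_Ep] at hi ⊢
  exact ⟨le_antisymm le_top (hi.1 ▸ hs (p i)), le_antisymm le_top (hi.2 ▸ hs (q i))⟩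

theorem cmp291_Em_anti (p q : ι → V) {s s' : V → Bool} (hs : s ≤ s') :
    cmp291Em p q s' ⊆ cmp291Em p q s := by
  intro i hi
  rw [cmp291_mem_Em] at hi ⊢
  exact ⟨le_antisymm (hi.1 ▸ hs (p i)) bot_le, le_antisymm (hi.2 ▸ hs (q i)) bot_le⟩

theorem cmp291_Ep_Em_disj (p q : ι → V) (s : V → Bool) {i : ι} (h1 : i ∈ cmp291Ep p q s)
    (h2 : i ∈ cmp291Em p q s) : False := by
  rw [cmp291_mem_Ep] at h1
  rw [cmp291_mem_Em] at h2
  rw [h1.1] at h2
  exact Bool.noConfusion h2.1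

theorem cmp291_mono_iff (p q : ι → V) (s : V → Bool) (i : ι) :
    s (p i) = s (q i) ↔ i ∈ cmp291Ep p q s ∪ cmp291Em p q s := by
  rw [Finset.mem_union, cmp291_mem_Ep, cmp291_mem_Em]
  cases s (p i) <;> cases s (q i) <;> simp

/-- the FK weight of the plus graph vanishes off the plus edges -/
theorem cmp291_FK_Up_zero (p q : ι → V) (a : ι → ℝ) (s : V → Bool) {A : Finset ι}
    (hA : ¬ A ⊆ cmp291Ep p q s) : cmp291FK p q (cmp291Up p q a s) A = 0 := by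
  obtain ⟨i, hi, hn⟩ := Finset.not_subset.1 hA
  unfold cmp291FK
  rw [Finset.prod_eq_zero (Finset.mem_univ i), mul_zero]
  rw [cmp291_mem_Ep] at hn
  rw [if_pos hi]
  unfold cmp291Up
  rw [if_neg hn, mul_zero]

theorem cmp291_FK_Um_zero (p q : ι → V) (b : ι → ℝ) (s : V → Bool) {B : Finset ι}
    (hB : ¬ B ⊆ cmp291Em p q s) : cmp291FK p q (cmp291Um p q b s) B = 0 := by
  obtain ⟨i, hi, hn⟩ := Finset.not_subset.1 hB
  unfold cmp291FK
  rw [Finset.prod_eq_zero (Finset.mem_univ i), mul_zero]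
  rw [cmp291_mem_Em] at hn
  rw [if_pos hi]
  unfold cmp291Um
  rw [if_neg hn, mul_zero]

/-- exchange of two colourings across the partition `{s = +} ⊔ {s = -}` -/
def cmp291Mix (s : V → Bool) (z : (V → Bool) × (V → Bool)) : (V → Bool) × (V → Bool) :=
  (fun v => if s v = true then z.1 v else z.2 v, fun v => if s v = true then z.2 v else z.1 v)

theorem cmp291_Mix_invol (s : V → Bool) : Function.Involutive (cmp291Mix s) := by
  rintro ⟨z1, z2⟩
  unfold cmp291Mix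
  refine Prod.ext ?_ ?_ <;> funext v <;> by_cases h : s v = true <;> simp [h]

/-- the cluster factor splits over the two colours: `N(A) N(B) = 2^{|V|} N(A ∪ B)` -/
theorem cmp291_N_split (p q : ι → V) (s : V → Bool) {A B : Finset ι} (hA : A ⊆ cmp291Ep p q s)
    (hB : B ⊆ cmp291Em p q s) :
    iszN Bool p q A * iszN Bool p q B = Fintype.card (V → Bool) * iszN Bool p q (A ∪ B) := by
  unfold iszN
  rw [← Finset.card_univ, ← Finset.card_product, ← Finset.card_product]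
  refine Finset.card_equiv ((cmp291_Mix_invol s).toPerm.trans (Equiv.prodComm _ _)) ?_
  rintro ⟨z1, z2⟩
  simp only [Finset.mem_product, Finset.mem_filter, Finset.mem_univ, true_and, Equiv.trans_apply,
    Equiv.prodComm_apply, Function.Involutive.coe_toPerm, Prod.snd_swap, cmp291Mix, Finset.mem_union]
  constructor
  · rintro ⟨h1, h2⟩ i (hi | hi)
    · have := (cmp291_mem_Ep p q s i).1 (hA hi)
      rw [if_pos this.1, if_pos this.2]
      exact h1 i hi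
    · have := (cmp291_mem_Em p q s i).1 (hB hi)
      rw [if_neg (by rw [this.1]; exact Bool.false_ne_true), if_neg (by rw [this.2]; exact Bool.false_ne_true)]
      exact h2 i hi
  · intro h
    refine ⟨fun i hi => ?_, fun i hi => ?_⟩
    · have := (cmp291_mem_Ep p q s i).1 (hA hi)
      have h' := h i (Or.inl hi)
      rwa [if_pos this.1, if_pos this.2] at h'
    · have := (cmp291_mem_Em p q s i).1 (hB hi)
      have h' := h i (Or.inr hi)
      rwa [if_neg (by rw [this.1]; exact Bool.false_ne_true),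
        if_neg (by rw [this.2]; exact Bool.false_ne_true)] at h'

/-- the paper's weight of `(s, W)` (after division by `t^{|E|}` and Euler's relation (3.5)):
`2^{k(W)} 2^{|W|} r^{#closed monochromatic edges}`, `W` monochromatic -/
noncomputable def cmp291AT (p q : ι → V) (r : ℝ) (s : V → Bool) (W : Finset ι) : ℝ :=
  if ∀ i ∈ W, s (p i) = s (q i) then
    (iszN Bool p q W : ℝ) * ∏ i, (if i ∈ W then 2 else if s (p i) = s (q i) then r else 1)
  else 0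

theorem cmp291_AT_nonneg (p q : ι → V) {r : ℝ} (hr : 0 ≤ r) (s : V → Bool) (W : Finset ι) :
    0 ≤ cmp291AT p q r s W := by
  unfold cmp291AT
  split_ifs
  · refine mul_nonneg (Nat.cast_nonneg _) (Finset.prod_nonneg fun i _ => ?_)
    split_ifs
    · norm_num
    · exact hr
    · exact zero_le_one
  · exact le_rfl

/-- the vertex factor which turns `cmp291W` into the paper's weight -/
noncomputable def cmp291Gr (p q : ι → V) (r : ℝ) (Φ : (V → Bool) → ℝ) (s : V → Bool) : ℝ :=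
  Φ s * ∏ i, cmp291H (1 + r) (1 + r) 1 (s (p i)) (s (q i))

theorem cmp291_edge_AT {r : ℝ} (hr : 0 ≤ r) (x y : Bool) (PA PB : Prop) [Decidable PA] [Decidable PB]
    (hA : PA → x = true ∧ y = true) (hB : PB → x = false ∧ y = false) :
    cmp291H (1 + r) (1 + r) 1 x y
      * ((if PA then 2 * (if x = true ∧ y = true then (1 + r)⁻¹ else 0)
            else 1 - (if x = true ∧ y = true then (1 + r)⁻¹ else 0))
        * (if PB then 2 * (if x = false ∧ y = false then (1 + r)⁻¹ else 0)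
            else 1 - (if x = false ∧ y = false then (1 + r)⁻¹ else 0)))
      = if PA ∨ PB then 2 else if x = y then r else 1 := by
  have h1 : (1 + r) ≠ 0 := by positivity
  cases x <;> cases y <;> by_cases h2 : PA <;> by_cases h3 : PB <;>
    simp_all [cmp291H] <;> field_simp <;> ring

theorem cmp291_W_eq_AT (p q : ι → V) {r : ℝ} (hr : 0 ≤ r) (Φ : (V → Bool) → ℝ) (s : V → Bool)
    {A B : Finset ι} (hA : A ⊆ cmp291Ep p q s) (hB : B ⊆ cmp291Em p q s) :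
    cmp291W p q (cmp291Gr p q r Φ) (fun _ => (1 + r)⁻¹) (fun _ => (1 + r)⁻¹) s (A, OrderDual.toDual B)
      = (Fintype.card (V → Bool) : ℝ) * (Φ s * cmp291AT p q r s (A ∪ B)) := by
  have hm : ∀ i ∈ A ∪ B, s (p i) = s (q i) := fun i hi =>
    (cmp291_mono_iff p q s i).2 (Finset.union_subset_union hA hB hi)
  have hN : (iszN Bool p q A : ℝ) * (iszN Bool p q B : ℝ)
      = (Fintype.card (V → Bool) : ℝ) * (iszN Bool p q (A ∪ B) : ℝ) := by
    exact_mod_cast cmp291_N_split p q s hA hB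
  have hP : (∏ i, cmp291H (1 + r) (1 + r) 1 (s (p i)) (s (q i)))
      * ((∏ i, (if i ∈ A then 2 * cmp291Up p q (fun _ => (1 + r)⁻¹) s i
            else 1 - cmp291Up p q (fun _ => (1 + r)⁻¹) s i))
        * ∏ i, (if i ∈ B then 2 * cmp291Um p q (fun _ => (1 + r)⁻¹) s i
            else 1 - cmp291Um p q (fun _ => (1 + r)⁻¹) s i))
      = ∏ i, (if i ∈ A ∪ B then 2 else if s (p i) = s (q i) then r else 1) := by
    rw [← Finset.prod_mul_distrib, ← Finset.prod_mul_distrib]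
    refine Finset.prod_congr rfl fun i _ => ?_
    have := cmp291_edge_AT hr (s (p i)) (s (q i)) (i ∈ A) (i ∈ B)
      (fun h => (cmp291_mem_Ep p q s i).1 (hA h)) (fun h => (cmp291_mem_Em p q s i).1 (hB h))
    simp only [Finset.mem_union]
    exact this
  show cmp291Gr p q r Φ s * (cmp291FK p q (cmp291Up p q (fun _ => (1 + r)⁻¹) s) A
      * cmp291FK p q (cmp291Um p q (fun _ => (1 + r)⁻¹) s) B) = _
  unfold cmp291AT cmp291FK cmp291Gr
  rw [if_pos hm, ← hP]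
  linear_combination (Φ s * ((∏ i, cmp291H (1 + r) (1 + r) 1 (s (p i)) (s (q i)))
      * ((∏ i, (if i ∈ A then 2 * cmp291Up p q (fun _ => (1 + r)⁻¹) s i
            else 1 - cmp291Up p q (fun _ => (1 + r)⁻¹) s i))
        * ∏ i, (if i ∈ B then 2 * cmp291Um p q (fun _ => (1 + r)⁻¹) s i
            else 1 - cmp291Um p q (fun _ => (1 + r)⁻¹) s i)))) * hN

/-- the dictionary `(s, W⁺, W⁻) ↔ (s, W)` at the level of sums -/
theorem cmp291_sum_W_eq_AT (p q : ι → V) {r : ℝ} (hr : 0 ≤ r) (Φ : (V → Bool) → ℝ) (s : V → Bool)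
    (F : Finset ι → ℝ) :
    ∑ y, cmp291W p q (cmp291Gr p q r Φ) (fun _ => (1 + r)⁻¹) (fun _ => (1 + r)⁻¹) s y
        * F ((y.1 ∩ cmp291Ep p q s) ∪ (OrderDual.ofDual y.2 ∩ cmp291Em p q s))
      = (Fintype.card (V → Bool) : ℝ) * ∑ W, Φ s * cmp291AT p q r s W * F W := by
  rw [Finset.mul_sum]
  rw [← Finset.sum_filter_of_ne (s := (univ : Finset (Finset ι × (Finset ι)ᵒᵈ)))
    (p := fun y => y.1 ⊆ cmp291Ep p q s ∧ OrderDual.ofDual y.2 ⊆ cmp291Em p q s)]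
  rw [← Finset.sum_filter_of_ne (s := (univ : Finset (Finset ι)))
    (p := fun W => W ⊆ cmp291Ep p q s ∪ cmp291Em p q s)]
  · refine Finset.sum_nbij' (fun y => y.1 ∪ OrderDual.ofDual y.2)
      (fun W => (W ∩ cmp291Ep p q s, OrderDual.toDual (W ∩ cmp291Em p q s))) ?_ ?_ ?_ ?_ ?_
    · intro y hy
      simp only [Finset.mem_filter, Finset.mem_univ, true_and] at hy ⊢
      exact Finset.union_subset_union hy.1 hy.2
    · intro W hW
      simp only [Finset.mem_filter, Finset.mem_univ, true_and, OrderDual.ofDual_toDual]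
      exact ⟨Finset.inter_subset_right, Finset.inter_subset_right⟩
    · rintro ⟨A, B⟩ hy
      simp only [Finset.mem_filter, Finset.mem_univ, true_and] at hy
      obtain ⟨hA, hB⟩ := hy
      refine Prod.ext ?_ ?_
      · show (A ∪ OrderDual.ofDual B) ∩ cmp291Ep p q s = A
        ext i
        simp only [Finset.mem_inter, Finset.mem_union]
        constructor
        · rintro ⟨h | h, h'⟩
          · exact h
          · exact (cmp291_Ep_Em_disj p q s h' (hB h)).elim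
        · intro h
          exact ⟨Or.inl h, hA h⟩
      · show OrderDual.toDual ((A ∪ OrderDual.ofDual B) ∩ cmp291Em p q s) = B
        apply OrderDual.ofDual.injective
        rw [OrderDual.ofDual_toDual]
        ext i
        simp only [Finset.mem_inter, Finset.mem_union]
        constructor
        · rintro ⟨h | h, h'⟩
          · exact (cmp291_Ep_Em_disj p q s (hA h) h').elim
          · exact h
        · intro h
          exact ⟨Or.inr h, hB h⟩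
    · intro W hW
      simp only [Finset.mem_filter, Finset.mem_univ, true_and] at hW
      show (W ∩ cmp291Ep p q s) ∪ (W ∩ cmp291Em p q s) = W
      rw [← Finset.inter_union_distrib_left]
      exact Finset.inter_eq_left.2 hW
    · rintro ⟨A, B⟩ hy
      simp only [Finset.mem_filter, Finset.mem_univ, true_and] at hy
      obtain ⟨hA, hB⟩ := hy
      have e := cmp291_W_eq_AT p q hr Φ s hA hB
      rw [OrderDual.toDual_ofDual] at e
      simp only
      rw [e, Finset.inter_eq_left.2 hA, Finset.inter_eq_left.2 hB]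
      ring
  · intro W _ hne
    by_contra hW
    apply hne
    have : ¬ ∀ i ∈ W, s (p i) = s (q i) := fun h => hW fun i hi => (cmp291_mono_iff p q s i).1 (h i hi)
    unfold cmp291AT
    rw [if_neg this]
    ring
  · intro y _ hne
    by_contra hy
    apply hne
    rw [not_and_or] at hy
    unfold cmp291W
    rcases hy with h | h
    · rw [cmp291_FK_Up_zero p q _ s h]; ring
    · rw [cmp291_FK_Um_zero p q _ s h]; ring

/-- increasing in the order (3.4) `(s, W⁺, -W⁻)` -/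
def cmp291Inc (p q : ι → V) (f : (V → Bool) → Finset ι → ℝ) : Prop :=
  ∀ s s' W W', s ≤ s' → W ∩ cmp291Ep p q s ⊆ W' ∩ cmp291Ep p q s' →
    W' ∩ cmp291Em p q s' ⊆ W ∩ cmp291Em p q s → f s W ≤ f s' W'

/-- extension of an observable of `(s, W)` to the product lattice -/
def cmp291Ext (p q : ι → V) (f : (V → Bool) → Finset ι → ℝ) (s : V → Bool)
    (y : Finset ι × (Finset ι)ᵒᵈ) : ℝ :=
  f s ((y.1 ∩ cmp291Ep p q s) ∪ (OrderDual.ofDual y.2 ∩ cmp291Em p q s))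

theorem cmp291_Ext_mono (p q : ι → V) {f : (V → Bool) → Finset ι → ℝ} (hf : cmp291Inc p q f)
    (s s' : V → Bool) (y y' : Finset ι × (Finset ι)ᵒᵈ) (hs : s ≤ s') (hy : y ≤ y') :
    cmp291Ext p q f s y ≤ cmp291Ext p q f s' y' := by
  have h1 : y.1 ⊆ y'.1 := hy.1
  have h2 : OrderDual.ofDual y'.2 ⊆ OrderDual.ofDual y.2 := hy.2
  refine hf _ _ _ _ hs ?_ ?_
  · intro i hi
    simp only [Finset.mem_inter, Finset.mem_union] at hi ⊢
    obtain ⟨h | h, h'⟩ := hi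
    · exact ⟨Or.inl ⟨h1 h.1, cmp291_Ep_mono p q hs h.2⟩, cmp291_Ep_mono p q hs h.2⟩
    · exact (cmp291_Ep_Em_disj p q s h' h.2).elim
  · intro i hi
    simp only [Finset.mem_inter, Finset.mem_union] at hi ⊢
    obtain ⟨h | h, h'⟩ := hi
    · exact (cmp291_Ep_Em_disj p q s' h.2 h').elim
    · exact ⟨Or.inr ⟨h2 h.1, cmp291_Em_anti p q hs h.2⟩, cmp291_Em_anti p q hs h.2⟩

theorem cmp291_Gr_nonneg (p q : ι → V) {r : ℝ} (hr : 0 ≤ r) {Φ : (V → Bool) → ℝ} (h0 : ∀ s, 0 ≤ Φ s)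
    (s : V → Bool) : 0 ≤ cmp291Gr p q r Φ s :=
  mul_nonneg (h0 s) (Finset.prod_nonneg fun i _ =>
    cmp291_H_nonneg (by linarith) (by linarith) zero_le_one _ _)

theorem cmp291_Gr_holley (p q : ι → V) {r : ℝ} (hr : 0 ≤ r) {Φ₁ Φ₂ : (V → Bool) → ℝ}
    (h1 : ∀ s, 0 ≤ Φ₁ s) (h2 : ∀ s, 0 ≤ Φ₂ s)
    (h : ∀ s s', Φ₁ s * Φ₂ s' ≤ Φ₁ (s ⊓ s') * Φ₂ (s ⊔ s')) (s s' : V → Bool) :
    cmp291Gr p q r Φ₁ s * cmp291Gr p q r Φ₂ s'
      ≤ cmp291Gr p q r Φ₁ (s ⊓ s') * cmp291Gr p q r Φ₂ (s ⊔ s') := by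
  have hH0 : ∀ x y, 0 ≤ cmp291H (1 + r) (1 + r) 1 x y :=
    cmp291_H_nonneg (by linarith) (by linarith) zero_le_one
  have e := cmp291_G_holley p q (fld₁ := fun _ _ => 1) (fld₂ := fun _ _ => 1)
    (H₁ := fun _ => cmp291H (1 + r) (1 + r) 1) (H₂ := fun _ => cmp291H (1 + r) (1 + r) 1)
    (fun _ _ => zero_le_one) (fun _ _ => zero_le_one) (fun _ => hH0) (fun _ => hH0)
    (fun _ _ _ => le_rfl) (fun _ => cmp291_H_super (by nlinarith)) s s'
  simp only [cmp291G, Finset.prod_const_one, one_mul] at e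
  unfold cmp291Gr
  have n1 : 0 ≤ (∏ i, cmp291H (1 + r) (1 + r) 1 (s (p i)) (s (q i)))
      * ∏ i, cmp291H (1 + r) (1 + r) 1 (s' (p i)) (s' (q i)) :=
    mul_nonneg (Finset.prod_nonneg fun i _ => hH0 _ _) (Finset.prod_nonneg fun i _ => hH0 _ _)
  calc Φ₁ s * (∏ i, cmp291H (1 + r) (1 + r) 1 (s (p i)) (s (q i)))
        * (Φ₂ s' * ∏ i, cmp291H (1 + r) (1 + r) 1 (s' (p i)) (s' (q i)))
      = (Φ₁ s * Φ₂ s') * ((∏ i, cmp291H (1 + r) (1 + r) 1 (s (p i)) (s (q i)))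
          * ∏ i, cmp291H (1 + r) (1 + r) 1 (s' (p i)) (s' (q i))) := by ring
    _ ≤ _ := mul_le_mul (h s s') e n1 (mul_nonneg (h1 _) (h2 _))
    _ = _ := by ring

theorem cmp291_inv_mem {r : ℝ} (hr : 0 ≤ r) : 0 ≤ (1 + r)⁻¹ ∧ (1 + r)⁻¹ ≤ 1 :=
  ⟨by positivity, inv_le_one_of_one_le₀ (by linarith)⟩

theorem cmp291_sum2 (p q : ι → V) {r : ℝ} (hr : 0 ≤ r) (Φ : (V → Bool) → ℝ)
    (f : (V → Bool) → Finset ι → ℝ) :
    ∑ s, ∑ y, cmp291W p q (cmp291Gr p q r Φ) (fun _ => (1 + r)⁻¹) (fun _ => (1 + r)⁻¹) s y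
        * cmp291Ext p q f s y
      = (Fintype.card (V → Bool) : ℝ) * ∑ s, ∑ W, Φ s * cmp291AT p q r s W * f s W := by
  rw [Finset.mul_sum]
  exact Finset.sum_congr rfl fun s _ => cmp291_sum_W_eq_AT p q hr Φ s (f s)

theorem cmp291_sum2_one (p q : ι → V) {r : ℝ} (hr : 0 ≤ r) (Φ : (V → Bool) → ℝ) :
    ∑ s, ∑ y, cmp291W p q (cmp291Gr p q r Φ) (fun _ => (1 + r)⁻¹) (fun _ => (1 + r)⁻¹) s y
      = (Fintype.card (V → Bool) : ℝ) * ∑ s, ∑ W, Φ s * cmp291AT p q r s W := by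
  have := cmp291_sum2 p q hr Φ (fun _ _ => 1)
  simpa only [cmp291Ext, mul_one] using this

/-- **Proposition 3.2 in the paper's variables, association**: for every vertex factor `Φ` with the lattice condition
(pins, fields; `Φ = 1` is the free law) the law `Φ(s) 2^{k(W)} 2^{|W|} r^{#closed mono}` is positively associated in (3.4) -/
theorem cmp291_AT_fkg (p q : ι → V) {r : ℝ} (hr : 0 ≤ r) {Φ : (V → Bool) → ℝ} (h0 : ∀ s, 0 ≤ Φ s)
    (hΦ : ∀ s s', Φ s * Φ s' ≤ Φ (s ⊓ s') * Φ (s ⊔ s'))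
    {f g : (V → Bool) → Finset ι → ℝ} (hf : cmp291Inc p q f) (hg : cmp291Inc p q g) :
    (∑ s, ∑ W, Φ s * cmp291AT p q r s W * f s W) * (∑ s, ∑ W, Φ s * cmp291AT p q r s W * g s W)
      ≤ (∑ s, ∑ W, Φ s * cmp291AT p q r s W) * ∑ s, ∑ W, Φ s * cmp291AT p q r s W * (f s W * g s W) := by
  have key := cmp291_fkg p q (cmp291_Gr_nonneg p q hr h0) (cmp291_Gr_holley p q hr h0 h0 hΦ)
    (a := fun _ => (1 + r)⁻¹) (b := fun _ => (1 + r)⁻¹)
    (fun _ => (cmp291_inv_mem hr).1) (fun _ => (cmp291_inv_mem hr).2)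
    (fun _ => (cmp291_inv_mem hr).1) (fun _ => (cmp291_inv_mem hr).2)
    (cmp291_Ext_mono p q hf) (cmp291_Ext_mono p q hg)
  have e4 := cmp291_sum2 p q hr Φ (fun s W => f s W * g s W)
  have e4' : ∀ s y, cmp291Ext p q (fun s W => f s W * g s W) s y
      = cmp291Ext p q f s y * cmp291Ext p q g s y := fun _ _ => rfl
  simp only [e4'] at e4
  rw [cmp291_sum2 p q hr Φ f, cmp291_sum2 p q hr Φ g, cmp291_sum2_one p q hr Φ, e4] at key
  have hc : (0 : ℝ) < (Fintype.card (V → Bool) : ℝ) := by exact_mod_cast Fintype.card_pos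
  refine le_of_mul_le_mul_left ?_ (mul_pos hc hc)
  nlinarith [key]

/-- **Proposition 3.2 in the paper's variables, comparison**: raising the vertex factor (more plus pins, fewer minus pins)
raises the law in the order (3.4) -/
theorem cmp291_AT_holley (p q : ι → V) {r : ℝ} (hr : 0 ≤ r) {Φ₁ Φ₂ : (V → Bool) → ℝ}
    (h1 : ∀ s, 0 ≤ Φ₁ s) (h2 : ∀ s, 0 ≤ Φ₂ s)
    (hΦ : ∀ s s', Φ₁ s * Φ₂ s' ≤ Φ₁ (s ⊓ s') * Φ₂ (s ⊔ s'))
    {f : (V → Bool) → Finset ι → ℝ} (hf : cmp291Inc p q f) :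
    (∑ s, ∑ W, Φ₁ s * cmp291AT p q r s W * f s W) * (∑ s, ∑ W, Φ₂ s * cmp291AT p q r s W)
      ≤ (∑ s, ∑ W, Φ₁ s * cmp291AT p q r s W) * ∑ s, ∑ W, Φ₂ s * cmp291AT p q r s W * f s W := by
  have key := cmp291_holley p q (cmp291_Gr_nonneg p q hr h1) (cmp291_Gr_nonneg p q hr h2)
    (cmp291_Gr_holley p q hr h1 h2 hΦ)
    (a₁ := fun _ => (1 + r)⁻¹) (a₂ := fun _ => (1 + r)⁻¹) (b₁ := fun _ => (1 + r)⁻¹) (b₂ := fun _ => (1 + r)⁻¹)
    (fun _ => (cmp291_inv_mem hr).1) (fun _ => le_rfl) (fun _ => (cmp291_inv_mem hr).2)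
    (fun _ => (cmp291_inv_mem hr).1) (fun _ => le_rfl) (fun _ => (cmp291_inv_mem hr).2)
    (cmp291_Ext_mono p q hf)
  rw [cmp291_sum2 p q hr Φ₁ f, cmp291_sum2 p q hr Φ₂ f, cmp291_sum2_one p q hr Φ₁,
    cmp291_sum2_one p q hr Φ₂] at key
  have hc : (0 : ℝ) < (Fintype.card (V → Bool) : ℝ) := by exact_mod_cast Fintype.card_pos
  refine le_of_mul_le_mul_left ?_ (mul_pos hc hc)
  nlinarith [key]

end Model

/-- the equation and congruence lemmas of the definitions of this file are generated HERE, once (RULES.md, rule 6) -/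
theorem cmp291_eqns_cite : True := by
  have := @cmp291Chi.eq_1
  have := @cmp291E.eq_1.{0,0}
  have := @cmp291FK.eq_1.{0,0}
  have := @cmp291T.eq_1.{0,0}
  have := @cmp291Up.eq_1.{0,0}
  have := @cmp291Um.eq_1.{0,0}
  have := @cmp291W.eq_1.{0,0}
  have := @cmp291G.eq_1.{0,0}
  have := @cmp291H.eq_1
  have := @cmp291H.eq_2
  have := @cmp291H.eq_3
  have := @cmp291H.eq_def
  have := @cmp291Ep.eq_1.{0,0}
  have := @cmp291Em.eq_1.{0,0}
  have := @cmp291Mix.eq_1.{0}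
  have := @cmp291AT.eq_1.{0,0}
  have := @cmp291Gr.eq_1.{0,0}
  have := @cmp291Inc.eq_1.{0,0}
  have := @cmp291Ext.eq_1.{0,0}
  have := @cmp291Chi.congr_simp
  have := @cmp291E.congr_simp.{0,0}
  have := @cmp291FK.congr_simp.{0,0}
  have := @cmp291T.congr_simp.{0,0}
  have := @cmp291Up.congr_simp.{0,0}
  have := @cmp291Um.congr_simp.{0,0}
  have := @cmp291W.congr_simp.{0,0}
  have := @cmp291G.congr_simp.{0,0}
  have := @cmp291H.congr_simp
  have := @cmp291Ep.congr_simp.{0,0}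
  have := @cmp291Em.congr_simp.{0,0}
  have := @cmp291Mix.congr_simp.{0}
  have := @cmp291AT.congr_simp.{0,0}
  have := @cmp291Gr.congr_simp.{0,0}
  have := @cmp291Ext.congr_simp.{0,0}
  trivial

end Claimed.Agent.R292
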