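import Claimed.Agent.R292.Rsw.LenInst182
import Claimed.Agent.R291.Ann.LenPort
import Claimed.Agent.R292.Rsw.RswWall180

/-!
# Row 292 (S0540), Rsw/LenP4x31 : A2, AT MOST FOUR PORTS ON THE MIXED CYLINDER = contract `Rse182CP4 t` of `LenInst182` par. 6      (owner helper31; prefix `lp431` / `Lp431`)      0 sorry      EXIT `lp431_cp4 (t : ℝ) : Rse182CP4 t`

Source: R291 `Ann/LenPort` (Part 1, the plane, is CITED: `lpo_M_left`, `lpo_M_right`; Part 2 is ported to a law `Rln182Law` whose cells are `sdCells L 0 H`; Parts 3-4 are NEW: on `ℤ²` the ports are FACES).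

* Part A (dictionary): `lp431F` = the lifted fresh cells; `lp431_TB` : every cell of the box off the fresh cells is joined off them to the top or to the bottom row; `lp431_M_up`.
* Part B (refined lattice and reduction): `rtd111P/F/E` of a reduced vertex / face / edge = `sdRed` of the refined point; incidences as unit vectors.
* Part C (classification): a port is a face `f` whose refined point lifts to `(X, j)`, `X = a` or `X = b`, `(X, j)` retained, and `(X, j + 1)` or `(X, j - 1)` has been looked at.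
* Part D: four classes, at most one port in each (the trace of the retained cells on a short side is an interval).
* Part E (23:15Z, A3, statement typed by 180): **`lp431_ports_cyl`** : the ports `rwl180P` of the strip of the free cells on the mixed cylinder are at most 4 when the extreme rows `c`, `d` are ODD, from `Rwl180Idx` + `hleft` / `hright` (inputs: `rwl180_idx_110`, `rwl180_left_110`, `rwl180_right_110` of 180).  `lp431_ports_class` : a port is a free face cell of row `c` or `d` with a cell looked at on its left or right;  `lp431_fac_noseam`, `lp431_card4`.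
-/

set_option autoImplicit false
set_option linter.unusedSectionVars false
set_option linter.unusedVariables false

namespace Claimed.Agent.R292

open Claims Claims.C0468 Relation Claimed.Agent.R291

/-! ## Part A: the dictionary between the chart and the plane -/

section Dict

variable {Ω : Type} {𝓛 : Rln182Law Ω TV} {L H : ℕ} {w a b c d : ℤ} {ω₀ : Ω}

/-- the lifted set of the fresh cells -/
def lp431F (𝓛 : Rln182Law Ω TV) (L H : ℕ) (w a b c d : ℤ) (ω₀ : Ω) : Set TV :=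
  {u | u ∈ tscBox a b c d ∧ sdRed L u ∈ rse182Fr 𝓛 (lcyG L H w c d) a b ω₀}

theorem lp431_eqns_cite : True := by
  have := @lp431F.eq_1
  trivial

theorem lp431_F_sub : lp431F 𝓛 L H w a b c d ω₀ ⊆ tscBox a b c d := fun _ h => h.1

theorem lp431_fr_up {y : TV} (h : y ∈ rse182Fr 𝓛 (lcyG L H w c d) a b ω₀) : lcyLift L w y ∈ lp431F 𝓛 L H w a b c d ω₀ := by
  obtain ⟨h1, h2⟩ := lpo_box_up (rse182_mem_O.1 (rse182_mem_Fr.1 h).1).2
  exact ⟨h1, by rw [h2]; exact h⟩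

/-- a cell looked at, lifted -/
theorem lp431_Q_up (hc : 𝓛.cells = sdCells L 0 H) {y : TV} (h : (lcyG L H w c d).Q (𝓛.np ω₀) a b y) :
    lcyLift L w y ∈ tscBox a b c d \ lp431F 𝓛 L H w a b c d ω₀ := by
  obtain ⟨h1, h2⟩ := lpo_box_up h.1
  refine ⟨h1, fun hF => ?_⟩
  have h3 := hF.2
  rw [h2] at h3
  exact (rse182_mem_Fr.1 h3).2 (rse182_mem_Q.2 ⟨by rw [hc]; exact h.1.1.1, h⟩)

/-- the walk of an explored cluster, lifted -/
theorem lp431_cl_up (hc : 𝓛.cells = sdCells L 0 H) {S₀ : TV → Prop} (hS : ∀ u, S₀ u → (lcyG L H w c d).top u ∨ (lcyG L H w c d).bot u) {u z : TV} (hu : S₀ u)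
    (hn : 𝓛.np ω₀ u) (hbx : (lcyG L H w c d).box a b u)
    (h : ReflTransGen ((lcyG L H w c d).st (𝓛.np ω₀) a b) u z) :
    (lcyG L H w c d).cl (𝓛.np ω₀) a b S₀ z ∧
      TscR tscG (tscBox a b c d \ lp431F 𝓛 L H w a b c d ω₀) (lcyLift L w u) (lcyLift L w z) := by
  have hu' : lcyLift L w u ∈ tscBox a b c d \ lp431F 𝓛 L H w a b c d ω₀ :=
    lp431_Q_up hc ⟨hbx, by rcases hS u hu with h | h; exacts [Or.inl h, Or.inr (Or.inl h)]⟩
  induction h with
  | refl => exact ⟨len_cl_self hn hbx hu, tsc_R_refl _⟩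
  | @tail z' z'' _ hst ih =>
    obtain ⟨ih1, ih2⟩ := ih
    refine ⟨len_cl_step ih1 hst, ih2.tail ⟨hst.1, tsc_R_mem ih2 hu', lp431_Q_up hc ⟨hst.2.2.2.2, Or.inr (Or.inr ⟨z', ?_, hst.1⟩)⟩⟩⟩
    obtain ⟨k1, k2, u0, k3, k4⟩ := ih1
    rcases hS u0 k3 with k5 | k5
    · exact Or.inl ⟨k1, k2, u0, k5, k4⟩
    · exact Or.inr ⟨k1, k2, u0, k5, k4⟩

theorem lp431_cl_path (hc : 𝓛.cells = sdCells L 0 H) {S₀ : TV → Prop} (hS : ∀ u, S₀ u → (lcyG L H w c d).top u ∨ (lcyG L H w c d).bot u) {z : TV}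
    (h : (lcyG L H w c d).cl (𝓛.np ω₀) a b S₀ z) :
    lcyLift L w z ∈ tscBox a b c d \ lp431F 𝓛 L H w a b c d ω₀ ∧
    ∃ t : TV, (t.2 = c ∨ t.2 = d) ∧ TscR tscG (tscBox a b c d \ lp431F 𝓛 L H w a b c d ω₀) (lcyLift L w z) t := by
  obtain ⟨k1, k2, u, k3, k4⟩ := h
  have hu : 𝓛.np ω₀ u ∧ (lcyG L H w c d).box a b u := by
    rcases ReflTransGen.cases_head k4 with e | ⟨u', hst, -⟩
    · subst e; exact ⟨k1, k2⟩
    · exact ⟨hst.2.1, hst.2.2.2.1⟩
  have hu' : lcyLift L w u ∈ tscBox a b c d \ lp431F 𝓛 L H w a b c d ω₀ :=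
    lp431_Q_up hc ⟨hu.2, by rcases hS u k3 with h | h; exacts [Or.inl h, Or.inr (Or.inl h)]⟩
  have hR := (lp431_cl_up hc hS k3 hu.1 hu.2 k4).2
  refine ⟨tsc_R_mem hR hu', lcyLift L w u, ?_, tsc_R_symm hR⟩
  rcases hS u k3 with h | h
  · exact Or.inr h
  · exact Or.inl h

/-- **the cells looked at are joined to the top or to the bottom row** -/
theorem lp431_TB (hc : 𝓛.cells = sdCells L 0 H) (hL : 0 < L) (hw : w ≤ a) (hb : b < w + L) (hc0 : 0 ≤ c) (hd : d < H) :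
    LpoTB a b c d (lp431F 𝓛 L H w a b c d ω₀) := by
  rintro q ⟨hq, hqF⟩
  have hbx := lcy_box_down (H := H) hL hw hb hc0 hd hq
  have hQ : (lcyG L H w c d).Q (𝓛.np ω₀) a b (sdRed L q) := by
    by_contra hn
    exact hqF ⟨hq, rse182_mem_Fr.2 ⟨rse182_mem_O.2 ⟨by rw [hc]; exact hbx.1.1, hbx⟩, fun h => hn (rse182_mem_Q.1 h).2⟩⟩
  have e := lpo_lift_red (L := L) hw hb hq
  obtain ⟨-, h | h | ⟨z, hz, hadj⟩⟩ := hQ
  · exact ⟨q, Or.inr h, tsc_R_refl _⟩
  · exact ⟨q, Or.inl h, tsc_R_refl _⟩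
  · have hzq : TscR tscG (tscBox a b c d \ lp431F 𝓛 L H w a b c d ω₀) q (lcyLift L w z) := by
      refine tsc_R_step ?_ ⟨hq, hqF⟩ ?_
      · have : Claims.C0467.triAdj (lcyLift L w z) (lcyLift L w (sdRed L q)) := hadj
        rw [e] at this
        exact lat_adj_symm this
      · rcases hz with hz | hz
        · exact (lp431_cl_path hc (S₀ := (lcyG L H w c d).top) (fun _ h => Or.inl h) hz).1
        · exact (lp431_cl_path hc (S₀ := (lcyG L H w c d).bot) (fun _ h => Or.inr h) hz).1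
    rcases hz with hz | hz
    · obtain ⟨-, t, ht, hR⟩ := lp431_cl_path hc (S₀ := (lcyG L H w c d).top) (fun _ h => Or.inl h) hz
      exact ⟨t, ht, hzq.trans hR⟩
    · obtain ⟨-, t, ht, hR⟩ := lp431_cl_path hc (S₀ := (lcyG L H w c d).bot) (fun _ h => Or.inr h) hz
      exact ⟨t, ht, hzq.trans hR⟩

/-- a retained cell, lifted -/
theorem lp431_M_up {y : TV} (h : y ∈ rse182M 𝓛 (lcyG L H w c d) a b ω₀) :
    lcyLift L w y ∈ lpoM a b (lp431F 𝓛 L H w a b c d ω₀) := by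
  obtain ⟨hy, ⟨l, hl, el, gl⟩, r, hr, er, gr⟩ := rse182_mem_M.1 h
  have up : ∀ p q : TV, Rse182St (lcyG L H w c d) (rse182Fr 𝓛 (lcyG L H w c d) a b ω₀) p q →
      TscStep tscG (lp431F 𝓛 L H w a b c d ω₀) (lcyLift L w p) (lcyLift L w q) :=
    fun p q hs => ⟨hs.1, lp431_fr_up hs.2.1, lp431_fr_up hs.2.2⟩
  exact ⟨lp431_fr_up hy, ⟨lcyLift L w l, lp431_fr_up hl, el, ReflTransGen.lift (lcyLift L w) up _ _ gl⟩,
    lcyLift L w r, lp431_fr_up hr, er, ReflTransGen.lift (lcyLift L w) up _ _ gr⟩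

end Dict

/-! ## Part B: the refined lattice and the reduction -/

theorem lp431_mod_even (n : ℕ) (x : ℤ) : (2 * x) % ((2 * n : ℕ) : ℤ) = 2 * (x % (n : ℤ)) := by
  push_cast
  exact Int.mul_emod_mul_of_pos _ _ (by norm_num)

theorem lp431_mod_odd {n : ℕ} (hn : 0 < n) (x : ℤ) : (2 * x + 1) % ((2 * n : ℕ) : ℤ) = 2 * (x % (n : ℤ)) + 1 := by
  have hn' : (0 : ℤ) < n := by exact_mod_cast hn
  have h1 := Int.emod_nonneg x hn'.ne'
  have h2 := Int.emod_lt_of_pos x hn'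
  have h3 : 2 * x + 1 = (2 * (x % n) + 1) + ((2 * n : ℕ) : ℤ) * (x / n) := by
    push_cast
    have := Int.emod_add_mul_ediv x n
    linear_combination (-2 : ℤ) * this
  rw [h3, Int.add_mul_emod_self_left, Int.emod_eq_of_lt (by omega) (by push_cast; omega)]

theorem lp431_red_P {L : ℕ} (hL : L % 2 = 0) (v : ℤ × ℤ) : rtd111P (rcy162Red (L / 2) v) = sdRed L (rtd111P v) := by
  obtain ⟨n, rfl⟩ : ∃ n, L = 2 * n := ⟨L / 2, by omega⟩
  have e : 2 * n / 2 = n := by omega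
  rw [e]
  unfold rtd111P rcy162Red sdRed
  simp only [lp431_mod_even]

theorem lp431_red_F {L : ℕ} (hL : L % 2 = 0) (h0 : 0 < L) (f : ℤ × ℤ) : rtd111F (rcy162Red (L / 2) f) = sdRed L (rtd111F f) := by
  obtain ⟨n, rfl⟩ : ∃ n, L = 2 * n := ⟨L / 2, by omega⟩
  have e : 2 * n / 2 = n := by omega
  rw [e]
  unfold rtd111F rcy162Red sdRed
  simp only [lp431_mod_odd (show 0 < n by omega)]

/-- unit vectors -/
def Lp431Unit (u u' : TV) : Prop :=
  (u'.1 = u.1 ∧ (u'.2 = u.2 + 1 ∨ u'.2 = u.2 - 1)) ∨ (u'.2 = u.2 ∧ (u'.1 = u.1 + 1 ∨ u'.1 = u.1 - 1))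

theorem lp431_eqns_cite2 : True := by
  have := @Lp431Unit.eq_1
  trivial

theorem lp431_unit_symm {u u' : TV} (h : Lp431Unit u u') : Lp431Unit u' u := by
  unfold Lp431Unit at *
  omega

theorem lp431_unit_adj {u u' : TV} (h : Lp431Unit u u') : Claims.C0467.triAdj u u' := by
  rw [tsc_adj_iff]
  unfold Lp431Unit at h
  omega

/-- the core of the incidences: a unit vector is transported along the reduction -/
theorem lp431_core {L : ℕ} {p q u : TV} (hpq : Lp431Unit p q) (hu : sdRed L u = sdRed L p) : ∃ u', Lp431Unit u u' ∧ sdRed L u' = sdRed L q := by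
  have h1 : u.1 % (L : ℤ) = p.1 % (L : ℤ) := by
    show (sdRed L u).1 = (sdRed L p).1
    rw [hu]
  have h2 : u.2 = p.2 := by
    show (sdRed L u).2 = (sdRed L p).2
    rw [hu]
  refine ⟨(u.1 + (q.1 - p.1), u.2 + (q.2 - p.2)), ?_, ?_⟩
  · unfold Lp431Unit at *
    simp only
    omega
  · unfold sdRed
    have h3 : (u.1 + (q.1 - p.1)) % (L : ℤ) = q.1 % (L : ℤ) := by
      have : (u.1 + (q.1 - p.1)) % (L : ℤ) = (p.1 + (q.1 - p.1)) % (L : ℤ) := Int.ModEq.add_right _ h1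
      rw [this]
      congr 1
      ring
    simp only [h3, h2]
    congr 1
    ring

theorem lp431_red_self {L : ℕ} {y : TV} (h0 : 0 ≤ y.1) (h1 : y.1 < L) : sdRed L y = y := by
  unfold sdRed
  rw [Int.emod_eq_of_lt h0 h1]

theorem lp431_par {L : ℕ} (hL : L % 2 = 0) (u : TV) : (sdRed L u).1 % 2 = u.1 % 2 ∧ (sdRed L u).2 = u.2 := by
  refine ⟨?_, rfl⟩
  show u.1 % (L : ℤ) % 2 = u.1 % 2
  exact Int.emod_emod_of_dvd _ (by omega)

section Inc

variable {L H : ℕ}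

theorem lp431_E_rng (hL : L % 2 = 0) {e : (ℤ × ℤ) × Bool} (he : e ∈ (rse182Y L H).E) : 0 ≤ e.1.1 ∧ e.1.1 < ((L / 2 : ℕ) : ℤ) :=
  (rcy162_mem_cylE.1 he).1

theorem lp431_E_self (hL : L % 2 = 0) {e : (ℤ × ℤ) × Bool} (he : e ∈ (rse182Y L H).E) : sdRed L (rtd111E e) = rtd111E e := by
  obtain ⟨h1, h2⟩ := lp431_E_rng hL he
  obtain ⟨⟨x, y⟩, β⟩ := e
  simp only at h1 h2
  cases β
  · exact lp431_red_self (by rw [rtd111_E_f]; show 0 ≤ 2 * x + 1; omega) (by rw [rtd111_E_f]; show 2 * x + 1 < (L : ℤ); omega)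
  · exact lp431_red_self (by rw [rtd111_E_t]; show 0 ≤ 2 * x; omega) (by rw [rtd111_E_t]; show 2 * x < (L : ℤ); omega)

theorem lp431_fac (hL : L % 2 = 0) (h0 : 0 < L) {e : (ℤ × ℤ) × Bool} (he : e ∈ (rse182Y L H).E) {f : ℤ × ℤ} (hf : Rse182Fac (rse182Y L H) e f) :
    ∃ g, Lp431Unit (rtd111E e) (rtd111F g) ∧ rtd111F f = sdRed L (rtd111F g) := by
  obtain ⟨h1, h2⟩ := lp431_E_rng hL he
  rcases hf with hf | hf
  · refine ⟨e.1, ?_, ?_⟩
    · obtain ⟨⟨x, y⟩, β⟩ := e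
      cases β
      · rw [rtd111_E_f]; unfold Lp431Unit rtd111F; simp
      · rw [rtd111_E_t]; unfold Lp431Unit rtd111F; simp
    · rw [← lp431_red_F hL h0, rcy162_red_of_range h1 h2, hf]
      rfl
  · refine ⟨rswCo e, ?_, ?_⟩
    · obtain ⟨⟨x, y⟩, β⟩ := e
      cases β
      · rw [rtd111_E_f, rtd111_co_f]; unfold Lp431Unit rtd111F; simp only [true_and]; omega
      · rw [rtd111_E_t, rtd111_co_t]; unfold Lp431Unit rtd111F; simp only [true_and]; omega
    · rw [← lp431_red_F hL h0, hf]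
      rfl

theorem lp431_end (hL : L % 2 = 0) {e : (ℤ × ℤ) × Bool} (he : e ∈ (rse182Y L H).E) {v : ℤ × ℤ} (hv : Rse182End (rse182Y L H) e v) :
    ∃ v', Lp431Unit (rtd111E e) (rtd111P v') ∧ rtd111P v = sdRed L (rtd111P v') := by
  obtain ⟨h1, h2⟩ := lp431_E_rng hL he
  rcases hv with hv | hv
  · refine ⟨e.1, ?_, ?_⟩
    · obtain ⟨⟨x, y⟩, β⟩ := e
      cases β
      · rw [rtd111_E_f]; unfold Lp431Unit rtd111P; simp
      · rw [rtd111_E_t]; unfold Lp431Unit rtd111P; simp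
    · rw [← lp431_red_P hL, rcy162_red_of_range h1 h2, hv]
      rfl
  · refine ⟨rswEnd e, ?_, ?_⟩
    · obtain ⟨⟨x, y⟩, β⟩ := e
      cases β
      · rw [rtd111_E_f, rtd111_end_f]; unfold Lp431Unit rtd111P; simp only [true_and]; omega
      · rw [rtd111_E_t, rtd111_end_t]; unfold Lp431Unit rtd111P; simp only [true_and]; omega
    · rw [← lp431_red_P hL, hv]
      rfl

/-- edge → face -/
theorem lp431_inc1 (hL : L % 2 = 0) (h0 : 0 < L) {e : (ℤ × ℤ) × Bool} (he : e ∈ (rse182Y L H).E) {f : ℤ × ℤ} (hf : Rse182Fac (rse182Y L H) e f)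
    {u : TV} (hu : sdRed L u = rtd111E e) : ∃ u', Lp431Unit u u' ∧ sdRed L u' = rtd111F f := by
  obtain ⟨g, h1, h2⟩ := lp431_fac hL h0 he hf
  obtain ⟨u', h3, h4⟩ := lp431_core h1 (hu.trans (lp431_E_self hL he).symm)
  exact ⟨u', h3, h4.trans h2.symm⟩

/-- face → edge -/
theorem lp431_inc2 (hL : L % 2 = 0) (h0 : 0 < L) {e : (ℤ × ℤ) × Bool} (he : e ∈ (rse182Y L H).E) {f : ℤ × ℤ} (hf : Rse182Fac (rse182Y L H) e f)
    {u' : TV} (hu : sdRed L u' = rtd111F f) : ∃ u, Lp431Unit u u' ∧ sdRed L u = rtd111E e := by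
  obtain ⟨g, h1, h2⟩ := lp431_fac hL h0 he hf
  obtain ⟨u, h3, h4⟩ := lp431_core (lp431_unit_symm h1) (hu.trans h2)
  exact ⟨u, lp431_unit_symm h3, h4.trans (lp431_E_self hL he)⟩

/-- edge → vertex -/
theorem lp431_inc3 (hL : L % 2 = 0) {e : (ℤ × ℤ) × Bool} (he : e ∈ (rse182Y L H).E) {v : ℤ × ℤ} (hv : Rse182End (rse182Y L H) e v)
    {u : TV} (hu : sdRed L u = rtd111E e) : ∃ u', Lp431Unit u u' ∧ sdRed L u' = rtd111P v := by
  obtain ⟨g, h1, h2⟩ := lp431_end hL he hv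
  obtain ⟨u', h3, h4⟩ := lp431_core h1 (hu.trans (lp431_E_self hL he).symm)
  exact ⟨u', h3, h4.trans h2.symm⟩

/-- vertex → edge -/
theorem lp431_inc4 (hL : L % 2 = 0) {e : (ℤ × ℤ) × Bool} (he : e ∈ (rse182Y L H).E) {v : ℤ × ℤ} (hv : Rse182End (rse182Y L H) e v)
    {u' : TV} (hu : sdRed L u' = rtd111P v) : ∃ u, Lp431Unit u u' ∧ sdRed L u = rtd111E e := by
  obtain ⟨g, h1, h2⟩ := lp431_end hL he hv
  obtain ⟨u, h3, h4⟩ := lp431_core (lp431_unit_symm h1) (hu.trans h2)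
  exact ⟨u, lp431_unit_symm h3, h4.trans (lp431_E_self hL he)⟩

end Inc

/-! ## Part C: the classification of the ports -/

section Class

variable {t : ℝ} {L H : ℕ} {k r w a b : ℤ} {ω₀ : RswCfg}

/-- **a port is a face of a short side of the box, retained, next to a cell of this side which has been looked at** -/
theorem lp431_class (hB : Rse182Box L H k r w a b) {f : ℤ × ℤ}
    (hf : f ∈ rse182P (rse182Y L H) (rse182Cyl t L H) (rse182KM L H) (lcyG L H w k (k + r - 1)) a b ω₀) :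
    ∃ X σ : ℤ, (X = a ∨ X = b) ∧ (σ = 1 ∨ σ = -1) ∧
      (X, 2 * f.2 + 1) ∈ lpoM a b (lp431F (rse182Cyl t L H) L H w a b k (k + r - 1) ω₀) ∧
      sdRed L (X, 2 * f.2 + 1) = rtd111F f ∧
      (X, 2 * f.2 + 1 + σ) ∉ lp431F (rse182Cyl t L H) L H w a b k (k + r - 1) ω₀ := by
  classical
  obtain ⟨eL, eH, ek, er, ea, eb, h1, h2, h3, h4, h5, h6, h7⟩ := hB
  have hr : 1 ≤ r := by omega
  have hL0 : 0 < L := by omega
  have hw : w ≤ a := by omega
  have hb : b < w + L := by omega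
  have hc0 : 0 ≤ k := by omega
  have hd : k + r - 1 < H := by omega
  obtain ⟨hfR, hfX⟩ := Finset.mem_inter.1 hf
  obtain ⟨hfF, m, hm, hmf⟩ := rse182_mem_RF.1 hfR
  obtain ⟨hmE, hmM⟩ := rse182_mem_ME.1 hm
  obtain ⟨-, w', hw', hwf⟩ := rse182_mem_Ef.1 hfX
  obtain ⟨hwEo, hwX⟩ := rse182_mem_Xp.1 hw'
  obtain ⟨hwOut, -⟩ := rse182_mem_Eo.1 hwEo
  obtain ⟨hwE, hwO⟩ := rse182_mem_Out.1 hwOut
  obtain ⟨v, hve, hvS⟩ : ∃ v, Rse182End (rse182Y L H) w' v ∧
      v ∈ (rse182Rc (rse182Y L H) (rse182Cyl t L H) (rse182KM L H) (lcyG L H w k (k + r - 1)) a b ω₀).Sp := by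
    by_contra hn
    exact hwX (rse182_mem_Xw.2 ⟨hwEo, fun v h1 h2 => hn ⟨v, h1, h2⟩⟩)
  -- the retained edge, lifted
  obtain ⟨hmO, hmQ⟩ := rse182_M_OnQ hmM
  have hmbox := (rse182_mem_O.1 hmO).2
  obtain ⟨um1, um2⟩ := lpo_box_up hmbox
  obtain ⟨um, hum⟩ : ∃ um, um = lcyLift L w (rtd111E m) := ⟨_, rfl⟩
  rw [← hum] at um1 um2
  have hm2 : (rtd111E m).2 = um.2 := by rw [← um2]; rfl
  obtain ⟨b1, b2, b3, b4⟩ := um1
  have hrow1 : k < um.2 := by
    by_contra hn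
    have e : (rtd111E m).2 = k := by omega
    exact hmQ (rse182_mem_Q.2 ⟨(rse182_mem_O.1 hmO).1, hmbox, Or.inr (Or.inl e)⟩)
  have hrow2 : um.2 < k + r - 1 := by
    by_contra hn
    have e : (rtd111E m).2 = k + r - 1 := by omega
    exact hmQ (rse182_mem_Q.2 ⟨(rse182_mem_O.1 hmO).1, hmbox, Or.inl e⟩)
  -- the face
  obtain ⟨uf, hU1, huf⟩ := lp431_inc1 eL hL0 hmE hmf um2
  have pf := lp431_par eL uf
  rw [huf] at pf
  have pf1 : uf.1 % 2 = 1 := by
    have : (rtd111F f).1 = 2 * f.1 + 1 := rfl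
    omega
  have pf2 : uf.2 = 2 * f.2 + 1 := by
    have : (rtd111F f).2 = 2 * f.2 + 1 := rfl
    omega
  have hufbox : uf ∈ tscBox a b k (k + r - 1) := by
    unfold Lp431Unit at hU1
    exact ⟨by omega, by omega, by omega, by omega⟩
  have hFbox := lcy_box_down (H := H) hL0 hw hb hc0 hd hufbox
  rw [huf] at hFbox
  have hFO : rtd111F f ∈ rse182O (rse182Cyl t L H) (lcyG L H w k (k + r - 1)) a b := rse182_mem_O.2 ⟨hFbox.1.1, hFbox⟩
  have hlf : lcyLift L w (rtd111F f) = uf := by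
    rw [← huf]
    exact lpo_lift_red hw hb hufbox
  have hadj : (lcyG L H w k (k + r - 1)).adj (rtd111E m) (rtd111F f) := by
    show Claims.C0467.triAdj (lcyLift L w (rtd111E m)) (lcyLift L w (rtd111F f))
    rw [hlf, ← hum]
    exact lp431_unit_adj hU1
  have hFM : rtd111F f ∈ rse182M (rse182Cyl t L H) (lcyG L H w k (k + r - 1)) a b ω₀ := by
    by_contra hn
    apply (rse182_adj_in hmM hFO hn hadj).2
    show rcy162Fld (L / 2) (rse182Y L H) ω₀ (rtd111F f) ≠ 1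
    rw [rcy162_fld_F]
    decide
  have hufM : uf ∈ lpoM a b (lp431F (rse182Cyl t L H) L H w a b k (k + r - 1) ω₀) := by
    have := lp431_M_up hFM
    rwa [hlf] at this
  -- the outer edge
  obtain ⟨uw, hU2, huw⟩ := lp431_inc2 eL hL0 hwE hwf huf
  have huwbox : ¬ (a ≤ uw.1 ∧ uw.1 ≤ b ∧ k ≤ uw.2 ∧ uw.2 ≤ k + r - 1) := by
    intro hh
    have := lcy_box_down (H := H) hL0 hw hb hc0 hd (u := uw) hh
    rw [huw] at this
    exact hwO (rse182_mem_O.2 ⟨this.1.1, this⟩)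
  obtain ⟨c1, c2, c3, c4⟩ := hufbox
  have hside : (uf.1 = a ∧ uw.1 = a - 1 ∧ uw.2 = uf.2) ∨ (uf.1 = b ∧ uw.1 = b + 1 ∧ uw.2 = uf.2) := by
    unfold Lp431Unit at hU2
    omega
  -- the vertex
  obtain ⟨uv, hU3, huv⟩ := lp431_inc3 eL hwE hve huw
  have pv := lp431_par eL uv
  rw [huv] at pv
  have pv2 : uv.2 = 2 * v.2 := by
    have : (rtd111P v).2 = 2 * v.2 := rfl
    omega
  have hvv : uv.1 = uw.1 ∧ (uv.2 = uw.2 + 1 ∨ uv.2 = uw.2 - 1) := by
    unfold Lp431Unit at hU3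
    omega
  have hvS' : v ∈ (rse182KM L H).Sp ∪ (rse182Sv (rse182Y L H) (rln182Q (rse182Cyl t L H) (lcyG L H w k (k + r - 1)) a b ω₀)).filter (fun v => v ∈ ω₀.S) := hvS
  rcases Finset.mem_union.1 hvS' with hK | hS
  · exfalso
    have e : v.2 = ((H / 2 : ℕ) : ℤ) := (rcy162_mem_row.1 hK).2
    omega
  · obtain ⟨hvV, y, hyQ, hcar⟩ := rse182_mem_Sv.1 (Finset.mem_filter.1 hS).1
    have hybox := (rse182_mem_O.1 (rse182_Q_sub_O hyQ)).2
    obtain ⟨uy1, uy2⟩ := lpo_box_up hybox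
    rcases hcar with rfl | ⟨e, heE, rfl, hev⟩
    · exfalso
      have e : lcyLift L w (rtd111P v) = uv := by
        rw [← huv]
        exact lcy_lift_red (by omega) (by omega)
      rw [e] at uy1
      obtain ⟨d1, d2, -, -⟩ := uy1
      omega
    · obtain ⟨ue, hU4, hue⟩ := lp431_inc4 eL heE hev huv
      have e : lcyLift L w (rtd111E e) = ue := by
        rw [← hue]
        unfold Lp431Unit at hU4
        exact lcy_lift_red (by omega) (by omega)
      rw [e] at uy1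
      obtain ⟨d1, d2, -, -⟩ := uy1
      have hnot : ue ∉ lp431F (rse182Cyl t L H) L H w a b k (k + r - 1) ω₀ := by
        intro hF
        have := hF.2
        rw [hue] at this
        exact (rse182_mem_Fr.1 this).2 hyQ
      have hue' : ue.1 = uf.1 ∧ ue.2 = uv.2 := by
        unfold Lp431Unit at hU4
        omega
      have e1 : (uf.1, 2 * f.2 + 1) = uf := Prod.ext rfl pf2.symm
      have e2 : (uf.1, 2 * f.2 + 1 + (uv.2 - uf.2)) = ue := Prod.ext hue'.1.symm (by show 2 * f.2 + 1 + (uv.2 - uf.2) = ue.2; omega)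
      refine ⟨uf.1, uv.2 - uf.2, by omega, by omega, ?_, ?_, ?_⟩
      · rw [e1]; exact hufM
      · rw [e1]; exact huf
      · rw [e2]; exact hnot

end Class

/-! ## Part D: four classes, at most one port in each -/

section Count

variable {t : ℝ} {L H : ℕ} {k r w a b : ℤ} {ω₀ : RswCfg}

/-- at most one port in each class -/
theorem lp431_uniq (hB : Rse182Box L H k r w a b) {X σ : ℤ} (hX : X = a ∨ X = b) (hσ : σ = 1 ∨ σ = -1) {f f' : ℤ × ℤ}
    (c1 : (X, 2 * f.2 + 1) ∈ lpoM a b (lp431F (rse182Cyl t L H) L H w a b k (k + r - 1) ω₀))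
    (c2 : sdRed L (X, 2 * f.2 + 1) = rtd111F f)
    (c3 : (X, 2 * f.2 + 1 + σ) ∉ lp431F (rse182Cyl t L H) L H w a b k (k + r - 1) ω₀)
    (c1' : (X, 2 * f'.2 + 1) ∈ lpoM a b (lp431F (rse182Cyl t L H) L H w a b k (k + r - 1) ω₀))
    (c2' : sdRed L (X, 2 * f'.2 + 1) = rtd111F f')
    (c3' : (X, 2 * f'.2 + 1 + σ) ∉ lp431F (rse182Cyl t L H) L H w a b k (k + r - 1) ω₀) : f = f' := by
  obtain ⟨eL, eH, ek, er, ea, eb, h1, h2, h3, h4, h5, h6, h7⟩ := hB
  have hr : 1 ≤ r := by omega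
  have hTB : LpoTB a b k (k + r - 1) (lp431F (rse182Cyl t L H) L H w a b k (k + r - 1) ω₀) :=
    lp431_TB rfl (by omega) (by omega) (by omega) (by omega) (by omega)
  have hint : ∀ j1 j j2 : ℤ, (X, j1) ∈ lpoM a b (lp431F (rse182Cyl t L H) L H w a b k (k + r - 1) ω₀) →
      (X, j2) ∈ lpoM a b (lp431F (rse182Cyl t L H) L H w a b k (k + r - 1) ω₀) → j1 ≤ j → j ≤ j2 →
      (X, j) ∈ lp431F (rse182Cyl t L H) L H w a b k (k + r - 1) ω₀ := by
    intro j1 j j2 g1 g2 g3 g4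
    rcases hX with rfl | rfl
    · exact (lpo_M_left lp431_F_sub hTB g1 g2 g3 g4).1
    · exact (lpo_M_right lp431_F_sub hTB g1 g2 g3 g4).1
  have hrow : f.2 = f'.2 := by
    rcases lt_trichotomy f.2 f'.2 with hlt | heq | hlt
    · exfalso
      rcases hσ with rfl | rfl
      · exact c3 (hint _ _ _ c1 c1' (by omega) (by omega))
      · exact c3' (hint _ _ _ c1 c1' (by omega) (by omega))
    · exact heq
    · exfalso
      rcases hσ with rfl | rfl
      · exact c3' (hint _ _ _ c1' c1 (by omega) (by omega))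
      · exact c3 (hint _ _ _ c1' c1 (by omega) (by omega))
  apply rtd111_F_inj
  rw [← c2, ← c2', hrow]

/-- **AT MOST FOUR PORTS**: the contract `Rse182CP4` of `LenInst182` par. 6 -/
theorem lp431_cp4 (t : ℝ) : Rse182CP4 t := by
  intro L H k r w a b hB ω₀ _
  classical
  obtain ⟨P, hP⟩ : ∃ P, P = rse182P (rse182Y L H) (rse182Cyl t L H) (rse182KM L H) (lcyG L H w k (k + r - 1)) a b ω₀ := ⟨_, rfl⟩
  rw [← hP]
  obtain ⟨C, hC⟩ : ∃ C : ℤ → ℤ → (ℤ × ℤ) → Prop, C = fun X σ f =>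
      (X, 2 * f.2 + 1) ∈ lpoM a b (lp431F (rse182Cyl t L H) L H w a b k (k + r - 1) ω₀) ∧
      sdRed L (X, 2 * f.2 + 1) = rtd111F f ∧
      (X, 2 * f.2 + 1 + σ) ∉ lp431F (rse182Cyl t L H) L H w a b k (k + r - 1) ω₀ := ⟨_, rfl⟩
  have hsub : P ⊆ (P.filter (C a 1) ∪ P.filter (C a (-1))) ∪ (P.filter (C b 1) ∪ P.filter (C b (-1))) := by
    intro f hf
    obtain ⟨X, σ, hX, hσ, c1, c2, c3⟩ := lp431_class hB (hP ▸ hf)
    have hc : C X σ f := by rw [hC]; exact ⟨c1, c2, c3⟩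
    rcases hX with rfl | rfl <;> rcases hσ with rfl | rfl
    · exact Finset.mem_union_left _ (Finset.mem_union_left _ (Finset.mem_filter.2 ⟨hf, hc⟩))
    · exact Finset.mem_union_left _ (Finset.mem_union_right _ (Finset.mem_filter.2 ⟨hf, hc⟩))
    · exact Finset.mem_union_right _ (Finset.mem_union_left _ (Finset.mem_filter.2 ⟨hf, hc⟩))
    · exact Finset.mem_union_right _ (Finset.mem_union_right _ (Finset.mem_filter.2 ⟨hf, hc⟩))
  have hone : ∀ X σ : ℤ, (X = a ∨ X = b) → (σ = 1 ∨ σ = -1) → (P.filter (C X σ)).card ≤ 1 := by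
    intro X σ hX hσ
    refine Finset.card_le_one.2 fun f hf f' hf' => ?_
    have g := (Finset.mem_filter.1 hf).2
    have g' := (Finset.mem_filter.1 hf').2
    rw [hC] at g g'
    exact lp431_uniq hB hX hσ g.1 g.2.1 g.2.2 g'.1 g'.2.1 g'.2.2
  calc P.card ≤ ((P.filter (C a 1) ∪ P.filter (C a (-1))) ∪ (P.filter (C b 1) ∪ P.filter (C b (-1)))).card := Finset.card_le_card hsub
    _ ≤ (P.filter (C a 1) ∪ P.filter (C a (-1))).card + (P.filter (C b 1) ∪ P.filter (C b (-1))).card := Finset.card_union_le _ _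
    _ ≤ ((P.filter (C a 1)).card + (P.filter (C a (-1))).card) + ((P.filter (C b 1)).card + (P.filter (C b (-1))).card) :=
        add_le_add (Finset.card_union_le _ _) (Finset.card_union_le _ _)
    _ ≤ (1 + 1) + (1 + 1) :=
        add_le_add (add_le_add (hone a 1 (Or.inl rfl) (Or.inl rfl)) (hone a (-1) (Or.inl rfl) (Or.inr rfl)))
          (add_le_add (hone b 1 (Or.inr rfl) (Or.inl rfl)) (hone b (-1) (Or.inr rfl) (Or.inr rfl)))
    _ = 4 := rfl

end Count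

/-! ## Part E: the ports of the A3 strip (180's wall), ODD extreme rows -/

/-- four classes, at most one element in each -/
theorem lp431_card4 {α : Type} (P : Finset α) (p1 p2 p3 p4 : α → Prop) (hc : ∀ x ∈ P, (p1 x ∨ p2 x) ∨ (p3 x ∨ p4 x))
    (h1 : ∀ x ∈ P, ∀ y ∈ P, p1 x → p1 y → x = y) (h2 : ∀ x ∈ P, ∀ y ∈ P, p2 x → p2 y → x = y)
    (h3 : ∀ x ∈ P, ∀ y ∈ P, p3 x → p3 y → x = y) (h4 : ∀ x ∈ P, ∀ y ∈ P, p4 x → p4 y → x = y) : P.card ≤ 4 := by
  classical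
  have hsub : P ⊆ (P.filter p1 ∪ P.filter p2) ∪ (P.filter p3 ∪ P.filter p4) := by
    intro x hx
    rcases hc x hx with (h | h) | (h | h)
    · exact Finset.mem_union_left _ (Finset.mem_union_left _ (Finset.mem_filter.2 ⟨hx, h⟩))
    · exact Finset.mem_union_left _ (Finset.mem_union_right _ (Finset.mem_filter.2 ⟨hx, h⟩))
    · exact Finset.mem_union_right _ (Finset.mem_union_left _ (Finset.mem_filter.2 ⟨hx, h⟩))
    · exact Finset.mem_union_right _ (Finset.mem_union_right _ (Finset.mem_filter.2 ⟨hx, h⟩))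
  have hone : ∀ p : α → Prop, (∀ x ∈ P, ∀ y ∈ P, p x → p y → x = y) → (P.filter p).card ≤ 1 := by
    intro p hp
    refine Finset.card_le_one.2 fun x hx y hy => ?_
    exact hp x (Finset.mem_filter.1 hx).1 y (Finset.mem_filter.1 hy).1 (Finset.mem_filter.1 hx).2 (Finset.mem_filter.1 hy).2
  calc P.card ≤ ((P.filter p1 ∪ P.filter p2) ∪ (P.filter p3 ∪ P.filter p4)).card := Finset.card_le_card hsub
    _ ≤ (P.filter p1 ∪ P.filter p2).card + (P.filter p3 ∪ P.filter p4).card := Finset.card_union_le _ _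
    _ ≤ ((P.filter p1).card + (P.filter p2).card) + ((P.filter p3).card + (P.filter p4).card) :=
        add_le_add (Finset.card_union_le _ _) (Finset.card_union_le _ _)
    _ ≤ (1 + 1) + (1 + 1) := add_le_add (add_le_add (hone p1 h1) (hone p2 h2)) (add_le_add (hone p3 h3) (hone p4 h4))
    _ = 4 := rfl

/-- no seam: a face of an edge pair whose cell lies in columns `1 .. 2 L - 3` is next to it -/
theorem lp431_fac_noseam {L H : ℕ} {m : (ℤ × ℤ) × Bool} (hm : m ∈ (rcy162Cyl L 0 H).E) (h1 : 1 ≤ (rtd111E m).1) (h2 : (rtd111E m).1 ≤ 2 * (L : ℤ) - 3)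
    {f : ℤ × ℤ} (hfm : Rse182Fac (rcy162Cyl L 0 H) m f) : (rtd111F f).1 ≤ 2 * (L : ℤ) - 2 := by
  have hs : (rtd111F f).1 ≤ 2 * (L : ℤ) - 2 ∨ (rtd111F f).1 = 2 * (L : ℤ) - 1 := by
    rcases rwl180_fac_adj hm hfm with h | h
    · rw [rwl180_adj_iff] at h
      omega
    · exact Or.inr h
  rcases hs with h | h
  · exact h
  · exfalso
    obtain ⟨⟨x, y⟩, b⟩ := m
    obtain ⟨⟨x0, x1⟩, -⟩ := rcy162_mem_cylE.1 hm
    dsimp only at x0 x1
    cases b
    · rw [rtd111_E_f] at h1 h2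
      dsimp only at h1 h2
      rcases hfm with rfl | rfl
      · rw [rcy162_cyl_f0] at h; unfold rtd111F at h; dsimp only at h; omega
      · rw [rcy162_cyl_f1] at h
        have e1 : rcy162Red L (rswCo ((x, y), false)) = (x, y - 1) := rcy162_red_of_range (u := (x, y - 1)) (by dsimp only; omega) (by dsimp only; omega)
        rw [e1] at h; unfold rtd111F at h; dsimp only at h; omega
    · rw [rtd111_E_t] at h1 h2
      dsimp only at h1 h2
      rcases hfm with rfl | rfl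
      · rw [rcy162_cyl_f0] at h; unfold rtd111F at h; dsimp only at h; omega
      · rw [rcy162_cyl_f1] at h
        have e1 : rcy162Red L (rswCo ((x, y), true)) = (x - 1, y) := rcy162_red_of_range (u := (x - 1, y)) (by dsimp only; omega) (by dsimp only; omega)
        rw [e1] at h; unfold rtd111F at h; dsimp only at h; omega

/-- **the classification of the ports** (odd extreme rows): a port is a free face cell of an extreme row with a looked-at cell on its left or on its right -/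
theorem lp431_ports_class {L H : ℕ} {t : ℝ} {𝓛 : Rln182Law RswCfg TV} (hl : Rse182Link (rcy162Cyl L 0 H) t 𝓛) {ω₀ : RswCfg} {A B c d : ℤ}
    (hA : 0 ≤ A) (hB : B ≤ 2 * (L : ℤ) - 2) (hd : d ≤ 2 * (H : ℤ) - 3) (hco : c % 2 = 1) (hdo : d % 2 = 1)
    {Qs : Set TV} {Q₀ : Finset TV} (hI : Rwl180Idx 𝓛 ω₀ A B c d Qs Q₀) (T : Finset TV) (hT : ∀ y, y ∈ T ↔ y ∈ Qs) {f : ℤ × ℤ}
    (hf : f ∈ rwl180P (rcy162Cyl L 0 H) (rse182Obs (rcy162Cyl L 0 H) (rwl180KM L H) Q₀ ω₀) (rwl180Box L H A B c d) (rse182Ed (rcy162Cyl L 0 H) T)) :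
    rtd111F f ∈ Qs ∧ ((rtd111F f).2 = c ∨ (rtd111F f).2 = d) ∧
      (((rtd111F f).1 - 1, (rtd111F f).2) ∈ Q₀ ∨ ((rtd111F f).1 + 1, (rtd111F f).2) ∈ Q₀) := by
  classical
  unfold rwl180P at hf
  obtain ⟨hf1, hf2⟩ := Finset.mem_inter.1 hf
  obtain ⟨m, hmM, hfm⟩ := rwl180_mem_Sd.1 hf1
  obtain ⟨w, hwX, hfw⟩ := rwl180_mem_Sd.1 hf2
  rw [rwl180_fac_iff] at hfm hfw
  obtain ⟨hmE, hmT⟩ := rse182_mem_Ed.1 hmM
  have hmQ : rtd111E m ∈ Qs := (hT _).1 hmT
  have hmR := rwl180_mem_rect.1 (hI.rect _ hmQ)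
  have hs : (rtd111F f).1 ≤ 2 * (L : ℤ) - 2 := lp431_fac_noseam hmE (by omega) (by omega) hfm
  have F1 : (rtd111F f).1 % 2 = 1 := by unfold rtd111F; dsimp only; omega
  have F2 : (rtd111F f).2 % 2 = 1 := by unfold rtd111F; dsimp only; omega
  have adjm : tscG.Adj (rtd111E m) (rtd111F f) := by
    rcases rwl180_fac_adj hmE hfm with h | h
    · exact h
    · omega
  have hFR : rtd111F f ∈ rrw86Rect A B c d := by
    have adjm' := (rwl180_adj_iff _ _).1 adjm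
    have pm := rwl180_parE m
    exact rwl180_mem_rect.2 (by omega)
  have hFQ : rtd111F f ∈ Qs := by
    by_contra h
    exact (hI.nb _ hmQ _ hFR h adjm).2 (hl.npF ω₀ f)
  have hFR' := rwl180_mem_rect.1 (hI.rect _ hFQ)
  -- the outer pair
  unfold rwl180Xp at hwX
  obtain ⟨hw1, hw2⟩ := Finset.mem_sdiff.1 hwX
  obtain ⟨hwE, hwO, -⟩ := rwl180_mem_EoF.1 hw1
  have hwR : ¬ (A ≤ (rtd111E w).1 ∧ (rtd111E w).1 ≤ B ∧ c ≤ (rtd111E w).2 ∧ (rtd111E w).2 ≤ d) := fun h =>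
    hwO (rwl180_mem_box.2 ⟨hwE, rwl180_mem_rect.2 h⟩)
  have adjw : tscG.Adj (rtd111E w) (rtd111F f) := by
    rcases rwl180_fac_adj hwE hfw with h | h
    · exact h
    · omega
  have hW : (rtd111E w).1 = (rtd111F f).1 ∧ (((rtd111F f).2 = c ∧ (rtd111E w).2 = c - 1) ∨ ((rtd111F f).2 = d ∧ (rtd111E w).2 = d + 1)) := by
    have adjw' := (rwl180_adj_iff _ _).1 adjw
    have pw := rwl180_parE w
    omega
  have hv : ∃ v ∈ rpo102Sv (rcy162Cyl L 0 H) w, v ∈ (rse182Obs (rcy162Cyl L 0 H) (rwl180KM L H) Q₀ ω₀).Sp := by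
    by_contra h
    exact hw2 (rwl180_mem_Xw.2 ⟨hw1, fun v hv hs => h ⟨v, hv, hs⟩⟩)
  obtain ⟨v, hvw, hvS⟩ := hv
  rw [rwl180_end_iff] at hvw
  have hPv : (rtd111P v).2 = (rtd111E w).2 ∧ ((rtd111P v).1 = (rtd111F f).1 - 1 ∨ (rtd111P v).1 = (rtd111F f).1 + 1) := by
    have adjv := (rwl180_adj_iff _ _).1 (rwl180_end_adj hwE (by omega) hvw)
    have P1 : (rtd111P v).1 % 2 = 0 := by unfold rtd111P; dsimp only; omega
    have P2 : (rtd111P v).2 % 2 = 0 := by unfold rtd111P; dsimp only; omega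
    omega
  have hvS' : v ∈ rcy162Row L (H : ℤ) ∪ (rse182Sv (rcy162Cyl L 0 H) Q₀).filter (· ∈ ω₀.S) := hvS
  refine ⟨hFQ, by omega, ?_⟩
  rcases Finset.mem_union.1 hvS' with h | h
  · exfalso
    have h2 : v.2 = (H : ℤ) := (rcy162_mem_row.1 h).2
    have h3 : (rtd111P v).2 = 2 * (H : ℤ) := by unfold rtd111P; dsimp only; omega
    omega
  · obtain ⟨-, y, hy, hcar⟩ := rse182_mem_Sv.1 (Finset.mem_filter.1 h).1
    have hyR := rwl180_mem_rect.1 (hI.seen _ hy)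
    rcases hcar with rfl | ⟨e, heE, rfl, hev⟩
    · exfalso; omega
    · have adje := (rwl180_adj_iff _ _).1 (rwl180_end_adj heE (by omega) hev)
      have pe := rwl180_parE e
      have hcase : rtd111E e = ((rtd111F f).1 - 1, (rtd111F f).2) ∨ rtd111E e = ((rtd111F f).1 + 1, (rtd111F f).2) := by
        have : ((rtd111E e).1 = (rtd111F f).1 - 1 ∧ (rtd111E e).2 = (rtd111F f).2) ∨ ((rtd111E e).1 = (rtd111F f).1 + 1 ∧ (rtd111E e).2 = (rtd111F f).2) := by omega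
        rcases this with ⟨a1, a2⟩ | ⟨a1, a2⟩
        · exact Or.inl (Prod.ext a1 a2)
        · exact Or.inr (Prod.ext a1 a2)
      rcases hcase with h | h
      · exact Or.inl (h ▸ hy)
      · exact Or.inr (h ▸ hy)

/-- **AT MOST FOUR PORTS for the strip of the free cells on the mixed cylinder, odd extreme rows** (statement of 180, `Rsw/RswWall180` par. 7) -/
theorem lp431_ports_cyl {L H : ℕ} (hL : 0 < L) {t : ℝ} {𝓛 : Rln182Law RswCfg TV} (hl : Rse182Link (rcy162Cyl L 0 H) t 𝓛) {ω₀ : RswCfg} {A B c d : ℤ}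
    (hA : 0 ≤ A) (hB : B ≤ 2 * (L : ℤ) - 2) (hc : 2 ≤ c) (hd : d ≤ 2 * (H : ℤ) - 3) (hco : c % 2 = 1) (hdo : d % 2 = 1)
    {Qs : Set TV} {Q₀ : Finset TV} (hI : Rwl180Idx 𝓛 ω₀ A B c d Qs Q₀)
    (hleft : ∀ y ∈ Qs, ∀ y' ∈ Qs, y.2 = y'.2 → (y.2 = c ∨ y.2 = d) → (y.1 - 1, y.2) ∈ Q₀ → (y'.1 - 1, y'.2) ∈ Q₀ → y = y')
    (hright : ∀ y ∈ Qs, ∀ y' ∈ Qs, y.2 = y'.2 → (y.2 = c ∨ y.2 = d) → (y.1 + 1, y.2) ∈ Q₀ → (y'.1 + 1, y'.2) ∈ Q₀ → y = y')
    (T : Finset TV) (hT : ∀ y, y ∈ T ↔ y ∈ Qs) :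
    (rwl180P (rcy162Cyl L 0 H) (rse182Obs (rcy162Cyl L 0 H) (rwl180KM L H) Q₀ ω₀) (rwl180Box L H A B c d) (rse182Ed (rcy162Cyl L 0 H) T)).card ≤ 4 := by
  have hcl := fun f hf => lp431_ports_class (f := f) hl hA hB hd hco hdo hI T hT hf
  refine lp431_card4 _
    (fun f => (rtd111F f).2 = c ∧ ((rtd111F f).1 - 1, (rtd111F f).2) ∈ Q₀) (fun f => (rtd111F f).2 = c ∧ ((rtd111F f).1 + 1, (rtd111F f).2) ∈ Q₀)
    (fun f => (rtd111F f).2 = d ∧ ((rtd111F f).1 - 1, (rtd111F f).2) ∈ Q₀) (fun f => (rtd111F f).2 = d ∧ ((rtd111F f).1 + 1, (rtd111F f).2) ∈ Q₀) ?_ ?_ ?_ ?_ ?_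
  · intro f hf
    obtain ⟨-, h2, h3⟩ := hcl f hf
    rcases h2 with h2 | h2 <;> rcases h3 with h3 | h3
    · exact Or.inl (Or.inl ⟨h2, h3⟩)
    · exact Or.inl (Or.inr ⟨h2, h3⟩)
    · exact Or.inr (Or.inl ⟨h2, h3⟩)
    · exact Or.inr (Or.inr ⟨h2, h3⟩)
  · intro f hf g hg a b
    exact rtd111_F_inj (hleft _ (hcl f hf).1 _ (hcl g hg).1 (a.1.trans b.1.symm) (Or.inl a.1) a.2 b.2)
  · intro f hf g hg a b
    exact rtd111_F_inj (hright _ (hcl f hf).1 _ (hcl g hg).1 (a.1.trans b.1.symm) (Or.inl a.1) a.2 b.2)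
  · intro f hf g hg a b
    exact rtd111_F_inj (hleft _ (hcl f hf).1 _ (hcl g hg).1 (a.1.trans b.1.symm) (Or.inr a.1) a.2 b.2)
  · intro f hf g hg a b
    exact rtd111_F_inj (hright _ (hcl f hf).1 _ (hcl g hg).1 (a.1.trans b.1.symm) (Or.inr a.1) a.2 b.2)

end Claimed.Agent.R292
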