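import Claimed.Agent.R292.Rsw.HolSys12
import Claimed.Agent.R292.Rsw.LenInst182
import Claimed.Agent.R292.Rsw.LenP4x31

/-!
# Row 292 (S0540), Rsw/CylOrd291 : ASSOCIATION UNDER PRESCRIBED EDGES ON AN EDGE-PAIR SYSTEM; THE TWO ORDER CONTRACTS OF A2 ON THE MIXED CYLINDER      (owner helper291; prefix `cyo291_` / `cyo291`)      0 sorry

Proposition 3.2 / `prop:comparison` of the AT paper on an abstract system `Rcy162Sys` of 162 with contracted pins (`Rci69Ctr`, `Rci69Dual` of 69) and FORCED EDGES.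
The comparison half is `hsy12_holley` of 12 (Rsw/HolSys12): NOT retyped here.   HERE:
* par.A  **`cyo291_fkg_pin`** : association under prescriptions `MdlPin` on a system = `cmq291_AT_fkg` (CmpPin291) read through the dictionary `hsy12_sum_AT` of 12.
* par.B  histories `RswCon` of 121 on a system (`rse182Holds`, `Rse182Legal`, `Rse182Le` of 182) as prescriptions: `cyo291Pin`, `cyo291_pin_holds`, `cyo291_pin_le`.
* par.C  the cylinder with the two boundary rows pinned: `cyo291_pin_ok`, **`cyo291_cyl_holley`**, **`cyo291_cyl_assoc`** (legal histories which contain the mixed boundary condition; infeasible ones allowed).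
* par.D  the contracts of `LenInst182` par.6: **`cyo291_cyl_ord : Rse182COrd t`**, **`cyo291_cyl_fkg : Rln182CFkg2 (rse182Cyl t) rse182K`**      (`0 < t ≤ 1`);
         exits `cyo291_cyl_len2`, `cyo291_cyl_glue2` : `Rse182CP4 t → Rse182CLSS t →` lengthening / averaged gluing (`Rln182Len2`, `Rln182Glue2`); then **`cyo291_len`**, **`cyo291_glue`** = TOP OF A2 with `lp431_cp4` (31 + 182) plugged:
         A2 on the mixed cylinder owes EXACTLY ONE contract, `Rse182CLSS t` (A1.2, (LSS)), which stays OPEN (hypothesis; its step (e) has no text).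
* par.E  (p5) of the text of 121 for (perJ), abstract form: `Cyo291All Y X c` (all the pairs of `X` good of colour `c`), `cyo291_sum_flip`, **`cyo291_signs`**, **`cyo291_signs_Pr`**, `cyo291_signs_id`:
         under the constant plus pattern an increasing event beats its flip (`rcy162_flipS_sum` + `hsy12_holley`).
-/

set_option autoImplicit false
set_option linter.unusedVariables false
set_option linter.unusedSectionVars false
set_option linter.unusedSimpArgs false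
set_option linter.unnecessarySeqFocus false

namespace Claimed.Agent.R292

open Claimed.Agent.R291 Claims Claims.C0468 Relation

/-! ## A. association under prescriptions on a system -/

section Sys

variable {Y : Rcy162Sys} {π : ℤ × ℤ → ℤ × ℤ}

theorem cyo291_KS_of_Phi {K : MdlPin} {s : ↥Y.V → Bool} (hs : rci69Phi Y (hsy12KS K) s ≠ 0) : hsy12KS K (rci69S0 Y s) := by
  classical
  by_contra h
  exact hs (by unfold rci69Phi; rw [if_neg h])

/-- the pins read on the support of the vertex factor -/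
theorem cyo291_supp_pins {K : MdlPin} {S : Finset (ℤ × ℤ)} (hh : hsy12KS K S) : ∀ v ∈ K.Sp ∪ K.Sm, (v ∈ S ↔ v ∈ K.Sp) := by
  intro v hv
  constructor
  · intro hvS
    rcases Finset.mem_union.1 hv with a | a
    · exact a
    · exact (hh.2 v a hvS).elim
  · intro a
    exact hh.1 a

/-- the generic spin at a contracted endpoint, on the support -/
theorem cyo291_spin (hc : Rci69Ctr Y π) {K : MdlPin} (ok : Hsy12Ok Y π K) {s : ↥Y.V → Bool} (hh : hsy12KS K (rci69S0 Y s))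
    {v : ℤ × ℤ} (hv : v ∈ Y.V) (hp : v ∈ K.Sp ∪ K.Sm) : s ⟨π v, hc.pi v hv⟩ = true ↔ v ∈ K.Sp :=
  (rci69_mem_S0 s (hc.pi v hv)).symm.trans ((hsy12_k1 ok _ hh v hv).trans (cyo291_supp_pins hh v hp))

/-- **ASSOCIATION UNDER PRESCRIPTIONS ON A SYSTEM**.  Unnormalised, infeasible prescriptions allowed. -/
theorem cyo291_fkg_pin (hc : Rci69Ctr Y π) {t : ℝ} (h0 : 0 < t) (h1 : t ≤ 1) (hF : Rci69Dual hc)
    {K : MdlPin} (ok : Hsy12Ok Y π K) {X X' : RswCfg → ℝ} (hX : Rci69Inc Y X) (hX' : Rci69Inc Y X') :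
    Y.sum t K.Holds X * Y.sum t K.Holds X' ≤ Y.sum t K.Holds (fun _ => 1) * Y.sum t K.Holds (fun ω => X ω * X' ω) := by
  classical
  by_cases hO : K.Oo ⊆ Y.E ∧ ∀ e ∈ K.Oo, e ∉ K.Oc
  swap
  · rw [hsy12_sum_zero Y t K hO X, hsy12_sum_zero Y t K hO (fun _ => 1), zero_mul, zero_mul]
  have a1 := hsy12_sum_AT hc h0.ne' hF ok hO.1 X hX.noD
  have a2 := hsy12_sum_AT hc h0.ne' hF ok hO.1 X' hX'.noD
  have a3 := hsy12_sum_AT hc h0.ne' hF ok hO.1 (fun _ => 1) (fun _ _ _ => rfl)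
  have a4 := hsy12_sum_AT hc h0.ne' hF ok hO.1 (fun ω => X ω * X' ω) (fun S D O => by rw [hX.noD S D O, hX'.noD S D O])
  have hKc := rci69_K_pos hc h0
  have hcc : (0 : ℝ) < (2 : ℝ) ^ Fintype.card ↥Y.V := by positivity
  refine le_of_mul_le_mul_left ?_ (mul_pos hcc hcc)
  have goal_form : ∀ A B C D : ℝ,
      ((2 : ℝ) ^ Fintype.card ↥Y.V * A) * ((2 : ℝ) ^ Fintype.card ↥Y.V * B)
        ≤ ((2 : ℝ) ^ Fintype.card ↥Y.V * C) * ((2 : ℝ) ^ Fintype.card ↥Y.V * D) →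
      (2 : ℝ) ^ Fintype.card ↥Y.V * (2 : ℝ) ^ Fintype.card ↥Y.V * (A * B)
        ≤ (2 : ℝ) ^ Fintype.card ↥Y.V * (2 : ℝ) ^ Fintype.card ↥Y.V * (C * D) := by
    intro A B C D h
    nlinarith [h]
  refine goal_form _ _ _ _ ?_
  rw [a1, a2, a3, a4]
  have key := cmq291_AT_fkg (rci69Ep0 hc) (rci69Ep1 hc) (cmi291_r_nonneg h0 h1) (hsy12P1 Y K) (hsy12P0 Y K)
    (fun i hi hi' => hO.2 i.1 (Finset.mem_subtype.1 hi) (Finset.mem_subtype.1 hi'))
    (fun i => decide (Y.p0 i.1 ∈ K.Sp ↔ Y.p1 i.1 ∈ K.Sp))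
    (rci69_Phi_nonneg (Y := Y) (hsy12KS K))
    (rci69_Phi_holley2 (hsy12_k12 (Finset.Subset.refl _) (Finset.Subset.refl _)))
    (fun s hs i hi => by
      have hh := cyo291_KS_of_Phi hs
      have hok := ok.ed i.1 (Finset.mem_union_right _ (Finset.mem_subtype.1 hi))
      have e1 : s (rci69Ep0 hc i) = true ↔ Y.p0 i.1 ∈ K.Sp := cyo291_spin hc ok hh (hc.wf.p0 _ i.2) hok.1
      have e2 : s (rci69Ep1 hc i) = true ↔ Y.p1 i.1 ∈ K.Sp := cyo291_spin hc ok hh (hc.wf.p1 _ i.2) hok.2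
      rw [decide_eq_true_iff, ← e1, ← e2]
      exact Bool.eq_iff_iff)
    (rci69_inc_gen hc hX) (rci69_inc_gen hc hX')
  have := mul_le_mul_of_nonneg_left key (mul_pos hKc hKc).le
  nlinarith [this]

end Sys

/-! ## B. histories as prescriptions -/

section Con

variable {Y : Rcy162Sys}

open Classical in
/-- the history `K` as prescriptions: the ends of the good edges are pinned -/
noncomputable def cyo291Pin (Y : Rcy162Sys) (K : RswCon) : MdlPin :=
  ⟨K.Sp ∪ (K.Gp.image Y.p0 ∪ K.Gp.image Y.p1), K.Sm ∪ (K.Gm.image Y.p0 ∪ K.Gm.image Y.p1), K.Gp ∪ K.Gm, K.Cl⟩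

theorem cyo291_eqns_cite : True := by
  have := @cyo291Pin.eq_1
  trivial

theorem cyo291_mem_Sp {K : RswCon} {v : ℤ × ℤ} :
    v ∈ (cyo291Pin Y K).Sp ↔ v ∈ K.Sp ∨ ∃ e ∈ K.Gp, v = Y.p0 e ∨ v = Y.p1 e := by
  classical
  show v ∈ K.Sp ∪ (K.Gp.image Y.p0 ∪ K.Gp.image Y.p1) ↔ _
  simp only [Finset.mem_union, Finset.mem_image]
  constructor
  · rintro (h | ⟨e, he, rfl⟩ | ⟨e, he, rfl⟩)
    · exact Or.inl h
    · exact Or.inr ⟨e, he, Or.inl rfl⟩
    · exact Or.inr ⟨e, he, Or.inr rfl⟩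
  · rintro (h | ⟨e, he, rfl | rfl⟩)
    · exact Or.inl h
    · exact Or.inr (Or.inl ⟨e, he, rfl⟩)
    · exact Or.inr (Or.inr ⟨e, he, rfl⟩)

theorem cyo291_mem_Sm {K : RswCon} {v : ℤ × ℤ} :
    v ∈ (cyo291Pin Y K).Sm ↔ v ∈ K.Sm ∨ ∃ e ∈ K.Gm, v = Y.p0 e ∨ v = Y.p1 e := by
  classical
  show v ∈ K.Sm ∪ (K.Gm.image Y.p0 ∪ K.Gm.image Y.p1) ↔ _
  simp only [Finset.mem_union, Finset.mem_image]
  constructor
  · rintro (h | ⟨e, he, rfl⟩ | ⟨e, he, rfl⟩)
    · exact Or.inl h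
    · exact Or.inr ⟨e, he, Or.inl rfl⟩
    · exact Or.inr ⟨e, he, Or.inr rfl⟩
  · rintro (h | ⟨e, he, rfl | rfl⟩)
    · exact Or.inl h
    · exact Or.inr (Or.inl ⟨e, he, rfl⟩)
    · exact Or.inr (Or.inr ⟨e, he, rfl⟩)

theorem cyo291_mem_Oo {K : RswCon} {e : (ℤ × ℤ) × Bool} : e ∈ (cyo291Pin Y K).Oo ↔ e ∈ K.Gp ∨ e ∈ K.Gm := by
  classical
  show e ∈ K.Gp ∪ K.Gm ↔ _
  exact Finset.mem_union

theorem cyo291_mem_Oc {K : RswCon} {e : (ℤ × ℤ) × Bool} : e ∈ (cyo291Pin Y K).Oc ↔ e ∈ K.Cl := Iff.rfl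

/-- **the history holds iff the prescriptions hold** -/
theorem cyo291_pin_holds (Y : Rcy162Sys) (K : RswCon) (ω : RswCfg) : (cyo291Pin Y K).Holds ω ↔ rse182Holds Y K ω := by
  classical
  constructor
  · rintro ⟨h1, h2, h3, h4⟩
    refine ⟨fun v hv => h1 (cyo291_mem_Sp.2 (Or.inl hv)), fun v hv => h2 v (cyo291_mem_Sm.2 (Or.inl hv)), fun e he => ?_, fun e he => ?_,
      fun e he => h4 e he⟩
    · exact ⟨h3 (cyo291_mem_Oo.2 (Or.inl he)),
        ⟨fun _ => rfl, fun _ => h1 (cyo291_mem_Sp.2 (Or.inr ⟨e, he, Or.inl rfl⟩))⟩,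
        ⟨fun _ => rfl, fun _ => h1 (cyo291_mem_Sp.2 (Or.inr ⟨e, he, Or.inr rfl⟩))⟩⟩
    · exact ⟨h3 (cyo291_mem_Oo.2 (Or.inr he)),
        ⟨fun h => absurd h (h2 _ (cyo291_mem_Sm.2 (Or.inr ⟨e, he, Or.inl rfl⟩))), fun h => absurd h Bool.false_ne_true⟩,
        ⟨fun h => absurd h (h2 _ (cyo291_mem_Sm.2 (Or.inr ⟨e, he, Or.inr rfl⟩))), fun h => absurd h Bool.false_ne_true⟩⟩
  · rintro ⟨h1, h2, h3, h4, h5⟩
    refine ⟨fun v hv => ?_, fun v hv => ?_, fun e he => ?_, fun e he => h5 e he⟩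
    · rcases cyo291_mem_Sp.1 hv with h | ⟨e, he, rfl | rfl⟩
      · exact h1 h
      · exact (h3 e he).2.1.2 rfl
      · exact (h3 e he).2.2.2 rfl
    · rcases cyo291_mem_Sm.1 hv with h | ⟨e, he, rfl | rfl⟩
      · exact h2 v h
      · exact fun h => Bool.false_ne_true ((h4 e he).2.1.1 h)
      · exact fun h => Bool.false_ne_true ((h4 e he).2.2.1 h)
    · rcases cyo291_mem_Oo.1 he with h | h
      · exact (h3 e h).1
      · exact (h4 e h).1

theorem cyo291_holds_eq (Y : Rcy162Sys) (K : RswCon) : rse182Holds Y K = (cyo291Pin Y K).Holds :=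
  funext fun ω => propext (cyo291_pin_holds Y K ω).symm

/-- the order of histories is the order of prescriptions -/
theorem cyo291_pin_le {K₁ K₂ : RswCon} (h : Rse182Le K₁ K₂) : Hsy12Le Y (cyo291Pin Y K₁) (cyo291Pin Y K₂) := by
  classical
  refine ⟨fun v hv => ?_, fun v hv => ?_, fun e he => ?_, fun e he => ?_, fun e he => ?_, fun e he => ?_⟩
  · rcases cyo291_mem_Sp.1 hv with a | ⟨e, he, a⟩
    · exact cyo291_mem_Sp.2 (Or.inl (h.sp a))
    · exact cyo291_mem_Sp.2 (Or.inr ⟨e, h.gp he, a⟩)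
  · rcases cyo291_mem_Sm.1 hv with a | ⟨e, he, a⟩
    · exact cyo291_mem_Sm.2 (Or.inl (h.sm a))
    · exact cyo291_mem_Sm.2 (Or.inr ⟨e, h.gm he, a⟩)
  · rcases cyo291_mem_Oo.1 he with a | a
    · exact Or.inr (cyo291_mem_Oo.2 (Or.inl (h.gp a)))
    · exact Or.inl (Or.inl (cyo291_mem_Sm.2 (Or.inr ⟨e, a, Or.inl rfl⟩)))
  · rcases Finset.mem_union.1 (h.cl2 (cyo291_mem_Oc.1 he)) with a | a
    · exact Or.inr (Finset.mem_union_right _ a)
    · exact Or.inr (Finset.mem_union_left _ (cyo291_mem_Oo.2 (Or.inr a)))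
  · rcases cyo291_mem_Oo.1 he with a | a
    · exact Or.inl (Or.inl (cyo291_mem_Sp.2 (Or.inr ⟨e, a, Or.inl rfl⟩)))
    · exact Or.inr (cyo291_mem_Oo.2 (Or.inr (h.gm a)))
  · rcases Finset.mem_union.1 (h.cl1 (cyo291_mem_Oc.1 he)) with a | a
    · exact Or.inr (Finset.mem_union_right _ a)
    · exact Or.inr (Finset.mem_union_left _ (cyo291_mem_Oo.2 (Or.inl a)))

theorem cyo291_sum_zero (Y : Rcy162Sys) (t : ℝ) {K : RswCfg → Prop} (h : ∀ ω, ¬ K ω) (X : RswCfg → ℝ) : Y.sum t K X = 0 := by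
  unfold Rcy162Sys.sum
  refine Finset.sum_eq_zero fun S _ => Finset.sum_eq_zero fun D _ => Finset.sum_eq_zero fun O _ => ?_
  rw [rcy162_wt_of_not Y (h _), zero_mul]

theorem cyo291_not_holds {K : MdlPin} (hd : ¬ ∀ v ∈ K.Sp, v ∉ K.Sm) (ω : RswCfg) : ¬ K.Holds ω := by
  intro hω
  apply hd
  intro v hv hv'
  exact hω.2.1 v hv' (hω.1 hv)

end Con

/-! ## C. the cylinder with the two boundary rows pinned -/

section Cyl

variable {L : ℕ} {a b : ℤ}

theorem cyo291_pin_ok (hL : 0 < L) (hab : a < b) {K : RswCon} (l : Rse182Legal (rcy162Cyl L a b) K)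
    (hp : rcy162Row L b ⊆ K.Sp) (hm : rcy162Row L a ⊆ K.Sm)
    (hd : ∀ v ∈ (cyo291Pin (rcy162Cyl L a b) K).Sp, v ∉ (cyo291Pin (rcy162Cyl L a b) K).Sm) :
    Hsy12Ok (rcy162Cyl L a b) (rci69Pi a b) (cyo291Pin (rcy162Cyl L a b) K) := by
  classical
  have hL' : (0 : ℤ) < L := by exact_mod_cast hL
  have rowa : ∀ v ∈ (rcy162Cyl L a b).V, v.2 = a → v ∈ (cyo291Pin (rcy162Cyl L a b) K).Sm := fun v hv h =>
    cyo291_mem_Sm.2 (Or.inl (hm (rcy162_mem_row.2 ⟨(rcy162_mem_cylV.1 hv).1, h⟩)))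
  have rowb : ∀ v ∈ (rcy162Cyl L a b).V, v.2 = b → v ∈ (cyo291Pin (rcy162Cyl L a b) K).Sp := fun v hv h =>
    cyo291_mem_Sp.2 (Or.inl (hp (rcy162_mem_row.2 ⟨(rcy162_mem_cylV.1 hv).1, h⟩)))
  have r0a : ((0 : ℤ), a) ∈ (cyo291Pin (rcy162Cyl L a b) K).Sm :=
    cyo291_mem_Sm.2 (Or.inl (hm (rcy162_mem_row.2 ⟨⟨le_rfl, hL'⟩, rfl⟩)))
  have r0b : ((0 : ℤ), b) ∈ (cyo291Pin (rcy162Cyl L a b) K).Sp :=
    cyo291_mem_Sp.2 (Or.inl (hp (rcy162_mem_row.2 ⟨⟨le_rfl, hL'⟩, rfl⟩)))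
  refine ⟨fun e he => ?_, fun v hv h => ?_, fun v hv h => ?_, fun v hv h => ?_⟩
  · have he' : e ∈ K.Gp ∪ K.Gm ∪ K.Cl := by
      rcases Finset.mem_union.1 he with q | q
      · exact Finset.mem_union_left _ q
      · exact Finset.mem_union_right _ q
    have up : ∀ v, v ∈ K.Sp ∪ K.Sm → v ∈ (cyo291Pin (rcy162Cyl L a b) K).Sp ∪ (cyo291Pin (rcy162Cyl L a b) K).Sm := by
      intro v hv
      rcases Finset.mem_union.1 hv with q | q
      · exact Finset.mem_union_left _ (cyo291_mem_Sp.2 (Or.inl q))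
      · exact Finset.mem_union_right _ (cyo291_mem_Sm.2 (Or.inl q))
    exact ⟨up _ (l.full e he' _ (Or.inl rfl)), up _ (l.full e he' _ (Or.inr rfl))⟩
  · by_cases q : rci69Pi a b v = v
    · rw [q]; exact h
    · by_cases qa : v.2 = a
      · exact absurd (rowa v hv qa) (hd v h)
      · have qb : v.2 = b := (hsy12_pi_ne q).resolve_left qa
        rw [hsy12_pi_B qa qb]
        exact r0b
  · by_cases q : rci69Pi a b v = v
    · rw [q]; exact h
    · by_cases qa : v.2 = a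
      · rw [hsy12_pi_a qa]
        exact r0a
      · have qb : v.2 = b := (hsy12_pi_ne q).resolve_left qa
        exact absurd h (hd v (rowb v hv qb))
  · rcases hsy12_pi_ne h with q | q
    · exact Finset.mem_union_right _ (rowa v hv q)
    · exact Finset.mem_union_left _ (rowb v hv q)

/-- **ORDER of legal histories on the cylinder** (both contain the mixed boundary condition) -/
theorem cyo291_cyl_holley {t : ℝ} (h0 : 0 < t) (h1 : t ≤ 1) (hL : 0 < L) (hab : a < b) {K₁ K₂ : RswCon}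
    (l₁ : Rse182Legal (rcy162Cyl L a b) K₁) (l₂ : Rse182Legal (rcy162Cyl L a b) K₂)
    (p₁ : rcy162Row L b ⊆ K₁.Sp) (m₁ : rcy162Row L a ⊆ K₁.Sm) (p₂ : rcy162Row L b ⊆ K₂.Sp) (m₂ : rcy162Row L a ⊆ K₂.Sm)
    (hle : Rse182Le K₁ K₂) {X : RswCfg → ℝ} (hX : Rci69Inc (rcy162Cyl L a b) X) :
    (rcy162Cyl L a b).sum t (rse182Holds (rcy162Cyl L a b) K₁) X * (rcy162Cyl L a b).sum t (rse182Holds (rcy162Cyl L a b) K₂) (fun _ => 1)
      ≤ (rcy162Cyl L a b).sum t (rse182Holds (rcy162Cyl L a b) K₁) (fun _ => 1) * (rcy162Cyl L a b).sum t (rse182Holds (rcy162Cyl L a b) K₂) X := by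
  rw [cyo291_holds_eq, cyo291_holds_eq]
  by_cases d₁ : ∀ v ∈ (cyo291Pin (rcy162Cyl L a b) K₁).Sp, v ∉ (cyo291Pin (rcy162Cyl L a b) K₁).Sm
  swap
  · rw [cyo291_sum_zero _ t (cyo291_not_holds d₁), cyo291_sum_zero _ t (cyo291_not_holds d₁), zero_mul, zero_mul]
  by_cases d₂ : ∀ v ∈ (cyo291Pin (rcy162Cyl L a b) K₂).Sp, v ∉ (cyo291Pin (rcy162Cyl L a b) K₂).Sm
  swap
  · rw [cyo291_sum_zero _ t (cyo291_not_holds d₂), cyo291_sum_zero _ t (cyo291_not_holds d₂), mul_zero, mul_zero]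
  exact hsy12_cyl_holley h0 h1 hL hab (cyo291_pin_ok hL hab l₁ p₁ m₁ d₁) (cyo291_pin_ok hL hab l₂ p₂ m₂ d₂) (cyo291_pin_le hle) hX

/-- **ASSOCIATION under a legal history on the cylinder** (which contains the mixed boundary condition) -/
theorem cyo291_cyl_assoc {t : ℝ} (h0 : 0 < t) (h1 : t ≤ 1) (hL : 0 < L) (hab : a < b) {K : RswCon}
    (l : Rse182Legal (rcy162Cyl L a b) K) (p : rcy162Row L b ⊆ K.Sp) (m : rcy162Row L a ⊆ K.Sm)
    {X X' : RswCfg → ℝ} (hX : Rci69Inc (rcy162Cyl L a b) X) (hX' : Rci69Inc (rcy162Cyl L a b) X') :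
    (rcy162Cyl L a b).sum t (rse182Holds (rcy162Cyl L a b) K) X * (rcy162Cyl L a b).sum t (rse182Holds (rcy162Cyl L a b) K) X'
      ≤ (rcy162Cyl L a b).sum t (rse182Holds (rcy162Cyl L a b) K) (fun _ => 1)
        * (rcy162Cyl L a b).sum t (rse182Holds (rcy162Cyl L a b) K) (fun ω => X ω * X' ω) := by
  rw [cyo291_holds_eq]
  by_cases d : ∀ v ∈ (cyo291Pin (rcy162Cyl L a b) K).Sp, v ∉ (cyo291Pin (rcy162Cyl L a b) K).Sm
  swap
  · rw [cyo291_sum_zero _ t (cyo291_not_holds d) X, cyo291_sum_zero _ t (cyo291_not_holds d) (fun _ => 1), zero_mul, zero_mul]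
  exact cyo291_fkg_pin (rci69_cyl_ctr hL hab) h0 h1 (rci69_cyl_dual hL hab) (cyo291_pin_ok hL hab l p m d) hX hX'

end Cyl

/-! ## D. the contracts of `LenInst182` par.6 -/

section Exits

/-- **(ORD) on the mixed cylinder** -/
theorem cyo291_cyl_ord {t : ℝ} (h0 : 0 < t) (h1 : t ≤ 1) : Rse182COrd t := by
  intro L H eL eH hL hH K₁ K₂ l₁ l₂ a1 a2 a3 a4 hle F hF
  have hL2 : 0 < L / 2 := by omega
  have hH2 : (0 : ℤ) < ((H / 2 : ℕ) : ℤ) := by
    have : 0 < H / 2 := by omega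
    exact_mod_cast this
  have hl := rse182_cyl_link t (L := L) (H := H) hL2
  unfold Rln182Law.Z
  rw [rse182_N_sum hl, rse182_N_sum hl, rse182_N_sum hl, rse182_N_sum hl]
  exact cyo291_cyl_holley h0 h1 hL2 hH2 l₁ l₂ a1 a2 a3 a4 hle hF

/-- a cell of the cylinder is a point of the system, or the midpoint of a horizontal edge of the bottom row -/
theorem cyo291_cell_pt {L H : ℕ} (eL : L % 2 = 0) (eH : H % 2 = 0) {y : TV} (hy : y ∈ sdCells L 0 H) :
    Rse182Pt (rse182Y L H) y ∨ (y.2 = 0 ∧ y.1 % 2 = 1) := by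
  unfold sdCells at hy
  rw [Finset.mem_product, Finset.mem_Ico, Finset.mem_Ico] at hy
  obtain ⟨⟨x0, x1⟩, y0, y1⟩ := hy
  rcases Int.emod_two_eq_zero_or_one y.1 with p1 | p1 <;> rcases Int.emod_two_eq_zero_or_one y.2 with p2 | p2
  · refine Or.inl (Or.inl ⟨(y.1 / 2, y.2 / 2), rcy162_mem_cylV.2 ⟨⟨?_, ?_⟩, ?_, ?_⟩, ?_⟩)
    · show 0 ≤ y.1 / 2
      omega
    · show y.1 / 2 < ((L / 2 : ℕ) : ℤ)
      omega
    · show 0 ≤ y.2 / 2
      omega
    · show y.2 / 2 ≤ ((H / 2 : ℕ) : ℤ)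
      omega
    · refine Prod.ext ?_ ?_
      · show y.1 = 2 * (y.1 / 2)
        omega
      · show y.2 = 2 * (y.2 / 2)
        omega
  · refine Or.inl (Or.inr (Or.inr ⟨((y.1 / 2, y.2 / 2), true), rcy162_mem_cylE.2 ⟨⟨?_, ?_⟩, Or.inr ⟨rfl, ?_, ?_⟩⟩, ?_⟩))
    · show 0 ≤ y.1 / 2
      omega
    · show y.1 / 2 < ((L / 2 : ℕ) : ℤ)
      omega
    · show 0 ≤ y.2 / 2
      omega
    · show y.2 / 2 < ((H / 2 : ℕ) : ℤ)
      omega
    · refine Prod.ext ?_ ?_
      · show y.1 = 2 * (y.1 / 2)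
        omega
      · show y.2 = 2 * (y.2 / 2) + 1
        omega
  · by_cases hz : y.2 = 0
    · exact Or.inr ⟨hz, p1⟩
    · refine Or.inl (Or.inr (Or.inr ⟨((y.1 / 2, y.2 / 2), false), rcy162_mem_cylE.2 ⟨⟨?_, ?_⟩, Or.inl ⟨rfl, ?_, ?_⟩⟩, ?_⟩))
      · show 0 ≤ y.1 / 2
        omega
      · show y.1 / 2 < ((L / 2 : ℕ) : ℤ)
        omega
      · show 0 < y.2 / 2
        omega
      · show y.2 / 2 < ((H / 2 : ℕ) : ℤ)
        omega
      · refine Prod.ext ?_ ?_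
        · show y.1 = 2 * (y.1 / 2) + 1
          omega
        · show y.2 = 2 * (y.2 / 2)
          omega
  · refine Or.inl (Or.inr (Or.inl ⟨(y.1 / 2, y.2 / 2), ?_⟩))
    refine Prod.ext ?_ ?_
    · show y.1 = 2 * (y.1 / 2) + 1
      omega
    · show y.2 = 2 * (y.2 / 2) + 1
      omega

/-- under the mixed boundary condition two configurations agree on the midpoints of the horizontal edges of the bottom row -/
theorem cyo291_agr_row0 {L H : ℕ} (hL2 : 0 < L / 2) {ω ω' : RswCfg} (h : rse182K L H ω) (h' : rse182K L H ω') {y : TV}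
    (hy : y.2 = 0 ∧ y.1 % 2 = 1) :
    rcy162Fld (L / 2) (rse182Y L H) ω y = rcy162Fld (L / 2) (rse182Y L H) ω' y ∧
      ∀ e, y = rtd111E e → rcy162Fld (L / 2) (rse182Y L H) ω (rtd111P e.1) = rcy162Fld (L / 2) (rse182Y L H) ω' (rtd111P e.1) ∧
        rcy162Fld (L / 2) (rse182Y L H) ω (rtd111P (rswEnd e)) = rcy162Fld (L / 2) (rse182Y L H) ω' (rtd111P (rswEnd e)) := by
  obtain ⟨hy2, hy1⟩ := hy
  have hne : rcy162RedE (L / 2) ((y.1 / 2, y.2 / 2), false) ∉ (rse182Y L H).E := by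
    intro hm
    obtain ⟨_, q | q⟩ := rcy162_mem_cylE.1 hm
    · have q1 : (0 : ℤ) < y.2 / 2 := q.2.1
      omega
    · exact Bool.false_ne_true q.1
  have f0 : ∀ ω : RswCfg, rcy162Fld (L / 2) (rse182Y L H) ω y = 0 := by
    intro ω
    show (if y.1 % 2 = 0 then _ else (if y.2 % 2 = 0 then (rse182Y L H).sgE ω (rcy162RedE (L / 2) ((y.1 / 2, y.2 / 2), false)) else 0)) = 0
    rw [if_neg (by omega), if_pos (by omega)]
    exact rcy162_sgE_of_not ω hne
  have key : ∀ v : ℤ × ℤ, v.2 = 0 →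
      rcy162Fld (L / 2) (rse182Y L H) ω (rtd111P v) = rcy162Fld (L / 2) (rse182Y L H) ω' (rtd111P v) := by
    intro v hv
    rw [rcy162_fld_P, rcy162_fld_P]
    have hr := rcy162_red_range hL2 v
    have hrow : rcy162Red (L / 2) v ∈ rcy162Row (L / 2) 0 := rcy162_mem_row.2 ⟨hr, hv⟩
    have hV : rcy162Red (L / 2) v ∈ (rse182Y L H).V := by
      refine rcy162_mem_cylV.2 ⟨hr, ?_, ?_⟩
      · show (0 : ℤ) ≤ v.2
        omega
      · show v.2 ≤ ((H / 2 : ℕ) : ℤ)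
        omega
    exact (rse182_sgV_iff hV).2 (iff_of_false (h.2.1 _ hrow) (h'.2.1 _ hrow))
  refine ⟨by rw [f0, f0], fun e he => ?_⟩
  obtain ⟨⟨x, j⟩, c⟩ := e
  cases c
  · have e2 : y.2 = 2 * j := congrArg Prod.snd he
    have hj : j = 0 := by omega
    subst hj
    exact ⟨key _ rfl, key _ rfl⟩
  · have e2 : y.2 = 2 * j + 1 := congrArg Prod.snd he
    omega

/-- **(FKG) on the mixed cylinder**: under the boundary condition, and under the boundary condition + the full observation of a set of cells -/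
theorem cyo291_cyl_fkg {t : ℝ} (h0 : 0 < t) (h1 : t ≤ 1) : Rln182CFkg2 (rse182Cyl t) rse182K := by
  classical
  intro L H eL eH hL hH
  have hL2 : 0 < L / 2 := by omega
  have hH2 : (0 : ℤ) < ((H / 2 : ℕ) : ℤ) := by
    have : 0 < H / 2 := by omega
    exact_mod_cast this
  have hl := rse182_cyl_link t (L := L) (H := H) hL2
  have hw : (rse182Y L H).WF := rcy162_cyl_wf hL2 0 _
  have core : ∀ K : RswCon, Rse182Legal (rse182Y L H) K → (rse182KM L H).Sp ⊆ K.Sp → (rse182KM L H).Sm ⊆ K.Sm →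
      ∀ F G : RswCfg → ℝ, (rse182Cyl t L H).Mono F → (rse182Cyl t L H).Mono G →
      (rse182Cyl t L H).N (rse182Holds (rse182Y L H) K) F * (rse182Cyl t L H).N (rse182Holds (rse182Y L H) K) G
        ≤ (rse182Cyl t L H).N (rse182Holds (rse182Y L H) K) (fun _ => 1)
          * (rse182Cyl t L H).N (rse182Holds (rse182Y L H) K) (fun ω => F ω * G ω) := by
    intro K l p m F G hF hG
    rw [rse182_N_sum hl, rse182_N_sum hl, rse182_N_sum hl, rse182_N_sum hl]
    exact cyo291_cyl_assoc h0 h1 hL2 hH2 l p m hF hG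
  refine ⟨fun F G hF hG => core _ (rse182_KM_legal L H) (Finset.Subset.refl _) (Finset.Subset.refl _) F G hF hG, ?_⟩
  intro Q ω₀ F G hQ hω₀ hK₀ hF hG
  have hpt : ∀ y ∈ Q.filter (fun y => Rse182Pt (rse182Y L H) y), Rse182Pt (rse182Y L H) y := fun y hy => (Finset.mem_filter.1 hy).2
  have hcongr : ∀ F' : RswCfg → ℝ, (rse182Cyl t L H).N (fun ω => rse182K L H ω ∧ (rse182Cyl t L H).agr Q ω₀ ω) F'
      = (rse182Cyl t L H).N (rse182Holds (rse182Y L H)
          (rse182Obs (rse182Y L H) (rse182KM L H) (Q.filter (fun y => Rse182Pt (rse182Y L H) y)) ω₀)) F' := by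
    intro F'
    refine rse182_N_congr _ (fun ω hω hw' => ?_) F'
    rw [rse182_obs_holds hl (rse182KM L H) _ hpt ω₀ ω hw']
    refine and_congr_right fun hKω => ⟨fun hq y hy => hq y (Finset.mem_filter.1 hy).1, fun hq y hy => ?_⟩
    rcases cyo291_cell_pt eL eH (hQ hy) with q | q
    · exact hq y (Finset.mem_filter.2 ⟨hy, q⟩)
    · exact cyo291_agr_row0 hL2 hK₀ hKω q
  unfold Rln182Law.Z
  rw [hcongr, hcongr, hcongr, hcongr]
  exact core _ (rse182_obs_legal hw (rse182_KM_legal L H) _ ω₀) Finset.subset_union_left Finset.subset_union_left F G hF hG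

/-- **EXIT (two contracts left: ports `≤ 4` and (LSS)): horizontal lengthening on the mixed cylinder** -/
theorem cyo291_cyl_len2 {t : ℝ} (h0 : 0 < t) (h1 : t < 1) (hP : Rse182CP4 t) (hL : Rse182CLSS t) : Rln182Len2 (rse182Cyl t) rse182K :=
  rse182_cyl_len4 h0 h1 hP (cyo291_cyl_ord h0 h1.le) hL (cyo291_cyl_fkg h0 h1.le)

/-- **EXIT (two contracts left: ports `≤ 4` and (LSS)): averaged gluing on the mixed cylinder** -/
theorem cyo291_cyl_glue2 {t : ℝ} (h0 : 0 < t) (h1 : t < 1) (hP : Rse182CP4 t) (hL : Rse182CLSS t) : Rln182Glue2 (rse182Cyl t) rse182K :=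
  rse182_cyl_glue4 h0 h1 hP (cyo291_cyl_ord h0 h1.le) hL (cyo291_cyl_fkg h0 h1.le)

/-- **TOP OF A2, horizontal lengthening on the mixed cylinder: ONE contract left, (LSS)** (ports `≤ 4`: `lp431_cp4` of 31 + 182) -/
theorem cyo291_len {t : ℝ} (h0 : 0 < t) (h1 : t < 1) (hL : Rse182CLSS t) : Rln182Len2 (rse182Cyl t) rse182K :=
  cyo291_cyl_len2 h0 h1 (lp431_cp4 t) hL

/-- **TOP OF A2, averaged gluing on the mixed cylinder: ONE contract left, (LSS)** -/
theorem cyo291_glue {t : ℝ} (h0 : 0 < t) (h1 : t < 1) (hL : Rse182CLSS t) : Rln182Glue2 (rse182Cyl t) rse182K :=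
  cyo291_cyl_glue2 h0 h1 (lp431_cp4 t) hL

end Exits

/-! ## E. signs: under a constant plus pattern an increasing observable beats its flip      ((p5) of the text of 121 for (perJ), abstract form) -/

section Signs

variable {Y : Rcy162Sys} {π : ℤ × ℤ → ℤ × ℤ} {X : Finset ((ℤ × ℤ) × Bool)}

/-- all the edge pairs of `X` are good of colour `c` (open, both end points of colour `c`) -/
def Cyo291All (Y : Rcy162Sys) (X : Finset ((ℤ × ℤ) × Bool)) (c : Bool) (ω : RswCfg) : Prop := ∀ e ∈ X, Y.Good c ω e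

/-- the same as a history -/
def cyo291Gd (X : Finset ((ℤ × ℤ) × Bool)) : Bool → RswCon
  | true => ⟨∅, ∅, X, ∅, ∅⟩
  | false => ⟨∅, ∅, ∅, X, ∅⟩

theorem cyo291_eqns_cite2 : True := by
  have := @Cyo291All.eq_1
  have := @cyo291Gd.eq_1
  have := @cyo291Gd.eq_2
  trivial

theorem cyo291_gd_holds (Y : Rcy162Sys) (X : Finset ((ℤ × ℤ) × Bool)) (c : Bool) (ω : RswCfg) :
    rse182Holds Y (cyo291Gd X c) ω ↔ Cyo291All Y X c ω := by
  cases c
  · exact ⟨fun h => h.2.2.2.1, fun h => ⟨Finset.empty_subset _, fun v hv => absurd hv (Finset.notMem_empty v),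
      fun e he => absurd he (Finset.notMem_empty e), h, fun e he => absurd he (Finset.notMem_empty e)⟩⟩
  · exact ⟨fun h => h.2.2.1, fun h => ⟨Finset.empty_subset _, fun v hv => absurd hv (Finset.notMem_empty v),
      h, fun e he => absurd he (Finset.notMem_empty e), fun e he => absurd he (Finset.notMem_empty e)⟩⟩

theorem cyo291_gd_eq (Y : Rcy162Sys) (X : Finset ((ℤ × ℤ) × Bool)) (c : Bool) : rse182Holds Y (cyo291Gd X c) = Cyo291All Y X c :=
  funext fun ω => propext (cyo291_gd_holds Y X c ω)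

theorem cyo291_gd_le (X : Finset ((ℤ × ℤ) × Bool)) : Rse182Le (cyo291Gd X false) (cyo291Gd X true) :=
  ⟨Finset.empty_subset _, Finset.empty_subset _, Finset.empty_subset _, Finset.empty_subset _, Finset.empty_subset _,
    Finset.empty_subset _⟩

/-- without contraction the two patterns are compatible with the system -/
theorem cyo291_gd_ok (Y : Rcy162Sys) (X : Finset ((ℤ × ℤ) × Bool)) (c : Bool) : Hsy12Ok Y id (cyo291Pin Y (cyo291Gd X c)) := by
  classical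
  refine ⟨fun e he => ?_, fun v _ h => h, fun v _ h => h, fun v _ h => absurd rfl h⟩
  cases c
  · have he' : e ∈ X := by
      rcases Finset.mem_union.1 he with q | q
      · rcases cyo291_mem_Oo.1 q with q | q
        · exact absurd q (Finset.notMem_empty e)
        · exact q
      · exact absurd (cyo291_mem_Oc.1 q) (Finset.notMem_empty e)
    exact ⟨Finset.mem_union_right _ (cyo291_mem_Sm.2 (Or.inr ⟨e, he', Or.inl rfl⟩)),
      Finset.mem_union_right _ (cyo291_mem_Sm.2 (Or.inr ⟨e, he', Or.inr rfl⟩))⟩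
  · have he' : e ∈ X := by
      rcases Finset.mem_union.1 he with q | q
      · rcases cyo291_mem_Oo.1 q with q | q
        · exact q
        · exact absurd q (Finset.notMem_empty e)
      · exact absurd (cyo291_mem_Oc.1 q) (Finset.notMem_empty e)
    exact ⟨Finset.mem_union_left _ (cyo291_mem_Sp.2 (Or.inr ⟨e, he', Or.inl rfl⟩)),
      Finset.mem_union_left _ (cyo291_mem_Sp.2 (Or.inr ⟨e, he', Or.inr rfl⟩))⟩

theorem cyo291_all_flip (hw : Y.WF) (hX : X ⊆ Y.E) (c : Bool) (ω : RswCfg) :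
    Cyo291All Y X c (Y.flipS ω) ↔ Cyo291All Y X (!c) ω :=
  forall₂_congr fun e he => rcy162_flipS_good Y hw c ω (hX he)

theorem cyo291_flip_flip {ω : RswCfg} (h : ω.S ⊆ Y.V) : Y.flipS (Y.flipS ω) = ω := by
  obtain ⟨S, D, O⟩ := ω
  show (⟨Y.V \ (Y.V \ S), D, O⟩ : RswCfg) = ⟨S, D, O⟩
  rw [Finset.sdiff_sdiff_eq_self h]

/-- the flip of `s` exchanges the two patterns -/
theorem cyo291_sum_flip (hw : Y.WF) (hX : X ⊆ Y.E) (t : ℝ) (c : Bool) (F : RswCfg → ℝ) :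
    Y.sum t (Cyo291All Y X c) (fun ω => F (Y.flipS ω)) = Y.sum t (Cyo291All Y X (!c)) F := by
  rw [rcy162_flipS_sum Y hw t (Cyo291All Y X c) (fun ω => F (Y.flipS ω))]
  have e1 : (fun ω => Cyo291All Y X c (Y.flipS ω)) = Cyo291All Y X (!c) := funext fun ω => propext (cyo291_all_flip hw hX c ω)
  rw [e1]
  exact rcy162_sum_congr Y t _ (fun ω hω _ => by rw [cyo291_flip_flip hω.1])

/-- **(p5) SIGNS**, unnormalised: under "all the pairs of `X` are good plus" an increasing observable beats its flip -/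
theorem cyo291_signs (hc : Rci69Ctr Y π) {t : ℝ} (h0 : 0 < t) (h1 : t ≤ 1) (hF : Rci69Dual hc) (hX : X ⊆ Y.E)
    (okm : Hsy12Ok Y π (cyo291Pin Y (cyo291Gd X false))) (okp : Hsy12Ok Y π (cyo291Pin Y (cyo291Gd X true)))
    {F : RswCfg → ℝ} (hFi : Rci69Inc Y F) :
    Y.sum t (Cyo291All Y X true) (fun ω => F (Y.flipS ω)) * Y.sum t (Cyo291All Y X true) (fun _ => 1)
      ≤ Y.sum t (Cyo291All Y X true) (fun _ => 1) * Y.sum t (Cyo291All Y X true) F := by
  have key := hsy12_holley hc h0 h1 hF okm okp (cyo291_pin_le (cyo291_gd_le X)) hFi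
  rw [← cyo291_holds_eq, ← cyo291_holds_eq, cyo291_gd_eq, cyo291_gd_eq] at key
  have e1 : Y.sum t (Cyo291All Y X true) (fun ω => F (Y.flipS ω)) = Y.sum t (Cyo291All Y X false) F :=
    cyo291_sum_flip hc.wf hX t true F
  have e2 : Y.sum t (Cyo291All Y X true) (fun _ => 1) = Y.sum t (Cyo291All Y X false) (fun _ => 1) :=
    cyo291_sum_flip hc.wf hX t true (fun _ => 1)
  rw [e1]
  rw [← e2] at key
  exact key

/-- **(p5) SIGNS**, events: `λ⁺(E⁻) ≤ λ⁺(E⁺)` -/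
theorem cyo291_signs_Pr (hc : Rci69Ctr Y π) {t : ℝ} (h0 : 0 < t) (h1 : t ≤ 1) (hF : Rci69Dual hc) (hX : X ⊆ Y.E)
    (okm : Hsy12Ok Y π (cyo291Pin Y (cyo291Gd X false))) (okp : Hsy12Ok Y π (cyo291Pin Y (cyo291Gd X true)))
    {A : RswCfg → Prop} (hA : ∀ ω ω', Y.Le ω ω' → A ω → A ω') :
    Y.Pr t (Cyo291All Y X true) (fun ω => A (Y.flipS ω)) ≤ Y.Pr t (Cyo291All Y X true) A := by
  classical
  have ind : Rci69Inc Y (fun ω => if A ω then (1 : ℝ) else 0) := by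
    intro ω ω' h
    show (if A ω then (1 : ℝ) else 0) ≤ (if A ω' then (1 : ℝ) else 0)
    by_cases hb : A ω
    · rw [if_pos hb, if_pos (hA ω ω' h hb)]
    · rw [if_neg hb]
      split_ifs
      · exact zero_le_one
      · exact le_rfl
  have key := cyo291_signs hc h0 h1 hF hX okm okp ind
  rw [rcy162_P_def, rcy162_P_def]
  unfold Rcy162Sys.Ex
  by_cases hZ : Y.sum t (Cyo291All Y X true) (fun _ => 1) = 0
  · rw [hZ, div_zero, div_zero]
  · have hZ' : 0 < Y.sum t (Cyo291All Y X true) (fun _ => 1) :=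
      lt_of_le_of_ne (rcy162_sum_nonneg Y _ h0.le h1 (fun _ => zero_le_one)) (Ne.symm hZ)
    rw [div_le_div_iff₀ hZ' hZ']
    refine key.trans (le_of_eq ?_)
    ring

/-- (p5) without contraction: no hypothesis on the patterns -/
theorem cyo291_signs_id (hc : Rci69Ctr Y id) {t : ℝ} (h0 : 0 < t) (h1 : t ≤ 1) (hF : Rci69Dual hc) (hX : X ⊆ Y.E)
    {A : RswCfg → Prop} (hA : ∀ ω ω', Y.Le ω ω' → A ω → A ω') :
    Y.Pr t (Cyo291All Y X true) (fun ω => A (Y.flipS ω)) ≤ Y.Pr t (Cyo291All Y X true) A :=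
  cyo291_signs_Pr hc h0 h1 hF hX (cyo291_gd_ok Y X false) (cyo291_gd_ok Y X true) hA

end Signs

end Claimed.Agent.R292
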