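import Claimed.Agent.R292.Rsw.CylInst69

/-!
# Row 292 (S0540), Rsw/CylInst57 : R8 CORE, block A4-INST.2 = ASSEMBLY OF THE INSTANCE `Rct127Kit` ON THE MIXED CYLINDER OF 162, AND (CYL)      (owner helper57; prefix `rci57_` / `Rci57`; c1_post id 17)      0 sorry

Sizes of the kit = REFINED sizes `(2 L, 2 H)`;   `Adm = Rci57Adm` (both even);   `P = rci57P t = fun L H _ _ => rcy162Q t (L / 2) (H / 2)` (the two boundary classes are collapsed).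
CLOSED HERE: field `slide` (`rci57_slide : Rci57Slide t`, from `rcy162_slide` of 162 + `rci69_cyl_fkg` of 69) and all the soft fields (162, 69).
INPUTS, four `Prop`s (each one is the field VERBATIM, read on `rcy162Q`; producers in their own files):
* `Rci57Search t` (127)      = `Rcs127Search t L H`, for all `10 ≤ H ≤ L`      (⟹ field `sym` by `rcs127_sym`);   or `Rci57Sym t` = hypothesis `sym` of `rci69_law`
* `Rci57Recov t`  (5)        = hypothesis `recov` of `rci69_law`, for all `10 ≤ H ≤ L`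
* `Rci57Rswl t`   (96)       = field `rswl` of `Rct127Kit Rci57Adm (rci57P t)`
* `Rci57Glue t`   (169)      = field `glue` of `Rct127Kit Rci57Adm (rci57P t)`
EXITS
* **`rci57_kit`**  : the four inputs ⟹ `Rct127Kit Rci57Adm (rci57P t)`      (`rci57_kit_sym` : with `Rci57Sym` instead of `Rci57Search`)
* **`rci57_cyl`**  : the four inputs ⟹ `Rct127Cyl Rci57Adm (rci57P t) ∧ Rct127CylM Rci57Adm (rci57P t)`
* **`rci57_cyl_Q`, `rci57_cylM_Q`** : (CYL) and its mirror read directly on `rcy162Q t L H` (UNREFINED sizes `L H`, refined rows `c d`), the form for B5 (`RnzHP`)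
* readers: `rci57_P_two`, `rci57_adm_two`, `rci57_adm_fun`, `rci57_P_fun`;   `Rci57RswlQ`, `Rci57GlueQ` = the fields `rswl`, `glue` read on `rcy162Q t L H` (unrefined sizes), equivalent (`rci57_rswl_of_Q / _to_Q`, `rci57_glue_of_Q / _to_Q`)
-/

set_option autoImplicit false
set_option linter.unusedVariables false

namespace Claimed.Agent.R292

open Claimed.Agent.R291

/-! ## 0. sizes and laws -/

/-- admissible (refined) sizes: both even -/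
def Rci57Adm (L H : ℕ) : Prop := Even L ∧ Even H

/-- the family of laws in the refined sizes; the boundary classes are collapsed -/
noncomputable def rci57P (t : ℝ) (L H : ℕ) (_ _ : Bool) (E : Set CyF) : ℝ := rcy162Q t (L / 2) (H / 2) E

theorem rci57_adm_iff (L H : ℕ) : Rci57Adm L H ↔ Even L ∧ Even H := Iff.rfl

theorem rci57_adm_fun : Rci57Adm = fun L H => Even L ∧ Even H := rfl

theorem rci57_P_fun (t : ℝ) : rci57P t = fun L H _ _ => rcy162Q t (L / 2) (H / 2) := rfl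

theorem rci57_adm_two (L H : ℕ) : Rci57Adm (2 * L) (2 * H) := ⟨even_two_mul L, even_two_mul H⟩

theorem rci57_P_two (t : ℝ) (L H : ℕ) : rci57P t (2 * L) (2 * H) = fun _ _ => rcy162Q t L H := by
  funext S T E
  show rcy162Q t (2 * L / 2) (2 * H / 2) E = rcy162Q t L H E
  rw [Nat.mul_div_cancel_left L (by norm_num), Nat.mul_div_cancel_left H (by norm_num)]

theorem rci57_P_two' (t : ℝ) (L H : ℕ) (S T : Bool) (E : Set CyF) : rci57P t (2 * L) (2 * H) S T E = rcy162Q t L H E := by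
  rw [rci57_P_two]

/-! ## 1. the fields -/

/-- **field `slide`** on the mixed cylinder (hypothesis `slide` of `rci69_law`) -/
def Rci57Slide (t : ℝ) : Prop :=
  ∀ L H : ℕ, 10 ≤ H → H ≤ L →
    ∀ (c d s : ℤ) (E : Set CyF), CyInc E → CySup c d E → 3 ≤ c → 3 ≤ s → Even s → d + s ≤ ((2 * H : ℕ) : ℤ) - 4 →
      rcy162Q t L H E ≤ rcy162Q t L H (cyMv (0, s) E)

/-- **field `sym`** on the mixed cylinder (hypothesis `sym` of `rci69_law`) -/
def Rci57Sym (t : ℝ) : Prop :=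
  ∀ L H : ℕ, 10 ≤ H → H ≤ L →
    ∀ (k m κ : ℤ), 1 ≤ m → Even m → 3 ≤ k → k + m + 3 ≤ κ → κ + m - 1 ≤ ((2 * H : ℕ) : ℤ) - 4 → ((2 * H : ℕ) : ℤ) + k + m + 7 ≤ 2 * κ →
      1 ≤ rcy162Q t L H (cyVP 1 k (k + m - 1)) + rcy162Q t L H (cyVP (-1) k (k + m - 1))
        + 4 * (rcy162Q t L H (cyVP 1 κ (κ + m - 1)) + rcy162Q t L H (cyBlk 1 κ (κ + m - 1)))

/-- the search input of 127, all sizes -/
def Rci57Search (t : ℝ) : Prop := ∀ L H : ℕ, 10 ≤ H → H ≤ L → Rcs127Search t L H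

/-- **field `recov`** on the mixed cylinder (hypothesis `recov` of `rci69_law`) -/
def Rci57Recov (t : ℝ) : Prop :=
  ∀ L H : ℕ, 10 ≤ H → H ≤ L →
    ∀ (c d κ m : ℤ), 3 ≤ c → c ≤ d → d + 3 ≤ κ → 1 ≤ m → Even m → κ + m - 1 ≤ ((2 * H : ℕ) : ℤ) - 4 →
      rcy162Q t L H (cyBlk 1 c d) ≤ 2 * (rcy162Q t L H (cyVP 1 κ (κ + m - 1)) + rcy162Q t L H (cyBlk 1 κ (κ + m - 1)))

/-- **field `rswl`** of `Rct127Kit Rci57Adm (rci57P t)`, VERBATIM -/
def Rci57Rswl (t : ℝ) : Prop :=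
  ∀ (κ : ℕ) (δ : ℝ), 0 < δ → ∃ δ' : ℝ, 0 < δ' ∧ ∃ r0 : ℕ, ∀ (L H : ℕ) (T : Bool) (k r : ℤ), Rci57Adm L H →
    20 ≤ H → H ≤ L → (r0 : ℤ) ≤ r → Even r → ((κ : ℤ) + 20) * r ≤ L → 3 + r ≤ k → k + 2 * r ≤ (H : ℤ) - 4 →
    (δ ≤ rci57P t L H T T (cyV 1 0 (6 * r) k (k + r - 1)) ∨ δ ≤ rci57P t L H T T (cyH 1 0 (4 * r) k (k + r - 1))) →
    δ' ≤ rci57P t L H T T (cyH 1 0 (κ * r) k (k + r - 1))

/-- **field `glue`** of `Rct127Kit Rci57Adm (rci57P t)`, VERBATIM -/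
def Rci57Glue (t : ℝ) : Prop :=
  ∃ cG : ℝ, 0 < cG ∧ ∃ r0 : ℕ, ∀ (L H : ℕ) (T : Bool) (k m : ℤ), Rci57Adm L H →
    20 ≤ H → H ≤ L → (r0 : ℤ) ≤ m → Even m → 100 * m ≤ L → 3 + 3 * m ≤ k → k + 13 * m ≤ (H : ℤ) - 4 →
    cG * rci57P t L H T T (cyH 1 0 (60 * m) (k + 8 * m) (k + 10 * m - 1) ∩ cyH 1 (10 * m) (70 * m) k (k + 2 * m - 1))
      ≤ rci57P t L H T T (cyV 1 (12 * m) (58 * m) (k + 3 * m) (k + 7 * m))

/-- `rswl` read on `rcy162Q t L H` (unrefined sizes): an equivalent input for the producer -/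
def Rci57RswlQ (t : ℝ) : Prop :=
  ∀ (κ : ℕ) (δ : ℝ), 0 < δ → ∃ δ' : ℝ, 0 < δ' ∧ ∃ r0 : ℕ, ∀ (L H : ℕ) (k r : ℤ),
    10 ≤ H → H ≤ L → (r0 : ℤ) ≤ r → Even r → ((κ : ℤ) + 20) * r ≤ 2 * (L : ℤ) → 3 + r ≤ k → k + 2 * r ≤ 2 * (H : ℤ) - 4 →
    (δ ≤ rcy162Q t L H (cyV 1 0 (6 * r) k (k + r - 1)) ∨ δ ≤ rcy162Q t L H (cyH 1 0 (4 * r) k (k + r - 1))) →
    δ' ≤ rcy162Q t L H (cyH 1 0 (κ * r) k (k + r - 1))

/-- `glue` read on `rcy162Q t L H` (unrefined sizes): an equivalent input for the producer -/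
def Rci57GlueQ (t : ℝ) : Prop :=
  ∃ cG : ℝ, 0 < cG ∧ ∃ r0 : ℕ, ∀ (L H : ℕ) (k m : ℤ),
    10 ≤ H → H ≤ L → (r0 : ℤ) ≤ m → Even m → 100 * m ≤ 2 * (L : ℤ) → 3 + 3 * m ≤ k → k + 13 * m ≤ 2 * (H : ℤ) - 4 →
    cG * rcy162Q t L H (cyH 1 0 (60 * m) (k + 8 * m) (k + 10 * m - 1) ∩ cyH 1 (10 * m) (70 * m) k (k + 2 * m - 1))
      ≤ rcy162Q t L H (cyV 1 (12 * m) (58 * m) (k + 3 * m) (k + 7 * m))

/-- the equation lemmas of the definitions of this file are generated HERE (RULES.md, rule 6) -/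
theorem rci57_eqns_cite : True := by
  have := @Rci57Adm.eq_1
  have := @rci57P.eq_1
  have := @Rci57Slide.eq_1
  have := @Rci57Sym.eq_1
  have := @Rci57Search.eq_1
  have := @Rci57Recov.eq_1
  have := @Rci57Rswl.eq_1
  have := @Rci57Glue.eq_1
  have := @Rci57RswlQ.eq_1
  have := @Rci57GlueQ.eq_1
  trivial

/-! ## 2. readers -/

/-- an admissible pair of sizes is `(2 L', 2 H')` -/
theorem rci57_adm_cases {L H : ℕ} (h : Rci57Adm L H) : ∃ L' H' : ℕ, L = 2 * L' ∧ H = 2 * H' := by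
  obtain ⟨⟨a, ha⟩, ⟨b, hb⟩⟩ := h
  exact ⟨a, b, by omega, by omega⟩

theorem rci57_sym_of_search {t : ℝ} (h0 : 1 / 2 ≤ t) (h1 : t ≤ 1) (hs : Rci57Search t) : Rci57Sym t := by
  intro L H hH hHL k m κ a1 a2 a3 a4 a5 a6
  exact rcs127_sym h0 h1 (L := L) (H := H) (by omega) (hs L H hH hHL) true k m κ a1 a2 a3 a4 a5 a6

theorem rci57_rswl_of_Q {t : ℝ} (h : Rci57RswlQ t) : Rci57Rswl t := by
  intro κ δ hδ
  obtain ⟨δ', hδ', r0, hr⟩ := h κ δ hδ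
  refine ⟨δ', hδ', r0, fun L H T k r hA hH hHL h1 h2 h3 h4 h5 h6 => ?_⟩
  obtain ⟨L', H', rfl, rfl⟩ := rci57_adm_cases hA
  simp only [rci57_P_two'] at h6 ⊢
  push_cast at h3 h5
  exact hr L' H' k r (by omega) (by omega) h1 h2 h3 h4 h5 h6

theorem rci57_rswl_to_Q {t : ℝ} (h : Rci57Rswl t) : Rci57RswlQ t := by
  intro κ δ hδ
  obtain ⟨δ', hδ', r0, hr⟩ := h κ δ hδ
  refine ⟨δ', hδ', r0, fun L H k r hH hHL h1 h2 h3 h4 h5 h6 => ?_⟩
  have := hr (2 * L) (2 * H) true k r (rci57_adm_two L H) (by omega) (by omega) h1 h2 (by push_cast; exact h3) h4 (by push_cast; exact h5)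
  simp only [rci57_P_two'] at this
  exact this h6

theorem rci57_glue_of_Q {t : ℝ} (h : Rci57GlueQ t) : Rci57Glue t := by
  obtain ⟨cG, hc, r0, hr⟩ := h
  refine ⟨cG, hc, r0, fun L H T k m hA hH hHL h1 h2 h3 h4 h5 => ?_⟩
  obtain ⟨L', H', rfl, rfl⟩ := rci57_adm_cases hA
  simp only [rci57_P_two']
  push_cast at h3 h5
  exact hr L' H' k m (by omega) (by omega) h1 h2 h3 h4 h5

theorem rci57_glue_to_Q {t : ℝ} (h : Rci57Glue t) : Rci57GlueQ t := by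
  obtain ⟨cG, hc, r0, hr⟩ := h
  refine ⟨cG, hc, r0, fun L H k m hH hHL h1 h2 h3 h4 h5 => ?_⟩
  have := hr (2 * L) (2 * H) true k m (rci57_adm_two L H) (by omega) (by omega) h1 h2 (by push_cast; exact h3) h4 (by push_cast; exact h5)
  simp only [rci57_P_two'] at this
  exact this

/-! ## 3. the kit -/

/-- FKG on every cylinder, in the form of 162 -/
theorem rci57_fkg {t : ℝ} (h0 : 0 < t) (h1 : t ≤ 1) {L : ℕ} (hL : 0 < L) (a b : ℤ) (hab : a < b) : Rcy162Fkg t L a b :=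
  fun E E' hE hE' => rci69_cyl_fkg h0 h1 hL hab (fun _ _ h x => hE _ _ (rcy162_fld_mono L h) x) (fun _ _ h x => hE' _ _ (rcy162_fld_mono L h) x)

/-- **field `slide`: CLOSED** -/
theorem rci57_slide {t : ℝ} (h0 : 0 < t) (h1 : t ≤ 1) : Rci57Slide t := by
  intro L H hH hHL c d s E a1 a2 a3 a4 a5 a6
  exact rcy162_slide h0 h1 (L := L) (by omega) (rci57_fkg h0 h1 (by omega)) (H := H) (by omega) c d s E a1 a2 a3 a4 a5 a6

/-- the record of 127 on one cylinder, from `sym` and `recov` on that cylinder -/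
theorem rci57_law_one {t : ℝ} (h0 : 0 < t) (h1 : t ≤ 1) {L H : ℕ} (hL : 0 < L) (hH : 0 < H)
    (sym : ∀ (k m κ : ℤ), 1 ≤ m → Even m → 3 ≤ k → k + m + 3 ≤ κ → κ + m - 1 ≤ ((2 * H : ℕ) : ℤ) - 4 → ((2 * H : ℕ) : ℤ) + k + m + 7 ≤ 2 * κ →
      1 ≤ rcy162Q t L H (cyVP 1 k (k + m - 1)) + rcy162Q t L H (cyVP (-1) k (k + m - 1))
        + 4 * (rcy162Q t L H (cyVP 1 κ (κ + m - 1)) + rcy162Q t L H (cyBlk 1 κ (κ + m - 1))))
    (recov : ∀ (c d κ m : ℤ), 3 ≤ c → c ≤ d → d + 3 ≤ κ → 1 ≤ m → Even m → κ + m - 1 ≤ ((2 * H : ℕ) : ℤ) - 4 →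
      rcy162Q t L H (cyBlk 1 c d) ≤ 2 * (rcy162Q t L H (cyVP 1 κ (κ + m - 1)) + rcy162Q t L H (cyBlk 1 κ (κ + m - 1)))) :
    Rct127Law (2 * L) (2 * H) (fun _ _ => rcy162Q t L H) where
  nonneg := fun _ _ E => rcy162_Q_nonneg h0.le h1 L H E
  one := fun _ _ => rcy162_Q_univ h0 h1 L hH
  zero := fun _ _ => rcy162_Q_empty t L H
  mono := fun _ _ E E' h => rcy162_Q_mono h0.le h1 L H h
  union := fun _ _ E E' => rcy162_Q_union h0.le h1 L H E E'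
  fkg := fun _ _ E E' hE hE' _ _ => rci69_Q_fkg h0 h1 hL hH hE hE'
  shift := fun _ _ a E ha => rcy162_Q_shift' t hL H ha E
  slide := fun _ _ _ c d s E => rcy162_slide h0 h1 hL (rci57_fkg h0 h1 hL) hH c d s E
  refl := ⟨2 * (H : ℤ), by push_cast; omega, by push_cast; omega, fun _ _ c d => ⟨rcy162_Q_refl_VP t hL H c d, rcy162_Q_refl_Blk t hL H c d⟩⟩
  sym := fun _ k m κ => sym k m κ
  recov := fun _ _ c d κ m => recov c d κ m

/-- the field `law` of the kit -/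
theorem rci57_law {t : ℝ} (h0 : 0 < t) (h1 : t ≤ 1) (hsy : Rci57Sym t) (hre : Rci57Recov t)
    (L H : ℕ) (hA : Rci57Adm L H) (hH : 20 ≤ H) (hHL : H ≤ L) : Rct127Law L H (rci57P t L H) := by
  obtain ⟨L', H', rfl, rfl⟩ := rci57_adm_cases hA
  rw [rci57_P_two]
  have a : 10 ≤ H' := by omega
  have b : H' ≤ L' := by omega
  exact rci57_law_one h0 h1 (by omega) (by omega) (hsy L' H' a b) (hre L' H' a b)

/-- **THE KIT ON THE MIXED CYLINDER**, `sym` as a field -/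
theorem rci57_kit_sym {t : ℝ} (h0 : 0 < t) (h1 : t ≤ 1) (hsy : Rci57Sym t) (hre : Rci57Recov t)
    (hrs : Rci57Rswl t) (hgl : Rci57Glue t) : Rct127Kit Rci57Adm (rci57P t) where
  law := rci57_law h0 h1 hsy hre
  rswl := hrs
  glue := hgl

/-- **THE KIT ON THE MIXED CYLINDER**, `sym` from the search input of 127 -/
theorem rci57_kit {t : ℝ} (h0 : 1 / 2 ≤ t) (h1 : t ≤ 1) (hse : Rci57Search t) (hre : Rci57Recov t)
    (hrs : Rci57Rswl t) (hgl : Rci57Glue t) : Rct127Kit Rci57Adm (rci57P t) :=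
  rci57_kit_sym (by linarith) h1 (rci57_sym_of_search h0 h1 hse) hre hrs hgl

/-- the same kit, `Adm` and `P` spelled out -/
theorem rci57_kit_fun {t : ℝ} (h0 : 1 / 2 ≤ t) (h1 : t ≤ 1) (hse : Rci57Search t) (hre : Rci57Recov t)
    (hrs : Rci57Rswl t) (hgl : Rci57Glue t) :
    Rct127Kit (fun L H => Even L ∧ Even H) (fun L H _ _ => rcy162Q t (L / 2) (H / 2)) :=
  rci57_kit h0 h1 hse hre hrs hgl

/-! ## 4. (CYL) -/

/-- **(CYL) and its mirror on the mixed cylinder** -/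
theorem rci57_cyl {t : ℝ} (h0 : 1 / 2 ≤ t) (h1 : t ≤ 1) (hse : Rci57Search t) (hre : Rci57Recov t)
    (hrs : Rci57Rswl t) (hgl : Rci57Glue t) : Rct127Cyl Rci57Adm (rci57P t) ∧ Rct127CylM Rci57Adm (rci57P t) := by
  have hK := rci57_kit h0 h1 hse hre hrs hgl
  exact ⟨rct127_main hK, rct127_main_minus hK (rct127_main hK)⟩

/-- (CYL) read on `rcy162Q t L H` : unrefined sizes `L H`, refined rows `c d` -/
def Rci57CylQ (t : ℝ) : Prop :=
  ∀ (C : ℕ) (ε : ℝ), 0 < ε → ∃ δ : ℝ, 0 < δ ∧ ∃ H₀ : ℕ, ∀ (L H : ℕ), H₀ ≤ H → H ≤ L → L ≤ C * H →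
    ∀ c d : ℤ, 7 * (H : ℤ) ≤ 5 * c → (c : ℝ) + ε * H ≤ d → d ≤ 2 * (H : ℤ) - 4 → δ ≤ rcy162Q t L H (cyBlk 1 c d)

/-- the mirror of (CYL) read on `rcy162Q t L H` -/
def Rci57CylMQ (t : ℝ) : Prop :=
  ∀ (C : ℕ) (ε : ℝ), 0 < ε → ∃ δ : ℝ, 0 < δ ∧ ∃ H₀ : ℕ, ∀ (L H : ℕ), H₀ ≤ H → H ≤ L → L ≤ C * H →
    ∀ c d : ℤ, 5 ≤ c → (c : ℝ) + ε * H ≤ d → 5 * d ≤ 3 * (H : ℤ) - 15 → δ ≤ rcy162Q t L H (cyBlk (-1) c d)

/-- the equation lemmas of the definitions of par. 4 are generated HERE (RULES.md, rule 6) -/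
theorem rci57_eqns_cite2 : True := by
  have := @Rci57CylQ.eq_1
  have := @Rci57CylMQ.eq_1
  trivial

theorem rci57_cyl_Q {t : ℝ} (h : Rct127Cyl Rci57Adm (rci57P t)) : Rci57CylQ t := by
  intro C ε hε
  obtain ⟨δ, hδ, H₀, hh⟩ := h C (ε / 2) (by positivity)
  refine ⟨δ, hδ, H₀, fun L H hH hHL hLC c d h1 h2 h3 => ?_⟩
  have := hh (2 * L) (2 * H) true (rci57_adm_two L H) (by omega) (by omega) (by nlinarith) c d (by push_cast; omega)
    (by push_cast; linarith) (by push_cast; omega)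
  rwa [rci57_P_two'] at this

theorem rci57_cylM_Q {t : ℝ} (h : Rct127CylM Rci57Adm (rci57P t)) : Rci57CylMQ t := by
  intro C ε hε
  obtain ⟨δ, hδ, H₀, hh⟩ := h C (ε / 2) (by positivity)
  refine ⟨δ, hδ, H₀, fun L H hH hHL hLC c d h1 h2 h3 => ?_⟩
  have := hh (2 * L) (2 * H) true (rci57_adm_two L H) (by omega) (by omega) (by nlinarith) c d h1
    (by push_cast; linarith) (by push_cast; omega)
  rwa [rci57_P_two'] at this

/-- **(CYL) + mirror on `rcy162Q`, from the four inputs** : the form for B5 -/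
theorem rci57_main {t : ℝ} (h0 : 1 / 2 ≤ t) (h1 : t ≤ 1) (hse : Rci57Search t) (hre : Rci57Recov t)
    (hrs : Rci57Rswl t) (hgl : Rci57Glue t) : Rci57CylQ t ∧ Rci57CylMQ t :=
  ⟨rci57_cyl_Q (rci57_cyl h0 h1 hse hre hrs hgl).1, rci57_cylM_Q (rci57_cyl h0 h1 hse hre hrs hgl).2⟩

end Claimed.Agent.R292
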