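import Claimed.Agent.R292.Rsw.Len182
import Claimed.Agent.R292.Rsw.LenInst182
import Claimed.Agent.R292.Rsw.Sys162
import Claimed.Agent.R292.Rsw.CylTop127
import Claimed.Agent.R292.Rsw.CylInst57

/-!
# Row 292 (S0540), Rsw/KitGlue169 : R8 CORE, c1_post 3 = THE FIELD `glue` OF `Rct127Kit` FROM THE EXIT OF A2 (`Rln182Glue2`)      (owner helper169; prefix `kg169_`, defs `Kg169*`)      0 sorry

Port of R291 `Ann/CylBridge` par. 1, 2, 4 (`cyb_ev_*`, `cyb_diag`, `cyb_glue`).   In R291 the bridge was an isomorphism of two `ClSys`; here both sides are sums over `(rcy162Cyl L 0 H).cfgs`, so the bridge is a rewriting.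
SIZES.   The machine of 182 (`Len182` Parts C, E) is indexed by the REFINED sizes (circumference `2 L`, height `2 H`, cells = `sdCells (2 L) 0 (2 H)`); the law of 162 by the sizes `L`, `H` of the cylinder.
* par.1  `Kg169Link t 𝓛 K` : at the sizes `(2 L, 2 H)` the family `(𝓛, K)` IS the mixed cylinder of 162 read on the refined lattice (nothing is asked at the other sizes; `np` is only asked on the rows `≥ 1`:
         the points of the horizontal edges of the row `0` are no edge pairs of the system).   `kg169_np_of_link` : the clause `np` from the record `Rse182Link` of 182.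
* par.2  **`kg169_bridge`** : `rln182P 𝓛 K (2 L) (2 H) E = rcy162Q t L H {τ | E (cyOn 1 τ)}` for every `E` which reads the rows `c..d` only, `1 ≤ c`, `d < 2 H`;   `kg169_P_H`, `kg169_P_V`, `kg169_P_HH` (the events of the kit).
* par.3  **`kg169_glue2`** (sizes `2 L`, `2 H`), **`kg169_glue`** = the field `glue` of `Rct127Kit (fun L H => Even L ∧ Even H) (fun L H _ _ => rcy162Q t (L / 2) (H / 2))` VERBATIM, from `Kg169Link` + `Rln182Glue2 𝓛 K`
         (`kg169_glue2_of_glue : Rln182Glue 𝓛 K → Rln182Glue2 𝓛 K`);   `kg169_kit` : the record from its three fields (checks that the shape is the one of the record).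
* par.4  THE FAMILY OF 182 (`rse182Cyl t`, `rse182K` of `LenInst182`; v1 of this file had a family of its own: removed, no twin): `kg169_link182 : Kg169Link t (rse182Cyl t) rse182K`,
         **`kg169_glue57 : Rln182Glue2 (rse182Cyl t) rse182K → Rci57Glue t`** (the input of the assembly `rci57_kit` of 57), **`kg169_glue57_of_contracts`** : `Rci57Glue t` from the six contracts of `rse182_cyl_glue`.
-/

set_option autoImplicit false
set_option linter.unusedSectionVars false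
set_option linter.unusedVariables false

namespace Claimed.Agent.R292

open Claims Claims.C0468 Relation Claimed.Agent.R291

/-! ## 1. the link -/

/-- at the sizes `(2 L, 2 H)` the family `(𝓛, K)` is the mixed cylinder of 162 read on the refined lattice -/
structure Kg169Link (t : ℝ) (𝓛 : ∀ _ _ : ℕ, Rln182Law RswCfg TV) (K : ∀ _ _ : ℕ, RswCfg → Prop) : Prop where
  cfgs : ∀ L H, (𝓛 (2 * L) (2 * H)).cfgs = (rcy162Cyl L 0 H).cfgs
  wt : ∀ L H, (𝓛 (2 * L) (2 * H)).wt = (rcy162Cyl L 0 H).w t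
  cells : ∀ L H, (𝓛 (2 * L) (2 * H)).cells = sdCells (2 * L) 0 (2 * H : ℕ)
  mix : ∀ L H ω, K (2 * L) (2 * H) ω ↔ Rcy162Mix L 0 H ω
  np : ∀ L H ω, ∀ y ∈ sdCells (2 * L) 1 (2 * H : ℕ), ((𝓛 (2 * L) (2 * H)).np ω y ↔ rcy162Fld L (rcy162Cyl L 0 H) ω y ≠ 1)

/-- a periodic field is read at the reduced point -/
theorem kg169_per_red {L : ℕ} {τ : CyF} (h : CyPer (L : ℤ) τ) (s : SignType) (u : TV) : τ (sdRed L u) = s ↔ τ u = s := by
  have hP := cy_per_on s h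
  have e : sdRed L u + ((u.1 / (L : ℤ)) * (L : ℤ), 0) = u := by
    unfold sdRed
    ext
    · simp only [Prod.fst_add]
      have := Int.emod_add_mul_ediv u.1 (L : ℤ)
      linarith
    · simp
  have := pls_per_mul hP (u.1 / (L : ℤ)) (sdRed L u)
  rw [e] at this
  exact this.symm

/-- the clause `np` of the link from the record of 182 -/
theorem kg169_np_of_link {t : ℝ} {L H : ℕ} {𝓛 : Rln182Law RswCfg TV} (h : Rse182Link (rcy162Cyl L 0 H) t 𝓛) (ω : RswCfg) (y : TV)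
    (hy : y ∈ sdCells (2 * L) 1 (2 * H : ℕ)) : 𝓛.np ω y ↔ rcy162Fld L (rcy162Cyl L 0 H) ω y ≠ 1 := by
  unfold sdCells at hy
  simp only [Finset.mem_product, Finset.mem_Ico] at hy
  obtain ⟨⟨h1, h2⟩, h3, h4⟩ := hy
  push_cast at h2 h4
  rcases rtd111_cases y with ⟨v, rfl⟩ | ⟨f, rfl⟩ | ⟨e, rfl⟩
  · simp only [rtd111P] at h1 h2 h3 h4
    have hr : rcy162Red L v = v := rcy162_red_of_range (by omega) (by omega)
    have hv : v ∈ (rcy162Cyl L 0 H).V := rcy162_mem_cylV.2 ⟨⟨by omega, by omega⟩, by omega, by omega⟩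
    rw [h.npP ω v hv, rcy162_fld_P, hr, Ne, rcy162_sgV_one]
    tauto
  · rw [rcy162_fld_F]
    exact ⟨fun _ => by decide, fun _ => h.npF ω f⟩
  · obtain ⟨⟨x, z⟩, b⟩ := e
    cases b
    · rw [rtd111_E_f] at h1 h2 h3 h4 ⊢
      simp only at h1 h2 h3 h4
      have hr : rcy162RedE L ((x, z), false) = ((x, z), false) := by
        unfold rcy162RedE
        rw [rcy162_red_of_range (u := (x, z)) (by show 0 ≤ x; omega) (by show x < L; omega)]
      have he : ((x, z), false) ∈ (rcy162Cyl L 0 H).E :=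
        rcy162_mem_cylE.2 ⟨⟨by show 0 ≤ x; omega, by show x < L; omega⟩, Or.inl ⟨rfl, by show 0 < z; omega, by show z < H; omega⟩⟩
      rw [← rtd111_E_f, h.npE ω _ he, rcy162_fld_E, hr, Ne, rcy162_sgE_one]
      tauto
    · rw [rtd111_E_t] at h1 h2 h3 h4 ⊢
      simp only at h1 h2 h3 h4
      have hr : rcy162RedE L ((x, z), true) = ((x, z), true) := by
        unfold rcy162RedE
        rw [rcy162_red_of_range (u := (x, z)) (by show 0 ≤ x; omega) (by show x < L; omega)]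
      have he : ((x, z), true) ∈ (rcy162Cyl L 0 H).E :=
        rcy162_mem_cylE.2 ⟨⟨by show 0 ≤ x; omega, by show x < L; omega⟩, Or.inr ⟨rfl, by show 0 ≤ z; omega, by show z < H; omega⟩⟩
      rw [← rtd111_E_t, h.npE ω _ he, rcy162_fld_E, hr, Ne, rcy162_sgE_one]
      tauto

/-! ## 2. the bridge -/

section bridge

variable {t : ℝ} {𝓛 : ∀ _ _ : ℕ, Rln182Law RswCfg TV} {K : ∀ _ _ : ℕ, RswCfg → Prop}

/-- the two sets of plus cells have the same trace on the rows `c..d` -/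
theorem kg169_trace (h : Kg169Link t 𝓛 K) {L H : ℕ} (hL : 0 < L) {c d : ℤ} (hc : 1 ≤ c) (hd : d < ((2 * H : ℕ) : ℤ)) (ω : RswCfg) :
    rln182Set (𝓛 (2 * L) (2 * H)) (2 * L) ω ∩ plsBand c d = cyOn 1 (rcy162Fld L (rcy162Cyl L 0 H) ω) ∩ plsBand c d := by
  ext y
  constructor
  · rintro ⟨⟨h1, h2⟩, h3⟩
    refine ⟨?_, h3⟩
    have hb : c ≤ y.2 ∧ y.2 ≤ d := h3
    have hm : sdRed (2 * L) y ∈ sdCells (2 * L) 1 (2 * H : ℕ) := by
      rw [h.cells] at h1
      obtain ⟨a1, a2, a3, a4⟩ := lcy_mem_cells h1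
      unfold sdCells
      simp only [Finset.mem_product, Finset.mem_Ico]
      refine ⟨⟨a1, a2⟩, ?_, a4⟩
      show 1 ≤ y.2
      omega
    rw [h.np L H ω _ hm, not_not] at h2
    exact (kg169_per_red (rcy162_fld_per' L _ ω) 1 y).1 h2
  · rintro ⟨h1, h3⟩
    refine ⟨?_, h3⟩
    have hb : c ≤ y.2 ∧ y.2 ≤ d := h3
    have hm0 : sdRed (2 * L) y ∈ sdCells (2 * L) 0 (2 * H : ℕ) := lcy_red_mem (by omega) (by omega) (by omega)
    have hm : sdRed (2 * L) y ∈ sdCells (2 * L) 1 (2 * H : ℕ) := by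
      obtain ⟨a1, a2, a3, a4⟩ := lcy_mem_cells hm0
      unfold sdCells
      simp only [Finset.mem_product, Finset.mem_Ico]
      refine ⟨⟨a1, a2⟩, ?_, a4⟩
      show 1 ≤ y.2
      omega
    refine ⟨by rw [h.cells]; exact hm0, ?_⟩
    rw [h.np L H ω _ hm, not_not]
    exact (kg169_per_red (rcy162_fld_per' L _ ω) 1 y).2 h1

/-- **THE BRIDGE** -/
theorem kg169_bridge (h : Kg169Link t 𝓛 K) {L H : ℕ} (hL : 0 < L) {c d : ℤ} (hc : 1 ≤ c) (hd : d < ((2 * H : ℕ) : ℤ)) {E : Set TV → Prop}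
    (hE : SdRows c d E) :
    rln182P (Ω := fun _ _ => RswCfg) 𝓛 K (2 * L) (2 * H) E = rcy162Q t L H {τ | E (cyOn 1 τ)} := by
  classical
  have key : ∀ ω, E (rln182Set (𝓛 (2 * L) (2 * H)) (2 * L) ω) ↔ E (cyOn 1 (rcy162Fld L (rcy162Cyl L 0 H) ω)) :=
    fun ω => hE _ _ (kg169_trace h hL hc hd ω)
  unfold rln182P Rln182Law.P Rln182Law.Z Rln182Law.N rcy162Q rcy162PM Rcy162Sys.Pr Rcy162Sys.Ex
  rw [rcy162_sum_cfgs', rcy162_sum_cfgs', h.cfgs, h.wt]
  congr 1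
  · refine Finset.sum_congr rfl fun ω _ => ?_
    by_cases hK : Rcy162Mix L 0 H ω
    · rw [if_pos ((h.mix L H ω).2 hK), if_pos hK]
      congr 1
      by_cases hEω : E (cyOn 1 (rcy162Fld L (rcy162Cyl L 0 H) ω))
      · rw [rln182_ind_pos (L := fun ω => E (rln182Set (𝓛 (2 * L) (2 * H)) (2 * L) ω)) ((key ω).2 hEω), if_pos (show _ ∈ {τ | E (cyOn 1 τ)} from hEω)]
      · rw [rln182_ind_neg (L := fun ω => E (rln182Set (𝓛 (2 * L) (2 * H)) (2 * L) ω)) (fun h' => hEω ((key ω).1 h')),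
          if_neg (show ¬ _ ∈ {τ | E (cyOn 1 τ)} from hEω)]
    · rw [if_neg (fun h' => hK ((h.mix L H ω).1 h')), if_neg hK]
  · refine Finset.sum_congr rfl fun ω _ => ?_
    by_cases hK : Rcy162Mix L 0 H ω
    · rw [if_pos ((h.mix L H ω).2 hK), if_pos hK]
    · rw [if_neg (fun h' => hK ((h.mix L H ω).1 h')), if_neg hK]

theorem kg169_ev_H (σ : SignType) (a b c d : ℤ) : cyH σ a b c d = {τ | SdH a b c d (cyOn σ τ)} := rfl

/-- `cyV` is the PATH form, `SdV` the DUAL form -/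
theorem kg169_ev_V (σ : SignType) {a b c d : ℤ} (hab : a ≤ b) (hcd : c ≤ d) : cyV σ a b c d = {τ | SdV a b c d (cyOn σ τ)} := by
  ext τ
  exact pls_box_iff' hab hcd (cyOn σ τ)

theorem kg169_P_H (h : Kg169Link t 𝓛 K) {L H : ℕ} (hL : 0 < L) (a b : ℤ) {c d : ℤ} (hc : 1 ≤ c) (hd : d < ((2 * H : ℕ) : ℤ)) :
    rln182P (Ω := fun _ _ => RswCfg) 𝓛 K (2 * L) (2 * H) (SdH a b c d) = rcy162Q t L H (cyH 1 a b c d) := by
  rw [kg169_ev_H, kg169_bridge h hL hc hd (sd_H_rows a b c d)]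

theorem kg169_P_V (h : Kg169Link t 𝓛 K) {L H : ℕ} (hL : 0 < L) {a b c d : ℤ} (hab : a ≤ b) (hcd : c ≤ d) (hc : 1 ≤ c)
    (hd : d < ((2 * H : ℕ) : ℤ)) :
    rln182P (Ω := fun _ _ => RswCfg) 𝓛 K (2 * L) (2 * H) (SdV a b c d) = rcy162Q t L H (cyV 1 a b c d) := by
  rw [kg169_ev_V 1 hab hcd, kg169_bridge h hL hc hd (sd_V_rows a b c d)]

theorem kg169_rows_mono {c d c' d' : ℤ} {E : Set TV → Prop} (h : SdRows c d E) (h1 : c' ≤ c) (h2 : d ≤ d') : SdRows c' d' E := by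
  intro X X' e
  refine h X X' ?_
  ext z
  constructor
  · rintro ⟨a1, a2⟩
    have hz : z ∈ plsBand c' d' := ⟨h1.trans a2.1, a2.2.trans h2⟩
    exact ⟨((e ▸ (⟨a1, hz⟩ : z ∈ X ∩ plsBand c' d') : z ∈ X' ∩ plsBand c' d')).1, a2⟩
  · rintro ⟨a1, a2⟩
    have hz : z ∈ plsBand c' d' := ⟨h1.trans a2.1, a2.2.trans h2⟩
    exact ⟨((e.symm ▸ (⟨a1, hz⟩ : z ∈ X' ∩ plsBand c' d') : z ∈ X ∩ plsBand c' d')).1, a2⟩

theorem kg169_rows_and {c d : ℤ} {E E' : Set TV → Prop} (h : SdRows c d E) (h' : SdRows c d E') : SdRows c d (fun X => E X ∧ E' X) :=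
  fun X X' e => and_congr (h X X' e) (h' X X' e)

/-- two horizontal crossings -/
theorem kg169_P_HH (h : Kg169Link t 𝓛 K) {L H : ℕ} (hL : 0 < L) (a b a' b' : ℤ) {c d c' d' : ℤ} (hc : 1 ≤ c) (hd : d < ((2 * H : ℕ) : ℤ))
    (hc' : 1 ≤ c') (hd' : d' < ((2 * H : ℕ) : ℤ)) :
    rln182P (Ω := fun _ _ => RswCfg) 𝓛 K (2 * L) (2 * H) (fun X => SdH a b c d X ∧ SdH a' b' c' d' X) =
      rcy162Q t L H (cyH 1 a b c d ∩ cyH 1 a' b' c' d') := by
  have e : cyH 1 a b c d ∩ cyH 1 a' b' c' d' = {τ | (fun X => SdH a b c d X ∧ SdH a' b' c' d' X) (cyOn 1 τ)} := by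
    ext τ
    exact Iff.rfl
  rw [e]
  exact kg169_bridge h hL (c := min c c') (d := max d d') (le_min hc hc') (max_lt hd hd')
    (kg169_rows_and (kg169_rows_mono (sd_H_rows a b c d) (min_le_left _ _) (le_max_left _ _))
      (kg169_rows_mono (sd_H_rows a' b' c' d') (min_le_right _ _) (le_max_right _ _)))

/-! ## 3. the field `glue` -/

/-- the form of `Len182` Part C gives the parity form of Part E -/
theorem kg169_glue2_of_glue (hG : Rln182Glue (Ω := fun _ _ => RswCfg) 𝓛 K) : Rln182Glue2 (Ω := fun _ _ => RswCfg) 𝓛 K := by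
  obtain ⟨cG, hc, r₀, hg⟩ := hG
  exact ⟨cG, hc, r₀, fun L H k m _ _ => hg L H k m⟩

/-- the field `glue` at the sizes `2 L`, `2 H` -/
theorem kg169_glue2 (h : Kg169Link t 𝓛 K) (hG : Rln182Glue2 (Ω := fun _ _ => RswCfg) 𝓛 K) :
    ∃ cG : ℝ, 0 < cG ∧ ∃ r0 : ℕ, ∀ (L H : ℕ) (k m : ℤ), 20 ≤ 2 * H → 2 * H ≤ 2 * L → (r0 : ℤ) ≤ m → 100 * m ≤ ((2 * L : ℕ) : ℤ) → 3 + 3 * m ≤ k →
      k + 13 * m ≤ ((2 * H : ℕ) : ℤ) - 4 →
      cG * rcy162Q t L H (cyH 1 0 (60 * m) (k + 8 * m) (k + 10 * m - 1) ∩ cyH 1 (10 * m) (70 * m) k (k + 2 * m - 1))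
        ≤ rcy162Q t L H (cyV 1 (12 * m) (58 * m) (k + 3 * m) (k + 7 * m)) := by
  obtain ⟨cG, hc, r₀, hg⟩ := hG
  refine ⟨cG, hc, r₀, fun L H k m hH hHL hm h1 h2 h3 => ?_⟩
  have hm0 : 0 ≤ m := (Int.natCast_nonneg r₀).trans hm
  have hL : 0 < L := by omega
  have := hg (2 * L) (2 * H) k m (by omega) (by omega) hH hHL hm h1 h2 h3
  rwa [kg169_P_HH h hL _ _ _ _ (by omega) (by omega) (by omega) (by omega), kg169_P_V h hL (by omega) (by omega) (by omega) (by omega)] at this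

/-- **the field `glue` of `Rct127Kit (fun L H => Even L ∧ Even H) (fun L H _ _ => rcy162Q t (L / 2) (H / 2))`, VERBATIM** -/
theorem kg169_glue (h : Kg169Link t 𝓛 K) (hG : Rln182Glue2 (Ω := fun _ _ => RswCfg) 𝓛 K) :
    ∃ cG : ℝ, 0 < cG ∧ ∃ r0 : ℕ, ∀ (L H : ℕ) (T : Bool) (k m : ℤ), (Even L ∧ Even H) →
      20 ≤ H → H ≤ L → (r0 : ℤ) ≤ m → Even m → 100 * m ≤ L → 3 + 3 * m ≤ k → k + 13 * m ≤ (H : ℤ) - 4 →
      cG * rcy162Q t (L / 2) (H / 2) (cyH 1 0 (60 * m) (k + 8 * m) (k + 10 * m - 1) ∩ cyH 1 (10 * m) (70 * m) k (k + 2 * m - 1))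
        ≤ rcy162Q t (L / 2) (H / 2) (cyV 1 (12 * m) (58 * m) (k + 3 * m) (k + 7 * m)) := by
  obtain ⟨cG, hc, r0, hg⟩ := kg169_glue2 h hG
  refine ⟨cG, hc, r0, fun L H T k m hA hH hHL hm _ h1 h2 h3 => ?_⟩
  obtain ⟨⟨L', rfl⟩, ⟨H', rfl⟩⟩ := hA
  have eL : (L' + L') / 2 = L' := by omega
  have eH : (H' + H') / 2 = H' := by omega
  rw [eL, eH]
  exact hg L' H' k m (by omega) (by omega) hm (by push_cast at h1 ⊢; omega) h2 (by push_cast at h3 ⊢; omega)

/-- the record from its three fields -/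
theorem kg169_kit (h : Kg169Link t 𝓛 K) (hG : Rln182Glue2 (Ω := fun _ _ => RswCfg) 𝓛 K)
    (law : ∀ L H : ℕ, (Even L ∧ Even H) → 20 ≤ H → H ≤ L → Rct127Law L H (fun _ _ => rcy162Q t (L / 2) (H / 2)))
    (rswl : ∀ (κ : ℕ) (δ : ℝ), 0 < δ → ∃ δ' : ℝ, 0 < δ' ∧ ∃ r0 : ℕ, ∀ (L H : ℕ) (T : Bool) (k r : ℤ), (Even L ∧ Even H) →
      20 ≤ H → H ≤ L → (r0 : ℤ) ≤ r → Even r → ((κ : ℤ) + 20) * r ≤ L → 3 + r ≤ k → k + 2 * r ≤ (H : ℤ) - 4 →
      (δ ≤ rcy162Q t (L / 2) (H / 2) (cyV 1 0 (6 * r) k (k + r - 1)) ∨ δ ≤ rcy162Q t (L / 2) (H / 2) (cyH 1 0 (4 * r) k (k + r - 1))) →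
      δ' ≤ rcy162Q t (L / 2) (H / 2) (cyH 1 0 (κ * r) k (k + r - 1))) :
    Rct127Kit (fun L H => Even L ∧ Even H) (fun L H _ _ => rcy162Q t (L / 2) (H / 2)) where
  law := law
  rswl := rswl
  glue := kg169_glue h hG

end bridge

/-! ## 4. the family of 182 -/

/-- the family of 182 is the mixed cylinder of 162 read on the refined lattice -/
theorem kg169_link182 (t : ℝ) : Kg169Link t (rse182Cyl t) rse182K where
  cfgs := fun L H => by
    have eL : 2 * L / 2 = L := by omega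
    have eH : 2 * H / 2 = H := by omega
    show (rcy162Cyl (2 * L / 2) 0 ((2 * H / 2 : ℕ) : ℤ)).cfgs = _
    rw [eL, eH]
  wt := fun L H => by
    have eL : 2 * L / 2 = L := by omega
    have eH : 2 * H / 2 = H := by omega
    show (rcy162Cyl (2 * L / 2) 0 ((2 * H / 2 : ℕ) : ℤ)).w t = _
    rw [eL, eH]
  cells := fun L H => rfl
  mix := fun L H ω => by
    have eL : 2 * L / 2 = L := by omega
    have eH : 2 * H / 2 = H := by omega
    have := rse182_KM_holds (2 * L) (2 * H) ω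
    rw [eL, eH] at this
    exact this
  np := fun L H ω y _ => by
    have eL : 2 * L / 2 = L := by omega
    have eH : 2 * H / 2 = H := by omega
    show rcy162Fld (2 * L / 2) (rcy162Cyl (2 * L / 2) 0 ((2 * H / 2 : ℕ) : ℤ)) ω y ≠ 1 ↔ _
    rw [eL, eH]

/-- **the input `Rci57Glue t` of the assembly of 57** from the exit of A2 on the mixed cylinder -/
theorem kg169_glue57 (t : ℝ) (hG : Rln182Glue2 (rse182Cyl t) rse182K) : Rci57Glue t :=
  kg169_glue (kg169_link182 t) hG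

/-- **`Rci57Glue t` from the six contracts of 182** -/
theorem kg169_glue57_of_contracts {t : ℝ} (h0 : 0 < t) (h1 : t < 1) (hG : Rse182CGeo t) (hP : Rse182CP4 t) (hO : Rse182COrd t)
    (hPo : Rse182CPorts t) (hL : Rse182CLSS t) (hF : Rln182CFkg2 (rse182Cyl t) rse182K) : Rci57Glue t :=
  kg169_glue57 t (rse182_cyl_glue h0 h1 hG hP hO hPo hL hF)

end Claimed.Agent.R292
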