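import Claimed.Agent.R292.Rsw.LenInst182
import Claimed.Agent.R292.Rsw.Ports102

/-!
# Row 292 (S0540), Rsw/LssAd282 : R8 CORE, BLOCK A1.2 (LSS), THE ADAPTER TO THE EXACT SHAPE `Rse182LSS`      (owner helper282; prefix `lsa282_`, defs `lsa282*`, `Lsa282*`)      0 sorry

Row 26 of `c1_post` (deal of 82, 21:40Z).   AT copy of the ENTRANCE of R291 `Ann/LenLSS` (`lls_rec`, `lls_cb`, `lls_core`), with the ports of 102 (`Rsw/Ports102`) instead of `Glue/Enter`.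

THE STRAIGHT REFERENCE `h3 = rse182H3 Y 𝓛 K G a b` (182) prescribes: vertices / edges of the top and bottom rows of the box plus / good plus, minus pins on the two short sides, good minus walls outside.
* retained edge pairs `lsa282YR` = the edges of the box OFF its top and bottom rows;   retained vertices `lsa282RV` = their endpoints;   retained faces `lsa282RF` = their faces;
* ports `lsa282P` = retained faces which are faces of an outer edge that is not a wall (the corner edges: a bounded number, a fact of the chart, HYPOTHESIS `hP`);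
* **`lsa282_split`** : `Rpo102Split Y t (rpo102Of h3 ∅) RV RF YR ∅ P`  (only `Y.WF`);
* **`lsa282_KR`** : the retained history does not depend on `K` (`Rse182Geo.clrV / clrE`): it is `lsa282K0` = (plus pins: retained vertices carried by the two rows;  minus pins: retained vertices of `rse182N3`;  no edge prescribed);
* the CLOSED SYSTEM `lsa282S0 = rpo102SR Y RV RF YR`, the event `Lsa282J` = a chain of good plus retained edges joins a vertex of the bottom row to a vertex of the top row.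

CONTRACTS (Props):
* `Lsa282Closed Y 𝓛 G a b t c₀` : `c₀ Z ≤ N[J]` IN THE CLOSED SYSTEM under `lsa282K0`      = the planar statement (N1 + N5 of CORE_DICT; pens 271 202 167): a rectangle, top and bottom plus, short sides minus, `d` free;
* `Lsa282Det Y 𝓛 K G a b` : on `h3`, `J` stops every left-right walk of non-plus cells of the box      = (J) of R291 `lls_det` (deterministic; pen 237).
**`lsa282_main : Lsa282Closed c₀ → Lsa282Det → #ports ≤ p + 1 → Rse182LSS (rse182Hs Y 𝓛 K G a b) 𝓛 G (c₀ / 2 ^ p) a b`.**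

ON THE MIXED CYLINDER `rse182Cyl t` (par. 9, text of 182, appended 23:06Z): the two deterministic hypotheses are PROVED there: `lsa282_P_cyl` (the ports are the four corner faces), `lsa282_det_cyl` ((J), `3 ≤ r`), hence
**`lsa282_clss : 0 ≤ t → t ≤ 1 → Lsa282CClosed t → Rse182CLSS t`.**
NOT PROVED ANYWHERE (END STATE OF THE RUN): the contract `Lsa282CClosed t` = `Lsa282Closed` with constants uniform in the boxes of the cylinder = the planar crossing estimate itself (rows plus, short sides minus, `d` free).   It is the same estimate as `RnzLSS t` of `RenTop109` (remark of 182; aspect `b - a = 5r - 7`); the bridge between the two contracts was counted (400-500 lines) and NOT written.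
-/

set_option autoImplicit false
set_option linter.unusedSectionVars false
set_option linter.unusedVariables false
set_option linter.unusedSimpArgs false

namespace Claimed.Agent.R292

open Claims Claims.C0468 Relation Claimed.Agent.R291

/-! ## 0. the abstract entrance -/

/-- **ENTRANCE**: a lower bound in the retained closed system passes to the ambient, at the price of the ports -/
theorem lsa282_abs {Y : Rcy162Sys} {t : ℝ} {K : Rpo102Con} {R Q : Finset (ℤ × ℤ)} {YR : Finset ((ℤ × ℤ) × Bool)}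
    {ER : Finset ((ℤ × ℤ) × (ℤ × ℤ))} {P : Finset (ℤ × ℤ)} (hs : Rpo102Split Y t K R Q YR ER P) {p : ℕ} (hP : P.card ≤ p + 1)
    {F : RswCfg → ℝ} (hF : Rpo102Loc R YR F) (h0 : ∀ ω, 0 ≤ F ω) {c₀ : ℝ}
    (hc : c₀ * rpo102NR Y t K R Q YR ER (fun _ => 1) ≤ rpo102NR Y t K R Q YR ER F) :
    c₀ / 2 ^ p * Y.sum t (K.Holds Y) (fun _ => 1) ≤ Y.sum t (K.Holds Y) F := by
  have o0 : ∀ ω : RswCfg, (0 : ℝ) ≤ (fun _ => 1) ω := fun _ => zero_le_one
  have hN : 0 ≤ Y.sum t (K.Holds Y) F := rpo102_N_nonneg hs h0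
  have hZ : 0 ≤ Y.sum t (K.Holds Y) (fun _ => 1) := rpo102_N_nonneg hs o0
  rcases hZ.eq_or_lt with hZ0 | hZ0
  · rw [← hZ0, mul_zero]; exact hN
  have hR := rpo102_feas hs hZ0
  have hge := rpo102_ge hs hF h0
  have h2 : (2 : ℝ) ^ (P.card - 1) ≤ 2 ^ p := pow_le_pow_right₀ (by norm_num) (by omega)
  have h2p : (0 : ℝ) < 2 ^ p := by positivity
  -- `c₀ NR(1) Z ≤ NR(F) Z ≤ 2 ^ p N(F) NR(1)`
  have h3 : c₀ * rpo102NR Y t K R Q YR ER (fun _ => 1) * Y.sum t (K.Holds Y) (fun _ => 1)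
      ≤ 2 ^ p * (Y.sum t (K.Holds Y) F * rpo102NR Y t K R Q YR ER (fun _ => 1)) :=
    calc _ ≤ rpo102NR Y t K R Q YR ER F * Y.sum t (K.Holds Y) (fun _ => 1) := mul_le_mul_of_nonneg_right hc hZ
      _ ≤ 2 ^ (P.card - 1) * (Y.sum t (K.Holds Y) F * rpo102NR Y t K R Q YR ER (fun _ => 1)) := hge
      _ ≤ _ := mul_le_mul_of_nonneg_right h2 (mul_nonneg hN hR.le)
  have h4 : c₀ * Y.sum t (K.Holds Y) (fun _ => 1) ≤ 2 ^ p * Y.sum t (K.Holds Y) F := by
    have : (c₀ * Y.sum t (K.Holds Y) (fun _ => 1)) * rpo102NR Y t K R Q YR ER (fun _ => 1)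
        ≤ (2 ^ p * Y.sum t (K.Holds Y) F) * rpo102NR Y t K R Q YR ER (fun _ => 1) := by
      calc _ = c₀ * rpo102NR Y t K R Q YR ER (fun _ => 1) * Y.sum t (K.Holds Y) (fun _ => 1) := by ring
        _ ≤ _ := h3
        _ = _ := by ring
    exact le_of_mul_le_mul_right this hR
  rw [div_mul_eq_mul_div, div_le_iff₀ h2p]
  calc _ ≤ _ := h4
    _ = _ := by ring

/-! ## 1. the retained part of the straight reference -/

section defs

variable (Y : Rcy162Sys) (𝓛 : Rln182Law RswCfg TV) (K : RswCon) (G : LenGeo TV) (a b : ℤ)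

/-- the retained edge pairs: the edges of the box off its top and bottom rows -/
noncomputable def lsa282YR : Finset ((ℤ × ℤ) × Bool) := rse182Ed Y (rse182OT 𝓛 G a b)

/-- the retained vertices -/
noncomputable def lsa282RV : Finset (ℤ × ℤ) := rse182Ev Y (lsa282YR Y 𝓛 G a b)

/-- the retained faces -/
noncomputable def lsa282RF : Finset (ℤ × ℤ) := rse182Ef Y (lsa282YR Y 𝓛 G a b)

open Classical in
/-- the outer edges which are not walls -/
noncomputable def lsa282Xp : Finset ((ℤ × ℤ) × Bool) := (rse182Out Y 𝓛 G a b).filter (fun w => w ∉ rse182W3 Y 𝓛 G a b)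

/-- **the ports: FACES** -/
noncomputable def lsa282P : Finset (ℤ × ℤ) := lsa282RF Y 𝓛 G a b ∩ rse182Ef Y (lsa282Xp Y 𝓛 G a b)

/-- the retained history: it depends on the box only -/
noncomputable def lsa282K0 : Rpo102Con :=
  ⟨rse182Sv Y (rse182TB 𝓛 G a b) ∩ lsa282RV Y 𝓛 G a b, rse182N3 Y 𝓛 G a b ∩ lsa282RV Y 𝓛 G a b, ∅, ∅, ∅, ∅⟩

/-- the closed system of the box -/
noncomputable def lsa282S0 : Rcy162Sys := rpo102SR Y (lsa282RV Y 𝓛 G a b) (lsa282RF Y 𝓛 G a b) (lsa282YR Y 𝓛 G a b)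

open Classical in
/-- the vertices carried by the bottom row of the box -/
noncomputable def lsa282Bot : Finset (ℤ × ℤ) := rse182Sv Y ((rse182O 𝓛 G a b).filter (fun y => G.bot y))

open Classical in
/-- the vertices carried by the top row of the box -/
noncomputable def lsa282Top : Finset (ℤ × ℤ) := rse182Sv Y ((rse182O 𝓛 G a b).filter (fun y => G.top y))

/-- one step along a good plus retained edge -/
def Lsa282St (ω : RswCfg) (u v : ℤ × ℤ) : Prop :=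
  ∃ e ∈ lsa282YR Y 𝓛 G a b, Y.Good true ω e ∧ ((u = Y.p0 e ∧ v = Y.p1 e) ∨ (v = Y.p0 e ∧ u = Y.p1 e))

/-- **the event**: a chain of good plus retained edges joins a vertex of the bottom row to a vertex of the top row -/
def Lsa282J (ω : RswCfg) : Prop :=
  ∃ u ∈ lsa282Bot Y 𝓛 G a b, ∃ v ∈ lsa282Top Y 𝓛 G a b, ReflTransGen (Lsa282St Y 𝓛 G a b ω) u v

/-- **CONTRACT (planar LSS)**: the short crossing in the closed system of the box (top and bottom plus, short sides minus, `d` free) -/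
def Lsa282Closed (t c₀ : ℝ) : Prop :=
  c₀ * (lsa282S0 Y 𝓛 G a b).sum t ((lsa282K0 Y 𝓛 G a b).Holds (lsa282S0 Y 𝓛 G a b)) (fun _ => 1)
    ≤ (lsa282S0 Y 𝓛 G a b).sum t ((lsa282K0 Y 𝓛 G a b).Holds (lsa282S0 Y 𝓛 G a b)) (rln182Ind (Lsa282J Y 𝓛 G a b))

/-- **CONTRACT (J)**: on the straight reference the chain stops every left-right walk of non-plus cells of the box -/
def Lsa282Det : Prop :=
  ∀ ω : RswCfg, Y.Cfg ω → rse182Holds Y (rse182H3 Y 𝓛 K G a b) ω → Lsa282J Y 𝓛 G a b ω → G.Vp (𝓛.np ω) a b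

end defs

theorem lsa282_eqns_cite : True := by
  have := @lsa282YR.eq_1
  have := @lsa282RV.eq_1
  have := @lsa282RF.eq_1
  have := @lsa282Xp.eq_1
  have := @lsa282P.eq_1
  have := @lsa282K0.eq_1
  have := @lsa282S0.eq_1
  have := @lsa282Bot.eq_1
  have := @lsa282Top.eq_1
  have := @Lsa282St.eq_1
  have := @Lsa282J.eq_1
  have := @Lsa282Closed.eq_1
  have := @Lsa282Det.eq_1
  trivial

section chain

variable {Y : Rcy162Sys} {t : ℝ} {𝓛 : Rln182Law RswCfg TV} {K : RswCon} {G : LenGeo TV} {a b : ℤ}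

theorem lsa282_mem_YR {e : (ℤ × ℤ) × Bool} : e ∈ lsa282YR Y 𝓛 G a b ↔ e ∈ Y.E ∧ rtd111E e ∈ rse182OT 𝓛 G a b := rse182_mem_Ed

theorem lsa282_mem_RV {v : ℤ × ℤ} : v ∈ lsa282RV Y 𝓛 G a b ↔ v ∈ Y.V ∧ ∃ e ∈ lsa282YR Y 𝓛 G a b, Rse182End Y e v := rse182_mem_Ev

theorem lsa282_mem_RF {f : ℤ × ℤ} : f ∈ lsa282RF Y 𝓛 G a b ↔ f ∈ Y.Fc ∧ ∃ e ∈ lsa282YR Y 𝓛 G a b, Rse182Fac Y e f := rse182_mem_Ef

theorem lsa282_mem_Xp {w : (ℤ × ℤ) × Bool} : w ∈ lsa282Xp Y 𝓛 G a b ↔ w ∈ rse182Out Y 𝓛 G a b ∧ w ∉ rse182W3 Y 𝓛 G a b := by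
  classical
  unfold lsa282Xp; exact Finset.mem_filter

theorem lsa282_RV_sub : lsa282RV Y 𝓛 G a b ⊆ Y.V := fun _ hv => (lsa282_mem_RV.1 hv).1

theorem lsa282_RF_sub : lsa282RF Y 𝓛 G a b ⊆ Y.Fc := fun _ hf => (lsa282_mem_RF.1 hf).1

/-- an edge of the system which is not retained: an edge of the two rows, or an outer edge -/
theorem lsa282_ext_cases {w : (ℤ × ℤ) × Bool} (hE : w ∈ Y.E) (hM : w ∉ lsa282YR Y 𝓛 G a b) :
    w ∈ rse182Ed Y (rse182TB 𝓛 G a b) ∨ w ∈ rse182Out Y 𝓛 G a b := by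
  by_cases hO : rtd111E w ∈ rse182O 𝓛 G a b
  · left
    refine rse182_mem_Ed.2 ⟨hE, rse182_mem_TB.2 ⟨hO, ?_⟩⟩
    by_contra hc
    exact hM (lsa282_mem_YR.2 ⟨hE, rse182_mem_OT.2 ⟨hO, hc⟩⟩)
  · exact Or.inr (rse182_mem_Out.2 ⟨hE, hO⟩)

theorem lsa282_end_V (hw : Y.WF) {w : (ℤ × ℤ) × Bool} (hE : w ∈ Y.E) {v : ℤ × ℤ} (hv : Rse182End Y w v) : v ∈ Y.V := by
  rcases hv with rfl | rfl
  · exact hw.p0 w hE
  · exact hw.p1 w hE

theorem lsa282_fac_F (hw : Y.WF) {w : (ℤ × ℤ) × Bool} (hE : w ∈ Y.E) {f : ℤ × ℤ} (hf : Rse182Fac Y w f) : f ∈ Y.Fc := by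
  rcases hf with rfl | rfl
  · exact hw.f0 w hE
  · exact hw.f1 w hE

/-- a retained vertex is carried by a cell of the box -/
theorem lsa282_RV_SvO {v : ℤ × ℤ} (hv : v ∈ lsa282RV Y 𝓛 G a b) : v ∈ rse182Sv Y (rse182O 𝓛 G a b) := by
  obtain ⟨hV, e, he, hev⟩ := lsa282_mem_RV.1 hv
  obtain ⟨hE, hO⟩ := lsa282_mem_YR.1 he
  exact rse182_mem_Sv.2 ⟨hV, rtd111E e, (rse182_mem_OT.1 hO).1, Or.inr ⟨e, hE, rfl, hev⟩⟩

/-- **the split of the straight reference** -/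
theorem lsa282_split (hw : Y.WF) (h0 : 0 ≤ t) (h1 : t ≤ 1) :
    Rpo102Split Y t (rpo102Of (rse182H3 Y 𝓛 K G a b) ∅) (lsa282RV Y 𝓛 G a b) (lsa282RF Y 𝓛 G a b) (lsa282YR Y 𝓛 G a b) ∅
      (lsa282P Y 𝓛 G a b) := by
  have key := rpo102_split_raw hw h0 h1 (K := rse182H3 Y 𝓛 K G a b) (RV := lsa282RV Y 𝓛 G a b) (RF := lsa282RF Y 𝓛 G a b)
    (ME := lsa282YR Y 𝓛 G a b) (P := lsa282P Y 𝓛 G a b) ?_ ?_ ?_
  · rwa [Finset.inter_eq_left.2 lsa282_RV_sub, Finset.inter_eq_left.2 lsa282_RF_sub] at key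
  · intro e he
    have hE := (lsa282_mem_YR.1 he).1
    exact ⟨hE, fun v hv => lsa282_mem_RV.2 ⟨lsa282_end_V hw hE hv, e, he, hv⟩, fun f hf => lsa282_mem_RF.2 ⟨lsa282_fac_F hw hE hf, e, he, hf⟩⟩
  · intro w hE hM v hv hR
    show v ∈ (K.Sp ∪ rse182Sv Y (rse182TB 𝓛 G a b)) ∪ (K.Sm ∪ rse182N3 Y 𝓛 G a b)
    have hvV := lsa282_end_V hw hE hv
    rcases lsa282_ext_cases hE hM with h | h
    · exact Finset.mem_union_left _ (Finset.mem_union_right _
        (rse182_mem_Sv.2 ⟨hvV, rtd111E w, (rse182_mem_Ed.1 h).2, Or.inr ⟨w, hE, rfl, hv⟩⟩))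
    · by_cases hT : v ∈ rse182Sv Y (rse182TB 𝓛 G a b)
      · exact Finset.mem_union_left _ (Finset.mem_union_right _ hT)
      · refine Finset.mem_union_right _ (Finset.mem_union_right _ ?_)
        unfold rse182N3
        exact Finset.mem_union_right _ (Finset.mem_sdiff.2 ⟨Finset.mem_inter.2 ⟨lsa282_RV_SvO hR, rse182_mem_Ev.2 ⟨hvV, w, h, hv⟩⟩, hT⟩)
  · intro w hE hM
    rcases lsa282_ext_cases hE hM with h | h
    · left
      show w ∈ (K.Gp ∪ rse182Ed Y (rse182TB 𝓛 G a b)) ∪ (K.Gm ∪ rse182W3 Y 𝓛 G a b)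
      exact Finset.mem_union_left _ (Finset.mem_union_right _ h)
    · by_cases hW : w ∈ rse182W3 Y 𝓛 G a b
      · left
        show w ∈ (K.Gp ∪ rse182Ed Y (rse182TB 𝓛 G a b)) ∪ (K.Gm ∪ rse182W3 Y 𝓛 G a b)
        exact Finset.mem_union_right _ (Finset.mem_union_right _ hW)
      · right
        intro f hf hR
        exact Finset.mem_inter.2 ⟨hR, rse182_mem_Ef.2 ⟨lsa282_fac_F hw hE hf, w, lsa282_mem_Xp.2 ⟨h, hW⟩, hf⟩⟩

/-- a retained edge is clear of `K` -/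
theorem lsa282_clrE (hG : Rse182Geo Y 𝓛 K G a b) {e : (ℤ × ℤ) × Bool} (he : e ∈ lsa282YR Y 𝓛 G a b) : e ∉ K.Gp ∧ e ∉ K.Gm ∧ e ∉ K.Cl := by
  obtain ⟨hE, hO⟩ := lsa282_mem_YR.1 he
  exact hG.clrE e hE ⟨e, rse182_mem_Ed.2 ⟨hE, (rse182_mem_OT.1 hO).1⟩, Y.f0 e, Or.inl rfl, Or.inl rfl⟩

/-- **the retained history depends on the box only** -/
theorem lsa282_KR (hG : Rse182Geo Y 𝓛 K G a b) :
    rpo102KR (rpo102Of (rse182H3 Y 𝓛 K G a b) ∅) (lsa282RV Y 𝓛 G a b) (lsa282YR Y 𝓛 G a b) ∅ = lsa282K0 Y 𝓛 G a b := by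
  have e1 : (K.Sp ∪ rse182Sv Y (rse182TB 𝓛 G a b)) ∩ lsa282RV Y 𝓛 G a b = rse182Sv Y (rse182TB 𝓛 G a b) ∩ lsa282RV Y 𝓛 G a b := by
    ext v
    simp only [Finset.mem_inter, Finset.mem_union]
    constructor
    · rintro ⟨h | h, hR⟩
      · exact absurd h (hG.clrV v (Or.inl (lsa282_RV_SvO hR))).1
      · exact ⟨h, hR⟩
    · rintro ⟨h, hR⟩
      exact ⟨Or.inr h, hR⟩
  have e2 : (K.Sm ∪ rse182N3 Y 𝓛 G a b) ∩ lsa282RV Y 𝓛 G a b = rse182N3 Y 𝓛 G a b ∩ lsa282RV Y 𝓛 G a b := by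
    ext v
    simp only [Finset.mem_inter, Finset.mem_union]
    constructor
    · rintro ⟨h | h, hR⟩
      · exact absurd h (hG.clrV v (Or.inl (lsa282_RV_SvO hR))).2
      · exact ⟨h, hR⟩
    · rintro ⟨h, hR⟩
      exact ⟨Or.inr h, hR⟩
  have e3 : (K.Gp ∪ rse182Ed Y (rse182TB 𝓛 G a b)) ∩ lsa282YR Y 𝓛 G a b = ∅ := by
    rw [Finset.eq_empty_iff_forall_notMem]
    intro e he
    obtain ⟨h, hR⟩ := Finset.mem_inter.1 he
    rcases Finset.mem_union.1 h with h | h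
    · exact (lsa282_clrE hG hR).1 h
    · exact (rse182_mem_OT.1 (lsa282_mem_YR.1 hR).2).2 (rse182_mem_TB.1 (rse182_mem_Ed.1 h).2).2
  have e4 : (K.Gm ∪ rse182W3 Y 𝓛 G a b) ∩ lsa282YR Y 𝓛 G a b = ∅ := by
    rw [Finset.eq_empty_iff_forall_notMem]
    intro e he
    obtain ⟨h, hR⟩ := Finset.mem_inter.1 he
    rcases Finset.mem_union.1 h with h | h
    · exact (lsa282_clrE hG hR).2.1 h
    · exact (rse182_mem_Out.1 (rse182_mem_W3.1 h).1).2 (rse182_mem_OT.1 (lsa282_mem_YR.1 hR).2).1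
  have e5 : K.Cl ∩ lsa282YR Y 𝓛 G a b = ∅ := by
    rw [Finset.eq_empty_iff_forall_notMem]
    intro e he
    obtain ⟨h, hR⟩ := Finset.mem_inter.1 he
    exact (lsa282_clrE hG hR).2.2 h
  show (⟨(K.Sp ∪ rse182Sv Y (rse182TB 𝓛 G a b)) ∩ lsa282RV Y 𝓛 G a b, (K.Sm ∪ rse182N3 Y 𝓛 G a b) ∩ lsa282RV Y 𝓛 G a b, ∅,
    (K.Gp ∪ rse182Ed Y (rse182TB 𝓛 G a b)) ∩ lsa282YR Y 𝓛 G a b, (K.Gm ∪ rse182W3 Y 𝓛 G a b) ∩ lsa282YR Y 𝓛 G a b,
    K.Cl ∩ lsa282YR Y 𝓛 G a b⟩ : Rpo102Con) = _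
  rw [e1, e2, e3, e4, e5]
  rfl

/-- the event reads the retained part only -/
theorem lsa282_J_loc (hw : Y.WF) : Rpo102Loc (lsa282RV Y 𝓛 G a b) (lsa282YR Y 𝓛 G a b) (rln182Ind (Lsa282J Y 𝓛 G a b)) := by
  intro ω ω' e1 e2
  have hc : ∀ y ∈ lsa282YR Y 𝓛 G a b, rpo102Sv Y y ⊆ lsa282RV Y 𝓛 G a b := by
    intro y hy v hv
    have hE := (lsa282_mem_YR.1 hy).1
    simp only [rpo102Sv, Finset.mem_insert, Finset.mem_singleton] at hv
    exact lsa282_mem_RV.2 ⟨lsa282_end_V hw hE hv, y, hy, hv⟩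
  have hst : Lsa282St Y 𝓛 G a b ω = Lsa282St Y 𝓛 G a b ω' := by
    funext u v
    refine propext ⟨?_, ?_⟩
    · rintro ⟨e, he, hg, h⟩
      exact ⟨e, he, (rpo102_good_loc hc e1 e2 he true).1 hg, h⟩
    · rintro ⟨e, he, hg, h⟩
      exact ⟨e, he, (rpo102_good_loc hc e1 e2 he true).2 hg, h⟩
  have hJ : Lsa282J Y 𝓛 G a b ω ↔ Lsa282J Y 𝓛 G a b ω' := by
    unfold Lsa282J
    rw [hst]
  by_cases h : Lsa282J Y 𝓛 G a b ω
  · rw [rln182_ind_pos h, rln182_ind_pos (hJ.1 h)]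
  · rw [rln182_ind_neg h, rln182_ind_neg fun h' => h (hJ.2 h')]

/-- **THE ADAPTER**: the contract `Rse182LSS` of 182 from the planar statement in the closed system of the box, (J) and the number of ports -/
theorem lsa282_main (hl : Rse182Link Y t 𝓛) (hw : Y.WF) (h0 : 0 ≤ t) (h1 : t ≤ 1) (hG : Rse182Geo Y 𝓛 K G a b) {p : ℕ}
    (hP : (lsa282P Y 𝓛 G a b).card ≤ p + 1) {c₀ : ℝ} (hC : Lsa282Closed Y 𝓛 G a b t c₀) (hD : Lsa282Det Y 𝓛 K G a b) :
    Rse182LSS (rse182Hs Y 𝓛 K G a b) 𝓛 G (c₀ / 2 ^ p) a b := by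
  show c₀ / 2 ^ p * 𝓛.Z (rse182Holds Y (rse182H3 Y 𝓛 K G a b)) ≤
    𝓛.N (rse182Holds Y (rse182H3 Y 𝓛 K G a b)) (rln182Ind fun ω => G.Vp (𝓛.np ω) a b)
  unfold Rln182Law.Z
  rw [rse182_N_sum hl, rse182_N_sum hl]
  have hK : ∀ X : RswCfg → ℝ, Y.sum t (rse182Holds Y (rse182H3 Y 𝓛 K G a b)) X
      = Y.sum t ((rpo102Of (rse182H3 Y 𝓛 K G a b) ∅).Holds Y) X := fun X =>
    rcy162_sum_congr_K Y t (fun ω _ => (rpo102_of_holds Y (rse182H3 Y 𝓛 K G a b) ω).symm) X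
  have hs := lsa282_split (𝓛 := 𝓛) (K := K) (G := G) (a := a) (b := b) hw h0 h1
  have hc : c₀ * rpo102NR Y t (rpo102Of (rse182H3 Y 𝓛 K G a b) ∅) (lsa282RV Y 𝓛 G a b) (lsa282RF Y 𝓛 G a b) (lsa282YR Y 𝓛 G a b) ∅ (fun _ => 1)
      ≤ rpo102NR Y t (rpo102Of (rse182H3 Y 𝓛 K G a b) ∅) (lsa282RV Y 𝓛 G a b) (lsa282RF Y 𝓛 G a b) (lsa282YR Y 𝓛 G a b) ∅
        (rln182Ind (Lsa282J Y 𝓛 G a b)) := by
    unfold rpo102NR
    rw [lsa282_KR hG]
    exact hC
  have key := lsa282_abs hs hP (lsa282_J_loc hw) (rln182_ind_nonneg _) hc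
  rw [← hK, ← hK] at key
  refine key.trans (rcy162_sum_mono' Y _ h0 h1 fun ω hω hwt => ?_)
  have hH := rcy162_K_of_wt Y hwt
  by_cases hJ : Lsa282J Y 𝓛 G a b ω
  · rw [rln182_ind_pos hJ, rln182_ind_pos (L := fun ω => G.Vp (𝓛.np ω) a b) (hD ω hω hH hJ)]
  · rw [rln182_ind_neg hJ]
    exact rln182_ind_nonneg _ _

end chain

/-! ## 9. THE MIXED CYLINDER: (P) AND (J) ARE CLOSED (raw forms `rse182_p3_raw`, `rse182_det_raw` of 182, `LenInst182` par. 9); (LSS) = THE PLANAR STATEMENT IN THE CLOSED RECTANGLES -/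

section cyl

variable {t : ℝ} {L H : ℕ} {k r w a b : ℤ}

/-- **(P)**: the ports of the straight reference are the four corner faces -/
theorem lsa282_P_cyl (t : ℝ) (hB : Rse182Box L H k r w a b) :
    (lsa282P (rse182Y L H) (rse182Cyl t L H) (lcyG L H w k (k + r - 1)) a b).card ≤ 3 + 1 := by
  classical
  have hsub : lsa282P (rse182Y L H) (rse182Cyl t L H) (lcyG L H w k (k + r - 1)) a b ⊆
      {rcy162Red (L / 2) ((a - 1) / 2, k / 2), rcy162Red (L / 2) ((a - 1) / 2, (k + r - 1) / 2 - 1),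
        rcy162Red (L / 2) ((b - 1) / 2, k / 2), rcy162Red (L / 2) ((b - 1) / 2, (k + r - 1) / 2 - 1)} := by
    intro f hf
    unfold lsa282P at hf
    obtain ⟨h1, h2⟩ := Finset.mem_inter.1 hf
    obtain ⟨_, m, hm, hmf⟩ := lsa282_mem_RF.1 h1
    obtain ⟨_, e, he, hef⟩ := rse182_mem_Ef.1 h2
    obtain ⟨he1, he2⟩ := lsa282_mem_Xp.1 he
    have := rse182_p3_raw hB ⟨m, hm, hmf⟩ ⟨e, he1, he2, hef⟩
    simp only [Finset.mem_insert, Finset.mem_singleton]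
    exact this
  exact (Finset.card_le_card hsub).trans Finset.card_le_four

/-- **(J)** on the chart of the cylinder -/
theorem lsa282_det_cyl (t : ℝ) (hB : Rse182Box L H k r w a b) (hr3 : 3 ≤ r) :
    Lsa282Det (rse182Y L H) (rse182Cyl t L H) (rse182KM L H) (lcyG L H w k (k + r - 1)) a b := by
  classical
  rintro ω _ hH ⟨u, hu, v, hv, hch⟩
  obtain ⟨_, yu, hyu, cu⟩ := rse182_mem_Sv.1 hu
  obtain ⟨_, yv, hyv, cv⟩ := rse182_mem_Sv.1 hv
  obtain ⟨hyuO, hyub⟩ := Finset.mem_filter.1 hyu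
  obtain ⟨hyvO, hyvt⟩ := Finset.mem_filter.1 hyv
  exact rse182_det_raw hB hr3 hH ⟨yu, hyuO, hyub, cu⟩ ⟨yv, hyvO, hyvt, cv⟩ hch

end cyl

/-- **CONTRACT: the planar (LSS)** in the closed rectangles of the boxes of the cylinder (rows plus, short sides minus, `d` free, nothing else prescribed): constants uniform in the box -/
def Lsa282CClosed (t : ℝ) : Prop :=
  ∃ c₀ : ℝ, 0 < c₀ ∧ ∃ r₀ : ℕ, ∀ (L H : ℕ) (k r w a b : ℤ), Rse182Box L H k r w a b → (r₀ : ℤ) ≤ r →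
    Lsa282Closed (rse182Y L H) (rse182Cyl t L H) (lcyG L H w k (k + r - 1)) a b t c₀

theorem lsa282_eqns_cite2 : True := by
  have := @Lsa282CClosed.eq_1
  trivial

/-- **the contract `Rse182CLSS` of 182 from the planar statement alone** -/
theorem lsa282_clss {t : ℝ} (h0 : 0 ≤ t) (h1 : t ≤ 1) (hC : Lsa282CClosed t) : Rse182CLSS t := by
  obtain ⟨c₀, hc, r₀, h⟩ := hC
  refine ⟨c₀ / 2 ^ 3, by positivity, max r₀ 3, ?_⟩
  intro L H k r w a b hB hr
  have hr' : ((max r₀ 3 : ℕ) : ℤ) ≤ r := hr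
  have hr0 : (r₀ : ℤ) ≤ r := le_trans (by exact_mod_cast le_max_left _ _) hr'
  have hr3 : (3 : ℤ) ≤ r := le_trans (by exact_mod_cast le_max_right r₀ 3) hr'
  have hL2 : 0 < L / 2 := by have := (rse182_box_pos hB).2.1; omega
  exact lsa282_main (rse182_cyl_link t hL2) (rcy162_cyl_wf hL2 0 _) h0 h1 (rse182_cgeo t L H k r w a b hB) (lsa282_P_cyl t hB)
    (h L H k r w a b hB hr0) (lsa282_det_cyl t hB hr3)

end Claimed.Agent.R292
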