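import Claimed.Agent.R292.Rsw.CmpPin291
import Claimed.Agent.R292.Model.Basic
import Claimed.Agent.R292.Model.CircGeo101
import Claimed.Agent.R292.Rsw.BoxJordan219
import Claimed.Agent.R292.Screen.Tv91

/-!
# Row 292 (S0540), Rsw/Mono291 : DOMAIN MONOTONICITY      (pen helper291, order RSW-9 of helper122; prefix `rcm291_`)      no sorry

`Λ` closed inside the open `F` (`hin : ∀ v ∈ cornersOf Λ, ¬ OnPolygon F v`), `F` Jordan, `1/2 ≤ t < 1`, any boundary colour `b` of `F`, any colour `a`: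
* `rcm291_dom_E`      `X` inside `Λ`, increasing in colour `a`    ⟹  `rswE t Λ (!a) X ≤ rswE t F b X`
* `rcm291_dom_P`      the same for events
* `rcm291_dom_sep`    `P_Λ^{!a}[ a-good edges separate A from the layer of Λ ] ≤ P_F^b[ a-good edges separate A from T ]`,  `A ⊆ Λ`, `T ⊆ F \ Λ`
* `rcm291_dom_layer`  the same with `T = rswLayer F`
* `rcm291_box_in`, `rcm291_box_sep`, `rcm291_box_layer`      the same for a box strictly inside a box
* **`rcm291_mono`**   `= RcMono t` of `Rsw/CoreTop121` with `rcU` unfolded (wiring: `unfold RcMono rcU; exact rcm291_mono t ht1 ht2`)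
Proof: (S0) `cmp291_exit_cmp` + exact cut `mdl_base` of 191 + LEAF G of 101 + `bj219_box_jordan` of 219.

# PART 2 (appended 22:00Z; prefix `cmr291_`) : COMPARISON OF TWO LAWS UNDER PRESCRIPTIONS (`prop:comparison`, second sentence)      no gap
* A. generic `cmr291_AT_holley`: `cmp291_holley` of `Rsw/Cmp291` with forced edge states (good plus: `a = 1, b = 0`; good minus: `a = 0, b = 1`; closed: `a = b = 0`)
* B. **`cmr291_holley_pin`**: `K₁ K₂ : MdlPin`, both `Ok`, more plus pins / fewer minus pins in `K₂`, good plus stays good plus, good minus of `K₂` is good minus in `K₁`,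
     a closed edge of one is prescribed in the other  ⟹  `mdlSumK K₁ X * mdlSumK K₂ 1 ≤ mdlSumK K₁ 1 * mdlSumK K₂ X` for `X` increasing (`Cmi291Inc`); `b₁ ≤ b₂` allowed
* C. **`cmr291_scr_cmp`** `: Scr91Cmp t F P` = THE ONLY INPUT OF (TV) of `Screen/Tv91` (91), `F` Jordan, every `P`;   `cmr291_scr_cmp_dual` the same from `Cmi291Dual F`, `0 < t ≤ 1`
-/

set_option autoImplicit false

namespace Claimed.Agent.R292

open Claims Claims.C0468

/-- no prescription -/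
def rcm291K0 : MdlPin := ⟨∅, ∅, ∅, ∅⟩

theorem rcm291_K0_ok : rcm291K0.Ok := by
  intro e he
  simp [rcm291K0] at he

theorem rcm291_K0_holds (ω : RswCfg) : rcm291K0.Holds ω := by
  unfold MdlPin.Holds rcm291K0
  simp

theorem rcm291_sumK0 (t : ℝ) (F : Finset (ℤ × ℤ)) (b : Bool) (X : RswCfg → ℝ) :
    mdlSumK t F b rcm291K0 X = rswSum t F b X := by
  unfold mdlSumK
  simp only [rcm291_K0_holds, if_true]

theorem rcm291_sub_of_in {F Λ : Finset (ℤ × ℤ)} (hin : ∀ v ∈ cornersOf Λ, ¬ OnPolygon F v) : Λ ⊆ F := by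
  intro f hf
  have h := hin f (rsz_face_corner hf)
  unfold OnPolygon at h
  rw [not_not] at h
  exact h.1

/-- **domain + boundary monotonicity, expectations** -/
theorem rcm291_dom_E {t : ℝ} (ht1 : 1 / 2 ≤ t) (ht2 : t < 1) {F Λ : Finset (ℤ × ℤ)} (hF : RswJordan F)
    (hin : ∀ v ∈ cornersOf Λ, ¬ OnPolygon F v) (b a : Bool) {X : RswCfg → ℝ} (hX : MdlInc a X) (hXin : RskInside Λ X) :
    rswE t Λ (!a) X ≤ rswE t F b X := by
  have h0 : 0 < t := by linarith
  have key := mdl_base h0 ht2 (rcm291_sub_of_in hin) b a rcm291_K0_ok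
    (fun X Y hX hY => cmp291_exit_cmp t ht1 ht2 F hF b a rcm291K0 rcm291_K0_ok X Y hX hY) hin
    (fun v _ => by simp [rcm291K0]) hX hXin
  rw [rcm291_sumK0, rcm291_sumK0] at key
  have hZ := rsz_Z_pos h0 ht2.le F b
  show rswE t Λ (!a) X ≤ rswSum t F b X / rswSum t F b (fun _ => 1)
  rw [le_div_iff₀ hZ]
  exact key

/-- **domain + boundary monotonicity, events** -/
theorem rcm291_dom_P {t : ℝ} (ht1 : 1 / 2 ≤ t) (ht2 : t < 1) {F Λ : Finset (ℤ × ℤ)} (hF : RswJordan F)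
    (hin : ∀ v ∈ cornersOf Λ, ¬ OnPolygon F v) (b a : Bool) {A : RswCfg → Prop}
    (hA : ∀ ω ω' : RswCfg, MdlLe a ω ω' → A ω → A ω') (hAin : ∀ ω, A (rskIn Λ ω) ↔ A ω) :
    rswP t Λ (!a) A ≤ rswP t F b A := by
  classical
  rw [rsz_P_def, rsz_P_def]
  refine rcm291_dom_E ht1 ht2 hF hin b a ?_ ?_
  · intro ω ω' h
    by_cases hs : A ω
    · simp only [hs, hA ω ω' h hs, if_true, le_refl]
    · simp only [hs, if_false]
      split_ifs
      · exact zero_le_one
      · exact le_rfl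
  · intro ω
    simp only [hAin ω]

theorem rcm291_sep_target {F A T T' : Finset (ℤ × ℤ)} {a : Bool} {ω : RswCfg} (hT : T ⊆ T') (h : RswSep F a ω A T') :
    RswSep F a ω A T := fun f hf g hg => h f hf g (hT hg)

theorem rcm291_sep_source {F A A' T : Finset (ℤ × ℤ)} {a : Bool} {ω : RswCfg} (hA : A ⊆ A') (h : RswSep F a ω A' T) :
    RswSep F a ω A T := fun f hf g hg => h f (hA hf) g hg

/-- the layer of `F` does not meet a region which is closed inside the open `F` -/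
theorem rcm291_layer_sub {F Λ : Finset (ℤ × ℤ)} (hin : ∀ v ∈ cornersOf Λ, ¬ OnPolygon F v) : rswLayer F ⊆ F \ Λ := by
  classical
  intro f hf
  unfold rswLayer at hf
  obtain ⟨hfF, v, hv, hp⟩ := (@Finset.mem_filter _ _ (Classical.decPred _) _ _).1 hf
  refine Finset.mem_sdiff.2 ⟨hfF, fun hfΛ => hin v ?_ hp⟩
  unfold cornersOf
  exact Finset.mem_biUnion.2 ⟨f, hfΛ, hv⟩

/-- **domain monotonicity of the circuit event** -/
theorem rcm291_dom_sep {t : ℝ} (ht1 : 1 / 2 ≤ t) (ht2 : t < 1) {F Λ : Finset (ℤ × ℤ)} (hF : RswJordan F)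
    (hin : ∀ v ∈ cornersOf Λ, ¬ OnPolygon F v) (b a : Bool) {A T : Finset (ℤ × ℤ)} (hA : A ⊆ Λ) (hT : T ⊆ F \ Λ) :
    rswP t Λ (!a) (fun ω => RswSep Λ a ω A (rswLayer Λ)) ≤ rswP t F b (fun ω => RswSep F a ω A T) := by
  have h0 : 0 < t := by linarith
  refine (rcm291_dom_P ht1 ht2 hF hin b a (fun ω ω' h hs => cg101_sep_le h hs)
    (fun ω => cg101_sep_in Λ a ω A (rswLayer Λ))).trans ?_
  exact rsz_P_mono h0.le ht2.le F b fun ω hs =>
    rcm291_sep_target hT (mdl1g_sep_of_inner (rcm291_sub_of_in hin) hA a ω hs)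

theorem rcm291_dom_layer {t : ℝ} (ht1 : 1 / 2 ≤ t) (ht2 : t < 1) {F Λ : Finset (ℤ × ℤ)} (hF : RswJordan F)
    (hin : ∀ v ∈ cornersOf Λ, ¬ OnPolygon F v) (b a : Bool) {A : Finset (ℤ × ℤ)} (hA : A ⊆ Λ) :
    rswP t Λ (!a) (fun ω => RswSep Λ a ω A (rswLayer Λ)) ≤ rswP t F b (fun ω => RswSep F a ω A (rswLayer F)) :=
  rcm291_dom_sep ht1 ht2 hF hin b a hA (rcm291_layer_sub hin)

/-! ## boxes -/

theorem rcm291_mem_box {z : ℤ × ℤ} {n : ℕ} {f : ℤ × ℤ} :
    f ∈ rswBox z n ↔ (z.1 - n ≤ f.1 ∧ f.1 < z.1 + n) ∧ (z.2 - n ≤ f.2 ∧ f.2 < z.2 + n) := by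
  unfold rswBox
  simp only [Finset.mem_product, Finset.mem_Ico]

/-- a box strictly inside a box -/
theorem rcm291_box_in {z z' : ℤ × ℤ} {m M : ℕ} (h1 : z'.1 - M < z.1 - m) (h2 : z.1 + m < z'.1 + M)
    (h3 : z'.2 - M < z.2 - m) (h4 : z.2 + m < z'.2 + M) :
    ∀ v ∈ cornersOf (rswBox z m), ¬ OnPolygon (rswBox z' M) v := by
  intro v hv
  unfold cornersOf at hv
  obtain ⟨f, hf, hv⟩ := Finset.mem_biUnion.1 hv
  rw [rcm291_mem_box] at hf
  obtain ⟨⟨a1, a2⟩, a3, a4⟩ := hf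
  unfold OnPolygon
  rw [not_not]
  simp only [rcm291_mem_box]
  simp only [Finset.mem_insert, Finset.mem_singleton] at hv
  rcases hv with rfl | rfl | rfl | rfl <;> refine ⟨⟨⟨?_, ?_⟩, ?_, ?_⟩, ⟨⟨?_, ?_⟩, ?_, ?_⟩, ⟨⟨?_, ?_⟩, ?_, ?_⟩, ⟨?_, ?_⟩, ?_, ?_⟩ <;>
    (try dsimp only) <;> omega

theorem rcm291_box_sub {z : ℤ × ℤ} {n m : ℕ} (h : n ≤ m) : rswBox z n ⊆ rswBox z m := by
  intro f hf
  rw [rcm291_mem_box] at hf ⊢
  omega

theorem rcm291_box_sep {t : ℝ} (ht1 : 1 / 2 ≤ t) (ht2 : t < 1) {z z' : ℤ × ℤ} {m M : ℕ} (h1 : z'.1 - M < z.1 - m)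
    (h2 : z.1 + m < z'.1 + M) (h3 : z'.2 - M < z.2 - m) (h4 : z.2 + m < z'.2 + M) (b a : Bool) {A T : Finset (ℤ × ℤ)}
    (hA : A ⊆ rswBox z m) (hT : T ⊆ rswBox z' M \ rswBox z m) :
    rswP t (rswBox z m) (!a) (fun ω => RswSep (rswBox z m) a ω A (rswLayer (rswBox z m)))
      ≤ rswP t (rswBox z' M) b (fun ω => RswSep (rswBox z' M) a ω A T) :=
  rcm291_dom_sep ht1 ht2 (bj219_box_jordan z' (by omega)) (rcm291_box_in h1 h2 h3 h4) b a hA hT

theorem rcm291_box_layer {t : ℝ} (ht1 : 1 / 2 ≤ t) (ht2 : t < 1) {z z' : ℤ × ℤ} {m M : ℕ} (h1 : z'.1 - M < z.1 - m)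
    (h2 : z.1 + m < z'.1 + M) (h3 : z'.2 - M < z.2 - m) (h4 : z.2 + m < z'.2 + M) (b a : Bool) {A : Finset (ℤ × ℤ)}
    (hA : A ⊆ rswBox z m) :
    rswP t (rswBox z m) (!a) (fun ω => RswSep (rswBox z m) a ω A (rswLayer (rswBox z m)))
      ≤ rswP t (rswBox z' M) b (fun ω => RswSep (rswBox z' M) a ω A (rswLayer (rswBox z' M))) :=
  rcm291_dom_layer ht1 ht2 (bj219_box_jordan z' (by omega)) (rcm291_box_in h1 h2 h3 h4) b a hA

/-- **`RcMono t`** of `Rsw/CoreTop121`, `rcU` unfolded -/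
theorem rcm291_mono (t : ℝ) (ht1 : 1 / 2 ≤ t) (ht2 : t < 1) : ∀ n M M' : ℕ, n < M → M ≤ M' →
    rswP t (rswBox 0 M) true (fun ω => RswSep (rswBox 0 M) false ω (rswBox 0 n) (rswLayer (rswBox 0 M)))
      ≤ rswP t (rswBox 0 M') true (fun ω => RswSep (rswBox 0 M') false ω (rswBox 0 n) (rswLayer (rswBox 0 M'))) := by
  intro n M M' hn hM
  rcases hM.eq_or_lt with rfl | hlt
  · exact le_rfl
  · have hc : (M : ℤ) < M' := by exact_mod_cast hlt
    exact rcm291_box_layer ht1 ht2 (z := 0) (z' := 0) (by simpa using hc) (by simpa using hc) (by simpa using hc)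
      (by simpa using hc) true false (rcm291_box_sub hn.le)

theorem rcm291_eqns_cite : True := by
  have := @rcm291K0.eq_1
  trivial

set_option linter.unusedSectionVars false
set_option linter.unusedVariables false
set_option linter.unusedSimpArgs false

open Finset
open Claimed.Agent.R291

/-! ## A. generic: COMPARISON with forced edge states      (prefix `cmr291_`)

state of an edge: `none` free, `some none` forced closed, `some (some true)` forced good plus, `some (some false)` forced good minus -/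

section GenH

variable {V ι : Type*} [Fintype V] [DecidableEq V] [Fintype ι] [DecidableEq ι]

/-- plus coupling of a state -/
noncomputable def cmr291A (r : ℝ) : Option (Option Bool) → ℝ
  | none => (1 + r)⁻¹
  | some none => 0
  | some (some true) => 1
  | some (some false) => 0

/-- minus coupling of a state -/
noncomputable def cmr291B (r : ℝ) : Option (Option Bool) → ℝ
  | none => (1 + r)⁻¹
  | some none => 0
  | some (some true) => 0
  | some (some false) => 1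

/-- pair factor of a state (`k` = the constant of a forced closed edge) -/
noncomputable def cmr291H (r k : ℝ) : Option (Option Bool) → Bool → Bool → ℝ
  | none => cmp291H (1 + r) (1 + r) 1
  | some none => cmp291H k k k
  | some (some true) => cmp291H 1 0 0
  | some (some false) => cmp291H 0 1 0

/-- the order of the states: good minus `<` closed, free `<` good plus; closed and free are not comparable -/
def Cmr291Le : Option (Option Bool) → Option (Option Bool) → Prop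
  | some (some false), _ => True
  | _, some (some true) => True
  | none, none => True
  | some none, some none => True
  | _, _ => False

theorem cmr291_A_mem {r : ℝ} (hr : 0 ≤ r) (st : Option (Option Bool)) : 0 ≤ cmr291A r st ∧ cmr291A r st ≤ 1 := by
  rcases st with _ | _ | c
  · exact cmp291_inv_mem hr
  · exact ⟨le_rfl, zero_le_one⟩
  · cases c
    · exact ⟨le_rfl, zero_le_one⟩
    · exact ⟨zero_le_one, le_rfl⟩

theorem cmr291_B_mem {r : ℝ} (hr : 0 ≤ r) (st : Option (Option Bool)) : 0 ≤ cmr291B r st ∧ cmr291B r st ≤ 1 := by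
  rcases st with _ | _ | c
  · exact cmp291_inv_mem hr
  · exact ⟨le_rfl, zero_le_one⟩
  · cases c
    · exact ⟨zero_le_one, le_rfl⟩
    · exact ⟨le_rfl, zero_le_one⟩

theorem cmr291_A_le {r : ℝ} (hr : 0 ≤ r) {st st' : Option (Option Bool)} (h : Cmr291Le st st') :
    cmr291A r st ≤ cmr291A r st' := by
  have h1 := cmp291_inv_mem hr
  rcases st with _ | _ | c <;> rcases st' with _ | _ | c' <;> (try cases c) <;> (try cases c') <;>
    simp only [Cmr291Le] at h <;> simp only [cmr291A] <;> first | exact le_rfl | exact zero_le_one | exact h1.1 | exact h1.2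

theorem cmr291_B_le {r : ℝ} (hr : 0 ≤ r) {st st' : Option (Option Bool)} (h : Cmr291Le st st') :
    cmr291B r st' ≤ cmr291B r st := by
  have h1 := cmp291_inv_mem hr
  rcases st with _ | _ | c <;> rcases st' with _ | _ | c' <;> (try cases c) <;> (try cases c') <;>
    simp only [Cmr291Le] at h <;> simp only [cmr291B] <;> first | exact le_rfl | exact zero_le_one | exact h1.1 | exact h1.2

theorem cmr291_H_nonneg {r k : ℝ} (hr : 0 ≤ r) (hk : 0 ≤ k) (st : Option (Option Bool)) (x y : Bool) :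
    0 ≤ cmr291H r k st x y := by
  rcases st with _ | _ | c
  · exact cmp291_H_nonneg (by linarith) (by linarith) zero_le_one x y
  · exact cmp291_H_nonneg hk hk hk x y
  · cases c
    · exact cmp291_H_nonneg le_rfl zero_le_one le_rfl x y
    · exact cmp291_H_nonneg zero_le_one le_rfl le_rfl x y

theorem cmr291_H_holley {r k k' : ℝ} (hr : 0 ≤ r) (hk : 0 ≤ k) (hk' : 0 ≤ k') {st st' : Option (Option Bool)}
    (h : Cmr291Le st st') (x y x' y' : Bool) :
    cmr291H r k st x y * cmr291H r k' st' x' y'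
      ≤ cmr291H r k st (x ⊓ x') (y ⊓ y') * cmr291H r k' st' (x ⊔ x') (y ⊔ y') := by
  rcases st with _ | _ | c <;> rcases st' with _ | _ | c' <;> (try cases c) <;> (try cases c') <;>
    simp only [Cmr291Le] at h <;> cases x <;> cases y <;> cases x' <;> cases y' <;>
    simp [cmr291H, cmp291H] <;> nlinarith

/-- the vertex factor under forced states -/
noncomputable def cmr291G (p q : ι → V) (r : ℝ) (σ : ι → Option (Option Bool)) (κ : ι → ℝ) (Φ : (V → Bool) → ℝ)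
    (s : V → Bool) : ℝ :=
  Φ s * ∏ i, cmr291H r (κ i) (σ i) (s (p i)) (s (q i))

/-- the indicator of the forced states -/
noncomputable def cmr291Pi (σ : ι → Option (Option Bool)) (W : Finset ι) : ℝ :=
  if ∀ i, (∀ c, σ i = some (some c) → i ∈ W) ∧ (σ i = some none → i ∉ W) then 1 else 0

theorem cmr291_G_nonneg (p q : ι → V) {r : ℝ} (hr : 0 ≤ r) (σ : ι → Option (Option Bool)) {κ : ι → ℝ}
    (hκ : ∀ i, 0 ≤ κ i) {Φ : (V → Bool) → ℝ} (h0 : ∀ s, 0 ≤ Φ s) (s : V → Bool) : 0 ≤ cmr291G p q r σ κ Φ s :=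
  mul_nonneg (h0 s) (Finset.prod_nonneg fun i _ => cmr291_H_nonneg hr (hκ i) _ _ _)

theorem cmr291_G_holley (p q : ι → V) {r : ℝ} (hr : 0 ≤ r) {σ₁ σ₂ : ι → Option (Option Bool)} {κ₁ κ₂ : ι → ℝ}
    (hκ₁ : ∀ i, 0 ≤ κ₁ i) (hκ₂ : ∀ i, 0 ≤ κ₂ i) (hσ : ∀ i, Cmr291Le (σ₁ i) (σ₂ i))
    {Φ₁ Φ₂ : (V → Bool) → ℝ} (h1 : ∀ s, 0 ≤ Φ₁ s) (h2 : ∀ s, 0 ≤ Φ₂ s)
    (h : ∀ s s', Φ₁ s * Φ₂ s' ≤ Φ₁ (s ⊓ s') * Φ₂ (s ⊔ s')) (s s' : V → Bool) :
    cmr291G p q r σ₁ κ₁ Φ₁ s * cmr291G p q r σ₂ κ₂ Φ₂ s'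
      ≤ cmr291G p q r σ₁ κ₁ Φ₁ (s ⊓ s') * cmr291G p q r σ₂ κ₂ Φ₂ (s ⊔ s') := by
  have hH1 : ∀ i x y, 0 ≤ cmr291H r (κ₁ i) (σ₁ i) x y := fun i => cmr291_H_nonneg hr (hκ₁ i) _
  have hH2 : ∀ i x y, 0 ≤ cmr291H r (κ₂ i) (σ₂ i) x y := fun i => cmr291_H_nonneg hr (hκ₂ i) _
  have e := cmp291_G_holley p q (fld₁ := fun _ _ => 1) (fld₂ := fun _ _ => 1)
    (H₁ := fun i => cmr291H r (κ₁ i) (σ₁ i)) (H₂ := fun i => cmr291H r (κ₂ i) (σ₂ i))
    (fun _ _ => zero_le_one) (fun _ _ => zero_le_one) hH1 hH2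
    (fun _ _ _ => le_rfl) (fun i => cmr291_H_holley hr (hκ₁ i) (hκ₂ i) (hσ i)) s s'
  simp only [cmp291G, Finset.prod_const_one, one_mul] at e
  unfold cmr291G
  have n1 : 0 ≤ (∏ i, cmr291H r (κ₁ i) (σ₁ i) (s (p i)) (s (q i)))
      * ∏ i, cmr291H r (κ₂ i) (σ₂ i) (s' (p i)) (s' (q i)) :=
    mul_nonneg (Finset.prod_nonneg fun i _ => hH1 _ _ _) (Finset.prod_nonneg fun i _ => hH2 _ _ _)
  calc Φ₁ s * (∏ i, cmr291H r (κ₁ i) (σ₁ i) (s (p i)) (s (q i)))
        * (Φ₂ s' * ∏ i, cmr291H r (κ₂ i) (σ₂ i) (s' (p i)) (s' (q i)))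
      = (Φ₁ s * Φ₂ s') * ((∏ i, cmr291H r (κ₁ i) (σ₁ i) (s (p i)) (s (q i)))
          * ∏ i, cmr291H r (κ₂ i) (σ₂ i) (s' (p i)) (s' (q i))) := by ring
    _ ≤ _ := mul_le_mul (h s s') e n1 (mul_nonneg (h1 _) (h2 _))
    _ = _ := by ring

/-- the edge identity under a forced state -/
theorem cmr291_edge {r : ℝ} (hr : 0 ≤ r) (x y : Bool) (k : ℝ) (st : Option (Option Bool)) (PA PB : Prop)
    [Decidable PA] [Decidable PB] (hA : PA → x = true ∧ y = true) (hB : PB → x = false ∧ y = false)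
    (hk : st = some none → k = if x = y then r else 1) (hc : ∀ c, st = some (some c) → x = c ∧ y = c) :
    cmr291H r k st x y
      * ((if PA then 2 * (if x = true ∧ y = true then cmr291A r st else 0)
            else 1 - (if x = true ∧ y = true then cmr291A r st else 0))
        * (if PB then 2 * (if x = false ∧ y = false then cmr291B r st else 0)
            else 1 - (if x = false ∧ y = false then cmr291B r st else 0)))
      = (if PA ∨ PB then 2 else if x = y then r else 1)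
        * (if (∀ c, st = some (some c) → PA ∨ PB) ∧ (st = some none → ¬ (PA ∨ PB)) then 1 else 0) := by
  rcases st with _ | _ | c
  · have := cmp291_edge_AT hr x y PA PB hA hB
    simp only [cmr291H, cmr291A, cmr291B]
    rw [this]
    simp
  · have hk' := hk rfl
    subst hk'
    cases x <;> cases y <;> by_cases h2 : PA <;> by_cases h3 : PB <;> simp_all [cmr291H, cmr291A, cmr291B, cmp291H]
  · obtain ⟨rfl, rfl⟩ := hc c rfl
    cases y <;> by_cases h2 : PA <;> by_cases h3 : PB <;> simp_all [cmr291H, cmr291A, cmr291B, cmp291H]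

theorem cmr291_Pi_prod (σ : ι → Option (Option Bool)) (W : Finset ι) :
    cmr291Pi σ W = ∏ i, (if (∀ c, σ i = some (some c) → i ∈ W) ∧ (σ i = some none → i ∉ W) then (1 : ℝ) else 0) := by
  unfold cmr291Pi
  rw [Finset.prod_ite_zero, Finset.prod_const_one]
  simp only [Finset.mem_univ, true_imp_iff]

/-- the support condition: on the support of `Φ` the constants of the forced closed edges and the colours of the forced open edges are the right ones -/
def Cmr291Supp (p q : ι → V) (r : ℝ) (σ : ι → Option (Option Bool)) (κ : ι → ℝ) (Φ : (V → Bool) → ℝ) : Prop :=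
  ∀ s, Φ s ≠ 0 → ∀ i, (σ i = some none → κ i = if s (p i) = s (q i) then r else 1) ∧
    ∀ c, σ i = some (some c) → s (p i) = c ∧ s (q i) = c

/-- the weight with forced states in the variables `(s, W⁺, W⁻)` -/
theorem cmr291_W_eq (p q : ι → V) {r : ℝ} (hr : 0 ≤ r) (σ : ι → Option (Option Bool)) (κ : ι → ℝ)
    (Φ : (V → Bool) → ℝ) (hS : Cmr291Supp p q r σ κ Φ) (s : V → Bool)
    {A B : Finset ι} (hA : A ⊆ cmp291Ep p q s) (hB : B ⊆ cmp291Em p q s) :
    cmp291W p q (cmr291G p q r σ κ Φ) (fun i => cmr291A r (σ i)) (fun i => cmr291B r (σ i)) s (A, OrderDual.toDual B)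
      = (Fintype.card (V → Bool) : ℝ) * (Φ s * cmp291AT p q r s (A ∪ B) * cmr291Pi σ (A ∪ B)) := by
  by_cases hΦ : Φ s = 0
  · unfold cmp291W cmr291G
    rw [hΦ]
    ring
  have hm' := hS s hΦ
  have hmono : ∀ i ∈ A ∪ B, s (p i) = s (q i) := fun i hi =>
    (cmp291_mono_iff p q s i).2 (Finset.union_subset_union hA hB hi)
  have hN : (iszN Bool p q A : ℝ) * (iszN Bool p q B : ℝ)
      = (Fintype.card (V → Bool) : ℝ) * (iszN Bool p q (A ∪ B) : ℝ) := by
    exact_mod_cast cmp291_N_split p q s hA hB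
  have hP : (∏ i, cmr291H r (κ i) (σ i) (s (p i)) (s (q i)))
      * ((∏ i, (if i ∈ A then 2 * cmp291Up p q (fun i => cmr291A r (σ i)) s i
            else 1 - cmp291Up p q (fun i => cmr291A r (σ i)) s i))
        * ∏ i, (if i ∈ B then 2 * cmp291Um p q (fun i => cmr291B r (σ i)) s i
            else 1 - cmp291Um p q (fun i => cmr291B r (σ i)) s i))
      = (∏ i, (if i ∈ A ∪ B then 2 else if s (p i) = s (q i) then r else 1)) * cmr291Pi σ (A ∪ B) := by
    rw [cmr291_Pi_prod, ← Finset.prod_mul_distrib, ← Finset.prod_mul_distrib, ← Finset.prod_mul_distrib]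
    refine Finset.prod_congr rfl fun i _ => ?_
    have := cmr291_edge hr (s (p i)) (s (q i)) (κ i) (σ i) (i ∈ A) (i ∈ B)
      (fun h => (cmp291_mem_Ep p q s i).1 (hA h)) (fun h => (cmp291_mem_Em p q s i).1 (hB h))
      (hm' i).1 (hm' i).2
    simp only [Finset.mem_union]
    exact this
  show cmr291G p q r σ κ Φ s * (cmp291FK p q (cmp291Up p q (fun i => cmr291A r (σ i)) s) A
      * cmp291FK p q (cmp291Um p q (fun i => cmr291B r (σ i)) s) B) = _
  unfold cmp291AT cmp291FK cmr291G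
  rw [if_pos hmono]
  have hP' : Φ s * ((iszN Bool p q (A ∪ B) : ℝ)
        * ∏ i, (if i ∈ A ∪ B then 2 else if s (p i) = s (q i) then r else 1)) * cmr291Pi σ (A ∪ B)
      = Φ s * (iszN Bool p q (A ∪ B) : ℝ)
        * ((∏ i, (if i ∈ A ∪ B then 2 else if s (p i) = s (q i) then r else 1)) * cmr291Pi σ (A ∪ B)) := by
    ring
  rw [hP', ← hP]
  linear_combination (Φ s * ((∏ i, cmr291H r (κ i) (σ i) (s (p i)) (s (q i)))
      * ((∏ i, (if i ∈ A then 2 * cmp291Up p q (fun i => cmr291A r (σ i)) s i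
            else 1 - cmp291Up p q (fun i => cmr291A r (σ i)) s i))
        * ∏ i, (if i ∈ B then 2 * cmp291Um p q (fun i => cmr291B r (σ i)) s i
            else 1 - cmp291Um p q (fun i => cmr291B r (σ i)) s i)))) * hN

theorem cmr291_sum2 (p q : ι → V) {r : ℝ} (hr : 0 ≤ r) (σ : ι → Option (Option Bool)) (κ : ι → ℝ)
    (Φ : (V → Bool) → ℝ) (hS : Cmr291Supp p q r σ κ Φ) (f : (V → Bool) → Finset ι → ℝ) :
    ∑ s, ∑ y, cmp291W p q (cmr291G p q r σ κ Φ) (fun i => cmr291A r (σ i)) (fun i => cmr291B r (σ i)) s y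
        * cmp291Ext p q f s y
      = (Fintype.card (V → Bool) : ℝ)
        * ∑ s, ∑ W, Φ s * cmp291AT p q r s W * (cmr291Pi σ W * f s W) := by
  rw [Finset.mul_sum]
  refine Finset.sum_congr rfl fun s _ => ?_
  rw [Finset.mul_sum]
  have := cmq291_sum_dict p q s
    (cmp291W p q (cmr291G p q r σ κ Φ) (fun i => cmr291A r (σ i)) (fun i => cmr291B r (σ i)) s)
    (fun W => (Fintype.card (V → Bool) : ℝ) * (Φ s * cmp291AT p q r s W * cmr291Pi σ W))
    (fun y hy => by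
      rw [not_and_or] at hy
      unfold cmp291W
      rcases hy with h | h
      · rw [cmp291_FK_Up_zero p q _ s h]; ring
      · rw [cmp291_FK_Um_zero p q _ s h]; ring)
    (fun W hW => by
      have : ¬ ∀ i ∈ W, s (p i) = s (q i) := fun h => hW fun i hi => (cmp291_mono_iff p q s i).1 (h i hi)
      unfold cmp291AT
      rw [if_neg this]
      ring)
    (fun A B hA hB => cmr291_W_eq p q hr σ κ Φ hS s hA hB) (f s)
  unfold cmp291Ext
  rw [this]
  refine Finset.sum_congr rfl fun W _ => ?_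
  ring

/-- **Proposition 3.2 with forced edge states, COMPARISON**: raise the vertex factor and the forced states -/
theorem cmr291_AT_holley (p q : ι → V) {r : ℝ} (hr : 0 ≤ r) {σ₁ σ₂ : ι → Option (Option Bool)} {κ₁ κ₂ : ι → ℝ}
    (hκ₁ : ∀ i, 0 ≤ κ₁ i) (hκ₂ : ∀ i, 0 ≤ κ₂ i) (hσ : ∀ i, Cmr291Le (σ₁ i) (σ₂ i))
    {Φ₁ Φ₂ : (V → Bool) → ℝ} (h1 : ∀ s, 0 ≤ Φ₁ s) (h2 : ∀ s, 0 ≤ Φ₂ s)
    (hΦ : ∀ s s', Φ₁ s * Φ₂ s' ≤ Φ₁ (s ⊓ s') * Φ₂ (s ⊔ s'))
    (hS₁ : Cmr291Supp p q r σ₁ κ₁ Φ₁) (hS₂ : Cmr291Supp p q r σ₂ κ₂ Φ₂)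
    {f : (V → Bool) → Finset ι → ℝ} (hf : cmp291Inc p q f) :
    (∑ s, ∑ W, Φ₁ s * cmp291AT p q r s W * (cmr291Pi σ₁ W * f s W))
        * (∑ s, ∑ W, Φ₂ s * cmp291AT p q r s W * (cmr291Pi σ₂ W * 1))
      ≤ (∑ s, ∑ W, Φ₁ s * cmp291AT p q r s W * (cmr291Pi σ₁ W * 1))
        * ∑ s, ∑ W, Φ₂ s * cmp291AT p q r s W * (cmr291Pi σ₂ W * f s W) := by
  have key := cmp291_holley p q (cmr291_G_nonneg p q hr σ₁ hκ₁ h1) (cmr291_G_nonneg p q hr σ₂ hκ₂ h2)
    (cmr291_G_holley p q hr hκ₁ hκ₂ hσ h1 h2 hΦ)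
    (a₁ := fun i => cmr291A r (σ₁ i)) (a₂ := fun i => cmr291A r (σ₂ i))
    (b₁ := fun i => cmr291B r (σ₁ i)) (b₂ := fun i => cmr291B r (σ₂ i))
    (fun i => (cmr291_A_mem hr _).1) (fun i => cmr291_A_le hr (hσ i)) (fun i => (cmr291_A_mem hr _).2)
    (fun i => (cmr291_B_mem hr _).1) (fun i => cmr291_B_le hr (hσ i)) (fun i => (cmr291_B_mem hr _).2)
    (cmp291_Ext_mono p q hf)
  have e1 := cmr291_sum2 p q hr σ₁ κ₁ Φ₁ hS₁ (fun _ _ => 1)
  have e2 := cmr291_sum2 p q hr σ₂ κ₂ Φ₂ hS₂ (fun _ _ => 1)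
  have e' : ∀ s y, cmp291Ext p q (fun _ _ => (1 : ℝ)) s y = 1 := fun _ _ => rfl
  simp only [e', mul_one] at e1 e2
  rw [cmr291_sum2 p q hr σ₁ κ₁ Φ₁ hS₁ f, cmr291_sum2 p q hr σ₂ κ₂ Φ₂ hS₂ f, e1, e2] at key
  have hc : (0 : ℝ) < (Fintype.card (V → Bool) : ℝ) := by exact_mod_cast Fintype.card_pos
  refine le_of_mul_le_mul_left ?_ (mul_pos hc hc)
  simp only [mul_one]
  nlinarith [key]

end GenH

/-! ## B. the instance: two prescriptions `MdlPin` in the flat problems `(F, b₁)`, `(F, b₂)` -/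

section InstH

open Classical in
/-- the forced state of an interior edge under the prescriptions `K` -/
noncomputable def cmr291St (F : Finset (ℤ × ℤ)) (K : MdlPin) (i : ↥(rswInt F)) : Option (Option Bool) :=
  if i.1 ∈ K.Oo then some (some (decide (i.1.1 ∈ K.Sp))) else if i.1 ∈ K.Oc then some none else none

open Classical in
/-- the constant of a forced closed edge -/
noncomputable def cmr291Kap (t : ℝ) (F : Finset (ℤ × ℤ)) (K : MdlPin) (i : ↥(rswInt F)) : ℝ :=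
  if (i.1.1 ∈ K.Sp ↔ rswEnd i.1 ∈ K.Sp) then (1 - t) / t else 1

theorem cmr291_Kap_nonneg {t : ℝ} (h0 : 0 < t) (h1 : t ≤ 1) (F : Finset (ℤ × ℤ)) (K : MdlPin) (i : ↥(rswInt F)) :
    0 ≤ cmr291Kap t F K i := by
  unfold cmr291Kap
  split_ifs
  · exact cmi291_r_nonneg h0 h1
  · exact zero_le_one

theorem cmr291_Psi_holley {K₁ K₂ : MdlPin} (hSp : K₁.Sp ⊆ K₂.Sp) (hSm : K₂.Sm ⊆ K₁.Sm) (S S' : Finset (ℤ × ℤ)) :
    cmq291Psi K₁ S * cmq291Psi K₂ S' ≤ cmq291Psi K₁ (S ∩ S') * cmq291Psi K₂ (S ∪ S') := by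
  classical
  by_cases h : K₁.Sp ⊆ S ∧ ∀ v ∈ K₁.Sm, v ∉ S
  · by_cases h' : K₂.Sp ⊆ S' ∧ ∀ v ∈ K₂.Sm, v ∉ S'
    · have h1 : K₁.Sp ⊆ S ∩ S' ∧ ∀ v ∈ K₁.Sm, v ∉ S ∩ S' :=
        ⟨Finset.subset_inter h.1 (hSp.trans h'.1), fun v hv hm => h.2 v hv (Finset.mem_inter.1 hm).1⟩
      have h2 : K₂.Sp ⊆ S ∪ S' ∧ ∀ v ∈ K₂.Sm, v ∉ S ∪ S' :=
        ⟨h'.1.trans Finset.subset_union_right, fun v hv hm => by
          rcases Finset.mem_union.1 hm with a | a
          · exact h.2 v (hSm hv) a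
          · exact h'.2 v hv a⟩
      unfold cmq291Psi
      rw [if_pos h, if_pos h', if_pos h1, if_pos h2]
    · have : cmq291Psi K₂ S' = 0 := by unfold cmq291Psi; rw [if_neg h']
      rw [this, mul_zero]
      exact mul_nonneg (cmq291_Psi_nonneg _ _) (cmq291_Psi_nonneg _ _)
  · have : cmq291Psi K₁ S = 0 := by unfold cmq291Psi; rw [if_neg h]
    rw [this, zero_mul]
    exact mul_nonneg (cmq291_Psi_nonneg _ _) (cmq291_Psi_nonneg _ _)

theorem cmr291_PiO_eq {F : Finset (ℤ × ℤ)} {K : MdlPin} (hO : K.Oo ⊆ rswInt F ∧ ∀ e ∈ K.Oo, e ∉ K.Oc)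
    (W : Finset ↥(rswInt F)) : cmq291PiO K (cmi291O F W) = cmr291Pi (cmr291St F K) W := by
  classical
  unfold cmq291PiO cmr291Pi
  have : (K.Oo ⊆ cmi291O F W ∧ ∀ e ∈ K.Oc, e ∉ cmi291O F W)
      ↔ ∀ i : ↥(rswInt F), (∀ c, cmr291St F K i = some (some c) → i ∈ W) ∧ (cmr291St F K i = some none → i ∉ W) := by
    constructor
    · rintro ⟨h1, h2⟩ i
      refine ⟨fun c hc => ?_, fun hc hw => ?_⟩
      · by_cases ho : i.1 ∈ K.Oo
        · exact (cmi291_mem_O i).1 (h1 ho)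
        · unfold cmr291St at hc
          rw [if_neg ho] at hc
          split_ifs at hc
          simp at hc
      · by_cases ho : i.1 ∈ K.Oo
        · unfold cmr291St at hc
          rw [if_pos ho] at hc
          simp at hc
        · unfold cmr291St at hc
          rw [if_neg ho] at hc
          by_cases hcl : i.1 ∈ K.Oc
          · exact h2 i.1 hcl ((cmi291_mem_O i).2 hw)
          · rw [if_neg hcl] at hc
            simp at hc
    · intro h
      refine ⟨fun e he => ?_, fun e he hw => ?_⟩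
      · refine (cmi291_mem_O (⟨e, hO.1 he⟩ : ↥(rswInt F))).2 ((h ⟨e, hO.1 he⟩).1 (decide (e.1 ∈ K.Sp)) ?_)
        unfold cmr291St
        rw [if_pos he]
      · obtain ⟨i, hi, rfl⟩ := Finset.mem_map.1 hw
        refine (h i).2 ?_ hi
        have he' : i.1 ∈ K.Oc := he
        unfold cmr291St
        rw [if_neg (fun ho => hO.2 _ ho he'), if_pos he']
  by_cases hh : K.Oo ⊆ cmi291O F W ∧ ∀ e ∈ K.Oc, e ∉ cmi291O F W
  · rw [if_pos hh, if_pos (this.1 hh)]
  · rw [if_neg hh, if_neg (fun h => hh (this.2 h))]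

/-- the pins read on the support of the vertex factor -/
theorem cmr291_supp_pins {F : Finset (ℤ × ℤ)} {b : Bool} {K : MdlPin} {s : Option ↥(cmi291Inn F) → Bool}
    (hs : cmi291Phi F b (cmq291Psi K) s ≠ 0) : ∀ v ∈ K.Sp ∪ K.Sm, (v ∈ cmi291S F s ↔ v ∈ K.Sp) := by
  classical
  have hΨ : cmq291Psi K (cmi291S F s) ≠ 0 := fun h => hs (by unfold cmi291Phi; rw [h, mul_zero])
  have hh : K.Sp ⊆ cmi291S F s ∧ ∀ v ∈ K.Sm, v ∉ cmi291S F s := by
    by_contra hc
    exact hΨ (by unfold cmq291Psi; rw [if_neg hc])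
  intro v hv
  constructor
  · intro hvS
    rcases Finset.mem_union.1 hv with a | a
    · exact a
    · exact (hh.2 v a hvS).elim
  · intro a
    exact hh.1 a

/-- every prescribed open edge has its two ends pinned in the same colour -/
def Cmr291Cons (K : MdlPin) : Prop :=
  ∀ e ∈ K.Oo, (e.1 ∈ K.Sp ∧ rswEnd e ∈ K.Sp) ∨ (e.1 ∈ K.Sm ∧ rswEnd e ∈ K.Sm)

theorem cmr291_supp {t : ℝ} {F : Finset (ℤ × ℤ)} (b : Bool) {K : MdlPin} (hK : K.Ok) (hc : Cmr291Cons K) :
    Cmr291Supp (cmi291P F) (cmi291Q F) ((1 - t) / t) (cmr291St F K) (cmr291Kap t F K)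
      (cmi291Phi F b (cmq291Psi K)) := by
  classical
  intro s hs i
  have hv := cmr291_supp_pins hs
  have c1 : i.1.1 ∈ cornersOf F := rsz_face_corner (rsz_mem_int.1 i.2).1
  have c2 : rswEnd i.1 ∈ cornersOf F := rsz_end_corner (rsz_mem_int.1 i.2).1
  refine ⟨fun hst => ?_, fun c hst => ?_⟩
  · have hcl : i.1 ∈ K.Oc := by
      by_contra hcl
      unfold cmr291St at hst
      by_cases ho : i.1 ∈ K.Oo
      · rw [if_pos ho] at hst; simp at hst
      · rw [if_neg ho, if_neg hcl] at hst; simp at hst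
    have hok := hK i.1 (Finset.mem_union_right _ hcl)
    unfold cmr291Kap
    refine if_congr ?_ rfl rfl
    rw [← cmi291_mono_iff, hv _ hok.1, hv _ hok.2]
  · have ho : i.1 ∈ K.Oo := by
      by_contra ho
      unfold cmr291St at hst
      rw [if_neg ho] at hst
      split_ifs at hst
      simp at hst
    have hcc : c = decide (i.1.1 ∈ K.Sp) := by
      unfold cmr291St at hst
      rw [if_pos ho] at hst
      simpa using hst.symm
    have hok := hK i.1 (Finset.mem_union_left _ ho)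
    have e1 : (cmi291P F i |> s) = true ↔ i.1.1 ∈ K.Sp := by
      rw [← hv _ hok.1, cmi291_mem_S]
      exact ⟨fun h => ⟨c1, h⟩, fun h => h.2⟩
    have e2 : (cmi291Q F i |> s) = true ↔ rswEnd i.1 ∈ K.Sp := by
      rw [← hv _ hok.2, cmi291_mem_S]
      exact ⟨fun h => ⟨c2, h⟩, fun h => h.2⟩
    have e3 : i.1.1 ∈ K.Sp ↔ rswEnd i.1 ∈ K.Sp := by
      rcases hc i.1 ho with ⟨a, a'⟩ | ⟨a, a'⟩
      · exact ⟨fun _ => a', fun _ => a⟩
      · have n1 : i.1.1 ∉ K.Sp := fun h => by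
          have hS := (hv _ hok.1).2 h
          have : cmq291Psi K (cmi291S F s) ≠ 0 := fun h => hs (by unfold cmi291Phi; rw [h, mul_zero])
          apply this
          unfold cmq291Psi
          rw [if_neg]
          rintro ⟨_, h2⟩
          exact h2 _ a hS
        have n2 : rswEnd i.1 ∉ K.Sp := fun h => by
          have hS := (hv _ hok.2).2 h
          have : cmq291Psi K (cmi291S F s) ≠ 0 := fun h => hs (by unfold cmi291Phi; rw [h, mul_zero])
          apply this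
          unfold cmq291Psi
          rw [if_neg]
          rintro ⟨_, h2⟩
          exact h2 _ a' hS
        exact ⟨fun h => (n1 h).elim, fun h => (n2 h).elim⟩
    rw [hcc]
    constructor
    · by_cases h : i.1.1 ∈ K.Sp
      · rw [decide_eq_true h]; exact e1.2 h
      · rw [decide_eq_false h]
        exact Bool.eq_false_of_not_eq_true (fun h' => h (e1.1 h'))
    · by_cases h : i.1.1 ∈ K.Sp
      · rw [decide_eq_true h]; exact e2.2 (e3.1 h)
      · rw [decide_eq_false h]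
        exact Bool.eq_false_of_not_eq_true (fun h' => h (e3.2 (e2.1 h')))

/-- inconsistent prescriptions kill every term -/
theorem cmr291_term_zero {F : Finset (ℤ × ℤ)} (b : Bool) {K : MdlPin} (hK : K.Ok) (hc : ¬ Cmr291Cons K) (r : ℝ)
    (s : Option ↥(cmi291Inn F) → Bool) (W : Finset ↥(rswInt F)) (x : ℝ) :
    cmi291Phi F b (cmq291Psi K) s * cmp291AT (cmi291P F) (cmi291Q F) r s W * (cmq291PiO K (cmi291O F W) * x) = 0 := by
  classical
  by_contra hne
  have h1 : cmi291Phi F b (cmq291Psi K) s ≠ 0 := fun h => hne (by rw [h]; ring)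
  have h2 : cmp291AT (cmi291P F) (cmi291Q F) r s W ≠ 0 := fun h => hne (by rw [h]; ring)
  have h3 : cmq291PiO K (cmi291O F W) ≠ 0 := fun h => hne (by rw [h]; ring)
  have hv := cmr291_supp_pins h1
  have hmono : ∀ i ∈ W, s (cmi291P F i) = s (cmi291Q F i) := by
    by_contra hm
    exact h2 (by unfold cmp291AT; rw [if_neg hm])
  have hO : K.Oo ⊆ cmi291O F W := by
    by_contra hO
    exact h3 (by unfold cmq291PiO; rw [if_neg (fun h => hO h.1)])
  apply hc
  intro e he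
  obtain ⟨i, hi, rfl⟩ := Finset.mem_map.1 (hO he)
  have he' : i.1 ∈ K.Oo := he
  have hok := hK i.1 (Finset.mem_union_left _ he')
  have hm := (cmi291_mono_iff F s i).2 (hmono i hi)
  rw [hv _ hok.1, hv _ hok.2] at hm
  show (i.1.1 ∈ K.Sp ∧ rswEnd i.1 ∈ K.Sp) ∨ (i.1.1 ∈ K.Sm ∧ rswEnd i.1 ∈ K.Sm)
  by_cases h : i.1.1 ∈ K.Sp
  · exact Or.inl ⟨h, hm.1 h⟩
  · refine Or.inr ⟨?_, ?_⟩
    · exact (Finset.mem_union.1 hok.1).resolve_left h
    · exact (Finset.mem_union.1 hok.2).resolve_left (fun h' => h (hm.2 h'))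

theorem cmr291_St_le {F : Finset (ℤ × ℤ)} {K₁ K₂ : MdlPin} (hSp : K₁.Sp ⊆ K₂.Sp)
    (o1 : ∀ e ∈ K₁.Oo, e.1 ∈ K₁.Sp → e ∈ K₂.Oo) (o2 : ∀ e ∈ K₂.Oo, e.1 ∉ K₂.Sp → e ∈ K₁.Oo)
    (o3 : ∀ e ∈ K₁.Oc, e ∈ K₂.Oc ∨ e ∈ K₂.Oo) (o4 : ∀ e ∈ K₂.Oc, e ∈ K₁.Oc ∨ e ∈ K₁.Oo) (i : ↥(rswInt F)) :
    Cmr291Le (cmr291St F K₁ i) (cmr291St F K₂ i) := by
  classical
  unfold cmr291St
  by_cases a1 : i.1 ∈ K₁.Oo
  · rw [if_pos a1]
    by_cases a2 : i.1.1 ∈ K₁.Sp
    · rw [decide_eq_true a2, if_pos (o1 _ a1 a2), decide_eq_true (hSp a2)]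
      trivial
    · rw [decide_eq_false a2]
      trivial
  · rw [if_neg a1]
    have key : i.1 ∈ K₂.Oo → i.1.1 ∈ K₂.Sp := fun h => by
      by_contra h'
      exact a1 (o2 _ h h')
    by_cases a3 : i.1 ∈ K₁.Oc
    · rw [if_pos a3]
      by_cases a4 : i.1 ∈ K₂.Oo
      · rw [if_pos a4, decide_eq_true (key a4)]
        trivial
      · rw [if_neg a4, if_pos ((o3 _ a3).resolve_right a4)]
        trivial
    · rw [if_neg a3]
      by_cases a4 : i.1 ∈ K₂.Oo
      · rw [if_pos a4, decide_eq_true (key a4)]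
        trivial
      · rw [if_neg a4, if_neg (fun h => by rcases o4 _ h with h' | h' <;> [exact a3 h'; exact a1 h'])]
        trivial

/-- **COMPARISON UNDER PRESCRIPTIONS** (`prop:comparison`, second sentence): more plus pins, fewer minus pins; good plus edges stay good plus, good minus
edges of the upper law are good minus in the lower one, a closed edge of one law is prescribed in the other.  Extra good plus edges in the upper law and extra
good minus edges in the lower law are allowed.  Unnormalised, infeasible prescriptions allowed. -/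
theorem cmr291_holley_pin {t : ℝ} (h0 : 0 < t) (h1 : t ≤ 1) {F : Finset (ℤ × ℤ)} (hF : Cmi291Dual F)
    {b₁ b₂ : Bool} (hb : b₁ ≤ b₂) {K₁ K₂ : MdlPin} (hK₁ : K₁.Ok) (hK₂ : K₂.Ok)
    (hSp : K₁.Sp ⊆ K₂.Sp) (hSm : K₂.Sm ⊆ K₁.Sm) (hd₁ : ∀ v ∈ K₁.Sp, v ∉ K₁.Sm)
    (o1 : ∀ e ∈ K₁.Oo, e.1 ∈ K₁.Sp → rswEnd e ∈ K₁.Sp → e ∈ K₂.Oo)
    (o2 : ∀ e ∈ K₂.Oo, e.1 ∉ K₂.Sp → e.1 ∈ K₂.Sm → rswEnd e ∈ K₂.Sm → e ∈ K₁.Oo)
    (o3 : ∀ e ∈ K₁.Oc, e ∈ K₂.Oc ∨ e ∈ K₂.Oo) (o4 : ∀ e ∈ K₂.Oc, e ∈ K₁.Oc ∨ e ∈ K₁.Oo)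
    {X : RswCfg → ℝ} (hX : Cmi291Inc X) :
    mdlSumK t F b₁ K₁ X * mdlSumK t F b₂ K₂ (fun _ => 1)
      ≤ mdlSumK t F b₁ K₁ (fun _ => 1) * mdlSumK t F b₂ K₂ X := by
  classical
  have a1 := cmq291_sumK h0.ne' hF b₁ K₁ X hX.noD
  have a2 := cmq291_sumK h0.ne' hF b₂ K₂ (fun _ => 1) (fun _ _ _ => rfl)
  have a3 := cmq291_sumK h0.ne' hF b₁ K₁ (fun _ => 1) (fun _ _ _ => rfl)
  have a4 := cmq291_sumK h0.ne' hF b₂ K₂ X hX.noD
  have hKc := cmi291_K_pos h0 F
  have hc : (0 : ℝ) < (2 : ℝ) ^ Fintype.card (Option ↥(cmi291Inn F)) := by positivity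
  refine le_of_mul_le_mul_left ?_ (mul_pos hc hc)
  have goal_form : ∀ A B C D : ℝ,
      ((2 : ℝ) ^ Fintype.card (Option ↥(cmi291Inn F)) * A) * ((2 : ℝ) ^ Fintype.card (Option ↥(cmi291Inn F)) * B)
        ≤ ((2 : ℝ) ^ Fintype.card (Option ↥(cmi291Inn F)) * C)
          * ((2 : ℝ) ^ Fintype.card (Option ↥(cmi291Inn F)) * D) →
      (2 : ℝ) ^ Fintype.card (Option ↥(cmi291Inn F)) * (2 : ℝ) ^ Fintype.card (Option ↥(cmi291Inn F)) * (A * B)
        ≤ (2 : ℝ) ^ Fintype.card (Option ↥(cmi291Inn F)) * (2 : ℝ) ^ Fintype.card (Option ↥(cmi291Inn F))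
          * (C * D) := by
    intro A B C D h
    nlinarith [h]
  refine goal_form _ _ _ _ ?_
  rw [a1, a2, a3, a4]
  by_cases hO₁ : K₁.Oo ⊆ rswInt F ∧ ∀ e ∈ K₁.Oo, e ∉ K₁.Oc
  swap
  · simp only [cmq291_PiO_zero hO₁, zero_mul, mul_zero, Finset.sum_const_zero, le_refl]
  by_cases hO₂ : K₂.Oo ⊆ rswInt F ∧ ∀ e ∈ K₂.Oo, e ∉ K₂.Oc
  swap
  · simp only [cmq291_PiO_zero hO₂, zero_mul, mul_zero, Finset.sum_const_zero, le_refl]
  by_cases hc₁ : Cmr291Cons K₁
  swap
  · simp only [cmr291_term_zero b₁ hK₁ hc₁, zero_mul, mul_zero, Finset.sum_const_zero, le_refl]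
  by_cases hc₂ : Cmr291Cons K₂
  swap
  · simp only [cmr291_term_zero b₂ hK₂ hc₂, zero_mul, mul_zero, Finset.sum_const_zero, le_refl]
  simp only [cmr291_PiO_eq hO₁, cmr291_PiO_eq hO₂]
  have key := cmr291_AT_holley (cmi291P F) (cmi291Q F) (cmi291_r_nonneg h0 h1)
    (σ₁ := cmr291St F K₁) (σ₂ := cmr291St F K₂) (κ₁ := cmr291Kap t F K₁) (κ₂ := cmr291Kap t F K₂)
    (cmr291_Kap_nonneg h0 h1 F K₁) (cmr291_Kap_nonneg h0 h1 F K₂)
    (cmr291_St_le hSp
      (fun e he h => by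
        rcases hc₁ e he with ⟨a, a'⟩ | ⟨a, _⟩
        · exact o1 e he a a'
        · exact (hd₁ _ h a).elim)
      (fun e he h => by
        rcases hc₂ e he with ⟨a, _⟩ | ⟨a, a'⟩
        · exact (h a).elim
        · exact o2 e he h a a') o3 o4)
    (cmi291_Phi_nonneg (F := F) b₁ (cmq291_Psi_nonneg K₁)) (cmi291_Phi_nonneg (F := F) b₂ (cmq291_Psi_nonneg K₂))
    (cmi291_Phi_holley hb (cmq291_Psi_nonneg K₁) (cmq291_Psi_nonneg K₂) (cmr291_Psi_holley hSp hSm))
    (cmr291_supp b₁ hK₁ hc₁) (cmr291_supp b₂ hK₂ hc₂) (cmi291_inc_gen (F := F) hX)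
  have := mul_le_mul_of_nonneg_left key (mul_pos hKc hKc).le
  nlinarith [this]

end InstH

/-! ## C. the input `Scr91Cmp` of (TV)      (vocabulary of `Screen/Tv91`) -/

section Rec

open Classical in
/-- the prescriptions of a record together with good plus pins `P` -/
noncomputable def cmr291K (r : Scr91Rec) (P : Finset ((ℤ × ℤ) × Bool)) : MdlPin :=
  ⟨r.VS.filter (fun v => v ∈ r.π.S) ∪ (P.image Prod.fst ∪ P.image rswEnd), r.VS.filter (fun v => v ∉ r.π.S),
    r.VO.filter (fun e => e ∈ r.π.O) ∪ P, r.VO.filter (fun e => e ∉ r.π.O)⟩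

theorem cmr291_K_holds (r : Scr91Rec) (P : Finset ((ℤ × ℤ) × Bool)) (ω : RswCfg) :
    (cmr291K r P).Holds ω ↔ (r.Ev ω ∧ ∀ e ∈ P, RswGood true ω e) := by
  classical
  unfold MdlPin.Holds cmr291K Scr91Rec.Ev RswGood
  simp only
  constructor
  · rintro ⟨h1, h2, h3, h4⟩
    refine ⟨⟨fun v hv => ⟨fun hS => ?_, fun hp => ?_⟩, fun e he => ⟨fun hO => ?_, fun hp => ?_⟩⟩, fun e he => ⟨?_, ?_, ?_⟩⟩
    · by_contra hn
      exact h2 v (Finset.mem_filter.2 ⟨hv, hn⟩) hS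
    · exact h1 (Finset.mem_union_left _ (Finset.mem_filter.2 ⟨hv, hp⟩))
    · by_contra hn
      exact h4 e (Finset.mem_filter.2 ⟨he, hn⟩) hO
    · exact h3 (Finset.mem_union_left _ (Finset.mem_filter.2 ⟨he, hp⟩))
    · exact h3 (Finset.mem_union_right _ he)
    · exact ⟨fun _ => trivial, fun _ => h1 (Finset.mem_union_right _ (Finset.mem_union_left _ (Finset.mem_image_of_mem _ he)))⟩
    · exact ⟨fun _ => trivial, fun _ => h1 (Finset.mem_union_right _ (Finset.mem_union_right _ (Finset.mem_image_of_mem _ he)))⟩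
  · rintro ⟨⟨h1, h2⟩, h3⟩
    refine ⟨fun v hv => ?_, fun v hv hS => ?_, fun e he => ?_, fun e he hO => ?_⟩
    · rcases Finset.mem_union.1 hv with h | h
      · obtain ⟨a, a'⟩ := Finset.mem_filter.1 h
        exact (h1 v a).2 a'
      · rcases Finset.mem_union.1 h with h | h
        · obtain ⟨e, he, rfl⟩ := Finset.mem_image.1 h
          exact (h3 e he).2.1.2 trivial
        · obtain ⟨e, he, rfl⟩ := Finset.mem_image.1 h
          exact (h3 e he).2.2.2 trivial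
    · obtain ⟨a, a'⟩ := Finset.mem_filter.1 hv
      exact a' ((h1 v a).1 hS)
    · rcases Finset.mem_union.1 he with h | h
      · obtain ⟨a, a'⟩ := Finset.mem_filter.1 h
        exact (h2 e a).2 a'
      · exact (h3 e h).1
    · obtain ⟨a, a'⟩ := Finset.mem_filter.1 he
      exact a' ((h2 e a).1 hO)

theorem cmr291_K_ok {r : Scr91Rec} (hr : r.Legal) (P : Finset ((ℤ × ℤ) × Bool)) : (cmr291K r P).Ok := by
  classical
  have hV : ∀ v ∈ r.VS, v ∈ (cmr291K r P).Sp ∪ (cmr291K r P).Sm := by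
    intro v hv
    unfold cmr291K
    simp only
    by_cases h : v ∈ r.π.S
    · exact Finset.mem_union_left _ (Finset.mem_union_left _ (Finset.mem_filter.2 ⟨hv, h⟩))
    · exact Finset.mem_union_right _ (Finset.mem_filter.2 ⟨hv, h⟩)
  intro e he
  have : e ∈ r.VO ∨ e ∈ P := by
    unfold cmr291K at he
    simp only at he
    rcases Finset.mem_union.1 he with h | h
    · rcases Finset.mem_union.1 h with h | h
      · exact Or.inl (Finset.mem_filter.1 h).1
      · exact Or.inr h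
    · exact Or.inl (Finset.mem_filter.1 h).1
  rcases this with h | h
  · exact ⟨hV _ (hr e h).1, hV _ (hr e h).2⟩
  · unfold cmr291K
    simp only
    exact ⟨Finset.mem_union_left _ (Finset.mem_union_right _ (Finset.mem_union_left _ (Finset.mem_image_of_mem _ h))),
      Finset.mem_union_left _ (Finset.mem_union_right _ (Finset.mem_union_right _ (Finset.mem_image_of_mem _ h)))⟩

theorem cmr291_N_eq (t : ℝ) (F : Finset (ℤ × ℤ)) (r : Scr91Rec) (P : Finset ((ℤ × ℤ) × Bool)) (A : RswCfg → ℝ) :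
    scr91N t F (scr91Pin P) r A = mdlSumK t F true (cmr291K r P) A := by
  classical
  unfold scr91N mdlSumK scr91Pin
  refine rsx_sum_congr t F true fun ω => ?_
  by_cases h1 : r.Ev ω
  · by_cases h2 : ∀ e ∈ P, RswGood true ω e
    · rw [rsx_ind_pos h1, rsx_ind_pos h2, if_pos ((cmr291_K_holds r P ω).2 ⟨h1, h2⟩)]
      ring
    · rw [rsx_ind_neg h2, if_neg (fun h => h2 ((cmr291_K_holds r P ω).1 h).2)]
      ring
  · rw [rsx_ind_neg h1, if_neg (fun h => h1 ((cmr291_K_holds r P ω).1 h).1)]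
    ring

theorem cmr291_N_eq_one (t : ℝ) (F : Finset (ℤ × ℤ)) (r : Scr91Rec) (A : RswCfg → ℝ) :
    scr91N t F (fun _ => 1) r A = mdlSumK t F true (cmr291K r ∅) A := by
  rw [← cmr291_N_eq]
  unfold scr91N scr91Pin
  refine rsx_sum_congr t F true fun ω => ?_
  rw [rsx_ind_pos (fun e he => absurd he (Finset.notMem_empty e))]

theorem cmr291_inc_of_scr {f : RswCfg → ℝ} (hf : Scr91Inc f) : Cmi291Inc f :=
  fun ω ω' h => hf ω ω' h.1 (fun _ hg => cmi291_good_true h hg) (fun _ hg => cmi291_good_false h hg)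

/-- **`Scr91Cmp`** for every set of faces with the planar duality `Cmi291Dual` -/
theorem cmr291_scr_cmp_dual {t : ℝ} (h0 : 0 < t) (h1 : t ≤ 1) {F : Finset (ℤ × ℤ)} (hF : Cmi291Dual F)
    (P : Finset ((ℤ × ℤ) × Bool)) : Scr91Cmp t F P := by
  classical
  intro r₁ r₂ hr₁ hr₂ hle f hf _
  obtain ⟨hVS, hVO, hs, hp, hm⟩ := hle
  rw [cmr291_N_eq_one, cmr291_N_eq_one, cmr291_N_eq, cmr291_N_eq, mul_comm (mdlSumK t F true (cmr291K r₂ P) f)]
  refine cmr291_holley_pin h0 h1 hF le_rfl (cmr291_K_ok hr₁ ∅) (cmr291_K_ok hr₂ P) ?_ ?_ ?_ ?_ ?_ ?_ ?_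
    (cmr291_inc_of_scr hf)
  · intro v hv
    unfold cmr291K at hv ⊢
    simp only [Finset.image_empty, Finset.union_empty] at hv ⊢
    obtain ⟨a, a'⟩ := Finset.mem_filter.1 hv
    exact Finset.mem_union_left _ (Finset.mem_filter.2 ⟨hVS ▸ a, hs v a a'⟩)
  · intro v hv
    unfold cmr291K at hv ⊢
    simp only at hv ⊢
    obtain ⟨a, a'⟩ := Finset.mem_filter.1 hv
    exact Finset.mem_filter.2 ⟨hVS ▸ a, fun h => a' (hs v (hVS ▸ a) h)⟩
  · intro v hv hv'
    unfold cmr291K at hv hv'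
    simp only [Finset.image_empty, Finset.union_empty] at hv hv'
    exact (Finset.mem_filter.1 hv').2 (Finset.mem_filter.1 hv).2
  · intro e he h1' h2'
    unfold cmr291K at he h1' h2' ⊢
    simp only [Finset.image_empty, Finset.union_empty] at he h1' h2' ⊢
    obtain ⟨a, a'⟩ := Finset.mem_filter.1 he
    have hg : RswGood true r₁.π e :=
      ⟨a', ⟨fun _ => rfl, fun _ => (Finset.mem_filter.1 h1').2⟩, ⟨fun _ => rfl, fun _ => (Finset.mem_filter.1 h2').2⟩⟩
    exact Finset.mem_union_left _ (Finset.mem_filter.2 ⟨hVO ▸ a, (hp e a hg).1⟩)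
  · intro e he h0' h1' h2'
    unfold cmr291K at he h0' h1' h2' ⊢
    simp only [Finset.image_empty, Finset.union_empty] at he h0' h1' h2' ⊢
    have n1 := (Finset.mem_filter.1 h1').2
    have n2 := (Finset.mem_filter.1 h2').2
    rcases Finset.mem_union.1 he with h | h
    · obtain ⟨a, a'⟩ := Finset.mem_filter.1 h
      have hg : RswGood false r₂.π e :=
        ⟨a', ⟨fun h => (n1 h).elim, fun h => (Bool.false_ne_true h).elim⟩,
          ⟨fun h => (n2 h).elim, fun h => (Bool.false_ne_true h).elim⟩⟩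
      exact Finset.mem_filter.2 ⟨hVO ▸ a, (hm e (hVO ▸ a) hg).1⟩
    · exact (h0' (Finset.mem_union_right _ (Finset.mem_union_left _ (Finset.mem_image_of_mem _ h)))).elim
  · intro e he
    unfold cmr291K at he ⊢
    simp only at he ⊢
    obtain ⟨a, _⟩ := Finset.mem_filter.1 he
    by_cases h : e ∈ r₂.π.O
    · exact Or.inr (Finset.mem_union_left _ (Finset.mem_filter.2 ⟨hVO ▸ a, h⟩))
    · exact Or.inl (Finset.mem_filter.2 ⟨hVO ▸ a, h⟩)
  · intro e he
    unfold cmr291K at he ⊢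
    simp only [Finset.union_empty] at he ⊢
    obtain ⟨a, _⟩ := Finset.mem_filter.1 he
    by_cases h : e ∈ r₁.π.O
    · exact Or.inr (Finset.mem_filter.2 ⟨hVO ▸ a, h⟩)
    · exact Or.inl (Finset.mem_filter.2 ⟨hVO ▸ a, h⟩)

/-- **`Scr91Cmp`**, THE INPUT OF (TV) (`Screen/Tv91`), for a Jordan set of faces, every set of pins -/
theorem cmr291_scr_cmp {t : ℝ} (ht1 : 1 / 2 ≤ t) (ht2 : t < 1) {F : Finset (ℤ × ℤ)} (hF : RswJordan F)
    (P : Finset ((ℤ × ℤ) × Bool)) : Scr91Cmp t F P :=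
  cmr291_scr_cmp_dual (by linarith) ht2.le (cmi291_dual_of_jordan hF) P

end Rec

/-- the equation and congruence lemmas of the definitions of sections A, B, C are generated HERE, once (RULES.md, rule 6) -/
theorem cmr291_eqns_cite : True := by
  have := @cmr291A.eq_1
  have := @cmr291A.eq_2
  have := @cmr291A.eq_3
  have := @cmr291A.eq_4
  have := @cmr291A.eq_def
  have := @cmr291B.eq_1
  have := @cmr291B.eq_2
  have := @cmr291B.eq_3
  have := @cmr291B.eq_4
  have := @cmr291B.eq_def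
  have := @cmr291H.eq_1
  have := @cmr291H.eq_2
  have := @cmr291H.eq_3
  have := @cmr291H.eq_4
  have := @cmr291H.eq_def
  have := @Cmr291Le.eq_1
  have := @Cmr291Le.eq_2
  have := @Cmr291Le.eq_3
  have := @Cmr291Le.eq_4
  have := @Cmr291Le.eq_def
  have := @cmr291G.eq_1.{0,0}
  have := @cmr291Pi.eq_1.{0}
  have := @Cmr291Supp.eq_1.{0,0}
  have := @cmr291St.eq_1
  have := @cmr291Kap.eq_1
  have := @Cmr291Cons.eq_1
  have := @cmr291K.eq_1
  trivial

end Claimed.Agent.R292
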