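import Claimed.Agent.R292.Rsw.CylInst69
import Claimed.Agent.R292.Rsw.CylDict111

/-!
# R292 / RSW / A4: association and order in every unexplored system of a connected record   (pen 127, prefix `rof127`)

`P_J = rcs127OutP (rcy162Cyl L 0 H) J` with `d = +` on the faces of the cut (`Rcs127KP`) is the law above a record `J` of the search in the statuses of `d` (`CylTop127` Sec. 6 - 9).
Here: eq. (3.5) holds for its minor `rcs127OutC` (`rcs127_hat_outC` + `rci69_cyl_HP/HX` of 69 + `rcd111_G3` of 111), hence T1 (association) and T2 (order) of 69 hold IN `P_J`: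
* `rof127_dual`, **`rof127_fkg_sum`**, **`rof127_holley_sum`** (unnormalised, any constraint on `s` which is constant on the row `H`).
This is one tool for the contract `Rcs127PerJc` of the field `sym`; `Rcs127PerJc` itself is not proved in this file (the symmetric domain needs the same tool with the mirror image of `J` removed at the top: `Rsw/PerJT127.lean`; closed in `Rsw/RenHP31.lean`, `rhp31_perJc`).
0 sorry.
-/

set_option autoImplicit false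
set_option linter.unusedSectionVars false
set_option linter.unusedVariables false
set_option linter.unusedSimpArgs false

namespace Claimed.Agent.R292

open Claimed.Agent.R291 Relation

section rof

variable {L H : ℕ} {J : Finset (ℤ × ℤ)}

/-- contraction data of the minor: the row `H` is read at `(0, H)` -/
theorem rof127_ctr (hL : 0 < L) (hH : 2 ≤ H) (h0 : rcy162Row L 0 ⊆ J) (hlow : ∀ v ∈ J, v.2 < H) :
    Rci69Ctr (rcs127OutC (rcy162Cyl L 0 H) J (0, 0)) (rci69Pi 0 H) := by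
  refine ⟨rcs127_outC_wf (rcy162_cyl_wf hL 0 H), ?_⟩
  intro v hv
  obtain ⟨hV, hJ⟩ := Finset.mem_sdiff.1 hv
  obtain ⟨⟨a1, a2⟩, a3, a4⟩ := rcy162_mem_cylV.1 hV
  have hv0 : v.2 ≠ 0 := by
    intro h
    exact hJ (h0 (rcy162_mem_row.2 ⟨⟨a1, a2⟩, h⟩))
  unfold rci69Pi
  rw [if_neg hv0]
  by_cases hb : v.2 = (H : ℤ)
  · rw [if_pos hb]
    refine Finset.mem_sdiff.2 ⟨rcy162_mem_cylV.2 ⟨⟨le_refl _, by show (0 : ℤ) < L; exact_mod_cast hL⟩, by show (0 : ℤ) ≤ H; positivity, le_refl _⟩, fun h => ?_⟩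
    have := hlow _ h
    simp at this
  · rw [if_neg hb]
    exact hv

/-- **eq. (3.5) in the unexplored system of a connected record** -/
theorem rof127_dual (hL : 0 < L) (hH : 2 ≤ H) (h0 : rcy162Row L 0 ⊆ J) (hJ : J ⊆ (rcy162Cyl L 0 H).V) (hlow : ∀ v ∈ J, v.2 < H)
    (hc : Rcs127Conn (rcs127Sw (rcy162Cyl L 0 H)) (rcy162Row L 0) J) : Rci69Dual (rof127_ctr hL hH h0 hlow) := by
  have hab : (0 : ℤ) < H := by exact_mod_cast (by omega : 0 < H)
  have hat : Rcs127Hat (rcy162Cyl L 0 H) (rci69Pi 0 H) := ⟨rci69_cyl_HP hL hab, rci69_cyl_HX hL hab⟩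
  have hat' := rcs127_hat_outC hat (rcd111_G3 hL hH h0 hJ hlow hc)
  exact rci69_dual_of_hat _ hat'.1 hat'.2

/-- **T1 (association) in the unexplored system of a connected record** -/
theorem rof127_fkg_sum {t : ℝ} (ht0 : 0 < t) (ht1 : t ≤ 1) (hL : 0 < L) (hH : 2 ≤ H) (h0 : rcy162Row L 0 ⊆ J) (hJ : J ⊆ (rcy162Cyl L 0 H).V)
    (hlow : ∀ v ∈ J, v.2 < H) (hc : Rcs127Conn (rcs127Sw (rcy162Cyl L 0 H)) (rcy162Row L 0) J) {KS : Finset (ℤ × ℤ) → Prop}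
    (k1 : ∀ S, KS S → ∀ v ∈ (rcy162Cyl L 0 H).V \ J, (rci69Pi 0 H v ∈ S ↔ v ∈ S)) (k2 : ∀ S S', KS S → KS S' → KS (S ∩ S') ∧ KS (S ∪ S'))
    {X X' : RswCfg → ℝ} (hX : Rci69Inc (rcy162Cyl L 0 H) X) (hX' : Rci69Inc (rcy162Cyl L 0 H) X') :
    (rcs127OutP (rcy162Cyl L 0 H) J).sum t (Rcs127KP (rcy162Cyl L 0 H) J KS) X * (rcs127OutP (rcy162Cyl L 0 H) J).sum t (Rcs127KP (rcy162Cyl L 0 H) J KS) X'
      ≤ (rcs127OutP (rcy162Cyl L 0 H) J).sum t (Rcs127KP (rcy162Cyl L 0 H) J KS) (fun _ => 1) *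
        (rcs127OutP (rcy162Cyl L 0 H) J).sum t (Rcs127KP (rcy162Cyl L 0 H) J KS) (fun ω => X ω * X' ω) := by
  have hw := rcy162_cyl_wf hL 0 (H : ℤ)
  have ha := rcd111_G1 hL hH J h0 hJ
  have hq := (rcd111_G3 hL hH h0 hJ hlow hc).1
  have key := rci69_fkg_sum (rof127_ctr hL hH h0 hlow) ht0 ht1 (rof127_dual hL hH h0 hJ hlow hc) (KS := KS) k1 k2
    (X := X) (X' := X') hX hX'
  rw [rcs127_outC_two hw ha hq t KS X hX.noD, rcs127_outC_two hw ha hq t KS X' hX'.noD, rcs127_outC_two hw ha hq t KS (fun _ => 1) (fun _ _ _ => rfl),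
    rcs127_outC_two hw ha hq t KS (fun ω => X ω * X' ω) (fun S D O => by rw [hX.noD S D O, hX'.noD S D O])] at key
  nlinarith [key]

/-- **T2 (order) in the unexplored system of a connected record**: raising the pins of `s` raises the law -/
theorem rof127_holley_sum {t : ℝ} (ht0 : 0 < t) (ht1 : t ≤ 1) (hL : 0 < L) (hH : 2 ≤ H) (h0 : rcy162Row L 0 ⊆ J) (hJ : J ⊆ (rcy162Cyl L 0 H).V)
    (hlow : ∀ v ∈ J, v.2 < H) (hc : Rcs127Conn (rcs127Sw (rcy162Cyl L 0 H)) (rcy162Row L 0) J) {KS₁ KS₂ : Finset (ℤ × ℤ) → Prop}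
    (k1 : ∀ S, KS₁ S → ∀ v ∈ (rcy162Cyl L 0 H).V \ J, (rci69Pi 0 H v ∈ S ↔ v ∈ S))
    (k2 : ∀ S, KS₂ S → ∀ v ∈ (rcy162Cyl L 0 H).V \ J, (rci69Pi 0 H v ∈ S ↔ v ∈ S))
    (k12 : ∀ S S', KS₁ S → KS₂ S' → KS₁ (S ∩ S') ∧ KS₂ (S ∪ S')) {X : RswCfg → ℝ} (hX : Rci69Inc (rcy162Cyl L 0 H) X) :
    (rcs127OutP (rcy162Cyl L 0 H) J).sum t (Rcs127KP (rcy162Cyl L 0 H) J KS₁) X * (rcs127OutP (rcy162Cyl L 0 H) J).sum t (Rcs127KP (rcy162Cyl L 0 H) J KS₂) (fun _ => 1)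
      ≤ (rcs127OutP (rcy162Cyl L 0 H) J).sum t (Rcs127KP (rcy162Cyl L 0 H) J KS₁) (fun _ => 1) *
        (rcs127OutP (rcy162Cyl L 0 H) J).sum t (Rcs127KP (rcy162Cyl L 0 H) J KS₂) X := by
  have hw := rcy162_cyl_wf hL 0 (H : ℤ)
  have ha := rcd111_G1 hL hH J h0 hJ
  have hq := (rcd111_G3 hL hH h0 hJ hlow hc).1
  have key := rci69_holley_sum (rof127_ctr hL hH h0 hlow) ht0 ht1 (rof127_dual hL hH h0 hJ hlow hc) (KS₁ := KS₁) (KS₂ := KS₂) k1 k2 k12
    (X := X) hX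
  rw [rcs127_outC_two hw ha hq t KS₁ X hX.noD, rcs127_outC_two hw ha hq t KS₂ X hX.noD, rcs127_outC_two hw ha hq t KS₁ (fun _ => 1) (fun _ _ _ => rfl),
    rcs127_outC_two hw ha hq t KS₂ (fun _ => 1) (fun _ _ _ => rfl)] at key
  nlinarith [key]

end rof

end Claimed.Agent.R292
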