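import Claimed.Agent.R292.Rsw.PerJ69
import Claimed.Agent.R292.Rsw.CylDict111

/-!
# Row 292 (S0540), Rsw/PerJ4x162 : contract (P4) of the frame `PerJ69` of `Rcs127PerJc` (self-duality of the doubly cut system)      (owner helper162; prefix `rpq162_`)      0 sorry

* par.1  NATURALITY of the search vocabulary of 127 under a morphism of systems: `rpq162_E0 / _E1 / _E2` (images of the three classes of pairs), `rpq162_V0 / _V1 / _V2` (images of the rims and of the unexplored sites).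
* par.2  transport of the sums on a sub-system WITHOUT well-formedness of the sub-system: `rpq162_res_wt / _sum / _Pr`.
* par.3  two cuts which are far apart commute: `rpq162_comm_E0 / _E1 / _V0 / _V1 / _V2`, `rpq162_E2_inter`.
* par.4  geometry `rpq162_G_high`, `rpq162_geo`; the glide of `rcp162_hom` carries `Sw D₋` onto `D₊` (`rpq162_I1 / _I2 / _I3`); the pins `rpq162_K`; the events `rpq162_ev`;
         EXIT **`rpq162_P4 (0 ≤ t) (t ≤ 1) (0 < L) H : Rpj69P4 t L H`** VERBATIM.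
* par.5  `Rpq162Geo Z J` (= `Rcs127Adm.geo`), invariant under a morphism (`rpq162_geo_iff`); **`rpq162_geoG`** : the field `geoG` of `Rpt127Geo` (127) for `G = rpj69G L κ m J s`, both `s`, from its field `geoJ`.
-/

set_option autoImplicit false
set_option linter.unusedVariables false
set_option linter.unusedSectionVars false
set_option linter.unusedSimpArgs false
set_option linter.unnecessarySeqFocus false
set_option linter.deprecated false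

namespace Claimed.Agent.R292

open Claimed.Agent.R291 Claims Claims.C0468 Relation

/-! ## 1. naturality -/

section nat

variable {A B : Rcy162Sys} {gV gF : ℤ × ℤ → ℤ × ℤ} {gE : (ℤ × ℤ) × Bool → (ℤ × ℤ) × Bool} (h : Rcy162Hom A B gV gF gE) (hw : A.WF)
  {J : Finset (ℤ × ℤ)} (hJ : J ⊆ A.Fc)

include h hw hJ

theorem rpq162_face {f : ℤ × ℤ} (hf : f ∈ A.Fc) : gF f ∈ J.image gF ↔ f ∈ J := rcy162_mem_image_iff h.injF hJ hf

/-- the class of a pair is preserved -/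
theorem rpq162_cls {e : (ℤ × ℤ) × Bool} (he : e ∈ A.E) :
    ((B.f0 (gE e) ∈ J.image gF ∧ B.f1 (gE e) ∈ J.image gF) ↔ (A.f0 e ∈ J ∧ A.f1 e ∈ J)) ∧
    ((B.f0 (gE e) ∉ J.image gF ∧ B.f1 (gE e) ∉ J.image gF) ↔ (A.f0 e ∉ J ∧ A.f1 e ∉ J)) ∧
    ((B.f0 (gE e) ∈ J.image gF ↔ B.f1 (gE e) ∈ J.image gF) ↔ (A.f0 e ∈ J ↔ A.f1 e ∈ J)) := by
  have a0 := rpq162_face h hw hJ (hw.f0 e he)
  have a1 := rpq162_face h hw hJ (hw.f1 e he)
  rcases h.ff e he with ⟨x, y⟩ | ⟨x, y⟩ <;> rw [x, y, a0, a1] <;> tauto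

theorem rpq162_img {P : Rcy162Sys → Finset (ℤ × ℤ) → (ℤ × ℤ) × Bool → Prop} [∀ Z J, DecidablePred (P Z J)]
    (hP : ∀ e ∈ A.E, (P B (J.image gF) (gE e) ↔ P A J e)) : (A.E.filter (P A J)).image gE = B.E.filter (P B (J.image gF)) := by
  ext e'
  rw [Finset.mem_image, Finset.mem_filter]
  constructor
  · rintro ⟨e, he, rfl⟩
    obtain ⟨h1, h2⟩ := Finset.mem_filter.1 he
    exact ⟨rcy162_hom_memE h h1, (hP e h1).2 h2⟩
  · rintro ⟨h1, h2⟩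
    rw [← h.imE] at h1
    obtain ⟨e, he, rfl⟩ := Finset.mem_image.1 h1
    exact ⟨e, Finset.mem_filter.2 ⟨he, (hP e he).1 h2⟩, rfl⟩

theorem rpq162_E1 : (rcs127E1 A J).image gE = rcs127E1 B (J.image gF) := by
  ext e'
  rw [Finset.mem_image, rcs127_mem_E1]
  constructor
  · rintro ⟨e, he, rfl⟩
    obtain ⟨h1, h2⟩ := rcs127_mem_E1.1 he
    exact ⟨rcy162_hom_memE h h1, (rpq162_cls h hw hJ h1).1.2 h2⟩
  · rintro ⟨h1, h2⟩
    rw [← h.imE] at h1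
    obtain ⟨e, he, rfl⟩ := Finset.mem_image.1 h1
    exact ⟨e, rcs127_mem_E1.2 ⟨he, (rpq162_cls h hw hJ he).1.1 h2⟩, rfl⟩

theorem rpq162_E2 : (rcs127E2 A J).image gE = rcs127E2 B (J.image gF) := by
  ext e'
  rw [Finset.mem_image, rcs127_mem_E2]
  constructor
  · rintro ⟨e, he, rfl⟩
    obtain ⟨h1, h2⟩ := rcs127_mem_E2.1 he
    exact ⟨rcy162_hom_memE h h1, (rpq162_cls h hw hJ h1).2.1.2 h2⟩
  · rintro ⟨h1, h2⟩
    rw [← h.imE] at h1
    obtain ⟨e, he, rfl⟩ := Finset.mem_image.1 h1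
    exact ⟨e, rcs127_mem_E2.2 ⟨he, (rpq162_cls h hw hJ he).2.1.1 h2⟩, rfl⟩

theorem rpq162_E0 : (rcs127E0 A J).image gE = rcs127E0 B (J.image gF) := by
  ext e'
  rw [Finset.mem_image, rcs127_mem_E0]
  constructor
  · rintro ⟨e, he, rfl⟩
    obtain ⟨h1, h2⟩ := rcs127_mem_E0.1 he
    exact ⟨rcy162_hom_memE h h1, fun hh => h2 ((rpq162_cls h hw hJ h1).2.2.1 hh)⟩
  · rintro ⟨h1, h2⟩
    rw [← h.imE] at h1
    obtain ⟨e, he, rfl⟩ := Finset.mem_image.1 h1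
    exact ⟨e, rcs127_mem_E0.2 ⟨he, fun hh => h2 ((rpq162_cls h hw hJ he).2.2.2 hh)⟩, rfl⟩

omit hw hJ in
/-- the end points of a set of pairs -/
theorem rpq162_ends {S : Finset ((ℤ × ℤ) × Bool)} (hS : S ⊆ A.E) :
    (S.image A.p0 ∪ S.image A.p1).image gV = (S.image gE).image B.p0 ∪ (S.image gE).image B.p1 := by
  ext v
  simp only [Finset.mem_image, Finset.mem_union]
  constructor
  · rintro ⟨u, ⟨e, he, rfl⟩ | ⟨e, he, rfl⟩, rfl⟩
    · rcases h.pp e (hS he) with ⟨x, y⟩ | ⟨x, y⟩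
      · exact Or.inl ⟨gE e, ⟨e, he, rfl⟩, x⟩
      · exact Or.inr ⟨gE e, ⟨e, he, rfl⟩, y⟩
    · rcases h.pp e (hS he) with ⟨x, y⟩ | ⟨x, y⟩
      · exact Or.inr ⟨gE e, ⟨e, he, rfl⟩, y⟩
      · exact Or.inl ⟨gE e, ⟨e, he, rfl⟩, x⟩
  · rintro (⟨_, ⟨e, he, rfl⟩, rfl⟩ | ⟨_, ⟨e, he, rfl⟩, rfl⟩)
    · rcases h.pp e (hS he) with ⟨x, y⟩ | ⟨x, y⟩
      · exact ⟨A.p0 e, Or.inl ⟨e, he, rfl⟩, x.symm⟩
      · exact ⟨A.p1 e, Or.inr ⟨e, he, rfl⟩, x.symm⟩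
    · rcases h.pp e (hS he) with ⟨x, y⟩ | ⟨x, y⟩
      · exact ⟨A.p1 e, Or.inr ⟨e, he, rfl⟩, y.symm⟩
      · exact ⟨A.p0 e, Or.inl ⟨e, he, rfl⟩, y.symm⟩

theorem rpq162_V0 : (rcs127V0 A J).image gV = rcs127V0 B (J.image gF) := by
  unfold rcs127V0
  rw [rpq162_ends h (fun e he => (rcs127_mem_E0.1 he).1), rpq162_E0 h hw hJ]

theorem rpq162_V1 : (rcs127V1 A J).image gV = rcs127V1 B (J.image gF) := by
  unfold rcs127V1
  rw [Finset.image_union, rpq162_ends h (fun e he => (rcs127_mem_E1.1 he).1), rpq162_E1 h hw hJ, rpq162_V0 h hw hJ]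

theorem rpq162_V1_sub : rcs127V1 A J ⊆ A.V := by
  intro v hv
  unfold rcs127V1 rcs127V0 at hv
  simp only [Finset.mem_union, Finset.mem_image] at hv
  rcases hv with (⟨e, he, rfl⟩ | ⟨e, he, rfl⟩) | (⟨e, he, rfl⟩ | ⟨e, he, rfl⟩)
  · exact hw.p0 e (rcs127_mem_E1.1 he).1
  · exact hw.p1 e (rcs127_mem_E1.1 he).1
  · exact hw.p0 e (rcs127_mem_E0.1 he).1
  · exact hw.p1 e (rcs127_mem_E0.1 he).1

omit h hw hJ in
/-- image of a difference under a map which is injective on the big set -/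
theorem rpq162_image_sdiff {α : Type*} [DecidableEq α] {g : α → α} {X P : Finset α} (hg : Set.InjOn g X) (hP : P ⊆ X) :
    (X \ P).image g = X.image g \ P.image g := by
  ext y
  simp only [Finset.mem_image, Finset.mem_sdiff]
  constructor
  · rintro ⟨x, ⟨h1, h2⟩, rfl⟩
    exact ⟨⟨x, h1, rfl⟩, fun ⟨x', h3, e⟩ => h2 ((hg (hP h3) h1 e) ▸ h3)⟩
  · rintro ⟨⟨x, h1, rfl⟩, h2⟩
    exact ⟨x, ⟨h1, fun h3 => h2 ⟨x, h3, rfl⟩⟩, rfl⟩

theorem rpq162_V2 : (rcs127V2 A J).image gV = rcs127V2 B (J.image gF) := by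
  unfold rcs127V2
  rw [Finset.image_union, rpq162_image_sdiff h.injV (rpq162_V1_sub h hw hJ), h.imV, rpq162_V1 h hw hJ, rpq162_V0 h hw hJ]

end nat

/-! ## 2. transport of the sums on a sub-system (no well-formedness of the sub-system is asked) -/

section res

variable {A B : Rcy162Sys} {gV gF : ℤ × ℤ → ℤ × ℤ} {gE : (ℤ × ℤ) × Bool → (ℤ × ℤ) × Bool} (h : Rcy162Hom A B gV gF gE) (hw : A.WF)
  {V' F' : Finset (ℤ × ℤ)} {E' : Finset ((ℤ × ℤ) × Bool)} (hV : V' ⊆ A.V) (hF : F' ⊆ A.Fc) (hE : E' ⊆ A.E)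

include h hw hV hF hE

theorem rpq162_res_wt (t : ℝ) (K' : RswCfg → Prop) {ω : RswCfg} (hω : (rcs127Res A V' F' E').Cfg ω) :
    (rcs127Res B (V'.image gV) (F'.image gF) (E'.image gE)).wt t K' (rcy162Map gV gF gE ω)
      = (rcs127Res A V' F' E').wt t (fun ω => K' (rcy162Map gV gF gE ω)) ω := by
  classical
  have hωA : A.Cfg ω := ⟨hω.1.trans hV, hω.2.1.trans hF, hω.2.2.trans hE⟩
  unfold Rcy162Sys.wt
  by_cases hK : K' (rcy162Map gV gF gE ω)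
  · rw [if_pos hK, if_pos hK]
    show ∏ e ∈ E'.image gE, B.fac t (rcy162Map gV gF gE ω) e = ∏ e ∈ E', A.fac t ω e
    rw [Finset.prod_image (fun x hx y hy e => h.injE (hE hx) (hE hy) e)]
    exact Finset.prod_congr rfl fun e he => rcy162_hom_fac h hw t hωA (hE he)
  · rw [if_neg hK, if_neg hK]

theorem rpq162_res_sum (t : ℝ) (K' : RswCfg → Prop) (X' : RswCfg → ℝ) :
    (rcs127Res B (V'.image gV) (F'.image gF) (E'.image gE)).sum t K' X'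
      = (rcs127Res A V' F' E').sum t (fun ω => K' (rcy162Map gV gF gE ω)) (fun ω => X' (rcy162Map gV gF gE ω)) := by
  unfold Rcy162Sys.sum
  show ∑ S ∈ (V'.image gV).powerset, ∑ D ∈ (F'.image gF).powerset, ∑ O ∈ (E'.image gE).powerset, _ = ∑ S ∈ V'.powerset, ∑ D ∈ F'.powerset, ∑ O ∈ E'.powerset, _
  rw [rcy162_sum_powerset_image (h.injV.mono (Finset.coe_subset.2 hV))]
  refine Finset.sum_congr rfl fun S hS => ?_
  rw [rcy162_sum_powerset_image (h.injF.mono (Finset.coe_subset.2 hF))]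
  refine Finset.sum_congr rfl fun D hD => ?_
  rw [rcy162_sum_powerset_image (h.injE.mono (Finset.coe_subset.2 hE))]
  refine Finset.sum_congr rfl fun O hO => ?_
  have := rpq162_res_wt h hw hV hF hE t K' (ω := ⟨S, D, O⟩) ⟨Finset.mem_powerset.1 hS, Finset.mem_powerset.1 hD, Finset.mem_powerset.1 hO⟩
  rw [← this]
  rfl

theorem rpq162_res_Pr (t : ℝ) (K' L' : RswCfg → Prop) :
    (rcs127Res B (V'.image gV) (F'.image gF) (E'.image gE)).Pr t K' L'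
      = (rcs127Res A V' F' E').Pr t (fun ω => K' (rcy162Map gV gF gE ω)) (fun ω => L' (rcy162Map gV gF gE ω)) := by
  unfold Rcy162Sys.Pr Rcy162Sys.Ex
  rw [rpq162_res_sum h hw hV hF hE, rpq162_res_sum h hw hV hF hE t K' (fun _ => 1)]

end res

/-! ## 3. two cuts which are far apart commute -/

section comm

variable {Y : Rcy162Sys} {J G : Finset (ℤ × ℤ)} (geo : ∀ e ∈ Y.E, (Y.f0 e ∈ G ∨ Y.f1 e ∈ G) → Y.p0 e ∉ J ∧ Y.p1 e ∉ J)

theorem rpq162_outP_E {e : (ℤ × ℤ) × Bool} : e ∈ (rcs127OutP Y J).E ↔ e ∈ Y.E ∧ Y.p0 e ∉ J ∧ Y.p1 e ∉ J :=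
  rcs127_mem_E2 (Z := rcs127Sw Y) (J := J)

include geo

theorem rpq162_comm_E0 : rcs127E0 (rcs127OutP Y J) G = rcs127E0 Y G := by
  ext e
  rw [rcs127_mem_E0, rcs127_mem_E0, rpq162_outP_E]
  show ((e ∈ Y.E ∧ Y.p0 e ∉ J ∧ Y.p1 e ∉ J) ∧ ¬ (Y.f0 e ∈ G ↔ Y.f1 e ∈ G)) ↔ _
  constructor
  · exact fun x => ⟨x.1.1, x.2⟩
  · intro x
    refine ⟨⟨x.1, geo e x.1 ?_⟩, x.2⟩
    by_contra hn
    rw [not_or] at hn
    exact x.2 ⟨fun y => absurd y hn.1, fun y => absurd y hn.2⟩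

theorem rpq162_comm_E1 : rcs127E1 (rcs127OutP Y J) G = rcs127E1 Y G := by
  ext e
  rw [rcs127_mem_E1, rcs127_mem_E1, rpq162_outP_E]
  show ((e ∈ Y.E ∧ Y.p0 e ∉ J ∧ Y.p1 e ∉ J) ∧ Y.f0 e ∈ G ∧ Y.f1 e ∈ G) ↔ _
  exact ⟨fun x => ⟨x.1.1, x.2⟩, fun x => ⟨⟨x.1, geo e x.1 (Or.inl x.2.1)⟩, x.2⟩⟩

theorem rpq162_comm_V0 : rcs127V0 (rcs127OutP Y J) G = rcs127V0 Y G := by
  unfold rcs127V0
  rw [rpq162_comm_E0 geo]
  rfl

theorem rpq162_comm_V1 : rcs127V1 (rcs127OutP Y J) G = rcs127V1 Y G := by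
  unfold rcs127V1
  rw [rpq162_comm_E1 geo, rpq162_comm_V0 geo]
  rfl

theorem rpq162_V0_off {v : ℤ × ℤ} (hv : v ∈ rcs127V0 Y G) : v ∉ J := by
  unfold rcs127V0 at hv
  simp only [Finset.mem_union, Finset.mem_image] at hv
  have key : ∀ e ∈ rcs127E0 Y G, Y.p0 e ∉ J ∧ Y.p1 e ∉ J := by
    intro e he
    obtain ⟨h1, h2⟩ := rcs127_mem_E0.1 he
    refine geo e h1 ?_
    by_contra hn
    rw [not_or] at hn
    exact h2 ⟨fun y => absurd y hn.1, fun y => absurd y hn.2⟩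
  rcases hv with ⟨e, he, rfl⟩ | ⟨e, he, rfl⟩
  · exact (key e he).1
  · exact (key e he).2

theorem rpq162_comm_V2 : rcs127V2 (rcs127OutP Y J) G = rcs127V2 Y G \ J := by
  unfold rcs127V2
  rw [rpq162_comm_V1 geo, rpq162_comm_V0 geo]
  show ((Y.V \ J) \ rcs127V1 Y G) ∪ rcs127V0 Y G = _
  ext v
  have := @rpq162_V0_off Y J G geo v
  simp only [Finset.mem_union, Finset.mem_sdiff]
  tauto

omit geo in
theorem rpq162_E2_inter : rcs127E2 (rcs127OutP Y J) G = rcs127E2 (rcs127Sw Y) J ∩ rcs127E2 Y G := by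
  ext e
  rw [rcs127_mem_E2, Finset.mem_inter, rcs127_mem_E2, rcs127_mem_E2, rpq162_outP_E]
  show ((e ∈ Y.E ∧ Y.p0 e ∉ J ∧ Y.p1 e ∉ J) ∧ Y.f0 e ∉ G ∧ Y.f1 e ∉ G) ↔ ((e ∈ Y.E ∧ Y.p0 e ∉ J ∧ Y.p1 e ∉ J) ∧ e ∈ Y.E ∧ Y.f0 e ∉ G ∧ Y.f1 e ∉ G)
  tauto

end comm

/-- image of a difference, both sets inside a set on which the map is injective -/
theorem rpq162_image_sdiff' {α : Type*} [DecidableEq α] {g : α → α} {W X P : Finset α} (hg : Set.InjOn g W) (hX : X ⊆ W) (hP : P ⊆ W) :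
    (X \ P).image g = X.image g \ P.image g := by
  ext y
  simp only [Finset.mem_image, Finset.mem_sdiff]
  constructor
  · rintro ⟨x, ⟨h1, h2⟩, rfl⟩
    exact ⟨⟨x, h1, rfl⟩, fun ⟨x', h3, e⟩ => h2 ((hg (hP h3) (hX h1) e) ▸ h3)⟩
  · rintro ⟨⟨x, h1, rfl⟩, h2⟩
    exact ⟨x, ⟨h1, fun h3 => h2 ⟨x, h3, rfl⟩⟩, rfl⟩

/-! ## 4. the contract (P4) -/

theorem rpq162_top_snd (b : ℤ) (w : ℤ × ℤ) : (rci69TopV b w).2 = w.2 := by
  unfold rci69TopV
  split_ifs with h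
  · exact h.symm
  · rfl

theorem rpq162_bot_snd (a : ℤ) (w : ℤ × ℤ) : (rci69BotF a w).2 = w.2 := by
  unfold rci69BotF
  split_ifs with h
  · exact h.symm
  · rfl

section p4

variable {L H : ℕ} {k m κ : ℤ} {J : Finset (ℤ × ℤ)} (ctx : Rpj69Ctx L H k m κ J)

include ctx

/-- the mirror images of the record lie above the record -/
theorem rpq162_G_high (s : Bool) {f v : ℤ × ℤ} (hf : f ∈ rpj69G L κ m J s) (hv : v ∈ J) : v.2 < f.2 := by
  obtain ⟨r, hr⟩ := ctx.hme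
  have hb : κ + m / 2 = κ + r := by omega
  have l1 := ctx.hlow v hv
  have hκ := ctx.hκ
  have hm := ctx.hm
  unfold rpj69G at hf
  cases s
  · rw [if_neg (by decide)] at hf
    obtain ⟨h1, h2⟩ := Finset.mem_filter.1 hf
    have l2 := ctx.hlow _ h2
    have e : (rcp162gV L 0 (κ + m / 2) f).2 = 0 + (κ + m / 2) - 1 - f.2 := by
      unfold rcp162gV
      rw [rpq162_top_snd, rcy162_red_snd]
    rw [e] at l2
    omega
  · rw [if_pos rfl] at hf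
    obtain ⟨u, hu, rfl⟩ := Finset.mem_image.1 hf
    have l2 := ctx.hlow u hu
    have e : (rcp162gF L 0 (κ + m / 2) u).2 = 0 + (κ + m / 2) - 1 - u.2 := by
      unfold rcp162gF
      rw [rpq162_bot_snd, rcy162_red_snd]
    rw [e]
    omega

/-- the two cuts are far apart -/
theorem rpq162_geo (s : Bool) : ∀ e ∈ (rpj69Y L κ m).E, ((rpj69Y L κ m).f0 e ∈ rpj69G L κ m J s ∨ (rpj69Y L κ m).f1 e ∈ rpj69G L κ m J s) →
    (rpj69Y L κ m).p0 e ∉ J ∧ (rpj69Y L κ m).p1 e ∉ J := by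
  intro e he hf
  have r0 : ((rpj69Y L κ m).p0 e).2 = e.1.2 := rfl
  have r1 : e.1.2 ≤ ((rpj69Y L κ m).p1 e).2 := by
    show e.1.2 ≤ (rci69TopV _ (rcy162Red L (rswEnd e))).2
    rw [rpq162_top_snd, rcy162_red_snd, rcs127_end_row]
    split_ifs <;> omega
  have r2 : ((rpj69Y L κ m).f0 e).2 = e.1.2 := rfl
  have r3 : ((rpj69Y L κ m).f1 e).2 ≤ e.1.2 := by
    show (rci69BotF _ (rcy162Red L (rswCo e))).2 ≤ _
    rw [rpq162_bot_snd, rcy162_red_snd, rcs127_co_row]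
    split_ifs <;> omega
  constructor
  · intro hp
    rcases hf with hf | hf
    · have := rpq162_G_high ctx s hf hp
      omega
    · have := rpq162_G_high ctx s hf hp
      omega
  · intro hp
    rcases hf with hf | hf
    · have := rpq162_G_high ctx s hf hp
      omega
    · have := rpq162_G_high ctx s hf hp
      omega

theorem rpq162_J_sub : J ⊆ (rpj69Y L κ m).V := by
  intro v hv
  obtain ⟨r, hr⟩ := ctx.hme
  have l1 := ctx.hlow v hv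
  have hκ := ctx.hκ
  have hk := ctx.hk
  have hm := ctx.hm
  obtain ⟨x, y, z⟩ := rcy162_mem_cylV.1 (ctx.hV hv)
  exact rci69_mem_capV.2 (Or.inl ⟨x, y, by omega⟩)

theorem rpq162_G_true : rpj69G L κ m J true = J.image (rcp162gF L 0 (κ + m / 2)) := by
  unfold rpj69G
  rw [if_pos rfl]

theorem rpq162_G_false_sub : rpj69G L κ m J false ⊆ (rpj69Y L κ m).Fc := by
  unfold rpj69G
  rw [if_neg (by decide)]
  exact Finset.filter_subset _ _

theorem rpq162_G_false_img (hL : 0 < L) : (rpj69G L κ m J false).image (rcp162gV L 0 (κ + m / 2)) = J := by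
  have h0 : Rcy162Hom (rcs127Sw (rpj69Y L κ m)) (rpj69Y L κ m) _ _ _ := rcp162_hom hL 0 (κ + m / 2)
  unfold rpj69G
  rw [if_neg (by decide)]
  ext v
  rw [Finset.mem_image]
  constructor
  · rintro ⟨f, hf, rfl⟩
    exact (Finset.mem_filter.1 hf).2
  · intro hv
    have hv' := rpq162_J_sub ctx hv
    rw [← h0.imV] at hv'
    obtain ⟨f, hf, rfl⟩ := Finset.mem_image.1 hv'
    exact ⟨f, Finset.mem_filter.2 ⟨hf, hv⟩, rfl⟩

/-- **the glide carries `Sw D₋` onto `D₊`**: the three image identities -/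
theorem rpq162_I1 (hL : 0 < L) : (rcs127V2 (rcs127Sw (rpj69Y L κ m)) J \ rpj69G L κ m J false).image (rcp162gV L 0 (κ + m / 2))
    = rcs127V2 (rcs127OutP (rpj69Y L κ m) J) (rpj69G L κ m J true) := by
  have h0 : Rcy162Hom (rcs127Sw (rpj69Y L κ m)) (rpj69Y L κ m) _ _ _ := rcp162_hom hL 0 (κ + m / 2)
  have hwS : (rcs127Sw (rpj69Y L κ m)).WF := rcs127_sw_wf (rci69_cap_wf hL 0 _)
  have hJ : J ⊆ (rcs127Sw (rpj69Y L κ m)).Fc := rpq162_J_sub ctx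
  have hX : rcs127V2 (rcs127Sw (rpj69Y L κ m)) J ⊆ (rcs127Sw (rpj69Y L κ m)).V :=
    Finset.union_subset Finset.sdiff_subset ((rcs127_V0_sub_V1).trans (rpq162_V1_sub h0 hwS hJ))
  rw [rpq162_image_sdiff' h0.injV hX (rpq162_G_false_sub ctx), rpq162_V2 h0 hwS hJ, rpq162_G_false_img ctx hL, rpq162_comm_V2 (rpq162_geo ctx true),
    rpq162_G_true ctx]

theorem rpq162_I2 (hL : 0 < L) : (rcs127V2 (rcs127OutP (rpj69Y L κ m) J) (rpj69G L κ m J false)).image (rcp162gF L 0 (κ + m / 2))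
    = rcs127V2 (rcs127Sw (rpj69Y L κ m)) J \ rpj69G L κ m J true := by
  have h0 : Rcy162Hom (rcs127Sw (rpj69Y L κ m)) (rpj69Y L κ m) _ _ _ := rcp162_hom hL 0 (κ + m / 2)
  have h0' : Rcy162Hom (rpj69Y L κ m) (rcs127Sw (rpj69Y L κ m)) _ _ _ := rcp162_hom_sw h0
  have hwY : (rpj69Y L κ m).WF := rci69_cap_wf hL 0 _
  have hG := rpq162_G_false_sub ctx
  have hX : rcs127V2 (rpj69Y L κ m) (rpj69G L κ m J false) ⊆ (rpj69Y L κ m).V :=
    Finset.union_subset Finset.sdiff_subset ((rcs127_V0_sub_V1).trans (rpq162_V1_sub h0' hwY hG))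
  rw [rpq162_comm_V2 (rpq162_geo ctx false), rpq162_image_sdiff' h0.injF hX (rpq162_J_sub ctx), rpq162_V2 h0' hwY hG, rpq162_G_false_img ctx hL,
    rpq162_G_true ctx]

theorem rpq162_I3 (hL : 0 < L) : (rcs127E2 (rcs127OutP (rpj69Y L κ m) J) (rpj69G L κ m J false)).image (rcp162gE L 0 (κ + m / 2))
    = rcs127E2 (rcs127OutP (rpj69Y L κ m) J) (rpj69G L κ m J true) := by
  have h0 : Rcy162Hom (rcs127Sw (rpj69Y L κ m)) (rpj69Y L κ m) _ _ _ := rcp162_hom hL 0 (κ + m / 2)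
  have h0' : Rcy162Hom (rpj69Y L κ m) (rcs127Sw (rpj69Y L κ m)) _ _ _ := rcp162_hom_sw h0
  have hwS : (rcs127Sw (rpj69Y L κ m)).WF := rcs127_sw_wf (rci69_cap_wf hL 0 _)
  have hwY : (rpj69Y L κ m).WF := rci69_cap_wf hL 0 _
  have hJ : J ⊆ (rcs127Sw (rpj69Y L κ m)).Fc := rpq162_J_sub ctx
  have hG := rpq162_G_false_sub ctx
  have hinj : Set.InjOn (rcp162gE L 0 (κ + m / 2)) (↑(rcs127E2 (rcs127Sw (rpj69Y L κ m)) J) ∪ ↑(rcs127E2 (rpj69Y L κ m) (rpj69G L κ m J false))) := by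
    refine h0.injE.mono ?_
    rintro e (he | he)
    · exact (rcs127_mem_E2.1 he).1
    · exact (rcs127_mem_E2.1 he).1
  rw [rpq162_E2_inter, rpq162_E2_inter, Finset.image_inter_of_injOn _ _ hinj, rpq162_E2 h0 hwS hJ, rpq162_E2 h0' hwY hG, rpq162_G_false_img ctx hL,
    rpq162_G_true ctx, Finset.inter_comm]

/-- the pins correspond -/
theorem rpq162_K (hL : 0 < L) {ω : RswCfg} (hS : ω.S ⊆ (rpj69Y L κ m).Fc) (hD : ω.D ⊆ (rpj69Y L κ m).V) :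
    Rpj69K L κ m J false ⟨ω.D, ω.S, ω.O⟩ ↔
      Rpj69K L κ m J true (rcy162Map (rcp162gV L 0 (κ + m / 2)) (rcp162gF L 0 (κ + m / 2)) (rcp162gE L 0 (κ + m / 2)) ω) := by
  have h0 : Rcy162Hom (rcs127Sw (rpj69Y L κ m)) (rpj69Y L κ m) _ _ _ := rcp162_hom hL 0 (κ + m / 2)
  have h0' : Rcy162Hom (rpj69Y L κ m) (rcs127Sw (rpj69Y L κ m)) _ _ _ := rcp162_hom_sw h0
  have hwS : (rcs127Sw (rpj69Y L κ m)).WF := rcs127_sw_wf (rci69_cap_wf hL 0 _)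
  have hwY : (rpj69Y L κ m).WF := rci69_cap_wf hL 0 _
  have hJ : J ⊆ (rcs127Sw (rpj69Y L κ m)).Fc := rpq162_J_sub ctx
  have hG := rpq162_G_false_sub ctx
  have c1 : rcs127V0 (rcs127OutP (rpj69Y L κ m) J) (rpj69G L κ m J true) = (rcs127V0 (rcs127Sw (rpj69Y L κ m)) J).image (rcp162gV L 0 (κ + m / 2)) := by
    rw [rpq162_comm_V0 (rpq162_geo ctx true), rpq162_V0 h0 hwS hJ, rpq162_G_true ctx]
  have c2 : rcs127V0 (rcs127Sw (rpj69Y L κ m)) J = (rcs127V0 (rcs127OutP (rpj69Y L κ m) J) (rpj69G L κ m J false)).image (rcp162gF L 0 (κ + m / 2)) := by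
    rw [rpq162_comm_V0 (rpq162_geo ctx false), rpq162_V0 h0' hwY hG, rpq162_G_false_img ctx hL]
  have s1 : rcs127V0 (rcs127Sw (rpj69Y L κ m)) J ⊆ (rpj69Y L κ m).Fc := (rcs127_V0_sub_V1).trans (rpq162_V1_sub h0 hwS hJ)
  have s2 : rcs127V0 (rcs127OutP (rpj69Y L κ m) J) (rpj69G L κ m J false) ⊆ (rpj69Y L κ m).V := by
    rw [rpq162_comm_V0 (rpq162_geo ctx false)]
    exact (rcs127_V0_sub_V1).trans (rpq162_V1_sub h0' hwY hG)
  unfold Rpj69K Rcs127Pin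
  constructor
  · rintro ⟨a1, a2⟩
    constructor
    · intro v hv
      rw [c1] at hv
      obtain ⟨f, hf, rfl⟩ := Finset.mem_image.1 hv
      exact iff_of_true (Finset.mem_image_of_mem _ (a2 f hf)) rfl
    · intro f hf
      rw [c2] at hf
      obtain ⟨v, hv, rfl⟩ := Finset.mem_image.1 hf
      exact Finset.mem_image_of_mem _ ((a1 v hv).2 rfl)
  · rintro ⟨b1, b2⟩
    constructor
    · intro v hv
      have h1 : rcp162gF L 0 (κ + m / 2) v ∈ rcs127V0 (rcs127Sw (rpj69Y L κ m)) J := by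
        rw [c2]; exact Finset.mem_image_of_mem _ hv
      exact iff_of_true ((rcy162_mem_image_iff h0.injF hD (s2 hv)).1 (b2 _ h1)) rfl
    · intro f hf
      have h1 : rcp162gV L 0 (κ + m / 2) f ∈ rcs127V0 (rcs127OutP (rpj69Y L κ m) J) (rpj69G L κ m J true) := by
        rw [c1]; exact Finset.mem_image_of_mem _ hf
      exact (rcy162_mem_image_iff h0.injV hS (s1 hf)).1 ((b1 _ h1).2 rfl)

/-- the events correspond (one direction) -/
theorem rpq162_ev (hL : 0 < L) {ω : RswCfg} (hω : (rcs127Sw (rpj69Y L κ m)).Cfg ω) {σ : SignType} (hσ : σ ≠ 0)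
    (h : rcs127FldD L (rcs127Sw (rcy162Cyl L 0 H)) ω ∈ cyBlk σ κ (κ + m - 1)) :
    rcy162Fld L (rcy162Cyl L 0 H) (rcy162Map (rcp162gV L 0 (κ + m / 2)) (rcp162gF L 0 (κ + m / 2)) (rcp162gE L 0 (κ + m / 2)) ω)
      ∈ cyBlk σ κ (κ + m - 1) := by
  obtain ⟨r, hr⟩ := ctx.hme
  have hm := ctx.hm
  have hk := ctx.hk
  have hκ := ctx.hκ
  have hκH := ctx.hκH
  have hN := ctx.hN
  have hb : (H : ℤ) < κ + m / 2 := by omega
  have e1 := (rcd111_ev_cap (a := 0) hL le_rfl hb ω (c := κ) (d := κ + m - 1) (by omega) (by omega) (cy_sup_Blk σ κ (κ + m - 1))).2.2 h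
  have e2 := rcp162_blk hL 0 (κ + m / 2) hω hσ (c := κ) (d := κ + m - 1) (by omega) (by omega) e1
  have q1 : 2 * (0 + (κ + m / 2)) - 1 - (κ + m - 1) = κ := by omega
  have q2 : 2 * (0 + (κ + m / 2)) - 1 - κ = κ + m - 1 := by omega
  rw [q1, q2] at e2
  exact (rcd111_ev_cap (a := 0) hL le_rfl hb _ (c := κ) (d := κ + m - 1) (by omega) (by omega) (cy_sup_Blk σ κ (κ + m - 1))).1.1 e2

end p4

/-- **THE CONTRACT (P4) OF `PerJ69`** -/
theorem rpq162_P4 {t : ℝ} (h0t : 0 ≤ t) (h1t : t ≤ 1) {L : ℕ} (hL : 0 < L) (H : ℕ) : Rpj69P4 t L H := by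
  intro k m κ J ctx σ hσ
  have h0 : Rcy162Hom (rcs127Sw (rpj69Y L κ m)) (rpj69Y L κ m) _ _ _ := rcp162_hom hL 0 (κ + m / 2)
  have h0' : Rcy162Hom (rpj69Y L κ m) (rcs127Sw (rpj69Y L κ m)) _ _ _ := rcp162_hom_sw h0
  have hwS : (rcs127Sw (rpj69Y L κ m)).WF := rcs127_sw_wf (rci69_cap_wf hL 0 _)
  have hwY : (rpj69Y L κ m).WF := rci69_cap_wf hL 0 _
  have hJ : J ⊆ (rcs127Sw (rpj69Y L κ m)).Fc := rpq162_J_sub ctx
  have hG := rpq162_G_false_sub ctx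
  have hV' : rcs127V2 (rcs127Sw (rpj69Y L κ m)) J \ rpj69G L κ m J false ⊆ (rcs127Sw (rpj69Y L κ m)).V :=
    Finset.sdiff_subset.trans (Finset.union_subset Finset.sdiff_subset ((rcs127_V0_sub_V1).trans (rpq162_V1_sub h0 hwS hJ)))
  have hF' : rcs127V2 (rcs127OutP (rpj69Y L κ m) J) (rpj69G L κ m J false) ⊆ (rcs127Sw (rpj69Y L κ m)).Fc := by
    rw [rpq162_comm_V2 (rpq162_geo ctx false)]
    exact Finset.sdiff_subset.trans (Finset.union_subset Finset.sdiff_subset ((rcs127_V0_sub_V1).trans (rpq162_V1_sub h0' hwY hG)))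
  have hE' : rcs127E2 (rcs127OutP (rpj69Y L κ m) J) (rpj69G L κ m J false) ⊆ (rcs127Sw (rpj69Y L κ m)).E :=
    fun e he => (rpq162_outP_E.1 (rcs127_mem_E2.1 he).1).1
  have key := rpq162_res_Pr h0 hwS hV' hF' hE' t (Rpj69K L κ m J true) (fun ω => rcy162Fld L (rcy162Cyl L 0 H) ω ∈ cyBlk σ κ (κ + m - 1))
  rw [rpq162_I1 ctx hL, rpq162_I2 ctx hL, rpq162_I3 ctx hL] at key
  have key' : rpj69Lam t L H κ m J true (cyBlk σ κ (κ + m - 1)) = (rcs127Sw (rpj69D L κ m J false)).Pr t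
      (fun ω => Rpj69K L κ m J true (rcy162Map (rcp162gV L 0 (κ + m / 2)) (rcp162gF L 0 (κ + m / 2)) (rcp162gE L 0 (κ + m / 2)) ω))
      (fun ω => rcy162Fld L (rcy162Cyl L 0 H) (rcy162Map (rcp162gV L 0 (κ + m / 2)) (rcp162gF L 0 (κ + m / 2)) (rcp162gE L 0 (κ + m / 2)) ω)
        ∈ cyBlk σ κ (κ + m - 1)) := key
  rw [key']
  unfold rpj69LamD
  have hcfg : ∀ ω : RswCfg, (rcs127Sw (rpj69D L κ m J false)).Cfg ω → (rcs127Sw (rpj69Y L κ m)).Cfg ω :=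
    fun ω hω => ⟨hω.1.trans hV', hω.2.1.trans hF', hω.2.2.trans hE'⟩
  rw [rcy162_P_congr_K _ t (fun ω hω => rpq162_K ctx hL (hcfg ω hω).1 (hcfg ω hω).2.1)]
  exact rcy162_P_mono' _ _ h0t h1t fun ω hω _ h => rpq162_ev ctx hL (hcfg ω hω) hσ h

/-! ## 5. the field `geoG` of `Rpt127Geo` (127) from the field `geoJ`, by the self-duality -/

/-- the geometric condition of an admissible record (`Rcs127Adm.geo`) -/
def Rpq162Geo (Z : Rcy162Sys) (J : Finset (ℤ × ℤ)) : Prop :=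
  ∀ e ∈ rcs127E2 Z J, (Z.p0 e ∈ rcs127V1 Z J → Z.p0 e ∈ rcs127V0 Z J) ∧ (Z.p1 e ∈ rcs127V1 Z J → Z.p1 e ∈ rcs127V0 Z J)

section geo

variable {A B : Rcy162Sys} {gV gF : ℤ × ℤ → ℤ × ℤ} {gE : (ℤ × ℤ) × Bool → (ℤ × ℤ) × Bool} (h : Rcy162Hom A B gV gF gE) (hw : A.WF)
  {J : Finset (ℤ × ℤ)} (hJ : J ⊆ A.Fc)

include h hw hJ

theorem rpq162_mem_V1 {v : ℤ × ℤ} (hv : v ∈ A.V) : gV v ∈ rcs127V1 B (J.image gF) ↔ v ∈ rcs127V1 A J := by
  rw [← rpq162_V1 h hw hJ]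
  exact rcy162_mem_image_iff h.injV (rpq162_V1_sub h hw hJ) hv

theorem rpq162_mem_V0 {v : ℤ × ℤ} (hv : v ∈ A.V) : gV v ∈ rcs127V0 B (J.image gF) ↔ v ∈ rcs127V0 A J := by
  rw [← rpq162_V0 h hw hJ]
  exact rcy162_mem_image_iff h.injV ((rcs127_V0_sub_V1).trans (rpq162_V1_sub h hw hJ)) hv

/-- the condition is invariant under a morphism -/
theorem rpq162_geo_iff : Rpq162Geo B (J.image gF) ↔ Rpq162Geo A J := by
  constructor
  · intro g e he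
    have he1 := (rcs127_mem_E2.1 he).1
    have he' : gE e ∈ rcs127E2 B (J.image gF) := by
      rw [← rpq162_E2 h hw hJ]; exact Finset.mem_image_of_mem _ he
    obtain ⟨g0, g1⟩ := g _ he'
    have a0 := rpq162_mem_V1 h hw hJ (hw.p0 e he1)
    have a1 := rpq162_mem_V1 h hw hJ (hw.p1 e he1)
    have b0 := rpq162_mem_V0 h hw hJ (hw.p0 e he1)
    have b1 := rpq162_mem_V0 h hw hJ (hw.p1 e he1)
    rcases h.pp e he1 with ⟨x, y⟩ | ⟨x, y⟩
    · rw [x, a0, b0] at g0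
      rw [y, a1, b1] at g1
      exact ⟨g0, g1⟩
    · rw [x, a1, b1] at g0
      rw [y, a0, b0] at g1
      exact ⟨g1, g0⟩
  · intro g e' he'
    rw [← rpq162_E2 h hw hJ] at he'
    obtain ⟨e, he, rfl⟩ := Finset.mem_image.1 he'
    have he1 := (rcs127_mem_E2.1 he).1
    obtain ⟨g0, g1⟩ := g _ he
    have a0 := rpq162_mem_V1 h hw hJ (hw.p0 e he1)
    have a1 := rpq162_mem_V1 h hw hJ (hw.p1 e he1)
    have b0 := rpq162_mem_V0 h hw hJ (hw.p0 e he1)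
    have b1 := rpq162_mem_V0 h hw hJ (hw.p1 e he1)
    rcases h.pp e he1 with ⟨x, y⟩ | ⟨x, y⟩
    · rw [x, y, a0, b0, a1, b1]
      exact ⟨g0, g1⟩
    · rw [x, y, a0, b0, a1, b1]
      exact ⟨g1, g0⟩

end geo

/-- **the field `geoG` of `Rpt127Geo (rpj69Y L κ m) J (rpj69G L κ m J s) q u₀` from its field `geoJ`** (both `s`) -/
theorem rpq162_geoG {L H : ℕ} {k m κ : ℤ} {J : Finset (ℤ × ℤ)} (ctx : Rpj69Ctx L H k m κ J) (hL : 0 < L) (s : Bool)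
    (gJ : ∀ e ∈ rcs127E2 (rcs127Sw (rpj69Y L κ m)) J,
      ((rpj69Y L κ m).f0 e ∈ rcs127V1 (rcs127Sw (rpj69Y L κ m)) J → (rpj69Y L κ m).f0 e ∈ rcs127V0 (rcs127Sw (rpj69Y L κ m)) J) ∧
      ((rpj69Y L κ m).f1 e ∈ rcs127V1 (rcs127Sw (rpj69Y L κ m)) J → (rpj69Y L κ m).f1 e ∈ rcs127V0 (rcs127Sw (rpj69Y L κ m)) J)) :
    ∀ e ∈ rcs127E2 (rcs127OutP (rpj69Y L κ m) J) (rpj69G L κ m J s),
      ((rpj69Y L κ m).p0 e ∈ rcs127V1 (rcs127OutP (rpj69Y L κ m) J) (rpj69G L κ m J s) →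
        (rpj69Y L κ m).p0 e ∈ rcs127V0 (rcs127OutP (rpj69Y L κ m) J) (rpj69G L κ m J s)) ∧
      ((rpj69Y L κ m).p1 e ∈ rcs127V1 (rcs127OutP (rpj69Y L κ m) J) (rpj69G L κ m J s) →
        (rpj69Y L κ m).p1 e ∈ rcs127V0 (rcs127OutP (rpj69Y L κ m) J) (rpj69G L κ m J s)) := by
  have h0 : Rcy162Hom (rcs127Sw (rpj69Y L κ m)) (rpj69Y L κ m) _ _ _ := rcp162_hom hL 0 (κ + m / 2)
  have h0' : Rcy162Hom (rpj69Y L κ m) (rcs127Sw (rpj69Y L κ m)) _ _ _ := rcp162_hom_sw h0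
  have hwS : (rcs127Sw (rpj69Y L κ m)).WF := rcs127_sw_wf (rci69_cap_wf hL 0 _)
  have hwY : (rpj69Y L κ m).WF := rci69_cap_wf hL 0 _
  have hJ : J ⊆ (rcs127Sw (rpj69Y L κ m)).Fc := rpq162_J_sub ctx
  have hG := rpq162_G_false_sub ctx
  have gJ' : Rpq162Geo (rcs127Sw (rpj69Y L κ m)) J := gJ
  have gY : Rpq162Geo (rpj69Y L κ m) (rpj69G L κ m J s) := by
    cases s
    · refine (rpq162_geo_iff h0' hwY hG).1 ?_
      rw [rpq162_G_false_img ctx hL]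
      exact gJ'
    · rw [rpq162_G_true ctx]
      exact (rpq162_geo_iff h0 hwS hJ).2 gJ'
  intro e he
  rw [rpq162_comm_V1 (rpq162_geo ctx s), rpq162_comm_V0 (rpq162_geo ctx s)]
  rw [rpq162_E2_inter] at he
  exact gY e (Finset.mem_inter.1 he).2

theorem rpq162_defs_eqns_cite : True := by
  have := @Rpq162Geo.eq_1
  trivial

end Claimed.Agent.R292
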