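import Claimed.Agent.R292.Rsw.PerJ69

/-!
# R292 / Rsw / PerJW111 (111): the deterministic contracts of the frame `PerJ69` : (WF) `Rpj69Wf`, the admissibility of the two records on the cap

TEXT.   `Y` = the cap `rpj69Y L κ m`, `Z = rcs127OutP Y J`, `D_s = rcs127Out Z (G_s)`.
* Sec. 1 (abstract): the unexplored system of an admissible record is well formed (`rpw111_out_wf`); hence `D_s` is well formed as soon as
  `J` is admissible in `Sw Y` and `G_s` is admissible in `Z` (`rpw111_wf_of_adm`).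
* Sec. 2 (abstract): a record `G` admissible in `Y`, none of whose faces is touched by `J`, is admissible in `rcs127OutP Y J` (`rpw111_adm_outP`;
  tools `rpw111_survive`, `rpw111_V0_outP`, `rpw111_V1_of_outP`).
* Sec. 3 (cap): going round a face / a site of the cap (`rpw111_round_face`, `rpw111_round_site`); `rpw111_adm_sw_cap` (sites, bottom row inside),
  `rpw111_adm_cap` (faces, top row of faces inside).
* Sec. 4 (the frame): `rpw111_J_low`, `rpw111_J_sub`, `rpw111_G_high`, `rpw111_G_sub`, `rpw111_G_top`, `rpw111_G_disj` (g4), `rpw111_adm_J`, `rpw111_adm_G` (g2),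
  **`rpw111_Wf : 0 < L → Rpj69Wf L H`**.
* Sec. 5 (P3): `rpw111_band_E` (the pairs of the high band belong to `D_s`), `rpw111_K_full`, `rpw111_feas`, `rpw111_alt` (ALT in `D_s`, both `s`),
  **`rpw111_P3 : 1 / 2 ≤ t → t ≤ 1 → 0 < L → Rpj69P3 t L H`**.

Prefix `rpw111`.   0 sorry.
-/

set_option autoImplicit false
set_option linter.unusedVariables false
set_option linter.unusedSectionVars false

namespace Claimed.Agent.R292
open Claimed.Agent.R291 Claims Claims.C0468 Relation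

/-! ## 1. abstract: well-formedness of the unexplored systems -/

/-- the unexplored system of an admissible record (search in the statuses of `s`) is well formed -/
theorem rpw111_out_wf {Z : Rcy162Sys} {A₀ G : Finset (ℤ × ℤ)} (hw : Z.WF) (h : Rcs127Adm Z A₀ G) : (rcs127Out Z G).WF := by
  have c := rcs127_adm_cut hw h
  exact ⟨fun e he => (c.p2 e he).1, fun e he => (c.p2 e he).2.1, fun e he => (c.p2 e he).2.2.1, fun e he => (c.p2 e he).2.2.2⟩

/-- the doubly cut system is well formed as soon as the two records are admissible -/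
theorem rpw111_wf_of_adm {Y : Rcy162Sys} {A₀ J A₁ G : Finset (ℤ × ℤ)} (hw : Y.WF) (hJ : Rcs127Adm (rcs127Sw Y) A₀ J)
    (hG : Rcs127Adm (rcs127OutP Y J) A₁ G) : (rcs127Out (rcs127OutP Y J) G).WF :=
  rpw111_out_wf (rpj69_outP_wf hw hJ) hG

/-! ## 2. abstract: a record of faces which no explored pair touches stays admissible in the unexplored system -/

theorem rpw111_V0_elim {Z : Rcy162Sys} {G : Finset (ℤ × ℤ)} {v : ℤ × ℤ} (h : v ∈ rcs127V0 Z G) : ∃ e ∈ rcs127E0 Z G, Z.p0 e = v ∨ Z.p1 e = v := by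
  unfold rcs127V0 at h
  rcases Finset.mem_union.1 h with h | h
  · obtain ⟨e, he, hv⟩ := Finset.mem_image.1 h
    exact ⟨e, he, Or.inl hv⟩
  · obtain ⟨e, he, hv⟩ := Finset.mem_image.1 h
    exact ⟨e, he, Or.inr hv⟩

/-- a pair with a face in `G` survives the cut along `J` -/
theorem rpw111_survive {Y : Rcy162Sys} {J G : Finset (ℤ × ℤ)} (hsep : Disjoint G (rcs127V1 (rcs127Sw Y) J)) {e : (ℤ × ℤ) × Bool} (hE : e ∈ Y.E)
    (hg : Y.f0 e ∈ G ∨ Y.f1 e ∈ G) : e ∈ (rcs127OutP Y J).E := by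
  have hE' : e ∈ (rcs127Sw Y).E := hE
  show e ∈ rcs127E2 (rcs127Sw Y) J
  by_contra hcon
  have hV1 : (rcs127Sw Y).p0 e ∈ rcs127V1 (rcs127Sw Y) J ∧ (rcs127Sw Y).p1 e ∈ rcs127V1 (rcs127Sw Y) J := by
    by_cases h01 : ((rcs127Sw Y).f0 e ∈ J ↔ (rcs127Sw Y).f1 e ∈ J)
    · have h1 : e ∈ rcs127E1 (rcs127Sw Y) J := by
        refine rcs127_mem_E1.2 ⟨hE', ?_⟩
        by_contra h2
        exact hcon (rcs127_mem_E2.2 ⟨hE', by tauto⟩)
      exact rcs127_p_V1 h1
    · have h1 : e ∈ rcs127E0 (rcs127Sw Y) J := rcs127_mem_E0.2 ⟨hE', h01⟩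
      exact ⟨rcs127_V0_sub_V1 (rcs127_p_V0 h1).1, rcs127_V0_sub_V1 (rcs127_p_V0 h1).2⟩
  have d := Finset.disjoint_left.1 hsep
  rcases hg with g | g
  · exact d g hV1.1
  · exact d g hV1.2

theorem rpw111_V0_outP {Y : Rcy162Sys} {J G : Finset (ℤ × ℤ)} (hsep : Disjoint G (rcs127V1 (rcs127Sw Y) J)) {v : ℤ × ℤ} (h : v ∈ rcs127V0 Y G) :
    v ∈ rcs127V0 (rcs127OutP Y J) G := by
  obtain ⟨e, he, hv⟩ := rpw111_V0_elim h
  obtain ⟨hE, hn⟩ := rcs127_mem_E0.1 he
  have hg : Y.f0 e ∈ G ∨ Y.f1 e ∈ G := by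
    by_contra hc
    exact hn ⟨fun x => absurd (Or.inl x) hc, fun x => absurd (Or.inr x) hc⟩
  exact rcd111_mem_V0 (Z := rcs127OutP Y J) (rpw111_survive hsep hE hg) hn hv

theorem rpw111_V1_of_outP {Y : Rcy162Sys} {J G : Finset (ℤ × ℤ)} {v : ℤ × ℤ} (h : v ∈ rcs127V1 (rcs127OutP Y J) G) : v ∈ rcs127V1 Y G := by
  have hEE : ∀ e, e ∈ (rcs127OutP Y J).E → e ∈ Y.E := fun e he => (rcs127_mem_E2.1 (show e ∈ rcs127E2 (rcs127Sw Y) J from he)).1
  rcases rcd111_mem_V1 h with h | ⟨e, he, hv⟩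
  · obtain ⟨e, he, hv⟩ := rpw111_V0_elim h
    obtain ⟨hE, hn⟩ := rcs127_mem_E0.1 he
    exact rcs127_V0_sub_V1 (rcd111_mem_V0 (Z := Y) (hEE e hE) hn hv)
  · obtain ⟨hE, m⟩ := rcs127_mem_E1.1 he
    have h1 : e ∈ rcs127E1 Y G := rcs127_mem_E1.2 ⟨hEE e hE, m⟩
    rcases hv with hv | hv
    · rw [← hv]; exact (rcs127_p_V1 h1).1
    · rw [← hv]; exact (rcs127_p_V1 h1).2

/-- **a record `G` admissible in `Y`, none of whose faces is touched by the record `J`, is admissible in the unexplored system of `J`** -/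
theorem rpw111_adm_outP {Y : Rcy162Sys} {J A₁ G : Finset (ℤ × ℤ)} (hG : Rcs127Adm Y A₁ G) (hsep : Disjoint G (rcs127V1 (rcs127Sw Y) J)) :
    Rcs127Adm (rcs127OutP Y J) A₁ G where
  sub0 := hG.sub0
  subF := by
    intro f hf
    show f ∈ rcs127V2 (rcs127Sw Y) J
    exact Finset.mem_union_left _ (Finset.mem_sdiff.2 ⟨hG.subF hf, Finset.disjoint_left.1 hsep hf⟩)
  geo := by
    intro e he
    obtain ⟨hE, n⟩ := rcs127_mem_E2.1 he
    have hE2 : e ∈ rcs127E2 Y G := rcs127_mem_E2.2 ⟨(rcs127_mem_E2.1 (show e ∈ rcs127E2 (rcs127Sw Y) J from hE)).1, n⟩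
    exact ⟨fun h => rpw111_V0_outP hsep ((hG.geo e hE2).1 (rpw111_V1_of_outP h)), fun h => rpw111_V0_outP hsep ((hG.geo e hE2).2 (rpw111_V1_of_outP h))⟩

/-! ## 3. going round a face and round a site of the cap -/

section cap

variable {L : ℕ} {a b : ℤ}

theorem rpw111_cap_cylE {e : (ℤ × ℤ) × Bool} (he : e ∈ (rci69Cap L a b).E) : e ∈ (rcy162Cyl L (a - 1) b).E := by
  obtain ⟨r, h1, h2⟩ := rci69_mem_capE.1 he
  refine rcy162_mem_cylE.2 ⟨r, ?_⟩
  cases h : e.2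
  · exact Or.inl ⟨rfl, by omega, h2⟩
  · exact Or.inr ⟨rfl, by omega, h2⟩

theorem rpw111_bot_eq {z f : ℤ × ℤ} (h : rci69BotF a z = f) (hf : f.2 ≠ a - 1) : z = f := by
  by_cases hz : z.2 = a - 1
  · rw [rcp162_bot_pole hz] at h
    exact absurd (by rw [← h]) hf
  · rwa [rcp162_bot_in hz] at h

theorem rpw111_top_eq {z v : ℤ × ℤ} (h : rci69TopV b z = v) (hv : v.2 ≠ b) : z = v := by
  by_cases hz : z.2 = b
  · rw [rcp162_top_pole hz] at h
    exact absurd (by rw [← h]) hv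
  · rwa [rcp162_top_in hz] at h

/-- the four pairs at an ordinary face of the cap -/
theorem rpw111_at_face {e : (ℤ × ℤ) × Bool} (he : e ∈ (rci69Cap L a b).E) {f : ℤ × ℤ} (hf2 : f.2 ≠ a - 1)
    (hf : (rci69Cap L a b).f0 e = f ∨ (rci69Cap L a b).f1 e = f) :
    e = (f, false) ∨ e = (f, true) ∨ e = ((f.1, f.2 + 1), false) ∨ e = (rcy162Red L (f.1 + 1, f.2), true) :=
  rcd111_at_face (rpw111_cap_cylE he) (hf.imp (fun h => h) (fun h => rpw111_bot_eq h hf2))

/-- the four pairs at an ordinary site of the cap -/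
theorem rpw111_at_site {e : (ℤ × ℤ) × Bool} (he : e ∈ (rci69Cap L a b).E) {v : ℤ × ℤ} (hv2 : v.2 ≠ b)
    (hv : (rci69Cap L a b).p0 e = v ∨ (rci69Cap L a b).p1 e = v) :
    e = (v, false) ∨ e = (v, true) ∨ e = (rcy162Red L (v.1 - 1, v.2), false) ∨ e = ((v.1, v.2 - 1), true) :=
  rcd111_at_site (rpw111_cap_cylE he) (hv.imp (fun h => h) (fun h => rpw111_top_eq h hv2))

theorem rpw111_prop3 (p0 pQ pS pR : Prop) (Hout : (¬ p0 ∧ ¬ pQ) ∨ (¬ p0 ∧ ¬ pS) ∨ (¬ pS ∧ ¬ pR) ∨ (¬ pQ ∧ ¬ pR))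
    (Hin : (p0 ∧ pQ) ∨ (p0 ∧ pS) ∨ (pS ∧ pR) ∨ (pQ ∧ pR)) (k1 : p0 ↔ pS) (k2 : pQ ↔ pR) (k3 : p0 ↔ pQ) : False := by
  tauto

/-- **going round a face of the cap** (the record contains the bottom row) -/
theorem rpw111_round_face (hL : 0 < L) {J : Finset (ℤ × ℤ)} (hrow : rcy162Row L a ⊆ J) {f : ℤ × ℤ} {e e' : (ℤ × ℤ) × Bool}
    (he : e ∈ rcs127E2 (rcs127Sw (rci69Cap L a b)) J) (hf : (rci69Cap L a b).f0 e = f ∨ (rci69Cap L a b).f1 e = f)
    (he' : e' ∈ rcs127E1 (rcs127Sw (rci69Cap L a b)) J) (hf' : (rci69Cap L a b).f0 e' = f ∨ (rci69Cap L a b).f1 e' = f) :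
    f ∈ rcs127V0 (rcs127Sw (rci69Cap L a b)) J := by
  obtain ⟨hE, n0, n1⟩ := rcs127_mem_E2.1 he
  obtain ⟨hE', m0, m1⟩ := rcs127_mem_E1.1 he'
  have hE : e ∈ (rci69Cap L a b).E := hE
  have hE' : e' ∈ (rci69Cap L a b).E := hE'
  have n0 : (rci69Cap L a b).p0 e ∉ J := n0
  have n1 : (rci69Cap L a b).p1 e ∉ J := n1
  have m0 : (rci69Cap L a b).p0 e' ∈ J := m0
  have m1 : (rci69Cap L a b).p1 e' ∈ J := m1
  have hw := rci69_cap_wf hL a b
  have hfF : f ∈ (rci69Cap L a b).Fc := by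
    rcases hf with h | h
    · rw [← h]; exact hw.f0 _ hE
    · rw [← h]; exact hw.f1 _ hE
  obtain ⟨rE, rE1, rE2⟩ := rci69_mem_capE.1 hE
  rcases rci69_mem_capF.1 hfF with ⟨r, ry1, ry2⟩ | hpole
  · obtain ⟨x, y⟩ := f
    simp only at r ry1 ry2
    set Q : ℤ × ℤ := rcy162Red L (x + 1, y) with hQ
    set R : ℤ × ℤ := rci69TopV b (rcy162Red L (x + 1, y + 1)) with hR
    set S : ℤ × ℤ := rci69TopV b (x, y + 1) with hS
    have rQ := rcy162_red_range hL (x + 1, y)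
    have pB1 : (rci69Cap L a b).p1 ((x, y), false) = Q := by
      rw [rcp162_cap_p1, rtd111_end_f]
      exact rcp162_top_in (by rw [rcy162_red_snd]; simp only; omega)
    have pL1 : (rci69Cap L a b).p1 ((x, y), true) = S := by
      rw [rcp162_cap_p1, rtd111_end_t, rcy162_red_of_range (u := (x, y + 1)) r.1 r.2]
    have pT1 : (rci69Cap L a b).p1 ((x, y + 1), false) = R := rfl
    have pR1 : (rci69Cap L a b).p1 (Q, true) = R := by
      have h := rcd111_red_end L ((x + 1, y), true)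
      rw [rtd111_end_t] at h
      rw [rcp162_cap_p1, hR, ← h]
      rfl
    have fR1 : (rci69Cap L a b).f1 (Q, true) = (x, y) := by
      have h := rcd111_red_co L ((x + 1, y), true)
      rw [rtd111_co_t, add_sub_cancel_right, rcy162_red_of_range (u := (x, y)) r.1 r.2] at h
      rw [rcp162_cap_f1]
      have h' : rcy162Red L (rswCo (Q, true)) = (x, y) := h
      rw [h']
      exact rcp162_bot_in (by simp only; omega)
    have mB : ((x, y), false) ∈ (rci69Cap L a b).E := rci69_mem_capE.2 ⟨r, ry1, ry2⟩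
    have mL : ((x, y), true) ∈ (rci69Cap L a b).E := rci69_mem_capE.2 ⟨r, ry1, ry2⟩
    have mR : (Q, true) ∈ (rci69Cap L a b).E := rci69_mem_capE.2 ⟨rQ, ry1, ry2⟩
    have pT0 : ((x, y + 1), false) ∈ (rci69Cap L a b).E → (x, y + 1) = S := by
      intro h
      have := (rci69_mem_capE.1 h).2.2
      simp only at this
      rw [hS, rcp162_top_in (by simp only; omega)]
    have Hout : ((x, y) ∉ J ∧ Q ∉ J) ∨ ((x, y) ∉ J ∧ S ∉ J) ∨ (S ∉ J ∧ R ∉ J) ∨ (Q ∉ J ∧ R ∉ J) := by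
      rcases rpw111_at_face hE (by simp only; omega) hf with rfl | rfl | rfl | rfl
      · rw [pB1] at n1; exact Or.inl ⟨n0, n1⟩
      · rw [pL1] at n1; exact Or.inr (Or.inl ⟨n0, n1⟩)
      · rw [pT1] at n1
        have n0' : (x, y + 1) ∉ J := n0
        rw [pT0 hE] at n0'
        exact Or.inr (Or.inr (Or.inl ⟨n0', n1⟩))
      · rw [pR1] at n1; exact Or.inr (Or.inr (Or.inr ⟨n0, n1⟩))
    have Hin : ((x, y) ∈ J ∧ Q ∈ J) ∨ ((x, y) ∈ J ∧ S ∈ J) ∨ (S ∈ J ∧ R ∈ J) ∨ (Q ∈ J ∧ R ∈ J) := by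
      rcases rpw111_at_face hE' (by simp only; omega) hf' with rfl | rfl | rfl | rfl
      · rw [pB1] at m1; exact Or.inl ⟨m0, m1⟩
      · rw [pL1] at m1; exact Or.inr (Or.inl ⟨m0, m1⟩)
      · rw [pT1] at m1
        have m0' : (x, y + 1) ∈ J := m0
        rw [pT0 hE'] at m0'
        exact Or.inr (Or.inr (Or.inl ⟨m0', m1⟩))
      · rw [pR1] at m1; exact Or.inr (Or.inr (Or.inr ⟨m0, m1⟩))
    have V0 : ∀ e0 : (ℤ × ℤ) × Bool, e0 ∈ (rci69Cap L a b).E → ¬ ((rci69Cap L a b).p0 e0 ∈ J ↔ (rci69Cap L a b).p1 e0 ∈ J) →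
        ((rci69Cap L a b).f0 e0 = (x, y) ∨ (rci69Cap L a b).f1 e0 = (x, y)) → (x, y) ∈ rcs127V0 (rcs127Sw (rci69Cap L a b)) J :=
      fun e0 h1 h2 h3 => rcd111_mem_V0 (Z := rcs127Sw (rci69Cap L a b)) h1 h2 h3
    by_cases k1 : ((x, y) ∈ J ↔ S ∈ J)
    · by_cases k2 : (Q ∈ J ↔ R ∈ J)
      · by_cases k3 : ((x, y) ∈ J ↔ Q ∈ J)
        · exact (rpw111_prop3 _ _ _ _ Hout Hin k1 k2 k3).elim
        · exact V0 _ mB (by rw [pB1]; exact k3) (Or.inl rfl)
      · exact V0 _ mR (by rw [pR1]; exact k2) (Or.inr fR1)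
    · exact V0 _ mL (by rw [pL1]; exact k1) (Or.inl rfl)
  · exfalso
    obtain ⟨⟨x, y⟩, q⟩ := e
    simp only at rE rE1 rE2
    rcases hf with h | h
    · have h2 : y = f.2 := by rw [← h]; rfl
      rw [hpole] at h2
      simp only at h2
      omega
    · have h2 : (rswCo ((x, y), q)).2 = f.2 := by
        rw [← h, rcp162_cap_f1, rcd111_bot_snd, rcy162_red_snd]
      rw [hpole] at h2
      cases q
      · rw [rtd111_co_f] at h2
        simp only at h2
        exact n0 (hrow (rcy162_mem_row.2 ⟨rE, by show y = a; omega⟩))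
      · rw [rtd111_co_t] at h2
        simp only at h2
        omega

/-- **every set of sites of the cap which contains the bottom row is an admissible record of the exchanged cap** -/
theorem rpw111_adm_sw_cap (hL : 0 < L) {A₀ J : Finset (ℤ × ℤ)} (h0 : A₀ ⊆ J) (hrow : rcy162Row L a ⊆ J) (hJ : J ⊆ (rci69Cap L a b).V) :
    Rcs127Adm (rcs127Sw (rci69Cap L a b)) A₀ J where
  sub0 := h0
  subF := hJ
  geo := by
    intro e he
    constructor
    · intro h
      rcases rcd111_mem_V1 h with h | ⟨e', he', hv'⟩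
      · exact h
      · exact rpw111_round_face hL hrow he (Or.inl rfl) he' hv'
    · intro h
      rcases rcd111_mem_V1 h with h | ⟨e', he', hv'⟩
      · exact h
      · exact rpw111_round_face hL hrow he (Or.inr rfl) he' hv'

theorem rpw111_prop3' (pA pD pB pC : Prop) (Hout : (¬ pA ∧ ¬ pD) ∨ (¬ pA ∧ ¬ pB) ∨ (¬ pB ∧ ¬ pC) ∨ (¬ pD ∧ ¬ pC))
    (Hin : (pA ∧ pD) ∨ (pA ∧ pB) ∨ (pB ∧ pC) ∨ (pD ∧ pC)) (k1 : pA ↔ pB) (k2 : pB ↔ pC) (k3 : pA ↔ pD) : False := by
  tauto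

/-- **going round a site of the cap** (the record of faces contains the top row of faces) -/
theorem rpw111_round_site (hL : 0 < L) {G : Finset (ℤ × ℤ)} (hrow : rcy162Row L (b - 1) ⊆ G) {v : ℤ × ℤ} {e e' : (ℤ × ℤ) × Bool}
    (he : e ∈ rcs127E2 (rci69Cap L a b) G) (hv : (rci69Cap L a b).p0 e = v ∨ (rci69Cap L a b).p1 e = v)
    (he' : e' ∈ rcs127E1 (rci69Cap L a b) G) (hv' : (rci69Cap L a b).p0 e' = v ∨ (rci69Cap L a b).p1 e' = v) :
    v ∈ rcs127V0 (rci69Cap L a b) G := by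
  obtain ⟨hE, n0, n1⟩ := rcs127_mem_E2.1 he
  obtain ⟨hE', m0, m1⟩ := rcs127_mem_E1.1 he'
  have hw := rci69_cap_wf hL a b
  have hvV : v ∈ (rci69Cap L a b).V := by
    rcases hv with h | h
    · rw [← h]; exact hw.p0 _ hE
    · rw [← h]; exact hw.p1 _ hE
  obtain ⟨rE, rE1, rE2⟩ := rci69_mem_capE.1 hE
  rcases rci69_mem_capV.1 hvV with ⟨r, ry1, ry2⟩ | hpole
  · obtain ⟨x, y⟩ := v
    simp only at r ry1 ry2
    set B : ℤ × ℤ := rcy162Red L (x - 1, y) with hB
    set C : ℤ × ℤ := rci69BotF a (rcy162Red L (x - 1, y - 1)) with hC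
    set D : ℤ × ℤ := rci69BotF a (x, y - 1) with hD
    have rB := rcy162_red_range hL (x - 1, y)
    have fE1 : (rci69Cap L a b).f1 ((x, y), false) = D := by
      rw [rcp162_cap_f1, rtd111_co_f, rcy162_red_of_range (u := (x, y - 1)) r.1 r.2]
    have fN1 : (rci69Cap L a b).f1 ((x, y), true) = B := by
      rw [rcp162_cap_f1, rtd111_co_t]
      exact rcp162_bot_in (by rw [rcy162_red_snd]; simp only; omega)
    have fW1 : (rci69Cap L a b).f1 (B, false) = C := by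
      have h := rcd111_red_co L ((x - 1, y), false)
      rw [rtd111_co_f] at h
      rw [rcp162_cap_f1, hC, ← h]
      rfl
    have fS1 : (rci69Cap L a b).f1 ((x, y - 1), true) = C := rfl
    have pW1 : (rci69Cap L a b).p1 (B, false) = (x, y) := by
      have h := rcd111_red_end L ((x - 1, y), false)
      rw [rtd111_end_f, sub_add_cancel, rcy162_red_of_range (u := (x, y)) r.1 r.2] at h
      rw [rcp162_cap_p1]
      have h' : rcy162Red L (rswEnd (B, false)) = (x, y) := h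
      rw [h']
      exact rcp162_top_in (by simp only; omega)
    have mE : ((x, y), false) ∈ (rci69Cap L a b).E := rci69_mem_capE.2 ⟨r, ry1, ry2⟩
    have mN : ((x, y), true) ∈ (rci69Cap L a b).E := rci69_mem_capE.2 ⟨r, ry1, ry2⟩
    have mW : (B, false) ∈ (rci69Cap L a b).E := rci69_mem_capE.2 ⟨rB, ry1, ry2⟩
    have fS0 : ((x, y - 1), true) ∈ (rci69Cap L a b).E → (x, y - 1) = D := by
      intro h
      have := (rci69_mem_capE.1 h).2.1
      simp only at this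
      rw [hD, rcp162_bot_in (by simp only; omega)]
    have Hout : ((x, y) ∉ G ∧ D ∉ G) ∨ ((x, y) ∉ G ∧ B ∉ G) ∨ (B ∉ G ∧ C ∉ G) ∨ (D ∉ G ∧ C ∉ G) := by
      rcases rpw111_at_site hE (by simp only; omega) hv with rfl | rfl | rfl | rfl
      · rw [fE1] at n1; exact Or.inl ⟨n0, n1⟩
      · rw [fN1] at n1; exact Or.inr (Or.inl ⟨n0, n1⟩)
      · rw [fW1] at n1; exact Or.inr (Or.inr (Or.inl ⟨n0, n1⟩))
      · rw [fS1] at n1
        have n0' : (x, y - 1) ∉ G := n0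
        rw [fS0 hE] at n0'
        exact Or.inr (Or.inr (Or.inr ⟨n0', n1⟩))
    have Hin : ((x, y) ∈ G ∧ D ∈ G) ∨ ((x, y) ∈ G ∧ B ∈ G) ∨ (B ∈ G ∧ C ∈ G) ∨ (D ∈ G ∧ C ∈ G) := by
      rcases rpw111_at_site hE' (by simp only; omega) hv' with rfl | rfl | rfl | rfl
      · rw [fE1] at m1; exact Or.inl ⟨m0, m1⟩
      · rw [fN1] at m1; exact Or.inr (Or.inl ⟨m0, m1⟩)
      · rw [fW1] at m1; exact Or.inr (Or.inr (Or.inl ⟨m0, m1⟩))
      · rw [fS1] at m1
        have m0' : (x, y - 1) ∈ G := m0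
        rw [fS0 hE'] at m0'
        exact Or.inr (Or.inr (Or.inr ⟨m0', m1⟩))
    by_cases k1 : ((x, y) ∈ G ↔ B ∈ G)
    · by_cases k2 : (B ∈ G ↔ C ∈ G)
      · by_cases k3 : ((x, y) ∈ G ↔ D ∈ G)
        · exact (rpw111_prop3' _ _ _ _ Hout Hin k1 k2 k3).elim
        · exact rcd111_mem_V0 mE (by rw [fE1]; exact k3) (Or.inl rfl)
      · exact rcd111_mem_V0 mW (by rw [fW1]; exact k2) (Or.inr pW1)
    · exact rcd111_mem_V0 mN (by rw [fN1]; exact k1) (Or.inl rfl)
  · exfalso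
    obtain ⟨⟨x, y⟩, q⟩ := e
    simp only at rE rE1 rE2
    rcases hv with h | h
    · have h2 : y = v.2 := by rw [← h]; rfl
      rw [hpole] at h2
      simp only at h2
      omega
    · have h2 : (rswEnd ((x, y), q)).2 = v.2 := by
        rw [← h, rcp162_cap_p1, rcd111_top_snd, rcy162_red_snd]
      rw [hpole] at h2
      cases q
      · rw [rtd111_end_f] at h2
        simp only at h2
        omega
      · rw [rtd111_end_t] at h2
        simp only at h2
        exact n0 (hrow (rcy162_mem_row.2 ⟨rE, by show y = b - 1; omega⟩))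

/-- **every set of faces of the cap which contains the top row of faces is an admissible record of the cap** -/
theorem rpw111_adm_cap (hL : 0 < L) {A₀ G : Finset (ℤ × ℤ)} (h0 : A₀ ⊆ G) (hrow : rcy162Row L (b - 1) ⊆ G) (hG : G ⊆ (rci69Cap L a b).Fc) :
    Rcs127Adm (rci69Cap L a b) A₀ G where
  sub0 := h0
  subF := hG
  geo := by
    intro e he
    constructor
    · intro h
      rcases rcd111_mem_V1 h with h | ⟨e', he', hv'⟩
      · exact h
      · exact rpw111_round_site hL hrow he (Or.inl rfl) he' hv'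
    · intro h
      rcases rcd111_mem_V1 h with h | ⟨e', he', hv'⟩
      · exact h
      · exact rpw111_round_site hL hrow he (Or.inr rfl) he' hv'

end cap

/-! ## 4. the two records of the frame `PerJ69` -/

section ctx

variable {L H : ℕ} {k m κ : ℤ} {J : Finset (ℤ × ℤ)}

theorem rpw111_b (c : Rpj69Ctx L H k m κ J) : 2 * (κ + m / 2) - 1 = 2 * κ + m - 1 := by
  obtain ⟨r, hr⟩ := c.hme
  omega

/-- the record lies under the row `b - 1` of the cap -/
theorem rpw111_J_low (c : Rpj69Ctx L H k m κ J) : ∀ v ∈ J, v.2 < κ + m / 2 := by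
  intro v hv
  have := c.hlow v hv
  have := rpw111_b c
  have := c.hκ; have := c.hm; have := c.hk
  omega

theorem rpw111_J_sub (c : Rpj69Ctx L H k m κ J) : J ⊆ (rpj69Y L κ m).V := rcd111_sub_capV c.hV (rpw111_J_low c)

/-- the faces of `G_s` lie above the refined row `2 H + m + 7` -/
theorem rpw111_G_high (c : Rpj69Ctx L H k m κ J) (s : Bool) : ∀ f ∈ rpj69G L κ m J s, 2 * (H : ℤ) + m + 7 < 2 * f.2 + 1 := by
  intro f hf
  cases s
  · have hf' : f ∈ (rpj69Y L κ m).Fc.filter (fun f => rcp162gV L 0 (κ + m / 2) f ∈ J) := hf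
    exact rcd111_rho_inv_high (rpw111_b c) c.hN (c.hlow _ (Finset.mem_filter.1 hf').2)
  · have hf' : f ∈ J.image (rcp162gF L 0 (κ + m / 2)) := hf
    obtain ⟨v, hv, rfl⟩ := Finset.mem_image.1 hf'
    exact rcd111_rho_high (rpw111_b c) c.hN (c.hlow v hv)

theorem rpw111_G_sub (hL : 0 < L) (c : Rpj69Ctx L H k m κ J) (s : Bool) : rpj69G L κ m J s ⊆ (rpj69Y L κ m).Fc := by
  intro f hf
  cases s
  · have hf' : f ∈ (rpj69Y L κ m).Fc.filter (fun f => rcp162gV L 0 (κ + m / 2) f ∈ J) := hf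
    exact (Finset.mem_filter.1 hf').1
  · have hf' : f ∈ J.image (rcp162gF L 0 (κ + m / 2)) := hf
    obtain ⟨v, hv, rfl⟩ := Finset.mem_image.1 hf'
    have h1 := rpw111_J_low c v hv
    obtain ⟨_, h2, _⟩ := rcy162_mem_cylV.1 (c.hV hv)
    rw [rcp162_gF_in L (by omega)]
    refine rci69_mem_capF.2 (Or.inl ⟨rcy162_red_range hL _, ?_, ?_⟩)
    · rw [rcy162_red_snd]; simp only; omega
    · rw [rcy162_red_snd]; simp only; omega

/-- `G_s` contains the top row of faces of the cap -/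
theorem rpw111_G_top (hL : 0 < L) (c : Rpj69Ctx L H k m κ J) (s : Bool) : rcy162Row L (κ + m / 2 - 1) ⊆ rpj69G L κ m J s := by
  intro f hf
  obtain ⟨r, hr⟩ := rcy162_mem_row.1 hf
  have hb : 0 < κ + m / 2 := by
    have := rpw111_b c
    have := c.hκ; have := c.hm; have := c.hk
    omega
  cases s
  · show f ∈ (rpj69Y L κ m).Fc.filter (fun f => rcp162gV L 0 (κ + m / 2) f ∈ J)
    refine Finset.mem_filter.2 ⟨rci69_mem_capF.2 (Or.inl ⟨r, by omega, by omega⟩), c.h0 ?_⟩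
    rw [rcp162_gV_in L (by omega)]
    exact rcy162_mem_row.2 ⟨rcy162_red_range hL _, by rw [rcy162_red_snd]; simp only; omega⟩
  · show f ∈ J.image (rcp162gF L 0 (κ + m / 2))
    refine Finset.mem_image.2 ⟨(f.1, 0), c.h0 (rcy162_mem_row.2 ⟨r, rfl⟩), ?_⟩
    rw [rcp162_gF_in L (by simp only; omega)]
    simp only
    rw [rcy162_red_of_range (by exact r.1) (by exact r.2)]
    exact Prod.ext rfl (by simp only; omega)

/-- **(g4) no face of `G_s` is touched by the record `J`** -/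
theorem rpw111_G_disj (c : Rpj69Ctx L H k m κ J) (s : Bool) : Disjoint (rpj69G L κ m J s) (rcs127V1 (rcs127Sw (rpj69Y L κ m)) J) := by
  refine Finset.disjoint_left.2 fun f hf hV => ?_
  obtain ⟨e, _, hp, hfe⟩ := rcs127_mem_V1_sw hV
  have hh := rpw111_G_high c s f hf
  have ht := rcd111_touch_high L 0 (κ + m / 2) (r := 2 * (H : ℤ) + m + 7) (e := e) (by
    rcases hfe with h | h
    · left; rw [h] at hh; exact hh
    · right; rw [h] at hh; exact hh)
  have := c.hκ; have := c.hκH; have := c.hm; have := c.hk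
  rcases hp with h | h
  · have h2 := c.hlow _ h
    have h3 : 2 * (H : ℤ) + m + 7 - 2 < 2 * ((rpj69Y L κ m).p0 e).2 := ht.2.1
    omega
  · have h2 := c.hlow _ h
    have h3 : 2 * (H : ℤ) + m + 7 - 1 < 2 * ((rpj69Y L κ m).p1 e).2 := ht.2.2
    omega

/-- **(g2, first half) the record `J` is admissible in the exchanged cap** -/
theorem rpw111_adm_J (hL : 0 < L) (c : Rpj69Ctx L H k m κ J) : Rcs127Adm (rcs127Sw (rpj69Y L κ m)) (rcy162Row L 0) J :=
  rpw111_adm_sw_cap hL c.h0 c.h0 (rpw111_J_sub c)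

/-- **(g2, second half) the record `G_s` is admissible in the unexplored system of `J`** -/
theorem rpw111_adm_G (hL : 0 < L) (c : Rpj69Ctx L H k m κ J) (s : Bool) :
    Rcs127Adm (rcs127OutP (rpj69Y L κ m) J) (rcy162Row L (κ + m / 2 - 1)) (rpj69G L κ m J s) :=
  rpw111_adm_outP (rpw111_adm_cap hL (rpw111_G_top hL c s) (rpw111_G_top hL c s) (rpw111_G_sub hL c s)) (rpw111_G_disj c s)

/-- **(WF) the contract `Rpj69Wf` of 69** -/
theorem rpw111_Wf (hL : 0 < L) (H : ℕ) : Rpj69Wf L H := by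
  intro k m κ J c s
  exact rpw111_wf_of_adm (rci69_cap_wf hL 0 (κ + m / 2)) (rpw111_adm_J hL c) (rpw111_adm_G hL c s)

end ctx

/-! ## 5. (P3): ALT in the doubly cut system -/

section p3

variable {L H : ℕ} {k m κ : ℤ} {J : Finset (ℤ × ℤ)}

/-- the pairs of the high band belong to the doubly cut system -/
theorem rpw111_band_E (hL : 0 < L) (c : Rpj69Ctx L H k m κ J) (s : Bool) {e : (ℤ × ℤ) × Bool} (h1 : κ ≤ (rtd111E e).2) (h2 : (rtd111E e).2 ≤ κ + m - 1) :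
    rcy162RedE L e ∈ (rpj69D L κ m J s).E := by
  have a1 := c.hκ; have a2 := c.hκH; have a3 := c.hm; have a4 := c.hk; have a5 := c.hN; have a6 := rpw111_b c
  obtain ⟨q0, q1, q2, q3⟩ := rcd111_band_survive L 0 (κ + m / 2) (c := κ) (d := κ + m - 1) (J := J) (T := rpj69G L κ m J s)
    (fun v hv => by have := c.hlow v hv; omega) (fun f hf => by have := rpw111_G_high c s f hf; omega) h1 h2
  have hY : rcy162RedE L e ∈ (rci69Cap L 0 (κ + m / 2)).E := by
    refine rci69_mem_capE.2 ⟨rcy162_red_range hL _, ?_⟩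
    obtain ⟨⟨x, y⟩, q⟩ := e
    show 0 ≤ y ∧ y < κ + m / 2
    cases q
    · rw [rtd111_E_f] at h1 h2
      simp only at h1 h2
      omega
    · rw [rtd111_E_t] at h1 h2
      simp only at h1 h2
      omega
  have hY' : rcy162RedE L e ∈ (rcs127Sw (rpj69Y L κ m)).E := hY
  have hZ : rcy162RedE L e ∈ rcs127E2 (rcs127Sw (rpj69Y L κ m)) J := rcs127_mem_E2.2 ⟨hY', q0, q1⟩
  have hZ' : rcy162RedE L e ∈ (rcs127OutP (rpj69Y L κ m) J).E := hZ
  show rcy162RedE L e ∈ rcs127E2 (rcs127OutP (rpj69Y L κ m) J) (rpj69G L κ m J s)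
  exact rcs127_mem_E2.2 ⟨hZ', q2, q3⟩

/-- the full configuration satisfies the pins -/
theorem rpw111_K_full (c : Rpj69Ctx L H k m κ J) (s : Bool) : Rpj69K L κ m J s (rpj69Full (rpj69D L κ m J s)) := by
  refine ⟨fun v hv => ⟨fun _ => rfl, fun _ => ?_⟩, fun f hf => ?_⟩
  · show v ∈ rcs127V2 (rcs127OutP (rpj69Y L κ m) J) (rpj69G L κ m J s)
    exact rcs127_V0_sub_V2 hv
  · show f ∈ rcs127V2 (rcs127Sw (rpj69Y L κ m)) J \ rpj69G L κ m J s
    exact Finset.mem_sdiff.2 ⟨rcs127_V0_sub_V2 hf, fun hG => Finset.disjoint_left.1 (rpw111_G_disj c s) hG (rcs127_V0_sub_V1 hf)⟩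

/-- the doubly cut system is feasible under its pins -/
theorem rpw111_feas {t : ℝ} (ht : 0 < t) (hL : 0 < L) (c : Rpj69Ctx L H k m κ J) (s : Bool) : (rpj69D L κ m J s).Feas t (Rpj69K L κ m J s) :=
  rpj69_full_feas _ (rpw111_Wf hL H k m κ J c s) ht (rpw111_K_full c s)

/-- **ALT in the doubly cut system `D_s`** (both signs of `s`) -/
theorem rpw111_alt {t : ℝ} (h0 : 1 / 2 ≤ t) (h1 : t ≤ 1) (hL : 0 < L) (c : Rpj69Ctx L H k m κ J) (s : Bool) :
    1 ≤ rpj69Lam t L H κ m J s (cyVP 1 κ (κ + m - 1)) + rpj69Lam t L H κ m J s (cyVP (-1) κ (κ + m - 1)) +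
      rpj69LamD t L H κ m J s (cyBlk 1 κ (κ + m - 1)) + rpj69LamD t L H κ m J s (cyBlk (-1) κ (κ + m - 1)) := by
  have a1 := c.hκ; have a2 := c.hκH; have a3 := c.hm; have a4 := c.hk; have a5 := c.hN; have a6 := rpw111_b c
  have hW := rcd111_hW_cap (L := L) (H := H) (a := 0) (b := κ + m / 2) (le_refl (0 : ℤ)) (by omega) (c := κ) (d := κ + m - 1) (by omega) (by omega)
    (rpj69D L κ m J s) rfl rfl rfl rfl (fun e g1 g2 => rpw111_band_E hL c s g1 g2)
  exact rcs127_alt_P (rpj69D L κ m J s) h0 h1 (fun S D => Rpj69K L κ m J s ⟨S, D, ∅⟩) (rpw111_feas (by linarith) hL c s)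
    (fun ω => rcy162Fld L (rcy162Cyl L 0 H) ω ∈ cyVP 1 κ (κ + m - 1)) (fun ω => rcy162Fld L (rcy162Cyl L 0 H) ω ∈ cyVP (-1) κ (κ + m - 1))
    (fun ω => rcs127FldD L (rcs127Sw (rcy162Cyl L 0 H)) ω ∈ cyBlk 1 κ (κ + m - 1)) (fun ω => rcs127FldD L (rcs127Sw (rcy162Cyl L 0 H)) ω ∈ cyBlk (-1) κ (κ + m - 1))
    (fun S D O O' _ _ _ _ _ hω => rcd111_alt_sys hL (by omega) (by omega) (by omega) (rpj69D L κ m J s) hW hω)

/-- **(P3) the contract `Rpj69P3` of 69** -/
theorem rpw111_P3 {t : ℝ} (h0 : 1 / 2 ≤ t) (h1 : t ≤ 1) (hL : 0 < L) (H : ℕ) : Rpj69P3 t L H :=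
  fun k m κ J c => rpw111_alt h0 h1 hL c false

end p3

end Claimed.Agent.R292
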