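import Claimed.Agent.R292.Rsw.PerJ69
import Claimed.Agent.R292.Rsw.OutFkg127
import Claimed.Agent.R292.Rsw.PerJW111
import Claimed.Agent.R292.Rsw.PerJ4x162

/-!
# R292 / RSW / A4: T1 / T2 (association, order) in the DOUBLY CUT system of (perJ)   (pen 127, prefix `rpt127`)

Frame: `Rsw/PerJ69.lean` (69).   Tool for the contracts (P2), (P5): eq. (3.5) for the doubly cut system `rcs127Out (rcs127OutP Y J) G` with the faces of the rim of `J` contracted (`rcs127_hat_minor`) and the sites touched by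
the pairs at `G` contracted (`rcs127_hat_contract`), hence association and order of 69 under the pins (`d = +` on the rim of `J`, a constraint on `s` which is constant on the rim of `G`).
ABSTRACT FORM: the geometry enters through the record `Rpt127Geo Y J G q u₀` (par. 2); the chains of that record are the mirror image of (G3) through a hom `Sw Y → Y` (par. 3);
**`rpt127_hgeo`** (par. 4) = the record for the frame of 69 (cap, `J`, `G_s`), from the geometry of 111 (`PerJW111`), 162 (`PerJ4x162`).   0 sorry.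
-/

set_option autoImplicit false
set_option linter.unusedSectionVars false
set_option linter.unusedVariables false
set_option linter.unusedSimpArgs false

namespace Claimed.Agent.R292

open Claimed.Agent.R291 Relation

/-! ## 1. pins on a class of faces = a pole -/

/-- the system with the faces of `T` read at the pole `q` -/
def rpt127M (Y : Rcy162Sys) (T : Finset (ℤ × ℤ)) (q : ℤ × ℤ) (V' B : Finset (ℤ × ℤ)) (E' : Finset ((ℤ × ℤ) × Bool)) : Rcy162Sys :=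
  ⟨V', insert q B, E', Y.p0, Y.p1, fun e => rcs127Ct T q (Y.f0 e), fun e => rcs127Ct T q (Y.f1 e)⟩

/-- the system with the faces `V0` of the class kept -/
def rpt127P (Y : Rcy162Sys) (V0 V' B : Finset (ℤ × ℤ)) (E' : Finset ((ℤ × ℤ) × Bool)) : Rcy162Sys :=
  ⟨V', B ∪ V0, E', Y.p0, Y.p1, Y.f0, Y.f1⟩

section gen

variable {Y : Rcy162Sys} {T V0 V' B : Finset (ℤ × ℤ)} {q : ℤ × ℤ} {E' : Finset ((ℤ × ℤ) × Bool)}

theorem rpt127_ct_mem (hq : q ∈ T) (hVT : V0 ⊆ T) (hB : ∀ f ∈ B, f ∉ T) {D₀ : Finset (ℤ × ℤ)} (hD : D₀ ⊆ B) {f : ℤ × ℤ} (hf : f ∈ T → f ∈ V0) :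
    rcs127Ct T q f ∈ insert q D₀ ↔ f ∈ D₀ ∪ V0 := by
  unfold rcs127Ct
  by_cases h : f ∈ T
  · rw [if_pos h]
    exact ⟨fun _ => Finset.mem_union.2 (Or.inr (hf h)), fun _ => Finset.mem_insert_self _ _⟩
  · rw [if_neg h, Finset.mem_insert, Finset.mem_union]
    constructor
    · rintro (rfl | h')
      · exact absurd hq h
      · exact Or.inl h'
    · rintro (h' | h')
      · exact Or.inr h'
      · exact absurd (hVT h') h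

/-- the pole plus = the class pinned plus -/
theorem rpt127_pin (hq : q ∈ T) (hVT : V0 ⊆ T) (hB : ∀ f ∈ B, f ∉ T) (geo : ∀ e ∈ E', (Y.f0 e ∈ T → Y.f0 e ∈ V0) ∧ (Y.f1 e ∈ T → Y.f1 e ∈ V0))
    (t : ℝ) (KS : Finset (ℤ × ℤ) → Prop) (X : RswCfg → ℝ) (hX : ∀ S D O, X ⟨S, D, O⟩ = X ⟨S, ∅, O⟩) :
    (rpt127M Y T q V' B E').sum t (fun ω => KS ω.S ∧ q ∈ ω.D) X = (rpt127P Y V0 V' B E').sum t (fun ω => KS ω.S ∧ ∀ f ∈ V0, f ∈ ω.D) X := by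
  classical
  have hqB : q ∉ B := fun h => hB q h hq
  have hdis : ∀ D₀, D₀ ⊆ B → Disjoint D₀ V0 := by
    intro D₀ hD
    rw [Finset.disjoint_left]
    intro f h1 h2
    exact hB f (hD h1) (hVT h2)
  show ∑ S ∈ V'.powerset, ∑ D ∈ (insert q B).powerset, ∑ O ∈ E'.powerset,
      (rpt127M Y T q V' B E').wt t (fun ω => KS ω.S ∧ q ∈ ω.D) ⟨S, D, O⟩ * X ⟨S, D, O⟩ =
    ∑ S ∈ V'.powerset, ∑ D ∈ (B ∪ V0).powerset, ∑ O ∈ E'.powerset,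
      (rpt127P Y V0 V' B E').wt t (fun ω => KS ω.S ∧ ∀ f ∈ V0, f ∈ ω.D) ⟨S, D, O⟩ * X ⟨S, D, O⟩
  refine Finset.sum_congr rfl fun S _ => ?_
  rw [Finset.sum_powerset_insert hqB]
  have z1 : ∑ D ∈ B.powerset, ∑ O ∈ E'.powerset,
      (rpt127M Y T q V' B E').wt t (fun ω => KS ω.S ∧ q ∈ ω.D) ⟨S, D, O⟩ * X ⟨S, D, O⟩ = 0 := by
    refine Finset.sum_eq_zero fun D hD => Finset.sum_eq_zero fun O _ => ?_
    rw [rcy162_wt_of_not _ (K := fun ω => KS ω.S ∧ q ∈ ω.D) (ω := ⟨S, D, O⟩) (fun h => hqB (Finset.mem_powerset.1 hD h.2)), zero_mul]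
  rw [z1, zero_add]
  have hP : ∑ D ∈ (B ∪ V0).powerset, ∑ O ∈ E'.powerset, (rpt127P Y V0 V' B E').wt t (fun ω => KS ω.S ∧ ∀ f ∈ V0, f ∈ ω.D) ⟨S, D, O⟩ * X ⟨S, D, O⟩ =
      ∑ D₀ ∈ B.powerset, ∑ O ∈ E'.powerset, (rpt127P Y V0 V' B E').wt t (fun ω => KS ω.S ∧ ∀ f ∈ V0, f ∈ ω.D) ⟨S, D₀ ∪ V0, O⟩ * X ⟨S, D₀ ∪ V0, O⟩ := by
    rw [← Finset.sum_filter_of_ne (p := fun D => V0 ⊆ D) (fun D _ hne => by
      by_contra h
      refine hne (Finset.sum_eq_zero fun O _ => ?_)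
      rw [rcy162_wt_of_not _ (K := fun ω => KS ω.S ∧ ∀ f ∈ V0, f ∈ ω.D) (ω := ⟨S, D, O⟩) (fun hk => h fun f hf => hk.2 f hf), zero_mul])]
    refine Finset.sum_nbij' (fun D => D \ V0) (fun D₀ => D₀ ∪ V0) ?_ ?_ ?_ ?_ ?_
    · intro D hD
      obtain ⟨h1, h2⟩ := Finset.mem_filter.1 hD
      refine Finset.mem_powerset.2 fun f hf => ?_
      obtain ⟨f1, f2⟩ := Finset.mem_sdiff.1 hf
      exact (Finset.mem_union.1 (Finset.mem_powerset.1 h1 f1)).resolve_right f2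
    · intro D₀ hD
      exact Finset.mem_filter.2 ⟨Finset.mem_powerset.2 (Finset.union_subset_union_left (Finset.mem_powerset.1 hD)), Finset.subset_union_right⟩
    · intro D hD
      exact Finset.sdiff_union_of_subset (Finset.mem_filter.1 hD).2
    · intro D₀ hD
      exact Finset.union_sdiff_cancel_right (hdis D₀ (Finset.mem_powerset.1 hD))
    · intro D hD
      rw [Finset.sdiff_union_of_subset (Finset.mem_filter.1 hD).2]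
  rw [hP]
  refine Finset.sum_congr rfl fun D₀ hD => Finset.sum_congr rfl fun O _ => ?_
  have hD' := Finset.mem_powerset.1 hD
  rw [hX S (insert q D₀) O, hX S (D₀ ∪ V0) O]
  congr 1
  by_cases hk : KS S
  · rw [rcy162_wt_of _ (K := fun ω => KS ω.S ∧ q ∈ ω.D) (ω := ⟨S, insert q D₀, O⟩) ⟨hk, Finset.mem_insert_self _ _⟩,
      rcy162_wt_of _ (K := fun ω => KS ω.S ∧ ∀ f ∈ V0, f ∈ ω.D) (ω := ⟨S, D₀ ∪ V0, O⟩)
        ⟨hk, fun f hf => Finset.mem_union.2 (Or.inr hf)⟩]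
    refine Finset.prod_congr rfl fun e he => ?_
    have g := geo e he
    exact rcs127_fac_congr _ _ t Iff.rfl Iff.rfl Iff.rfl (rpt127_ct_mem hq hVT hB hD' g.1) (rpt127_ct_mem hq hVT hB hD' g.2)
  · rw [rcy162_wt_of_not _ (K := fun ω => KS ω.S ∧ q ∈ ω.D) (ω := ⟨S, insert q D₀, O⟩) (fun h => hk h.1),
      rcy162_wt_of_not _ (K := fun ω => KS ω.S ∧ ∀ f ∈ V0, f ∈ ω.D) (ω := ⟨S, D₀ ∪ V0, O⟩) (fun h => hk h.1)]

/-- the free pole = twice the class pinned plus -/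
theorem rpt127_two (hwf : (rpt127M Y T q V' B E').WF) (hq : q ∈ T) (hVT : V0 ⊆ T) (hB : ∀ f ∈ B, f ∉ T)
    (geo : ∀ e ∈ E', (Y.f0 e ∈ T → Y.f0 e ∈ V0) ∧ (Y.f1 e ∈ T → Y.f1 e ∈ V0))
    (t : ℝ) (KS : Finset (ℤ × ℤ) → Prop) (X : RswCfg → ℝ) (hX : ∀ S D O, X ⟨S, D, O⟩ = X ⟨S, ∅, O⟩) :
    (rpt127M Y T q V' B E').sum t (fun ω => KS ω.S) X = 2 * (rpt127P Y V0 V' B E').sum t (fun ω => KS ω.S ∧ ∀ f ∈ V0, f ∈ ω.D) X := by
  classical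
  have e0 : X = fun ω => (if q ∈ ω.D then X ω else 0) + (if q ∉ ω.D then X ω else 0) := by
    funext ω
    by_cases h : q ∈ ω.D <;> simp [h]
  have e1 : (rpt127M Y T q V' B E').sum t (fun ω => KS ω.S) X =
      (rpt127M Y T q V' B E').sum t (fun ω => KS ω.S ∧ q ∈ ω.D) X + (rpt127M Y T q V' B E').sum t (fun ω => KS ω.S ∧ q ∉ ω.D) X := by
    conv_lhs => rw [e0]
    rw [rcy162_sum_add, rcs127_sum_ite, rcs127_sum_ite]
  have e2 : (rpt127M Y T q V' B E').sum t (fun ω => KS ω.S ∧ q ∉ ω.D) X = (rpt127M Y T q V' B E').sum t (fun ω => KS ω.S ∧ q ∈ ω.D) X := by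
    rw [rcy162_flipD_sum _ hwf]
    have eX : (fun ω => X ((rpt127M Y T q V' B E').flipD ω)) = X := by
      funext ω
      obtain ⟨S, D, O⟩ := ω
      show X ⟨S, _, O⟩ = X ⟨S, D, O⟩
      rw [hX, hX S D O]
    rw [eX]
    refine rcy162_sum_congr_K _ _ (fun ω hω => ?_) X
    show (KS ω.S ∧ q ∉ (rpt127M Y T q V' B E').Fc \ ω.D) ↔ (KS ω.S ∧ q ∈ ω.D)
    have hqF : q ∈ (rpt127M Y T q V' B E').Fc := Finset.mem_insert_self _ _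
    rw [Finset.mem_sdiff]
    constructor
    · rintro ⟨a, b⟩
      refine ⟨a, ?_⟩
      by_contra h
      exact b ⟨hqF, h⟩
    · rintro ⟨a, b⟩
      exact ⟨a, fun h => h.2 b⟩
  rw [e1, e2, rpt127_pin hq hVT hB geo t KS X hX]
  ring

end gen

/-! ## 2. eq. (3.5), T1, T2 in the doubly cut system (abstract) -/

/-- the geometry which the doubly cut system `rcs127Out (rcs127OutP Y J) G` owes -/
structure Rpt127Geo (Y : Rcy162Sys) (J G : Finset (ℤ × ℤ)) (q u₀ : ℤ × ℤ) : Prop where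
  wf : Y.WF
  hat : Rcs127Hat Y id
  g3 : Rcs127G3 Y J q
  geoJ : ∀ e ∈ rcs127E2 (rcs127Sw Y) J, (Y.f0 e ∈ rcs127V1 (rcs127Sw Y) J → Y.f0 e ∈ rcs127V0 (rcs127Sw Y) J) ∧
    (Y.f1 e ∈ rcs127V1 (rcs127Sw Y) J → Y.f1 e ∈ rcs127V0 (rcs127Sw Y) J)
  geoG : ∀ e ∈ rcs127E2 (rcs127OutP Y J) G, (Y.p0 e ∈ rcs127V1 (rcs127OutP Y J) G → Y.p0 e ∈ rcs127V0 (rcs127OutP Y J) G) ∧
    (Y.p1 e ∈ rcs127V1 (rcs127OutP Y J) G → Y.p1 e ∈ rcs127V0 (rcs127OutP Y J) G)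
  u1 : u₀ ∈ rcs127V1 (rcs127OutP Y J) G
  u0 : ∀ v ∈ rcs127V0 (rcs127OutP Y J) G, u₀ ∈ rcs127V0 (rcs127OutP Y J) G
  ch : ∀ v ∈ rcs127V1 (rcs127OutP Y J) G, Rcs127Chain (rcs127OutC Y J q) id (rcs127E2 (rcs127OutP Y J) G) u₀ v
  dis : Disjoint G (rcs127V1 (rcs127Sw Y) J)

section dbl

variable {Y : Rcy162Sys} {J G : Finset (ℤ × ℤ)} {q u₀ : ℤ × ℤ}

/-- the contracted form of the doubly cut system -/
def rpt127C (Y : Rcy162Sys) (J G : Finset (ℤ × ℤ)) (q : ℤ × ℤ) : Rcy162Sys :=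
  rpt127M Y (rcs127V1 (rcs127Sw Y) J) q (rcs127V2 (rcs127OutP Y J) G) ((Y.Fc \ rcs127V1 (rcs127Sw Y) J) \ G) (rcs127E2 (rcs127OutP Y J) G)

/-- the contraction of the sites touched by the pairs at `G` -/
def rpt127Pi (Y : Rcy162Sys) (J G : Finset (ℤ × ℤ)) (u₀ : ℤ × ℤ) : ℤ × ℤ → ℤ × ℤ := rcs127CtV id (rcs127V1 (rcs127OutP Y J) G) u₀

theorem rpt127_E_sub : rcs127E2 (rcs127OutP Y J) G ⊆ rcs127E2 (rcs127Sw Y) J := fun e he => (rcs127_mem_E2.1 he).1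

theorem rpt127_C_wf (g : Rpt127Geo Y J G q u₀) : (rpt127C Y J G q).WF := by
  have hV : ∀ e ∈ rcs127E2 (rcs127OutP Y J) G, ∀ v, v ∈ Y.V \ J → (v ∈ rcs127V1 (rcs127OutP Y J) G → v ∈ rcs127V0 (rcs127OutP Y J) G) →
      v ∈ rcs127V2 (rcs127OutP Y J) G := by
    intro e _ v hv h
    by_cases h1 : v ∈ rcs127V1 (rcs127OutP Y J) G
    · exact Finset.mem_union_right _ (h h1)
    · exact Finset.mem_union_left _ (Finset.mem_sdiff.2 ⟨hv, h1⟩)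
  have hF : ∀ f ∈ Y.Fc, f ∉ G → rcs127Ct (rcs127V1 (rcs127Sw Y) J) q f ∈ insert q ((Y.Fc \ rcs127V1 (rcs127Sw Y) J) \ G) := by
    intro f hf hG
    unfold rcs127Ct
    by_cases h : f ∈ rcs127V1 (rcs127Sw Y) J
    · rw [if_pos h]; exact Finset.mem_insert_self _ _
    · rw [if_neg h]; exact Finset.mem_insert_of_mem (Finset.mem_sdiff.2 ⟨Finset.mem_sdiff.2 ⟨hf, h⟩, hG⟩)
  refine ⟨fun e he => ?_, fun e he => ?_, fun e he => ?_, fun e he => ?_⟩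
  · obtain ⟨a, b0, b1⟩ := rcs127_mem_E2.1 (rpt127_E_sub he)
    exact hV e he _ (Finset.mem_sdiff.2 ⟨g.wf.p0 e a, b0⟩) (g.geoG e he).1
  · obtain ⟨a, b0, b1⟩ := rcs127_mem_E2.1 (rpt127_E_sub he)
    exact hV e he _ (Finset.mem_sdiff.2 ⟨g.wf.p1 e a, b1⟩) (g.geoG e he).2
  · obtain ⟨a, b0, b1⟩ := rcs127_mem_E2.1 (rpt127_E_sub he)
    exact hF _ (g.wf.f0 e a) (rcs127_mem_E2.1 he).2.1
  · obtain ⟨a, b0, b1⟩ := rcs127_mem_E2.1 (rpt127_E_sub he)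
    exact hF _ (g.wf.f1 e a) (rcs127_mem_E2.1 he).2.2

theorem rpt127_ctr (g : Rpt127Geo Y J G q u₀) : Rci69Ctr (rpt127C Y J G q) (rpt127Pi Y J G u₀) := by
  refine ⟨rpt127_C_wf g, fun v hv => ?_⟩
  unfold rpt127Pi rcs127CtV
  by_cases h : id v ∈ rcs127V1 (rcs127OutP Y J) G
  · rw [if_pos h]
    have hv0 : v ∈ rcs127V0 (rcs127OutP Y J) G := by
      rw [← rcs127_V12]
      exact Finset.mem_inter.2 ⟨h, hv⟩
    exact rcs127_V0_sub_V2 (g.u0 v hv0)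
  · rw [if_neg h]; exact hv

/-- **eq. (3.5) in the doubly cut system** -/
theorem rpt127_dual (g : Rpt127Geo Y J G q u₀) : Rci69Dual (rpt127_ctr g) := by
  have h1 : Rcs127Hat (rcs127OutC Y J q) id := rcs127_hat_outC g.hat g.g3
  have h2 := rcs127_hat_contract h1 (rcs127V2 (rcs127OutP Y J) G) (insert q ((Y.Fc \ rcs127V1 (rcs127Sw Y) J) \ G))
    (E' := rcs127E2 (rcs127OutP Y J) G) rpt127_E_sub (U := rcs127V1 (rcs127OutP Y J) G) (u₀ := u₀) g.u1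
    (fun e he hn => (rcs127_del_V1 (Y := rcs127Sw (rcs127OutP Y J)) (J := G) he hn).2) g.ch
  exact rci69_dual_of_hat (rpt127_ctr g) h2.1 h2.2

/-- the doubly cut system in the form of par. 1 -/
theorem rpt127_D_eq (g : Rpt127Geo Y J G q u₀) : rcs127Out (rcs127OutP Y J) G =
    rpt127P Y (rcs127V0 (rcs127Sw Y) J) (rcs127V2 (rcs127OutP Y J) G) ((Y.Fc \ rcs127V1 (rcs127Sw Y) J) \ G) (rcs127E2 (rcs127OutP Y J) G) := by
  have hF : ((Y.Fc \ rcs127V1 (rcs127Sw Y) J) ∪ rcs127V0 (rcs127Sw Y) J) \ G = ((Y.Fc \ rcs127V1 (rcs127Sw Y) J) \ G) ∪ rcs127V0 (rcs127Sw Y) J := by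
    ext f
    have hd : f ∈ rcs127V0 (rcs127Sw Y) J → f ∉ G := fun h hG => (Finset.disjoint_left.1 g.dis hG) (rcs127_V0_sub_V1 h)
    simp only [Finset.mem_sdiff, Finset.mem_union]
    tauto
  show (⟨rcs127V2 (rcs127OutP Y J) G, ((Y.Fc \ rcs127V1 (rcs127Sw Y) J) ∪ rcs127V0 (rcs127Sw Y) J) \ G, rcs127E2 (rcs127OutP Y J) G, Y.p0, Y.p1, Y.f0, Y.f1⟩ : Rcy162Sys) = _
  rw [hF]
  rfl

/-- free pole = twice the pins -/
theorem rpt127_D_two (g : Rpt127Geo Y J G q u₀) (t : ℝ) (KS : Finset (ℤ × ℤ) → Prop) (X : RswCfg → ℝ) (hX : ∀ S D O, X ⟨S, D, O⟩ = X ⟨S, ∅, O⟩) :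
    (rpt127C Y J G q).sum t (fun ω => KS ω.S) X =
      2 * (rcs127Out (rcs127OutP Y J) G).sum t (fun ω => KS ω.S ∧ ∀ f ∈ rcs127V0 (rcs127Sw Y) J, f ∈ ω.D) X := by
  rw [rpt127_D_eq g]
  exact rpt127_two (rpt127_C_wf g) g.g3.1 rcs127_V0_sub_V1 (fun f hf => (Finset.mem_sdiff.1 (Finset.mem_sdiff.1 hf).1).2)
    (fun e he => g.geoJ e (rpt127_E_sub he)) t KS X hX

/-- **T1 in the doubly cut system** -/
theorem rpt127_fkg_sum (g : Rpt127Geo Y J G q u₀) {t : ℝ} (ht0 : 0 < t) (ht1 : t ≤ 1) {KS : Finset (ℤ × ℤ) → Prop}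
    (k1 : ∀ S, KS S → ∀ v ∈ rcs127V2 (rcs127OutP Y J) G, (rpt127Pi Y J G u₀ v ∈ S ↔ v ∈ S)) (k2 : ∀ S S', KS S → KS S' → KS (S ∩ S') ∧ KS (S ∪ S'))
    {X X' : RswCfg → ℝ} (hX : Rci69Inc Y X) (hX' : Rci69Inc Y X') :
    (rcs127Out (rcs127OutP Y J) G).sum t (fun ω => KS ω.S ∧ ∀ f ∈ rcs127V0 (rcs127Sw Y) J, f ∈ ω.D) X *
        (rcs127Out (rcs127OutP Y J) G).sum t (fun ω => KS ω.S ∧ ∀ f ∈ rcs127V0 (rcs127Sw Y) J, f ∈ ω.D) X'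
      ≤ (rcs127Out (rcs127OutP Y J) G).sum t (fun ω => KS ω.S ∧ ∀ f ∈ rcs127V0 (rcs127Sw Y) J, f ∈ ω.D) (fun _ => 1) *
        (rcs127Out (rcs127OutP Y J) G).sum t (fun ω => KS ω.S ∧ ∀ f ∈ rcs127V0 (rcs127Sw Y) J, f ∈ ω.D) (fun ω => X ω * X' ω) := by
  have key := rci69_fkg_sum (rpt127_ctr g) ht0 ht1 (rpt127_dual g) (KS := KS) k1 k2 (X := X) (X' := X') hX hX'
  rw [rpt127_D_two g t KS X hX.noD, rpt127_D_two g t KS X' hX'.noD, rpt127_D_two g t KS (fun _ => 1) (fun _ _ _ => rfl),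
    rpt127_D_two g t KS (fun ω => X ω * X' ω) (fun S D O => by rw [hX.noD S D O, hX'.noD S D O])] at key
  nlinarith [key]

/-- **T2 in the doubly cut system** -/
theorem rpt127_holley_sum (g : Rpt127Geo Y J G q u₀) {t : ℝ} (ht0 : 0 < t) (ht1 : t ≤ 1) {KS₁ KS₂ : Finset (ℤ × ℤ) → Prop}
    (k1 : ∀ S, KS₁ S → ∀ v ∈ rcs127V2 (rcs127OutP Y J) G, (rpt127Pi Y J G u₀ v ∈ S ↔ v ∈ S))
    (k2 : ∀ S, KS₂ S → ∀ v ∈ rcs127V2 (rcs127OutP Y J) G, (rpt127Pi Y J G u₀ v ∈ S ↔ v ∈ S))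
    (k12 : ∀ S S', KS₁ S → KS₂ S' → KS₁ (S ∩ S') ∧ KS₂ (S ∪ S')) {X : RswCfg → ℝ} (hX : Rci69Inc Y X) :
    (rcs127Out (rcs127OutP Y J) G).sum t (fun ω => KS₁ ω.S ∧ ∀ f ∈ rcs127V0 (rcs127Sw Y) J, f ∈ ω.D) X *
        (rcs127Out (rcs127OutP Y J) G).sum t (fun ω => KS₂ ω.S ∧ ∀ f ∈ rcs127V0 (rcs127Sw Y) J, f ∈ ω.D) (fun _ => 1)
      ≤ (rcs127Out (rcs127OutP Y J) G).sum t (fun ω => KS₁ ω.S ∧ ∀ f ∈ rcs127V0 (rcs127Sw Y) J, f ∈ ω.D) (fun _ => 1) *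
        (rcs127Out (rcs127OutP Y J) G).sum t (fun ω => KS₂ ω.S ∧ ∀ f ∈ rcs127V0 (rcs127Sw Y) J, f ∈ ω.D) X := by
  have key := rci69_holley_sum (rpt127_ctr g) ht0 ht1 (rpt127_dual g) (KS₁ := KS₁) (KS₂ := KS₂) k1 k2 k12 (X := X) hX
  rw [rpt127_D_two g t KS₁ X hX.noD, rpt127_D_two g t KS₂ X hX.noD, rpt127_D_two g t KS₁ (fun _ => 1) (fun _ _ _ => rfl),
    rpt127_D_two g t KS₂ (fun _ => 1) (fun _ _ _ => rfl)] at key
  nlinarith [key]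

/-- a pin of one colour on the rim of `G` is compatible with the contraction -/
theorem rpt127_pin_pi (g : Rpt127Geo Y J G q u₀) (a : Bool) (S : Finset (ℤ × ℤ)) (hS : ∀ v ∈ rcs127V0 (rcs127OutP Y J) G, (v ∈ S ↔ a = true)) :
    ∀ v ∈ rcs127V2 (rcs127OutP Y J) G, (rpt127Pi Y J G u₀ v ∈ S ↔ v ∈ S) := by
  intro v hv
  unfold rpt127Pi rcs127CtV
  by_cases h : id v ∈ rcs127V1 (rcs127OutP Y J) G
  · rw [if_pos h]
    have hv0 : v ∈ rcs127V0 (rcs127OutP Y J) G := by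
      rw [← rcs127_V12]
      exact Finset.mem_inter.2 ⟨h, hv⟩
    rw [hS _ (g.u0 v hv0), hS _ hv0]
  · rw [if_neg h]
    rfl

end dbl

/-! ## 3. the chains from the mirror image of (G3) -/

/-- functional form of connectedness ⟹ chain form -/
theorem rpt127_chain_of_fun {W : Rcy162Sys} {E' : Finset ((ℤ × ℤ) × Bool)} {U : Finset (ℤ × ℤ)} {u₀ : ℤ × ℤ}
    (hfun : ∀ ρ : ℤ × ℤ → ZMod 2, (∀ e ∈ W.E, e ∉ E' → ρ (W.p0 e) = ρ (W.p1 e)) → ∀ v ∈ U, ρ v = ρ u₀) :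
    ∀ v ∈ U, Rcs127Chain W id E' u₀ v := by
  classical
  intro v hv
  have h := hfun (fun w => if Rcs127Chain W id E' u₀ w then 1 else 0) (by
    intro e he hn
    have a : Rcs127Chain W id E' u₀ (W.p0 e) ↔ Rcs127Chain W id E' u₀ (W.p1 e) :=
      ⟨fun c => rcs127_chain_step c he hn (Or.inl ⟨rfl, rfl⟩), fun c => rcs127_chain_step c he hn (Or.inr ⟨rfl, rfl⟩)⟩
    simp only [a]) v hv
  simp only [if_pos (rcs127_chain_refl W id E' u₀)] at h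
  by_contra hc
  rw [if_neg hc] at h
  exact zero_ne_one h

section mirror

variable {Y : Rcy162Sys} {J G : Finset (ℤ × ℤ)} {q : ℤ × ℤ} {gV gF : ℤ × ℤ → ℤ × ℤ} {gE : (ℤ × ℤ) × Bool → (ℤ × ℤ) × Bool}

/-- a colouring of the sites which is constant across the pairs at `G` is constant on their ends: `G = gF J` -/
theorem rpt127_fun_true (h : Rcy162Hom (rcs127Sw Y) Y gV gF gE) (hJ : J ⊆ Y.V) (hw : Y.WF) (g3 : Rcs127G3 Y J q) (hG : G = J.image gF)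
    (high : ∀ e ∈ Y.E, (Y.f0 e ∈ G ∨ Y.f1 e ∈ G) → Y.p0 e ∉ J ∧ Y.p1 e ∉ J)
    (ρ : ℤ × ℤ → ZMod 2) (hρ : ∀ e ∈ rcs127E2 (rcs127Sw Y) J, e ∉ rcs127E2 (rcs127OutP Y J) G → ρ (Y.p0 e) = ρ (Y.p1 e)) :
    ∀ e ∈ Y.E, (Y.f0 e ∈ G ∨ Y.f1 e ∈ G) → ρ (Y.p0 e) = ρ (gV q) ∧ ρ (Y.p1 e) = ρ (gV q) := by
  have hρ' : ∀ e ∈ Y.E, (Y.f0 e ∈ G ∨ Y.f1 e ∈ G) → ρ (Y.p0 e) = ρ (Y.p1 e) := by
    intro e he hf
    obtain ⟨a0, a1⟩ := high e he hf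
    refine hρ e (rcs127_mem_E2.2 ⟨he, a0, a1⟩) fun h2 => ?_
    obtain ⟨-, b0, b1⟩ := rcs127_mem_E2.1 h2
    exact hf.elim b0 b1
  have hd : ∀ e ∈ Y.E, (Y.p0 e ∈ J ∨ Y.p1 e ∈ J) → ρ (gV (Y.f0 e)) = ρ (gV (Y.f1 e)) := by
    intro e he hJe
    have hE : gE e ∈ Y.E := by rw [← h.imE]; exact Finset.mem_image_of_mem _ he
    have hf : Y.f0 (gE e) ∈ G ∨ Y.f1 (gE e) ∈ G := by
      rw [hG]
      rcases h.ff e he with ⟨x, y⟩ | ⟨x, y⟩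
      · rcases hJe with a | a
        · exact Or.inl (by rw [x]; exact Finset.mem_image_of_mem _ a)
        · exact Or.inr (by rw [y]; exact Finset.mem_image_of_mem _ a)
      · rcases hJe with a | a
        · exact Or.inr (by rw [y]; exact Finset.mem_image_of_mem _ a)
        · exact Or.inl (by rw [x]; exact Finset.mem_image_of_mem _ a)
    have := hρ' _ hE hf
    rcases h.pp e he with ⟨x, y⟩ | ⟨x, y⟩
    · rw [x, y] at this; exact this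
    · rw [x, y] at this; exact this.symm
  intro e he hf
  have he' : e ∈ (rcs127Sw Y).E.image gE := by rw [h.imE]; exact he
  obtain ⟨e₀, he₀, rfl⟩ := Finset.mem_image.1 he'
  have hJ₀ : Y.p0 e₀ ∈ J ∨ Y.p1 e₀ ∈ J := by
    rw [hG] at hf
    have inj : ∀ v ∈ Y.V, gF v ∈ J.image gF → v ∈ J := by
      intro v hv hm
      obtain ⟨j, hj, hjv⟩ := Finset.mem_image.1 hm
      have := h.injF (hJ hj) hv hjv
      exact this ▸ hj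
    rcases h.ff e₀ he₀ with ⟨x, y⟩ | ⟨x, y⟩
    · rcases hf with a | a
      · exact Or.inl (inj _ (hw.p0 e₀ he₀) (x ▸ a))
      · exact Or.inr (inj _ (hw.p1 e₀ he₀) (y ▸ a))
    · rcases hf with a | a
      · exact Or.inr (inj _ (hw.p1 e₀ he₀) (x ▸ a))
      · exact Or.inl (inj _ (hw.p0 e₀ he₀) (y ▸ a))
  have k0 := g3.2 (fun f => ρ (gV f)) hd e₀ he₀ hJ₀
  have k1 := hd e₀ he₀ hJ₀
  rcases h.pp e₀ he₀ with ⟨x, y⟩ | ⟨x, y⟩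
  · rw [x, y]; exact ⟨k0, k1 ▸ k0⟩
  · rw [x, y]; exact ⟨k1 ▸ k0, k0⟩

/-- the same for `G = gV⁻¹ J` -/
theorem rpt127_fun_false (h : Rcy162Hom (rcs127Sw Y) Y gV gF gE) (hw : Y.WF) (g3 : Rcs127G3 Y J q) (hG : G = Y.Fc.filter (fun f => gV f ∈ J))
    (high : ∀ e ∈ Y.E, (Y.f0 e ∈ G ∨ Y.f1 e ∈ G) → Y.p0 e ∉ J ∧ Y.p1 e ∉ J)
    (ρ : ℤ × ℤ → ZMod 2) (hρ : ∀ e ∈ rcs127E2 (rcs127Sw Y) J, e ∉ rcs127E2 (rcs127OutP Y J) G → ρ (Y.p0 e) = ρ (Y.p1 e)) :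
    ∃ c : ZMod 2, ∀ e ∈ Y.E, (Y.f0 e ∈ G ∨ Y.f1 e ∈ G) → ρ (Y.p0 e) = c ∧ ρ (Y.p1 e) = c := by
  classical
  have hρ' : ∀ e ∈ Y.E, (Y.f0 e ∈ G ∨ Y.f1 e ∈ G) → ρ (Y.p0 e) = ρ (Y.p1 e) := by
    intro e he hf
    obtain ⟨a0, a1⟩ := high e he hf
    refine hρ e (rcs127_mem_E2.2 ⟨he, a0, a1⟩) fun h2 => ?_
    obtain ⟨-, b0, b1⟩ := rcs127_mem_E2.1 h2
    exact hf.elim b0 b1
  set inv : ℤ × ℤ → ℤ × ℤ := Function.invFunOn gF (Y.V : Set (ℤ × ℤ)) with hinv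
  have linv : ∀ v ∈ Y.V, inv (gF v) = v := fun v hv => Set.InjOn.leftInvOn_invFunOn (s := (Y.V : Set (ℤ × ℤ))) h.injF hv
  have memG : ∀ f ∈ Y.Fc, (f ∈ G ↔ gV f ∈ J) := by
    intro f hf
    rw [hG, Finset.mem_filter]
    exact ⟨fun x => x.2, fun x => ⟨hf, x⟩⟩
  -- pairs at `G` ↔ pairs at `J`
  have tr : ∀ e ∈ Y.E, ((Y.f0 e ∈ G ∨ Y.f1 e ∈ G) ↔ (Y.p0 (gE e) ∈ J ∨ Y.p1 (gE e) ∈ J)) := by
    intro e he
    rw [memG _ (hw.f0 e he), memG _ (hw.f1 e he)]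
    rcases h.pp e he with ⟨x, y⟩ | ⟨x, y⟩
    · rw [x, y]; exact Iff.rfl
    · rw [x, y]; exact or_comm
  have fc : ∀ e ∈ Y.E, (ρ (inv (Y.f0 (gE e))) = ρ (Y.p0 e) ∧ ρ (inv (Y.f1 (gE e))) = ρ (Y.p1 e)) ∨
      (ρ (inv (Y.f0 (gE e))) = ρ (Y.p1 e) ∧ ρ (inv (Y.f1 (gE e))) = ρ (Y.p0 e)) := by
    intro e he
    rcases h.ff e he with ⟨x, y⟩ | ⟨x, y⟩
    · left; rw [x, y]; exact ⟨congrArg ρ (linv _ (hw.p0 e he)), congrArg ρ (linv _ (hw.p1 e he))⟩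
    · right; rw [x, y]; exact ⟨congrArg ρ (linv _ (hw.p1 e he)), congrArg ρ (linv _ (hw.p0 e he))⟩
  have hd : ∀ e ∈ Y.E, (Y.p0 e ∈ J ∨ Y.p1 e ∈ J) → ρ (inv (Y.f0 e)) = ρ (inv (Y.f1 e)) := by
    intro e he hJe
    have he' : e ∈ (rcs127Sw Y).E.image gE := by rw [h.imE]; exact he
    obtain ⟨e₀, he₀, rfl⟩ := Finset.mem_image.1 he'
    have := hρ' e₀ he₀ ((tr e₀ he₀).2 hJe)
    rcases fc e₀ he₀ with ⟨x, y⟩ | ⟨x, y⟩
    · rw [x, y]; exact this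
    · rw [x, y]; exact this.symm
  refine ⟨ρ (inv q), fun e he hf => ?_⟩
  have hE : gE e ∈ Y.E := by rw [← h.imE]; exact Finset.mem_image_of_mem _ he
  have k0 := g3.2 (fun f => ρ (inv f)) hd (gE e) hE ((tr e he).1 hf)
  have k1 := hρ' e he hf
  rcases fc e he with ⟨x, y⟩ | ⟨x, y⟩
  · rw [x] at k0; exact ⟨k0, k1 ▸ k0⟩
  · rw [x] at k0; exact ⟨k1.symm ▸ k0, k0⟩

/-- the chains, from a colouring statement -/
theorem rpt127_chains {u₀ : ℤ × ℤ} (hu : u₀ ∈ rcs127V1 (rcs127OutP Y J) G)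
    (hfun : ∀ ρ : ℤ × ℤ → ZMod 2, (∀ e ∈ rcs127E2 (rcs127Sw Y) J, e ∉ rcs127E2 (rcs127OutP Y J) G → ρ (Y.p0 e) = ρ (Y.p1 e)) →
      ∃ c : ZMod 2, ∀ e ∈ Y.E, (Y.f0 e ∈ G ∨ Y.f1 e ∈ G) → ρ (Y.p0 e) = c ∧ ρ (Y.p1 e) = c) :
    ∀ v ∈ rcs127V1 (rcs127OutP Y J) G, Rcs127Chain (rcs127OutC Y J q) id (rcs127E2 (rcs127OutP Y J) G) u₀ v := by
  refine rpt127_chain_of_fun (W := rcs127OutC Y J q) fun ρ hρ v hv => ?_
  obtain ⟨c, hc⟩ := hfun ρ hρ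
  have val : ∀ w ∈ rcs127V1 (rcs127OutP Y J) G, ρ w = c := by
    intro w hw
    obtain ⟨e, he, hG, rfl | rfl⟩ := rcs127_mem_V1_sw (Y := rcs127Sw (rcs127OutP Y J)) (J := G) hw
    · exact (hc e (rcs127_mem_E2.1 he).1 hG).1
    · exact (hc e (rcs127_mem_E2.1 he).1 hG).2
  rw [val v hv, val u₀ hu]

end mirror

/-! ## 4. the record of the geometry for the frame of 69 -/

/-- (G3) passes to any other face of a deleted pair -/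
theorem rpt127_G3_move {Y : Rcy162Sys} {J : Finset (ℤ × ℤ)} {q q' : ℤ × ℤ} (g : Rcs127G3 Y J q) (hq : q' ∈ rcs127V1 (rcs127Sw Y) J) : Rcs127G3 Y J q' := by
  refine ⟨hq, fun d hd e he hJ => ?_⟩
  obtain ⟨e', he', hJ', h | h⟩ := rcs127_mem_V1_sw hq
  · rw [g.2 d hd e he hJ, h, g.2 d hd e' he' hJ']
  · rw [g.2 d hd e he hJ, h, ← hd e' he' hJ', g.2 d hd e' he' hJ']

section frame

variable {L H : ℕ} {k m κ : ℤ} {J : Finset (ℤ × ℤ)}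

/-- the pair `((0, 0), true)` of the cap -/
theorem rpt127_e0 (hL : 0 < L) (c : Rpj69Ctx L H k m κ J) : (((0, 0), true) : (ℤ × ℤ) × Bool) ∈ (rpj69Y L κ m).E ∧ (rpj69Y L κ m).p0 ((0, 0), true) ∈ J := by
  have hb := rpj69_Hb c
  refine ⟨rci69_mem_capE.2 ⟨⟨le_refl _, by show (0 : ℤ) < L; exact_mod_cast hL⟩, le_refl _, ?_⟩, ?_⟩
  · show (0 : ℤ) < κ + m / 2
    have : (0 : ℤ) ≤ H := by positivity
    omega
  · exact c.h0 (rcy162_mem_row.2 ⟨⟨le_refl _, by show (0 : ℤ) < L; exact_mod_cast hL⟩, rfl⟩)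

/-- **the geometry of the doubly cut system of (perJ)** -/
theorem rpt127_hgeo (hL : 0 < L) : ∀ (k m κ : ℤ) (J : Finset (ℤ × ℤ)), Rpj69Ctx L H k m κ J → ∀ s : Bool,
    ∃ u₀, Rpt127Geo (rpj69Y L κ m) J (rpj69G L κ m J s) (0, 0) u₀ := by
  classical
  intro k m κ J c s
  have hb : (0 : ℤ) < κ + m / 2 := by
    have := rpj69_Hb c
    have : (0 : ℤ) ≤ H := by positivity
    omega
  have hw : (rpj69Y L κ m).WF := rci69_cap_wf hL 0 _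
  have hh : Rcy162Hom (rcs127Sw (rpj69Y L κ m)) (rpj69Y L κ m) (rcp162gV L 0 (κ + m / 2)) (rcp162gF L 0 (κ + m / 2)) (rcp162gE L 0 (κ + m / 2)) :=
    rcp162_hom hL 0 _
  have high := rpq162_geo c s
  obtain ⟨he0, hp0⟩ := rpt127_e0 hL c
  have hn0 : (((0, 0), true) : (ℤ × ℤ) × Bool) ∉ rcs127E2 (rcs127Sw (rpj69Y L κ m)) J := fun h => (rcs127_mem_E2.1 h).2.1 hp0
  have hq : ((0, 0) : ℤ × ℤ) ∈ rcs127V1 (rcs127Sw (rpj69Y L κ m)) J := (rcs127_del_V1 he0 hn0).2.1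
  have g3' : Rcs127G3 (rpj69Y L κ m) J (0, -1) := rcd111_G3_cap' hL hb c.h0 c.hV (rpw111_J_low c) c.hc
  have g3 : Rcs127G3 (rpj69Y L κ m) J (0, 0) := rpt127_G3_move g3' hq
  -- a pair at `G`
  have hex : ∃ e ∈ (rpj69Y L κ m).E, (rpj69Y L κ m).f0 e ∈ rpj69G L κ m J s ∨ (rpj69Y L κ m).f1 e ∈ rpj69G L κ m J s := by
    cases s
    · have he' : (((0, 0), true) : (ℤ × ℤ) × Bool) ∈ (rcs127Sw (rpj69Y L κ m)).E.image (rcp162gE L 0 (κ + m / 2)) := by rw [hh.imE]; exact he0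
      obtain ⟨e₁, he₁, h1⟩ := Finset.mem_image.1 he'
      refine ⟨e₁, he₁, ?_⟩
      have mem : ∀ f ∈ (rpj69Y L κ m).Fc, rcp162gV L 0 (κ + m / 2) f ∈ J → f ∈ rpj69G L κ m J false := by
        intro f hf hJ
        unfold rpj69G
        rw [if_neg (by decide)]
        exact Finset.mem_filter.2 ⟨hf, hJ⟩
      rw [← h1] at hp0
      rcases hh.pp e₁ he₁ with ⟨x, y⟩ | ⟨x, y⟩
      · exact Or.inl (mem _ (hw.f0 e₁ he₁) (x ▸ hp0))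
      · exact Or.inr (mem _ (hw.f1 e₁ he₁) (x ▸ hp0))
    · refine ⟨rcp162gE L 0 (κ + m / 2) ((0, 0), true), by rw [← hh.imE]; exact Finset.mem_image_of_mem _ he0, ?_⟩
      rw [rpq162_G_true c]
      rcases hh.ff _ he0 with ⟨x, y⟩ | ⟨x, y⟩
      · exact Or.inl (by rw [x]; exact Finset.mem_image_of_mem _ hp0)
      · exact Or.inr (by rw [y]; exact Finset.mem_image_of_mem _ hp0)
  obtain ⟨e₁, he₁, hf₁⟩ := hex
  have hZ₁ : e₁ ∈ (rcs127OutP (rpj69Y L κ m) J).E := rcs127_mem_E2.2 ⟨he₁, (high e₁ he₁ hf₁).1, (high e₁ he₁ hf₁).2⟩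
  have hn₁ : e₁ ∉ rcs127E2 (rcs127OutP (rpj69Y L κ m) J) (rpj69G L κ m J s) := fun h => hf₁.elim (rcs127_mem_E2.1 h).2.1 (rcs127_mem_E2.1 h).2.2
  have hV1 : (rpj69Y L κ m).p0 e₁ ∈ rcs127V1 (rcs127OutP (rpj69Y L κ m) J) (rpj69G L κ m J s) :=
    (rcs127_del_V1 (Y := rcs127Sw (rcs127OutP (rpj69Y L κ m) J)) (J := rpj69G L κ m J s) hZ₁ hn₁).2.1
  -- the base point
  obtain ⟨u₀, hu1, hu0⟩ : ∃ u₀, u₀ ∈ rcs127V1 (rcs127OutP (rpj69Y L κ m) J) (rpj69G L κ m J s) ∧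
      ∀ v ∈ rcs127V0 (rcs127OutP (rpj69Y L κ m) J) (rpj69G L κ m J s), u₀ ∈ rcs127V0 (rcs127OutP (rpj69Y L κ m) J) (rpj69G L κ m J s) := by
    by_cases hne : (rcs127V0 (rcs127OutP (rpj69Y L κ m) J) (rpj69G L κ m J s)).Nonempty
    · obtain ⟨u, hu⟩ := hne
      exact ⟨u, rcs127_V0_sub_V1 hu, fun _ _ => hu⟩
    · exact ⟨_, hV1, fun v hv => absurd ⟨v, hv⟩ hne⟩
  refine ⟨u₀, ⟨hw, ⟨rci69_cap_HP hL hb, rci69_cap_HX hL hb⟩, g3, (rpw111_adm_J hL c).geo, (rpw111_adm_G hL c s).geo, hu1, hu0, ?_, rpw111_G_disj c s⟩⟩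
  refine rpt127_chains hu1 fun ρ hρ => ?_
  cases s
  · exact rpt127_fun_false hh hw g3 (by unfold rpj69G; rw [if_neg (by decide)]) high ρ hρ
  · exact ⟨_, rpt127_fun_true hh (rpw111_J_sub c) hw g3 (rpq162_G_true c) high ρ hρ⟩

end frame

/-- the equation lemmas of the definitions of this file are generated HERE (RULES.md, rule 6) -/
theorem rpt127_eqns_cite : True := by
  have := @rpt127M.eq_1
  have := @rpt127P.eq_1
  have := @rpt127C.eq_1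
  have := @rpt127Pi.eq_1
  trivial

end Claimed.Agent.R292
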