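import Claimed.Agent.R292.Rsw.OutFkg127
import Claimed.Agent.R292.Rsw.PerJT127

/-!
# R292 / RSW / A4: step (b) of (perJ): THE SIGNS in the unexplored system of a connected record   (pen 12, prefix `pjb12`)

`P_J = rcs127OutP (rcy162Cyl L 0 H) J`, `d = +` on the faces of the cut, `s = +` on the row `H` (`Rcs127KP`).  For an increasing event `E` of the status field of `s` which reads a band above `J`:
* **`pjb12_sign`** : `P_J(-field ∈ E) ≤ P_J(field ∈ E)` (unnormalised), by the flip of `s` in `P_J` (the pins `s = +` on the row `H` become `s = -`) and `rof127_holley_sum` of 127 (minus pins ≤ plus pins);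
* **`pjb12_sign_VP`**, **`pjb12_sign_Blk`** : the two instances `cyVP (-1) ≤ cyVP 1`, `cyBlk (-1) ≤ cyBlk 1`, in the shape of the indicators of `rcd111_alt_out_N`.
Sec. 2 - 3 (23:30Z): **(P5) of the frame `PerJ69`** (the signs in the DOUBLY CUT system `rpj69D`, pins `Rpj69K`):
* `pjb12_D_wf`, `pjb12_flip2`, **`pjb12_sign2`** (abstract: any `Y J G` with the record `Rpt127Geo` of 127; flip of `s` + `rpt127_holley_sum`, minus pins on the rim of `G` ≤ plus pins);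
* `pjb12_G_high`, `pjb12_band` (deterministic, PROVED from `Rpj69Ctx`: the sites read by the high band are sites of `rpj69D`), `pjb12_lam_sign` (any increasing event of the high band);
* **`pjb12_P5 : (∀ ctx s, ∃ u₀, Rpt127Geo (rpj69Y L κ m) J (rpj69G L κ m J s) (0, 0) u₀) → Rpj69P5 t L H`**: the ONLY hypothesis is the geometry record of `PerJT127` on the cap (producer 111).
Sec. 4 (23:38Z): tools for the field `ch` of `Rpt127Geo`: **`pjb12_chain_of_class`** (class form ⟹ chain form `Rcs127Chain`), **`pjb12_ch`** (`ch` from `Rcs127G3 (rcs127Sw Y) G u₁`, i.e. from (G3) of `J` transported by the self-duality of the cap).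
**`pjb12_P5_closed (0 < t) (t ≤ 1) (0 < L) H : Rpj69P5 t L H`** (23:41Z, with `rpt127_hgeo` of 127): (P5) has NO hypothesis left.
`Rcs127PerJc` itself is NOT proved here.   0 sorry.
-/

set_option autoImplicit false
set_option linter.unusedSectionVars false
set_option linter.unusedVariables false
set_option linter.unusedSimpArgs false

namespace Claimed.Agent.R292

open Claimed.Agent.R291 Relation

section pjb

/-- the unexplored system of an admissible record is well formed -/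
theorem pjb12_outP_wf {Y : Rcy162Sys} (hw : Y.WF) {A₀ J : Finset (ℤ × ℤ)} (ha : Rcs127Adm (rcs127Sw Y) A₀ J) : (rcs127OutP Y J).WF := by
  refine ⟨fun e he => ?_, fun e he => ?_, fun e he => ?_, fun e he => ?_⟩
  · obtain ⟨a, b0, b1⟩ := rcs127_mem_E2.1 he
    exact Finset.mem_sdiff.2 ⟨hw.p0 e a, b0⟩
  · obtain ⟨a, b0, b1⟩ := rcs127_mem_E2.1 he
    exact Finset.mem_sdiff.2 ⟨hw.p1 e a, b1⟩
  · obtain ⟨a, b0, b1⟩ := rcs127_mem_E2.1 he
    by_cases h : (rcs127Sw Y).p0 e ∈ rcs127V1 (rcs127Sw Y) J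
    · exact Finset.mem_union_right _ ((ha.geo e he).1 h)
    · exact Finset.mem_union_left _ (Finset.mem_sdiff.2 ⟨hw.f0 e a, h⟩)
  · obtain ⟨a, b0, b1⟩ := rcs127_mem_E2.1 he
    by_cases h : (rcs127Sw Y).p1 e ∈ rcs127V1 (rcs127Sw Y) J
    · exact Finset.mem_union_right _ ((ha.geo e he).2 h)
    · exact Finset.mem_union_left _ (Finset.mem_sdiff.2 ⟨hw.f1 e a, h⟩)

variable {L H : ℕ} {J : Finset (ℤ × ℤ)}

/-- the flip of `s` in the unexplored system flips the field of the cylinder in a band above the record -/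
theorem pjb12_flip_fld (hL : 0 < L) {c d : ℤ} (hcJ : ∀ v ∈ J, 2 * v.2 < c - 1) (ω : RswCfg) (u : ℤ × ℤ) (h1 : c ≤ u.2) (h2 : u.2 ≤ d) :
    rcy162Fld L (rcy162Cyl L 0 H) ((rcs127OutP (rcy162Cyl L 0 H) J).flipS ω) u = - rcy162Fld L (rcy162Cyl L 0 H) ω u := by
  rw [← rcy162_flipS_fld L _ (rcy162_cyl_wf hL 0 (H : ℤ)) ω u]
  refine rcs127_fld_agree hL 0 H c d (ω := (rcs127OutP (rcy162Cyl L 0 H) J).flipS ω) (ω' := (rcy162Cyl L 0 H).flipS ω) ?_ (fun e _ => Iff.rfl) u h1 h2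
  intro v hv
  obtain ⟨hV, h3, h4⟩ := Finset.mem_filter.1 hv
  have hvJ : v ∉ J := fun h => by have := hcJ v h; omega
  show v ∈ ((rcy162Cyl L 0 H).V \ J) \ ω.S ↔ v ∈ (rcy162Cyl L 0 H).V \ ω.S
  simp only [Finset.mem_sdiff, hV, hvJ, not_false_eq_true, and_true, true_and]

open Classical in
/-- the flip of `s` in the unexplored system: plus pins on the row `H` become minus pins, the field changes its sign in the band -/
theorem pjb12_flip_sum (t : ℝ) (hL : 0 < L) (hH : 2 ≤ H) (h0 : rcy162Row L 0 ⊆ J) (hJ : J ⊆ (rcy162Cyl L 0 H).V) (hlow : ∀ v ∈ J, v.2 < H)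
    {c d : ℤ} (hcJ : ∀ v ∈ J, 2 * v.2 < c - 1) {E : Set CyF} (hs : CySup c d E) :
    (rcs127OutP (rcy162Cyl L 0 H) J).sum t (Rcs127KP (rcy162Cyl L 0 H) J (fun S => rcy162Row L H ⊆ S))
        (fun ω => if (fun u => - rcy162Fld L (rcy162Cyl L 0 H) ω u) ∈ E then 1 else 0) =
      (rcs127OutP (rcy162Cyl L 0 H) J).sum t (Rcs127KP (rcy162Cyl L 0 H) J (fun S => ∀ v ∈ rcy162Row L H, v ∉ S))
        (fun ω => if rcy162Fld L (rcy162Cyl L 0 H) ω ∈ E then 1 else 0) := by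
  have hw := rcy162_cyl_wf hL 0 (H : ℤ)
  have ha := rcd111_G1 hL hH J h0 hJ
  rw [rcy162_flipS_sum _ (pjb12_outP_wf hw ha) t]
  have eK : ∀ ω : RswCfg, (rcs127OutP (rcy162Cyl L 0 H) J).Cfg ω →
      (Rcs127KP (rcy162Cyl L 0 H) J (fun S => rcy162Row L H ⊆ S) ((rcs127OutP (rcy162Cyl L 0 H) J).flipS ω) ↔
        Rcs127KP (rcy162Cyl L 0 H) J (fun S => ∀ v ∈ rcy162Row L H, v ∉ S) ω) := by
    intro ω _
    refine and_congr Iff.rfl ?_
    show rcy162Row L H ⊆ ((rcy162Cyl L 0 H).V \ J) \ ω.S ↔ _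
    constructor
    · intro h v hv
      exact (Finset.mem_sdiff.1 (h hv)).2
    · intro h v hv
      obtain ⟨a1, a2⟩ := rcy162_mem_row.1 hv
      refine Finset.mem_sdiff.2 ⟨Finset.mem_sdiff.2 ⟨rcy162_mem_cylV.2 ⟨a1, by rw [a2]; positivity, by rw [a2]⟩, fun hj => ?_⟩, h v hv⟩
      have := hlow v hj
      omega
  rw [rcy162_sum_congr_K _ _ eK]
  refine rcy162_sum_congr _ _ _ fun ω _ _ => ?_
  have e1 : ((fun u => - rcy162Fld L (rcy162Cyl L 0 H) ((rcs127OutP (rcy162Cyl L 0 H) J).flipS ω) u) ∈ E) ↔ rcy162Fld L (rcy162Cyl L 0 H) ω ∈ E :=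
    hs _ _ fun u h1 h2 => by rw [pjb12_flip_fld hL hcJ ω u h1 h2, neg_neg]
  simp only [e1]

/-- a constraint which is constant on the row `H` is compatible with the contraction of the row -/
theorem pjb12_pi (hL : 0 < L) (h0 : rcy162Row L 0 ⊆ J) {S : Finset (ℤ × ℤ)} (hS : ∀ v ∈ rcy162Row L H, ∀ w ∈ rcy162Row L H, (v ∈ S ↔ w ∈ S)) :
    ∀ v ∈ (rcy162Cyl L 0 H).V \ J, (rci69Pi 0 H v ∈ S ↔ v ∈ S) := by
  intro v hv
  obtain ⟨hV, hvJ⟩ := Finset.mem_sdiff.1 hv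
  obtain ⟨a1, a3, a4⟩ := rcy162_mem_cylV.1 hV
  have hv0 : v.2 ≠ 0 := fun h => hvJ (h0 (rcy162_mem_row.2 ⟨a1, h⟩))
  unfold rci69Pi
  rw [if_neg hv0]
  by_cases hb : v.2 = (H : ℤ)
  · rw [if_pos hb]
    exact hS _ (rcy162_mem_row.2 ⟨⟨le_refl _, by show (0 : ℤ) < L; exact_mod_cast hL⟩, rfl⟩) _ (rcy162_mem_row.2 ⟨a1, hb⟩)
  · rw [if_neg hb]

open Classical in
/-- **step (b) of (perJ): THE SIGNS.**  In the unexplored system of a connected record (`d = +` on the cut, `s = +` on the row `H`) an increasing event of a band above the record is at least as likely as its image under the flip -/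
theorem pjb12_sign {t : ℝ} (ht0 : 0 < t) (ht1 : t ≤ 1) (hL : 0 < L) (hH : 2 ≤ H) (h0 : rcy162Row L 0 ⊆ J) (hJ : J ⊆ (rcy162Cyl L 0 H).V)
    (hlow : ∀ v ∈ J, v.2 < H) (hc : Rcs127Conn (rcs127Sw (rcy162Cyl L 0 H)) (rcy162Row L 0) J)
    {c d : ℤ} (hcJ : ∀ v ∈ J, 2 * v.2 < c - 1) {E : Set CyF} (hE : CyInc E) (hs : CySup c d E) :
    (rcs127OutP (rcy162Cyl L 0 H) J).sum t (Rcs127KP (rcy162Cyl L 0 H) J (fun S => rcy162Row L H ⊆ S))
        (fun ω => if (fun u => - rcy162Fld L (rcy162Cyl L 0 H) ω u) ∈ E then 1 else 0) ≤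
      (rcs127OutP (rcy162Cyl L 0 H) J).sum t (Rcs127KP (rcy162Cyl L 0 H) J (fun S => rcy162Row L H ⊆ S))
        (fun ω => if rcy162Fld L (rcy162Cyl L 0 H) ω ∈ E then 1 else 0) := by
  rw [pjb12_flip_sum t hL hH h0 hJ hlow hcJ hs]
  have hZ : (rcs127OutP (rcy162Cyl L 0 H) J).sum t (Rcs127KP (rcy162Cyl L 0 H) J (fun S => rcy162Row L H ⊆ S)) (fun _ => 1) =
      (rcs127OutP (rcy162Cyl L 0 H) J).sum t (Rcs127KP (rcy162Cyl L 0 H) J (fun S => ∀ v ∈ rcy162Row L H, v ∉ S)) (fun _ => 1) := by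
    have := pjb12_flip_sum t hL hH h0 hJ hlow (d := d) hcJ (E := Set.univ) (fun _ _ _ => Iff.rfl)
    simpa using this
  have hX : Rci69Inc (rcy162Cyl L 0 H) (fun ω => if rcy162Fld L (rcy162Cyl L 0 H) ω ∈ E then (1 : ℝ) else 0) := by
    intro ω ω' hle
    by_cases h : rcy162Fld L (rcy162Cyl L 0 H) ω ∈ E
    · have h' := hE _ _ (fun u => rcy162_fld_mono L hle u) h
      simp only [if_pos h, if_pos h', le_refl]
    · simp only [if_neg h]
      split_ifs <;> norm_num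
  have hol := rof127_holley_sum ht0 ht1 hL hH h0 hJ hlow hc (KS₁ := fun S => ∀ v ∈ rcy162Row L H, v ∉ S) (KS₂ := fun S => rcy162Row L H ⊆ S)
    (fun S hS => pjb12_pi hL h0 (fun v hv w hw => ⟨fun h => absurd h (hS v hv), fun h => absurd h (hS w hw)⟩))
    (fun S hS => pjb12_pi hL h0 (fun v hv w hw => ⟨fun _ => hS hw, fun _ => hS hv⟩))
    (fun S S' h1 h2 => ⟨fun v hv h => h1 v hv (Finset.mem_inter.1 h).1, fun v hv => Finset.mem_union_right _ (h2 hv)⟩) hX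
  rw [hZ] at hol
  have hZ0 : 0 ≤ (rcs127OutP (rcy162Cyl L 0 H) J).sum t (Rcs127KP (rcy162Cyl L 0 H) J (fun S => ∀ v ∈ rcy162Row L H, v ∉ S)) (fun _ => 1) :=
    rcy162_sum_nonneg _ _ ht0.le ht1 (fun _ => zero_le_one)
  rcases hZ0.lt_or_eq with hp | hz
  · rw [mul_comm] at hol
    exact le_of_mul_le_mul_left hol hp
  · have h1 : (rcs127OutP (rcy162Cyl L 0 H) J).sum t (Rcs127KP (rcy162Cyl L 0 H) J (fun S => ∀ v ∈ rcy162Row L H, v ∉ S))
        (fun ω => if rcy162Fld L (rcy162Cyl L 0 H) ω ∈ E then 1 else 0) ≤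
        (rcs127OutP (rcy162Cyl L 0 H) J).sum t (Rcs127KP (rcy162Cyl L 0 H) J (fun S => ∀ v ∈ rcy162Row L H, v ∉ S)) (fun _ => 1) :=
      rcy162_sum_mono _ _ ht0.le ht1 (fun ω => by split_ifs <;> norm_num)
    have h2 : 0 ≤ (rcs127OutP (rcy162Cyl L 0 H) J).sum t (Rcs127KP (rcy162Cyl L 0 H) J (fun S => rcy162Row L H ⊆ S))
        (fun ω => if rcy162Fld L (rcy162Cyl L 0 H) ω ∈ E then 1 else 0) :=
      rcy162_sum_nonneg _ _ ht0.le ht1 (fun ω => by split_ifs <;> norm_num)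
    linarith

theorem pjb12_on_neg (s : SignType) (τ : CyF) : cyOn s (fun u => - τ u) = cyOn (-s) τ := by
  ext u
  show - τ u = s ↔ τ u = - s
  exact neg_eq_iff_eq_neg

open Classical in
/-- the signs for the vertical crossings, in the shape of `rcd111_alt_out_N` -/
theorem pjb12_sign_VP {t : ℝ} (ht0 : 0 < t) (ht1 : t ≤ 1) (hL : 0 < L) (hH : 2 ≤ H) (h0 : rcy162Row L 0 ⊆ J) (hJ : J ⊆ (rcy162Cyl L 0 H).V)
    (hlow : ∀ v ∈ J, v.2 < H) (hc : Rcs127Conn (rcs127Sw (rcy162Cyl L 0 H)) (rcy162Row L 0) J)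
    {c d : ℤ} (hcJ : ∀ v ∈ J, 2 * v.2 < c - 1) :
    (rcs127OutP (rcy162Cyl L 0 H) J).sum t (Rcs127KP (rcy162Cyl L 0 H) J (fun S => rcy162Row L H ⊆ S))
        (fun ω => if rcy162Fld L (rcy162Cyl L 0 H) ω ∈ cyVP (-1) c d then 1 else 0) ≤
      (rcs127OutP (rcy162Cyl L 0 H) J).sum t (Rcs127KP (rcy162Cyl L 0 H) J (fun S => rcy162Row L H ⊆ S))
        (fun ω => if rcy162Fld L (rcy162Cyl L 0 H) ω ∈ cyVP 1 c d then 1 else 0) := by
  have key := pjb12_sign ht0 ht1 hL hH h0 hJ hlow hc hcJ (cy_inc_VP c d) (cy_sup_VP 1 c d)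
  have e : ∀ τ : CyF, ((fun u => - τ u) ∈ cyVP 1 c d) ↔ τ ∈ cyVP (-1) c d := by
    intro τ
    show CyX (plsBand c d ∩ cyOn 1 (fun u => - τ u)) c d ↔ CyX (plsBand c d ∩ cyOn (-1) τ) c d
    rw [pjb12_on_neg]
  simp only [e] at key
  exact key

open Classical in
/-- the signs for the blocking circuits -/
theorem pjb12_sign_Blk {t : ℝ} (ht0 : 0 < t) (ht1 : t ≤ 1) (hL : 0 < L) (hH : 2 ≤ H) (h0 : rcy162Row L 0 ⊆ J) (hJ : J ⊆ (rcy162Cyl L 0 H).V)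
    (hlow : ∀ v ∈ J, v.2 < H) (hc : Rcs127Conn (rcs127Sw (rcy162Cyl L 0 H)) (rcy162Row L 0) J)
    {c d : ℤ} (hcJ : ∀ v ∈ J, 2 * v.2 < c - 1) :
    (rcs127OutP (rcy162Cyl L 0 H) J).sum t (Rcs127KP (rcy162Cyl L 0 H) J (fun S => rcy162Row L H ⊆ S))
        (fun ω => if rcy162Fld L (rcy162Cyl L 0 H) ω ∈ cyBlk (-1) c d then 1 else 0) ≤
      (rcs127OutP (rcy162Cyl L 0 H) J).sum t (Rcs127KP (rcy162Cyl L 0 H) J (fun S => rcy162Row L H ⊆ S))
        (fun ω => if rcy162Fld L (rcy162Cyl L 0 H) ω ∈ cyBlk 1 c d then 1 else 0) := by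
  have key := pjb12_sign ht0 ht1 hL hH h0 hJ hlow hc hcJ (cy_inc_Blk c d) (cy_sup_Blk 1 c d)
  have e : ∀ τ : CyF, ((fun u => - τ u) ∈ cyBlk 1 c d) ↔ τ ∈ cyBlk (-1) c d := by
    intro τ
    show ¬ CyX (plsBand c d \ cyOn 1 (fun u => - τ u)) c d ↔ ¬ CyX (plsBand c d \ cyOn (-1) τ) c d
    rw [pjb12_on_neg]
  simp only [e] at key
  exact key

end pjb

/-! ## 2. (P5) of the frame `PerJ69`: the signs in the DOUBLY CUT system -/

section pjb2

variable {Y : Rcy162Sys} {J G : Finset (ℤ × ℤ)} {q u₀ : ℤ × ℤ}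

/-- the doubly cut system is well formed -/
theorem pjb12_D_wf (g : Rpt127Geo Y J G q u₀) : (rcs127Out (rcs127OutP Y J) G).WF := by
  refine ⟨fun e he => ?_, fun e he => ?_, fun e he => ?_, fun e he => ?_⟩
  · obtain ⟨a, b0, b1⟩ := rcs127_mem_E2.1 he
    obtain ⟨a', c0, c1⟩ := rcs127_mem_E2.1 a
    by_cases h : Y.p0 e ∈ rcs127V1 (rcs127OutP Y J) G
    · exact Finset.mem_union_right _ ((g.geoG e he).1 h)
    · exact Finset.mem_union_left _ (Finset.mem_sdiff.2 ⟨Finset.mem_sdiff.2 ⟨g.wf.p0 e a', c0⟩, h⟩)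
  · obtain ⟨a, b0, b1⟩ := rcs127_mem_E2.1 he
    obtain ⟨a', c0, c1⟩ := rcs127_mem_E2.1 a
    by_cases h : Y.p1 e ∈ rcs127V1 (rcs127OutP Y J) G
    · exact Finset.mem_union_right _ ((g.geoG e he).2 h)
    · exact Finset.mem_union_left _ (Finset.mem_sdiff.2 ⟨Finset.mem_sdiff.2 ⟨g.wf.p1 e a', c1⟩, h⟩)
  · obtain ⟨a, b0, b1⟩ := rcs127_mem_E2.1 he
    obtain ⟨a', c0, c1⟩ := rcs127_mem_E2.1 a
    refine Finset.mem_sdiff.2 ⟨?_, b0⟩
    by_cases h : Y.f0 e ∈ rcs127V1 (rcs127Sw Y) J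
    · exact Finset.mem_union_right _ ((g.geoJ e a).1 h)
    · exact Finset.mem_union_left _ (Finset.mem_sdiff.2 ⟨g.wf.f0 e a', h⟩)
  · obtain ⟨a, b0, b1⟩ := rcs127_mem_E2.1 he
    obtain ⟨a', c0, c1⟩ := rcs127_mem_E2.1 a
    refine Finset.mem_sdiff.2 ⟨?_, b1⟩
    by_cases h : Y.f1 e ∈ rcs127V1 (rcs127Sw Y) J
    · exact Finset.mem_union_right _ ((g.geoJ e a).2 h)
    · exact Finset.mem_union_left _ (Finset.mem_sdiff.2 ⟨g.wf.f1 e a', h⟩)

/-- the flip of `s` in the doubly cut system: the plus pins on the rim of `G` become minus pins -/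
theorem pjb12_flip2 (g : Rpt127Geo Y J G q u₀) (t : ℝ) {X X' : RswCfg → ℝ} (hflip : ∀ ω, X ((rcs127Out (rcs127OutP Y J) G).flipS ω) = X' ω) :
    (rcs127Out (rcs127OutP Y J) G).sum t (fun ω => (∀ v ∈ rcs127V0 (rcs127OutP Y J) G, (v ∈ ω.S ↔ true = true)) ∧ ∀ f ∈ rcs127V0 (rcs127Sw Y) J, f ∈ ω.D) X =
      (rcs127Out (rcs127OutP Y J) G).sum t (fun ω => (∀ v ∈ rcs127V0 (rcs127OutP Y J) G, (v ∈ ω.S ↔ false = true)) ∧ ∀ f ∈ rcs127V0 (rcs127Sw Y) J, f ∈ ω.D) X' := by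
  rw [rcy162_flipS_sum _ (pjb12_D_wf g) t, show (fun ω => X ((rcs127Out (rcs127OutP Y J) G).flipS ω)) = X' from funext hflip]
  refine rcy162_sum_congr_K _ _ (fun ω _ => and_congr ?_ Iff.rfl) _
  refine forall_congr' fun v => forall_congr' fun hv => ?_
  have hvD : v ∈ (rcs127Out (rcs127OutP Y J) G).V := Finset.mem_union_right _ hv
  show (v ∈ (rcs127Out (rcs127OutP Y J) G).V \ ω.S ↔ true = true) ↔ (v ∈ ω.S ↔ false = true)
  simp only [Finset.mem_sdiff, hvD, true_and, iff_true, Bool.false_eq_true, iff_false]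

open Classical in
/-- **the signs in the doubly cut system** (abstract): `A` = the image of the increasing event `B` under the flip of `s` -/
theorem pjb12_sign2 (g : Rpt127Geo Y J G q u₀) {t : ℝ} (ht0 : 0 < t) (ht1 : t ≤ 1) {A B : RswCfg → Prop}
    (hflip : ∀ ω, A ((rcs127Out (rcs127OutP Y J) G).flipS ω) ↔ B ω) (hB : Rci69Inc Y (fun ω => if B ω then (1 : ℝ) else 0)) :
    (rcs127Out (rcs127OutP Y J) G).sum t (fun ω => (∀ v ∈ rcs127V0 (rcs127OutP Y J) G, (v ∈ ω.S ↔ true = true)) ∧ ∀ f ∈ rcs127V0 (rcs127Sw Y) J, f ∈ ω.D)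
        (fun ω => if A ω then 1 else 0) ≤
      (rcs127Out (rcs127OutP Y J) G).sum t (fun ω => (∀ v ∈ rcs127V0 (rcs127OutP Y J) G, (v ∈ ω.S ↔ true = true)) ∧ ∀ f ∈ rcs127V0 (rcs127Sw Y) J, f ∈ ω.D)
        (fun ω => if B ω then 1 else 0) := by
  rw [pjb12_flip2 g t (X := fun ω => if A ω then 1 else 0) (X' := fun ω => if B ω then 1 else 0) (fun ω => if_congr (hflip ω) rfl rfl)]
  have hZ := pjb12_flip2 g t (X := fun _ => 1) (X' := fun _ => 1) (fun _ => rfl)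
  have hol := rpt127_holley_sum g ht0 ht1 (KS₁ := fun S => ∀ v ∈ rcs127V0 (rcs127OutP Y J) G, (v ∈ S ↔ false = true))
    (KS₂ := fun S => ∀ v ∈ rcs127V0 (rcs127OutP Y J) G, (v ∈ S ↔ true = true))
    (fun S hS => rpt127_pin_pi g false S hS) (fun S hS => rpt127_pin_pi g true S hS)
    (fun S S' h1 h2 => ⟨fun v hv => ⟨fun h => (h1 v hv).1 (Finset.mem_inter.1 h).1, fun h => absurd h (by decide)⟩,
      fun v hv => ⟨fun _ => rfl, fun _ => Finset.mem_union_right _ ((h2 v hv).2 rfl)⟩⟩) hB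
  rw [hZ] at hol
  have hZ0 : 0 ≤ (rcs127Out (rcs127OutP Y J) G).sum t
      (fun ω => (∀ v ∈ rcs127V0 (rcs127OutP Y J) G, (v ∈ ω.S ↔ false = true)) ∧ ∀ f ∈ rcs127V0 (rcs127Sw Y) J, f ∈ ω.D) (fun _ => 1) :=
    rcy162_sum_nonneg _ _ ht0.le ht1 (fun _ => zero_le_one)
  rcases hZ0.lt_or_eq with hp | hz
  · rw [mul_comm] at hol
    exact le_of_mul_le_mul_left hol hp
  · have h1 : (rcs127Out (rcs127OutP Y J) G).sum t
        (fun ω => (∀ v ∈ rcs127V0 (rcs127OutP Y J) G, (v ∈ ω.S ↔ false = true)) ∧ ∀ f ∈ rcs127V0 (rcs127Sw Y) J, f ∈ ω.D) (fun ω => if B ω then 1 else 0) ≤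
        (rcs127Out (rcs127OutP Y J) G).sum t
        (fun ω => (∀ v ∈ rcs127V0 (rcs127OutP Y J) G, (v ∈ ω.S ↔ false = true)) ∧ ∀ f ∈ rcs127V0 (rcs127Sw Y) J, f ∈ ω.D) (fun _ => 1) :=
      rcy162_sum_mono _ _ ht0.le ht1 (fun ω => by split_ifs <;> norm_num)
    have h2 : 0 ≤ (rcs127Out (rcs127OutP Y J) G).sum t
        (fun ω => (∀ v ∈ rcs127V0 (rcs127OutP Y J) G, (v ∈ ω.S ↔ true = true)) ∧ ∀ f ∈ rcs127V0 (rcs127Sw Y) J, f ∈ ω.D) (fun ω => if B ω then 1 else 0) :=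
      rcy162_sum_nonneg _ _ ht0.le ht1 (fun ω => by split_ifs <;> norm_num)
    linarith

end pjb2

/-! ## 3. (P5) on the cap of `PerJ69` -/

section pjb3

variable {L H : ℕ} {k m κ : ℤ} {J : Finset (ℤ × ℤ)}

/-- the faces of `G_s` lie above the refined row `2 H + m + 7` -/
theorem pjb12_G_high (ctx : Rpj69Ctx L H k m κ J) (s : Bool) : ∀ f ∈ rpj69G L κ m J s, 2 * (H : ℤ) + m + 7 < 2 * f.2 + 1 := by
  intro f hf
  have hb : 2 * (κ + m / 2) - 1 = 2 * κ + m - 1 := by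
    obtain ⟨r, hr⟩ := ctx.hme
    omega
  unfold rpj69G at hf
  cases s
  · simp only [Bool.false_eq_true, if_false] at hf
    obtain ⟨_, h2⟩ := Finset.mem_filter.1 hf
    exact rcd111_rho_inv_high (L := L) hb ctx.hN (ctx.hlow _ h2)
  · simp only [if_true] at hf
    obtain ⟨v, hv, rfl⟩ := Finset.mem_image.1 hf
    exact rcd111_rho_high hb ctx.hN (ctx.hlow _ hv)

/-- the sites which the high band reads are sites of the doubly cut system -/
theorem pjb12_band (ctx : Rpj69Ctx L H k m κ J) (s : Bool) : rcs127AV L 0 H κ (κ + m - 1) ⊆ (rpj69D L κ m J s).V := by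
  intro v hv
  obtain ⟨hV, h3, h4⟩ := Finset.mem_filter.1 hv
  obtain ⟨a1, a2, a3⟩ := rcy162_mem_cylV.1 hV
  obtain ⟨r, hr⟩ := ctx.hme
  have c1 := ctx.hκ
  have c2 := ctx.hk
  have c3 := ctx.hm
  have c4 := ctx.hκH
  have hQ : v ∈ (rcs127OutP (rpj69Y L κ m) J).V :=
    Finset.mem_sdiff.2 ⟨rci69_mem_capV.2 (Or.inl ⟨a1, a2, by omega⟩), fun h => by have := ctx.hlow v h; omega⟩
  refine Finset.mem_union_left _ (Finset.mem_sdiff.2 ⟨hQ, fun h1 => ?_⟩)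
  have key : ∀ e, ((rpj69Y L κ m).f0 e ∈ rpj69G L κ m J s ∨ (rpj69Y L κ m).f1 e ∈ rpj69G L κ m J s) →
      (v = (rpj69Y L κ m).p0 e ∨ v = (rpj69Y L κ m).p1 e) → False := by
    intro e hf hp
    have hh : 2 * (H : ℤ) + m + 7 < 2 * ((rci69Cap L 0 (κ + m / 2)).f0 e).2 + 1 ∨ 2 * (H : ℤ) + m + 7 < 2 * ((rci69Cap L 0 (κ + m / 2)).f1 e).2 + 1 :=
      hf.imp (pjb12_G_high ctx s _) (pjb12_G_high ctx s _)
    obtain ⟨_, t1, t2⟩ := rcd111_touch_high L 0 (κ + m / 2) hh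
    rcases hp with h | h
    · have : v.2 = ((rci69Cap L 0 (κ + m / 2)).p0 e).2 := by rw [h]; rfl
      omega
    · have : v.2 = ((rci69Cap L 0 (κ + m / 2)).p1 e).2 := by rw [h]; rfl
      omega
  unfold rcs127V1 rcs127V0 at h1
  simp only [Finset.mem_union, Finset.mem_image] at h1
  rcases h1 with (⟨e, he, h⟩ | ⟨e, he, h⟩) | (⟨e, he, h⟩ | ⟨e, he, h⟩)
  · exact key e (Or.inl (rcs127_mem_E1.1 he).2.1) (Or.inl h.symm)
  · exact key e (Or.inl (rcs127_mem_E1.1 he).2.1) (Or.inr h.symm)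
  · refine key e ?_ (Or.inl h.symm)
    have := (rcs127_mem_E0.1 he).2
    by_contra hn
    rw [not_or] at hn
    exact this ⟨fun x => absurd x hn.1, fun x => absurd x hn.2⟩
  · refine key e ?_ (Or.inr h.symm)
    have := (rcs127_mem_E0.1 he).2
    by_contra hn
    rw [not_or] at hn
    exact this ⟨fun x => absurd x hn.1, fun x => absurd x hn.2⟩

/-- the signs for the law `Λ_s` of `PerJ69`, any increasing event of the high band -/
theorem pjb12_lam_sign {t : ℝ} (ht0 : 0 < t) (ht1 : t ≤ 1) (hL : 0 < L) (ctx : Rpj69Ctx L H k m κ J) (s : Bool) {u₀ : ℤ × ℤ}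
    (g : Rpt127Geo (rpj69Y L κ m) J (rpj69G L κ m J s) (0, 0) u₀) {E : Set CyF} (hE : CyInc E) (hs : CySup κ (κ + m - 1) E) :
    rpj69Lam t L H κ m J s {τ | (fun u => - τ u) ∈ E} ≤ rpj69Lam t L H κ m J s E := by
  classical
  obtain ⟨r, hr⟩ := ctx.hme
  have c1 := ctx.hκ
  have c2 := ctx.hk
  have c3 := ctx.hm
  have c4 := ctx.hκH
  have c5 := ctx.hN
  have hflip : ∀ ω, (rcy162Fld L (rcy162Cyl L 0 H) ((rcs127Out (rcs127OutP (rpj69Y L κ m) J) (rpj69G L κ m J s)).flipS ω) ∈ {τ : CyF | (fun u => - τ u) ∈ E}) ↔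
      rcy162Fld L (rcy162Cyl L 0 H) ω ∈ E := by
    intro ω
    refine hs _ _ fun u h1 h2 => ?_
    have e1 : rcy162Fld L (rcy162Cyl L 0 H) ((rcs127Out (rcs127OutP (rpj69Y L κ m) J) (rpj69G L κ m J s)).flipS ω) u =
        rcy162Fld L (rcy162Cyl L 0 H) ((rcy162Cyl L 0 H).flipS ω) u := by
      refine rcs127_fld_agree hL 0 H κ (κ + m - 1) (ω := (rcs127Out (rcs127OutP (rpj69Y L κ m) J) (rpj69G L κ m J s)).flipS ω)
        (ω' := (rcy162Cyl L 0 H).flipS ω) ?_ (fun e _ => Iff.rfl) u h1 h2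
      intro v hv
      have hvD : v ∈ (rcs127Out (rcs127OutP (rpj69Y L κ m) J) (rpj69G L κ m J s)).V := pjb12_band ctx s hv
      have hvY : v ∈ (rcy162Cyl L 0 H).V := (Finset.mem_filter.1 hv).1
      show v ∈ (rcs127Out (rcs127OutP (rpj69Y L κ m) J) (rpj69G L κ m J s)).V \ ω.S ↔ v ∈ (rcy162Cyl L 0 H).V \ ω.S
      simp only [Finset.mem_sdiff, hvD, hvY, true_and]
    rw [e1, rcy162_flipS_fld L _ (rcy162_cyl_wf hL 0 (H : ℤ)) ω u, neg_neg]
  have hB : Rci69Inc (rpj69Y L κ m) (fun ω => if rcy162Fld L (rcy162Cyl L 0 H) ω ∈ E then (1 : ℝ) else 0) := by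
    intro ω ω' hle
    have ev : ∀ ω : RswCfg, rcy162Fld L (rci69Cap L 0 (κ + m / 2)) ω ∈ E ↔ rcy162Fld L (rcy162Cyl L 0 H) ω ∈ E :=
      fun ω => (rcd111_ev_cap hL (le_refl 0) (by omega) ω (by omega) (by omega) hs).1
    by_cases h : rcy162Fld L (rcy162Cyl L 0 H) ω ∈ E
    · have h' := (ev ω').1 (hE _ _ (fun u => rcy162_fld_mono L hle u) ((ev ω).2 h))
      simp only [if_pos h, if_pos h', le_refl]
    · simp only [if_neg h]
      split_ifs <;> norm_num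
  have key := pjb12_sign2 g ht0 ht1 (A := fun ω => rcy162Fld L (rcy162Cyl L 0 H) ω ∈ {τ : CyF | (fun u => - τ u) ∈ E})
    (B := fun ω => rcy162Fld L (rcy162Cyl L 0 H) ω ∈ E) hflip hB
  unfold rpj69Lam
  rw [rcy162_P_ind, rcy162_P_ind]
  exact div_le_div_of_nonneg_right key (rcy162_sum_nonneg _ _ ht0.le ht1 (fun _ => zero_le_one))

/-- **(P5) of `PerJ69`** from the geometry record of 127 (`Rpt127Geo` on the cap, producer 111) -/
theorem pjb12_P5 {t : ℝ} (ht0 : 0 < t) (ht1 : t ≤ 1) (hL : 0 < L)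
    (hgeo : ∀ (k m κ : ℤ) (J : Finset (ℤ × ℤ)), Rpj69Ctx L H k m κ J → ∀ s : Bool, ∃ u₀, Rpt127Geo (rpj69Y L κ m) J (rpj69G L κ m J s) (0, 0) u₀) :
    Rpj69P5 t L H := by
  intro k m κ J ctx s
  obtain ⟨u₀, g⟩ := hgeo k m κ J ctx s
  have e1 : {τ : CyF | (fun u => - τ u) ∈ cyVP 1 κ (κ + m - 1)} = cyVP (-1) κ (κ + m - 1) := by
    ext τ
    show CyX (plsBand κ (κ + m - 1) ∩ cyOn 1 (fun u => - τ u)) κ (κ + m - 1) ↔ CyX (plsBand κ (κ + m - 1) ∩ cyOn (-1) τ) κ (κ + m - 1)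
    rw [pjb12_on_neg]
  have e2 : {τ : CyF | (fun u => - τ u) ∈ cyBlk 1 κ (κ + m - 1)} = cyBlk (-1) κ (κ + m - 1) := by
    ext τ
    show ¬ CyX (plsBand κ (κ + m - 1) \ cyOn 1 (fun u => - τ u)) κ (κ + m - 1) ↔ ¬ CyX (plsBand κ (κ + m - 1) \ cyOn (-1) τ) κ (κ + m - 1)
    rw [pjb12_on_neg]
  refine ⟨?_, ?_⟩
  · rw [← e1]
    exact pjb12_lam_sign ht0 ht1 hL ctx s g (cy_inc_VP _ _) (cy_sup_VP 1 _ _)
  · rw [← e2]
    exact pjb12_lam_sign ht0 ht1 hL ctx s g (cy_inc_Blk _ _) (cy_sup_Blk 1 _ _)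

end pjb3

/-! ## 4. the chain form of connectedness from the class form -/

section pjb4

/-- **class form ⟹ chain form**: if every colouring which is constant across the deleted pairs takes the same value at `v` and at `u₀`, then `v` is joined to `u₀` by a chain of deleted pairs -/
theorem pjb12_chain_of_class {Y : Rcy162Sys} {π : ℤ × ℤ → ℤ × ℤ} {E' : Finset ((ℤ × ℤ) × Bool)} {u₀ v : ℤ × ℤ}
    (h : ∀ ρ : ℤ × ℤ → ZMod 2, (∀ e ∈ Y.E, e ∉ E' → ρ (π (Y.p0 e)) = ρ (π (Y.p1 e))) → ρ v = ρ u₀) : Rcs127Chain Y π E' u₀ v := by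
  classical
  set R : ℤ × ℤ → ℤ × ℤ → Prop := fun x y => ∃ e ∈ Y.E, e ∉ E' ∧ ((π (Y.p0 e) = x ∧ π (Y.p1 e) = y) ∨ (π (Y.p0 e) = y ∧ π (Y.p1 e) = x)) with hR
  have h1 := h (fun x => if ReflTransGen R u₀ x then 1 else 0) (fun e he hn => by
    have e1 : ReflTransGen R u₀ (π (Y.p0 e)) ↔ ReflTransGen R u₀ (π (Y.p1 e)) :=
      ⟨fun hh => hh.tail ⟨e, he, hn, Or.inl ⟨rfl, rfl⟩⟩, fun hh => hh.tail ⟨e, he, hn, Or.inr ⟨rfl, rfl⟩⟩⟩
    simp only [e1])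
  have h2 : ReflTransGen R u₀ v := by
    by_contra hc
    simp only [if_neg hc, if_pos (ReflTransGen.refl : ReflTransGen R u₀ u₀)] at h1
    exact zero_ne_one h1
  clear h1 h
  induction h2 with
  | refl => exact rcs127_chain_refl Y π E' u₀
  | tail _ hs ih =>
    obtain ⟨e, he, hn, hvw⟩ := hs
    exact rcs127_chain_step ih he hn hvw

/-- **the field `ch` of `Rpt127Geo` from (G3) of the set of faces `G`** (`Rcs127G3 (rcs127Sw Y) G u₁` = the class form: a colouring of the sites which is constant across the pairs with a face in `G` is constant on their ends) -/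
theorem pjb12_ch {Y : Rcy162Sys} {J G : Finset (ℤ × ℤ)} {q u₁ u₀ : ℤ × ℤ} (g3 : Rcs127G3 (rcs127Sw Y) G u₁)
    (hgeo : ∀ e ∈ Y.E, (Y.f0 e ∈ G ∨ Y.f1 e ∈ G) → Y.p0 e ∉ J ∧ Y.p1 e ∉ J) (hu0 : u₀ ∈ rcs127V0 (rcs127OutP Y J) G) :
    ∀ v ∈ rcs127V1 (rcs127OutP Y J) G, Rcs127Chain (rcs127OutC Y J q) id (rcs127E2 (rcs127OutP Y J) G) u₀ v := by
  intro v hv
  refine pjb12_chain_of_class fun ρ hρ => ?_
  have hstep : ∀ e ∈ Y.E, (Y.f0 e ∈ G ∨ Y.f1 e ∈ G) → ρ (Y.p0 e) = ρ (Y.p1 e) := by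
    intro e he hf
    obtain ⟨n0, n1⟩ := hgeo e he hf
    refine hρ e (rcs127_mem_E2.2 ⟨he, n0, n1⟩) fun hE => ?_
    obtain ⟨_, m0, m1⟩ := rcs127_mem_E2.1 hE
    exact hf.elim m0 m1
  have hall := g3.2 ρ hstep
  have hval : ∀ w ∈ rcs127V1 (rcs127OutP Y J) G, ρ w = ρ u₁ := by
    intro w hw
    obtain ⟨e, he, hf, hwe⟩ := rcs127_mem_V1_sw (Y := rcs127Sw (rcs127OutP Y J)) (J := G) hw
    have heY : e ∈ Y.E := (rcs127_mem_E2.1 he).1
    rcases hwe with rfl | rfl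
    · exact hall e heY hf
    · exact (hstep e heY hf).symm.trans (hall e heY hf)
  rw [hval v hv, hval u₀ (Finset.mem_union_right _ hu0)]

end pjb4

/-- **(P5) of `PerJ69`, CLOSED** (with `rpt127_hgeo` of 127) -/
theorem pjb12_P5_closed {t : ℝ} (ht0 : 0 < t) (ht1 : t ≤ 1) {L : ℕ} (hL : 0 < L) (H : ℕ) : Rpj69P5 t L H :=
  pjb12_P5 ht0 ht1 hL (rpt127_hgeo hL)

end Claimed.Agent.R292
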