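import Claimed.Agent.R292.Rsw.CoreTop121
import Claimed.Agent.R292.Rsw.Sym211
import Claimed.Agent.R292.Rsw.Dual251
import Claimed.Agent.R292.Rsw.CmpInst291
import Claimed.Agent.R292.Rsw.BoxJordan219
import Claimed.Agent.R292.Rsw.Expl107

/-!
# Row 292 (S0540), Rsw/Poly159 : A7 (POLY2) AND (T2 FOR `U`) ON `ℤ²`      (pen helper159; prefix `rpo159` / `Rpo159`)

Port of R291 `Ann/Poly` + `Ann/PolyDet` + `ann_poly_rad` + `ann_U_mono` to the vocabulary of `Defs/RSW`, contracts of `Rsw/CoreTop121`.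
**RESULT (0 sorry, no hypothesis): `rpo159_rcPoly (t) (ht1 : 1 / 2 ≤ t) (ht2 : t < 1) : RcPoly t`**      (`J = 16 (R + 30)`, `κ' = 40 (R + 30) + 50`; in fact for all `0 < t ≤ 1`)
THE TWO MODEL INPUTS (typed as `Prop`s, PROVED at the end of the file)
* `Rpo159Fkg t`  (T1)  FKG for two increasing (`RswInc`) local events under the MINUS flat law of a centred box      `rpo159_fkg`  = `cmi291_exit_fkg_P` (291) + `bj219_box_jordan` (219)
* `Rpo159Dom t`  (T2)  an increasing event which is local to `Box(c, M) ⊆ Box(0, N)` is more likely under the minus flat law of the larger box      `rpo159_dom`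
     = `rpo159_dom_gen` (ANY `F ⊆ F'`, `F'` Jordan): the proof of `rrt109_dom` (109) through the swap `rsx_swap_E` (107), with FKG used ONLY at the larger domain `F'`
       (NB `Rrt109Fkg t` asks FKG for ALL finite `F`; the producer `cmi291_fkg_P` needs `Cmi291Dual F`, i.e. `Mdl41Conn F` or `RswJordan F`)
* `rpo159_poly : 0 < t → t ≤ 1 → Rpo159Fkg t → Rpo159Dom t → RcPoly t`, `rpo159_poly_of` (general shapes of the inputs)
PLAN OF (POLY2), scale `s`: an arm across `A(4s, 8s)` contains a chain of faces `z ⟶ z'` inside `Box(0,10s)` with displacement `≥ 4s` in one coordinate (`rpo159_arm_join`);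
pigeonhole over the pairs, swap symmetry: WLOG `z'.1 - z.1 ≥ 4s` (`rpo159_pigeon`); the copies under the translations by `(2dk, ±τ)`, the reflections in the column of `z'` and the swap
(`rpo159G`, `rpo159Cp`) have at least the same probability in `Box(0, κ' s)` (`rpo159_copy` = `rsy_P` + T2); FKG (`rpo159_fkg_finset`); the copies build long dual crossings of the four rectangles of the annulus
`Box((R+20)s) \ Box(Rs)` (`rpo159_zigH`, `rpo159_zigV`), which block every primal arm (`rpo159_first_exit` + `rdu251_psep_of_four` of Rsw/Dual251): `rpo159_geo`.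
-/

set_option autoImplicit false

namespace Claimed.Agent.R292

open Claims Claims.C0468 Relation

/-! ### the two inputs -/

/-- `L` reads only the primal spins at the corners of `F` and the interior edges of `F` -/
def Rpo159Loc (F : Finset (ℤ × ℤ)) (L : RswCfg → Prop) : Prop :=
  ∀ ω ω' : RswCfg, ω.S ∩ cornersOf F = ω'.S ∩ cornersOf F → ω.O ∩ rswInt F = ω'.O ∩ rswInt F → (L ω ↔ L ω')

/-- **(T1)** FKG for increasing local events under the minus flat law of a centred box -/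
def Rpo159Fkg (t : ℝ) : Prop :=
  ∀ (N : ℕ) (A B : RswCfg → Prop), 1 ≤ N → RswInc A → RswInc B → Rpo159Loc (rswBox 0 N) A → Rpo159Loc (rswBox 0 N) B →
    rswP t (rswBox 0 N) false A * rswP t (rswBox 0 N) false B ≤ rswP t (rswBox 0 N) false (fun ω => A ω ∧ B ω)

/-- **(T2)** domain monotonicity of the minus flat law, boxes in a centred box -/
def Rpo159Dom (t : ℝ) : Prop :=
  ∀ (c : ℤ × ℤ) (M N : ℕ) (L : RswCfg → Prop), 1 ≤ N → rswBox c M ⊆ rswBox 0 N → RswInc L → Rpo159Loc (rswBox c M) L →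
    rswP t (rswBox c M) false L ≤ rswP t (rswBox 0 N) false L

/-- the faces `z`, `z'` are joined inside `R` by a chain of faces which crosses no minus good edge -/
def Rpo159Join (R : Finset (ℤ × ℤ)) (z z' : ℤ × ℤ) (ω : RswCfg) : Prop := ReflTransGen (RswStep R false ω) z z'

/-- the copies: reflection in a column (`rf`), translation by `c`, swap of the coordinates (`sw`) -/
def rpo159G (sw rf : Bool) (c : ℤ × ℤ) : RsySym :=
  match sw, rf with
  | false, false => rsyT c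
  | false, true => rsyRx.trans (rsyT c)
  | true, false => (rsyT c).trans rsySw
  | true, true => (rsyRx.trans (rsyT c)).trans rsySw

/-- number of periods on each side -/
def rpo159K (R : ℕ) : ℕ := R + 30

/-- the outer ratio -/
def rpo159Kap (R : ℕ) : ℕ := 40 * (R + 30) + 50

/-- the translation vector of the copy `(up, rf, k)` -/
def rpo159C (R s : ℕ) (z z' : ℤ × ℤ) (up rf : Bool) (k : ℕ) : ℤ × ℤ :=
  ((if rf then 2 * z'.1 + 1 else 0) + 2 * (z'.1 - z.1) * ((k : ℤ) - rpo159K R),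
    if up then (((R + 10) * s : ℕ) : ℤ) else -(((R + 10) * s : ℕ) : ℤ))

/-- the copy of index `(sw, up, rf, k)` -/
def rpo159Cp (R s : ℕ) (z z' : ℤ × ℤ) (i : Bool × Bool × Bool × Fin (2 * rpo159K R)) : RsySym :=
  rpo159G i.1 i.2.2.1 (rpo159C R s z z' i.2.1 i.2.2.1 i.2.2.2)

/-- the equation lemmas of the definitions of this file are generated HERE (RULES.md, rule 6) -/
theorem rpo159_defs_eqns_cite : True := by
  have := @Rpo159Loc.eq_1
  have := @Rpo159Fkg.eq_1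
  have := @Rpo159Dom.eq_1
  have := @Rpo159Join.eq_1
  have := @rpo159G.eq_1
  have := @rpo159K.eq_1
  have := @rpo159Kap.eq_1
  have := @rpo159C.eq_1
  have := @rpo159Cp.eq_1
  trivial

/-! ### the join event: increasing, local, symmetric -/

theorem rpo159_join_inc (R : Finset (ℤ × ℤ)) (z z' : ℤ × ℤ) : RswInc (Rpo159Join R z z') := by
  intro ω ω' hle h
  refine ReflTransGen.mono ?_ _ _ h
  rintro f g ⟨hf, hg, e, he, hn⟩
  exact ⟨hf, hg, e, he, fun hc => hn (hle.2.2 e hc)⟩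

theorem rpo159_good_loc {F : Finset (ℤ × ℤ)} {ω ω' : RswCfg} (hS : ω.S ∩ cornersOf F = ω'.S ∩ cornersOf F)
    (hO : ω.O ∩ rswInt F = ω'.O ∩ rswInt F) {a : Bool} {e : (ℤ × ℤ) × Bool} (he : e ∈ rswInt F) (h : RswGood a ω e) :
    RswGood a ω' e := by
  have mS : ∀ v ∈ cornersOf F, (v ∈ ω.S ↔ v ∈ ω'.S) := by
    intro v hv
    have : v ∈ ω.S ∩ cornersOf F ↔ v ∈ ω'.S ∩ cornersOf F := by rw [hS]
    simpa [hv] using this
  have mO : e ∈ ω.O ↔ e ∈ ω'.O := by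
    have : e ∈ ω.O ∩ rswInt F ↔ e ∈ ω'.O ∩ rswInt F := by rw [hO]
    simpa [he] using this
  obtain ⟨h1, h2, h3⟩ := h
  exact ⟨mO.1 h1, by rw [← mS _ (rsb_int_fst_corner he)]; exact h2, by rw [← mS _ (rsb_int_end_corner he)]; exact h3⟩

theorem rpo159_step_int {R F : Finset (ℤ × ℤ)} (hR : R ⊆ F) {f g : ℤ × ℤ} (hf : f ∈ R) (hg : g ∈ R) {e : (ℤ × ℤ) × Bool}
    (he : (f = e.1 ∧ g = rswCo e) ∨ (g = e.1 ∧ f = rswCo e)) : e ∈ rswInt F := by
  rw [rsb_mem_int]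
  rcases he with ⟨h1, h2⟩ | ⟨h1, h2⟩
  · exact ⟨h1 ▸ hR hf, h2 ▸ hR hg⟩
  · exact ⟨h1 ▸ hR hg, h2 ▸ hR hf⟩

theorem rpo159_join_loc1 {R F : Finset (ℤ × ℤ)} (hR : R ⊆ F) (z z' : ℤ × ℤ) {ω ω' : RswCfg}
    (hS : ω.S ∩ cornersOf F = ω'.S ∩ cornersOf F) (hO : ω.O ∩ rswInt F = ω'.O ∩ rswInt F) (h : Rpo159Join R z z' ω) :
    Rpo159Join R z z' ω' := by
  refine ReflTransGen.mono ?_ _ _ h
  rintro f g ⟨hf, hg, e, he, hn⟩
  exact ⟨hf, hg, e, he, fun hc => hn (rpo159_good_loc hS.symm hO.symm (rpo159_step_int hR hf hg he) hc)⟩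

theorem rpo159_join_loc {R F : Finset (ℤ × ℤ)} (hR : R ⊆ F) (z z' : ℤ × ℤ) : Rpo159Loc F (Rpo159Join R z z') :=
  fun _ _ hS hO => ⟨rpo159_join_loc1 hR z z' hS hO, rpo159_join_loc1 hR z z' hS.symm hO.symm⟩

theorem rpo159_step_symm {R : Finset (ℤ × ℤ)} {a : Bool} {ω : RswCfg} {f g : ℤ × ℤ} (h : RswStep R a ω f g) : RswStep R a ω g f := by
  obtain ⟨hf, hg, e, he, hn⟩ := h
  exact ⟨hg, hf, e, he.symm, hn⟩

theorem rpo159_join_symm {R : Finset (ℤ × ℤ)} {z z' : ℤ × ℤ} {ω : RswCfg} (h : Rpo159Join R z z' ω) : Rpo159Join R z' z ω := by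
  unfold Rpo159Join at h ⊢
  induction h with
  | refl => exact ReflTransGen.refl
  | tail _ hbc ih => exact ReflTransGen.head (rpo159_step_symm hbc) ih

theorem rpo159_join_act (g : RsySym) (R : Finset (ℤ × ℤ)) (z z' : ℤ × ℤ) (ω : RswCfg) :
    Rpo159Join (g.mF R) (g.Fc z) (g.Fc z') (g.act ω) ↔ Rpo159Join R z z' ω := rsy_reach g R false ω z z'

/-! ### FKG for a finite family -/

theorem rpo159_fkg_finset {ι : Type} {t : ℝ} (h0 : 0 < t) (h1 : t ≤ 1) (hF : Rpo159Fkg t) (N : ℕ) (hN : 1 ≤ N) (s : Finset ι)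
    (L : ι → RswCfg → Prop) (hi : ∀ i ∈ s, RswInc (L i)) (hl : ∀ i ∈ s, Rpo159Loc (rswBox 0 N) (L i)) :
    ∏ i ∈ s, rswP t (rswBox 0 N) false (L i) ≤ rswP t (rswBox 0 N) false (fun ω => ∀ i ∈ s, L i ω) := by
  classical
  induction s using Finset.induction_on with
  | empty =>
    rw [Finset.prod_empty, rsb_P_eq_one h0 h1]
    intro ω _ _ i hi
    simp at hi
  | insert a s ha ih =>
    rw [Finset.prod_insert ha]
    have hi' : ∀ i ∈ s, RswInc (L i) := fun i h => hi i (Finset.mem_insert_of_mem h)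
    have hl' : ∀ i ∈ s, Rpo159Loc (rswBox 0 N) (L i) := fun i h => hl i (Finset.mem_insert_of_mem h)
    have ih' := ih hi' hl'
    have hinc : RswInc (fun ω => ∀ i ∈ s, L i ω) := fun ω ω' hle h i his => hi' i his ω ω' hle (h i his)
    have hloc : Rpo159Loc (rswBox 0 N) (fun ω => ∀ i ∈ s, L i ω) :=
      fun ω ω' hS hO => forall_congr' fun i => imp_congr_right fun his => hl' i his ω ω' hS hO
    have h2 := hF N (L a) _ hN (hi a (Finset.mem_insert_self a s)) hinc (hl a (Finset.mem_insert_self a s)) hloc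
    refine (mul_le_mul_of_nonneg_left ih' (rsb_P_nonneg h0 h1 _ _ _)).trans (h2.trans (le_of_eq ?_))
    exact rsb_P_congr fun ω _ _ => by simp [Finset.mem_insert]

/-! ### an arm contains a join -/

theorem rpo159_step_adj {R : Finset (ℤ × ℤ)} {a : Bool} {ω : RswCfg} {f g : ℤ × ℤ} (h : RswStep R a ω f g) :
    (g.1 = f.1 ∧ (g.2 = f.2 + 1 ∨ g.2 = f.2 - 1)) ∨ (g.2 = f.2 ∧ (g.1 = f.1 + 1 ∨ g.1 = f.1 - 1)) := by
  obtain ⟨_, _, ⟨⟨a, b⟩, t⟩, he, _⟩ := h
  cases t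
  · rcases he with ⟨h1, h2⟩ | ⟨h1, h2⟩
    · rw [h1, h2]; simp [rswCo]
    · rw [h1, h2]; simp [rswCo]
  · rcases he with ⟨h1, h2⟩ | ⟨h1, h2⟩
    · rw [h1, h2]; simp [rswCo]
    · rw [h1, h2]; simp [rswCo]

theorem rpo159_arm_join (s M : ℕ) (ω : RswCfg) (h : RcArm (rswBox 0 M) false 0 (4 * s) ω) :
    ∃ z z' : ℤ × ℤ, z ∈ rswBox 0 (10 * s) ∧ z' ∈ rswBox 0 (10 * s) ∧
      (4 * (s : ℤ) ≤ |z'.1 - z.1| ∨ 4 * (s : ℤ) ≤ |z'.2 - z.2|) ∧ Rpo159Join (rswBox 0 (10 * s)) z z' ω := by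
  unfold RcArm RswSep at h
  push Not at h
  obtain ⟨f, hf, g, hg, hch⟩ := h
  rw [rsy_mem_box] at hf
  simp only [Prod.fst_zero, Prod.snd_zero] at hf
  have key : (∃ z', z' ∈ rswBox 0 (10 * s) ∧ z' ∉ rswBox 0 (2 * (4 * s)) ∧ Rpo159Join (rswBox 0 (10 * s)) f z' ω) ∨
      (g ∈ rswBox 0 (2 * (4 * s)) ∧ Rpo159Join (rswBox 0 (10 * s)) f g ω) := by
    clear hg
    induction hch with
    | refl =>
      right
      refine ⟨?_, ReflTransGen.refl⟩
      rw [rsy_mem_box]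
      simp only [Prod.fst_zero, Prod.snd_zero]
      push_cast
      omega
    | @tail b c _ hbc ih =>
      rcases ih with h | ⟨hb, hj⟩
      · exact Or.inl h
      · have hadj := rpo159_step_adj hbc
        rw [rsy_mem_box] at hb
        simp only [Prod.fst_zero, Prod.snd_zero] at hb
        push_cast at hb
        have hb10 : b ∈ rswBox 0 (10 * s) := by
          rw [rsy_mem_box]
          simp only [Prod.fst_zero, Prod.snd_zero]
          push_cast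
          omega
        have hc10 : c ∈ rswBox 0 (10 * s) := by
          rw [rsy_mem_box]
          simp only [Prod.fst_zero, Prod.snd_zero]
          push_cast
          omega
        obtain ⟨_, _, e, he, hn⟩ := hbc
        have hj' : Rpo159Join (rswBox 0 (10 * s)) f c ω := hj.tail ⟨hb10, hc10, e, he, hn⟩
        by_cases hc : c ∈ rswBox 0 (2 * (4 * s))
        · exact Or.inr ⟨hc, hj'⟩
        · exact Or.inl ⟨c, hc10, hc, hj'⟩
  rw [Finset.mem_sdiff] at hg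
  rcases key with ⟨z', h1, h2, h3⟩ | ⟨h1, _⟩
  · refine ⟨f, z', ?_, h1, ?_, h3⟩
    · rw [rsy_mem_box]
      simp only [Prod.fst_zero, Prod.snd_zero]
      push_cast
      omega
    · rw [rsy_mem_box] at h2
      simp only [Prod.fst_zero, Prod.snd_zero] at h2
      push_cast at h2 hf
      by_cases hx : -(2 * (4 * (s : ℤ))) ≤ z'.1 ∧ z'.1 < 2 * (4 * (s : ℤ))
      · right
        rw [le_abs]
        omega
      · left
        rw [le_abs]
        omega
  · exact absurd h1 hg.2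

/-! ### boxes -/

theorem rpo159_mem_box0 (n : ℕ) (f : ℤ × ℤ) : f ∈ rswBox 0 n ↔ (-(n : ℤ) ≤ f.1 ∧ f.1 < n) ∧ (-(n : ℤ) ≤ f.2 ∧ f.2 < n) := by
  rw [rsy_mem_box]
  simp only [Prod.fst_zero, Prod.snd_zero, zero_sub, zero_add]

theorem rpo159_box_mono (c : ℤ × ℤ) {r M : ℕ} (h : r ≤ M) : rswBox c r ⊆ rswBox c M := by
  intro f hf
  rw [rsy_mem_box] at hf ⊢
  omega

theorem rpo159_box_sub {c : ℤ × ℤ} {M N : ℕ} (h1 : |c.1| + M ≤ N) (h2 : |c.2| + M ≤ N) : rswBox c M ⊆ rswBox 0 N := by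
  intro f hf
  rw [rsy_mem_box] at hf
  rw [rpo159_mem_box0]
  have a1 := le_abs_self c.1
  have a2 := neg_abs_le c.1
  have a3 := le_abs_self c.2
  have a4 := neg_abs_le c.2
  omega

theorem rpo159_box_card (r : ℕ) : (rswBox 0 r).card = (2 * r) * (2 * r) := by
  unfold rswBox
  rw [Finset.card_product, Int.card_Ico, Int.card_Ico]
  have e : ((0 : ℤ × ℤ).1 + (r : ℤ) - ((0 : ℤ × ℤ).1 - (r : ℤ))).toNat = 2 * r := by
    simp only [Prod.fst_zero]
    omega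
  have e' : ((0 : ℤ × ℤ).2 + (r : ℤ) - ((0 : ℤ × ℤ).2 - (r : ℤ))).toNat = 2 * r := by
    simp only [Prod.snd_zero]
    omega
  rw [e, e']

/-! ### pigeonhole -/

theorem rpo159_pigeon0 {t : ℝ} (h0 : 0 < t) (h1 : t ≤ 1) (s M : ℕ) (hs : 1 ≤ s) (hpos : 0 < rcEta t (4 * s) M) :
    ∃ z z' : ℤ × ℤ, z ∈ rswBox 0 (10 * s) ∧ z' ∈ rswBox 0 (10 * s) ∧
      (4 * (s : ℤ) ≤ |z'.1 - z.1| ∨ 4 * (s : ℤ) ≤ |z'.2 - z.2|) ∧
      rcEta t (4 * s) M ≤ (21 * (s : ℝ)) ^ 4 * rswP t (rswBox 0 M) false (Rpo159Join (rswBox 0 (10 * s)) z z') := by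
  classical
  set B := rswBox 0 (10 * s) with hB
  set T : Finset ((ℤ × ℤ) × (ℤ × ℤ)) :=
    (B ×ˢ B).filter (fun p => 4 * (s : ℤ) ≤ |p.2.1 - p.1.1| ∨ 4 * (s : ℤ) ≤ |p.2.2 - p.1.2|) with hT
  set f : (ℤ × ℤ) × (ℤ × ℤ) → ℝ := fun p => rswP t (rswBox 0 M) false (Rpo159Join B p.1 p.2) with hf
  have hmem : ∀ p : (ℤ × ℤ) × (ℤ × ℤ), p ∈ T ↔ (p.1 ∈ B ∧ p.2 ∈ B) ∧
      (4 * (s : ℤ) ≤ |p.2.1 - p.1.1| ∨ 4 * (s : ℤ) ≤ |p.2.2 - p.1.2|) := by
    intro p
    rw [hT, Finset.mem_filter, Finset.mem_product]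
  have h1' : rcEta t (4 * s) M ≤ ∑ p ∈ T, f p := by
    unfold rcEta
    refine (rsb_P_mono h0 h1 (L' := fun ω => ∃ p ∈ T, Rpo159Join B p.1 p.2 ω) ?_).trans
      (rsb_P_finset_union h0 h1 _ _ T (fun p ω => Rpo159Join B p.1 p.2 ω))
    intro ω _ _ hω
    obtain ⟨z, z', hz, hz', hv, hj⟩ := rpo159_arm_join s M ω hω
    exact ⟨(z, z'), (hmem _).2 ⟨⟨hz, hz'⟩, hv⟩, hj⟩
  have hne : T.Nonempty := by
    by_contra hcon
    rw [Finset.not_nonempty_iff_eq_empty] at hcon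
    rw [hcon, Finset.sum_empty] at h1'
    linarith
  obtain ⟨p, hp, hmax⟩ := Finset.exists_max_image T f hne
  obtain ⟨⟨hp1, hp2⟩, hp3⟩ := (hmem p).1 hp
  refine ⟨p.1, p.2, hp1, hp2, hp3, h1'.trans ?_⟩
  have h2 : ∑ q ∈ T, f q ≤ T.card • f p := Finset.sum_le_card_nsmul T f (f p) hmax
  have hfp : 0 ≤ f p := rsb_P_nonneg h0 h1 _ _ _
  have hcard : (T.card : ℝ) ≤ (21 * (s : ℝ)) ^ 4 := by
    have c1 : T.card ≤ ((2 * (10 * s)) * (2 * (10 * s))) * ((2 * (10 * s)) * (2 * (10 * s))) := by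
      refine (Finset.card_filter_le _ _).trans ?_
      rw [Finset.card_product, hB, rpo159_box_card]
    have c2 : ((2 * (10 * s)) * (2 * (10 * s))) * ((2 * (10 * s)) * (2 * (10 * s))) ≤ (21 * s) ^ 4 := by
      have : 2 * (10 * s) ≤ 21 * s := by omega
      calc ((2 * (10 * s)) * (2 * (10 * s))) * ((2 * (10 * s)) * (2 * (10 * s))) = (2 * (10 * s)) ^ 4 := by ring
        _ ≤ (21 * s) ^ 4 := Nat.pow_le_pow_left this 4
    exact_mod_cast c1.trans c2
  rw [nsmul_eq_mul] at h2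
  exact h2.trans (mul_le_mul_of_nonneg_right hcard hfp)

theorem rpo159_P_symm (t : ℝ) (F R : Finset (ℤ × ℤ)) (z z' : ℤ × ℤ) :
    rswP t F false (Rpo159Join R z' z) = rswP t F false (Rpo159Join R z z') :=
  rsb_P_congr fun _ _ _ => ⟨rpo159_join_symm, rpo159_join_symm⟩

theorem rpo159_P_swap (t : ℝ) (M r : ℕ) (z z' : ℤ × ℤ) :
    rswP t (rswBox 0 M) false (Rpo159Join (rswBox 0 r) z.swap z'.swap) = rswP t (rswBox 0 M) false (Rpo159Join (rswBox 0 r) z z') := by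
  have e1 : rsySw.mF (rswBox 0 M) = rswBox 0 M := (rsy_box0 M).1
  have e2 : rsySw.mF (rswBox 0 r) = rswBox 0 r := (rsy_box0 r).1
  conv_lhs => rw [← e1, rsy_P]
  refine rsb_P_congr fun ω _ _ => ?_
  have := rpo159_join_act rsySw (rswBox 0 r) z z' ω
  rw [e2] at this
  exact this

theorem rpo159_pigeon {t : ℝ} (h0 : 0 < t) (h1 : t ≤ 1) (s M : ℕ) (hs : 1 ≤ s) (hpos : 0 < rcEta t (4 * s) M) :
    ∃ z z' : ℤ × ℤ, z ∈ rswBox 0 (10 * s) ∧ z' ∈ rswBox 0 (10 * s) ∧ 4 * (s : ℤ) ≤ z'.1 - z.1 ∧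
      rcEta t (4 * s) M ≤ (21 * (s : ℝ)) ^ 4 * rswP t (rswBox 0 M) false (Rpo159Join (rswBox 0 (10 * s)) z z') := by
  obtain ⟨z, z', hz, hz', hv, hp⟩ := rpo159_pigeon0 h0 h1 s M hs hpos
  have hsw : ∀ w : ℤ × ℤ, w ∈ rswBox 0 (10 * s) → w.swap ∈ rswBox 0 (10 * s) := by
    intro w hw
    rw [rpo159_mem_box0] at hw ⊢
    exact ⟨hw.2, hw.1⟩
  rcases hv with hv | hv <;> rw [le_abs] at hv <;> rcases hv with hv | hv
  · exact ⟨z, z', hz, hz', hv, hp⟩
  · exact ⟨z', z, hz', hz, by omega, by rw [rpo159_P_symm]; exact hp⟩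
  · exact ⟨z.swap, z'.swap, hsw z hz, hsw z' hz', hv, by rw [rpo159_P_swap]; exact hp⟩
  · exact ⟨z'.swap, z.swap, hsw z' hz', hsw z hz, by simp only [Prod.fst_swap]; omega,
      by rw [rpo159_P_swap, rpo159_P_symm]; exact hp⟩

/-! ### the copies -/

theorem rpo159_G_box (sw rf : Bool) (c : ℤ × ℤ) (n : ℕ) :
    (rpo159G sw rf c).mF (rswBox 0 n) = rswBox (if sw then c.swap else c) n := by
  cases sw <;> cases rf <;>
    simp [rpo159G, rsy_trans_mF, rsy_box_T, rsy_box_Rx, rsy_box_Sw, Prod.mk_zero_zero]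

theorem rpo159_G_Fc (sw rf : Bool) (c f : ℤ × ℤ) :
    (rpo159G sw rf c).Fc f =
      (if sw then Prod.swap else id) ((if rf then -f.1 - 1 else f.1) + c.1, f.2 + c.2) := by
  cases sw <;> cases rf <;> rfl

theorem rpo159_copy {t : ℝ} (hD : Rpo159Dom t) (g : RsySym) (c : ℤ × ℤ) (r M N : ℕ) (hN : 1 ≤ N) (hr : r ≤ M)
    (hg : ∀ n, g.mF (rswBox 0 n) = rswBox c n) (hsub : rswBox c M ⊆ rswBox 0 N) (z z' : ℤ × ℤ) :
    rswP t (rswBox 0 M) false (Rpo159Join (rswBox 0 r) z z') ≤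
      rswP t (rswBox 0 N) false (Rpo159Join (g.mF (rswBox 0 r)) (g.Fc z) (g.Fc z')) := by
  have e : rswP t (rswBox c M) false (Rpo159Join (g.mF (rswBox 0 r)) (g.Fc z) (g.Fc z')) =
      rswP t (rswBox 0 M) false (Rpo159Join (rswBox 0 r) z z') := by
    rw [← hg M, rsy_P]
    exact rsb_P_congr fun ω _ _ => rpo159_join_act g _ _ _ ω
  rw [← e]
  exact hD c M N _ hN hsub (rpo159_join_inc _ _ _) (rpo159_join_loc (by rw [hg r]; exact rpo159_box_mono c hr) _ _)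

theorem rpo159_mul_bd {d j D K : ℤ} (h1 : 0 ≤ d) (h2 : d ≤ D) (h3 : -K ≤ j) (h4 : j ≤ K) : |d * j| ≤ D * K := by
  rw [abs_mul, abs_of_nonneg h1]
  exact mul_le_mul h2 (abs_le.2 ⟨h3, h4⟩) (abs_nonneg _) (h1.trans h2)

/-- the centre of every copy is at most `(40 K + 21) s` away from the origin -/
theorem rpo159_C_bd (R s : ℕ) (hs : 1 ≤ s) {z z' : ℤ × ℤ} (hz : z ∈ rswBox 0 (10 * s)) (hz' : z' ∈ rswBox 0 (10 * s))
    (hd : 4 * (s : ℤ) ≤ z'.1 - z.1) (up rf : Bool) (k : ℕ) (hk : k < 2 * rpo159K R) :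
    |(rpo159C R s z z' up rf k).1| + (7 * (4 * s) : ℕ) ≤ (rpo159Kap R * s : ℕ) ∧
      |(rpo159C R s z z' up rf k).2| + (7 * (4 * s) : ℕ) ≤ (rpo159Kap R * s : ℕ) := by
  rw [rpo159_mem_box0] at hz hz'
  push_cast at hz hz'
  have hb := rpo159_mul_bd (d := z'.1 - z.1) (j := (k : ℤ) - rpo159K R) (D := 20 * s) (K := rpo159K R) (by omega) (by omega)
    (by omega) (by omega)
  have hK : (rpo159K R : ℤ) = R + 30 := by unfold rpo159K; push_cast; ring
  have hKap : ((rpo159Kap R * s : ℕ) : ℤ) = 40 * ((R : ℤ) * s) + 1250 * s := by unfold rpo159Kap; push_cast; ring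
  have hRs : (0 : ℤ) ≤ (R : ℤ) * s := by positivity
  rw [hK] at hb
  have hb' : |(z'.1 - z.1) * ((k : ℤ) - (R + 30))| ≤ 20 * ((R : ℤ) * s) + 600 * s := by
    refine hb.trans (le_of_eq (by ring))
  rw [abs_le] at hb'
  constructor
  · rw [hKap]
    unfold rpo159C
    rw [hK]
    dsimp only
    have e : 2 * (z'.1 - z.1) * ((k : ℤ) - (R + 30)) = 2 * ((z'.1 - z.1) * ((k : ℤ) - (R + 30))) := by ring
    rw [e]
    push_cast
    cases rf
    · simp only [Bool.false_eq_true, if_false]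
      rw [← le_sub_iff_add_le, abs_le]
      constructor <;> omega
    · simp only [if_true]
      rw [← le_sub_iff_add_le, abs_le]
      constructor <;> omega
  · rw [hKap]
    unfold rpo159C
    dsimp only
    have e : (((R + 10) * s : ℕ) : ℤ) = (R : ℤ) * s + 10 * s := by push_cast; ring
    rw [e]
    push_cast
    cases up
    · simp only [Bool.false_eq_true, if_false]
      rw [← le_sub_iff_add_le, abs_le]
      constructor <;> omega
    · simp only [if_true]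
      rw [← le_sub_iff_add_le, abs_le]
      constructor <;> omega

/-! ### geometry: the zigzag -/

theorem rpo159_zig_chain {F : Set (ℤ × ℤ)} {G : Set ((ℤ × ℤ) × Bool)} (Zf Zf' : ℕ → ℤ × ℤ) (n : ℕ)
    (hA : ∀ k < n, ReflTransGen (rdu251Step F G) (Zf k) (Zf' k))
    (hB : ∀ k < n, ReflTransGen (rdu251Step F G) (Zf (k + 1)) (Zf' k)) :
    ReflTransGen (rdu251Step F G) (Zf 0) (Zf n) := by
  induction n with
  | zero => exact ReflTransGen.refl
  | succ n ih =>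
    exact ((ih (fun k hk => hA k (by omega)) (fun k hk => hB k (by omega))).trans (hA n (by omega))).trans
      (rdu251_chain_symm (hB n (by omega)))

theorem rpo159_extract {x0 x1 y0 y1 c d : ℤ} {G : Set ((ℤ × ℤ) × Bool)} {f g : ℤ × ℤ} (hcd : c < d)
    (h : ReflTransGen (rdu251Step (rdu251Rect x0 x1 y0 y1) G) f g) (hfR : f ∈ rdu251Rect x0 x1 y0 y1)
    (hf : f.1 ≤ c) (hg : d - 1 ≤ g.1) : Rdu251DualLR c d y0 y1 G := by
  rcases rdu251_chain_right (c := c) h hfR hf with hh | ⟨p, hp, hpR, _, hpg⟩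
  · omega
  · have hgR' := rdu251_chain_mem hpg hpR
    rcases rdu251_chain_left (c := d) (rdu251_chain_symm hpg) hgR' hg with hh | ⟨q, hq, hqR, _, hqp⟩
    · omega
    · exact ⟨p, q, rdu251_chain_mem hqp hqR, hp, hqR, hq, rdu251_chain_symm hqp⟩

/-- the horizontal zigzag: a long crossing of the band of height `20 s` round the height `τ` -/
theorem rpo159_zigH (R s : ℕ) {z z' : ℤ × ℤ} (hz : z ∈ rswBox 0 (10 * s)) (hz' : z' ∈ rswBox 0 (10 * s))
    (hd : 4 * (s : ℤ) ≤ z'.1 - z.1) (up : Bool) (ω : RswCfg)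
    (h : ∀ (rf : Bool) (k : ℕ), k < 2 * rpo159K R →
      Rpo159Join ((rpo159G false rf (rpo159C R s z z' up rf k)).mF (rswBox 0 (10 * s)))
        ((rpo159G false rf (rpo159C R s z z' up rf k)).Fc z) ((rpo159G false rf (rpo159C R s z z' up rf k)).Fc z') ω)
    (τ : ℤ) (hτ : τ = if up then (((R + 10) * s : ℕ) : ℤ) else -(((R + 10) * s : ℕ) : ℤ)) :
    Rdu251DualLR (-(((R + 20) * s : ℕ) : ℤ)) (((R + 20) * s : ℕ) : ℤ) (τ - 10 * s) (τ + 10 * s) (rdu251Good false ω) := by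
  rw [rpo159_mem_box0] at hz hz'
  push_cast at hz hz'
  obtain ⟨d, hdd⟩ : ∃ d, d = z'.1 - z.1 := ⟨_, rfl⟩
  obtain ⟨K, hK⟩ : ∃ K : ℤ, K = (rpo159K R : ℤ) := ⟨_, rfl⟩
  have hK' : K = R + 30 := by rw [hK]; unfold rpo159K; push_cast; ring
  obtain ⟨DK, hDK⟩ : ∃ DK, DK = d * K := ⟨_, rfl⟩
  obtain ⟨X, hX⟩ : ∃ X : ℤ, X = 2 * DK + 30 * s + 2 := ⟨_, rfl⟩
  obtain ⟨G, hG⟩ : ∃ G, G = rdu251Good false ω := ⟨_, rfl⟩
  rw [← hG]
  have hC : ∀ (rf : Bool) (k : ℕ), rpo159C R s z z' up rf k = ((if rf then 2 * z'.1 + 1 else 0) + 2 * (d * ((k : ℤ) - K)), τ) := by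
    intro rf k
    unfold rpo159C
    rw [hτ, hdd, hK, mul_assoc]
  have hbd : ∀ k : ℕ, k < 2 * rpo159K R → |d * ((k : ℤ) - K)| ≤ DK := by
    intro k hk
    rw [hDK]
    have : (k : ℤ) < 2 * K := by rw [hK]; exact_mod_cast hk
    exact rpo159_mul_bd (by omega) le_rfl (by omega) (by omega)
  have hconv : ∀ (rf : Bool) (k : ℕ), k < 2 * rpo159K R → ∀ f g : ℤ × ℤ,
      Rpo159Join ((rpo159G false rf (rpo159C R s z z' up rf k)).mF (rswBox 0 (10 * s))) f g ω →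
        ReflTransGen (rdu251Step (rdu251Rect (-X) X (τ - 10 * s) (τ + 10 * s)) G) f g := by
    intro rf k hk f g hj
    unfold Rpo159Join at hj
    rw [rdu251_rswStep, rpo159_G_box, rdu251_coe_box, ← hG] at hj
    refine rdu251_chain_mono ?_ (le_refl _) hj
    have hb := abs_le.1 (hbd k hk)
    rw [hC]
    simp only [Bool.false_eq_true, if_false]
    push_cast
    cases rf
    · simp only [Bool.false_eq_true, if_false]
      exact rdu251_rect_mono (by omega) (by omega) (by omega) (by omega)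
    · simp only [if_true]
      exact rdu251_rect_mono (by omega) (by omega) (by omega) (by omega)
  have hA : ∀ k < 2 * rpo159K R, ReflTransGen (rdu251Step (rdu251Rect (-X) X (τ - 10 * s) (τ + 10 * s)) G)
      ((fun j : ℕ => ((z.1 + 2 * (d * ((j : ℤ) - K)), z.2 + τ) : ℤ × ℤ)) k)
      ((fun j : ℕ => ((z'.1 + 2 * (d * ((j : ℤ) - K)), z'.2 + τ) : ℤ × ℤ)) k) := by
    intro k hk
    have := hconv false k hk _ _ (h false k hk)
    rw [rpo159_G_Fc, rpo159_G_Fc, hC] at this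
    simpa using this
  have hB : ∀ k < 2 * rpo159K R, ReflTransGen (rdu251Step (rdu251Rect (-X) X (τ - 10 * s) (τ + 10 * s)) G)
      ((fun j : ℕ => ((z.1 + 2 * (d * ((j : ℤ) - K)), z.2 + τ) : ℤ × ℤ)) (k + 1))
      ((fun j : ℕ => ((z'.1 + 2 * (d * ((j : ℤ) - K)), z'.2 + τ) : ℤ × ℤ)) k) := by
    intro k hk
    have := hconv true k hk _ _ (h true k hk)
    rw [rpo159_G_Fc, rpo159_G_Fc, hC] at this
    simp only [Bool.false_eq_true, if_false, if_true, id] at this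
    have e1 : -z.1 - 1 + (2 * z'.1 + 1 + 2 * (d * ((k : ℤ) - K))) = z.1 + 2 * (d * (((k + 1 : ℕ) : ℤ) - K)) := by
      rw [hdd]; push_cast; ring
    have e2 : -z'.1 - 1 + (2 * z'.1 + 1 + 2 * (d * ((k : ℤ) - K))) = z'.1 + 2 * (d * ((k : ℤ) - K)) := by ring
    rw [e1, e2] at this
    exact this
  have hch := rpo159_zig_chain _ _ (2 * rpo159K R) hA hB
  have hsR : (0 : ℤ) ≤ (R : ℤ) * s := by positivity
  have hDK4 : 4 * ((R : ℤ) * s) + 120 * s ≤ DK := by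
    rw [hDK, hK']
    have : 4 * (s : ℤ) * ((R : ℤ) + 30) ≤ d * ((R : ℤ) + 30) := mul_le_mul_of_nonneg_right (by omega) (by positivity)
    linarith
  have e20 : (((R + 20) * s : ℕ) : ℤ) = (R : ℤ) * s + 20 * s := by push_cast; ring
  have e0 : d * (((0 : ℕ) : ℤ) - K) = -DK := by rw [hDK]; push_cast; ring
  have e1 : d * (((2 * rpo159K R : ℕ) : ℤ) - K) = DK := by rw [hDK, hK]; push_cast; ring
  rw [e20]
  have hs0 : (0 : ℤ) ≤ s := by positivity
  refine rpo159_extract (by omega) hch ?_ ?_ ?_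
  · rw [rdu251_mem_rect]
    dsimp only
    rw [e0]
    refine ⟨by omega, by omega, by omega, by omega⟩
  · dsimp only
    rw [e0]
    omega
  · dsimp only
    rw [e1]
    omega

theorem rpo159_good_sw (ω : RswCfg) : rdu251T ⁻¹' (rdu251Good false (rsySw.symm.act ω)) = rdu251Good false ω := by
  ext e
  have h1 := rsy_good rsySw false (rsySw.symm.act ω) (rdu251T e)
  rw [rsy_act_symm] at h1
  have h2 : rsySw.E (rdu251T e) = e := by
    obtain ⟨⟨x, y⟩, β⟩ := e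
    cases β <;> rfl
  rw [h2] at h1
  exact h1.symm

/-- the vertical zigzag -/
theorem rpo159_zigV (R s : ℕ) {z z' : ℤ × ℤ} (hz : z ∈ rswBox 0 (10 * s)) (hz' : z' ∈ rswBox 0 (10 * s))
    (hd : 4 * (s : ℤ) ≤ z'.1 - z.1) (up : Bool) (ω : RswCfg)
    (h : ∀ (rf : Bool) (k : ℕ), k < 2 * rpo159K R →
      Rpo159Join ((rpo159G true rf (rpo159C R s z z' up rf k)).mF (rswBox 0 (10 * s)))
        ((rpo159G true rf (rpo159C R s z z' up rf k)).Fc z) ((rpo159G true rf (rpo159C R s z z' up rf k)).Fc z') ω)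
    (τ : ℤ) (hτ : τ = if up then (((R + 10) * s : ℕ) : ℤ) else -(((R + 10) * s : ℕ) : ℤ)) :
    Rdu251DualBT (τ - 10 * s) (τ + 10 * s) (-(((R + 20) * s : ℕ) : ℤ)) (((R + 20) * s : ℕ) : ℤ) (rdu251Good false ω) := by
  have key := rpo159_zigH R s hz hz' hd up (rsySw.symm.act ω) (fun rf k hk => by
    have h1 := h rf k hk
    have e : rpo159G true rf (rpo159C R s z z' up rf k) = (rpo159G false rf (rpo159C R s z z' up rf k)).trans rsySw := by
      cases rf <;> rfl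
    rw [e, rsy_trans_mF] at h1
    have h2 := rpo159_join_act rsySw ((rpo159G false rf (rpo159C R s z z' up rf k)).mF (rswBox 0 (10 * s)))
      ((rpo159G false rf (rpo159C R s z z' up rf k)).Fc z) ((rpo159G false rf (rpo159C R s z z' up rf k)).Fc z') (rsySw.symm.act ω)
    rw [rsy_act_symm] at h2
    exact h2.1 h1) τ hτ
  have := rdu251_dualLR_T key
  rwa [rpo159_good_sw] at this

/-! ### geometry: the arm -/

theorem rpo159_first_exit (b : ℤ) {F : Set (ℤ × ℤ)} {G : Set ((ℤ × ℤ) × Bool)} {u v : ℤ × ℤ}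
    (h : ReflTransGen (rdu251PStep F G) u v) (hu : -b < u.1 ∧ u.1 < b ∧ -b < u.2 ∧ u.2 < b)
    (hv : ¬ (-b < v.1 ∧ v.1 < b ∧ -b < v.2 ∧ v.2 < b)) :
    ∃ v' : ℤ × ℤ, (v'.1 ≤ -b ∨ b ≤ v'.1 ∨ v'.2 ≤ -b ∨ b ≤ v'.2) ∧
      ReflTransGen (rdu251PStep (rdu251Rect (-b) b (-b) b) G) u v' := by
  have key : (∃ v' : ℤ × ℤ, (v'.1 ≤ -b ∨ b ≤ v'.1 ∨ v'.2 ≤ -b ∨ b ≤ v'.2) ∧
      ReflTransGen (rdu251PStep (rdu251Rect (-b) b (-b) b) G) u v') ∨
      ((-b < v.1 ∧ v.1 < b ∧ -b < v.2 ∧ v.2 < b) ∧ ReflTransGen (rdu251PStep (rdu251Rect (-b) b (-b) b) G) u v) := by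
    clear hv
    induction h with
    | refl => exact Or.inr ⟨hu, ReflTransGen.refl⟩
    | @tail w c _ hwc ih =>
      rcases ih with h | ⟨hin, hch⟩
      · exact Or.inl h
      · obtain ⟨⟨⟨x, y⟩, β⟩, hG, _, _, hor⟩ := hwc
        have hst : rdu251PStep (rdu251Rect (-b) b (-b) b) G w c := by
          refine ⟨((x, y), β), hG, ?_, ?_, hor⟩
          · rw [rdu251_mem_rect]
            rcases hor with ⟨h1, _⟩ | ⟨_, h1⟩ <;> rw [h1] at hin <;> cases β <;> simp only [rswEnd, Bool.false_eq_true, if_false, if_true] at hin ⊢ <;>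
              refine ⟨?_, ?_, ?_, ?_⟩ <;> omega
          · rw [rdu251_mem_rect]
            rcases hor with ⟨h1, _⟩ | ⟨_, h1⟩ <;> rw [h1] at hin <;> cases β <;>
              simp only [rswEnd, rswCo, Bool.false_eq_true, if_false, if_true] at hin ⊢ <;>
              refine ⟨?_, ?_, ?_, ?_⟩ <;> omega
        by_cases hc : -b < c.1 ∧ c.1 < b ∧ -b < c.2 ∧ c.2 < b
        · exact Or.inr ⟨hc, hch.tail hst⟩
        · exact Or.inl ⟨c, by omega, hch.tail hst⟩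
  rcases key with h | ⟨h, _⟩
  · exact h
  · exact absurd h hv

theorem rpo159_geo (R s n' : ℕ) (hs : 1 ≤ s) (hn : n' ≤ R * s) {z z' : ℤ × ℤ} (hz : z ∈ rswBox 0 (10 * s)) (hz' : z' ∈ rswBox 0 (10 * s))
    (hd : 4 * (s : ℤ) ≤ z'.1 - z.1) (ω : RswCfg)
    (h : ∀ i, Rpo159Join ((rpo159Cp R s z z' i).mF (rswBox 0 (10 * s))) ((rpo159Cp R s z z' i).Fc z) ((rpo159Cp R s z z' i).Fc z') ω) :
    ¬ RcCon (rswBox 0 (rpo159Kap R * s)) false ω (↑(cornersOf (rswBox 0 n')))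
      {v | v ∈ cornersOf (rswBox 0 (rpo159Kap R * s)) ∧ OnPolygon (rswBox 0 (rpo159Kap R * s)) v} := by
  rintro ⟨u, hu, v, ⟨_, hv⟩, hch⟩
  have hch' : ReflTransGen (rdu251PStep (↑(rswBox 0 (rpo159Kap R * s))) (rdu251Good false ω)) u v :=
    ReflTransGen.mono (fun x y hxy => (rdu251_pstep_int _ _ _ _ _).1 hxy) _ _ hch
  have e10 : (((R + 10) * s : ℕ) : ℤ) = (R : ℤ) * s + 10 * s := by push_cast; ring
  have e20 : (((R + 20) * s : ℕ) : ℤ) = (R : ℤ) * s + 20 * s := by push_cast; ring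
  have hsR : (0 : ℤ) ≤ (R : ℤ) * s := by positivity
  have hs1 : (1 : ℤ) ≤ s := by exact_mod_cast hs
  have hnZ : (n' : ℤ) ≤ (R : ℤ) * s := by exact_mod_cast hn
  have hH : ∀ up : Bool, ∀ τ : ℤ, τ = (if up then (((R + 10) * s : ℕ) : ℤ) else -(((R + 10) * s : ℕ) : ℤ)) →
      Rdu251DualLR (-(((R + 20) * s : ℕ) : ℤ)) (((R + 20) * s : ℕ) : ℤ) (τ - 10 * s) (τ + 10 * s) (rdu251Good false ω) :=
    fun up τ hτ => rpo159_zigH R s hz hz' hd up ω (fun rf k hk => h (false, up, rf, ⟨k, hk⟩)) τ hτ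
  have hV : ∀ up : Bool, ∀ τ : ℤ, τ = (if up then (((R + 10) * s : ℕ) : ℤ) else -(((R + 10) * s : ℕ) : ℤ)) →
      Rdu251DualBT (τ - 10 * s) (τ + 10 * s) (-(((R + 20) * s : ℕ) : ℤ)) (((R + 20) * s : ℕ) : ℤ) (rdu251Good false ω) :=
    fun up τ hτ => rpo159_zigV R s hz hz' hd up ω (fun rf k hk => h (true, up, rf, ⟨k, hk⟩)) τ hτ
  obtain ⟨a, ha⟩ : ∃ a : ℤ, a = (R : ℤ) * s := ⟨_, rfl⟩
  obtain ⟨b, hb⟩ : ∃ b : ℤ, b = (R : ℤ) * s + 20 * s := ⟨_, rfl⟩
  have hT : Rdu251DualLR (-b) b a b (rdu251Good false ω) := by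
    have := hH true _ rfl
    rw [if_pos rfl, e10, e20, ← hb] at this
    have x1 : (R : ℤ) * s + 10 * s - 10 * s = a := by rw [ha]; ring
    have x2 : (R : ℤ) * s + 10 * s + 10 * s = b := by rw [hb]; ring
    rwa [x1, x2] at this
  have hB : Rdu251DualLR (-b) b (-b) (-a) (rdu251Good false ω) := by
    have := hH false _ rfl
    rw [if_neg (by simp), e10, e20, ← hb] at this
    have x1 : -((R : ℤ) * s + 10 * s) - 10 * s = -b := by rw [hb]; ring
    have x2 : -((R : ℤ) * s + 10 * s) + 10 * s = -a := by rw [ha]; ring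
    rwa [x1, x2] at this
  have hR : Rdu251DualBT a b (-b) b (rdu251Good false ω) := by
    have := hV true _ rfl
    rw [if_pos rfl, e10, e20, ← hb] at this
    have x1 : (R : ℤ) * s + 10 * s - 10 * s = a := by rw [ha]; ring
    have x2 : (R : ℤ) * s + 10 * s + 10 * s = b := by rw [hb]; ring
    rwa [x1, x2] at this
  have hL : Rdu251DualBT (-b) (-a) (-b) b (rdu251Good false ω) := by
    have := hV false _ rfl
    rw [if_neg (by simp), e10, e20, ← hb] at this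
    have x1 : -((R : ℤ) * s + 10 * s) - 10 * s = -b := by rw [hb]; ring
    have x2 : -((R : ℤ) * s + 10 * s) + 10 * s = -a := by rw [ha]; ring
    rwa [x1, x2] at this
  -- the starting point
  have hu' : -a ≤ u.1 ∧ u.1 ≤ a ∧ -a ≤ u.2 ∧ u.2 ≤ a := by
    have hu1 : u ∈ cornersOf (rswBox 0 n') := hu
    rw [rsy_mem_cornersOf] at hu1
    obtain ⟨f, hf, hi1, hi2⟩ := hu1
    rw [rpo159_mem_box0] at hf
    omega
  -- the end point
  have hv' : ¬ (-b < v.1 ∧ v.1 < b ∧ -b < v.2 ∧ v.2 < b) := by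
    rw [rsy_onPolygon_iff] at hv
    obtain ⟨f, ⟨hi1, hi2⟩, hf⟩ := hv
    rw [rpo159_mem_box0] at hf
    have hKap : ((rpo159Kap R * s : ℕ) : ℤ) = 40 * ((R : ℤ) * s) + 1250 * s := by unfold rpo159Kap; push_cast; ring
    rw [hKap] at hf
    omega
  obtain ⟨v1, hv1, hc1⟩ := rpo159_first_exit b hch' (by omega) hv'
  exact rdu251_psep_of_four (by omega) (by omega) (by omega) (by omega) _ hT hB hL hR hu' hv1 hc1

/-! ### (POLY2) -/

theorem rpo159_poly {t : ℝ} (h0 : 0 < t) (h1 : t ≤ 1) (hF : Rpo159Fkg t) (hD : Rpo159Dom t) : RcPoly t := by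
  intro R
  refine ⟨16 * rpo159K R, rpo159Kap R, by unfold rpo159Kap; omega, fun s n' hs hn hη => ?_⟩
  obtain ⟨z, z', hz, hz', hd, hp⟩ := rpo159_pigeon h0 h1 s (7 * (4 * s)) hs hη
  set η0 := rcEta t (4 * s) (7 * (4 * s)) with hη0
  set N := rpo159Kap R * s with hN
  have hN1 : 1 ≤ N := Nat.succ_le_of_lt (Nat.mul_pos (by unfold rpo159Kap; omega) (by omega))
  set p := rswP t (rswBox 0 (7 * (4 * s))) false (Rpo159Join (rswBox 0 (10 * s)) z z') with hpdef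
  have hs0 : (0 : ℝ) < (21 * (s : ℝ)) ^ 4 := by
    have : (0 : ℝ) < s := by exact_mod_cast hs
    positivity
  have hr : η0 / (21 * (s : ℝ)) ^ 4 ≤ p := by
    rw [div_le_iff₀ hs0, mul_comm]
    exact hp
  have hr0 : 0 ≤ η0 / (21 * (s : ℝ)) ^ 4 := by positivity
  have hp0 : 0 ≤ p := hr0.trans hr
  set L : Bool × Bool × Bool × Fin (2 * rpo159K R) → RswCfg → Prop := fun i =>
    Rpo159Join ((rpo159Cp R s z z' i).mF (rswBox 0 (10 * s))) ((rpo159Cp R s z z' i).Fc z) ((rpo159Cp R s z z' i).Fc z') with hL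
  have hsub : ∀ i : Bool × Bool × Bool × Fin (2 * rpo159K R),
      rswBox (if i.1 then (rpo159C R s z z' i.2.1 i.2.2.1 i.2.2.2).swap else rpo159C R s z z' i.2.1 i.2.2.1 i.2.2.2) (7 * (4 * s)) ⊆
        rswBox 0 N := by
    intro i
    obtain ⟨b1, b2⟩ := rpo159_C_bd R s hs hz hz' hd i.2.1 i.2.2.1 i.2.2.2 i.2.2.2.2
    cases i.1
    · exact rpo159_box_sub b1 b2
    · exact rpo159_box_sub b2 b1
  have hcopy : ∀ i, p ≤ rswP t (rswBox 0 N) false (L i) := by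
    intro i
    exact rpo159_copy hD (rpo159Cp R s z z' i) _ (10 * s) (7 * (4 * s)) N hN1 (by omega) (fun n => rpo159_G_box _ _ _ n) (hsub i) z z'
  have hloc : ∀ i, Rpo159Loc (rswBox 0 N) (L i) := by
    intro i
    refine rpo159_join_loc ?_ _ _
    have : (rpo159Cp R s z z' i).mF (rswBox 0 (10 * s)) = _ := rpo159_G_box _ _ _ (10 * s)
    rw [this]
    exact (rpo159_box_mono _ (by omega)).trans (hsub i)
  have hfkg := rpo159_fkg_finset h0 h1 hF N hN1 Finset.univ L (fun i _ => rpo159_join_inc _ _ _) (fun i _ => hloc i)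
  have hblock : rswP t (rswBox 0 N) false (fun ω => ∀ i ∈ Finset.univ, L i ω) ≤
      rswP t (rswBox 0 N) false (fun ω => ¬ RcCon (rswBox 0 N) false ω (↑(cornersOf (rswBox 0 n')))
        {v | v ∈ cornersOf (rswBox 0 N) ∧ OnPolygon (rswBox 0 N) v}) :=
    rsb_P_mono h0 h1 fun ω _ _ hω => rpo159_geo R s n' hs hn hz hz' hd ω (fun i => hω i (Finset.mem_univ i))
  rw [rsb_P_compl h0 h1] at hblock
  have hcard : (Finset.univ : Finset (Bool × Bool × Bool × Fin (2 * rpo159K R))).card = 16 * rpo159K R := by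
    rw [Finset.card_univ]
    simp only [Fintype.card_prod, Fintype.card_bool, Fintype.card_fin]
    ring
  calc (η0 / (21 * (s : ℝ)) ^ 4) ^ (16 * rpo159K R) ≤ p ^ (16 * rpo159K R) := pow_le_pow_left₀ hr0 hr _
    _ = ∏ _i : Bool × Bool × Bool × Fin (2 * rpo159K R), p := by rw [Finset.prod_const, hcard]
    _ ≤ ∏ i, rswP t (rswBox 0 N) false (L i) := Finset.prod_le_prod (fun _ _ => hp0) (fun i _ => hcopy i)
    _ ≤ _ := hfkg
    _ ≤ _ := hblock

/-- FKG in the general shape (all finite `F`, both colours, no locality: `Rrt109Fkg` of Rsw/RenTop109) gives the input (T1) -/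
theorem rpo159_fkg_of (t : ℝ)
    (h : ∀ (F : Finset (ℤ × ℤ)) (b : Bool) (L₁ L₂ : RswCfg → Prop), RswInc L₁ → RswInc L₂ →
      rswP t F b L₁ * rswP t F b L₂ ≤ rswP t F b (fun ω => L₁ ω ∧ L₂ ω)) : Rpo159Fkg t :=
  fun _ A B _ hA hB _ _ => h _ _ A B hA hB

/-- domain monotonicity in the general shape (`Rrt109Dom` of Rsw/RenTop109) gives the input (T2) -/
theorem rpo159_dom_of (t : ℝ)
    (h : ∀ (F F' : Finset (ℤ × ℤ)) (L : RswCfg → Prop), F ⊆ F' → RswInc L → Rpo159Loc F L → rswP t F false L ≤ rswP t F' false L) :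
    Rpo159Dom t :=
  fun _ _ _ L _ hsub hL hloc => h _ _ L hsub hL hloc

/-- **(POLY2)** from the general shapes of (T1), (T2) -/
theorem rpo159_poly_of {t : ℝ} (h0 : 0 < t) (h1 : t ≤ 1)
    (hF : ∀ (F : Finset (ℤ × ℤ)) (b : Bool) (L₁ L₂ : RswCfg → Prop), RswInc L₁ → RswInc L₂ →
      rswP t F b L₁ * rswP t F b L₂ ≤ rswP t F b (fun ω => L₁ ω ∧ L₂ ω))
    (hD : ∀ (F F' : Finset (ℤ × ℤ)) (L : RswCfg → Prop), F ⊆ F' → RswInc L → Rpo159Loc F L → rswP t F false L ≤ rswP t F' false L) :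
    RcPoly t :=
  rpo159_poly h0 h1 (rpo159_fkg_of t hF) (rpo159_dom_of t hD)

/-! ### the two inputs are theorems

(T1) = `cmi291_exit_fkg_P` (291) + `bj219_box_jordan` (219).   (T2) from (T1) and the swap `rsx_swap_E` (107): the minus flat law of `F ⊆ F'` is the minus flat law of `F'` conditioned on the
(decreasing) minus cut; this is the proof of `rrt109_dom` (109, Rsw/RenTop109), retyped with FKG used only at the larger domain `F'`. -/

theorem rpo159_le_of_cmi {ω ω' : RswCfg} (h : Cmi291Le ω ω') : RswLe ω ω' :=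
  ⟨h.1, fun _ hg => cmi291_good_true h hg, fun _ hg => cmi291_good_false h hg⟩

theorem rpo159_incP {L : RswCfg → Prop} (hL : RswInc L) : Cmi291IncP L := fun ω ω' h => hL ω ω' (rpo159_le_of_cmi h)

/-- **(T1)** FKG for `RswInc` events, flat law of a Jordan set of faces -/
theorem rpo159_fkg_jordan {t : ℝ} (h0 : 0 < t) (h1 : t ≤ 1) {F : Finset (ℤ × ℤ)} (hF : RswJordan F) (b : Bool)
    {L₁ L₂ : RswCfg → Prop} (hL₁ : RswInc L₁) (hL₂ : RswInc L₂) :
    rswP t F b L₁ * rswP t F b L₂ ≤ rswP t F b (fun ω => L₁ ω ∧ L₂ ω) :=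
  cmi291_exit_fkg_P h0 h1 hF b (rpo159_incP hL₁) (rpo159_incP hL₂)

theorem rpo159_fkg {t : ℝ} (h0 : 0 < t) (h1 : t ≤ 1) : Rpo159Fkg t :=
  fun _ _ _ hN hA hB _ _ => rpo159_fkg_jordan h0 h1 (bj219_box_jordan 0 hN) false hA hB

theorem rpo159_cst_mem (F : Finset (ℤ × ℤ)) (b : Bool) : rsxCst F b ∈ rsxCfgs F := by
  rw [rsx_mem_cfgs]
  refine ⟨?_, Finset.empty_subset _, Finset.Subset.refl _⟩
  unfold rsxCst
  cases b <;> simp

theorem rpo159_cst_wt_pos {t : ℝ} (h0 : 0 < t) (F : Finset (ℤ × ℤ)) (b : Bool) : 0 < rswWt t F b (rsxCst F b) := by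
  have hbc : RswBc F b (rsxCst F b) := fun v hv _ => rsx_cst_S hv
  rw [rsx_wt_eq, rsx_ind_pos hbc, one_mul]
  refine Finset.prod_pos fun e he => ?_
  have he' := rsx_mem_int.1 he
  have e1 : e.1 ∈ (rsxCst F b).S ↔ rswEnd e ∈ (rsxCst F b).S := by
    rw [rsx_cst_S (rsx_end_corner1 (Or.inl he'.1)), rsx_cst_S (rsx_end_corner2 (Or.inl he'.1))]
  rw [rsx_fac_eq]
  unfold rsxFacP
  rw [if_pos (show e ∈ (rsxCst F b).O from he), if_pos e1]
  exact h0

theorem rpo159_sum_pos {t : ℝ} (h0 : 0 < t) (h1 : t ≤ 1) (F : Finset (ℤ × ℤ)) (b : Bool) {X : RswCfg → ℝ} (hX : ∀ ω, 0 ≤ X ω)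
    (hc : 0 < X (rsxCst F b)) : 0 < rswSum t F b X := by
  rw [rsx_sum_eq]
  exact Finset.sum_pos' (fun ω _ => mul_nonneg (rsx_wt_nonneg h0.le h1 F b ω) (hX ω))
    ⟨_, rpo159_cst_mem F b, mul_pos (rpo159_cst_wt_pos h0 F b) hc⟩

/-- the two endpoints of an edge with exactly one face in `F` are corners of `F` on its polygon -/
theorem rpo159_cross_poly {F : Finset (ℤ × ℤ)} {e : (ℤ × ℤ) × Bool} (h1 : e ∉ rswInt F) (h2 : e.1 ∈ F ∨ rswCo e ∈ F) :
    (e.1 ∈ cornersOf F ∧ OnPolygon F e.1) ∧ (rswEnd e ∈ cornersOf F ∧ OnPolygon F (rswEnd e)) := by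
  refine ⟨⟨rsx_end_corner1 h2, ?_⟩, ⟨rsx_end_corner2 h2, ?_⟩⟩
  · by_contra hp
    exact h1 (rsx_mem_int.2 (rsx_in_faces1 (rsx_in_iff.2 hp)))
  · by_contra hp
    exact h1 (rsx_mem_int.2 (rsx_in_faces2 (rsx_in_iff.2 hp)))

/-- the minus cut is a decreasing event -/
theorem rpo159_cut_dec (F' F : Finset (ℤ × ℤ)) : RswInc (fun ω => ¬ RsxCut F' F false ω) := by
  intro ω ω' hle hn hc
  apply hn
  obtain ⟨hb, ho⟩ := hc
  have hm : ∀ v ∈ cornersOf F, OnPolygon F v → v ∉ ω'.S := fun v hv hp hS => by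
    have := (hb v hv hp).1 hS
    exact Bool.false_ne_true this
  refine ⟨fun v hv hp => ⟨fun hS => absurd (hle.1 hS) (hm v hv hp), fun h => absurd h Bool.false_ne_true⟩, fun e he he' hx => ?_⟩
  obtain ⟨⟨c1, p1⟩, ⟨c2, p2⟩⟩ := rpo159_cross_poly he' hx
  have hg : RswGood false ω' e :=
    ⟨ho e he he' hx, ⟨fun hS => absurd hS (hm _ c1 p1), fun h => absurd h Bool.false_ne_true⟩,
      ⟨fun hS => absurd hS (hm _ c2 p2), fun h => absurd h Bool.false_ne_true⟩⟩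
  exact (hle.2.2 e hg).1

/-- FKG for an increasing event and a decreasing event -/
theorem rpo159_fkg_neg {t : ℝ} (h0 : 0 < t) (h1 : t ≤ 1) {F : Finset (ℤ × ℤ)} (hF : RswJordan F) (b : Bool) (L C : RswCfg → Prop)
    (hL : RswInc L) (hC : RswInc (fun ω => ¬ C ω)) :
    rswP t F b (fun ω => L ω ∧ C ω) ≤ rswP t F b L * rswP t F b C := by
  have h := rpo159_fkg_jordan h0 h1 hF b hL hC
  rw [rsb_P_compl h0 h1] at h
  have h2 := rsb_P_or_add_and t F b (fun ω => L ω ∧ C ω) (fun ω => L ω ∧ ¬ C ω)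
  have e1 : rswP t F b (fun ω => (L ω ∧ C ω) ∨ (L ω ∧ ¬ C ω)) = rswP t F b L :=
    rsb_P_congr fun ω _ _ => by by_cases hc : C ω <;> simp [hc]
  have e2 : rswP t F b (fun ω => (L ω ∧ C ω) ∧ (L ω ∧ ¬ C ω)) = 0 := by
    rw [← rsb_P_false t F b]
    exact rsb_P_congr fun ω _ _ => ⟨fun hh => hh.2.2 hh.1.2, fun hh => hh.elim⟩
  rw [e1, e2] at h2
  nlinarith

/-- **(T2)**, any `F ⊆ F'` with `F'` Jordan: a closer minus polygon makes an increasing event less likely -/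
theorem rpo159_dom_gen {t : ℝ} (h0 : 0 < t) (h1 : t ≤ 1) {F F' : Finset (ℤ × ℤ)} (hFF' : F ⊆ F') (hJ : RswJordan F')
    {L : RswCfg → Prop} (hL : RswInc L) (hloc : Rpo159Loc F L) : rswP t F false L ≤ rswP t F' false L := by
  set X : RswCfg → ℝ := fun ω => rsxInd (L ⟨ω.S ∩ rsxIn F, ω.D, ω.O⟩) with hX
  have hXloc : RsxLocIn F X := by
    intro ω ω' hS _ hO
    refine rsx_ind_congr (hloc _ _ ?_ hO)
    show ω.S ∩ rsxIn F ∩ cornersOf F = ω'.S ∩ rsxIn F ∩ cornersOf F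
    rw [hS]
  have hXbc : ∀ ω, RswBc F false ω → X ω = rsxInd (L ω) := by
    intro ω hb
    refine rsx_ind_congr (hloc _ _ ?_ rfl)
    show ω.S ∩ rsxIn F ∩ cornersOf F = ω.S ∩ cornersOf F
    ext v
    simp only [Finset.mem_inter]
    constructor
    · rintro ⟨⟨a, _⟩, c⟩; exact ⟨a, c⟩
    · rintro ⟨a, c⟩
      refine ⟨⟨a, ?_⟩, c⟩
      by_contra hin
      exact Bool.false_ne_true ((hb v c (fun hh => hin (rsx_mem_in.2 hh))).1 a)
  have hs := rsx_swap_E h0 h1 hFF' false false hXloc (Y := fun _ => 1) (fun _ _ _ _ _ => rfl)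
  have e1 : rswSum t F' false (fun ω => rsxInd (RsxCut F' F false ω) * X ω * 1) =
      rswSum t F' false (fun ω => rsxInd (L ω ∧ RsxCut F' F false ω)) := by
    refine rsx_sum_congr t F' false fun ω => ?_
    by_cases hc : RsxCut F' F false ω
    · rw [hXbc ω hc.1, rsx_ind_pos hc, one_mul, mul_one]
      exact rsx_ind_congr ⟨fun h => ⟨h, hc⟩, fun h => h.1⟩
    · rw [rsx_ind_neg hc, rsx_ind_neg (fun h => hc h.2)]; ring
  have e2 : rswSum t F' false (fun ω => rsxInd (RsxCut F' F false ω) * 1) = rswSum t F' false (fun ω => rsxInd (RsxCut F' F false ω)) :=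
    rsx_sum_congr t F' false fun ω => mul_one _
  have e3 : rswE t F false X = rswP t F false L := by
    rw [rsx_P_eq, rsx_E_eq, rsx_E_eq, rsx_sum_congr_bc t F false hXbc]
  rw [e1, e2, e3] at hs
  have hZ := rsx_Z_pos h0 h1 F' false
  have hC : 0 < rswP t F' false (fun ω => RsxCut F' F false ω) := by
    rw [rsx_P_eq, rsx_E_eq]
    refine div_pos (rpo159_sum_pos h0 h1 F' false (fun ω => rsx_ind_nonneg _) ?_) hZ
    rw [rsx_ind_pos]
    · exact one_pos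
    · exact ⟨fun v hv _ => rsx_cst_S (rsx_corners_mono hFF' hv), fun e he _ _ => he⟩
  have hprod : rswP t F' false (fun ω => L ω ∧ RsxCut F' F false ω) =
      rswP t F' false (fun ω => RsxCut F' F false ω) * rswP t F false L := by
    rw [rsx_P_eq, rsx_E_eq, hs, rsx_P_eq t F' false (fun ω => RsxCut F' F false ω), rsx_E_eq t F' false]
    ring
  have hfk := rpo159_fkg_neg h0 h1 hJ false L (fun ω => RsxCut F' F false ω) hL (rpo159_cut_dec F' F)
  rw [hprod, mul_comm] at hfk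
  exact le_of_mul_le_mul_right hfk hC

theorem rpo159_dom {t : ℝ} (h0 : 0 < t) (h1 : t ≤ 1) : Rpo159Dom t :=
  fun _ _ _ _ hN hsub hL hloc => rpo159_dom_gen h0 h1 hsub (bj219_box_jordan 0 hN) hL hloc

/-- **(POLY2), the contract `RcPoly` of Rsw/CoreTop121, without hypotheses** -/
theorem rpo159_rcPoly (t : ℝ) (ht1 : 1 / 2 ≤ t) (ht2 : t < 1) : RcPoly t :=
  rpo159_poly (by linarith) ht2.le (rpo159_fkg (by linarith) ht2.le) (rpo159_dom (by linarith) ht2.le)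

end Claimed.Agent.R292
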