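import Claimed.Agent.R292.Rsw.A5Top12
import Claimed.Agent.R292.Rsw.A3Top86
import Claimed.Agent.R292.Rsw.CylOrd291
import Claimed.Agent.R292.Rsw.LenP4x31
import Claimed.Agent.R292.Rsw.KitGlue169
import Claimed.Agent.R292.Rsw.KitRswl96
import Claimed.Agent.R292.Rsw.CylDict111
import Claimed.Agent.R292.Rsw.ChainTop299
import Claimed.Agent.R292.Rsw.Poly159
import Claimed.Agent.R292.Rsw.Mono291
import Claimed.Agent.R292.Rsw.LssAd282
import Claimed.Agent.R292.Rsw.PerJF291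
import Claimed.Agent.R292.Rsw.PerJb12

/-!
# Row 292 (S0540), Rsw/CoreFrontier121 : R8 CORE, THE FRONTIER AT THE END OF THE RUN      (owner helper121; prefix `rcf121`)      0 sorry

One assembly of everything that the pens of R8 CORE proved on `ℤ²`.  NOTHING here proves S0540: the row is NOT claimed.
**v6 (23:45Z): (perJ) IS CLOSED** (`rcf121_perJc`, last section; crew 69, 127, 291, 111, 162, 12, 31, 109, 57): so A4 is WHOLE in the kernel.   THE FRONTIER NOW = `rcf121_kitQ`, `rcf121_recQ`, `rcf121_topQ`, `rcf121_topQ2` (END OF THE FILE): their hypotheses are EXACTLY the contracts that stayed open; everything else is in the kernel.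
The theorems `rcf121_kitP`, `rcf121_recP`, `rcf121_topP`, `rcf121_topP2` are the same with (perJ) for `0 < L` still as a hypothesis.
WARNING: the first versions `rcf121_kit`, `rcf121_rec`, `rcf121_top`, `rcf121_top2` ask (perJ) also for `L = 0`, where it is FALSE: they are vacuous as typed (see the repair at the end).

PROVED, no hypothesis (`1/2 ≤ t < 1`):   `RcPoly` (159), `RcMono` (291), `RcChain` (299, 251), hence `RcUEta` (`rcf121_UEta`);
  A5 whole (12, 109, 189, 31: Holley for histories, B5, B6);   A4: `Rct127Law` fields slide (162), recov (69, 162, 111), search (127, 111), top `rct127_main` (127);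
  A3: all but the far estimate (86, 257, 117, 180, 210, 240, 292);   A2: geometry, ports, at most four ports, order, FKG under a history (182, 102, 31, 52, 291, 292);   the kit fields (96, 169, 57).

OPEN (the hypotheses):
* [CLOSED at 23:45Z for `0 < L`, see `rcf121_perJc`; the line stays for the record] `Rcs127PerJc t L H`  (A4, second half of the field `sym`): above a CONNECTED record of the statuses of `d` the high band is crossed or blocked by plus cells w.p. `≥ 1/2`.   Text (121, 23:00Z, after R291 `CylSym` (p1) - (p5)): cap system of 69, reflected record ABOVE the row `H`, two laws `λ±`, only plus pins are added; about 1500 lines; not typed.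
* `A3t86Alt t`         (A3): every record whose layers do not touch is near (patch) or far; FAR contains deterministic geometry and the estimate (L) in a closed strip = symmetric-domain estimate; on `ℤ²` the mirror must exchange sites and faces: NOT TYPED, no page written for `ℤ²`.
* `Lsa282CClosed t`    (A2 / A1.2; `lsa282_clss` of 182 + 282 gives `Rse182CLSS t`) and `RnzLSS t` (A1): crossing of a strip with mixed boundary condition.   Steps (a) - (d) of 291 are on main (251, 237, 202, 212, 12); step (e) is NOT a comparison with a fixed rectangle: the paper takes the LARGER symmetric domain `D₀ ∪ ρ D₀` (remark of 102, 22:12Z), seed `1/2` there, then adds plus good cuts (FKG) and counts ports; about 3000 lines; NOT TYPED.   `Lsa282CClosed` = the same estimate in the CLOSED rectangle (two rows plus, short sides minus, `d` free, no edge prescribed).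
* `RcD t`              (Theorem D on `ℤ²`): WALL.   Notes `origin/helper121:notes/R292/RCD_121.md`, `origin/helper24:notes/R292/RCD_24.md`: from `sv_bethe` it follows modulo ONE claim (CYL) on long cylinders, which is open.

AUDIT OF THE FOUR CONTRACTS AT DEGENERATE PARAMETERS (121, 23:57Z; BY READING the definitions, not a proof; made after the accident of (perJ) at `L = 0`):
* `A3t86Lf`: `10 ≤ w`, `12500 w ≤ r ≤ 25000 w`, `16 r ≤ 2 L`, `r ≤ c`, `c + 2 r ≤ 2 H - 1` force `L, H > 0`, and with the bounds on `e`, `e2` bounded aspect ratios of the strip; `A3t86L` has the product form `c₀ * Z ≤ Z(event)` (no division); `n`, `c₀` are chosen by the prover.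
* `Lsa282CClosed`: `Rse182Box` forces `10 r ≤ L`, `7 r ≤ 2 (b - a)`, `b - a ≤ 5 r`, rows inside the cylinder; `r₀ ≤ r` with `r₀` chosen by the prover; product form.
* `RnzLSSd`: `m₀` chosen by the prover; the strip `5 m × m` with a margin of two cells lies in the box; the conditional law never divides by zero (`lss57_sea_feas` of 57, `Rsw/PerJ0x57.lean`).
* `RcD`: for `ρ < 3` the hypotheses on `r` contradict each other (nothing is asked); the shape is that of R291 `exit_ann_D`, proved there for the other model.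
So none of the four is false for a FORMAL reason that we could see.   Whether they are TRUE is the mathematics of the paper (A1, A2, A3) and Theorem D.
ANOTHER ROAD TO THE SAME CONCLUSION (49, `Bridge/Even49.lean`, `brg49_rc_top_k`): `RcUEta` + (REC_k) with `ρ < k ^ 2` + (RcD') [`η` does not decay like `exp (- c √s)`]; (RcD') has a text from `sv_bethe` read by three (notes `origin/helper49:notes/R292/RCD_49.md`), (REC_k) is not written.
-/

namespace Claimed.Agent.R292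

open Claims Claims.C0468 Claimed.Agent.R291

/-- `U ≳ η^J` : CLOSED -/
theorem rcf121_UEta {t : ℝ} (ht1 : 1 / 2 ≤ t) (ht2 : t < 1) : RcUEta t :=
  rc_U_eta (by linarith) ht2.le (rch299_rcChain t ht1 ht2) (rpo159_rcPoly t ht1 ht2) (rcm291_mono t ht1 ht2)

/-- A2 on the mixed cylinder: lengthening from (LSS) of the cylinder alone -/
theorem rcf121_len {t : ℝ} (h0 : 0 < t) (h1 : t < 1) (hL : Rse182CLSS t) : Rln182Len2 (rse182Cyl t) rse182K :=
  rse182_cyl_len4 h0 h1 (lp431_cp4 t) (cyo291_cyl_ord h0 h1.le) hL (cyo291_cyl_fkg h0 h1.le)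

/-- A2 on the mixed cylinder: averaged gluing from (LSS) of the cylinder alone -/
theorem rcf121_glue {t : ℝ} (h0 : 0 < t) (h1 : t < 1) (hL : Rse182CLSS t) : Rln182Glue2 (rse182Cyl t) rse182K :=
  rse182_cyl_glue4 h0 h1 (lp431_cp4 t) (cyo291_cyl_ord h0 h1.le) hL (cyo291_cyl_fkg h0 h1.le)

/-- **THE KIT OF A4** from the three open contracts of A4, A3, A2 -/
theorem rcf121_kit {t : ℝ} (ht1 : 1 / 2 ≤ t) (ht2 : t < 1) (hJ : ∀ L H : ℕ, Rcs127PerJc t L H) (hA : A3t86Alt t) (hC : Lsa282CClosed t) :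
    Rct127Kit Hpd12Adm (hpd12P t) where
  law := a5t12_law_sym ht1 ht2.le (fun L H k m κ hL _ h1 h2 h3 h4 h5 h6 => rcd111_sym_c ht1 ht2.le hL (hJ L H) true k m κ h1 h2 h3 h4 h5 h6)
  rswl := krl96_rswl t (by linarith) ht2.le (a3t86_rsw (by linarith) ht2 hA) (krl96_len_of_len2 t (rcf121_len (by linarith) ht2 (lsa282_clss (by linarith) ht2.le hC)))
  glue := kg169_glue57 t (rcf121_glue (by linarith) ht2 (lsa282_clss (by linarith) ht2.le hC))

/-- **(REC)** from the four open contracts of A1 - A4 -/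
theorem rcf121_rec {t : ℝ} (ht1 : 1 / 2 ≤ t) (ht2 : t < 1) (hJ : ∀ L H : ℕ, Rcs127PerJc t L H) (hA : A3t86Alt t) (hC : Lsa282CClosed t)
    (hL : RnzLSS t) : RcRec t :=
  a5t12_rec_kit_closed ht1 ht2 (rcf121_kit ht1 ht2 hJ hA hC) hL

/-- **THE FRONTIER OF R8 CORE**: the statement of `exit_rsw_circuit` from the five open contracts -/
theorem rcf121_top {t : ℝ} (ht1 : 1 / 2 ≤ t) (ht2 : t < 1) (hJ : ∀ L H : ℕ, Rcs127PerJc t L H) (hA : A3t86Alt t) (hC : Lsa282CClosed t)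
    (hL : RnzLSS t) (hD : RcD t) :
    ∃ (κ n0 : ℕ) (p : ℝ), 2 ≤ κ ∧ 0 < p ∧ ∀ n : ℕ, n0 ≤ n →
      p ≤ rswP t (rswBox 0 (κ * n)) true
        (fun ω => RswSep (rswBox 0 (κ * n)) false ω (rswBox 0 n) (rswLayer (rswBox 0 (κ * n)))) :=
  rc_top t ht1 ht2 (rcf121_UEta ht1 ht2) (rcf121_rec ht1 ht2 hJ hA hC hL) hD

/-! ## SHARPER FORM OF THE FRONTIER (23:40Z): weaker contracts; the types of `rcf121_rec`, `rcf121_top` above are FROZEN (122's `Exit/RSWFront` applies them) -/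

/-! ## (57) the contract (LSS) of A1 needs ONE orientation: transposition -/

theorem lss57_filter_mV (g : RsySym) (A : Finset (ℤ × ℤ)) (p q : ℤ × ℤ → Prop) [DecidablePred p] [DecidablePred q]
    (h : ∀ v, p (g.V v) ↔ q v) : (g.mV A).filter p = g.mV (A.filter q) := by
  ext v
  rw [Finset.mem_filter, rsy_mem_mV', rsy_mem_mV', Finset.mem_filter]
  have := h (g.V.symm v)
  rw [Equiv.apply_symm_apply] at this
  rw [this]

theorem lss57_filter_mE (g : RsySym) (A : Finset ((ℤ × ℤ) × Bool)) (p q : (ℤ × ℤ) × Bool → Prop) [DecidablePred p] [DecidablePred q]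
    (h : ∀ e, p (g.E e) ↔ q e) : (g.mE A).filter p = g.mE (A.filter q) := by
  ext e
  rw [Finset.mem_filter, rsy_mem_mE', rsy_mem_mE', Finset.mem_filter]
  have := h (g.E.symm e)
  rw [Equiv.apply_symm_apply] at this
  rw [this]

/-- the strict inside is transposed -/
theorem lss57_in_sw (Λ : Finset (ℤ × ℤ)) : rsxIn (rsySw.mF Λ) = rsySw.mV (rsxIn Λ) := by
  ext v
  rw [rsy_mem_mV', rsx_mem_in, rsx_mem_in, rsy_mem_mF', rsy_mem_mF', rsy_mem_mF', rsy_mem_mF']
  show (v.2, v.1) ∈ Λ ∧ (v.2, v.1 - 1) ∈ Λ ∧ (v.2 - 1, v.1) ∈ Λ ∧ (v.2 - 1, v.1 - 1) ∈ Λ ↔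
    (v.2, v.1) ∈ Λ ∧ (v.2 - 1, v.1) ∈ Λ ∧ (v.2, v.1 - 1) ∈ Λ ∧ (v.2 - 1, v.1 - 1) ∈ Λ
  tauto

/-- the sea history is transposed -/
theorem lss57_sea_sw (Λ : Finset (ℤ × ℤ)) (a₀ a₁ y₀ y₁ : ℤ) :
    rrt109Sea (rsySw.mF Λ) (fun f => f.1) (fun f => f.2) a₀ a₁ y₀ y₁ =
      rrsMapK rsySw (rrt109Sea Λ (fun f => f.2) (fun f => f.1) a₀ a₁ y₀ y₁) := by
  classical
  have hP : rrt109SeaP (rsySw.mF Λ) (fun f => f.2) y₀ y₁ = rsySw.mV (rrt109SeaP Λ (fun f => f.1) y₀ y₁) := by
    unfold rrt109SeaP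
    rw [rsy_cornersOf]
    exact lss57_filter_mV _ _ _ _ (fun v => Iff.rfl)
  have hM : rrt109SeaM (rsySw.mF Λ) (fun f => f.1) (fun f => f.2) a₀ a₁ y₀ y₁ =
      rsySw.mV (rrt109SeaM Λ (fun f => f.2) (fun f => f.1) a₀ a₁ y₀ y₁) := by
    unfold rrt109SeaM
    rw [lss57_in_sw]
    exact lss57_filter_mV _ _ _ _ (fun v => Iff.rfl)
  have hE : ∀ P : Finset (ℤ × ℤ),
      (rswInt (rsySw.mF Λ)).filter (fun e => e.1 ∈ rsySw.mV P ∧ rswEnd e ∈ rsySw.mV P) =
        rsySw.mE ((rswInt Λ).filter (fun e => e.1 ∈ P ∧ rswEnd e ∈ P)) := by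
    intro P
    rw [rsy_int]
    refine lss57_filter_mE _ _ _ _ (fun e => ?_)
    rcases rsySw.ends e with ⟨k1, k2⟩ | ⟨k1, k2⟩
    · rw [k1, k2, rsy_mem_mV, rsy_mem_mV]
    · rw [k1, k2, rsy_mem_mV, rsy_mem_mV, and_comm]
  unfold rrt109Sea rrsMapK
  rw [hP, hM, hE, hE]
  rfl

/-- **(LSS), one orientation, is transposed** -/
theorem lss57_lssd_sw {t : ℝ} (h : RnzLSSd t (fun f => f.1) (fun f => f.2)) : RnzLSSd t (fun f => f.2) (fun f => f.1) := by
  classical
  obtain ⟨c, hc, m₀, H⟩ := h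
  refine ⟨c, hc, m₀, fun m n a₀ y₀ hm hin => ?_⟩
  have key := H m n a₀ y₀ hm (fun f h1 h2 h3 h4 => by
    have := hin (f.2, f.1) h1 h2 h3 h4
    rw [← (rsy_box0 n).1, rsy_mem_mF']
    exact this)
  have eQ : rrt109Q (rsySw.mF (rswBox 0 n)) (fun f => f.1) (fun f => f.2) a₀ (a₀ + 5 * m) y₀ (y₀ + m) =
      rsySw.mF (rrt109Q (rswBox 0 n) (fun f => f.2) (fun f => f.1) a₀ (a₀ + 5 * m) y₀ (y₀ + m)) := by
    unfold rrt109Q
    exact rrs189_filter_mF rsySw _ _ _ (fun f => Iff.rfl)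
  have eA : ∀ (Q : Finset (ℤ × ℤ)) (x : ℤ), (rsySw.mF Q).filter (fun f => f.1 = x) = rsySw.mF (Q.filter (fun f => f.2 = x)) :=
    fun Q x => rrs189_filter_mF rsySw _ _ _ (fun f => Iff.rfl)
  rw [← (rsy_box0 n).1, lss57_sea_sw, eQ, eA, eA, rrs189_map_PK] at key
  simp only [rsy_sep] at key
  exact key

/-- **(LSS) FROM ONE ORIENTATION** -/
theorem lss57_lss_of_one {t : ℝ} (h : RnzLSSd t (fun f => f.1) (fun f => f.2)) : RnzLSS t := ⟨h, lss57_lssd_sw h⟩

/-- **THE FRONTIER, SHARPEST FORM**: (L) only for far records (`A3t86Lf`, 86 + 117 + 110 + 257 + 180), (LSS) of the plane in ONE orientation (57) -/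
theorem rcf121_top2 {t : ℝ} (ht1 : 1 / 2 ≤ t) (ht2 : t < 1) (hJ : ∀ L H : ℕ, Rcs127PerJc t L H) (hA : A3t86Lf t) (hC : Lsa282CClosed t)
    (hL : RnzLSSd t (fun f => f.1) (fun f => f.2)) (hD : RcD t) :
    ∃ (κ n0 : ℕ) (p : ℝ), 2 ≤ κ ∧ 0 < p ∧ ∀ n : ℕ, n0 ≤ n →
      p ≤ rswP t (rswBox 0 (κ * n)) true
        (fun ω => RswSep (rswBox 0 (κ * n)) false ω (rswBox 0 n) (rswLayer (rswBox 0 (κ * n)))) :=
  rcf121_top ht1 ht2 hJ (a3t86_alt_of_Lf hA) hC (lss57_lss_of_one hL) hD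

/-! ## REPAIR (23:42Z): `∀ L H, Rcs127PerJc t L H` IS FALSE AT `L = 0`

(empty cylinder: the partition function is `1`, the field has no plus cell, so `1 ≤ 2 * 0` is asked).   So `rcf121_kit`, `rcf121_rec`, `rcf121_top`, `rcf121_top2` above are VACUOUS AS TYPED; they stay only because other files name them.
THE HONEST FRONTIER = the theorems below, where (perJ) is asked for `0 < L` only (the chain never uses anything else). -/

/-- the kit of A4, (perJ) for `0 < L` -/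
theorem rcf121_kitP {t : ℝ} (ht1 : 1 / 2 ≤ t) (ht2 : t < 1) (hJ : ∀ L H : ℕ, 0 < L → Rcs127PerJc t L H) (hA : A3t86Alt t) (hC : Lsa282CClosed t) :
    Rct127Kit Hpd12Adm (hpd12P t) where
  law := a5t12_law_sym ht1 ht2.le (fun L H k m κ hL _ h1 h2 h3 h4 h5 h6 => rcd111_sym_c ht1 ht2.le hL (hJ L H hL) true k m κ h1 h2 h3 h4 h5 h6)
  rswl := krl96_rswl t (by linarith) ht2.le (a3t86_rsw (by linarith) ht2 hA) (krl96_len_of_len2 t (rcf121_len (by linarith) ht2 (lsa282_clss (by linarith) ht2.le hC)))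
  glue := kg169_glue57 t (rcf121_glue (by linarith) ht2 (lsa282_clss (by linarith) ht2.le hC))

/-- (REC), (perJ) for `0 < L` -/
theorem rcf121_recP {t : ℝ} (ht1 : 1 / 2 ≤ t) (ht2 : t < 1) (hJ : ∀ L H : ℕ, 0 < L → Rcs127PerJc t L H) (hA : A3t86Alt t) (hC : Lsa282CClosed t)
    (hL : RnzLSS t) : RcRec t :=
  a5t12_rec_kit_closed ht1 ht2 (rcf121_kitP ht1 ht2 hJ hA hC) hL

/-- **THE FRONTIER OF R8 CORE, HONEST FORM** -/
theorem rcf121_topP {t : ℝ} (ht1 : 1 / 2 ≤ t) (ht2 : t < 1) (hJ : ∀ L H : ℕ, 0 < L → Rcs127PerJc t L H) (hA : A3t86Alt t) (hC : Lsa282CClosed t)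
    (hL : RnzLSS t) (hD : RcD t) :
    ∃ (κ n0 : ℕ) (p : ℝ), 2 ≤ κ ∧ 0 < p ∧ ∀ n : ℕ, n0 ≤ n →
      p ≤ rswP t (rswBox 0 (κ * n)) true
        (fun ω => RswSep (rswBox 0 (κ * n)) false ω (rswBox 0 n) (rswLayer (rswBox 0 (κ * n)))) :=
  rc_top t ht1 ht2 (rcf121_UEta ht1 ht2) (rcf121_recP ht1 ht2 hJ hA hC hL) hD

/-- **THE FRONTIER, HONEST AND SHARPEST FORM** -/
theorem rcf121_topP2 {t : ℝ} (ht1 : 1 / 2 ≤ t) (ht2 : t < 1) (hJ : ∀ L H : ℕ, 0 < L → Rcs127PerJc t L H) (hA : A3t86Lf t) (hC : Lsa282CClosed t)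
    (hL : RnzLSSd t (fun f => f.1) (fun f => f.2)) (hD : RcD t) :
    ∃ (κ n0 : ℕ) (p : ℝ), 2 ≤ κ ∧ 0 < p ∧ ∀ n : ℕ, n0 ≤ n →
      p ≤ rswP t (rswBox 0 (κ * n)) true
        (fun ω => RswSep (rswBox 0 (κ * n)) false ω (rswBox 0 n) (rswLayer (rswBox 0 (κ * n)))) :=
  rcf121_topP ht1 ht2 hJ (a3t86_alt_of_Lf hA) hC (lss57_lss_of_one hL) hD

/-! ## (perJ) CLOSED (23:45Z)

Frame `rpj69_perJc2` (69);   FKG in the doubly cut system `pjf291_fkg` (291) from the record `rpt127_hgeo` (127; fields by 69, 111, 109, 162);   well-formedness `rpw111_Wf` and (P3) `rpw111_P3` (111; twin `rhp31_P3` of 31);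
(P4) `rpq162_P4` (162);   (P5) `pjb12_P5` (12).   So the field `sym` of `Rct127Law`, hence A4, has no hypothesis left. -/

/-- **(perJ), no hypothesis**: above a connected record the high band is crossed or blocked by plus cells with probability at least one half -/
theorem rcf121_perJc {t : ℝ} (ht1 : 1 / 2 ≤ t) (ht2 : t ≤ 1) {L : ℕ} (hL : 0 < L) (H : ℕ) : Rcs127PerJc t L H :=
  have h0 : 0 < t := by linarith
  rpj69_perJc2 h0 ht2 hL (pjf291_fkg h0 ht2 (rpt127_hgeo hL)) (rpw111_Wf hL H) (rpw111_P3 ht1 ht2 hL H)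
    (rpq162_P4 h0.le ht2 hL H) (pjb12_P5 h0 ht2 hL (rpt127_hgeo hL))

/-- the kit of A4, without (perJ) -/
theorem rcf121_kitQ {t : ℝ} (ht1 : 1 / 2 ≤ t) (ht2 : t < 1) (hA : A3t86Alt t) (hC : Lsa282CClosed t) : Rct127Kit Hpd12Adm (hpd12P t) :=
  rcf121_kitP ht1 ht2 (fun _ H hL => rcf121_perJc ht1 ht2.le hL H) hA hC

/-- (REC), without (perJ) -/
theorem rcf121_recQ {t : ℝ} (ht1 : 1 / 2 ≤ t) (ht2 : t < 1) (hA : A3t86Alt t) (hC : Lsa282CClosed t) (hL : RnzLSS t) : RcRec t :=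
  rcf121_recP ht1 ht2 (fun _ H hL => rcf121_perJc ht1 ht2.le hL H) hA hC hL

/-- **THE FRONTIER OF R8 CORE AT THE END OF THE RUN**: four contracts -/
theorem rcf121_topQ {t : ℝ} (ht1 : 1 / 2 ≤ t) (ht2 : t < 1) (hA : A3t86Alt t) (hC : Lsa282CClosed t) (hL : RnzLSS t) (hD : RcD t) :
    ∃ (κ n0 : ℕ) (p : ℝ), 2 ≤ κ ∧ 0 < p ∧ ∀ n : ℕ, n0 ≤ n →
      p ≤ rswP t (rswBox 0 (κ * n)) true
        (fun ω => RswSep (rswBox 0 (κ * n)) false ω (rswBox 0 n) (rswLayer (rswBox 0 (κ * n)))) :=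
  rcf121_topP ht1 ht2 (fun _ H hL => rcf121_perJc ht1 ht2.le hL H) hA hC hL hD

/-- **THE FRONTIER, SHARPEST FORM**: the far estimate (L), the closed rectangle, (LSS) in one orientation, Theorem D -/
theorem rcf121_topQ2 {t : ℝ} (ht1 : 1 / 2 ≤ t) (ht2 : t < 1) (hA : A3t86Lf t) (hC : Lsa282CClosed t)
    (hL : RnzLSSd t (fun f => f.1) (fun f => f.2)) (hD : RcD t) :
    ∃ (κ n0 : ℕ) (p : ℝ), 2 ≤ κ ∧ 0 < p ∧ ∀ n : ℕ, n0 ≤ n →
      p ≤ rswP t (rswBox 0 (κ * n)) true
        (fun ω => RswSep (rswBox 0 (κ * n)) false ω (rswBox 0 n) (rswLayer (rswBox 0 (κ * n)))) :=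
  rcf121_topP2 ht1 ht2 (fun _ H hL => rcf121_perJc ht1 ht2.le hL H) hA hC hL hD

/-- **THE LAW OF A4 ON THE CYLINDER, CLOSED** (text of 69, 23:58Z): all the fields of `Rct127Law`, no hypothesis -/
theorem rcf121_lawQ {t : ℝ} (ht1 : 1 / 2 ≤ t) (ht2 : t ≤ 1) {L H : ℕ} (hL : 0 < L) (hH : 0 < H) :
    Rct127Law (2 * L) (2 * H) (fun _ _ => rcy162Q t L H) :=
  rcv69_law ht1 ht2 hL hH (fun k m κ a1 a2 a3 a4 a5 a6 => rcd111_sym_c ht1 ht2 hL (rcf121_perJc ht1 ht2 hL H) true k m κ a1 a2 a3 a4 a5 a6)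

end Claimed.Agent.R292
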