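import Claimed.Agent.R292.Rsw.CylInst69

/-!
# Row 292 (S0540), Rsw/DomIn121 : DOMINATION ACROSS A CUT WITH A CONSTRAINT INSIDE      (owner helper121; prefix `rdi121`)      0 sorry

`rci69_dom` (69) wants the constraint `K` of the large system to be read OFF the subsystem.   In (P2) of `Rsw/PerJ69` the constraint has pins of `d` INSIDE the subsystem.
Here `K = Ko ∧ Ki ∘ In`: `Ko` is read off the subsystem, `Ki` inside.   Cross form of the Markov property `rdi121_cross`; domination `rdi121_dom`: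
the law of the subsystem with the all plus rim and the constraint `Ki` dominates the law of the large system.
-/

set_option autoImplicit false

namespace Claimed.Agent.R292

open Claimed.Agent.R291 Claims Claims.C0468

/-- moving an inside constraint into the observable -/
theorem rdi121_sum_in (Y Y' : Rcy162Sys) (t : ℝ) (Ko Ki : RswCfg → Prop) (X : RswCfg → ℝ) :
    Y.sum t (fun ω => Ko ω ∧ Ki (rcy162In Y' ω)) X = Y.sum t Ko (fun ω => rcy162Ind Ki (rcy162In Y' ω) * X ω) := by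
  classical
  rw [rcy162_sum_and]
  refine rcy162_sum_congr Y t _ (fun ω _ _ => ?_)
  by_cases h : Ki (rcy162In Y' ω)
  · rw [if_pos h, rcy162_ind_pos h, one_mul]
  · rw [if_neg h, rcy162_ind_neg h, zero_mul]

/-- the same in the subsystem -/
theorem rdi121_sum_pin (Y' : Rcy162Sys) (t : ℝ) (P Ki : RswCfg → Prop) (X : RswCfg → ℝ) :
    Y'.sum t (fun ω => P ω ∧ Ki ω) X = Y'.sum t P (fun ω => rcy162Ind Ki ω * X ω) := by
  classical
  rw [rcy162_sum_and]
  refine rcy162_sum_congr Y' t _ (fun ω _ _ => ?_)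
  by_cases h : Ki ω
  · rw [if_pos h, rcy162_ind_pos h, one_mul]
  · rw [if_neg h, rcy162_ind_neg h, zero_mul]

/-- **cross form of the Markov property with a constraint inside** (no division) -/
theorem rdi121_cross {Y Y' : Rcy162Sys} {C : Finset (ℤ × ℤ)} (h : Rcy162Sub Y Y' C) {t : ℝ} {Ko Ki : RswCfg → Prop}
    (hKo : ∀ ω, Ko (rcy162Out Y' C ω) ↔ Ko ω) (A : Finset (ℤ × ℤ)) (hp : Y'.sum t (Rcy162Pin Y' C A) (fun _ => 1) ≠ 0) (B : RswCfg → Prop) :
    Y.sum t (fun ω => Ko ω ∧ Ki (rcy162In Y' ω)) (rcy162Ind (fun ω => Rcy162Cut Y Y' C A ω ∧ B (rcy162In Y' ω))) *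
        Y'.sum t (fun ω => Rcy162Pin Y' C A ω ∧ Ki ω) (fun _ => 1) =
      Y'.sum t (fun ω => Rcy162Pin Y' C A ω ∧ Ki ω) (rcy162Ind B) *
        Y.sum t (fun ω => Ko ω ∧ Ki (rcy162In Y' ω)) (rcy162Ind (Rcy162Cut Y Y' C A)) := by
  have k1 := rcy162_cut_cross h t hKo A (fun ω => rcy162Ind Ki ω * rcy162Ind B ω) (fun _ => 1)
  have k2 := rcy162_cut_cross h t hKo A (fun ω => rcy162Ind Ki ω * 1) (fun _ => 1)
  have e1 : Y.sum t (fun ω => Ko ω ∧ Ki (rcy162In Y' ω)) (rcy162Ind (fun ω => Rcy162Cut Y Y' C A ω ∧ B (rcy162In Y' ω))) =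
      Y.sum t Ko (fun ω => rcy162CutI Y Y' C A ω * (rcy162Ind Ki (rcy162In Y' ω) * rcy162Ind B (rcy162In Y' ω)) * 1) := by
    rw [rdi121_sum_in]
    refine rcy162_sum_congr Y t _ (fun ω _ _ => ?_)
    rw [rcy162_ind_and, mul_one]
    have : rcy162Ind (fun ω => B (rcy162In Y' ω)) ω = rcy162Ind B (rcy162In Y' ω) := rfl
    rw [this]
    have : rcy162Ind (Rcy162Cut Y Y' C A) ω = rcy162CutI Y Y' C A ω := rfl
    rw [this]
    ring
  have e2 : Y.sum t (fun ω => Ko ω ∧ Ki (rcy162In Y' ω)) (rcy162Ind (Rcy162Cut Y Y' C A)) =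
      Y.sum t Ko (fun ω => rcy162CutI Y Y' C A ω * (rcy162Ind Ki (rcy162In Y' ω) * 1) * 1) := by
    rw [rdi121_sum_in]
    refine rcy162_sum_congr Y t _ (fun ω _ _ => ?_)
    have : rcy162Ind (Rcy162Cut Y Y' C A) ω = rcy162CutI Y Y' C A ω := rfl
    rw [this]
    ring
  rw [e1, e2, rdi121_sum_pin, rdi121_sum_pin]
  have key : (Y.sum t Ko (fun ω => rcy162CutI Y Y' C A ω * (rcy162Ind Ki (rcy162In Y' ω) * rcy162Ind B (rcy162In Y' ω)) * 1) *
      Y'.sum t (Rcy162Pin Y' C A) (fun ω => rcy162Ind Ki ω * 1)) * Y'.sum t (Rcy162Pin Y' C A) (fun _ => 1) =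
      (Y'.sum t (Rcy162Pin Y' C A) (fun ω => rcy162Ind Ki ω * rcy162Ind B ω) *
      Y.sum t Ko (fun ω => rcy162CutI Y Y' C A ω * (rcy162Ind Ki (rcy162In Y' ω) * 1) * 1)) * Y'.sum t (Rcy162Pin Y' C A) (fun _ => 1) := by
    calc _ = (Y.sum t Ko (fun ω => rcy162CutI Y Y' C A ω * (rcy162Ind Ki (rcy162In Y' ω) * rcy162Ind B (rcy162In Y' ω)) * 1) *
          Y'.sum t (Rcy162Pin Y' C A) (fun _ => 1)) * Y'.sum t (Rcy162Pin Y' C A) (fun ω => rcy162Ind Ki ω * 1) := by ring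
      _ = _ := by rw [k1, mul_assoc, mul_comm (Y.sum t Ko _) (Y'.sum t (Rcy162Pin Y' C A) (fun ω => rcy162Ind Ki ω * 1)), ← k2]; ring
  exact mul_right_cancel₀ hp key

/-- **DOM with a constraint inside** (abstract): `K = Ko ∧ Ki ∘ In`; if the law of `(Y, K)` is positively associated and the all plus cut has positive probability,
the law of the subsystem with the all plus rim AND the constraint `Ki` dominates the law of `(Y, K)` -/
theorem rdi121_dom {Y Y' : Rcy162Sys} {C : Finset (ℤ × ℤ)} (h : Rcy162Sub Y Y' C) {t : ℝ} (h0 : 0 < t) (h1 : t ≤ 1) {Ko Ki : RswCfg → Prop}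
    (hKo : ∀ ω, Ko (rcy162Out Y' C ω) ↔ Ko ω)
    (hfkg : ∀ A A' : RswCfg → Prop, (∀ ω ω', Y.Le ω ω' → A ω → A ω') → (∀ ω ω', Y.Le ω ω' → A' ω → A' ω') →
      Y.Pr t (fun ω => Ko ω ∧ Ki (rcy162In Y' ω)) A * Y.Pr t (fun ω => Ko ω ∧ Ki (rcy162In Y' ω)) A'
        ≤ Y.Pr t (fun ω => Ko ω ∧ Ki (rcy162In Y' ω)) (fun ω => A ω ∧ A' ω))
    (hrim : ∀ e ∈ Y.E \ Y'.E, (Y.f0 e ∈ Y'.Fc ∨ Y.f1 e ∈ Y'.Fc) → Y.p0 e ∈ Y'.V \ C ∧ Y.p1 e ∈ Y'.V \ C)
    (hpos : 0 < Y.Pr t (fun ω => Ko ω ∧ Ki (rcy162In Y' ω)) (Rcy162Cut Y Y' C Y'.V))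
    {B : RswCfg → Prop} (hB : ∀ ω ω', Y.Le ω ω' → B (rcy162In Y' ω) → B (rcy162In Y' ω')) :
    Y.Pr t (fun ω => Ko ω ∧ Ki (rcy162In Y' ω)) (fun ω => B (rcy162In Y' ω)) ≤ Y'.Pr t (fun ω => Rcy162Pin Y' C Y'.V ω ∧ Ki ω) B := by
  classical
  have hp : Y'.sum t (Rcy162Pin Y' C Y'.V) (fun _ => 1) ≠ 0 :=
    (rcy162_Z_pos Y' _ h0.le h1 (rcy162_feas_of Y' h0 (S := Y'.V) (Finset.Subset.refl _)
      (fun v hv => ⟨fun _ => (Finset.mem_sdiff.1 hv).1, fun x => x⟩))).ne'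
  have hc := rdi121_cross (Ki := Ki) h hKo Y'.V hp B
  have hf := hfkg _ _ (rci69_cut_inc hrim) hB
  set K : RswCfg → Prop := fun ω => Ko ω ∧ Ki (rcy162In Y' ω) with hK
  set Z := Y.sum t K (fun _ => 1) with hZ
  set a := Y.sum t K (rcy162Ind (fun ω => Rcy162Cut Y Y' C Y'.V ω ∧ B (rcy162In Y' ω))) with ha
  set b := Y.sum t K (rcy162Ind (Rcy162Cut Y Y' C Y'.V)) with hb
  set x := Y'.sum t (fun ω => Rcy162Pin Y' C Y'.V ω ∧ Ki ω) (rcy162Ind B) with hx
  set y := Y'.sum t (fun ω => Rcy162Pin Y' C Y'.V ω ∧ Ki ω) (fun _ => 1) with hy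
  -- `hc : a * y = x * b`
  have hbZ : 0 < b / Z := by
    have := hpos
    rw [rcy162_P_ind] at this
    exact this
  have hb0 : b ≠ 0 := by
    intro h'
    rw [h', zero_div] at hbZ
    exact lt_irrefl _ hbZ
  have hy0 : y ≠ 0 := by
    intro h'
    -- `y = 0` forces `x = 0`, hence ... we use the cross identity for `B := True`
    have hc1 := rdi121_cross (Ki := Ki) h hKo Y'.V hp (fun _ => True)
    have e1 : Y.sum t K (rcy162Ind (fun ω => Rcy162Cut Y Y' C Y'.V ω ∧ (fun _ => True) (rcy162In Y' ω))) = b := by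
      rw [hb]
      refine rcy162_sum_congr Y t _ (fun ω _ _ => ?_)
      rw [rcy162_ind_and, rcy162_ind_pos (L := fun ω => (fun _ : RswCfg => True) (rcy162In Y' ω)) trivial, mul_one]
    have e2 : Y'.sum t (fun ω => Rcy162Pin Y' C Y'.V ω ∧ Ki ω) (rcy162Ind (fun _ => True)) = y := by
      rw [hy]
      refine rcy162_sum_congr Y' t _ (fun ω _ _ => ?_)
      exact rcy162_ind_pos (L := fun _ : RswCfg => True) trivial
    -- no information from this identity: use positivity instead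
    have hc2 := rcy162_cut_cross h t hKo Y'.V (fun ω => rcy162Ind Ki ω * 1) (fun _ => 1)
    have e3 : b = Y.sum t Ko (fun ω => rcy162CutI Y Y' C Y'.V ω * (rcy162Ind Ki (rcy162In Y' ω) * 1) * 1) := by
      rw [hb, hK, rdi121_sum_in]
      refine rcy162_sum_congr Y t _ (fun ω _ _ => ?_)
      have : rcy162Ind (Rcy162Cut Y Y' C Y'.V) ω = rcy162CutI Y Y' C Y'.V ω := rfl
      rw [this]
      ring
    have e4 : y = Y'.sum t (Rcy162Pin Y' C Y'.V) (fun ω => rcy162Ind Ki ω * 1) := by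
      rw [hy, rdi121_sum_pin]
    rw [← e3, ← e4, h', zero_mul] at hc2
    rcases mul_eq_zero.1 hc2 with q | q
    · exact hb0 q
    · exact hp q
  rw [rcy162_P_ind, rcy162_P_ind, rcy162_P_ind] at hf
  rw [rcy162_P_ind, rcy162_P_ind]
  change b / Z * (Y.sum t K (rcy162Ind fun ω => B (rcy162In Y' ω)) / Z) ≤ a / Z at hf
  change Y.sum t K (rcy162Ind fun ω => B (rcy162In Y' ω)) / Z ≤ x / y
  have haxy : a / Z = x / y * (b / Z) := by
    have : a = x / y * b := by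
      rw [div_mul_eq_mul_div, eq_div_iff hy0]
      exact hc
    rw [this, mul_div_assoc]
  rw [haxy, mul_comm] at hf
  exact le_of_mul_le_mul_right hf hbZ

end Claimed.Agent.R292
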