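import Claimed.Agent.R292.Rsw.Ports102
import Claimed.Agent.R292.Rsw.RswCyl86
import Claimed.Agent.R291.Glue.Place

/-!
# Row 292 (S0540), Rsw/Enter210 : R8 CORE, BLOCK A1 / A3 PART II (half TIP) = THE ENTRANCE on the edge-pair systems `Rcy162Sys`      (owner helper210; prefix `ent210` / `Ent210`)      0 sorry

Port of R291 `Glue/Enter` (G3 `exit_enter`; owner there helper164) to the two-lattice systems of `Rsw/Sys162`, on top of the ports of 102 (`Rsw/Ports102`: `Rpo102Con`, `Rpo102Split`, `rpo102_two_amb`).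
Dictionary (`CORE_DICT.md` Sec. 1 of 121): cell `y` = edge pair, `sv y` for the first spin = `rpo102Sv T y` (the two ENDPOINTS), `sv y` for the second spin = `rpo102Sd T y` (the two FACES); one parameter `t`, no clipped cells;
the retained site set `Q` of R291 splits into `R` (retained primal sites) and `Q` (retained faces);  the PORTS are FACES.

THE LAW OF ANY AMBIENT `T` GIVEN ANY RECORD `h` DOMINATES, UP TO A FACTOR `2 ^ k`, THE CLOSED STRIP LAW (`S`, `ent210H0`) ON THE INCREASING EVENTS WHICH READ THE RETAINED PART.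
* §0 histories with ties on a system: `Ent210Legal`, `Ent210Le`, `Ent210Feas` (local criterion);  **`ent210_feas`** (criterion ⟹ `0 < Z`; R291 `dis_feas`), **`ent210_feas_conv`** (legal + `0 < Z` ⟹ criterion; R291 `dis_feas_conv`): PROVED here, no hypothesis.
* §1 `ent210Lay T R YR` the LAYER, `ent210M` the SEA, **`ent210Sea T h R YR Pl Rib`** THE SEA HISTORY;  `ent210_sea_legal`, `ent210_sea_le`, `ent210_sea_crit`, `ent210_sea_feas`.
* §2 `ent210P1` (faces of `Q` at the junction edge pairs of the ambient), `ent210P2` (the same for the boundary edge pairs of the strip system);  `ent210_split_T`, `ent210_split_S`, `ent210_KR`.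
* §3 **`ent210_main`** : `S.sum (H0) F * T.sum h 1 ≤ 2 ^ ((P2.card - 1) + (P1.card - 1)) * (S.sum (H0) 1 * T.sum h F)` for `F ≥ 0`, increasing for `T.Le`, `Rpo102Loc R YR F`.   ORDER is a hypothesis `Ent210Ord`;
  `ent210_main_of` (order of histories in the shape of R291 `dis_order`), `ent210_main_ord` (shape of `LseOrd`: the pins of `K` are kept), `ent210_main_E` (normalised).
* §4 the event of the glue machine: `ent210Cg` (edge pairs which share an ENDPOINT), `Ent210Join`, `ent210On` (good-plus edge pairs);  `ent210_event`, `ent210_event_mono`, `ent210_event_loc`, `ent210_H0_feas`, **`ent210_join`**, `ent210_join_P`.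
* §5 the closed system cut out of an ambient = the retained system `rpo102SR T R Q YR` of 102 (no boundary edge pairs: `Cb = ∅`, `P2 = ∅`):  `Ent210Rec`, `ent210_geo_SR`, `ent210_mem_P1`, `ent210_P2_empty`, **`ent210_join_SR`**.
* §6 transport along `Rcy162Hom S₀ S gV gF gE` (162): `ent210_iso_sv / _sd / _end`, `ent210_H0_holds`, `ent210_iso_holds`, `ent210_iso_N`, `ent210_iso_event`, **`ent210_join_iso`**, `ent210_join_iso_P` (bound under the strip law of a REFERENCE strip `S₀`, e.g. planar ⟹ bound in the ambient given the record).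
* §7 THE CHAIN OF 86: `Ent210Car R YR M`, `ent210_loc_of_link` (`Rse182Loc` ⟹ `Rpo102Loc`), **`ent210_chain`** : `Rse182Link T t 𝓛`, `Rse182Link S t 𝓛Q`, `Ent210Geo`, order ⟹ `Rrc86Chain 𝓛 𝓛Q (record) (sea history) (ent210H0) M (2 ^ ports)` = (E) of `Rrc86Strip`;
  records without ties (`RswCon`): `ent210SeaK`, `ent210_of_holds`, `ent210_legal_of`, `ent210_seaK_legal`, `ent210_seaK_le`, **`ent210_chain_K`** (order from the contract `Rse182Ord T 𝓛 K₀` of 182), `ent210_seaK_imp` (wall ⟹ record; ONLY when no closed edge pair of the record lies inside the sea).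
* §8 `ent210_join_mono`, **`ent210_LK_of_chain`** = `rrc86_LK_of_strip` of 86 WITHOUT the field `h1 ⟹ rec` (which the sea history does not satisfy): chain + estimate in the closed strip law ⟹ (LK) at one record.
* §9 uniform constants: `ent210_P1_card_le`, `ent210_P2_card_le` (two port faces per junction edge pair), `ent210_chain_mono`, **`ent210_chain_K_unif`** (constant `2 ^ (2 a + 2 b)`).
* §10 `ent210_chain_congr`, **`ent210_LK_rec`** : (LK) of 86 at ONE record `rrc86Rec 𝓛 K (rrc86Q2 ..) ω₀` (far case, R291 `rsg_one` T3) FROM `Ent210Geo` for the history `rse182Obs T K₀ Q₂ ω₀` of 182 + `Rse182Ord T 𝓛 K₀` + the estimate (L) in the closed strip law.   OPEN INPUTS of the far case after this file: that geometry (R291 `Ann/RswEnt`), (ORD), (L).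
-/

set_option autoImplicit false
set_option linter.unusedSectionVars false
set_option linter.unusedVariables false
set_option linter.unusedSimpArgs false

namespace Claimed.Agent.R292

open Claims Claims.C0468 Claimed.Agent.R291 Relation

/-! ## 0. histories with ties on a system -/

/-- a legal history: an observed edge pair has its two first spins pinned; the ties lie across edge pairs -/
structure Ent210Legal (T : Rcy162Sys) (K : Rpo102Con) : Prop where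
  full : ∀ y ∈ T.E, y ∈ K.Gp ∪ K.Gm ∪ K.Cl → rpo102Sv T y ⊆ K.Sp ∪ K.Sm
  eq : ∀ e ∈ K.Eq, ∃ y ∈ T.E, e.1 ∈ rpo102Sd T y ∧ e.2 ∈ rpo102Sd T y

/-- order of histories, `K₁` below `K₂` -/
structure Ent210Le (K₁ K₂ : Rpo102Con) : Prop where
  bp : K₁.Sp ⊆ K₂.Sp
  bm : K₂.Sm ⊆ K₁.Sm
  op : K₁.Gp ⊆ K₂.Gp
  om : K₂.Gm ⊆ K₁.Gm
  cl1 : K₁.Cl ⊆ K₂.Cl ∪ K₂.Gp
  cl2 : K₂.Cl ⊆ K₁.Cl ∪ K₁.Gm
  eq : K₁.Eq = K₂.Eq

/-- local criterion of feasibility -/
structure Ent210Feas (T : Rcy162Sys) (K : Rpo102Con) : Prop where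
  bpA : K.Sp ⊆ T.V
  dis : Disjoint K.Sp K.Sm
  opC : K.Gp ⊆ T.E
  omC : K.Gm ⊆ T.E
  op : ∀ y ∈ K.Gp, rpo102Sv T y ⊆ K.Sp
  om : ∀ y ∈ K.Gm, rpo102Sv T y ⊆ K.Sm
  d1 : Disjoint K.Gp K.Gm
  d2 : Disjoint K.Gp K.Cl
  d3 : Disjoint K.Gm K.Cl

theorem ent210_p0_mem (T : Rcy162Sys) (y : (ℤ × ℤ) × Bool) : T.p0 y ∈ rpo102Sv T y := by
  unfold rpo102Sv
  exact Finset.mem_insert_self _ _

theorem ent210_p1_mem (T : Rcy162Sys) (y : (ℤ × ℤ) × Bool) : T.p1 y ∈ rpo102Sv T y := by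
  unfold rpo102Sv
  exact Finset.mem_insert_of_mem (Finset.mem_singleton_self _)

theorem ent210_sv_sub {T : Rcy162Sys} (hT : T.WF) {y : (ℤ × ℤ) × Bool} (hy : y ∈ T.E) : rpo102Sv T y ⊆ T.V := by
  intro v hv
  unfold rpo102Sv at hv
  rcases Finset.mem_insert.1 hv with rfl | hv
  · exact hT.p0 y hy
  · rw [Finset.mem_singleton.1 hv]
    exact hT.p1 y hy

theorem ent210_sd_sub {T : Rcy162Sys} (hT : T.WF) {y : (ℤ × ℤ) × Bool} (hy : y ∈ T.E) : rpo102Sd T y ⊆ T.Fc := by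
  intro v hv
  unfold rpo102Sd at hv
  rcases Finset.mem_insert.1 hv with rfl | hv
  · exact hT.f0 y hy
  · rw [Finset.mem_singleton.1 hv]
    exact hT.f1 y hy

/-- **the local criterion gives a configuration of positive weight** (R291 `dis_feas`) -/
theorem ent210_feas (T : Rcy162Sys) {t : ℝ} (h0 : 0 < t) (h1 : t < 1) (K : Rpo102Con) (hf : Ent210Feas T K) :
    0 < T.sum t (K.Holds T) (fun _ => 1) := by
  classical
  refine rcy162_Z_pos T _ h0.le h1.le ⟨⟨K.Sp, ∅, K.Gp ∪ K.Gm⟩, ⟨hf.bpA, Finset.empty_subset _, Finset.union_subset hf.opC hf.omC⟩, ?_⟩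
  have hH : K.Holds T ⟨K.Sp, ∅, K.Gp ∪ K.Gm⟩ := by
    refine ⟨Finset.Subset.refl _, fun v hv hc => Finset.disjoint_left.1 hf.dis hc hv, fun e _ => ⟨fun hc => absurd hc (Finset.notMem_empty _), fun hc => absurd hc (Finset.notMem_empty _)⟩, ?_, ?_, ?_⟩
    · intro e he
      exact (rpo102_good_true T _ e).2 ⟨Finset.mem_union_left _ he, hf.op e he⟩
    · intro e he
      exact (rpo102_good_false T _ e).2 ⟨Finset.mem_union_right _ he, fun v hv hc => Finset.disjoint_left.1 hf.dis hc (hf.om e he hv)⟩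
    · intro e he hc
      rcases Finset.mem_union.1 hc with hc | hc
      · exact Finset.disjoint_left.1 hf.d2 hc he
      · exact Finset.disjoint_left.1 hf.d3 hc he
  unfold Rcy162Sys.wt
  rw [if_pos hH]
  refine Finset.prod_ne_zero_iff.2 fun e he => ?_
  unfold Rcy162Sys.fac
  by_cases hO : e ∈ K.Gp ∪ K.Gm
  · have hc : (T.p0 e ∈ K.Sp ↔ T.p1 e ∈ K.Sp) := by
      rcases Finset.mem_union.1 hO with hg | hg
      · exact ⟨fun _ => hf.op e hg (ent210_p1_mem T e), fun _ => hf.op e hg (ent210_p0_mem T e)⟩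
      · exact ⟨fun hc => absurd (hf.om e hg (ent210_p0_mem T e)) (Finset.disjoint_left.1 hf.dis hc),
          fun hc => absurd (hf.om e hg (ent210_p1_mem T e)) (Finset.disjoint_left.1 hf.dis hc)⟩
    simp only [if_pos hO, if_pos hc]
    exact h0.ne'
  · have hd : (T.f0 e ∈ (∅ : Finset (ℤ × ℤ)) ↔ T.f1 e ∈ (∅ : Finset (ℤ × ℤ))) := by simp
    simp only [if_neg hO, if_pos hd]
    split_ifs
    · linarith
    · exact h0.ne'

/-- a positive sum has a configuration of the system which satisfies the constraint -/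
theorem ent210_exists_cfg (T : Rcy162Sys) {t : ℝ} {K : RswCfg → Prop} (hZ : 0 < T.sum t K (fun _ => 1)) : ∃ ω, T.Cfg ω ∧ K ω := by
  classical
  by_contra hc
  push Not at hc
  have : T.sum t K (fun _ => 1) = 0 := by
    rw [rcy162_sum_cfgs]
    refine Finset.sum_eq_zero fun ω hω => ?_
    unfold Rcy162Sys.wt
    rw [if_neg (hc ω (rcy162_mem_cfgs.1 hω)), zero_mul]
  linarith

/-- **a legal feasible history satisfies the local criterion** (R291 `dis_feas_conv`) -/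
theorem ent210_feas_conv (T : Rcy162Sys) {t : ℝ} (K : Rpo102Con) (hK : Ent210Legal T K) (hZ : 0 < T.sum t (K.Holds T) (fun _ => 1)) :
    Ent210Feas T K := by
  obtain ⟨ω, ⟨cS, cD, cO⟩, hp, hm, _, hgp, hgm, hcl⟩ := ent210_exists_cfg T hZ
  have opC : K.Gp ⊆ T.E := fun y hy => cO ((rpo102_good_true T ω y).1 (hgp y hy)).1
  have omC : K.Gm ⊆ T.E := fun y hy => cO ((rpo102_good_false T ω y).1 (hgm y hy)).1
  refine ⟨hp.trans cS, Finset.disjoint_left.2 fun v h1 h2 => hm v h2 (hp h1), opC, omC, ?_, ?_, ?_, ?_, ?_⟩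
  · intro y hy v hv
    rcases Finset.mem_union.1 (hK.full y (opC hy) (Finset.mem_union_left _ (Finset.mem_union_left _ hy)) hv) with h1 | h1
    · exact h1
    · exact absurd (((rpo102_good_true T ω y).1 (hgp y hy)).2 hv) (hm v h1)
  · intro y hy v hv
    rcases Finset.mem_union.1 (hK.full y (omC hy) (Finset.mem_union_left _ (Finset.mem_union_right _ hy)) hv) with h1 | h1
    · exact absurd (hp h1) (((rpo102_good_false T ω y).1 (hgm y hy)).2 v hv)
    · exact h1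
  · exact Finset.disjoint_left.2 fun y h1 h2 => rcy162_good_excl T ω y (hgp y h1) (hgm y h2)
  · exact Finset.disjoint_left.2 fun y h1 h2 => hcl y h2 ((rpo102_good_true T ω y).1 (hgp y h1)).1
  · exact Finset.disjoint_left.2 fun y h1 h2 => hcl y h2 ((rpo102_good_false T ω y).1 (hgm y h1)).1

/-! ## 1. the sea history -/

/-- the LAYER of `R`: the sites of `R` which are endpoints of an edge pair that is not retained -/
def ent210Lay (T : Rcy162Sys) (R : Finset (ℤ × ℤ)) (YR : Finset ((ℤ × ℤ) × Bool)) : Finset (ℤ × ℤ) :=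
  R.filter (fun v => ∃ y ∈ T.E \ YR, v ∈ rpo102Sv T y)

/-- THE SEA: everything off `R`, and the layer, except the kept plus pins (and the minus pins of the record) -/
def ent210M (T : Rcy162Sys) (h : Rpo102Con) (R : Finset (ℤ × ℤ)) (YR : Finset ((ℤ × ℤ) × Bool)) (Pl : Finset (ℤ × ℤ)) : Finset (ℤ × ℤ) :=
  (((T.V \ R) ∪ ent210Lay T R YR) \ Pl) ∪ h.Sm

/-- **THE SEA HISTORY** -/
def ent210Sea (T : Rcy162Sys) (h : Rpo102Con) (R : Finset (ℤ × ℤ)) (YR : Finset ((ℤ × ℤ) × Bool)) (Pl : Finset (ℤ × ℤ))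
    (Rib : Finset ((ℤ × ℤ) × Bool)) : Rpo102Con :=
  ⟨Pl, ent210M T h R YR Pl, h.Eq, Rib, (T.E \ YR).filter (fun y => rpo102Sv T y ⊆ ent210M T h R YR Pl),
    h.Cl.filter (fun y => ¬ (y ∈ T.E ∧ rpo102Sv T y ⊆ ent210M T h R YR Pl))⟩

/-- the ports of the ambient: FACES of `Q` at the non retained edge pairs which are neither kept good-plus nor inside the sea -/
def ent210P1 (T : Rcy162Sys) (h : Rpo102Con) (R Q : Finset (ℤ × ℤ)) (YR : Finset ((ℤ × ℤ) × Bool)) (Pl : Finset (ℤ × ℤ))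
    (Rib : Finset ((ℤ × ℤ) × Bool)) : Finset (ℤ × ℤ) :=
  ((T.E \ YR).filter (fun y => y ∉ Rib ∧ ¬ rpo102Sv T y ⊆ ent210M T h R YR Pl)).biUnion (fun y => rpo102Sd T y ∩ Q)

/-- the history of the strip law -/
def ent210H0 (S : Rcy162Sys) (Cb : Finset ((ℤ × ℤ) × Bool)) (La Lc Ld Lb : Finset (ℤ × ℤ)) : Rpo102Con :=
  ⟨La ∪ Lc, glEnd La Lc Ld Lb, ∅, Cb.filter (fun y => rpo102Sv S y ⊆ La ∪ Lc), Cb.filter (fun y => rpo102Sv S y ⊆ glEnd La Lc Ld Lb), ∅⟩

/-- the ports of the closed strip system: faces of the mixed boundary edge pairs -/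
def ent210P2 (S : Rcy162Sys) (Cb : Finset ((ℤ × ℤ) × Bool)) (La Lc Ld Lb : Finset (ℤ × ℤ)) : Finset (ℤ × ℤ) :=
  (Cb.filter (fun y => ¬ rpo102Sv S y ⊆ La ∪ Lc ∧ ¬ rpo102Sv S y ⊆ glEnd La Lc Ld Lb)).biUnion (rpo102Sd S)

/-- conditional order between two histories -/
def Ent210Ord (T : Rcy162Sys) (t : ℝ) (K₁ K₂ : Rpo102Con) : Prop :=
  ∀ F : RswCfg → ℝ, (∀ ω ω', T.Le ω ω' → F ω ≤ F ω') →
    T.sum t (K₁.Holds T) F * T.sum t (K₂.Holds T) (fun _ => 1) ≤ T.sum t (K₁.Holds T) (fun _ => 1) * T.sum t (K₂.Holds T) F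

/-- **what the entrance needs to know** -/
structure Ent210Geo (T S : Rcy162Sys) (t : ℝ) (h : Rpo102Con) (R Q : Finset (ℤ × ℤ)) (YR Cb : Finset ((ℤ × ℤ) × Bool))
    (La Lc Ld Lb Pl : Finset (ℤ × ℤ)) (Rib : Finset ((ℤ × ℤ) × Bool)) : Prop where
  t0 : 0 < t
  t1 : t < 1
  okT : T.WF
  okS : S.WF
  legal : Ent210Legal T h
  feas : 0 < T.sum t (h.Holds T) (fun _ => 1)
  RA : R ⊆ T.V
  QA : Q ⊆ T.Fc
  SV : S.V = R
  SF : S.Fc = Q
  YT : YR ⊆ T.E
  YS : YR ⊆ S.E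
  /-- the other edge pairs of the strip system are the boundary edge pairs -/
  cb : ∀ y ∈ S.E, y ∉ YR → y ∈ Cb
  cbC : Cb ⊆ S.E
  cbY : ∀ y ∈ Cb, y ∉ YR
  cellR : ∀ y ∈ YR, rpo102Sv T y ⊆ R
  cellQ : ∀ y ∈ YR, rpo102Sd T y ⊆ Q
  sv : ∀ y ∈ YR, rpo102Sv S y = rpo102Sv T y
  sd : ∀ y ∈ YR, rpo102Sd S y = rpo102Sd T y
  /-- what is kept of the record -/
  pl : Pl ⊆ h.Sp
  rib : Rib ⊆ h.Gp
  ribS : ∀ y ∈ Rib, rpo102Sv T y ⊆ Pl
  /-- the record knows nothing inside -/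
  bm : ∀ v ∈ h.Sm, v ∈ R → v ∈ ent210Lay T R YR
  obs : ∀ y ∈ YR, y ∉ h.Gp ∧ y ∉ h.Gm ∧ y ∉ h.Cl
  eq : ∀ e ∈ h.Eq, e.1 ∉ Q ∧ e.2 ∉ Q
  /-- the four sides -/
  plR : Pl ∩ R = La ∪ Lc
  lay : ent210Lay T R YR = La ∪ Lc ∪ Ld ∪ Lb
  cbL : ∀ y ∈ Cb, rpo102Sv S y ⊆ La ∪ Lc ∪ Ld ∪ Lb

theorem ent210_eqns_cite : True := by
  have := @ent210Lay.eq_1
  have := @ent210M.eq_1
  have := @ent210Sea.eq_1
  have := @ent210P1.eq_1
  have := @ent210H0.eq_1
  have := @ent210P2.eq_1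
  have := @Ent210Ord.eq_1
  trivial

variable {T S : Rcy162Sys} {t : ℝ} {h : Rpo102Con} {R Q : Finset (ℤ × ℤ)} {YR Cb : Finset ((ℤ × ℤ) × Bool)}
  {La Lc Ld Lb Pl : Finset (ℤ × ℤ)} {Rib : Finset ((ℤ × ℤ) × Bool)}

theorem ent210_mem_lay {v : ℤ × ℤ} : v ∈ ent210Lay T R YR ↔ v ∈ R ∧ ∃ y ∈ T.E \ YR, v ∈ rpo102Sv T y := by
  unfold ent210Lay
  exact Finset.mem_filter

theorem ent210_mem_M {v : ℤ × ℤ} : v ∈ ent210M T h R YR Pl ↔ (((v ∈ T.V ∧ v ∉ R) ∨ v ∈ ent210Lay T R YR) ∧ v ∉ Pl) ∨ v ∈ h.Sm := by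
  unfold ent210M
  simp only [Finset.mem_union, Finset.mem_sdiff]

/-- an endpoint of a non retained edge pair is a kept plus pin or lies in the sea -/
theorem ent210_cell_pin (hT : T.WF) {y : (ℤ × ℤ) × Bool} (hy : y ∈ T.E) (hyR : y ∉ YR) {v : ℤ × ℤ} (hv : v ∈ rpo102Sv T y) :
    v ∈ Pl ∨ v ∈ ent210M T h R YR Pl := by
  by_cases hP : v ∈ Pl
  · exact Or.inl hP
  · right
    rw [ent210_mem_M]
    left
    refine ⟨?_, hP⟩
    by_cases hQ : v ∈ R
    · exact Or.inr (ent210_mem_lay.2 ⟨hQ, y, Finset.mem_sdiff.2 ⟨hy, hyR⟩, hv⟩)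
    · exact Or.inl ⟨ent210_sv_sub hT hy hv, hQ⟩

/-- the local criterion for the record -/
theorem ent210_feas_h (g : Ent210Geo T S t h R Q YR Cb La Lc Ld Lb Pl Rib) : Ent210Feas T h := ent210_feas_conv T h g.legal g.feas

theorem ent210_pl_M (g : Ent210Geo T S t h R Q YR Cb La Lc Ld Lb Pl Rib) : Disjoint Pl (ent210M T h R YR Pl) := by
  refine Finset.disjoint_left.2 fun v hv hM => ?_
  rcases ent210_mem_M.1 hM with h1 | h1
  · exact h1.2 hv
  · exact Finset.disjoint_left.1 (ent210_feas_h g).dis (g.pl hv) h1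

theorem ent210_rib_C (g : Ent210Geo T S t h R Q YR Cb La Lc Ld Lb Pl Rib) {y : (ℤ × ℤ) × Bool} (hy : y ∈ Rib) : y ∈ T.E ∧ y ∉ YR :=
  ⟨(ent210_feas_h g).opC (g.rib hy), fun hR => (g.obs y hR).1 (g.rib hy)⟩

/-- the sea history is legal -/
theorem ent210_sea_legal (g : Ent210Geo T S t h R Q YR Cb La Lc Ld Lb Pl Rib) : Ent210Legal T (ent210Sea T h R YR Pl Rib) where
  full := by
    intro y hy hobs v hv
    have hyR : y ∉ YR := by
      intro hR
      simp only [ent210Sea, Finset.mem_union, Finset.mem_filter, Finset.mem_sdiff] at hobs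
      rcases hobs with (h1 | h1) | h1
      · exact (ent210_rib_C g h1).2 hR
      · exact h1.1.2 hR
      · exact (g.obs y hR).2.2 h1.1
    exact Finset.mem_union.2 (ent210_cell_pin g.okT hy hyR hv)
  eq := g.legal.eq

/-- the sea history is below the record -/
theorem ent210_sea_le (g : Ent210Geo T S t h R Q YR Cb La Lc Ld Lb Pl Rib) : Ent210Le (ent210Sea T h R YR Pl Rib) h where
  bp := g.pl
  bm := fun v hv => ent210_mem_M.2 (Or.inr hv)
  op := g.rib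
  om := by
    intro y hy
    have hf := ent210_feas_h g
    refine Finset.mem_filter.2 ⟨Finset.mem_sdiff.2 ⟨hf.omC hy, fun hR => (g.obs y hR).2.1 hy⟩, fun v hv => ?_⟩
    exact ent210_mem_M.2 (Or.inr (hf.om y hy hv))
  cl1 := fun y hy => Finset.mem_union_left _ (Finset.mem_filter.1 hy).1
  cl2 := by
    intro y hy
    by_cases hc : y ∈ T.E ∧ rpo102Sv T y ⊆ ent210M T h R YR Pl
    · exact Finset.mem_union_right _ (Finset.mem_filter.2 ⟨Finset.mem_sdiff.2 ⟨hc.1, fun hR => (g.obs y hR).2.2 hy⟩, hc.2⟩)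
    · exact Finset.mem_union_left _ (Finset.mem_filter.2 ⟨hy, hc⟩)
  eq := rfl

/-- the sea history satisfies the local criterion of feasibility -/
theorem ent210_sea_crit (g : Ent210Geo T S t h R Q YR Cb La Lc Ld Lb Pl Rib) : Ent210Feas T (ent210Sea T h R YR Pl Rib) where
  bpA := g.pl.trans (ent210_feas_h g).bpA
  dis := ent210_pl_M g
  opC := fun y hy => (ent210_rib_C g hy).1
  omC := fun y hy => (Finset.mem_sdiff.1 (Finset.mem_filter.1 hy).1).1
  op := g.ribS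
  om := fun y hy => (Finset.mem_filter.1 hy).2
  d1 := by
    refine Finset.disjoint_left.2 fun y h1 h2 => ?_
    exact Finset.disjoint_left.1 (ent210_pl_M g) (g.ribS y h1 (ent210_p0_mem T y)) ((Finset.mem_filter.1 h2).2 (ent210_p0_mem T y))
  d2 := by
    refine Finset.disjoint_left.2 fun y h1 h2 => ?_
    exact Finset.disjoint_left.1 (ent210_feas_h g).d2 (g.rib h1) (Finset.mem_filter.1 h2).1
  d3 := by
    refine Finset.disjoint_left.2 fun y h1 h2 => ?_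
    obtain ⟨a1, a2⟩ := Finset.mem_filter.1 h1
    exact (Finset.mem_filter.1 h2).2 ⟨(Finset.mem_sdiff.1 a1).1, a2⟩

/-- the sea history is feasible -/
theorem ent210_sea_feas (g : Ent210Geo T S t h R Q YR Cb La Lc Ld Lb Pl Rib) :
    0 < T.sum t ((ent210Sea T h R YR Pl Rib).Holds T) (fun _ => 1) :=
  ent210_feas T g.t0 g.t1 _ (ent210_sea_crit g)

/-! ## 2. the two retained parts -/

theorem ent210_split_T (g : Ent210Geo T S t h R Q YR Cb La Lc Ld Lb Pl Rib) :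
    Rpo102Split T t (ent210Sea T h R YR Pl Rib) R Q YR ∅ (ent210P1 T h R Q YR Pl Rib) where
  RA := g.RA
  QA := g.QA
  YC := g.YT
  sub := fun y hy => ent210_sd_sub g.okT hy
  q0 := g.t0.le
  q1 := g.t1.le
  cellR := g.cellR
  cellQ := g.cellQ
  pinX := by
    intro y hy hyR v hv
    exact Finset.mem_union.2 (ent210_cell_pin g.okT hy hyR (Finset.mem_inter.1 hv).1)
  portC := by
    intro y hy hyR
    by_cases h1 : y ∈ Rib
    · exact Or.inl (Finset.mem_union_left _ h1)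
    · by_cases h2 : rpo102Sv T y ⊆ ent210M T h R YR Pl
      · exact Or.inl (Finset.mem_union_right _ (Finset.mem_filter.2 ⟨Finset.mem_sdiff.2 ⟨hy, hyR⟩, h2⟩))
      · right
        intro v hv
        exact Finset.mem_biUnion.2 ⟨y, Finset.mem_filter.2 ⟨Finset.mem_sdiff.2 ⟨hy, hyR⟩, h1, h2⟩, hv⟩
  eqR := Finset.empty_subset _
  eqR_in := fun e he => absurd he (Finset.notMem_empty _)
  portE := fun e he _ => ⟨fun h1 => absurd h1 (g.eq e he).1, fun h1 => absurd h1 (g.eq e he).2⟩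
  eqA := by
    intro e he
    obtain ⟨y, hy, a1, a2⟩ := g.legal.eq e he
    exact ⟨ent210_sd_sub g.okT hy a1, ent210_sd_sub g.okT hy a2⟩

theorem ent210_sides_R (g : Ent210Geo T S t h R Q YR Cb La Lc Ld Lb Pl Rib) : La ∪ Lc ∪ Ld ∪ Lb ⊆ R := by
  rw [← g.lay]
  exact Finset.filter_subset _ _

theorem ent210_split_S (g : Ent210Geo T S t h R Q YR Cb La Lc Ld Lb Pl Rib) :
    Rpo102Split S t (ent210H0 S Cb La Lc Ld Lb) R Q YR ∅ (ent210P2 S Cb La Lc Ld Lb) where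
  RA := g.SV.ge
  QA := g.SF.ge
  YC := g.YS
  sub := fun y hy => ent210_sd_sub g.okS hy
  q0 := g.t0.le
  q1 := g.t1.le
  cellR := fun y hy => (g.sv y hy).le.trans (g.cellR y hy)
  cellQ := fun y hy => (g.sd y hy).le.trans (g.cellQ y hy)
  pinX := by
    intro y hy hyR v hv
    have h1 := g.cbL y (g.cb y hy hyR) (Finset.mem_inter.1 hv).1
    show v ∈ (La ∪ Lc) ∪ glEnd La Lc Ld Lb
    unfold glEnd
    simp only [Finset.mem_union, Finset.mem_sdiff] at h1 ⊢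
    tauto
  portC := by
    intro y hy hyR
    have hb := g.cb y hy hyR
    by_cases h1 : rpo102Sv S y ⊆ La ∪ Lc
    · exact Or.inl (Finset.mem_union_left _ (Finset.mem_filter.2 ⟨hb, h1⟩))
    · by_cases h2 : rpo102Sv S y ⊆ glEnd La Lc Ld Lb
      · exact Or.inl (Finset.mem_union_right _ (Finset.mem_filter.2 ⟨hb, h2⟩))
      · right
        intro v hv
        exact Finset.mem_biUnion.2 ⟨y, Finset.mem_filter.2 ⟨hb, h1, h2⟩, (Finset.mem_inter.1 hv).1⟩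
  eqR := Finset.empty_subset _
  eqR_in := fun e he => absurd he (Finset.notMem_empty _)
  portE := fun e he => absurd he (Finset.notMem_empty _)
  eqA := fun e he => absurd he (Finset.notMem_empty _)

/-- the two histories have the same retained data -/
theorem ent210_KR (g : Ent210Geo T S t h R Q YR Cb La Lc Ld Lb Pl Rib) :
    rpo102KR (ent210H0 S Cb La Lc Ld Lb) R YR ∅ = rpo102KR (ent210Sea T h R YR Pl Rib) R YR ∅ := by
  have hsQ := ent210_sides_R g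
  have e1 : (La ∪ Lc) ∩ R = Pl ∩ R := by
    rw [g.plR]
    exact Finset.inter_eq_left.2 (fun v hv => hsQ (by
      simp only [Finset.mem_union] at hv ⊢
      tauto))
  have e2 : glEnd La Lc Ld Lb ∩ R = ent210M T h R YR Pl ∩ R := by
    ext v
    have hPl : v ∈ R → (v ∈ Pl ↔ v ∈ La ∪ Lc) := fun hQ => by
      rw [← g.plR, Finset.mem_inter]
      exact ⟨fun h1 => ⟨h1, hQ⟩, fun h1 => h1.1⟩
    simp only [Finset.mem_inter]
    constructor
    · rintro ⟨h1, hQ⟩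
      refine ⟨ent210_mem_M.2 (Or.inl ⟨Or.inr ?_, ?_⟩), hQ⟩
      · rw [g.lay]
        unfold glEnd at h1
        simp only [Finset.mem_union, Finset.mem_sdiff] at h1 ⊢
        tauto
      · rw [hPl hQ]
        exact (Finset.mem_sdiff.1 h1).2
    · rintro ⟨h1, hQ⟩
      refine ⟨?_, hQ⟩
      have key : v ∈ ent210Lay T R YR ∧ v ∉ Pl := by
        rcases ent210_mem_M.1 h1 with ⟨h2 | h2, h3⟩ | h2
        · exact absurd hQ h2.2
        · exact ⟨h2, h3⟩
        · exact ⟨g.bm v h2 hQ, fun hP => Finset.disjoint_left.1 (ent210_feas_h g).dis (g.pl hP) h2⟩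
      rw [g.lay, hPl hQ] at key
      unfold glEnd
      obtain ⟨k1, k2⟩ := key
      simp only [Finset.mem_union, Finset.mem_sdiff] at k1 k2 ⊢
      tauto
  have e3 : (Cb.filter (fun y => rpo102Sv S y ⊆ La ∪ Lc)) ∩ YR = Rib ∩ YR := by
    rw [Finset.disjoint_iff_inter_eq_empty.1 (Finset.disjoint_left.2 fun y h1 h2 => g.cbY y (Finset.mem_filter.1 h1).1 h2),
      Finset.disjoint_iff_inter_eq_empty.1 (Finset.disjoint_left.2 fun y h1 h2 => (ent210_rib_C g h1).2 h2)]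
  have e4 : (Cb.filter (fun y => rpo102Sv S y ⊆ glEnd La Lc Ld Lb)) ∩ YR =
      ((T.E \ YR).filter (fun y => rpo102Sv T y ⊆ ent210M T h R YR Pl)) ∩ YR := by
    rw [Finset.disjoint_iff_inter_eq_empty.1 (Finset.disjoint_left.2 fun y h1 h2 => g.cbY y (Finset.mem_filter.1 h1).1 h2),
      Finset.disjoint_iff_inter_eq_empty.1 (Finset.disjoint_left.2 fun y h1 h2 =>
        (Finset.mem_sdiff.1 (Finset.mem_filter.1 h1).1).2 h2)]
  have e5 : (∅ : Finset ((ℤ × ℤ) × Bool)) ∩ YR = (h.Cl.filter (fun y => ¬ (y ∈ T.E ∧ rpo102Sv T y ⊆ ent210M T h R YR Pl))) ∩ YR := by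
    rw [Finset.empty_inter, Finset.disjoint_iff_inter_eq_empty.1 (Finset.disjoint_left.2 fun y h1 h2 =>
      (g.obs y h2).2.2 (Finset.mem_filter.1 h1).1)]
  unfold rpo102KR ent210H0 ent210Sea
  simp only [e1, e2, e3, e4, e5]

/-! ## 3. THE ENTRANCE -/

/-- **THE ENTRANCE** (`exit_enter`, G3), order as a hypothesis -/
theorem ent210_main (g : Ent210Geo T S t h R Q YR Cb La Lc Ld Lb Pl Rib) (hord : Ent210Ord T t (ent210Sea T h R YR Pl Rib) h)
    (F : RswCfg → ℝ) (h0 : ∀ ω, 0 ≤ F ω) (hm : ∀ ω ω', T.Le ω ω' → F ω ≤ F ω') (hl : Rpo102Loc R YR F) :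
    S.sum t ((ent210H0 S Cb La Lc Ld Lb).Holds S) F * T.sum t (h.Holds T) (fun _ => 1) ≤
      2 ^ (((ent210P2 S Cb La Lc Ld Lb).card - 1) + ((ent210P1 T h R Q YR Pl Rib).card - 1)) *
        (S.sum t ((ent210H0 S Cb La Lc Ld Lb).Holds S) (fun _ => 1) * T.sum t (h.Holds T) F) := by
  have p := rpo102_two_amb (ent210_split_S g) (ent210_split_T g) g.sv g.sd (ent210_KR g) hl h0
  have o := hord F hm
  have hZ := ent210_sea_feas g
  have hZS : 0 ≤ S.sum t ((ent210H0 S Cb La Lc Ld Lb).Holds S) (fun _ => 1) :=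
    rcy162_sum_nonneg S _ g.t0.le g.t1.le (fun _ => zero_le_one)
  have hz : 0 ≤ T.sum t (h.Holds T) (fun _ => 1) := g.feas.le
  have hc : (0 : ℝ) ≤ 2 ^ (((ent210P2 S Cb La Lc Ld Lb).card - 1) + ((ent210P1 T h R Q YR Pl Rib).card - 1)) := by positivity
  generalize (2 : ℝ) ^ (((ent210P2 S Cb La Lc Ld Lb).card - 1) + ((ent210P1 T h R Q YR Pl Rib).card - 1)) = c at p hc ⊢
  generalize S.sum t ((ent210H0 S Cb La Lc Ld Lb).Holds S) F = n₁ at *
  generalize S.sum t ((ent210H0 S Cb La Lc Ld Lb).Holds S) (fun _ => 1) = z₁ at *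
  generalize T.sum t ((ent210Sea T h R YR Pl Rib).Holds T) (fun _ => 1) = zs at *
  generalize T.sum t ((ent210Sea T h R YR Pl Rib).Holds T) F = ns at *
  generalize T.sum t (h.Holds T) (fun _ => 1) = z at *
  generalize T.sum t (h.Holds T) F = n at *
  have a1 : n₁ * zs * z ≤ c * (z₁ * ns) * z := mul_le_mul_of_nonneg_right p hz
  have a2 : c * z₁ * (ns * z) ≤ c * z₁ * (zs * n) := mul_le_mul_of_nonneg_left o (mul_nonneg hc hZS)
  have a3 : (n₁ * z) * zs ≤ (c * (z₁ * n)) * zs := by nlinarith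
  exact le_of_mul_le_mul_right a3 hZ

/-- the entrance in a system with the order of histories (shape of R291 `dis_order`) -/
theorem ent210_main_of (g : Ent210Geo T S t h R Q YR Cb La Lc Ld Lb Pl Rib)
    (hT : ∀ K₁ K₂ : Rpo102Con, Ent210Legal T K₁ → Ent210Legal T K₂ → Ent210Le K₁ K₂ → Ent210Ord T t K₁ K₂)
    (F : RswCfg → ℝ) (h0 : ∀ ω, 0 ≤ F ω) (hm : ∀ ω ω', T.Le ω ω' → F ω ≤ F ω') (hl : Rpo102Loc R YR F) :
    S.sum t ((ent210H0 S Cb La Lc Ld Lb).Holds S) F * T.sum t (h.Holds T) (fun _ => 1) ≤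
      2 ^ (((ent210P2 S Cb La Lc Ld Lb).card - 1) + ((ent210P1 T h R Q YR Pl Rib).card - 1)) *
        (S.sum t ((ent210H0 S Cb La Lc Ld Lb).Holds S) (fun _ => 1) * T.sum t (h.Holds T) F) :=
  ent210_main g (hT _ _ (ent210_sea_legal g) g.legal (ent210_sea_le g)) F h0 hm hl

/-- the conditional order above the pins of `K` (shape of R291 `LseOrd`: mixed cylinder) -/
def Ent210OrdK (T : Rcy162Sys) (t : ℝ) (K : Rpo102Con) : Prop :=
  ∀ K₁ K₂ : Rpo102Con, Ent210Legal T K₁ → Ent210Legal T K₂ → K.Sp ⊆ K₁.Sp → K.Sm ⊆ K₁.Sm → K.Sp ⊆ K₂.Sp → K.Sm ⊆ K₂.Sm →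
    Ent210Le K₁ K₂ → Ent210Ord T t K₁ K₂

/-- the entrance in a system with the conditional order `Ent210OrdK T t K`: the pins of `K` are kept -/
theorem ent210_main_ord (g : Ent210Geo T S t h R Q YR Cb La Lc Ld Lb Pl Rib) (K : Rpo102Con) (hT : Ent210OrdK T t K)
    (hKp : K.Sp ⊆ Pl) (hKm : K.Sm ⊆ h.Sm)
    (F : RswCfg → ℝ) (h0 : ∀ ω, 0 ≤ F ω) (hm : ∀ ω ω', T.Le ω ω' → F ω ≤ F ω') (hl : Rpo102Loc R YR F) :
    S.sum t ((ent210H0 S Cb La Lc Ld Lb).Holds S) F * T.sum t (h.Holds T) (fun _ => 1) ≤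
      2 ^ (((ent210P2 S Cb La Lc Ld Lb).card - 1) + ((ent210P1 T h R Q YR Pl Rib).card - 1)) *
        (S.sum t ((ent210H0 S Cb La Lc Ld Lb).Holds S) (fun _ => 1) * T.sum t (h.Holds T) F) :=
  ent210_main g (hT _ _ (ent210_sea_legal g) g.legal hKp (fun v hv => ent210_mem_M.2 (Or.inr (hKm hv)))
    (hKp.trans g.pl) hKm (ent210_sea_le g)) F h0 hm hl

/-- normalised form of the entrance -/
theorem ent210_main_E (g : Ent210Geo T S t h R Q YR Cb La Lc Ld Lb Pl Rib) (hord : Ent210Ord T t (ent210Sea T h R YR Pl Rib) h)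
    (hZS : 0 < S.sum t ((ent210H0 S Cb La Lc Ld Lb).Holds S) (fun _ => 1))
    (F : RswCfg → ℝ) (h0 : ∀ ω, 0 ≤ F ω) (hm : ∀ ω ω', T.Le ω ω' → F ω ≤ F ω') (hl : Rpo102Loc R YR F) :
    S.Ex t ((ent210H0 S Cb La Lc Ld Lb).Holds S) F ≤
      2 ^ (((ent210P2 S Cb La Lc Ld Lb).card - 1) + ((ent210P1 T h R Q YR Pl Rib).card - 1)) * T.Ex t (h.Holds T) F := by
  have m := ent210_main g hord F h0 hm hl
  unfold Rcy162Sys.Ex
  rw [div_le_iff₀ hZS, mul_assoc, div_mul_eq_mul_div, mul_div_assoc', le_div_iff₀ g.feas]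
  calc _ ≤ _ := m
    _ = _ := by ring

/-! ## 4. the event of the glue machine -/

/-- the graph of the edge pairs: two distinct edge pairs which share an ENDPOINT (good edges are joined through primal vertices) -/
def ent210Cg (S : Rcy162Sys) : SimpleGraph ((ℤ × ℤ) × Bool) where
  Adj y y' := y ≠ y' ∧ ∃ v, v ∈ rpo102Sv S y ∧ v ∈ rpo102Sv S y'
  symm := ⟨fun _ _ h => ⟨h.1.symm, by obtain ⟨v, h1, h2⟩ := h.2; exact ⟨v, h2, h1⟩⟩⟩
  loopless := ⟨fun _ h => h.1 rfl⟩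

/-- a path of edge pairs inside `Z` from an edge pair which touches `A` to an edge pair which touches `C` -/
def Ent210Join (S : Rcy162Sys) (Z : Set ((ℤ × ℤ) × Bool)) (A C : Finset (ℤ × ℤ)) : Prop :=
  ∃ y y', y ∈ Z ∧ y' ∈ Z ∧ (∃ a ∈ A, a ∈ rpo102Sv S y) ∧ (∃ c ∈ C, c ∈ rpo102Sv S y') ∧ TscR (ent210Cg S) Z y y'

/-- the good-plus edge pairs -/
def ent210On (S : Rcy162Sys) (ω : RswCfg) : Set ((ℤ × ℤ) × Bool) := {y | y ∈ S.E ∧ S.Good true ω y}

open Classical in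
/-- indicator (the one of `Rcy162Sys.Pr`) -/
noncomputable def ent210Ind (L : RswCfg → Prop) (ω : RswCfg) : ℝ := if L ω then 1 else 0

theorem ent210_event_eqns_cite : True := by
  have := @Ent210OrdK.eq_1
  have := @ent210Cg.eq_1
  have := @Ent210Join.eq_1
  have := @ent210On.eq_1
  have := @ent210Ind.eq_1
  trivial

theorem ent210_ind_nonneg (L : RswCfg → Prop) (ω : RswCfg) : 0 ≤ ent210Ind L ω := by
  unfold ent210Ind; split_ifs <;> norm_num

theorem ent210_ind_pos {L : RswCfg → Prop} {ω : RswCfg} (h : L ω) : ent210Ind L ω = 1 := by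
  unfold ent210Ind; rw [if_pos h]

theorem ent210_ind_neg {L : RswCfg → Prop} {ω : RswCfg} (h : ¬ L ω) : ent210Ind L ω = 0 := by
  unfold ent210Ind; rw [if_neg h]

theorem ent210_ind_mono (U : Rcy162Sys) {L : RswCfg → Prop} (h : ∀ ω ω', U.Le ω ω' → L ω → L ω') :
    ∀ ω ω', U.Le ω ω' → ent210Ind L ω ≤ ent210Ind L ω' := by
  intro ω ω' h1
  by_cases hL : L ω
  · rw [ent210_ind_pos hL, ent210_ind_pos (h ω ω' h1 hL)]
  · rw [ent210_ind_neg hL]; exact ent210_ind_nonneg _ _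

theorem ent210_Pr_eq (U : Rcy162Sys) (t : ℝ) (K L : RswCfg → Prop) :
    U.Pr t K L = U.sum t K (ent210Ind L) / U.sum t K (fun _ => 1) := rfl

/-- the status of a retained edge pair is the same in the two systems -/
theorem ent210_good (g : Ent210Geo T S t h R Q YR Cb La Lc Ld Lb Pl Rib) {y : (ℤ × ℤ) × Bool} (hy : y ∈ YR) (ω : RswCfg) :
    S.Good true ω y ↔ T.Good true ω y := by
  rw [rpo102_good_true, rpo102_good_true, g.sv y hy]

theorem ent210_on (g : Ent210Geo T S t h R Q YR Cb La Lc Ld Lb Pl Rib) {Kc : Finset ((ℤ × ℤ) × Bool)} (hKc : Kc ⊆ YR) (ω : RswCfg) :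
    (↑Kc ∩ ent210On S ω : Set ((ℤ × ℤ) × Bool)) = ↑Kc ∩ ent210On T ω := by
  ext y
  constructor
  · rintro ⟨h1, _, h3⟩
    exact ⟨h1, g.YT (hKc h1), (ent210_good g (hKc h1) ω).1 h3⟩
  · rintro ⟨h1, _, h3⟩
    exact ⟨h1, g.YS (hKc h1), (ent210_good g (hKc h1) ω).2 h3⟩

/-- a path of retained edge pairs is the same in the two systems -/
theorem ent210_joinC (g : Ent210Geo T S t h R Q YR Cb La Lc Ld Lb Pl Rib) {Z : Set ((ℤ × ℤ) × Bool)} (hZ : ∀ y ∈ Z, y ∈ YR)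
    (A C : Finset (ℤ × ℤ)) : Ent210Join S Z A C ↔ Ent210Join T Z A C := by
  have hR : ∀ y y', TscR (ent210Cg S) Z y y' ↔ TscR (ent210Cg T) Z y y' := by
    intro y y'
    constructor
    · intro hp
      induction hp with
      | refl => exact ReflTransGen.refl
      | @tail b c _ hbc ih =>
        refine ih.tail ⟨⟨hbc.1.1, ?_⟩, hbc.2.1, hbc.2.2⟩
        obtain ⟨v, h1, h2⟩ := hbc.1.2
        exact ⟨v, by rw [← g.sv b (hZ b hbc.2.1)]; exact h1, by rw [← g.sv c (hZ c hbc.2.2)]; exact h2⟩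
    · intro hp
      induction hp with
      | refl => exact ReflTransGen.refl
      | @tail b c _ hbc ih =>
        refine ih.tail ⟨⟨hbc.1.1, ?_⟩, hbc.2.1, hbc.2.2⟩
        obtain ⟨v, h1, h2⟩ := hbc.1.2
        exact ⟨v, by rw [g.sv b (hZ b hbc.2.1)]; exact h1, by rw [g.sv c (hZ c hbc.2.2)]; exact h2⟩
  unfold Ent210Join
  constructor
  · rintro ⟨y, y', h1, h2, ⟨a, ha, h3⟩, ⟨c, hc, h4⟩, h5⟩
    exact ⟨y, y', h1, h2, ⟨a, ha, by rw [← g.sv y (hZ y h1)]; exact h3⟩, ⟨c, hc, by rw [← g.sv y' (hZ y' h2)]; exact h4⟩, (hR y y').1 h5⟩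
  · rintro ⟨y, y', h1, h2, ⟨a, ha, h3⟩, ⟨c, hc, h4⟩, h5⟩
    exact ⟨y, y', h1, h2, ⟨a, ha, by rw [g.sv y (hZ y h1)]; exact h3⟩, ⟨c, hc, by rw [g.sv y' (hZ y' h2)]; exact h4⟩, (hR y y').2 h5⟩

/-- the event of the glue machine, read in the strip system and in the ambient -/
theorem ent210_event (g : Ent210Geo T S t h R Q YR Cb La Lc Ld Lb Pl Rib) {Kc : Finset ((ℤ × ℤ) × Bool)} (hKc : Kc ⊆ YR) (ω : RswCfg) :
    Ent210Join S (↑Kc ∩ ent210On S ω) La Lc ↔ Ent210Join T (↑Kc ∩ ent210On T ω) La Lc := by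
  rw [ent210_on g hKc]
  exact ent210_joinC g (fun y hy => hKc (Finset.mem_coe.1 hy.1)) La Lc

theorem ent210_joinC_mono {U : Rcy162Sys} {Z Z' : Set ((ℤ × ℤ) × Bool)} {A C : Finset (ℤ × ℤ)} (hZ : Z ⊆ Z') (hj : Ent210Join U Z A C) :
    Ent210Join U Z' A C := by
  obtain ⟨y, y', h1, h2, h3, h4, h5⟩ := hj
  exact ⟨y, y', hZ h1, hZ h2, h3, h4, tsc_R_mono hZ h5⟩

/-- the event is increasing -/
theorem ent210_event_mono (U : Rcy162Sys) (Kc : Finset ((ℤ × ℤ) × Bool)) (A C : Finset (ℤ × ℤ)) :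
    ∀ ω ω', U.Le ω ω' → Ent210Join U (↑Kc ∩ ent210On U ω) A C → Ent210Join U (↑Kc ∩ ent210On U ω') A C := by
  intro ω ω' hle hj
  exact ent210_joinC_mono (fun y hy => ⟨hy.1, hy.2.1, hle.2.1 y hy.2.2⟩) hj

/-- the event reads the retained part only -/
theorem ent210_event_loc (g : Ent210Geo T S t h R Q YR Cb La Lc Ld Lb Pl Rib) {Kc : Finset ((ℤ × ℤ) × Bool)} (hKc : Kc ⊆ YR) :
    Rpo102Loc R YR (ent210Ind (fun ω => Ent210Join T (↑Kc ∩ ent210On T ω) La Lc)) := by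
  intro ω ω' h1 h2
  have e : (↑Kc ∩ ent210On T ω : Set ((ℤ × ℤ) × Bool)) = ↑Kc ∩ ent210On T ω' := by
    ext y
    constructor
    · rintro ⟨a1, a2, a3⟩
      exact ⟨a1, a2, (rpo102_good_loc g.cellR h1 h2 (hKc a1) true).1 a3⟩
    · rintro ⟨a1, a2, a3⟩
      exact ⟨a1, a2, (rpo102_good_loc g.cellR h1 h2 (hKc a1) true).2 a3⟩
  by_cases hj : Ent210Join T (↑Kc ∩ ent210On T ω) La Lc
  · rw [ent210_ind_pos hj, ent210_ind_pos (L := fun ω => Ent210Join T (↑Kc ∩ ent210On T ω) La Lc) (by rw [← e]; exact hj)]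
  · rw [ent210_ind_neg hj, ent210_ind_neg (L := fun ω => Ent210Join T (↑Kc ∩ ent210On T ω) La Lc) (by rw [← e]; exact hj)]

/-- the strip law is feasible -/
theorem ent210_H0_feas (g : Ent210Geo T S t h R Q YR Cb La Lc Ld Lb Pl Rib) :
    0 < S.sum t ((ent210H0 S Cb La Lc Ld Lb).Holds S) (fun _ => 1) := by
  refine ent210_feas S g.t0 g.t1 _ ⟨?_, ?_, ?_, ?_, ?_, ?_, ?_, ?_, ?_⟩
  · intro v hv
    rw [g.SV]
    refine ent210_sides_R g ?_
    have hv' : v ∈ La ∪ Lc := hv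
    simp only [Finset.mem_union] at hv' ⊢
    tauto
  · exact Finset.disjoint_sdiff
  · exact fun y hy => g.cbC (Finset.mem_filter.1 hy).1
  · exact fun y hy => g.cbC (Finset.mem_filter.1 hy).1
  · exact fun y hy => (Finset.mem_filter.1 hy).2
  · exact fun y hy => (Finset.mem_filter.1 hy).2
  · refine Finset.disjoint_left.2 fun y h1 h2 => ?_
    obtain ⟨a1, a2⟩ := Finset.mem_filter.1 h1
    exact (Finset.mem_sdiff.1 ((Finset.mem_filter.1 h2).2 (ent210_p0_mem S y))).2 (a2 (ent210_p0_mem S y))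
  · exact Finset.disjoint_empty_right _
  · exact Finset.disjoint_empty_right _

/-- **THE ENTRANCE FOR THE EVENT OF THE GLUE MACHINE**: if `La` and `Lc` are joined by good-plus edge pairs of `Kc` with probability `≥ c` under the strip law, the same holds in the ambient given the record, with `c / 2 ^ k` -/
theorem ent210_join (g : Ent210Geo T S t h R Q YR Cb La Lc Ld Lb Pl Rib) (hord : Ent210Ord T t (ent210Sea T h R YR Pl Rib) h)
    {Kc : Finset ((ℤ × ℤ) × Bool)} (hKc : Kc ⊆ YR) {c : ℝ}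
    (hc : c * S.sum t ((ent210H0 S Cb La Lc Ld Lb).Holds S) (fun _ => 1) ≤
      S.sum t ((ent210H0 S Cb La Lc Ld Lb).Holds S) (ent210Ind (fun ω => Ent210Join S (↑Kc ∩ ent210On S ω) La Lc))) :
    c * T.sum t (h.Holds T) (fun _ => 1) ≤ 2 ^ (((ent210P2 S Cb La Lc Ld Lb).card - 1) + ((ent210P1 T h R Q YR Pl Rib).card - 1)) *
      T.sum t (h.Holds T) (ent210Ind (fun ω => Ent210Join T (↑Kc ∩ ent210On T ω) La Lc)) := by
  have e : (ent210Ind (fun ω => Ent210Join S (↑Kc ∩ ent210On S ω) La Lc)) = ent210Ind (fun ω => Ent210Join T (↑Kc ∩ ent210On T ω) La Lc) := by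
    funext ω
    by_cases hj : Ent210Join S (↑Kc ∩ ent210On S ω) La Lc
    · rw [ent210_ind_pos hj, ent210_ind_pos (L := fun ω => Ent210Join T (↑Kc ∩ ent210On T ω) La Lc) ((ent210_event g hKc ω).1 hj)]
    · rw [ent210_ind_neg hj, ent210_ind_neg (L := fun ω => Ent210Join T (↑Kc ∩ ent210On T ω) La Lc) (fun h' => hj ((ent210_event g hKc ω).2 h'))]
  rw [e] at hc
  have hZS := ent210_H0_feas g
  have m := ent210_main g hord _ (ent210_ind_nonneg _) (ent210_ind_mono T (ent210_event_mono T Kc La Lc)) (ent210_event_loc g hKc)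
  have hz : 0 ≤ T.sum t (h.Holds T) (fun _ => 1) := g.feas.le
  generalize (2 : ℝ) ^ (((ent210P2 S Cb La Lc Ld Lb).card - 1) + ((ent210P1 T h R Q YR Pl Rib).card - 1)) = k at m ⊢
  generalize S.sum t ((ent210H0 S Cb La Lc Ld Lb).Holds S) (ent210Ind (fun ω => Ent210Join T (↑Kc ∩ ent210On T ω) La Lc)) = n₁ at *
  generalize S.sum t ((ent210H0 S Cb La Lc Ld Lb).Holds S) (fun _ => 1) = z₁ at *
  generalize T.sum t (h.Holds T) (fun _ => 1) = z at *
  generalize T.sum t (h.Holds T) (ent210Ind (fun ω => Ent210Join T (↑Kc ∩ ent210On T ω) La Lc)) = n at *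
  have a1 : c * z₁ * z ≤ n₁ * z := mul_le_mul_of_nonneg_right hc hz
  have a2 : (c * z) * z₁ ≤ (k * n) * z₁ := by nlinarith
  exact le_of_mul_le_mul_right a2 hZS

/-- the same with probabilities -/
theorem ent210_join_P (g : Ent210Geo T S t h R Q YR Cb La Lc Ld Lb Pl Rib) (hord : Ent210Ord T t (ent210Sea T h R YR Pl Rib) h)
    {Kc : Finset ((ℤ × ℤ) × Bool)} (hKc : Kc ⊆ YR) {c : ℝ}
    (hc : c ≤ S.Pr t ((ent210H0 S Cb La Lc Ld Lb).Holds S) (fun ω => Ent210Join S (↑Kc ∩ ent210On S ω) La Lc)) :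
    c ≤ 2 ^ (((ent210P2 S Cb La Lc Ld Lb).card - 1) + ((ent210P1 T h R Q YR Pl Rib).card - 1)) *
      T.Pr t (h.Holds T) (fun ω => Ent210Join T (↑Kc ∩ ent210On T ω) La Lc) := by
  rw [ent210_Pr_eq] at hc ⊢
  rw [le_div_iff₀ (ent210_H0_feas g)] at hc
  rw [mul_div_assoc', le_div_iff₀ g.feas]
  exact ent210_join g hord hKc hc

/-! ## 5. the closed system cut out of an ambient: the retained system of 102 -/

/-- **what the entrance needs to know about the record** when the strip system is `rpo102SR T R Q YR` (no boundary edge pairs) -/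
structure Ent210Rec (T : Rcy162Sys) (t : ℝ) (h : Rpo102Con) (R Q : Finset (ℤ × ℤ)) (YR : Finset ((ℤ × ℤ) × Bool))
    (La Lc Ld Lb Pl : Finset (ℤ × ℤ)) (Rib : Finset ((ℤ × ℤ) × Bool)) : Prop where
  t0 : 0 < t
  t1 : t < 1
  okT : T.WF
  legal : Ent210Legal T h
  feas : 0 < T.sum t (h.Holds T) (fun _ => 1)
  RA : R ⊆ T.V
  QA : Q ⊆ T.Fc
  YT : YR ⊆ T.E
  cellR : ∀ y ∈ YR, rpo102Sv T y ⊆ R
  cellQ : ∀ y ∈ YR, rpo102Sd T y ⊆ Q
  /-- what is kept of the record -/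
  pl : Pl ⊆ h.Sp
  rib : Rib ⊆ h.Gp
  ribS : ∀ y ∈ Rib, rpo102Sv T y ⊆ Pl
  /-- the record knows nothing inside -/
  bm : ∀ v ∈ h.Sm, v ∈ R → v ∈ ent210Lay T R YR
  obs : ∀ y ∈ YR, y ∉ h.Gp ∧ y ∉ h.Gm ∧ y ∉ h.Cl
  eq : ∀ e ∈ h.Eq, e.1 ∉ Q ∧ e.2 ∉ Q
  /-- the four sides -/
  plR : Pl ∩ R = La ∪ Lc
  lay : ent210Lay T R YR = La ∪ Lc ∪ Ld ∪ Lb

theorem ent210_f0_mem (T : Rcy162Sys) (y : (ℤ × ℤ) × Bool) : T.f0 y ∈ rpo102Sd T y := by
  unfold rpo102Sd
  exact Finset.mem_insert_self _ _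

theorem ent210_f1_mem (T : Rcy162Sys) (y : (ℤ × ℤ) × Bool) : T.f1 y ∈ rpo102Sd T y := by
  unfold rpo102Sd
  exact Finset.mem_insert_of_mem (Finset.mem_singleton_self _)

/-- the structural fields of `Ent210Geo` are automatic for the retained system -/
theorem ent210_geo_SR (r : Ent210Rec T t h R Q YR La Lc Ld Lb Pl Rib) :
    Ent210Geo T (rpo102SR T R Q YR) t h R Q YR ∅ La Lc Ld Lb Pl Rib where
  t0 := r.t0
  t1 := r.t1
  okT := r.okT
  okS := ⟨fun e he => r.cellR e he (ent210_p0_mem T e), fun e he => r.cellR e he (ent210_p1_mem T e),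
    fun e he => r.cellQ e he (ent210_f0_mem T e), fun e he => r.cellQ e he (ent210_f1_mem T e)⟩
  legal := r.legal
  feas := r.feas
  RA := r.RA
  QA := r.QA
  SV := rfl
  SF := rfl
  YT := r.YT
  YS := Finset.Subset.refl _
  cb := fun y hy hyR => absurd hy hyR
  cbC := Finset.empty_subset _
  cbY := fun y hy => absurd hy (Finset.notMem_empty _)
  cellR := r.cellR
  cellQ := r.cellQ
  sv := fun _ _ => rfl
  sd := fun _ _ => rfl
  pl := r.pl
  rib := r.rib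
  ribS := r.ribS
  bm := r.bm
  obs := r.obs
  eq := r.eq
  plR := r.plR
  lay := r.lay
  cbL := fun y hy => absurd hy (Finset.notMem_empty _)

/-- the ports of the ambient: a face of `Q` at a non retained edge pair which is not kept and has a kept plus pin as an endpoint -/
theorem ent210_mem_P1 (g : Ent210Geo T S t h R Q YR Cb La Lc Ld Lb Pl Rib) {v : ℤ × ℤ} :
    v ∈ ent210P1 T h R Q YR Pl Rib ↔ v ∈ Q ∧ ∃ y ∈ T.E, y ∉ YR ∧ y ∉ Rib ∧ v ∈ rpo102Sd T y ∧ ∃ u ∈ rpo102Sv T y, u ∈ Pl := by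
  unfold ent210P1
  simp only [Finset.mem_biUnion, Finset.mem_filter, Finset.mem_sdiff, Finset.mem_inter]
  constructor
  · rintro ⟨y, ⟨⟨a1, a2⟩, a3, a4⟩, a5, a6⟩
    refine ⟨a6, y, a1, a2, a3, a5, ?_⟩
    by_contra hc
    push Not at hc
    exact a4 fun u hu => (ent210_cell_pin g.okT a1 a2 hu).resolve_left (hc u hu)
  · rintro ⟨a6, y, a1, a2, a3, a5, u, hu, hP⟩
    exact ⟨y, ⟨⟨a1, a2⟩, a3, fun hc => Finset.disjoint_left.1 (ent210_pl_M g) hP (hc hu)⟩, a5, a6⟩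

/-- without boundary edge pairs the strip system has no port -/
theorem ent210_P2_empty (S : Rcy162Sys) (La Lc Ld Lb : Finset (ℤ × ℤ)) : ent210P2 S ∅ La Lc Ld Lb = ∅ := by
  unfold ent210P2
  rw [Finset.filter_empty, Finset.biUnion_empty]

/-- **THE ENTRANCE, RETAINED SYSTEM**: only the ports of the ambient are paid -/
theorem ent210_join_SR (r : Ent210Rec T t h R Q YR La Lc Ld Lb Pl Rib) (hord : Ent210Ord T t (ent210Sea T h R YR Pl Rib) h)
    {Kc : Finset ((ℤ × ℤ) × Bool)} (hKc : Kc ⊆ YR) {c : ℝ}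
    (hc : c ≤ (rpo102SR T R Q YR).Pr t ((ent210H0 (rpo102SR T R Q YR) ∅ La Lc Ld Lb).Holds (rpo102SR T R Q YR))
      (fun ω => Ent210Join (rpo102SR T R Q YR) (↑Kc ∩ ent210On (rpo102SR T R Q YR) ω) La Lc)) :
    c ≤ 2 ^ ((ent210P1 T h R Q YR Pl Rib).card - 1) * T.Pr t (h.Holds T) (fun ω => Ent210Join T (↑Kc ∩ ent210On T ω) La Lc) := by
  have := ent210_join_P (ent210_geo_SR r) hord hKc hc
  rwa [ent210_P2_empty, Finset.card_empty, Nat.zero_sub, Nat.zero_add] at this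

/-! ## 6. transport of the strip law along an isomorphism -/

section iso

variable {S₀ : Rcy162Sys} {gV gF : ℤ × ℤ → ℤ × ℤ} {gE : (ℤ × ℤ) × Bool → (ℤ × ℤ) × Bool}
  {Cb₀ : Finset ((ℤ × ℤ) × Bool)} {La₀ Lc₀ Ld₀ Lb₀ : Finset (ℤ × ℤ)}

theorem ent210_image_sub {α : Type} [DecidableEq α] {g : α → α} {A B s : Finset α} (hi : Set.InjOn g A) (hB : B ⊆ A) (hs : s ⊆ A) :
    s.image g ⊆ B.image g ↔ s ⊆ B :=
  ⟨fun h v hv => (rcy162_mem_image_iff hi hB (hs hv)).1 (h (Finset.mem_image_of_mem g hv)), Finset.image_subset_image⟩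

/-- the endpoints are transported -/
theorem ent210_iso_sv (i : Rcy162Hom S₀ S gV gF gE) {y : (ℤ × ℤ) × Bool} (hy : y ∈ S₀.E) :
    rpo102Sv S (gE y) = (rpo102Sv S₀ y).image gV := by
  unfold rpo102Sv
  rw [Finset.image_insert, Finset.image_singleton]
  rcases i.pp y hy with ⟨a, b⟩ | ⟨a, b⟩
  · rw [a, b]
  · rw [a, b, Finset.pair_comm]

/-- the faces are transported -/
theorem ent210_iso_sd (i : Rcy162Hom S₀ S gV gF gE) {y : (ℤ × ℤ) × Bool} (hy : y ∈ S₀.E) :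
    rpo102Sd S (gE y) = (rpo102Sd S₀ y).image gF := by
  unfold rpo102Sd
  rw [Finset.image_insert, Finset.image_singleton]
  rcases i.ff y hy with ⟨a, b⟩ | ⟨a, b⟩
  · rw [a, b]
  · rw [a, b, Finset.pair_comm]

theorem ent210_iso_end (i : Rcy162Hom S₀ S gV gF gE) (hLa : La₀ ⊆ S₀.V) (hLc : Lc₀ ⊆ S₀.V) (hLd : Ld₀ ⊆ S₀.V) (hLb : Lb₀ ⊆ S₀.V) :
    glEnd (La₀.image gV) (Lc₀.image gV) (Ld₀.image gV) (Lb₀.image gV) = (glEnd La₀ Lc₀ Ld₀ Lb₀).image gV := by
  unfold glEnd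
  rw [← Finset.image_union, ← Finset.image_union]
  ext v'
  simp only [Finset.mem_sdiff, Finset.mem_image]
  constructor
  · rintro ⟨⟨v, hv, rfl⟩, h2⟩
    exact ⟨v, ⟨hv, fun hc => h2 ⟨v, hc, rfl⟩⟩, rfl⟩
  · rintro ⟨v, ⟨hv, h2⟩, rfl⟩
    refine ⟨⟨v, hv, rfl⟩, fun hc => h2 ?_⟩
    exact (rcy162_mem_image_iff i.injV (Finset.union_subset hLa hLc) (Finset.union_subset hLd hLb hv)).1 (Finset.mem_image.2 hc)

/-- the history of the strip law, spelled out -/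
theorem ent210_H0_holds (S : Rcy162Sys) (Cb : Finset ((ℤ × ℤ) × Bool)) (La Lc Ld Lb : Finset (ℤ × ℤ)) (ω : RswCfg) :
    (ent210H0 S Cb La Lc Ld Lb).Holds S ω ↔
      La ∪ Lc ⊆ ω.S ∧ (∀ v ∈ glEnd La Lc Ld Lb, v ∉ ω.S) ∧ (∀ e ∈ Cb, rpo102Sv S e ⊆ La ∪ Lc → S.Good true ω e) ∧
        ∀ e ∈ Cb, rpo102Sv S e ⊆ glEnd La Lc Ld Lb → S.Good false ω e := by
  constructor
  · rintro ⟨h1, h2, _, h4, h5, _⟩
    exact ⟨h1, h2, fun e he hs => h4 e (Finset.mem_filter.2 ⟨he, hs⟩), fun e he hs => h5 e (Finset.mem_filter.2 ⟨he, hs⟩)⟩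
  · rintro ⟨h1, h2, h4, h5⟩
    exact ⟨h1, h2, fun e he => absurd he (Finset.notMem_empty _),
      fun e he => h4 e (Finset.mem_filter.1 he).1 (Finset.mem_filter.1 he).2,
      fun e he => h5 e (Finset.mem_filter.1 he).1 (Finset.mem_filter.1 he).2, fun e he => absurd he (Finset.notMem_empty _)⟩

/-- the history of the strip law is transported -/
theorem ent210_iso_holds (i : Rcy162Hom S₀ S gV gF gE) (ok₀ : S₀.WF) (hCb : Cb₀ ⊆ S₀.E)
    (hLa : La₀ ⊆ S₀.V) (hLc : Lc₀ ⊆ S₀.V) (hLd : Ld₀ ⊆ S₀.V) (hLb : Lb₀ ⊆ S₀.V) {ω : RswCfg} (hω : S₀.Cfg ω) :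
    (ent210H0 S (Cb₀.image gE) (La₀.image gV) (Lc₀.image gV) (Ld₀.image gV) (Lb₀.image gV)).Holds S (rcy162Map gV gF gE ω) ↔
      (ent210H0 S₀ Cb₀ La₀ Lc₀ Ld₀ Lb₀).Holds S₀ ω := by
  have hE : glEnd La₀ Lc₀ Ld₀ Lb₀ ⊆ S₀.V := Finset.sdiff_subset.trans (Finset.union_subset hLd hLb)
  have hAC : La₀ ∪ Lc₀ ⊆ S₀.V := Finset.union_subset hLa hLc
  rw [ent210_H0_holds, ent210_H0_holds, ent210_iso_end i hLa hLc hLd hLb, ← Finset.image_union]
  refine and_congr ?_ (and_congr ?_ (and_congr ?_ ?_))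
  · constructor
    · intro h1 v hv
      exact (rcy162_hom_S i hω (hAC hv)).1 (h1 (Finset.mem_image_of_mem gV hv))
    · intro h1 v' hv'
      obtain ⟨v, hv, rfl⟩ := Finset.mem_image.1 hv'
      exact (rcy162_hom_S i hω (hAC hv)).2 (h1 hv)
  · constructor
    · intro h1 v hv hvB
      exact h1 (gV v) (Finset.mem_image_of_mem gV hv) ((rcy162_hom_S i hω (hE hv)).2 hvB)
    · intro h1 v' hv'
      obtain ⟨v, hv, rfl⟩ := Finset.mem_image.1 hv'
      exact fun hc => h1 v hv ((rcy162_hom_S i hω (hE hv)).1 hc)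
  · constructor
    · intro h1 y hy hs
      rw [← rcy162_hom_good i ok₀ true hω (hCb hy)]
      refine h1 (gE y) (Finset.mem_image_of_mem gE hy) ?_
      rw [ent210_iso_sv i (hCb hy)]
      exact Finset.image_subset_image hs
    · intro h1 y' hy' hs
      obtain ⟨y, hy, rfl⟩ := Finset.mem_image.1 hy'
      rw [rcy162_hom_good i ok₀ true hω (hCb hy)]
      refine h1 y hy ?_
      rw [ent210_iso_sv i (hCb hy)] at hs
      exact (ent210_image_sub i.injV hAC (ent210_sv_sub ok₀ (hCb hy))).1 hs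
  · constructor
    · intro h1 y hy hs
      rw [← rcy162_hom_good i ok₀ false hω (hCb hy)]
      refine h1 (gE y) (Finset.mem_image_of_mem gE hy) ?_
      rw [ent210_iso_sv i (hCb hy)]
      exact Finset.image_subset_image hs
    · intro h1 y' hy' hs
      obtain ⟨y, hy, rfl⟩ := Finset.mem_image.1 hy'
      rw [rcy162_hom_good i ok₀ false hω (hCb hy)]
      refine h1 y hy ?_
      rw [ent210_iso_sv i (hCb hy)] at hs
      exact (ent210_image_sub i.injV hE (ent210_sv_sub ok₀ (hCb hy))).1 hs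

/-- **the strip law is transported by an isomorphism** -/
theorem ent210_iso_N (i : Rcy162Hom S₀ S gV gF gE) (ok₀ : S₀.WF) (hCb : Cb₀ ⊆ S₀.E)
    (hLa : La₀ ⊆ S₀.V) (hLc : Lc₀ ⊆ S₀.V) (hLd : Ld₀ ⊆ S₀.V) (hLb : Lb₀ ⊆ S₀.V) (F : RswCfg → ℝ) :
    S.sum t ((ent210H0 S (Cb₀.image gE) (La₀.image gV) (Lc₀.image gV) (Ld₀.image gV) (Lb₀.image gV)).Holds S) F =
      S₀.sum t ((ent210H0 S₀ Cb₀ La₀ Lc₀ Ld₀ Lb₀).Holds S₀) (fun ω => F (rcy162Map gV gF gE ω)) := by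
  rw [rcy162_hom_sum i ok₀]
  exact rcy162_sum_congr_K S₀ t (fun ω hω => ent210_iso_holds i ok₀ hCb hLa hLc hLd hLb hω) _

/-- the event of the glue machine is transported -/
theorem ent210_iso_event (i : Rcy162Hom S₀ S gV gF gE) (ok₀ : S₀.WF) (Kc₀ : Finset ((ℤ × ℤ) × Bool)) {ω : RswCfg} (hω : S₀.Cfg ω)
    (hj : Ent210Join S₀ (↑Kc₀ ∩ ent210On S₀ ω) La₀ Lc₀) :
    Ent210Join S (↑(Kc₀.image gE) ∩ ent210On S (rcy162Map gV gF gE ω)) (La₀.image gV) (Lc₀.image gV) := by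
  have hm : ∀ y, y ∈ (↑Kc₀ ∩ ent210On S₀ ω : Set ((ℤ × ℤ) × Bool)) →
      gE y ∈ (↑(Kc₀.image gE) ∩ ent210On S (rcy162Map gV gF gE ω) : Set ((ℤ × ℤ) × Bool)) := by
    rintro y ⟨h1, h2, h3⟩
    refine ⟨Finset.mem_coe.2 (Finset.mem_image_of_mem gE (Finset.mem_coe.1 h1)), ?_, ?_⟩
    · rw [← i.imE]
      exact Finset.mem_image_of_mem gE h2
    · exact (rcy162_hom_good i ok₀ true hω h2).2 h3
  obtain ⟨y, y', h1, h2, ⟨a, ha, h3⟩, ⟨c, hc, h4⟩, h5⟩ := hj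
  refine ⟨gE y, gE y', hm y h1, hm y' h2, ⟨gV a, Finset.mem_image_of_mem gV ha, ?_⟩, ⟨gV c, Finset.mem_image_of_mem gV hc, ?_⟩, ?_⟩
  · rw [ent210_iso_sv i h1.2.1]
    exact Finset.mem_image_of_mem gV h3
  · rw [ent210_iso_sv i h2.2.1]
    exact Finset.mem_image_of_mem gV h4
  · clear h2 h4
    induction h5 with
    | refl => exact ReflTransGen.refl
    | @tail b d _ hbd ih =>
      refine ih.tail ⟨⟨?_, ?_⟩, hm b hbd.2.1, hm d hbd.2.2⟩
      · exact fun e => hbd.1.1 (i.injE (Finset.mem_coe.2 hbd.2.1.2.1) (Finset.mem_coe.2 hbd.2.2.2.1) e)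
      · obtain ⟨v, b1, b2⟩ := hbd.1.2
        refine ⟨gV v, ?_, ?_⟩
        · rw [ent210_iso_sv i hbd.2.1.2.1]
          exact Finset.mem_image_of_mem gV b1
        · rw [ent210_iso_sv i hbd.2.2.2.1]
          exact Finset.mem_image_of_mem gV b2

/-- **THE ENTRANCE, FROM A REFERENCE STRIP**: `S₀` (e.g. a planar `rcy162Pl F`) is isomorphic to the closed strip system `S` of the ambient `T`; a bound for the event of the glue machine under the strip law of `S₀`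
passes to the ambient given the record -/
theorem ent210_join_iso (i : Rcy162Hom S₀ S gV gF gE) (ok₀ : S₀.WF) (hCb : Cb₀ ⊆ S₀.E)
    (hLa : La₀ ⊆ S₀.V) (hLc : Lc₀ ⊆ S₀.V) (hLd : Ld₀ ⊆ S₀.V) (hLb : Lb₀ ⊆ S₀.V)
    (g : Ent210Geo T S t h R Q YR (Cb₀.image gE) (La₀.image gV) (Lc₀.image gV) (Ld₀.image gV) (Lb₀.image gV) Pl Rib)
    (hord : Ent210Ord T t (ent210Sea T h R YR Pl Rib) h) {Kc₀ : Finset ((ℤ × ℤ) × Bool)} (hKc : Kc₀.image gE ⊆ YR) {c : ℝ}
    (hc : c * S₀.sum t ((ent210H0 S₀ Cb₀ La₀ Lc₀ Ld₀ Lb₀).Holds S₀) (fun _ => 1) ≤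
      S₀.sum t ((ent210H0 S₀ Cb₀ La₀ Lc₀ Ld₀ Lb₀).Holds S₀) (ent210Ind (fun ω => Ent210Join S₀ (↑Kc₀ ∩ ent210On S₀ ω) La₀ Lc₀))) :
    c * T.sum t (h.Holds T) (fun _ => 1) ≤
      2 ^ (((ent210P2 S (Cb₀.image gE) (La₀.image gV) (Lc₀.image gV) (Ld₀.image gV) (Lb₀.image gV)).card - 1) + ((ent210P1 T h R Q YR Pl Rib).card - 1)) *
        T.sum t (h.Holds T) (ent210Ind (fun ω => Ent210Join T (↑(Kc₀.image gE) ∩ ent210On T ω) (La₀.image gV) (Lc₀.image gV))) := by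
  refine ent210_join g hord hKc ?_
  rw [ent210_iso_N i ok₀ hCb hLa hLc hLd hLb, ent210_iso_N i ok₀ hCb hLa hLc hLd hLb]
  refine hc.trans ?_
  refine rcy162_sum_mono' S₀ _ g.t0.le g.t1.le fun ω hω _ => ?_
  by_cases hj : Ent210Join S₀ (↑Kc₀ ∩ ent210On S₀ ω) La₀ Lc₀
  · rw [ent210_ind_pos hj]
    exact (ent210_ind_pos (L := fun ω => Ent210Join S (↑(Kc₀.image gE) ∩ ent210On S ω) (La₀.image gV) (Lc₀.image gV))
      (ent210_iso_event i ok₀ Kc₀ hω hj)).ge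
  · rw [ent210_ind_neg hj]
    exact ent210_ind_nonneg _ _

/-- the same with probabilities -/
theorem ent210_join_iso_P (i : Rcy162Hom S₀ S gV gF gE) (ok₀ : S₀.WF) (hCb : Cb₀ ⊆ S₀.E)
    (hLa : La₀ ⊆ S₀.V) (hLc : Lc₀ ⊆ S₀.V) (hLd : Ld₀ ⊆ S₀.V) (hLb : Lb₀ ⊆ S₀.V)
    (g : Ent210Geo T S t h R Q YR (Cb₀.image gE) (La₀.image gV) (Lc₀.image gV) (Ld₀.image gV) (Lb₀.image gV) Pl Rib)
    (hord : Ent210Ord T t (ent210Sea T h R YR Pl Rib) h) {Kc₀ : Finset ((ℤ × ℤ) × Bool)} (hKc : Kc₀.image gE ⊆ YR) {c : ℝ}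
    (hc : c ≤ S₀.Pr t ((ent210H0 S₀ Cb₀ La₀ Lc₀ Ld₀ Lb₀).Holds S₀) (fun ω => Ent210Join S₀ (↑Kc₀ ∩ ent210On S₀ ω) La₀ Lc₀)) :
    c ≤ 2 ^ (((ent210P2 S (Cb₀.image gE) (La₀.image gV) (Lc₀.image gV) (Ld₀.image gV) (Lb₀.image gV)).card - 1) + ((ent210P1 T h R Q YR Pl Rib).card - 1)) *
        T.Pr t (h.Holds T) (fun ω => Ent210Join T (↑(Kc₀.image gE) ∩ ent210On T ω) (La₀.image gV) (Lc₀.image gV)) := by
  have hZ0 : 0 < S₀.sum t ((ent210H0 S₀ Cb₀ La₀ Lc₀ Ld₀ Lb₀).Holds S₀) (fun _ => 1) := by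
    have := ent210_H0_feas g
    rwa [ent210_iso_N i ok₀ hCb hLa hLc hLd hLb] at this
  rw [ent210_Pr_eq] at hc ⊢
  rw [le_div_iff₀ hZ0] at hc
  rw [mul_div_assoc', le_div_iff₀ g.feas]
  exact ent210_join_iso i ok₀ hCb hLa hLc hLd hLb g hord hKc hc

end iso

/-! ## 7. the entrance as THE CHAIN of 86 (`Rrc86Chain` of `Rsw/RswCyl86`, (E) of `Rrc86Strip`) -/

section chain

variable {𝓛 𝓛Q : Rln182Law RswCfg TV}

/-- the refined cells of `M` are carried by the retained part: points of retained sites, face points, points of retained edge pairs -/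
def Ent210Car (R : Finset (ℤ × ℤ)) (YR : Finset ((ℤ × ℤ) × Bool)) (M : Finset TV) : Prop :=
  ∀ y ∈ M, (∃ v ∈ R, y = rtd111P v) ∨ (∃ f, y = rtd111F f) ∨ ∃ e ∈ YR, y = rtd111E e

/-- a function of the statuses of the cells of `M` (182) reads the retained part only (102) -/
theorem ent210_loc_of_link (lT : Rse182Link T t 𝓛) (hR : R ⊆ T.V) (hY : YR ⊆ T.E) (hc : ∀ y ∈ YR, rpo102Sv T y ⊆ R) {M : Finset TV}
    (hM : Ent210Car R YR M) {J : RswCfg → ℝ} (hJ : Rse182Loc 𝓛 M J) : Rpo102Loc R YR J := by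
  intro ω ω' h1 h2
  refine hJ ω ω' fun y hy => ?_
  rcases hM y hy with ⟨v, hv, rfl⟩ | ⟨f, rfl⟩ | ⟨e, he, rfl⟩
  · rw [lT.npP ω v (hR hv), lT.npP ω' v (hR hv)]
    have : v ∈ ω.S ∩ R ↔ v ∈ ω'.S ∩ R := by rw [h1]
    simp only [Finset.mem_inter, hv, and_true] at this
    rw [this]
  · exact ⟨fun _ => lT.npF ω' f, fun _ => lT.npF ω f⟩
  · rw [lT.npE ω e (hY he), lT.npE ω' e (hY he), rpo102_good_loc hc h1 h2 he true]

/-- **(E) THE ENTRANCE IS A CHAIN OF 86**: record `h`, wall history = THE SEA HISTORY, closed strip law `(𝓛Q, ent210H0)`, constant `2 ^ (ports)`;   the order is the only hypothesis -/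
theorem ent210_chain (lT : Rse182Link T t 𝓛) (lS : Rse182Link S t 𝓛Q) (g : Ent210Geo T S t h R Q YR Cb La Lc Ld Lb Pl Rib)
    (hord : ∀ F : RswCfg → ℝ, 𝓛.Mono F → 𝓛.N ((ent210Sea T h R YR Pl Rib).Holds T) F * 𝓛.Z (h.Holds T) ≤
      𝓛.Z ((ent210Sea T h R YR Pl Rib).Holds T) * 𝓛.N (h.Holds T) F)
    {M : Finset TV} (hM : Ent210Car R YR M) :
    Rrc86Chain 𝓛 𝓛Q (h.Holds T) ((ent210Sea T h R YR Pl Rib).Holds T) ((ent210H0 S Cb La Lc Ld Lb).Holds S) M
      (2 ^ (((ent210P2 S Cb La Lc Ld Lb).card - 1) + ((ent210P1 T h R Q YR Pl Rib).card - 1))) where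
  pos1 := fun _ => by
    unfold Rln182Law.Z
    rw [rse182_N_sum lT]
    exact ent210_sea_feas g
  posQ := by
    unfold Rln182Law.Z
    rw [rse182_N_sum lS]
    exact ent210_H0_feas g
  ord := hord
  port := by
    intro J hJ0 hJl
    unfold Rln182Law.Z
    rw [rse182_N_sum lS, rse182_N_sum lS, rse182_N_sum lT, rse182_N_sum lT]
    exact rpo102_two_amb (ent210_split_S g) (ent210_split_T g) g.sv g.sd (ent210_KR g)
      (ent210_loc_of_link lT g.RA g.YT g.cellR hM hJl) hJ0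

/-- the sea history of a record WITHOUT ties (`RswCon` of 121) -/
def ent210SeaK (T : Rcy162Sys) (k : RswCon) (R : Finset (ℤ × ℤ)) (YR : Finset ((ℤ × ℤ) × Bool)) (Pl : Finset (ℤ × ℤ))
    (Rib : Finset ((ℤ × ℤ) × Bool)) : RswCon :=
  ⟨Pl, ent210M T (rpo102Of k ∅) R YR Pl, Rib, (T.E \ YR).filter (fun y => rpo102Sv T y ⊆ ent210M T (rpo102Of k ∅) R YR Pl),
    k.Cl.filter (fun y => ¬ (y ∈ T.E ∧ rpo102Sv T y ⊆ ent210M T (rpo102Of k ∅) R YR Pl))⟩

theorem ent210_chain_eqns_cite : True := by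
  have := @Ent210Car.eq_1
  have := @ent210SeaK.eq_1
  trivial

theorem ent210_sea_of (T : Rcy162Sys) (k : RswCon) (R : Finset (ℤ × ℤ)) (YR : Finset ((ℤ × ℤ) × Bool)) (Pl : Finset (ℤ × ℤ))
    (Rib : Finset ((ℤ × ℤ) × Bool)) : ent210Sea T (rpo102Of k ∅) R YR Pl Rib = rpo102Of (ent210SeaK T k R YR Pl Rib) ∅ := rfl

/-- a history without ties holds in the sense of 102 iff it holds in the sense of 182 -/
theorem ent210_of_holds (Y : Rcy162Sys) (k : RswCon) : (rpo102Of k ∅).Holds Y = rse182Holds Y k := by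
  funext ω
  refine propext ⟨?_, ?_⟩
  · rintro ⟨h1, h2, _, h4, h5, h6⟩
    exact ⟨h1, h2, h4, h5, h6⟩
  · rintro ⟨h1, h2, h4, h5, h6⟩
    exact ⟨h1, h2, fun e he => absurd he (Finset.notMem_empty _), h4, h5, h6⟩

theorem ent210_end_mem {Y : Rcy162Sys} {e : (ℤ × ℤ) × Bool} {v : ℤ × ℤ} (hv : Rse182End Y e v) : v ∈ rpo102Sv Y e := by
  rcases hv with rfl | rfl
  · exact ent210_p0_mem Y e
  · exact ent210_p1_mem Y e

/-- a legal history of 182 is legal here -/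
theorem ent210_legal_of {Y : Rcy162Sys} {k : RswCon} (hk : Rse182Legal Y k) : Ent210Legal Y (rpo102Of k ∅) where
  full := by
    intro y _ hobs v hv
    unfold rpo102Sv at hv
    rcases Finset.mem_insert.1 hv with rfl | hv
    · exact hk.full y hobs _ (Or.inl rfl)
    · exact hk.full y hobs _ (Or.inr (Finset.mem_singleton.1 hv))
  eq := fun e he => absurd he (Finset.notMem_empty _)

variable {k : RswCon}

/-- the sea history of a legal record is legal in the sense of 182 -/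
theorem ent210_seaK_legal (g : Ent210Geo T S t (rpo102Of k ∅) R Q YR Cb La Lc Ld Lb Pl Rib) (hk : Rse182Legal T k) :
    Rse182Legal T (ent210SeaK T k R YR Pl Rib) := by
  have ed : ∀ e ∈ (ent210SeaK T k R YR Pl Rib).Gp ∪ (ent210SeaK T k R YR Pl Rib).Gm ∪ (ent210SeaK T k R YR Pl Rib).Cl, e ∈ T.E := by
    intro e he
    rcases Finset.mem_union.1 he with he | he
    · rcases Finset.mem_union.1 he with he | he
      · exact (ent210_rib_C g he).1
      · exact (Finset.mem_sdiff.1 (Finset.mem_filter.1 he).1).1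
    · exact hk.ed e (Finset.mem_union_right _ (Finset.mem_filter.1 he).1)
  exact ⟨ed, fun e he v hv => (ent210_sea_legal g).full e (ed e he) he (ent210_end_mem hv)⟩

/-- the sea history is below the record in the sense of 182 -/
theorem ent210_seaK_le (g : Ent210Geo T S t (rpo102Of k ∅) R Q YR Cb La Lc Ld Lb Pl Rib) : Rse182Le (ent210SeaK T k R YR Pl Rib) k :=
  ⟨(ent210_sea_le g).bp, (ent210_sea_le g).bm, (ent210_sea_le g).op, (ent210_sea_le g).om, (ent210_sea_le g).cl1, (ent210_sea_le g).cl2⟩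

/-- **(E) THE CHAIN OF 86 FROM THE CONTRACT (ORD) OF 182**: record = a legal history `k` without ties which keeps the pins of `K₀`; wall history = the sea history -/
theorem ent210_chain_K (lT : Rse182Link T t 𝓛) (lS : Rse182Link S t 𝓛Q) (g : Ent210Geo T S t (rpo102Of k ∅) R Q YR Cb La Lc Ld Lb Pl Rib)
    (hk : Rse182Legal T k) (K₀ : RswCon) (hO : Rse182Ord T 𝓛 K₀) (hKp : K₀.Sp ⊆ Pl) (hKm : K₀.Sm ⊆ k.Sm)
    {M : Finset TV} (hM : Ent210Car R YR M) :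
    Rrc86Chain 𝓛 𝓛Q (rse182Holds T k) (rse182Holds T (ent210SeaK T k R YR Pl Rib)) ((ent210H0 S Cb La Lc Ld Lb).Holds S) M
      (2 ^ (((ent210P2 S Cb La Lc Ld Lb).card - 1) + ((ent210P1 T (rpo102Of k ∅) R Q YR Pl Rib).card - 1))) := by
  have c := ent210_chain lT lS g (by
    rw [ent210_sea_of, ent210_of_holds, ent210_of_holds]
    exact hO _ _ (ent210_seaK_legal g hk) hk hKp (fun v hv => ent210_mem_M.2 (Or.inr (hKm hv))) (hKp.trans g.pl) hKm (ent210_seaK_le g)) hM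
  rwa [ent210_sea_of, ent210_of_holds, ent210_of_holds] at c

/-- the wall history implies the record as soon as nothing of the record is forgotten: all plus pins and all good-plus edge pairs are kept -/
theorem ent210_seaK_imp (g : Ent210Geo T S t (rpo102Of k ∅) R Q YR Cb La Lc Ld Lb Pl Rib) (hPl : k.Sp ⊆ Pl) (hRib : k.Gp ⊆ Rib)
    (hcl : ∀ y ∈ k.Cl, ¬ (y ∈ T.E ∧ rpo102Sv T y ⊆ ent210M T (rpo102Of k ∅) R YR Pl)) {ω : RswCfg}
    (hω : rse182Holds T (ent210SeaK T k R YR Pl Rib) ω) : rse182Holds T k ω := by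
  obtain ⟨h1, h2, h4, h5, h6⟩ := hω
  exact ⟨hPl.trans h1, fun v hv => h2 v ((ent210_sea_le g).bm hv), fun e he => h4 e (hRib he), fun e he => h5 e ((ent210_sea_le g).om he),
    fun e he => h6 e (Finset.mem_filter.2 ⟨he, hcl e he⟩)⟩

end chain

/-! ## 8. (LK) from a chain whose wall history does NOT imply the record      (the sea history opens the closed minus-minus edge pairs of the record: R291 `rsg_one` T3 = `ent_join` + `rsf_join_N`) -/

section LK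

variable {Ω Y : Type} (𝓛 : Rln182Law Ω Y) (hS : 𝓛.Ok) (ι : TV → Y) {c d w σ m e : ℤ}

include hS in
/-- the join inside a window is an increasing event -/
theorem ent210_join_mono (W a c' : Set TV) : 𝓛.MonoP (Rrc86Join 𝓛 ι W a c') := by
  rintro ω ω' hle ⟨z, hz, z', hz', u, u', hu, hu', h1, h2, hR⟩
  have hsub : rrc86Y 𝓛 ι ω ∩ W ⊆ rrc86Y 𝓛 ι ω' ∩ W := by
    rintro x ⟨⟨a1, a2⟩, hb⟩
    exact ⟨⟨a1, fun hn => a2 (hS.np_anti ω ω' hle _ a1 hn)⟩, hb⟩
  exact ⟨z, hz, z', hz', u, u', hsub hu, hsub hu', h1, h2, tsc_R_mono hsub hR⟩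

include hS in
/-- **(LK) at one record from a chain + the estimate in the closed strip law**: `rrc86_LK_of_strip` of 86 WITHOUT the field `h1 ⟹ rec` of `Rrc86Strip`
(the chain is run with `F = J =` the join, which is increasing; the join becomes the link under the RECORD) -/
theorem ent210_LK_of_chain (K : Ω → Prop) {c₀ C : ℝ} (hC : 0 < C) {ω₀ : Ω} {W : Set TV} {M : Finset Y} {𝓛Q : Rln182Law Ω Y} {h1 H0 : Ω → Prop}
    (hW : W ⊆ plsBand c d) (hM : ∀ z ∈ W, ι z ∈ 𝓛.cells → ι z ∈ M)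
    (hch : Rrc86Chain 𝓛 𝓛Q (rrc86Rec 𝓛 K (rrc86Q2 𝓛 ι c d w σ m e) ω₀) h1 H0 M C)
    (hest : c₀ * 𝓛Q.Z H0 ≤ 𝓛Q.N H0 (rln182Ind (Rrc86Join 𝓛 ι W (rrc86A 𝓛 ι c d w σ m e ω₀) (rrc86C 𝓛 ι c d w σ m e ω₀)))) :
    c₀ / C * 𝓛.Z (rrc86Rec 𝓛 K (rrc86Q2 𝓛 ι c d w σ m e) ω₀) ≤
      𝓛.N (rrc86Rec 𝓛 K (rrc86Q2 𝓛 ι c d w σ m e) ω₀) (rln182Ind (Rrc86Link 𝓛 ι c d w σ m e ω₀)) := by
  have s1 := rrc86_chain 𝓛 hS hC hch (fun ω => rln182_ind_nonneg _ ω) (rrc86_join_loc 𝓛 ι hM) hest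
    (rln182_ind_mono 𝓛 (ent210_join_mono 𝓛 hS ι W _ _)) (fun ω => rln182_ind_nonneg _ ω) (fun ω _ _ => le_rfl)
  refine s1.trans ?_
  classical
  unfold Rln182Law.N
  refine Finset.sum_le_sum fun ω hω => ?_
  by_cases hr : rrc86Rec 𝓛 K (rrc86Q2 𝓛 ι c d w σ m e) ω₀ ω
  · rw [if_pos hr, if_pos hr]
    refine mul_le_mul_of_nonneg_left ?_ (hS.wt_nonneg ω hω)
    by_cases hj : Rrc86Join 𝓛 ι W (rrc86A 𝓛 ι c d w σ m e ω₀) (rrc86C 𝓛 ι c d w σ m e ω₀) ω
    · rw [rln182_ind_pos hj, rln182_ind_pos (rrc86_join_link 𝓛 hS ι hr.2 hW hj)]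
    · rw [rln182_ind_neg hj]; exact rln182_ind_nonneg _ _
  · rw [if_neg hr, if_neg hr]

end LK

/-! ## 9. uniform constants: the number of ports from the number of junction edge pairs; the chain with a larger constant -/

section const

/-- at most two port faces per junction edge pair of the ambient (only the junction edge pairs with a face in `Q` count) -/
theorem ent210_P1_card_le {n : ℕ}
    (hn : ((T.E \ YR).filter (fun y => (y ∉ Rib ∧ ¬ rpo102Sv T y ⊆ ent210M T h R YR Pl) ∧ (rpo102Sd T y ∩ Q).Nonempty)).card ≤ n) :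
    (ent210P1 T h R Q YR Pl Rib).card ≤ 2 * n := by
  have hsub : ent210P1 T h R Q YR Pl Rib ⊆
      ((T.E \ YR).filter (fun y => (y ∉ Rib ∧ ¬ rpo102Sv T y ⊆ ent210M T h R YR Pl) ∧ (rpo102Sd T y ∩ Q).Nonempty)).biUnion
        (fun y => rpo102Sd T y ∩ Q) := by
    intro v hv
    unfold ent210P1 at hv
    obtain ⟨y, hy, hvy⟩ := Finset.mem_biUnion.1 hv
    obtain ⟨a1, a2⟩ := Finset.mem_filter.1 hy
    exact Finset.mem_biUnion.2 ⟨y, Finset.mem_filter.2 ⟨a1, a2, ⟨v, hvy⟩⟩, hvy⟩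
  refine (Finset.card_le_card hsub).trans ?_
  refine (Finset.card_biUnion_le_card_mul _ _ 2 fun y _ => ?_).trans ?_
  · refine (Finset.card_le_card Finset.inter_subset_left).trans ?_
    unfold rpo102Sd
    exact Finset.card_le_two
  · rw [Nat.mul_comm]
    exact Nat.mul_le_mul_left 2 hn

/-- at most two port faces per mixed boundary edge pair of the strip system -/
theorem ent210_P2_card_le {n : ℕ}
    (hn : (Cb.filter (fun y => ¬ rpo102Sv S y ⊆ La ∪ Lc ∧ ¬ rpo102Sv S y ⊆ glEnd La Lc Ld Lb)).card ≤ n) :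
    (ent210P2 S Cb La Lc Ld Lb).card ≤ 2 * n := by
  unfold ent210P2
  refine (Finset.card_biUnion_le_card_mul _ _ 2 fun y _ => ?_).trans ?_
  · unfold rpo102Sd
    exact Finset.card_le_two
  · rw [Nat.mul_comm]
    exact Nat.mul_le_mul_left 2 hn

/-- the chain of 86 with a larger constant -/
theorem ent210_chain_mono {Ω Y : Type} {𝓛 𝓛Q : Rln182Law Ω Y} (hS : 𝓛.Ok) (hQ : 𝓛Q.Ok) {rec h1 H0 : Ω → Prop} {M : Finset Y} {C C' : ℝ}
    (hC : C ≤ C') (hch : Rrc86Chain 𝓛 𝓛Q rec h1 H0 M C) : Rrc86Chain 𝓛 𝓛Q rec h1 H0 M C' where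
  pos1 := hch.pos1
  posQ := hch.posQ
  ord := hch.ord
  port := by
    intro J hJ0 hJl
    refine (hch.port J hJ0 hJl).trans (mul_le_mul_of_nonneg_right hC ?_)
    exact mul_nonneg (rln182_Z_nonneg 𝓛Q hQ H0) (rln182_N_nonneg 𝓛 hS _ _ fun ω _ => hJ0 ω)

/-- **(E) with a uniform constant**: at most `a` mixed boundary edge pairs of the strip system and at most `b` junction edge pairs of the ambient ⟹ the chain with the constant `2 ^ (2 a + 2 b)` -/
theorem ent210_chain_K_unif {𝓛 𝓛Q : Rln182Law RswCfg TV} {k : RswCon} (hS : 𝓛.Ok) (hQ : 𝓛Q.Ok) (lT : Rse182Link T t 𝓛) (lS : Rse182Link S t 𝓛Q)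
    (g : Ent210Geo T S t (rpo102Of k ∅) R Q YR Cb La Lc Ld Lb Pl Rib)
    (hk : Rse182Legal T k) (K₀ : RswCon) (hO : Rse182Ord T 𝓛 K₀) (hKp : K₀.Sp ⊆ Pl) (hKm : K₀.Sm ⊆ k.Sm)
    {M : Finset TV} (hM : Ent210Car R YR M) {a b : ℕ}
    (ha : (Cb.filter (fun y => ¬ rpo102Sv S y ⊆ La ∪ Lc ∧ ¬ rpo102Sv S y ⊆ glEnd La Lc Ld Lb)).card ≤ a)
    (hb : ((T.E \ YR).filter (fun y => (y ∉ Rib ∧ ¬ rpo102Sv T y ⊆ ent210M T (rpo102Of k ∅) R YR Pl) ∧ (rpo102Sd T y ∩ Q).Nonempty)).card ≤ b) :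
    Rrc86Chain 𝓛 𝓛Q (rse182Holds T k) (rse182Holds T (ent210SeaK T k R YR Pl Rib)) ((ent210H0 S Cb La Lc Ld Lb).Holds S) M (2 ^ (2 * a + 2 * b)) := by
  refine ent210_chain_mono hS hQ ?_ (ent210_chain_K lT lS g hk K₀ hO hKp hKm hM)
  refine pow_le_pow_right₀ (by norm_num) ?_
  have h1 := ent210_P2_card_le (S := S) (Cb := Cb) (La := La) (Lc := Lc) (Ld := Ld) (Lb := Lb) ha
  have h2 := ent210_P1_card_le (T := T) (h := rpo102Of k ∅) (R := R) (Q := Q) (YR := YR) (Pl := Pl) (Rib := Rib) hb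
  omega

end const

/-! ## 10. (LK) AT ONE RECORD OF 86 = geometry (`Ent210Geo`) + order (`Rse182Ord`) + the estimate (L) in the closed strip law -/

section rec

/-- the record of a chain may be changed off the configurations of nonzero weight -/
theorem ent210_chain_congr {Ω Y : Type} {𝓛 𝓛Q : Rln182Law Ω Y} {rec rec' h1 H0 : Ω → Prop} {M : Finset Y} {C : ℝ}
    (he : ∀ ω ∈ 𝓛.cfgs, 𝓛.wt ω ≠ 0 → (rec ω ↔ rec' ω)) (hch : Rrc86Chain 𝓛 𝓛Q rec h1 H0 M C) : Rrc86Chain 𝓛 𝓛Q rec' h1 H0 M C := by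
  have eN : ∀ F, 𝓛.N rec' F = 𝓛.N rec F := fun F => (rse182_N_congr 𝓛 he F).symm
  have eZ : 𝓛.Z rec' = 𝓛.Z rec := eN _
  refine ⟨?_, hch.posQ, ?_, hch.port⟩
  · rw [eZ]; exact hch.pos1
  · intro F hF
    rw [eZ, eN]
    exact hch.ord F hF

variable {𝓛 𝓛Q : Rln182Law RswCfg TV} {c d w σ m e : ℤ}

/-- **(LK) AT ONE RECORD, FAR CASE** (R291 `rsg_one` T3).   `K` = the boundary condition, `K₀` = the same as a legal history (pins);   the record of 86 is the history `rse182Obs T K₀ Q₂ ω₀` of 182;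
inputs: the geometry `Ent210Geo` of (ambient, closed strip system, record), the contract (ORD) of 182, the estimate (L) for the join inside the window under the closed strip law -/
theorem ent210_LK_rec (hS : 𝓛.Ok) (lT : Rse182Link T t 𝓛) (lS : Rse182Link S t 𝓛Q) (ι : TV → TV) (K : RswCfg → Prop) (K₀ : RswCon) (ω₀ : RswCfg)
    (hK : ∀ ω ∈ 𝓛.cfgs, 𝓛.wt ω ≠ 0 → (K ω ↔ rse182Holds T K₀ ω)) (hK₀ : Rse182Legal T K₀)
    (hQ : ∀ y ∈ rrc86Q2 𝓛 ι c d w σ m e ω₀, Rse182Pt T y)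
    (g : Ent210Geo T S t (rpo102Of (rse182Obs T K₀ (rrc86Q2 𝓛 ι c d w σ m e ω₀) ω₀) ∅) R Q YR Cb La Lc Ld Lb Pl Rib)
    (hO : Rse182Ord T 𝓛 K₀) (hKp : K₀.Sp ⊆ Pl) {M : Finset TV} (hM : Ent210Car R YR M) {W : Set TV} (hW : W ⊆ plsBand c d)
    (hMW : ∀ z ∈ W, ι z ∈ 𝓛.cells → ι z ∈ M) {c₀ : ℝ}
    (hest : c₀ * 𝓛Q.Z ((ent210H0 S Cb La Lc Ld Lb).Holds S) ≤ 𝓛Q.N ((ent210H0 S Cb La Lc Ld Lb).Holds S)
      (rln182Ind (Rrc86Join 𝓛 ι W (rrc86A 𝓛 ι c d w σ m e ω₀) (rrc86C 𝓛 ι c d w σ m e ω₀)))) :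
    c₀ / 2 ^ (((ent210P2 S Cb La Lc Ld Lb).card - 1) +
        ((ent210P1 T (rpo102Of (rse182Obs T K₀ (rrc86Q2 𝓛 ι c d w σ m e ω₀) ω₀) ∅) R Q YR Pl Rib).card - 1)) *
      𝓛.Z (rrc86Rec 𝓛 K (rrc86Q2 𝓛 ι c d w σ m e) ω₀) ≤
      𝓛.N (rrc86Rec 𝓛 K (rrc86Q2 𝓛 ι c d w σ m e) ω₀) (rln182Ind (Rrc86Link 𝓛 ι c d w σ m e ω₀)) := by
  have ch := ent210_chain_K lT lS g (rse182_obs_legal g.okT hK₀ _ ω₀) K₀ hO hKp (fun v hv => Finset.mem_union_left _ hv) hM
  have he : ∀ ω ∈ 𝓛.cfgs, 𝓛.wt ω ≠ 0 → (rse182Holds T (rse182Obs T K₀ (rrc86Q2 𝓛 ι c d w σ m e ω₀) ω₀) ω ↔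
      rrc86Rec 𝓛 K (rrc86Q2 𝓛 ι c d w σ m e) ω₀ ω) := by
    intro ω hω hw
    have hw' : T.w t ω ≠ 0 := by rw [← lT.wt]; exact hw
    rw [rse182_obs_holds lT K₀ _ hQ ω₀ ω hw']
    unfold rrc86Rec
    rw [hK ω hω hw]
  exact ent210_LK_of_chain 𝓛 hS ι K (by positivity) hW hMW (ent210_chain_congr he ch) hest

end rec

end Claimed.Agent.R292
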