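import Claimed.Agent.R292.Rsw.Sys162
import Claimed.Agent.R292.Rsw.Enter210

/-!
# Row 292 (S0540), Rsw/EnterB240 : R8 CORE, BLOCK A3 PART II (TIP), THE ENTRANCE, GEOMETRIC DICTIONARY ON `ℤ²`      (pen helper240; prefix `enb240_`, `Enb240`, `enb240`)      0 sorry

Port of R291 `Glue/EnterB` (63) to the edge-pair systems of 162 (`Rsw/Sys162`).   R291: `enb_win_gen : CuIso (clAmb x Q0) (entClip (sdSys ..) (Q0.image f) x) f k`, `enb_cyl_cin`, `enb_cyl_cb`, `enb_cyl_lay`.
On `ℤ²` there is ONE class of cells and no clipped cell, so the dictionary is:   A PLANAR FACE SET `F` IN A WINDOW OF THE CYLINDER IS A SUBSYSTEM OF THE CYLINDER, AND GIVEN THE CUT ITS LAW IS THE PLANAR FLAT LAW.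

* `Enb240Win L a b w F` : the faces of `F` lie in the columns `w ≤ i`, `i + 1 < w + L` (one spare column) and in the rows `a ≤ j < b`.
* `enb240Im L F : Rcy162Sys` : images of `cornersOf F`, `F`, `rswInt F` under the reduction, endpoint and face maps of `rcy162Cyl`.   Core `enb240C L F` = image of `rskCore F` (91), pattern `enb240A L F c` = image of `rskRim F c`.
* **(B)** `enb240_hom : Rcy162Hom (rcy162Pl F) (enb240Im L F) red red redE`.
* **(S)** `enb240_sub : Rcy162Sub (rcy162Cyl L a b) (enb240Im L F) (enb240C L F)`   (so `rcy162_cut_prod / _cross / _comp / rcy162_cut` of 162 apply in the window).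
* (cin) `enb240_cin` : the edge pairs of the cylinder with BOTH faces in the image = the image of `rswInt F`.
* (cb)  `enb240_cb`  : the other edge pairs of the cylinder with a face in the image = the reduced polygon edges (`RskBd F`);   `enb240_cut_iff` : the cut of 162 in the words of 91.
* (lay) `enb240_rim` : `Y'.V \ core` = image of the polygon corners.
* (bc)  `enb240_pin_iff`, **`enb240_sum`, `enb240_Ex`, `enb240_Pr`** : the pinned law of the image = the flat law `(F, c)` of Defs/RSW read through `enb240Map`.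
* `enb240_mix_out`, `enb240_flat_out` : the boundary conditions of the cylinder are read off the window.
* **`enb240_enter`, `enb240_enter_mix`** : THE ENTRANCE: `Σ_cyl 1_cut X(in) Z(out) = E^c_F[X ∘ map] Σ_cyl 1_cut Z(out)`.
* §6 `enb240Pull L F` (cylinder -> plane): `enb240_pull_map`, `enb240_map_pull` (`= rcy162In`), `enb240_pull_in`;   **`enb240_enter_pull`** : the entrance for ANY planar observable `X₀ (Pull ω)`.
* §7 statuses: `enb240_good_pull`, `enb240_good_in`, `enb240_good_map`, `enb240_fld_P`, `enb240_fld_E` (the status field of the cylinder at the refined cells of the window).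
* §8 ANY pattern `A₀` on the rim (strips: plus on two arcs, minus on the two others): `enb240_pin_gen`, `enb240_sum_gen`, `enb240_Ex_gen`, **`enb240_enter_gen`**.
* §9 histories `RswCon` through the window: `enb240MapK`, `enb240_holds`, `enb240_PK`.
* §10 `enb240Fld F ω₀` = the planar status field, `Enb240Cell F p`;   **`enb240_fld_agree`** (cylinder field = planar field of the pull-back on the cells of `F`),   **`enb240_V_iff`, `enb240_H_iff`** (events `cyV`, `cyH` of a box of cells),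
  rectangles: `enb240_cell_rect`, `enb240_win_rect`.
* §11 companion of `Rsw/Enter210` (210): `enb240_SR` (the image IS the retained system `rpo102SR` of 102: `rfl`), **`enb240_lay`** (`ent210Lay` = image of the polygon corners, window strictly inside), `enb240_H0_holds`,
  **`enb240_join_win`** : THE ENTRANCE THROUGH THE WINDOW = `ent210_join_iso_P` along `enb240_hom`: planar strip bound ⟹ bound in the cylinder given the record, factor `2 ^ (P1.card - 1)`.
-/

set_option autoImplicit false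

namespace Claimed.Agent.R292

open Claims Claims.C0468 Finset

/-! ## 0. the window -/

/-- the faces of `F` lie in a window of the cylinder `ℤ/L × [a, b]` -/
structure Enb240Win (L : ℕ) (a b w : ℤ) (F : Finset (ℤ × ℤ)) : Prop where
  c0 : ∀ f ∈ F, w ≤ f.1
  c1 : ∀ f ∈ F, f.1 + 1 < w + L
  r0 : ∀ f ∈ F, a ≤ f.2
  r1 : ∀ f ∈ F, f.2 < b

/-- the image of the planar system of `F` in the cylinder -/
noncomputable def enb240Im (L : ℕ) (F : Finset (ℤ × ℤ)) : Rcy162Sys where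
  V := (cornersOf F).image (rcy162Red L)
  Fc := F.image (rcy162Red L)
  E := (rswInt F).image (rcy162RedE L)
  p0 := fun e => e.1
  p1 := fun e => rcy162Red L (rswEnd e)
  f0 := fun e => e.1
  f1 := fun e => rcy162Red L (rswCo e)

/-- the core of the image -/
noncomputable def enb240C (L : ℕ) (F : Finset (ℤ × ℤ)) : Finset (ℤ × ℤ) := (rskCore F).image (rcy162Red L)

/-- the pattern of the flat problem `(F, c)` on the rim -/
noncomputable def enb240A (L : ℕ) (F : Finset (ℤ × ℤ)) (c : Bool) : Finset (ℤ × ℤ) := (rskRim F c).image (rcy162Red L)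

/-- a planar configuration read in the cylinder -/
def enb240Map (L : ℕ) (ω : RswCfg) : RswCfg := rcy162Map (rcy162Red L) (rcy162Red L) (rcy162RedE L) ω

/-- the equation lemmas of the definitions of this file are generated HERE (RULES.md, rule 6) -/
theorem enb240_eqns_cite : True := by
  have := @enb240Im.eq_1
  have := @enb240C.eq_1
  have := @enb240A.eq_1
  have := @enb240Map.eq_1
  trivial

/-- the reduction is injective on a window of width `L` -/
theorem enb240_red_inj {L : ℕ} {w : ℤ} {u v : ℤ × ℤ} (hu1 : w ≤ u.1) (hu2 : u.1 < w + L) (hv1 : w ≤ v.1) (hv2 : v.1 < w + L)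
    (h : rcy162Red L u = rcy162Red L v) : u = v := by
  unfold rcy162Red at h
  have h1 : u.1 % (L : ℤ) = v.1 % (L : ℤ) := (Prod.ext_iff.1 h).1
  have h2 : u.2 = v.2 := (Prod.ext_iff.1 h).2
  have e : ∀ t : ℤ, w ≤ t → t < w + L → (t % (L : ℤ) - w) % (L : ℤ) = t - w := fun t h1 h2 => by
    rw [Int.emod_sub_emod, Int.emod_eq_of_lt (by omega) (by omega)]
  have e1 := e u.1 hu1 hu2
  have e2 := e v.1 hv1 hv2
  rw [h1] at e1
  exact Prod.ext (by omega) h2

section win

variable {L : ℕ} {a b w : ℤ} {F : Finset (ℤ × ℤ)}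

theorem enb240_corner_rng (hW : Enb240Win L a b w F) {v : ℤ × ℤ} (hv : v ∈ cornersOf F) :
    w ≤ v.1 ∧ v.1 < w + L ∧ a ≤ v.2 ∧ v.2 ≤ b := by
  rcases rsk_mem_corners.1 hv with h | h | h | h
  · have := hW.c0 _ h; have := hW.c1 _ h; have := hW.r0 _ h; have := hW.r1 _ h
    refine ⟨?_, ?_, ?_, ?_⟩ <;> omega
  · have h1 := hW.c0 _ h; have h2 := hW.c1 _ h; have h3 := hW.r0 _ h; have h4 := hW.r1 _ h
    dsimp only at h1 h2 h3 h4
    refine ⟨?_, ?_, ?_, ?_⟩ <;> omega
  · have h1 := hW.c0 _ h; have h2 := hW.c1 _ h; have h3 := hW.r0 _ h; have h4 := hW.r1 _ h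
    dsimp only at h1 h2 h3 h4
    refine ⟨?_, ?_, ?_, ?_⟩ <;> omega
  · have h1 := hW.c0 _ h; have h2 := hW.c1 _ h; have h3 := hW.r0 _ h; have h4 := hW.r1 _ h
    dsimp only at h1 h2 h3 h4
    refine ⟨?_, ?_, ?_, ?_⟩ <;> omega

theorem enb240_core_rng (hW : Enb240Win L a b w F) {v : ℤ × ℤ} (hv : v ∈ rskCore F) : a < v.2 ∧ v.2 < b := by
  obtain ⟨h1, -, h3, -⟩ := rsk_mem_core.1 hv
  have := hW.r1 _ h1
  have h4 := hW.r0 _ h3
  dsimp only at h4
  constructor <;> omega

theorem enb240_injV (hW : Enb240Win L a b w F) : Set.InjOn (rcy162Red L) (cornersOf F : Set (ℤ × ℤ)) := by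
  intro u hu v hv h
  obtain ⟨a1, a2, -, -⟩ := enb240_corner_rng hW (Finset.mem_coe.1 hu)
  obtain ⟨b1, b2, -, -⟩ := enb240_corner_rng hW (Finset.mem_coe.1 hv)
  exact enb240_red_inj a1 a2 b1 b2 h

theorem enb240_injF (hW : Enb240Win L a b w F) : Set.InjOn (rcy162Red L) (F : Set (ℤ × ℤ)) := by
  intro u hu v hv h
  have hu' := Finset.mem_coe.1 hu
  have hv' := Finset.mem_coe.1 hv
  have := hW.c0 _ hu'; have := hW.c1 _ hu'; have := hW.c0 _ hv'; have := hW.c1 _ hv'
  exact enb240_red_inj (w := w) (by omega) (by omega) (by omega) (by omega) h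

theorem enb240_injE (hW : Enb240Win L a b w F) : Set.InjOn (rcy162RedE L) (rswInt F : Set ((ℤ × ℤ) × Bool)) := by
  intro e he e' he' h
  have h1 := (rsk_mem_int.1 (Finset.mem_coe.1 he)).1
  have h2 := (rsk_mem_int.1 (Finset.mem_coe.1 he')).1
  unfold rcy162RedE at h
  have h3 := enb240_injF hW (Finset.mem_coe.2 h1) (Finset.mem_coe.2 h2) (Prod.ext_iff.1 h).1
  exact Prod.ext h3 (Prod.ext_iff.1 h).2

/-! ## 1. (B) the window isomorphism -/

/-- **(B)** the planar system of `F` and its image in the cylinder are isomorphic      (R291 `enb_win_gen`) -/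
theorem enb240_hom (hW : Enb240Win L a b w F) :
    Rcy162Hom (rcy162Pl F) (enb240Im L F) (rcy162Red L) (rcy162Red L) (rcy162RedE L) where
  injV := enb240_injV hW
  injF := enb240_injF hW
  injE := enb240_injE hW
  imV := rfl
  imF := rfl
  imE := rfl
  pp := fun e _ => Or.inl ⟨rfl, rcy162_red_end L e⟩
  ff := fun e _ => Or.inl ⟨rfl, rcy162_red_co L e⟩

theorem enb240_mem_E {e : (ℤ × ℤ) × Bool} : e ∈ (enb240Im L F).E ↔ ∃ e₀ ∈ rswInt F, rcy162RedE L e₀ = e := Finset.mem_image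

theorem enb240_mem_V {v : ℤ × ℤ} : v ∈ (enb240Im L F).V ↔ ∃ v₀ ∈ cornersOf F, rcy162Red L v₀ = v := Finset.mem_image

theorem enb240_mem_F {f : ℤ × ℤ} : f ∈ (enb240Im L F).Fc ↔ ∃ f₀ ∈ F, rcy162Red L f₀ = f := Finset.mem_image

theorem enb240_mem_C {v : ℤ × ℤ} : v ∈ enb240C L F ↔ ∃ v₀ ∈ rskCore F, rcy162Red L v₀ = v := Finset.mem_image

theorem enb240_wf (L : ℕ) (F : Finset (ℤ × ℤ)) : (enb240Im L F).WF := by
  refine ⟨fun e he => ?_, fun e he => ?_, fun e he => ?_, fun e he => ?_⟩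
  · obtain ⟨e₀, h0, rfl⟩ := enb240_mem_E.1 he
    exact enb240_mem_V.2 ⟨e₀.1, rsk_int_fst h0, rfl⟩
  · obtain ⟨e₀, h0, rfl⟩ := enb240_mem_E.1 he
    exact enb240_mem_V.2 ⟨rswEnd e₀, rsk_int_end h0, (rcy162_red_end L e₀).symm⟩
  · obtain ⟨e₀, h0, rfl⟩ := enb240_mem_E.1 he
    exact enb240_mem_F.2 ⟨e₀.1, (rsk_mem_int.1 h0).1, rfl⟩
  · obtain ⟨e₀, h0, rfl⟩ := enb240_mem_E.1 he
    exact enb240_mem_F.2 ⟨rswCo e₀, (rsk_mem_int.1 h0).2, (rcy162_red_co L e₀).symm⟩

/-! ## 2. (S) the image is a subsystem of the cylinder -/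

/-- an edge pair of the cylinder whose first vertex is the reduction of `v` is the reduction of the edge at `v` -/
theorem enb240_lift_fst {e : (ℤ × ℤ) × Bool} {v : ℤ × ℤ} (h : rcy162Red L v = e.1) : rcy162RedE L (v, e.2) = e := by
  unfold rcy162RedE
  exact Prod.ext h rfl

/-- the edge whose second endpoint is `v` -/
def enb240Pre (v : ℤ × ℤ) (c : Bool) : (ℤ × ℤ) × Bool := if c then ((v.1, v.2 - 1), true) else ((v.1 - 1, v.2), false)

/-- the edge whose second face is `g` -/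
def enb240PreF (g : ℤ × ℤ) (c : Bool) : (ℤ × ℤ) × Bool := if c then ((g.1 + 1, g.2), true) else ((g.1, g.2 + 1), false)

theorem enb240_eqns_cite2 : True := by
  have := @enb240Pre.eq_1
  have := @enb240PreF.eq_1
  trivial

theorem enb240_pre_end (v : ℤ × ℤ) (c : Bool) : rswEnd (enb240Pre v c) = v := by
  cases c <;> simp [enb240Pre, rswEnd]

theorem enb240_pre_snd (v : ℤ × ℤ) (c : Bool) : (enb240Pre v c).2 = c := by
  cases c <;> simp [enb240Pre]

theorem enb240_preF_co (g : ℤ × ℤ) (c : Bool) : rswCo (enb240PreF g c) = g := by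
  cases c <;> simp [enb240PreF, rswCo]

theorem enb240_preF_snd (g : ℤ × ℤ) (c : Bool) : (enb240PreF g c).2 = c := by
  cases c <;> simp [enb240PreF]

theorem enb240_emod_shift {L : ℕ} {x y k : ℤ} (h : (x + k) % (L : ℤ) = y % (L : ℤ)) : x % (L : ℤ) = (y - k) % (L : ℤ) := by
  have h1 : (x + k) ≡ y [ZMOD (L : ℤ)] := h
  have h2 := h1.sub_right k
  rw [add_sub_cancel_right] at h2
  exact h2

/-- an edge pair in the fundamental domain whose second endpoint reduces as `v` is the reduction of the edge which ends at `v` -/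
theorem enb240_lift_end {e : (ℤ × ℤ) × Bool} {v : ℤ × ℤ} (h0 : 0 ≤ e.1.1) (h1 : e.1.1 < L) (h : rcy162Red L v = rcy162Red L (rswEnd e)) :
    rcy162RedE L (enb240Pre v e.2) = e := by
  obtain ⟨⟨x, y⟩, c⟩ := e
  dsimp only at h0 h1
  cases c
  · simp only [rswEnd, rcy162Red, Bool.false_eq_true, if_false, Prod.mk.injEq] at h
    simp only [enb240Pre, rcy162RedE, rcy162Red, Bool.false_eq_true, if_false, Prod.mk.injEq, and_true]
    refine ⟨?_, h.2⟩
    rw [← enb240_emod_shift h.1.symm, Int.emod_eq_of_lt h0 h1]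
  · simp only [rswEnd, rcy162Red, if_true, Prod.mk.injEq] at h
    simp only [enb240Pre, rcy162RedE, rcy162Red, if_true, Prod.mk.injEq, and_true]
    refine ⟨?_, by omega⟩
    rw [h.1, Int.emod_eq_of_lt h0 h1]

/-- an edge pair in the fundamental domain whose second face reduces as `g` is the reduction of the edge whose second face is `g` -/
theorem enb240_lift_co {e : (ℤ × ℤ) × Bool} {g : ℤ × ℤ} (h0 : 0 ≤ e.1.1) (h1 : e.1.1 < L) (h : rcy162Red L g = rcy162Red L (rswCo e)) :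
    rcy162RedE L (enb240PreF g e.2) = e := by
  obtain ⟨⟨x, y⟩, c⟩ := e
  dsimp only at h0 h1
  cases c
  · simp only [rswCo, rcy162Red, Bool.false_eq_true, if_false, Prod.mk.injEq] at h
    simp only [enb240PreF, rcy162RedE, rcy162Red, Bool.false_eq_true, if_false, Prod.mk.injEq, and_true]
    refine ⟨?_, by omega⟩
    rw [h.1, Int.emod_eq_of_lt h0 h1]
  · simp only [rswCo, rcy162Red, if_true, Prod.mk.injEq] at h
    simp only [enb240PreF, rcy162RedE, rcy162Red, if_true, Prod.mk.injEq, and_true]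
    refine ⟨?_, h.2⟩
    have h2 : (x + -1) % (L : ℤ) = g.1 % (L : ℤ) := by rw [← sub_eq_add_neg]; exact h.1.symm
    have h3 := enb240_emod_shift h2
    rw [sub_neg_eq_add] at h3
    rw [← h3, Int.emod_eq_of_lt h0 h1]

/-- the four edges at an inner corner are interior edges -/
theorem enb240_core_out {v : ℤ × ℤ} (hv : v ∈ rskCore F) (c : Bool) : (v, c) ∈ rswInt F := by
  obtain ⟨h1, h2, h3, -⟩ := rsk_mem_core.1 hv
  rw [rsk_mem_int]
  cases c
  · exact ⟨h1, by simpa [rswCo] using h3⟩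
  · exact ⟨h1, by simpa [rswCo] using h2⟩

theorem enb240_core_in {v : ℤ × ℤ} (hv : v ∈ rskCore F) (c : Bool) : enb240Pre v c ∈ rswInt F := by
  obtain ⟨-, h2, h3, h4⟩ := rsk_mem_core.1 hv
  rw [rsk_mem_int]
  cases c
  · exact ⟨by simpa [enb240Pre] using h2, by simpa [enb240Pre, rswCo] using h4⟩
  · exact ⟨by simpa [enb240Pre] using h3, by simpa [enb240Pre, rswCo] using h4⟩

/-- **(S)** the image is a subsystem of the cylinder, with core the image of the inner corners -/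
theorem enb240_sub (hL : 0 < L) (hW : Enb240Win L a b w F) : Rcy162Sub (rcy162Cyl L a b) (enb240Im L F) (enb240C L F) where
  sV := by
    intro v hv
    obtain ⟨v₀, h0, rfl⟩ := enb240_mem_V.1 hv
    obtain ⟨-, -, h3, h4⟩ := enb240_corner_rng hW h0
    exact rcy162_mem_cylV.2 ⟨rcy162_red_range hL v₀, h3, h4⟩
  sF := by
    intro f hf
    obtain ⟨f₀, h0, rfl⟩ := enb240_mem_F.1 hf
    exact rcy162_mem_cylF.2 ⟨rcy162_red_range hL f₀, hW.r0 f₀ h0, hW.r1 f₀ h0⟩
  sE := by
    intro e he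
    obtain ⟨⟨⟨x, y⟩, c⟩, h0, rfl⟩ := enb240_mem_E.1 he
    obtain ⟨h1, h2⟩ := rsk_mem_int.1 h0
    have a1 := hW.r0 _ h1
    have a2 := hW.r1 _ h1
    have a3 := hW.r0 _ h2
    refine rcy162_mem_cylE.2 ⟨rcy162_red_range hL _, ?_⟩
    cases c
    · left
      simp only [rswCo, Bool.false_eq_true, if_false] at a3
      dsimp only at a1 a2
      refine ⟨rfl, ?_, ?_⟩
      · show a < y
        omega
      · show y < b
        omega
    · right
      exact ⟨rfl, a1, a2⟩
  sC := Finset.image_subset_image (rsk_core_sub F)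
  wf := enb240_wf L F
  p0 := fun _ _ => rfl
  p1 := fun _ _ => rfl
  f0 := fun _ _ => rfl
  f1 := fun _ _ => rfl
  core := by
    intro e he hn
    obtain ⟨⟨h0, h1⟩, -⟩ := rcy162_mem_cylE.1 he
    constructor
    · intro hc
      obtain ⟨v, hv, hr⟩ := enb240_mem_C.1 hc
      exact hn (enb240_mem_E.2 ⟨(v, e.2), enb240_core_out hv e.2, enb240_lift_fst hr⟩)
    · intro hc
      obtain ⟨v, hv, hr⟩ := enb240_mem_C.1 hc
      exact hn (enb240_mem_E.2 ⟨enb240Pre v e.2, enb240_core_in hv e.2, enb240_lift_end h0 h1 hr⟩)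

/-! ## 3. the dictionary: retained edge pairs, boundary edge pairs, the rim -/

/-- two faces of the window enlarged by one column on the left with the same reduction are equal -/
theorem enb240_face_eq (hW : Enb240Win L a b w F) {g : ℤ × ℤ} (hg : g ∈ F) {f : ℤ × ℤ} (hf : f ∈ F) (c : Bool)
    (h : rcy162Red L g = rcy162Red L (rswCo (f, c))) : g = rswCo (f, c) := by
  have a1 := hW.c0 _ hg; have a2 := hW.c1 _ hg; have a3 := hW.c0 _ hf; have a4 := hW.c1 _ hf
  refine enb240_red_inj (w := w - 1) (by omega) (by omega) ?_ ?_ h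
  · cases c <;> simp only [rswCo, Bool.false_eq_true, if_false, if_true] <;> omega
  · cases c <;> simp only [rswCo, Bool.false_eq_true, if_false, if_true] <;> omega

open Classical in
/-- **(cin)** the edge pairs of the cylinder with both faces in the image are the images of the interior edges      (R291 `enb_cyl_cin`) -/
theorem enb240_cin (hL : 0 < L) (hW : Enb240Win L a b w F) :
    (rcy162Cyl L a b).E.filter (fun e => (rcy162Cyl L a b).f0 e ∈ (enb240Im L F).Fc ∧ (rcy162Cyl L a b).f1 e ∈ (enb240Im L F).Fc) = (enb240Im L F).E := by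
  ext e
  rw [Finset.mem_filter]
  constructor
  · rintro ⟨-, h0, h1⟩
    obtain ⟨f, hf, hr⟩ := enb240_mem_F.1 h0
    obtain ⟨g, hg, hr'⟩ := enb240_mem_F.1 h1
    have he : rcy162RedE L (f, e.2) = e := enb240_lift_fst hr
    have h2 : rcy162Red L g = rcy162Red L (rswCo (f, e.2)) := by
      rw [hr', rcy162_cyl_f1, ← rcy162_red_co L (f, e.2), he]
    have h3 := enb240_face_eq hW hg hf e.2 h2
    exact enb240_mem_E.2 ⟨(f, e.2), rsk_mem_int.2 ⟨hf, h3 ▸ hg⟩, he⟩
  · intro he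
    have hs := enb240_sub hL hW
    exact ⟨hs.sE he, (enb240_wf L F).f0 e he, (enb240_wf L F).f1 e he⟩

/-- a reduced polygon edge is not a retained edge pair -/
theorem enb240_bd_not_mem (hW : Enb240Win L a b w F) {e₀ : (ℤ × ℤ) × Bool} (h : RskBd F e₀) : rcy162RedE L e₀ ∉ (enb240Im L F).E := by
  intro hm
  obtain ⟨e₁, h1, hr⟩ := enb240_mem_E.1 hm
  obtain ⟨m1, m2⟩ := rsk_mem_int.1 h1
  have hr1 : rcy162Red L e₁.1 = rcy162Red L e₀.1 := (Prod.ext_iff.1 hr).1
  have hr2 : e₁.2 = e₀.2 := (Prod.ext_iff.1 hr).2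
  rcases h with ⟨k1, k2⟩ | ⟨k1, k2⟩
  · have := enb240_injF hW (Finset.mem_coe.2 m1) (Finset.mem_coe.2 k1) hr1
    have e : e₁ = e₀ := Prod.ext this hr2
    exact k2 (e ▸ m2)
  · have h3 : rcy162Red L (rswCo e₁) = rcy162Red L (rswCo e₀) := by
      rw [← rcy162_red_co L e₁, ← rcy162_red_co L e₀, hr]
    have h4 := enb240_injF hW (Finset.mem_coe.2 m2) (Finset.mem_coe.2 k2) h3
    have e : e₁.1 = e₀.1 := by
      obtain ⟨⟨x, y⟩, c⟩ := e₁
      obtain ⟨⟨x', y'⟩, c'⟩ := e₀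
      dsimp only at hr2
      subst hr2
      cases c
      · simp only [rswCo, Bool.false_eq_true, if_false, Prod.mk.injEq] at h4
        exact Prod.ext h4.1 (by dsimp only; omega)
      · simp only [rswCo, if_true, Prod.mk.injEq] at h4
        exact Prod.ext (by dsimp only; omega) h4.2
    exact k1 (e ▸ m1)

/-- **(cb)** the edge pairs of the cylinder off the image which have a face in the image are the reduced polygon edges      (R291 `enb_cyl_cb`) -/
theorem enb240_cb (hW : Enb240Win L a b w F) {e : (ℤ × ℤ) × Bool} (he : e ∈ (rcy162Cyl L a b).E) :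
    (e ∉ (enb240Im L F).E ∧ ((rcy162Cyl L a b).f0 e ∈ (enb240Im L F).Fc ∨ (rcy162Cyl L a b).f1 e ∈ (enb240Im L F).Fc)) ↔
      ∃ e₀, RskBd F e₀ ∧ rcy162RedE L e₀ = e := by
  obtain ⟨⟨h0, h1⟩, -⟩ := rcy162_mem_cylE.1 he
  constructor
  · rintro ⟨hn, hf | hf⟩
    · obtain ⟨f, hf, hr⟩ := enb240_mem_F.1 hf
      have hl : rcy162RedE L (f, e.2) = e := enb240_lift_fst hr
      refine ⟨(f, e.2), Or.inl ⟨hf, fun hc => hn (enb240_mem_E.2 ⟨(f, e.2), rsk_mem_int.2 ⟨hf, hc⟩, hl⟩)⟩, hl⟩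
    · obtain ⟨g, hg, hr⟩ := enb240_mem_F.1 hf
      have hl : rcy162RedE L (enb240PreF g e.2) = e := enb240_lift_co h0 h1 hr
      have hco : rswCo (enb240PreF g e.2) ∈ F := by rw [enb240_preF_co]; exact hg
      exact ⟨enb240PreF g e.2, Or.inr ⟨fun hc => hn (enb240_mem_E.2 ⟨_, rsk_mem_int.2 ⟨hc, hco⟩, hl⟩), hco⟩, hl⟩
  · rintro ⟨e₀, hb, rfl⟩
    refine ⟨enb240_bd_not_mem hW hb, ?_⟩
    rcases hb with ⟨k1, -⟩ | ⟨-, k2⟩
    · exact Or.inl (enb240_mem_F.2 ⟨e₀.1, k1, rfl⟩)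
    · exact Or.inr (enb240_mem_F.2 ⟨rswCo e₀, k2, (rcy162_red_co L e₀).symm⟩)

/-- **(lay)** the rim of the image = the image of the polygon corners      (R291 `enb_cyl_lay`) -/
theorem enb240_rim (hW : Enb240Win L a b w F) : (enb240Im L F).V \ enb240C L F = (cornersOf F \ rskCore F).image (rcy162Red L) := by
  ext v
  rw [Finset.mem_sdiff, Finset.mem_image]
  constructor
  · rintro ⟨hv, hn⟩
    obtain ⟨v₀, h0, rfl⟩ := enb240_mem_V.1 hv
    exact ⟨v₀, Finset.mem_sdiff.2 ⟨h0, fun hc => hn (enb240_mem_C.2 ⟨v₀, hc, rfl⟩)⟩, rfl⟩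
  · rintro ⟨v₀, h0, rfl⟩
    obtain ⟨h1, h2⟩ := Finset.mem_sdiff.1 h0
    refine ⟨enb240_mem_V.2 ⟨v₀, h1, rfl⟩, fun hc => ?_⟩
    obtain ⟨v₁, h3, hr⟩ := enb240_mem_C.1 hc
    have := enb240_injV hW (Finset.mem_coe.2 (rsk_core_sub F h3)) (Finset.mem_coe.2 h1) hr
    exact h2 (this ▸ h3)

/-- **the cut of 162 in the window, in the words of 91** -/
theorem enb240_cut_iff (hW : Enb240Win L a b w F) (A : Finset (ℤ × ℤ)) (ω : RswCfg) :
    Rcy162Cut (rcy162Cyl L a b) (enb240Im L F) (enb240C L F) A ω ↔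
      Rcy162Pin (enb240Im L F) (enb240C L F) A ω ∧ ∀ e₀, RskBd F e₀ → rcy162RedE L e₀ ∈ (rcy162Cyl L a b).E → rcy162RedE L e₀ ∈ ω.O := by
  unfold Rcy162Cut
  refine and_congr_right fun _ => ⟨fun h e₀ hb he => ?_, fun h e he hf => ?_⟩
  · obtain ⟨h1, h2⟩ := (enb240_cb hW he).2 ⟨e₀, hb, rfl⟩
    exact h _ (Finset.mem_sdiff.2 ⟨he, h1⟩) h2
  · obtain ⟨h1, h2⟩ := Finset.mem_sdiff.1 he
    obtain ⟨e₀, hb, rfl⟩ := (enb240_cb hW h1).1 ⟨h2, hf⟩
    exact h e₀ hb h1

/-! ## 4. the boundary condition, the flat law -/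

theorem enb240_map_S (hW : Enb240Win L a b w F) {ω : RswCfg} (hω : (rcy162Pl F).Cfg ω) {v : ℤ × ℤ} (hv : v ∈ cornersOf F) :
    rcy162Red L v ∈ (enb240Map L ω).S ↔ v ∈ ω.S := rcy162_hom_S (enb240_hom hW) hω hv

theorem enb240_map_D (hW : Enb240Win L a b w F) {ω : RswCfg} (hω : (rcy162Pl F).Cfg ω) {f : ℤ × ℤ} (hf : f ∈ F) :
    rcy162Red L f ∈ (enb240Map L ω).D ↔ f ∈ ω.D := rcy162_hom_D (enb240_hom hW) hω hf

theorem enb240_map_O (hW : Enb240Win L a b w F) {ω : RswCfg} (hω : (rcy162Pl F).Cfg ω) {e : (ℤ × ℤ) × Bool} (he : e ∈ rswInt F) :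
    rcy162RedE L e ∈ (enb240Map L ω).O ↔ e ∈ ω.O := rcy162_hom_open (enb240_hom hW) hω he

/-- **(bc)** the pin of the rim by the pattern of `(F, c)` is the flat boundary condition -/
theorem enb240_pin_iff (hW : Enb240Win L a b w F) (c : Bool) {ω : RswCfg} (hω : (rcy162Pl F).Cfg ω) :
    Rcy162Pin (enb240Im L F) (enb240C L F) (enb240A L F c) (enb240Map L ω) ↔ RswBc F c ω := by
  unfold Rcy162Pin RswBc
  rw [enb240_rim hW]
  have key : ∀ v ∈ cornersOf F, v ∉ rskCore F →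
      ((rcy162Red L v ∈ (enb240Map L ω).S ↔ rcy162Red L v ∈ enb240A L F c) ↔ (v ∈ ω.S ↔ c = true)) := by
    intro v hv hn
    rw [enb240_map_S hW hω hv]
    have : rcy162Red L v ∈ enb240A L F c ↔ v ∈ rskRim F c :=
      rcy162_mem_image_iff (enb240_injV hW) ((rsk_rim_sub F c).trans Finset.sdiff_subset) hv
    rw [this, rsk_mem_rim]
    constructor
    · intro h
      exact h.trans ⟨fun x => x.1, fun x => ⟨x, hv, hn⟩⟩
    · intro h
      exact h.trans ⟨fun x => ⟨x, hv, hn⟩, fun x => x.1⟩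
  constructor
  · intro h v hv hp
    have hn : v ∉ rskCore F := fun hc => (rsk_core_iff.1 hc) hp
    exact (key v hv hn).1 (h _ (Finset.mem_image.2 ⟨v, Finset.mem_sdiff.2 ⟨hv, hn⟩, rfl⟩))
  · intro h v' hv'
    obtain ⟨v, hv, rfl⟩ := Finset.mem_image.1 hv'
    obtain ⟨h1, h2⟩ := Finset.mem_sdiff.1 hv
    exact (key v h1 h2).2 (h v h1 (by by_contra hp; exact h2 (rsk_core_iff.2 hp)))

/-- **the pinned sums of the image are the flat sums of Defs/RSW** -/
theorem enb240_sum (hW : Enb240Win L a b w F) (t : ℝ) (c : Bool) (X : RswCfg → ℝ) :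
    (enb240Im L F).sum t (Rcy162Pin (enb240Im L F) (enb240C L F) (enb240A L F c)) X = rswSum t F c (fun ω => X (enb240Map L ω)) := by
  rw [rcy162_hom_sum (enb240_hom hW) (rcy162_pl_wf F), ← rcy162_pl_sum]
  exact rcy162_sum_congr_K (Y := rcy162Pl F) (t := t) (h := fun ω hω => enb240_pin_iff hW c hω) _

theorem enb240_Ex (hW : Enb240Win L a b w F) (t : ℝ) (c : Bool) (X : RswCfg → ℝ) :
    (enb240Im L F).Ex t (Rcy162Pin (enb240Im L F) (enb240C L F) (enb240A L F c)) X = rswE t F c (fun ω => X (enb240Map L ω)) := by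
  unfold Rcy162Sys.Ex rswE
  rw [enb240_sum hW, enb240_sum hW]

theorem enb240_Pr (hW : Enb240Win L a b w F) (t : ℝ) (c : Bool) (Ev : RswCfg → Prop) :
    (enb240Im L F).Pr t (Rcy162Pin (enb240Im L F) (enb240C L F) (enb240A L F c)) Ev = rswP t F c (fun ω => Ev (enb240Map L ω)) := by
  unfold Rcy162Sys.Pr rswP
  rw [enb240_Ex hW]

/-! ## 5. THE ENTRANCE -/

/-- the mixed boundary condition of the cylinder is read off the window -/
theorem enb240_mix_out (hW : Enb240Win L a b w F) (ω : RswCfg) :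
    Rcy162Mix L a b (rcy162Out (enb240Im L F) (enb240C L F) ω) ↔ Rcy162Mix L a b ω := by
  have key : ∀ j : ℤ, (j = a ∨ j = b) → ∀ v ∈ rcy162Row L j, v ∉ enb240C L F := by
    intro j hj v hv hc
    obtain ⟨v₀, h0, rfl⟩ := enb240_mem_C.1 hc
    obtain ⟨h1, h2⟩ := enb240_core_rng hW h0
    have h3 : v₀.2 = j := (rcy162_mem_row.1 hv).2
    omega
  unfold Rcy162Mix
  constructor
  · rintro ⟨h1, h2⟩
    refine ⟨fun v hv hs => h1 v hv ((rcy162_out_S (key a (Or.inl rfl) v hv)).2 hs), fun v hv => ?_⟩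
    exact (rcy162_out_S (key b (Or.inr rfl) v hv)).1 (h2 hv)
  · rintro ⟨h1, h2⟩
    refine ⟨fun v hv hs => h1 v hv ((rcy162_out_S (key a (Or.inl rfl) v hv)).1 hs), fun v hv => ?_⟩
    exact (rcy162_out_S (key b (Or.inr rfl) v hv)).2 (h2 hv)

/-- the flat boundary condition of the cylinder is read off the window -/
theorem enb240_flat_out (hW : Enb240Win L a b w F) (c : Bool) (ω : RswCfg) :
    Rcy162Flat L a b c (rcy162Out (enb240Im L F) (enb240C L F) ω) ↔ Rcy162Flat L a b c ω := by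
  have key : ∀ v ∈ rcy162Row L a ∪ rcy162Row L b, v ∉ enb240C L F := by
    intro v hv hc
    obtain ⟨v₀, h0, rfl⟩ := enb240_mem_C.1 hc
    obtain ⟨h1, h2⟩ := enb240_core_rng hW h0
    rcases Finset.mem_union.1 hv with h | h
    · have h3 : v₀.2 = a := (rcy162_mem_row.1 h).2
      omega
    · have h3 : v₀.2 = b := (rcy162_mem_row.1 h).2
      omega
  unfold Rcy162Flat
  exact forall₂_congr fun v hv => by rw [rcy162_out_S (key v hv)]

/-- **THE ENTRANCE**: given the cut around the window the inside has the planar flat law `(F, c)`      (R291 `ent_iso_N` + `enb_win_gen`) -/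
theorem enb240_enter (hL : 0 < L) (hW : Enb240Win L a b w F) {t : ℝ} {K : RswCfg → Prop}
    (hK : ∀ ω, K (rcy162Out (enb240Im L F) (enb240C L F) ω) ↔ K ω) (c : Bool) (hp : rswSum t F c (fun _ => 1) ≠ 0) (X Z : RswCfg → ℝ) :
    (rcy162Cyl L a b).sum t K (fun ω => rcy162CutI (rcy162Cyl L a b) (enb240Im L F) (enb240C L F) (enb240A L F c) ω *
        X (rcy162In (enb240Im L F) ω) * Z (rcy162Out (enb240Im L F) (enb240C L F) ω)) =
      rswE t F c (fun ω => X (enb240Map L ω)) *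
        (rcy162Cyl L a b).sum t K (fun ω => rcy162CutI (rcy162Cyl L a b) (enb240Im L F) (enb240C L F) (enb240A L F c) ω *
          Z (rcy162Out (enb240Im L F) (enb240C L F) ω)) := by
  rw [← enb240_Ex hW]
  refine rcy162_cut_comp (enb240_sub hL hW) hK _ ?_ X Z
  rw [enb240_sum hW]
  exact hp

/-- the entrance under the mixed law -/
theorem enb240_enter_mix (hL : 0 < L) (hW : Enb240Win L a b w F) {t : ℝ} (c : Bool) (hp : rswSum t F c (fun _ => 1) ≠ 0) (X Z : RswCfg → ℝ) :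
    (rcy162Cyl L a b).sum t (Rcy162Mix L a b) (fun ω => rcy162CutI (rcy162Cyl L a b) (enb240Im L F) (enb240C L F) (enb240A L F c) ω *
        X (rcy162In (enb240Im L F) ω) * Z (rcy162Out (enb240Im L F) (enb240C L F) ω)) =
      rswE t F c (fun ω => X (enb240Map L ω)) *
        (rcy162Cyl L a b).sum t (Rcy162Mix L a b) (fun ω => rcy162CutI (rcy162Cyl L a b) (enb240Im L F) (enb240C L F) (enb240A L F c) ω *
          Z (rcy162Out (enb240Im L F) (enb240C L F) ω)) :=
  enb240_enter hL hW (enb240_mix_out hW) c hp X Z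

/-! ## 6. the pull-back: a configuration of the cylinder read in the plane -/

open Classical in
/-- the configuration of the cylinder read on the planar face set `F` -/
noncomputable def enb240Pull (L : ℕ) (F : Finset (ℤ × ℤ)) (ω : RswCfg) : RswCfg :=
  ⟨(cornersOf F).filter (fun v => rcy162Red L v ∈ ω.S), F.filter (fun f => rcy162Red L f ∈ ω.D), (rswInt F).filter (fun e => rcy162RedE L e ∈ ω.O)⟩

theorem enb240_eqns_cite3 : True := by
  have := @enb240Pull.eq_1
  trivial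

theorem enb240_pull_S {ω : RswCfg} {v : ℤ × ℤ} : v ∈ (enb240Pull L F ω).S ↔ v ∈ cornersOf F ∧ rcy162Red L v ∈ ω.S := by
  unfold enb240Pull
  exact Finset.mem_filter

theorem enb240_pull_D {ω : RswCfg} {f : ℤ × ℤ} : f ∈ (enb240Pull L F ω).D ↔ f ∈ F ∧ rcy162Red L f ∈ ω.D := by
  unfold enb240Pull
  exact Finset.mem_filter

theorem enb240_pull_O {ω : RswCfg} {e : (ℤ × ℤ) × Bool} : e ∈ (enb240Pull L F ω).O ↔ e ∈ rswInt F ∧ rcy162RedE L e ∈ ω.O := by
  unfold enb240Pull
  exact Finset.mem_filter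

theorem enb240_pull_cfg (L : ℕ) (F : Finset (ℤ × ℤ)) (ω : RswCfg) : (rcy162Pl F).Cfg (enb240Pull L F ω) :=
  ⟨fun _ h => (enb240_pull_S.1 h).1, fun _ h => (enb240_pull_D.1 h).1, fun _ h => (enb240_pull_O.1 h).1⟩

theorem enb240_cfg_ext {ω ω' : RswCfg} (h1 : ω.S = ω'.S) (h2 : ω.D = ω'.D) (h3 : ω.O = ω'.O) : ω = ω' := by
  cases ω; cases ω'
  simp only at h1 h2 h3
  subst h1 h2 h3
  rfl

/-- pull-back after the map is the identity on the planar configurations -/
theorem enb240_pull_map (hW : Enb240Win L a b w F) {ω : RswCfg} (hω : (rcy162Pl F).Cfg ω) : enb240Pull L F (enb240Map L ω) = ω := by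
  refine enb240_cfg_ext ?_ ?_ ?_
  · ext v
    rw [enb240_pull_S]
    constructor
    · rintro ⟨h1, h2⟩
      exact (enb240_map_S hW hω h1).1 h2
    · intro h
      exact ⟨hω.1 h, (enb240_map_S hW hω (hω.1 h)).2 h⟩
  · ext f
    rw [enb240_pull_D]
    constructor
    · rintro ⟨h1, h2⟩
      exact (enb240_map_D hW hω h1).1 h2
    · intro h
      exact ⟨hω.2.1 h, (enb240_map_D hW hω (hω.2.1 h)).2 h⟩
  · ext e
    rw [enb240_pull_O]
    constructor
    · rintro ⟨h1, h2⟩
      exact (enb240_map_O hW hω h1).1 h2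
    · intro h
      exact ⟨hω.2.2 h, (enb240_map_O hW hω (hω.2.2 h)).2 h⟩

/-- the map after the pull-back is the restriction to the image -/
theorem enb240_map_pull (L : ℕ) (F : Finset (ℤ × ℤ)) (ω : RswCfg) : enb240Map L (enb240Pull L F ω) = rcy162In (enb240Im L F) ω := by
  refine enb240_cfg_ext ?_ ?_ ?_
  · ext v
    show v ∈ (enb240Pull L F ω).S.image (rcy162Red L) ↔ v ∈ ω.S ∩ (enb240Im L F).V
    rw [Finset.mem_image, Finset.mem_inter, enb240_mem_V]
    constructor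
    · rintro ⟨v₀, h0, rfl⟩
      obtain ⟨h1, h2⟩ := enb240_pull_S.1 h0
      exact ⟨h2, v₀, h1, rfl⟩
    · rintro ⟨h2, v₀, h1, rfl⟩
      exact ⟨v₀, enb240_pull_S.2 ⟨h1, h2⟩, rfl⟩
  · ext f
    show f ∈ (enb240Pull L F ω).D.image (rcy162Red L) ↔ f ∈ ω.D ∩ (enb240Im L F).Fc
    rw [Finset.mem_image, Finset.mem_inter, enb240_mem_F]
    constructor
    · rintro ⟨v₀, h0, rfl⟩
      obtain ⟨h1, h2⟩ := enb240_pull_D.1 h0
      exact ⟨h2, v₀, h1, rfl⟩
    · rintro ⟨h2, v₀, h1, rfl⟩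
      exact ⟨v₀, enb240_pull_D.2 ⟨h1, h2⟩, rfl⟩
  · ext e
    show e ∈ (enb240Pull L F ω).O.image (rcy162RedE L) ↔ e ∈ ω.O ∩ (enb240Im L F).E
    rw [Finset.mem_image, Finset.mem_inter, enb240_mem_E]
    constructor
    · rintro ⟨v₀, h0, rfl⟩
      obtain ⟨h1, h2⟩ := enb240_pull_O.1 h0
      exact ⟨h2, v₀, h1, rfl⟩
    · rintro ⟨h2, v₀, h1, rfl⟩
      exact ⟨v₀, enb240_pull_O.2 ⟨h1, h2⟩, rfl⟩

/-- the pull-back reads the image only -/
theorem enb240_pull_in (L : ℕ) (F : Finset (ℤ × ℤ)) (ω : RswCfg) : enb240Pull L F (rcy162In (enb240Im L F) ω) = enb240Pull L F ω := by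
  refine enb240_cfg_ext ?_ ?_ ?_
  · ext v
    rw [enb240_pull_S, enb240_pull_S]
    refine and_congr_right fun hv => ?_
    show rcy162Red L v ∈ ω.S ∩ (enb240Im L F).V ↔ _
    rw [Finset.mem_inter]
    exact ⟨fun h => h.1, fun h => ⟨h, enb240_mem_V.2 ⟨v, hv, rfl⟩⟩⟩
  · ext f
    rw [enb240_pull_D, enb240_pull_D]
    refine and_congr_right fun hv => ?_
    show rcy162Red L f ∈ ω.D ∩ (enb240Im L F).Fc ↔ _
    rw [Finset.mem_inter]
    exact ⟨fun h => h.1, fun h => ⟨h, enb240_mem_F.2 ⟨f, hv, rfl⟩⟩⟩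
  · ext e
    rw [enb240_pull_O, enb240_pull_O]
    refine and_congr_right fun hv => ?_
    show rcy162RedE L e ∈ ω.O ∩ (enb240Im L F).E ↔ _
    rw [Finset.mem_inter]
    exact ⟨fun h => h.1, fun h => ⟨h, enb240_mem_E.2 ⟨e, hv, rfl⟩⟩⟩

/-- the flat expectation reads the planar configurations only -/
theorem enb240_E_pull (hW : Enb240Win L a b w F) (t : ℝ) (c : Bool) (X₀ : RswCfg → ℝ) :
    rswE t F c (fun ω => X₀ (enb240Pull L F (enb240Map L ω))) = rswE t F c X₀ := by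
  unfold rswE
  congr 1
  rw [← rcy162_pl_sum, ← rcy162_pl_sum]
  exact rcy162_sum_congr (Y := rcy162Pl F) (t := t) (K := RswBc F c) (h := fun ω hω _ => by rw [enb240_pull_map hW hω])

/-- **THE ENTRANCE, pull-back form**: for ANY planar observable `X₀`: `Σ_cyl 1_cut X₀(pull) Z(out) = E^c_F[X₀] Σ_cyl 1_cut Z(out)` -/
theorem enb240_enter_pull (hL : 0 < L) (hW : Enb240Win L a b w F) {t : ℝ} {K : RswCfg → Prop}
    (hK : ∀ ω, K (rcy162Out (enb240Im L F) (enb240C L F) ω) ↔ K ω) (c : Bool) (hp : rswSum t F c (fun _ => 1) ≠ 0) (X₀ Z : RswCfg → ℝ) :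
    (rcy162Cyl L a b).sum t K (fun ω => rcy162CutI (rcy162Cyl L a b) (enb240Im L F) (enb240C L F) (enb240A L F c) ω *
        X₀ (enb240Pull L F ω) * Z (rcy162Out (enb240Im L F) (enb240C L F) ω)) =
      rswE t F c X₀ *
        (rcy162Cyl L a b).sum t K (fun ω => rcy162CutI (rcy162Cyl L a b) (enb240Im L F) (enb240C L F) (enb240A L F c) ω *
          Z (rcy162Out (enb240Im L F) (enb240C L F) ω)) := by
  have h := enb240_enter hL hW hK c hp (fun ω => X₀ (enb240Pull L F ω)) Z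
  simp only [enb240_pull_in] at h
  rw [enb240_E_pull hW] at h
  exact h

/-! ## 7. statuses and the field in the window -/

/-- a retained edge pair is good in the cylinder iff its lift is good for the pull-back -/
theorem enb240_good_pull (c : Bool) (ω : RswCfg) {e : (ℤ × ℤ) × Bool} (he : e ∈ rswInt F) :
    RswGood c (enb240Pull L F ω) e ↔ (rcy162Cyl L a b).Good c ω (rcy162RedE L e) := by
  unfold RswGood Rcy162Sys.Good
  rw [enb240_pull_O, enb240_pull_S, enb240_pull_S, rcy162_cyl_p1, rcy162_red_end]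
  have h1 := rsk_int_fst he
  have h2 := rsk_int_end he
  have e0 : (rcy162Cyl L a b).p0 (rcy162RedE L e) = rcy162Red L e.1 := rfl
  rw [e0]
  simp only [he, h1, h2, true_and]

/-- goodness of a retained edge pair is read inside the image -/
theorem enb240_good_in (c : Bool) (ω : RswCfg) {e : (ℤ × ℤ) × Bool} (he : e ∈ (enb240Im L F).E) :
    (enb240Im L F).Good c (rcy162In (enb240Im L F) ω) e ↔ (rcy162Cyl L a b).Good c ω e := by
  have w0 := (enb240_wf L F).p0 e he
  have w1 := (enb240_wf L F).p1 e he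
  unfold Rcy162Sys.Good rcy162In
  simp only [Finset.mem_inter, he, w0, w1, and_true]
  exact Iff.rfl

theorem enb240_good_map (hW : Enb240Win L a b w F) (c : Bool) {ω : RswCfg} (hω : (rcy162Pl F).Cfg ω) {e : (ℤ × ℤ) × Bool} (he : e ∈ rswInt F) :
    (enb240Im L F).Good c (enb240Map L ω) (rcy162RedE L e) ↔ RswGood c ω e :=
  rcy162_hom_good (enb240_hom hW) (rcy162_pl_wf F) c hω he

/-- **the status field of the cylinder at a vertex point of the window** -/
theorem enb240_fld_P (hL : 0 < L) (hW : Enb240Win L a b w F) (ω : RswCfg) {v : ℤ × ℤ} (hv : v ∈ cornersOf F) :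
    rcy162Fld L (rcy162Cyl L a b) ω (rtd111P v) = (rcy162Pl F).sgV (enb240Pull L F ω) v := by
  rw [rcy162_fld_P]
  have h1 : rcy162Red L v ∈ (rcy162Cyl L a b).V := (enb240_sub hL hW).sV (enb240_mem_V.2 ⟨v, hv, rfl⟩)
  have h2 : v ∈ (rcy162Pl F).V := hv
  unfold Rcy162Sys.sgV
  rw [if_pos h1, if_pos h2]
  by_cases h : rcy162Red L v ∈ ω.S
  · rw [if_pos h, if_pos (enb240_pull_S.2 ⟨hv, h⟩)]
  · rw [if_neg h, if_neg (fun hh => h (enb240_pull_S.1 hh).2)]

/-- **the status field of the cylinder at an edge point of the window** -/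
theorem enb240_fld_E (hL : 0 < L) (hW : Enb240Win L a b w F) (ω : RswCfg) {e : (ℤ × ℤ) × Bool} (he : e ∈ rswInt F) :
    rcy162Fld L (rcy162Cyl L a b) ω (rtd111E e) = (rcy162Pl F).sgE (enb240Pull L F ω) e := by
  rw [rcy162_fld_E]
  have h1 : rcy162RedE L e ∈ (rcy162Cyl L a b).E := (enb240_sub hL hW).sE (enb240_mem_E.2 ⟨e, he, rfl⟩)
  have h2 : e ∈ (rcy162Pl F).E := he
  unfold Rcy162Sys.sgE
  rw [if_pos h1, if_pos h2]
  have g1 := enb240_good_pull (L := L) (a := a) (b := b) true ω he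
  have g2 := enb240_good_pull (L := L) (a := a) (b := b) false ω he
  by_cases k1 : (rcy162Cyl L a b).Good true ω (rcy162RedE L e)
  · rw [if_pos k1, if_pos (show (rcy162Pl F).Good true (enb240Pull L F ω) e from g1.2 k1)]
  · rw [if_neg k1, if_neg (show ¬ (rcy162Pl F).Good true (enb240Pull L F ω) e from fun hh => k1 (g1.1 hh))]
    by_cases k2 : (rcy162Cyl L a b).Good false ω (rcy162RedE L e)
    · rw [if_pos k2, if_pos (show (rcy162Pl F).Good false (enb240Pull L F ω) e from g2.2 k2)]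
    · rw [if_neg k2, if_neg (show ¬ (rcy162Pl F).Good false (enb240Pull L F ω) e from fun hh => k2 (g2.1 hh))]

/-! ## 8. ANY pattern on the rim (strips: plus on two arcs, minus on the two others) -/

/-- the pin of the rim of the image by the image of a planar pattern `A₀` is the pin of the polygon corners by `A₀` -/
theorem enb240_pin_gen (hW : Enb240Win L a b w F) {A₀ : Finset (ℤ × ℤ)} (hA : A₀ ⊆ cornersOf F) {ω : RswCfg} (hω : (rcy162Pl F).Cfg ω) :
    Rcy162Pin (enb240Im L F) (enb240C L F) (A₀.image (rcy162Red L)) (enb240Map L ω) ↔ Rcy162Pin (rcy162Pl F) (rskCore F) A₀ ω := by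
  unfold Rcy162Pin
  rw [enb240_rim hW]
  have key : ∀ v ∈ cornersOf F,
      ((rcy162Red L v ∈ (enb240Map L ω).S ↔ rcy162Red L v ∈ A₀.image (rcy162Red L)) ↔ (v ∈ ω.S ↔ v ∈ A₀)) := by
    intro v hv
    rw [enb240_map_S hW hω hv, rcy162_mem_image_iff (enb240_injV hW) hA hv]
  constructor
  · intro h v hv
    exact (key v (Finset.mem_sdiff.1 hv).1).1 (h _ (Finset.mem_image.2 ⟨v, hv, rfl⟩))
  · intro h v' hv'
    obtain ⟨v, hv, rfl⟩ := Finset.mem_image.1 hv'
    exact (key v (Finset.mem_sdiff.1 hv).1).2 (h v hv)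

theorem enb240_sum_gen (hW : Enb240Win L a b w F) (t : ℝ) {A₀ : Finset (ℤ × ℤ)} (hA : A₀ ⊆ cornersOf F) (X : RswCfg → ℝ) :
    (enb240Im L F).sum t (Rcy162Pin (enb240Im L F) (enb240C L F) (A₀.image (rcy162Red L))) X =
      (rcy162Pl F).sum t (Rcy162Pin (rcy162Pl F) (rskCore F) A₀) (fun ω => X (enb240Map L ω)) := by
  rw [rcy162_hom_sum (enb240_hom hW) (rcy162_pl_wf F)]
  exact rcy162_sum_congr_K (Y := rcy162Pl F) (t := t) (h := fun ω hω => enb240_pin_gen hW hA hω) _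

theorem enb240_Ex_gen (hW : Enb240Win L a b w F) (t : ℝ) {A₀ : Finset (ℤ × ℤ)} (hA : A₀ ⊆ cornersOf F) (X : RswCfg → ℝ) :
    (enb240Im L F).Ex t (Rcy162Pin (enb240Im L F) (enb240C L F) (A₀.image (rcy162Red L))) X =
      (rcy162Pl F).Ex t (Rcy162Pin (rcy162Pl F) (rskCore F) A₀) (fun ω => X (enb240Map L ω)) := by
  unfold Rcy162Sys.Ex
  rw [enb240_sum_gen hW t hA, enb240_sum_gen hW t hA]

/-- **THE ENTRANCE, any pattern on the rim, pull-back form** -/
theorem enb240_enter_gen (hL : 0 < L) (hW : Enb240Win L a b w F) {t : ℝ} {K : RswCfg → Prop}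
    (hK : ∀ ω, K (rcy162Out (enb240Im L F) (enb240C L F) ω) ↔ K ω) {A₀ : Finset (ℤ × ℤ)} (hA : A₀ ⊆ cornersOf F)
    (hp : (rcy162Pl F).sum t (Rcy162Pin (rcy162Pl F) (rskCore F) A₀) (fun _ => 1) ≠ 0) (X₀ Z : RswCfg → ℝ) :
    (rcy162Cyl L a b).sum t K (fun ω => rcy162CutI (rcy162Cyl L a b) (enb240Im L F) (enb240C L F) (A₀.image (rcy162Red L)) ω *
        X₀ (enb240Pull L F ω) * Z (rcy162Out (enb240Im L F) (enb240C L F) ω)) =
      (rcy162Pl F).Ex t (Rcy162Pin (rcy162Pl F) (rskCore F) A₀) X₀ *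
        (rcy162Cyl L a b).sum t K (fun ω => rcy162CutI (rcy162Cyl L a b) (enb240Im L F) (enb240C L F) (A₀.image (rcy162Red L)) ω *
          Z (rcy162Out (enb240Im L F) (enb240C L F) ω)) := by
  have h := rcy162_cut_comp (enb240_sub hL hW) hK (A₀.image (rcy162Red L)) (by rw [enb240_sum_gen hW t hA]; exact hp)
    (fun ω => X₀ (enb240Pull L F ω)) Z
  simp only [enb240_pull_in] at h
  rw [enb240_Ex_gen hW t hA] at h
  have e : (rcy162Pl F).Ex t (Rcy162Pin (rcy162Pl F) (rskCore F) A₀) (fun ω => X₀ (enb240Pull L F (enb240Map L ω))) =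
      (rcy162Pl F).Ex t (Rcy162Pin (rcy162Pl F) (rskCore F) A₀) X₀ := by
    have e1 : (rcy162Pl F).sum t (Rcy162Pin (rcy162Pl F) (rskCore F) A₀) (fun ω => X₀ (enb240Pull L F (enb240Map L ω))) =
        (rcy162Pl F).sum t (Rcy162Pin (rcy162Pl F) (rskCore F) A₀) X₀ :=
      rcy162_sum_congr (Y := rcy162Pl F) (t := t) (K := Rcy162Pin (rcy162Pl F) (rskCore F) A₀)
        (h := fun ω hω _ => by rw [enb240_pull_map hW hω])
    unfold Rcy162Sys.Ex
    rw [e1]
  rw [e] at h
  exact h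

/-! ## 9. histories through the window -/

/-- a planar history read in the cylinder -/
def enb240MapK (L : ℕ) (K : RswCon) : RswCon := rcy162MapK (rcy162Red L) (rcy162RedE L) K

theorem enb240_eqns_cite4 : True := by
  have := @enb240MapK.eq_1
  trivial

theorem enb240_holds (hW : Enb240Win L a b w F) {K : RswCon} (hK : (rcy162Pl F).Legal K) {ω : RswCfg} (hω : (rcy162Pl F).Cfg ω) :
    (enb240Im L F).Holds (enb240MapK L K) (enb240Map L ω) ↔ K.Holds ω :=
  (rcy162_hom_holds (enb240_hom hW) (rcy162_pl_wf F) hK hω).trans (rcy162_pl_holds F K ω)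

theorem enb240_PK (hW : Enb240Win L a b w F) (t : ℝ) (B' : RswCfg → Prop) {K : RswCon} (hK : (rcy162Pl F).Legal K) (L' : RswCfg → Prop) :
    (enb240Im L F).PK t B' (enb240MapK L K) L' = (rcy162Pl F).PK t (fun ω => B' (enb240Map L ω)) K (fun ω => L' (enb240Map L ω)) :=
  rcy162_hom_PK (enb240_hom hW) (rcy162_pl_wf F) t B' hK L'

/-! ## 10. the field of the cylinder in the window = the planar field of the pull-back; crossing events of a box -/

theorem enb240_red_zero (u : ℤ × ℤ) : rcy162Red 0 u = u := by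
  unfold rcy162Red
  simp

theorem enb240_redE_zero (e : (ℤ × ℤ) × Bool) : rcy162RedE 0 e = e := by
  unfold rcy162RedE
  rw [enb240_red_zero]

/-- the planar status field of a planar configuration (`L = 0`: no reduction) -/
noncomputable def enb240Fld (F : Finset (ℤ × ℤ)) (ω : RswCfg) : R291.CyF := rcy162Fld 0 (rcy162Pl F) ω

/-- the refined cell `p` belongs to `F`: a vertex point of a corner, an edge point of an interior edge, or a face point -/
def Enb240Cell (F : Finset (ℤ × ℤ)) (p : ℤ × ℤ) : Prop :=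
  (p.1 % 2 = 0 → p.2 % 2 = 0 → (p.1 / 2, p.2 / 2) ∈ cornersOf F) ∧
  (p.1 % 2 = 0 → p.2 % 2 = 1 → ((p.1 / 2, p.2 / 2), true) ∈ rswInt F) ∧
  (p.1 % 2 = 1 → p.2 % 2 = 0 → ((p.1 / 2, p.2 / 2), false) ∈ rswInt F)

theorem enb240_eqns_cite5 : True := by
  have := @enb240Fld.eq_1
  have := @Enb240Cell.eq_1
  trivial

theorem enb240_pl_fld_P (F : Finset (ℤ × ℤ)) (ω : RswCfg) (v : ℤ × ℤ) : enb240Fld F ω (rtd111P v) = (rcy162Pl F).sgV ω v := by
  unfold enb240Fld
  rw [rcy162_fld_P, enb240_red_zero]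

theorem enb240_pl_fld_E (F : Finset (ℤ × ℤ)) (ω : RswCfg) (e : (ℤ × ℤ) × Bool) : enb240Fld F ω (rtd111E e) = (rcy162Pl F).sgE ω e := by
  unfold enb240Fld
  rw [rcy162_fld_E, enb240_redE_zero]

/-- **the two fields agree on the cells of `F`** -/
theorem enb240_fld_agree (hL : 0 < L) (hW : Enb240Win L a b w F) (ω : RswCfg) {p : ℤ × ℤ} (hp : Enb240Cell F p) :
    rcy162Fld L (rcy162Cyl L a b) ω p = enb240Fld F (enb240Pull L F ω) p := by
  obtain ⟨c1, c2, c3⟩ := hp
  rcases Int.emod_two_eq_zero_or_one p.1 with h1 | h1 <;> rcases Int.emod_two_eq_zero_or_one p.2 with h2 | h2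
  · have e : p = rtd111P (p.1 / 2, p.2 / 2) := by
      unfold rtd111P; ext <;> dsimp only <;> omega
    rw [e, enb240_fld_P hL hW ω (c1 h1 h2), enb240_pl_fld_P]
  · have e : p = rtd111E ((p.1 / 2, p.2 / 2), true) := by
      unfold rtd111E; ext <;> simp only [if_true] <;> omega
    rw [e, enb240_fld_E hL hW ω (c2 h1 h2), enb240_pl_fld_E]
  · have e : p = rtd111E ((p.1 / 2, p.2 / 2), false) := by
      unfold rtd111E; ext <;> simp only [Bool.false_eq_true, if_false] <;> omega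
    rw [e, enb240_fld_E hL hW ω (c3 h1 h2), enb240_pl_fld_E]
  · have e : p = rtd111F (p.1 / 2, p.2 / 2) := by
      unfold rtd111F; ext <;> dsimp only <;> omega
    unfold enb240Fld
    rw [e, rcy162_fld_F, rcy162_fld_F]

/-- two fields which agree on a set have the same cells of sign `s` in it -/
theorem enb240_on_congr {R : Set (ℤ × ℤ)} {τ τ' : R291.CyF} (h : ∀ p ∈ R, τ p = τ' p) (s : SignType) :
    R ∩ R291.cyOn s τ = R ∩ R291.cyOn s τ' := by
  ext p
  constructor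
  · rintro ⟨h1, h2⟩
    exact ⟨h1, show τ' p = s by rw [← h p h1]; exact h2⟩
  · rintro ⟨h1, h2⟩
    exact ⟨h1, show τ p = s by rw [h p h1]; exact h2⟩

theorem enb240_off_congr {R : Set (ℤ × ℤ)} {τ τ' : R291.CyF} (h : ∀ p ∈ R, τ p = τ' p) (s : SignType) :
    R \ R291.cyOn s τ = R \ R291.cyOn s τ' := by
  ext p
  constructor
  · rintro ⟨h1, h2⟩
    exact ⟨h1, fun h3 => h2 (show τ p = s by rw [h p h1]; exact h3)⟩
  · rintro ⟨h1, h2⟩
    exact ⟨h1, fun h3 => h2 (show τ' p = s by rw [← h p h1]; exact h3)⟩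

/-- **vertical crossings of a box of cells of `F`: cylinder field = planar field of the pull-back** -/
theorem enb240_V_iff (hL : 0 < L) (hW : Enb240Win L a b w F) (ω : RswCfg) (s : SignType) {x0 x1 y0 y1 : ℤ}
    (hB : ∀ p ∈ R291.tscBox x0 x1 y0 y1, Enb240Cell F p) :
    rcy162Fld L (rcy162Cyl L a b) ω ∈ R291.cyV s x0 x1 y0 y1 ↔ enb240Fld F (enb240Pull L F ω) ∈ R291.cyV s x0 x1 y0 y1 := by
  unfold R291.cyV
  show R291.CyX _ _ _ ↔ R291.CyX _ _ _
  rw [enb240_on_congr (fun p hp => enb240_fld_agree hL hW ω (hB p hp)) s]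

/-- **horizontal crossings (dual form) of a box of cells of `F`** -/
theorem enb240_H_iff (hL : 0 < L) (hW : Enb240Win L a b w F) (ω : RswCfg) (s : SignType) {x0 x1 y0 y1 : ℤ}
    (hB : ∀ p ∈ R291.tscBox x0 x1 y0 y1, Enb240Cell F p) :
    rcy162Fld L (rcy162Cyl L a b) ω ∈ R291.cyH s x0 x1 y0 y1 ↔ enb240Fld F (enb240Pull L F ω) ∈ R291.cyH s x0 x1 y0 y1 := by
  unfold R291.cyH
  show ¬ R291.CyX _ _ _ ↔ ¬ R291.CyX _ _ _
  rw [enb240_off_congr (fun p hp => enb240_fld_agree hL hW ω (hB p hp)) s]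

/-- the refined box strictly inside a rectangle of faces consists of cells of the rectangle -/
theorem enb240_cell_rect {X0 X1 Y0 Y1 : ℤ} {p : ℤ × ℤ} (h1 : 2 * X0 + 1 ≤ p.1) (h2 : p.1 ≤ 2 * X1 - 1) (h3 : 2 * Y0 + 1 ≤ p.2) (h4 : p.2 ≤ 2 * Y1 - 1) :
    Enb240Cell (Finset.Ico X0 X1 ×ˢ Finset.Ico Y0 Y1) p := by
  refine ⟨fun e1 e2 => ?_, fun e1 e2 => ?_, fun e1 e2 => ?_⟩
  · refine rsk_mem_corners.2 (Or.inl ?_)
    rw [Finset.mem_product, Finset.mem_Ico, Finset.mem_Ico]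
    dsimp only
    omega
  · rw [rsk_mem_int, Finset.mem_product, Finset.mem_Ico, Finset.mem_Ico, Finset.mem_product, Finset.mem_Ico, Finset.mem_Ico]
    simp only [rswCo, if_true]
    omega
  · rw [rsk_mem_int, Finset.mem_product, Finset.mem_Ico, Finset.mem_Ico, Finset.mem_product, Finset.mem_Ico, Finset.mem_Ico]
    simp only [rswCo, Bool.false_eq_true, if_false]
    omega

/-- a rectangle of faces is in the window -/
theorem enb240_win_rect {X0 X1 Y0 Y1 : ℤ} (h1 : w ≤ X0) (h2 : X1 < w + L) (h3 : a ≤ Y0) (h4 : Y1 ≤ b) :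
    Enb240Win L a b w (Finset.Ico X0 X1 ×ˢ Finset.Ico Y0 Y1) := by
  refine ⟨fun f hf => ?_, fun f hf => ?_, fun f hf => ?_, fun f hf => ?_⟩ <;>
  · rw [Finset.mem_product, Finset.mem_Ico, Finset.mem_Ico] at hf
    omega

/-! ## 11. companion of `Rsw/Enter210` (210): the retained system, the layer, THE ENTRANCE THROUGH THE WINDOW -/

/-- the image is the retained system of 102 / 210 -/
theorem enb240_SR (L : ℕ) (a b : ℤ) (F : Finset (ℤ × ℤ)) :
    rpo102SR (rcy162Cyl L a b) (enb240Im L F).V (enb240Im L F).Fc (enb240Im L F).E = enb240Im L F := rfl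

theorem enb240_win_mono {a' b' : ℤ} (ha : a ≤ a') (hb : b' ≤ b) (hW : Enb240Win L a' b' w F) : Enb240Win L a b w F :=
  ⟨hW.c0, hW.c1, fun f hf => ha.trans (hW.r0 f hf), fun f hf => (hW.r1 f hf).trans_le hb⟩

/-- at a polygon corner one of three edges is not interior -/
theorem enb240_rim_edge {v : ℤ × ℤ} (hn : v ∉ rskCore F) : (v, false) ∉ rswInt F ∨ (v, true) ∉ rswInt F ∨ enb240Pre v false ∉ rswInt F := by
  by_contra hc
  push Not at hc
  obtain ⟨h1, h2, h3⟩ := hc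
  obtain ⟨a1, a2⟩ := rsk_mem_int.1 h1
  obtain ⟨-, b2⟩ := rsk_mem_int.1 h2
  obtain ⟨-, c2⟩ := rsk_mem_int.1 h3
  refine hn (rsk_mem_core.2 ⟨a1, ?_, ?_, ?_⟩)
  · simpa [rswCo] using b2
  · simpa [rswCo] using a2
  · simpa [rswCo, enb240Pre] using c2

theorem enb240_redE_eq {w' : ℤ} {e₁ e₀ : (ℤ × ℤ) × Bool} (h1 : w' ≤ e₁.1.1) (h2 : e₁.1.1 < w' + L) (h3 : w' ≤ e₀.1.1) (h4 : e₀.1.1 < w' + L)
    (h : rcy162RedE L e₁ = rcy162RedE L e₀) : e₁ = e₀ :=
  Prod.ext (enb240_red_inj h1 h2 h3 h4 (Prod.ext_iff.1 h).1) (Prod.ext_iff.1 h).2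

/-- **(lay)** the layer of 210 for a window strictly inside the cylinder = the image of the polygon corners      (R291 `enb_cyl_lay`) -/
theorem enb240_lay (hL : 0 < L) (hW : Enb240Win L (a + 1) (b - 1) w F) :
    ent210Lay (rcy162Cyl L a b) (enb240Im L F).V (enb240Im L F).E = (cornersOf F \ rskCore F).image (rcy162Red L) := by
  have hW0 : Enb240Win L a b w F := enb240_win_mono (by omega) (by omega) hW
  ext v'
  rw [ent210_mem_lay, ← enb240_rim hW0, Finset.mem_sdiff]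
  constructor
  · rintro ⟨hv, y, hy, hvy⟩
    obtain ⟨hy1, hy2⟩ := Finset.mem_sdiff.1 hy
    have hc := (enb240_sub hL hW0).core y hy1 hy2
    refine ⟨hv, fun hC => ?_⟩
    unfold rpo102Sv at hvy
    rw [Finset.mem_insert, Finset.mem_singleton] at hvy
    rcases hvy with rfl | rfl
    · exact hc.1 hC
    · exact hc.2 hC
  · rintro ⟨hv, hn⟩
    obtain ⟨v, h0, rfl⟩ := enb240_mem_V.1 hv
    refine ⟨hv, ?_⟩
    have hcore : v ∉ rskCore F := fun h => hn (enb240_mem_C.2 ⟨v, h, rfl⟩)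
    obtain ⟨c1, c2, r1, r2⟩ := enb240_corner_rng hW h0
    have hnot : ∀ e₀ : (ℤ × ℤ) × Bool, e₀ ∉ rswInt F → (e₀.1.1 = v.1 ∨ e₀.1.1 = v.1 - 1) → rcy162RedE L e₀ ∉ (enb240Im L F).E := by
      intro e₀ he₀ hcol hm
      obtain ⟨e₁, h1, hr⟩ := enb240_mem_E.1 hm
      have k1 := hW.c0 _ (rsk_mem_int.1 h1).1
      have k2 := hW.c1 _ (rsk_mem_int.1 h1).1
      rcases hcol with hcol | hcol
      · exact he₀ (enb240_redE_eq (w' := w) k1 (by omega) (by omega) (by omega) hr ▸ h1)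
      · exact he₀ (enb240_redE_eq (w' := w - 1) (by omega) (by omega) (by omega) (by omega) hr ▸ h1)
    rcases enb240_rim_edge hcore with he | he | he
    · refine ⟨rcy162RedE L (v, false), Finset.mem_sdiff.2 ⟨?_, hnot _ he (Or.inl rfl)⟩, ?_⟩
      · exact rcy162_mem_cylE.2 ⟨rcy162_red_range hL _, Or.inl ⟨rfl, by show a < v.2; omega, by show v.2 < b; omega⟩⟩
      · unfold rpo102Sv
        exact Finset.mem_insert_self _ _
    · refine ⟨rcy162RedE L (v, true), Finset.mem_sdiff.2 ⟨?_, hnot _ he (Or.inl rfl)⟩, ?_⟩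
      · exact rcy162_mem_cylE.2 ⟨rcy162_red_range hL _, Or.inr ⟨rfl, by show a ≤ v.2; omega, by show v.2 < b; omega⟩⟩
      · unfold rpo102Sv
        exact Finset.mem_insert_self _ _
    · refine ⟨rcy162RedE L (enb240Pre v false), Finset.mem_sdiff.2 ⟨?_, hnot _ he (Or.inr (by simp [enb240Pre]))⟩, ?_⟩
      · exact rcy162_mem_cylE.2 ⟨rcy162_red_range hL _, Or.inl ⟨rfl, by show a < v.2; omega, by show v.2 < b; omega⟩⟩
      · unfold rpo102Sv
        rw [Finset.mem_insert, Finset.mem_singleton]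
        right
        rw [rcy162_cyl_p1, rcy162_red_end, enb240_pre_end]

/-- the strip history of 210 without boundary edge pairs: pins only -/
theorem enb240_H0_holds (S : Rcy162Sys) (La Lc Ld Lb : Finset (ℤ × ℤ)) (ω : RswCfg) :
    (ent210H0 S ∅ La Lc Ld Lb).Holds S ω ↔ La ∪ Lc ⊆ ω.S ∧ ∀ v ∈ R291.glEnd La Lc Ld Lb, v ∉ ω.S := by
  unfold ent210H0 Rpo102Con.Holds
  simp

/-- **THE ENTRANCE THROUGH THE WINDOW** (`ent210_join_iso_P` of 210 along `enb240_hom`): a bound for the PLANAR strip law of `F` (plus on `La₀ ∪ Lc₀`, minus on the ends) gives the bound in the cylinder given the record `h`;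
only the ports of the ambient are paid.      (R291 `ent_join_iso` + `enb_win_gen`) -/
theorem enb240_join_win (hW : Enb240Win L a b w F) {t : ℝ} {h : Rpo102Con} {La₀ Lc₀ Ld₀ Lb₀ Pl : Finset (ℤ × ℤ)} {Rib : Finset ((ℤ × ℤ) × Bool)}
    (hLa : La₀ ⊆ cornersOf F) (hLc : Lc₀ ⊆ cornersOf F) (hLd : Ld₀ ⊆ cornersOf F) (hLb : Lb₀ ⊆ cornersOf F)
    (r : Ent210Rec (rcy162Cyl L a b) t h (enb240Im L F).V (enb240Im L F).Fc (enb240Im L F).E (La₀.image (rcy162Red L)) (Lc₀.image (rcy162Red L))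
      (Ld₀.image (rcy162Red L)) (Lb₀.image (rcy162Red L)) Pl Rib)
    (hord : Ent210Ord (rcy162Cyl L a b) t (ent210Sea (rcy162Cyl L a b) h (enb240Im L F).V (enb240Im L F).E Pl Rib) h)
    {Kc₀ : Finset ((ℤ × ℤ) × Bool)} (hKc : Kc₀ ⊆ rswInt F) {c : ℝ}
    (hc : c ≤ (rcy162Pl F).Pr t ((ent210H0 (rcy162Pl F) ∅ La₀ Lc₀ Ld₀ Lb₀).Holds (rcy162Pl F))
      (fun ω => Ent210Join (rcy162Pl F) (↑Kc₀ ∩ ent210On (rcy162Pl F) ω) La₀ Lc₀)) :
    c ≤ 2 ^ ((ent210P1 (rcy162Cyl L a b) h (enb240Im L F).V (enb240Im L F).Fc (enb240Im L F).E Pl Rib).card - 1) *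
      (rcy162Cyl L a b).Pr t (h.Holds (rcy162Cyl L a b))
        (fun ω => Ent210Join (rcy162Cyl L a b) (↑(Kc₀.image (rcy162RedE L)) ∩ ent210On (rcy162Cyl L a b) ω) (La₀.image (rcy162Red L)) (Lc₀.image (rcy162Red L))) := by
  have g := ent210_geo_SR r
  rw [enb240_SR] at g
  have h1 := ent210_join_iso_P (enb240_hom hW) (rcy162_pl_wf F) (Cb₀ := ∅) (Finset.empty_subset _) hLa hLc hLd hLb
    (by rw [Finset.image_empty]; exact g) hord (Finset.image_subset_image hKc) hc
  rwa [Finset.image_empty, ent210_P2_empty, Finset.card_empty, Nat.zero_sub, Nat.zero_add] at h1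

end win

end Claimed.Agent.R292
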