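import Claimed.Agent.R292.Rsw.Enter210
import Claimed.Agent.R292.Rsw.LenInst182

/-!
# Row 292 (S0540), Rsw/GlueDefs200 : RSW CORE A3 PART II (TIP / TUBE): DICTIONARY of the glue machine on the edge-pair systems `Rcy162Sys` + THE ENTRANCE FOR A RECORD (port of R291 `Glue/EnterM`)      (owner helper200; prefix `gd200` / `Gd200`)      0 sorry

Order of 82 (msg 124156).   v1: everything that `Rsw/Enter210` (210, ON MAIN) already types is REUSED; this file types only what is missing.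

## DICTIONARY (rows 5 + 6 of c1_post; REUSE, do not retype)
| R291 | on `Z^2` |
|---|---|
| `ClSys V Y`, `S.A`, `S.C`, `S.sv y`, `S.q y` | `Rcy162Sys` (162), `S.V` (sites of `s`) AND `S.Fc` (faces of `d`), `S.E`, `rpo102Sv S e` (endpoints) AND `rpo102Sd S e` (faces) (102), ONE parameter `t` |
| `ClCfg`, `ω.B ω.W ω.O` | `RswCfg`, `ω.S ω.D ω.O` |
| `ClOk S` | `S.WF` + `0 < t` + `t < 1` |
| `clTau S ω y = 1 / -1 / 0` | `S.Good true ω e` / `S.Good false ω e` / neither   (`S.sgE ω e : SignType`) |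
| `ClCon`, `K.Holds S` | `Rpo102Con`, `K.Holds S` (102);   without ties `RswCon` (121), `S.Holds K` (162) = `rse182Holds S K` (182);   bridge `rpo102Of K E`, `rpo102_of_holds` |
| `ClLegal` `ClLe` `ClFeas` `dis_feas` `dis_feas_conv` | `Ent210Legal` `Ent210Le` `Ent210Feas` `ent210_feas` `ent210_feas_conv` (210);   without ties `Rse182Legal` `Rse182Le` `Rse182Feas` (182) |
| `S.Z K`, `S.N K G`, `S.E`, `S.P` | `S.sum t K (fun _ => 1)`, `S.sum t K G`, `S.Ex t K G`, `S.Pr t K L` (162) |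
| `ClMono G` | `∀ ω ω', S.Le ω ω' → G ω ≤ G ω'` (= `Rci69Inc S G` of 69) |
| `PrcLoc` `PrcSplit` `prc_two_amb` | `Rpo102Loc R YR F`, `Rpo102Split S t K R Q YR ER P` (ports = FACES), `rpo102_two_amb`, `rpo102_lower_closed` (102) |
| `CuIso` | `Rcy162Hom` (162) |
| `glCg GlJoinC glOn _ 1 glInd glH0` | `ent210Cg Ent210Join ent210On ent210Ind ent210H0` (210);   `glEnd`, `GlJoin`, `TscR`, `TscConn` are generic: R291 |
| `entLay entM entSea entP1 entP2 EntOrd EntGeo EntRec` | `ent210Lay ent210M ent210Sea ent210P1 ent210P2 Ent210Ord Ent210Geo Ent210Rec` (210) |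
| `entClip T Q qb`, `entCb` | GONE: closed strip system = `rpo102SR T R Q YR` (102), `Cb = ∅`, `ent210_geo_SR`, `ent210_join_SR` (210) |
| `lenObs S K Q ω₀`, `LenAgr` | **`gd200Obs S K Pv Qc ω₀`**, **`Gd200Agr`** (HERE: observed sites `Pv`, observed edges `Qc`);   `rse182Obs Y K Q ω₀` of 182 IS `gd200Obs` with `Pv = rse182Sv Y Q`, `Qc = rse182Ed Y Q`: `gd200_obs_182` |
| `enmQ enmPl enmSd EnmRec enm_geo enm_join enm_mem_P1 enm_join_iso` | **`gd200Q` + `gd200QF`, `gd200Pl`, `gd200Sd`, `Gd200Rec`, `gd200_rec`, `gd200_join`, `gd200_mem_P1`, `gd200_join_iso`** (HERE) |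
| `ClSys.gr`, `GlStrip GlDouble glMir GlPlace GlPlaceC` | **`gd200Gr`, `Gd200Strip Gd200Double gd200Mir Gd200Place Gd200PlaceC`** (HERE, definitions only; see the WARNING of §4) |

## CONTENTS
§1 the record: `gd200Obs`, `Gd200Agr`, `gd200_obs_holds`, `gd200_obs_legal`, `gd200_obs_182`.
§2 `gd200Q gd200QF gd200Pl gd200Sd Gd200Rec`, **`gd200_rec`** : `Gd200Rec ⟹ Ent210Rec`.
§3 EXITS **`gd200_join`** (closed strip law ⟹ ambient given the record, constant `2 ^ k`, `k + 1` = bound on the number of ports), `gd200_mem_P1`, **`gd200_join_iso`** (from a reference strip).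
§4 strips, doubles, places: definitions.
-/

set_option autoImplicit false
set_option linter.unusedSectionVars false
set_option linter.unusedVariables false
set_option linter.unusedSimpArgs false

namespace Claimed.Agent.R292

open Claims Claims.C0468 Claimed.Agent.R291

/-! ## 1. the record -/

open Classical in
/-- `lenObs`: `K` together with the observation of `ω₀` on the SITES of `Pv` (spins) and on the EDGES of `Qc` (statuses) -/
noncomputable def gd200Obs (S : Rcy162Sys) (K : Rpo102Con) (Pv : Finset (ℤ × ℤ)) (Qc : Finset ((ℤ × ℤ) × Bool)) (ω₀ : RswCfg) : Rpo102Con :=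
  ⟨K.Sp ∪ Pv.filter (fun v => v ∈ ω₀.S), K.Sm ∪ Pv.filter (fun v => v ∉ ω₀.S), K.Eq,
   K.Gp ∪ Qc.filter (fun e => S.Good true ω₀ e), K.Gm ∪ Qc.filter (fun e => S.Good false ω₀ e),
   K.Cl ∪ Qc.filter (fun e => ¬ S.Good true ω₀ e ∧ ¬ S.Good false ω₀ e)⟩

/-- `LenAgr`: `ω` agrees with `ω₀` on the sites of `Pv` and on the edges of `Qc` (an edge which is not good in `ω₀` is CLOSED in `ω`) -/
def Gd200Agr (S : Rcy162Sys) (Pv : Finset (ℤ × ℤ)) (Qc : Finset ((ℤ × ℤ) × Bool)) (ω₀ ω : RswCfg) : Prop :=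
  (∀ v ∈ Pv, (v ∈ ω.S ↔ v ∈ ω₀.S)) ∧ ∀ e ∈ Qc, (S.Good true ω₀ e → S.Good true ω e) ∧ (S.Good false ω₀ e → S.Good false ω e) ∧
    (¬ S.Good true ω₀ e ∧ ¬ S.Good false ω₀ e → e ∉ ω.O)

theorem gd200_rec_eqns_cite : True := by
  have := @gd200Obs.eq_1
  have := @Gd200Agr.eq_1
  trivial

/-- `len_obs_holds` -/
theorem gd200_obs_holds (S : Rcy162Sys) (K : Rpo102Con) (Pv : Finset (ℤ × ℤ)) (Qc : Finset ((ℤ × ℤ) × Bool)) (ω₀ ω : RswCfg) :
    (gd200Obs S K Pv Qc ω₀).Holds S ω ↔ K.Holds S ω ∧ Gd200Agr S Pv Qc ω₀ ω := by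
  classical
  constructor
  · rintro ⟨h1, h2, h3, h4, h5, h6⟩
    refine ⟨⟨fun v hv => h1 (Finset.mem_union_left _ hv), fun v hv => h2 v (Finset.mem_union_left _ hv), h3,
      fun y hy => h4 y (Finset.mem_union_left _ hy), fun y hy => h5 y (Finset.mem_union_left _ hy),
      fun y hy => h6 y (Finset.mem_union_left _ hy)⟩, ?_, ?_⟩
    · intro v hv
      constructor
      · intro hB
        by_contra hn
        exact h2 v (Finset.mem_union_right _ (Finset.mem_filter.2 ⟨hv, hn⟩)) hB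
      · intro h0
        exact h1 (Finset.mem_union_right _ (Finset.mem_filter.2 ⟨hv, h0⟩))
    · intro y hy
      exact ⟨fun h => h4 y (Finset.mem_union_right _ (Finset.mem_filter.2 ⟨hy, h⟩)),
        fun h => h5 y (Finset.mem_union_right _ (Finset.mem_filter.2 ⟨hy, h⟩)),
        fun h => h6 y (Finset.mem_union_right _ (Finset.mem_filter.2 ⟨hy, h⟩))⟩
  · rintro ⟨⟨h1, h2, h3, h4, h5, h6⟩, g1, g2⟩
    refine ⟨?_, ?_, h3, ?_, ?_, ?_⟩
    · intro v hv
      rcases Finset.mem_union.1 hv with h | h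
      · exact h1 h
      · obtain ⟨hm, h0⟩ := Finset.mem_filter.1 h
        exact (g1 v hm).2 h0
    · intro v hv
      rcases Finset.mem_union.1 hv with h | h
      · exact h2 v h
      · obtain ⟨hm, h0⟩ := Finset.mem_filter.1 h
        exact fun hB => h0 ((g1 v hm).1 hB)
    · intro y hy
      rcases Finset.mem_union.1 hy with h | h
      · exact h4 y h
      · obtain ⟨hm, h0⟩ := Finset.mem_filter.1 h
        exact (g2 y hm).1 h0
    · intro y hy
      rcases Finset.mem_union.1 hy with h | h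
      · exact h5 y h
      · obtain ⟨hm, h0⟩ := Finset.mem_filter.1 h
        exact (g2 y hm).2.1 h0
    · intro y hy
      rcases Finset.mem_union.1 hy with h | h
      · exact h6 y h
      · obtain ⟨hm, h0⟩ := Finset.mem_filter.1 h
        exact (g2 y hm).2.2 h0

/-- `len_obs_legal`: the endpoints of the observed edges are observed -/
theorem gd200_obs_legal (S : Rcy162Sys) (K : Rpo102Con) (hK : Ent210Legal S K) (Pv : Finset (ℤ × ℤ)) (Qc : Finset ((ℤ × ℤ) × Bool))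
    (hP : ∀ y ∈ Qc, rpo102Sv S y ⊆ Pv) (ω₀ : RswCfg) : Ent210Legal S (gd200Obs S K Pv Qc ω₀) := by
  classical
  refine ⟨?_, hK.eq⟩
  intro y hy hm v hv
  have hcase : y ∈ K.Gp ∪ K.Gm ∪ K.Cl ∨ y ∈ Qc := by
    simp only [gd200Obs, Finset.mem_union, Finset.mem_filter] at hm ⊢
    tauto
  rcases hcase with h | h
  · rcases Finset.mem_union.1 (hK.full y hy h hv) with h1 | h1
    · exact Finset.mem_union_left _ (Finset.mem_union_left _ h1)
    · exact Finset.mem_union_right _ (Finset.mem_union_left _ h1)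
  · have hmv : v ∈ Pv := hP y h hv
    by_cases h0 : v ∈ ω₀.S
    · exact Finset.mem_union_left _ (Finset.mem_union_right _ (Finset.mem_filter.2 ⟨hmv, h0⟩))
    · exact Finset.mem_union_right _ (Finset.mem_union_right _ (Finset.mem_filter.2 ⟨hmv, h0⟩))

/-- the record `rse182Obs` of 182 (observed refined cells `Q`) is a record of this file -/
theorem gd200_obs_182 (Y : Rcy162Sys) (K : RswCon) (E : Finset ((ℤ × ℤ) × (ℤ × ℤ))) (Q : Finset TV) (ω₀ : RswCfg) :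
    rpo102Of (rse182Obs Y K Q ω₀) E = gd200Obs Y (rpo102Of K E) (rse182Sv Y Q) (rse182Ed Y Q) ω₀ := rfl

/-! ## 2. the entrance data of a record and a set `M` of edges never looked at -/

/-- `enmQ`: the endpoints of the edges of `M` -/
def gd200Q (T : Rcy162Sys) (M : Finset ((ℤ × ℤ) × Bool)) : Finset (ℤ × ℤ) := M.biUnion (rpo102Sv T)

/-- the faces of the edges of `M` -/
def gd200QF (T : Rcy162Sys) (M : Finset ((ℤ × ℤ) × Bool)) : Finset (ℤ × ℤ) := M.biUnion (rpo102Sd T)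

/-- `enmPl`: the kept plus pins -/
def gd200Pl (T : Rcy162Sys) (K : Rpo102Con) (A C : Finset ((ℤ × ℤ) × Bool)) : Finset (ℤ × ℤ) := K.Sp ∪ (A ∪ C).biUnion (rpo102Sv T)

/-- `enmSd`: the side of the strip on the layer `A` -/
def gd200Sd (T : Rcy162Sys) (M A : Finset ((ℤ × ℤ) × Bool)) : Finset (ℤ × ℤ) := gd200Q T M ∩ A.biUnion (rpo102Sv T)

/-- `EnmRec`, **what the entrance needs to know about a record `gd200Obs T K Pv Qc ω₀` and a set `M` of edges never looked at** -/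
structure Gd200Rec (T : Rcy162Sys) (t : ℝ) (K : Rpo102Con) (Pv : Finset (ℤ × ℤ)) (Qc : Finset ((ℤ × ℤ) × Bool)) (ω₀ : RswCfg)
    (M A C : Finset ((ℤ × ℤ) × Bool)) (Ld Lb : Finset (ℤ × ℤ)) : Prop where
  t0 : 0 < t
  t1 : t < 1
  okT : T.WF
  legal : Ent210Legal T K
  feas : 0 < T.sum t ((gd200Obs T K Pv Qc ω₀).Holds T) (fun _ => 1)
  MC : M ⊆ T.E
  QC : Qc ⊆ T.E
  /-- the endpoints of the observed edges are observed -/
  PQ : ∀ y ∈ Qc, rpo102Sv T y ⊆ Pv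
  /-- an observed site of the strip lies on an edge outside `M` (automatic when `Pv` = the endpoints of `Qc`) -/
  PM : ∀ v ∈ Pv, v ∈ gd200Q T M → ∃ y ∈ T.E \ M, v ∈ rpo102Sv T y
  /-- never looked at -/
  MQ : ∀ y ∈ M, y ∉ Qc
  /-- the basic history does not see the strip -/
  kc : ∀ y ∈ M, y ∉ K.Gp ∧ y ∉ K.Gm ∧ y ∉ K.Cl
  keq : ∀ e ∈ K.Eq, e.1 ∉ gd200QF T M ∧ e.2 ∉ gd200QF T M
  kbp : ∀ v ∈ K.Sp, v ∉ gd200Q T M
  kbm : ∀ v ∈ K.Sm, v ∉ gd200Q T M
  /-- the two layers -/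
  AQ : A ⊆ Qc
  CQ : C ⊆ Qc
  Ap : ∀ y ∈ A, T.Good true ω₀ y
  Cp : ∀ y ∈ C, T.Good true ω₀ y
  /-- THE GEOMETRIC FIELD: the sites of the strip which lie on an edge outside `M` are the four sides -/
  lay : ent210Lay T (gd200Q T M) M = gd200Sd T M A ∪ gd200Sd T M C ∪ Ld ∪ Lb

theorem gd200_enm_eqns_cite : True := by
  have := @gd200Q.eq_1
  have := @gd200QF.eq_1
  have := @gd200Pl.eq_1
  have := @gd200Sd.eq_1
  trivial

variable {T : Rcy162Sys} {t : ℝ} {K : Rpo102Con} {Pv : Finset (ℤ × ℤ)} {Qc : Finset ((ℤ × ℤ) × Bool)} {ω₀ : RswCfg}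
  {M A C : Finset ((ℤ × ℤ) × Bool)} {Ld Lb : Finset (ℤ × ℤ)}

theorem gd200_mem_Q {v : ℤ × ℤ} : v ∈ gd200Q T M ↔ ∃ y ∈ M, v ∈ rpo102Sv T y := by
  unfold gd200Q; exact Finset.mem_biUnion

theorem gd200_mem_QF {f : ℤ × ℤ} : f ∈ gd200QF T M ↔ ∃ y ∈ M, f ∈ rpo102Sd T y := by
  unfold gd200QF; exact Finset.mem_biUnion

theorem gd200_cell_sub {y : (ℤ × ℤ) × Bool} (hy : y ∈ M) : rpo102Sv T y ⊆ gd200Q T M := fun v hv => gd200_mem_Q.2 ⟨y, hy, hv⟩

theorem gd200_cell_subF {y : (ℤ × ℤ) × Bool} (hy : y ∈ M) : rpo102Sd T y ⊆ gd200QF T M := fun v hv => gd200_mem_QF.2 ⟨y, hy, hv⟩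

theorem gd200_mem_Sd {v : ℤ × ℤ} : v ∈ gd200Sd T M A ↔ v ∈ gd200Q T M ∧ ∃ y ∈ A, v ∈ rpo102Sv T y := by
  unfold gd200Sd; rw [Finset.mem_inter, Finset.mem_biUnion]

/-- the endpoints of a good-plus edge are plus -/
theorem gd200_plus_sub {y : (ℤ × ℤ) × Bool} (h : T.Good true ω₀ y) : rpo102Sv T y ⊆ ω₀.S := ((rpo102_good_true T ω₀ y).1 h).2

/-- `enm_geo`, **the entrance data of the record** -/
theorem gd200_rec (r : Gd200Rec T t K Pv Qc ω₀ M A C Ld Lb) :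
    Ent210Rec T t (gd200Obs T K Pv Qc ω₀) (gd200Q T M) (gd200QF T M) M (gd200Sd T M A) (gd200Sd T M C) Ld Lb (gd200Pl T K A C) (A ∪ C) where
  t0 := r.t0
  t1 := r.t1
  okT := r.okT
  legal := gd200_obs_legal T K r.legal Pv Qc r.PQ ω₀
  feas := r.feas
  RA := fun v hv => by
    obtain ⟨y, hy, hvy⟩ := gd200_mem_Q.1 hv
    exact ent210_sv_sub r.okT (r.MC hy) hvy
  QA := fun v hv => by
    obtain ⟨y, hy, hvy⟩ := gd200_mem_QF.1 hv
    exact ent210_sd_sub r.okT (r.MC hy) hvy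
  YT := r.MC
  cellR := fun y hy => gd200_cell_sub hy
  cellQ := fun y hy => gd200_cell_subF hy
  pl := fun v hv => by
    classical
    rcases Finset.mem_union.1 hv with h | h
    · exact Finset.mem_union_left _ h
    · obtain ⟨y, hy, hvy⟩ := Finset.mem_biUnion.1 h
      have hyQ : y ∈ Qc := by
        rcases Finset.mem_union.1 hy with h | h
        · exact r.AQ h
        · exact r.CQ h
      have hτ : T.Good true ω₀ y := by
        rcases Finset.mem_union.1 hy with h | h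
        · exact r.Ap y h
        · exact r.Cp y h
      exact Finset.mem_union_right _ (Finset.mem_filter.2 ⟨r.PQ y hyQ hvy, gd200_plus_sub hτ hvy⟩)
  rib := fun y hy => by
    classical
    rcases Finset.mem_union.1 hy with h | h
    · exact Finset.mem_union_right _ (Finset.mem_filter.2 ⟨r.AQ h, r.Ap y h⟩)
    · exact Finset.mem_union_right _ (Finset.mem_filter.2 ⟨r.CQ h, r.Cp y h⟩)
  ribS := fun y hy v hv => Finset.mem_union_right _ (Finset.mem_biUnion.2 ⟨y, hy, hv⟩)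
  bm := fun v hv hvQ => by
    classical
    rcases Finset.mem_union.1 hv with h | h
    · exact absurd hvQ (r.kbm v h)
    · exact ent210_mem_lay.2 ⟨hvQ, r.PM v (Finset.mem_filter.1 h).1 hvQ⟩
  obs := fun y hy => by
    classical
    obtain ⟨k1, k2, k3⟩ := r.kc y hy
    have hq := r.MQ y hy
    refine ⟨fun h => ?_, fun h => ?_, fun h => ?_⟩
    · rcases Finset.mem_union.1 h with h | h
      · exact k1 h
      · exact hq (Finset.mem_filter.1 h).1
    · rcases Finset.mem_union.1 h with h | h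
      · exact k2 h
      · exact hq (Finset.mem_filter.1 h).1
    · rcases Finset.mem_union.1 h with h | h
      · exact k3 h
      · exact hq (Finset.mem_filter.1 h).1
  eq := r.keq
  plR := by
    ext v
    simp only [gd200Pl, Finset.mem_inter, Finset.mem_union, gd200_mem_Sd, Finset.mem_biUnion]
    constructor
    · rintro ⟨h | ⟨y, hy | hy, hvy⟩, hQ⟩
      · exact absurd hQ (r.kbp v h)
      · exact Or.inl ⟨hQ, y, hy, hvy⟩
      · exact Or.inr ⟨hQ, y, hy, hvy⟩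
    · rintro (⟨hQ, y, hy, hvy⟩ | ⟨hQ, y, hy, hvy⟩)
      · exact ⟨Or.inr ⟨y, Or.inl hy, hvy⟩, hQ⟩
      · exact ⟨Or.inr ⟨y, Or.inr hy, hvy⟩, hQ⟩
  lay := r.lay

/-- when the observed sites are the endpoints of the observed edges the field `PM` is automatic -/
theorem gd200_PM_of (hQC : Qc ⊆ T.E) (hMQ : ∀ y ∈ M, y ∉ Qc) :
    ∀ v ∈ Qc.biUnion (rpo102Sv T), v ∈ gd200Q T M → ∃ y ∈ T.E \ M, v ∈ rpo102Sv T y := by
  intro v hv _
  obtain ⟨y, hy, hvy⟩ := Finset.mem_biUnion.1 hv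
  exact ⟨y, Finset.mem_sdiff.2 ⟨hQC hy, fun hM => hMQ y hM hy⟩, hvy⟩

/-! ## 3. EXITS -/

/-- the closed strip system of the edges `M` -/
def gd200St (T : Rcy162Sys) (M : Finset ((ℤ × ℤ) × Bool)) : Rcy162Sys := rpo102SR T (gd200Q T M) (gd200QF T M) M

theorem gd200_st_eqns_cite : True := by
  have := @gd200St.eq_1
  trivial

/-- `enm_join`, **THE ENTRANCE FOR THE RECORD**: a bound under the closed strip law gives a bound in the ambient given the record; `k + 1` = bound on the number of ports -/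
theorem gd200_join (r : Gd200Rec T t K Pv Qc ω₀ M A C Ld Lb)
    (hord : Ent210Ord T t (ent210Sea T (gd200Obs T K Pv Qc ω₀) (gd200Q T M) M (gd200Pl T K A C) (A ∪ C)) (gd200Obs T K Pv Qc ω₀))
    {k : ℕ} (hk : (ent210P1 T (gd200Obs T K Pv Qc ω₀) (gd200Q T M) (gd200QF T M) M (gd200Pl T K A C) (A ∪ C)).card ≤ k + 1)
    {Kc : Finset ((ℤ × ℤ) × Bool)} (hKc : Kc ⊆ M) {c : ℝ}
    (hc : c ≤ (gd200St T M).Pr t ((ent210H0 (gd200St T M) ∅ (gd200Sd T M A) (gd200Sd T M C) Ld Lb).Holds (gd200St T M))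
      (fun ω => Ent210Join (gd200St T M) (↑Kc ∩ ent210On (gd200St T M) ω) (gd200Sd T M A) (gd200Sd T M C))) :
    c ≤ 2 ^ k * T.Pr t ((gd200Obs T K Pv Qc ω₀).Holds T) (fun ω => Ent210Join T (↑Kc ∩ ent210On T ω) (gd200Sd T M A) (gd200Sd T M C)) := by
  have h := ent210_join_SR (gd200_rec r) hord hKc hc
  refine h.trans (mul_le_mul_of_nonneg_right ?_ (rcy162_P_nonneg T _ r.t0.le r.t1.le _))
  exact pow_le_pow_right₀ (by norm_num) (by omega)

/-- `enm_mem_P1`: a port is a FACE of the strip, at an edge outside `M` and off the two layers, which has a kept plus pin as an endpoint -/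
theorem gd200_mem_P1 (r : Gd200Rec T t K Pv Qc ω₀ M A C Ld Lb) {f : ℤ × ℤ} :
    f ∈ ent210P1 T (gd200Obs T K Pv Qc ω₀) (gd200Q T M) (gd200QF T M) M (gd200Pl T K A C) (A ∪ C) ↔
      f ∈ gd200QF T M ∧ ∃ y ∈ T.E, y ∉ M ∧ y ∉ A ∪ C ∧ f ∈ rpo102Sd T y ∧ ∃ u ∈ rpo102Sv T y, u ∈ gd200Pl T K A C :=
  ent210_mem_P1 (ent210_geo_SR (gd200_rec r))

section iso

variable {S₀ : Rcy162Sys} {gV gF : ℤ × ℤ → ℤ × ℤ} {gE : (ℤ × ℤ) × Bool → (ℤ × ℤ) × Bool} {La₀ Lc₀ Ld₀ Lb₀ : Finset (ℤ × ℤ)}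

/-- `enm_join_iso`, **THE ENTRANCE FOR THE RECORD, FROM A REFERENCE STRIP** `S₀` (e.g. a planar `rcy162Pl F`) isomorphic to the closed system of the edges `M`: the dictionary is two equalities -/
theorem gd200_join_iso (i : Rcy162Hom S₀ (gd200St T M) gV gF gE) (ok₀ : S₀.WF)
    (hLa : La₀ ⊆ S₀.V) (hLc : Lc₀ ⊆ S₀.V) (hLd : Ld₀ ⊆ S₀.V) (hLb : Lb₀ ⊆ S₀.V)
    (r : Gd200Rec T t K Pv Qc ω₀ M A C (Ld₀.image gV) (Lb₀.image gV))
    (eA : gd200Sd T M A = La₀.image gV) (eC : gd200Sd T M C = Lc₀.image gV)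
    (hord : Ent210Ord T t (ent210Sea T (gd200Obs T K Pv Qc ω₀) (gd200Q T M) M (gd200Pl T K A C) (A ∪ C)) (gd200Obs T K Pv Qc ω₀))
    {k : ℕ} (hk : (ent210P1 T (gd200Obs T K Pv Qc ω₀) (gd200Q T M) (gd200QF T M) M (gd200Pl T K A C) (A ∪ C)).card ≤ k + 1)
    {Kc₀ : Finset ((ℤ × ℤ) × Bool)} (hKc : Kc₀.image gE ⊆ M) {c : ℝ}
    (hc : c ≤ S₀.Pr t ((ent210H0 S₀ ∅ La₀ Lc₀ Ld₀ Lb₀).Holds S₀) (fun ω => Ent210Join S₀ (↑Kc₀ ∩ ent210On S₀ ω) La₀ Lc₀)) :
    c ≤ 2 ^ k * T.Pr t ((gd200Obs T K Pv Qc ω₀).Holds T)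
      (fun ω => Ent210Join T (↑(Kc₀.image gE) ∩ ent210On T ω) (gd200Sd T M A) (gd200Sd T M C)) := by
  have g := ent210_geo_SR (gd200_rec r)
  rw [eA, eC] at g
  have g' : Ent210Geo T (gd200St T M) t (gd200Obs T K Pv Qc ω₀) (gd200Q T M) (gd200QF T M) M ((∅ : Finset ((ℤ × ℤ) × Bool)).image gE)
      (La₀.image gV) (Lc₀.image gV) (Ld₀.image gV) (Lb₀.image gV) (gd200Pl T K A C) (A ∪ C) := by
    rw [Finset.image_empty]
    exact g
  have h := ent210_join_iso_P i ok₀ (Finset.empty_subset _) hLa hLc hLd hLb g' hord hKc hc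
  rw [Finset.image_empty, ent210_P2_empty, Finset.card_empty, Nat.zero_sub, Nat.zero_add] at h
  rw [eA, eC]
  refine h.trans (mul_le_mul_of_nonneg_right ?_ (rcy162_P_nonneg T _ r.t0.le r.t1.le _))
  exact pow_le_pow_right₀ (by norm_num) (by omega)

end iso

/-! ## 4. strips, doubles, places (`Glue/Place`): DEFINITIONS ONLY

**WARNING** (221 F4, 121 N1 / N5): on `Z^2` the exchange of the two sheets of R291 (mirror + colour swap on ONE lattice) must exchange SITES and FACES; a vertical mirror never does.   The structures below are the verbatim port for a sheet exchange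
`(φ, φf, ψ)` which is an automorphism `Rcy162Hom X X φ φf ψ` (sites to sites): they serve the mirror-without-swap steps only.   `dichC` of `GlPlaceC` is the self-matching dichotomy of the triangular lattice: here the second alternative is a free predicate `J'`. -/

/-- `ClSys.gr`: the graph of the sites: the two endpoints of an edge of the system -/
def gd200Gr (S : Rcy162Sys) : SimpleGraph (ℤ × ℤ) where
  Adj u v := u ≠ v ∧ ∃ e ∈ S.E, u ∈ rpo102Sv S e ∧ v ∈ rpo102Sv S e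
  symm := ⟨fun _ _ h => ⟨h.1.symm, by obtain ⟨e, h0, h1, h2⟩ := h.2; exact ⟨e, h0, h2, h1⟩⟩⟩
  loopless := ⟨fun _ h => h.1 rfl⟩

/-- `GlStrip` (the order of the closed system is a FIELD: `ClDisk` / `dis_order` have no typed copy on `Rcy162Sys`; producer Cmp291 / Model22) -/
structure Gd200Strip (S : Rcy162Sys) (t : ℝ) (La Lc Ld Lb : Finset (ℤ × ℤ)) : Prop where
  wf : S.WF
  half : 1 / 2 ≤ t
  t1 : t < 1
  /-- conditional order between legal histories (R291 `dis_order`) -/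
  ord : ∀ K₁ K₂ : Rpo102Con, Ent210Legal S K₁ → Ent210Legal S K₂ → Ent210Le K₁ K₂ → Ent210Ord S t K₁ K₂
  conn : TscConn (gd200Gr S) (↑S.V : Set (ℤ × ℤ))
  la : La ⊆ S.V
  lc : Lc ⊆ S.V
  ld : Ld ⊆ S.V
  lb : Lb ⊆ S.V
  /-- the two plus sides are disjoint and not adjacent -/
  ac : ∀ u ∈ La, ∀ v ∈ Lc, u ≠ v ∧ ¬ (gd200Gr S).Adj u v
  /-- the minus part of each end is connected -/
  dconn : TscConn (gd200Gr S) (↑(Ld \ (La ∪ Lc)) : Set (ℤ × ℤ))
  bconn : TscConn (gd200Gr S) (↑(Lb \ (La ∪ Lc)) : Set (ℤ × ℤ))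

/-- `GlDouble`: `X` = two copies of the strip system glued along the sites `K` (faces `KF`).   `e`, `ef`, `ec`: the first sheet (sites, faces, edges);   `φ`, `φf`, `ψ`: the exchange of the two sheets.
No boundary edge in the closed system, hence no ABSORBED edge: every edge of `S` is kept. -/
structure Gd200Double (S : Rcy162Sys) (t : ℝ) (La Lc K KF : Finset (ℤ × ℤ)) (X : Rcy162Sys) (e ef : ℤ × ℤ → ℤ × ℤ)
    (ec : (ℤ × ℤ) × Bool → (ℤ × ℤ) × Bool) (φ φf : ℤ × ℤ → ℤ × ℤ) (ψ : (ℤ × ℤ) × Bool → (ℤ × ℤ) × Bool) : Prop where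
  wf : X.WF
  half : 1 / 2 ≤ t
  t1 : t < 1
  ord : ∀ K₁ K₂ : Rpo102Con, Ent210Legal X K₁ → Ent210Legal X K₂ → Ent210Le K₁ K₂ → Ent210Ord X t K₁ K₂
  iso : Rcy162Hom X X φ φf ψ
  invV : ∀ v ∈ X.V, φ (φ v) = v
  invF : ∀ f ∈ X.Fc, φf (φf f) = f
  invY : ∀ y ∈ X.E, ψ (ψ y) = y
  kA : K ⊆ S.V
  kF : KF ⊆ S.Fc
  eInj : Set.InjOn e (↑S.V : Set (ℤ × ℤ))
  efInj : Set.InjOn ef (↑S.Fc : Set (ℤ × ℤ))
  cover : X.V = S.V.image e ∪ (S.V.image e).image φ
  coverF : X.Fc = S.Fc.image ef ∪ (S.Fc.image ef).image φf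
  meet : ∀ v ∈ S.V, (e v ∈ (S.V.image e).image φ ↔ v ∈ K)
  meetF : ∀ f ∈ S.Fc, (ef f ∈ (S.Fc.image ef).image φf ↔ f ∈ KF)
  /-- every edge lies in one sheet -/
  sheet : ∀ y ∈ X.E, rpo102Sv X y ⊆ S.V.image e ∨ rpo102Sv X y ⊆ (S.V.image e).image φ
  ecInj : Set.InjOn ec (↑S.E : Set ((ℤ × ℤ) × Bool))
  kept : ∀ y ∈ S.E, ec y ∈ X.E ∧ rpo102Sv X (ec y) = (rpo102Sv S y).image e ∧ rpo102Sd X (ec y) = (rpo102Sd S y).image ef
  /-- the edges of `X` inside the first sheet are the kept edges -/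
  back : ∀ y' ∈ X.E, rpo102Sv X y' ⊆ S.V.image e → ∃ y ∈ S.E, ec y = y'
  /-- an edge of the second sheet which is not inside the first sheet meets the first sheet on `La ∪ Lc` only -/
  gate : ∀ y' ∈ X.E, ¬ rpo102Sv X y' ⊆ S.V.image e → ∀ v ∈ S.V, e v ∈ rpo102Sv X y' → v ∈ K ∩ (La ∪ Lc)

/-- `glMir`: the mirror image, inside `K`, of a subset of the strip -/
def gd200Mir (K : Finset (ℤ × ℤ)) (e φ : ℤ × ℤ → ℤ × ℤ) (L : Finset (ℤ × ℤ)) : Finset (ℤ × ℤ) := K.filter (fun v => φ (e v) ∈ L.image e)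

/-- `GlPlace` (sites) -/
structure Gd200Place (S : Rcy162Sys) (t : ℝ) (La Lc Ld Lb K KF K0 : Finset (ℤ × ℤ)) (X : Rcy162Sys) (e ef : ℤ × ℤ → ℤ × ℤ)
    (ec : (ℤ × ℤ) × Bool → (ℤ × ℤ) × Bool) (φ φf : ℤ × ℤ → ℤ × ℤ) (ψ : (ℤ × ℤ) × Bool → (ℤ × ℤ) × Bool) : Prop
    extends Gd200Double S t La Lc K KF X e ef ec φ φf ψ where
  /-- the place misses the two ends -/
  far : ∀ v ∈ K, v ∉ Ld ∧ v ∉ Lb
  k0 : K0 ⊆ K
  /-- the core is free: it misses the two sides and their mirror images -/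
  free : ∀ v ∈ K0, v ∉ La ∧ v ∉ Lc ∧ v ∉ gd200Mir K e φ La ∧ v ∉ gd200Mir K e φ Lc
  /-- the core is symmetric -/
  symm : ∀ v ∈ K0, ∃ w ∈ K0, φ (e v) = e w
  /-- a site of `K` which lies on an edge of the first sheet not inside `K` lies on the mirror image of a side -/
  gate' : ∀ y ∈ S.E, ¬ rpo102Sv S y ⊆ K → ∀ v ∈ K, v ∈ rpo102Sv S y → v ∈ La ∪ Lc ∪ gd200Mir K e φ La ∪ gd200Mir K e φ Lc

/-- `GlPlaceC` (edges); `J'` = the second alternative of the dichotomy (to be read on the dual: `S.Step`) -/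
structure Gd200PlaceC (S : Rcy162Sys) (t : ℝ) (La Lc Ld Lb K KF K0 : Finset (ℤ × ℤ)) (Kc : Finset ((ℤ × ℤ) × Bool)) (X : Rcy162Sys)
    (e ef : ℤ × ℤ → ℤ × ℤ) (ec : (ℤ × ℤ) × Bool → (ℤ × ℤ) × Bool) (φ φf : ℤ × ℤ → ℤ × ℤ) (ψ : (ℤ × ℤ) × Bool → (ℤ × ℤ) × Bool)
    (J' : Set ((ℤ × ℤ) × Bool) → Prop) : Prop
    extends Gd200Place S t La Lc Ld Lb K KF K0 X e ef ec φ φf ψ where
  kc : ∀ y ∈ Kc, y ∈ S.E ∧ rpo102Sv S y ⊆ K ∧ ec y ∈ X.E
  symmC : ∀ y ∈ Kc, ∃ z ∈ Kc, ψ (ec y) = ec z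
  dichC : ∀ P : Set ((ℤ × ℤ) × Bool), Ent210Join S (↑Kc ∩ P) La Lc ∨ J' (↑Kc \ P)

theorem gd200_place_eqns_cite : True := by
  have := @gd200Gr.eq_1
  have := @gd200Mir.eq_1
  trivial

end Claimed.Agent.R292
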