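import Claimed.Agent.R292.Rsw.Sys162

/-!
# Row 292 (S0540), Rsw/GlueSwap167 : THE COLOUR SWAP LEMMA IN AN AMBIENT SYSTEM, ON `Rcy162Sys`      (owner helper167; prefix `gsw167` / `Gsw167`)      0 sorry

Port of R291 `Glue/Swap` (helper210) by the dictionary of `CORE_DICT.md` Sec. 1;   c1_post row 26 (A1.2, LSS), half "Glue/Swap".   TEX[annulus:straight-short] (display annulus:symmetric-short).

`Y` any edge-pair system, `1/2 ≤ t ≤ 1`.   The two spins live on DIFFERENT sites: the retained region is a pair `XV ⊆ Y.V` (vertices), `XF ⊆ Y.Fc` (faces), with layers `LV ⊆ XV`, `LF ⊆ XF`: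
the edge pairs which are not inside the region (`gsw167Cin`) touch it only in the layers.
`(φV, φF, ψ)` a LOCAL exchange (`Gsw167Sym`): `φV : XV → XF`, `φF : XF → XV` inverse to each other, `ψ` an involution of the edge pairs inside, the faces of `ψ e` = the images of the ends of `e` and conversely
(unordered pairs).   Nothing is asked outside the region.
`K : RswCfg → Prop` a history (`Gsw167Hist`): it pins `s` plus on `LV`, ties `d` on `LF`, does not see the global flip of `d`, and does not read `s` on `XV \ LV`, `d` on `XF \ LF`, the statuses inside.   ARBITRARY outside.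

* two statuses: `x = (⟨S, D, O⟩, P)`, `P` = the edge pairs whose DUAL edge is open for the percolation of `d`;   `gsw167T` the one-edge table (both equal: `2t-1, 1-t, 1-t, 0`; `s` equal only: `t`; `d` equal only: `t`);
  `gsw167_N2_fst` : the first marginal is the law of the system;   `Gsw167Supp` : the support (never both closed; open ⟹ `s` equal; dual open ⟹ `d` equal).
* `gsw167Phi` : exchange of the two spins and of the two statuses followed by the reflection INSIDE the region, identity outside.   `gsw167_wt2`, `gsw167_holds`, `gsw167_N2`.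
* `gsw167_label` : "`d` plus on `LF`" is half (or all) of the law for observables which do not read `d`.
* **`gsw167_main`** : if on the support (`LV ⊆ S`, `LF ⊆ D`) one of `Ev x.1`, `Ev (gsw167Phi x).1` holds then `Z(K) ≤ 2 N(K; Ev)`;   `gsw167_main_P` normalised;   **`gsw167_step2`** with the order step (hypothesis, cross multiplied).
* **`gsw167_path`** : path form.   Good edges are joined through primal vertices (graph `G`), dual open edges through faces (graph `G'`), `ψ` maps `G'` into `G`;   planar duality enters as a hypothesis on subsets of edge pairs.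
-/

set_option autoImplicit false
set_option linter.unusedSectionVars false
set_option linter.unusedVariables false
set_option linter.unusedSimpArgs false

namespace Claimed.Agent.R292

open Claims Claims.C0468 Finset Relation Claimed.Agent.R291

/-! ## 1. the one-edge table with two statuses -/

open Classical in
/-- the table: `bc` = `s` equal along the edge, `wc` = `d` equal across it, `ob` = open, `ow` = dual open -/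
noncomputable def gsw167T (t : ℝ) (bc wc ob ow : Prop) : ℝ :=
  if bc then
    (if wc then (if ob then (if ow then 2 * t - 1 else 1 - t) else (if ow then 1 - t else 0))
     else (if ob then (if ow then 0 else t) else 0))
  else (if wc then (if ob then 0 else (if ow then t else 0)) else 0)

theorem gsw167_T_swap (t : ℝ) (bc wc ob ow : Prop) : gsw167T t bc wc ob ow = gsw167T t wc bc ow ob := by
  unfold gsw167T
  by_cases h1 : bc <;> by_cases h2 : wc <;> by_cases h3 : ob <;> by_cases h4 : ow <;> simp [h1, h2, h3, h4]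

theorem gsw167_T_nonneg {t : ℝ} (h0 : 1 / 2 ≤ t) (h1 : t ≤ 1) (bc wc ob ow : Prop) : 0 ≤ gsw167T t bc wc ob ow := by
  unfold gsw167T
  split_ifs <;> linarith

theorem gsw167_T_congr (t : ℝ) {bc wc ob ow bc' wc' ob' ow' : Prop} (h1 : bc ↔ bc') (h2 : wc ↔ wc') (h3 : ob ↔ ob') (h4 : ow ↔ ow') :
    gsw167T t bc wc ob ow = gsw167T t bc' wc' ob' ow' := by
  rw [propext h1, propext h2, propext h3, propext h4]

open Classical in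
theorem gsw167_T_marg (t : ℝ) (bc wc ob : Prop) :
    gsw167T t bc wc ob True + gsw167T t bc wc ob False = if ob then (if bc then t else 0) else if wc then (if bc then 1 - t else t) else 0 := by
  unfold gsw167T
  by_cases h1 : bc <;> by_cases h2 : wc <;> by_cases h3 : ob <;> simp [h1, h2, h3]
  ring

theorem gsw167_T_supp {t : ℝ} {bc wc ob ow : Prop} (h : gsw167T t bc wc ob ow ≠ 0) : (ob ∨ ow) ∧ (ob → bc) ∧ (ow → wc) := by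
  unfold gsw167T at h
  by_cases h1 : bc <;> by_cases h2 : wc <;> by_cases h3 : ob <;> by_cases h4 : ow <;> simp [h1, h2, h3, h4] at h ⊢

/-! ## 2. the law with two statuses -/

/-- factor of one edge pair -/
noncomputable def gsw167F2 (Y : Rcy162Sys) (t : ℝ) (x : RswCfg × Finset ((ℤ × ℤ) × Bool)) (e : (ℤ × ℤ) × Bool) : ℝ :=
  gsw167T t (Y.p0 e ∈ x.1.S ↔ Y.p1 e ∈ x.1.S) (Y.f0 e ∈ x.1.D ↔ Y.f1 e ∈ x.1.D) (e ∈ x.1.O) (e ∈ x.2)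

/-- weight -/
noncomputable def gsw167W2 (Y : Rcy162Sys) (t : ℝ) (x : RswCfg × Finset ((ℤ × ℤ) × Bool)) : ℝ := ∏ e ∈ Y.E, gsw167F2 Y t x e

/-- the configurations with two statuses -/
noncomputable def gsw167Cfgs2 (Y : Rcy162Sys) : Finset (RswCfg × Finset ((ℤ × ℤ) × Bool)) := Y.cfgs ×ˢ Y.E.powerset

open Classical in
/-- unnormalised sum -/
noncomputable def gsw167N2 (Y : Rcy162Sys) (t : ℝ) (K : RswCfg × Finset ((ℤ × ℤ) × Bool) → Prop)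
    (G : RswCfg × Finset ((ℤ × ℤ) × Bool) → ℝ) : ℝ :=
  ∑ x ∈ gsw167Cfgs2 Y, if K x then gsw167W2 Y t x * G x else 0

/-- the support: never both closed; open ⟹ `s` equal along the edge; dual open ⟹ `d` equal across it -/
def Gsw167Supp (Y : Rcy162Sys) (x : RswCfg × Finset ((ℤ × ℤ) × Bool)) : Prop :=
  ∀ e ∈ Y.E, (e ∈ x.1.O ∨ e ∈ x.2) ∧ (e ∈ x.1.O → (Y.p0 e ∈ x.1.S ↔ Y.p1 e ∈ x.1.S)) ∧ (e ∈ x.2 → (Y.f0 e ∈ x.1.D ↔ Y.f1 e ∈ x.1.D))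

theorem gsw167_mem_cfgs2 {Y : Rcy162Sys} {x : RswCfg × Finset ((ℤ × ℤ) × Bool)} : x ∈ gsw167Cfgs2 Y ↔ Y.Cfg x.1 ∧ x.2 ⊆ Y.E := by
  unfold gsw167Cfgs2
  rw [Finset.mem_product, rcy162_mem_cfgs, Finset.mem_powerset]

theorem gsw167_W2_nonneg (Y : Rcy162Sys) {t : ℝ} (h0 : 1 / 2 ≤ t) (h1 : t ≤ 1) (x : RswCfg × Finset ((ℤ × ℤ) × Bool)) : 0 ≤ gsw167W2 Y t x :=
  prod_nonneg fun e _ => gsw167_T_nonneg h0 h1 _ _ _ _

theorem gsw167_W2_supp {Y : Rcy162Sys} {t : ℝ} {x : RswCfg × Finset ((ℤ × ℤ) × Bool)} (h : gsw167W2 Y t x ≠ 0) : Gsw167Supp Y x := by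
  intro e he
  have h1 : gsw167F2 Y t x e ≠ 0 := fun h0 => h (prod_eq_zero he h0)
  exact gsw167_T_supp h1

/-- the sum over the second status -/
theorem gsw167_sum_P (Y : Rcy162Sys) (t : ℝ) (ω : RswCfg) : ∑ P ∈ Y.E.powerset, gsw167W2 Y t (ω, P) = Y.w t ω := by
  classical
  unfold gsw167W2 Rcy162Sys.w
  have e1 : ∀ P : Finset ((ℤ × ℤ) × Bool), ∀ e, gsw167F2 Y t (ω, P) e =
      if e ∈ P then gsw167T t (Y.p0 e ∈ ω.S ↔ Y.p1 e ∈ ω.S) (Y.f0 e ∈ ω.D ↔ Y.f1 e ∈ ω.D) (e ∈ ω.O) True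
      else gsw167T t (Y.p0 e ∈ ω.S ↔ Y.p1 e ∈ ω.S) (Y.f0 e ∈ ω.D ↔ Y.f1 e ∈ ω.D) (e ∈ ω.O) False := by
    intro P e
    unfold gsw167F2
    by_cases h : e ∈ P
    · rw [if_pos h]; exact gsw167_T_congr t Iff.rfl Iff.rfl Iff.rfl (iff_true_intro h)
    · rw [if_neg h]; exact gsw167_T_congr t Iff.rfl Iff.rfl Iff.rfl (iff_false_intro h)
  simp only [e1]
  rw [rcy162_sum_powerset_prod]
  refine prod_congr rfl fun e _ => ?_
  rw [gsw167_T_marg]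
  unfold Rcy162Sys.fac
  congr

/-- **the first marginal is the law of the system** -/
theorem gsw167_N2_fst (Y : Rcy162Sys) (t : ℝ) (K : RswCfg → Prop) (F : RswCfg → ℝ) :
    gsw167N2 Y t (fun x => K x.1) (fun x => F x.1) = Y.sum t K F := by
  classical
  rw [rcy162_sum_cfgs']
  unfold gsw167N2 gsw167Cfgs2
  rw [Finset.sum_product]
  refine sum_congr rfl fun ω _ => ?_
  by_cases h : K ω
  · simp only [if_pos h]
    rw [← Finset.sum_mul, gsw167_sum_P]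
  · simp only [if_neg h]
    exact Finset.sum_const_zero

/-! ## 3. the local exchange -/

/-- the edge pairs inside the region -/
def gsw167Cin (Y : Rcy162Sys) (XV XF : Finset (ℤ × ℤ)) : Finset ((ℤ × ℤ) × Bool) :=
  Y.E.filter (fun e => Y.p0 e ∈ XV ∧ Y.p1 e ∈ XV ∧ Y.f0 e ∈ XF ∧ Y.f1 e ∈ XF)

/-- local exchange symmetry of the region `(XV, XF)` of the system, with layers `(LV, LF)` -/
structure Gsw167Sym (Y : Rcy162Sys) (φV φF : ℤ × ℤ → ℤ × ℤ) (ψ : (ℤ × ℤ) × Bool → (ℤ × ℤ) × Bool) (XV XF LV LF : Finset (ℤ × ℤ)) : Prop where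
  xv : XV ⊆ Y.V
  xf : XF ⊆ Y.Fc
  lv : LV ⊆ XV
  lf : LF ⊆ XF
  layV : ∀ e ∈ Y.E, e ∉ gsw167Cin Y XV XF → (Y.p0 e ∈ XV → Y.p0 e ∈ LV) ∧ (Y.p1 e ∈ XV → Y.p1 e ∈ LV)
  layF : ∀ e ∈ Y.E, e ∉ gsw167Cin Y XV XF → (Y.f0 e ∈ XF → Y.f0 e ∈ LF) ∧ (Y.f1 e ∈ XF → Y.f1 e ∈ LF)
  φVX : ∀ v ∈ XV, φV v ∈ XF
  φFX : ∀ f ∈ XF, φF f ∈ XV
  φVL : ∀ v ∈ LV, φV v ∈ LF
  φFL : ∀ f ∈ LF, φF f ∈ LV
  φFV : ∀ v ∈ XV, φF (φV v) = v
  φVF : ∀ f ∈ XF, φV (φF f) = f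
  ψC : ∀ e ∈ gsw167Cin Y XV XF, ψ e ∈ gsw167Cin Y XV XF
  ψψ : ∀ e ∈ gsw167Cin Y XV XF, ψ (ψ e) = e
  fp : ∀ e ∈ gsw167Cin Y XV XF, (Y.f0 (ψ e) = φV (Y.p0 e) ∧ Y.f1 (ψ e) = φV (Y.p1 e)) ∨ (Y.f0 (ψ e) = φV (Y.p1 e) ∧ Y.f1 (ψ e) = φV (Y.p0 e))
  pf : ∀ e ∈ gsw167Cin Y XV XF, (Y.p0 (ψ e) = φF (Y.f0 e) ∧ Y.p1 (ψ e) = φF (Y.f1 e)) ∨ (Y.p0 (ψ e) = φF (Y.f1 e) ∧ Y.p1 (ψ e) = φF (Y.f0 e))

/-- the history: `s` plus on `LV`, `d` tied on `LF`, blind to the global flip of `d` and to the inside of the region; arbitrary outside -/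
structure Gsw167Hist (Y : Rcy162Sys) (K : RswCfg → Prop) (XV XF LV LF : Finset (ℤ × ℤ)) : Prop where
  pin : ∀ ω, Y.Cfg ω → K ω → LV ⊆ ω.S
  tie : ∀ ω, Y.Cfg ω → K ω → LF ⊆ ω.D ∨ ∀ f ∈ LF, f ∉ ω.D
  flip : ∀ ω, Y.Cfg ω → K ω → K (Y.flipD ω)
  loc : ∀ ω ω', Y.Cfg ω → Y.Cfg ω' → (∀ v, (v ∈ XV → v ∈ LV) → (v ∈ ω.S ↔ v ∈ ω'.S)) → (∀ f, (f ∈ XF → f ∈ LF) → (f ∈ ω.D ↔ f ∈ ω'.D)) →
    (∀ e, e ∉ gsw167Cin Y XV XF → (e ∈ ω.O ↔ e ∈ ω'.O)) → K ω → K ω'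

/-- exchange of the spins and of the statuses and reflection inside the region, identity outside -/
def gsw167Phi (Y : Rcy162Sys) (φV φF : ℤ × ℤ → ℤ × ℤ) (ψ : (ℤ × ℤ) × Bool → (ℤ × ℤ) × Bool) (XV XF : Finset (ℤ × ℤ))
    (x : RswCfg × Finset ((ℤ × ℤ) × Bool)) : RswCfg × Finset ((ℤ × ℤ) × Bool) :=
  (⟨Y.V.filter (fun v => (v ∈ XV ∧ φV v ∈ x.1.D) ∨ (v ∉ XV ∧ v ∈ x.1.S)),
    Y.Fc.filter (fun f => (f ∈ XF ∧ φF f ∈ x.1.S) ∨ (f ∉ XF ∧ f ∈ x.1.D)),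
    Y.E.filter (fun e => (e ∈ gsw167Cin Y XV XF ∧ ψ e ∈ x.2) ∨ (e ∉ gsw167Cin Y XV XF ∧ e ∈ x.1.O))⟩,
   Y.E.filter (fun e => (e ∈ gsw167Cin Y XV XF ∧ ψ e ∈ x.1.O) ∨ (e ∉ gsw167Cin Y XV XF ∧ e ∈ x.2)))

section abstract

variable {Y : Rcy162Sys} {φV φF : ℤ × ℤ → ℤ × ℤ} {ψ : (ℤ × ℤ) × Bool → (ℤ × ℤ) × Bool} {XV XF LV LF : Finset (ℤ × ℤ)}

theorem gsw167_mem_cin {e : (ℤ × ℤ) × Bool} :
    e ∈ gsw167Cin Y XV XF ↔ e ∈ Y.E ∧ Y.p0 e ∈ XV ∧ Y.p1 e ∈ XV ∧ Y.f0 e ∈ XF ∧ Y.f1 e ∈ XF := Finset.mem_filter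

theorem gsw167_mem_S (x : RswCfg × Finset ((ℤ × ℤ) × Bool)) (v : ℤ × ℤ) :
    v ∈ (gsw167Phi Y φV φF ψ XV XF x).1.S ↔ v ∈ Y.V ∧ ((v ∈ XV ∧ φV v ∈ x.1.D) ∨ (v ∉ XV ∧ v ∈ x.1.S)) := Finset.mem_filter

theorem gsw167_mem_D (x : RswCfg × Finset ((ℤ × ℤ) × Bool)) (f : ℤ × ℤ) :
    f ∈ (gsw167Phi Y φV φF ψ XV XF x).1.D ↔ f ∈ Y.Fc ∧ ((f ∈ XF ∧ φF f ∈ x.1.S) ∨ (f ∉ XF ∧ f ∈ x.1.D)) := Finset.mem_filter

theorem gsw167_mem_O (x : RswCfg × Finset ((ℤ × ℤ) × Bool)) (e : (ℤ × ℤ) × Bool) :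
    e ∈ (gsw167Phi Y φV φF ψ XV XF x).1.O ↔ e ∈ Y.E ∧ ((e ∈ gsw167Cin Y XV XF ∧ ψ e ∈ x.2) ∨ (e ∉ gsw167Cin Y XV XF ∧ e ∈ x.1.O)) :=
  Finset.mem_filter

theorem gsw167_mem_P (x : RswCfg × Finset ((ℤ × ℤ) × Bool)) (e : (ℤ × ℤ) × Bool) :
    e ∈ (gsw167Phi Y φV φF ψ XV XF x).2 ↔ e ∈ Y.E ∧ ((e ∈ gsw167Cin Y XV XF ∧ ψ e ∈ x.1.O) ∨ (e ∉ gsw167Cin Y XV XF ∧ e ∈ x.2)) :=
  Finset.mem_filter

theorem gsw167_phi_mem (x : RswCfg × Finset ((ℤ × ℤ) × Bool)) : gsw167Phi Y φV φF ψ XV XF x ∈ gsw167Cfgs2 Y := by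
  rw [gsw167_mem_cfgs2]
  exact ⟨⟨Finset.filter_subset _ _, Finset.filter_subset _ _, Finset.filter_subset _ _⟩, Finset.filter_subset _ _⟩

/-- inside the region -/
theorem gsw167_S_in (h : Gsw167Sym Y φV φF ψ XV XF LV LF) (x : RswCfg × Finset ((ℤ × ℤ) × Bool)) {v : ℤ × ℤ} (hv : v ∈ XV) :
    v ∈ (gsw167Phi Y φV φF ψ XV XF x).1.S ↔ φV v ∈ x.1.D := by
  rw [gsw167_mem_S]
  constructor
  · rintro ⟨-, ⟨-, h1⟩ | ⟨h1, -⟩⟩
    · exact h1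
    · exact absurd hv h1
  · exact fun h1 => ⟨h.xv hv, Or.inl ⟨hv, h1⟩⟩

theorem gsw167_D_in (h : Gsw167Sym Y φV φF ψ XV XF LV LF) (x : RswCfg × Finset ((ℤ × ℤ) × Bool)) {f : ℤ × ℤ} (hf : f ∈ XF) :
    f ∈ (gsw167Phi Y φV φF ψ XV XF x).1.D ↔ φF f ∈ x.1.S := by
  rw [gsw167_mem_D]
  constructor
  · rintro ⟨-, ⟨-, h1⟩ | ⟨h1, -⟩⟩
    · exact h1
    · exact absurd hf h1
  · exact fun h1 => ⟨h.xf hf, Or.inl ⟨hf, h1⟩⟩

theorem gsw167_O_in (x : RswCfg × Finset ((ℤ × ℤ) × Bool)) {e : (ℤ × ℤ) × Bool} (he : e ∈ gsw167Cin Y XV XF) :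
    e ∈ (gsw167Phi Y φV φF ψ XV XF x).1.O ↔ ψ e ∈ x.2 := by
  rw [gsw167_mem_O]
  constructor
  · rintro ⟨-, ⟨-, h1⟩ | ⟨h1, -⟩⟩
    · exact h1
    · exact absurd he h1
  · exact fun h1 => ⟨(Finset.mem_filter.1 he).1, Or.inl ⟨he, h1⟩⟩

theorem gsw167_P_in (x : RswCfg × Finset ((ℤ × ℤ) × Bool)) {e : (ℤ × ℤ) × Bool} (he : e ∈ gsw167Cin Y XV XF) :
    e ∈ (gsw167Phi Y φV φF ψ XV XF x).2 ↔ ψ e ∈ x.1.O := by
  rw [gsw167_mem_P]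
  constructor
  · rintro ⟨-, ⟨-, h1⟩ | ⟨h1, -⟩⟩
    · exact h1
    · exact absurd he h1
  · exact fun h1 => ⟨(Finset.mem_filter.1 he).1, Or.inl ⟨he, h1⟩⟩

/-- outside the region -/
theorem gsw167_S_out {x : RswCfg × Finset ((ℤ × ℤ) × Bool)} (hx : x ∈ gsw167Cfgs2 Y) {v : ℤ × ℤ} (hv : v ∉ XV) :
    v ∈ (gsw167Phi Y φV φF ψ XV XF x).1.S ↔ v ∈ x.1.S := by
  rw [gsw167_mem_S]
  constructor
  · rintro ⟨-, ⟨h1, -⟩ | ⟨-, h1⟩⟩
    · exact absurd h1 hv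
    · exact h1
  · exact fun h1 => ⟨(gsw167_mem_cfgs2.1 hx).1.1 h1, Or.inr ⟨hv, h1⟩⟩

theorem gsw167_D_out {x : RswCfg × Finset ((ℤ × ℤ) × Bool)} (hx : x ∈ gsw167Cfgs2 Y) {f : ℤ × ℤ} (hf : f ∉ XF) :
    f ∈ (gsw167Phi Y φV φF ψ XV XF x).1.D ↔ f ∈ x.1.D := by
  rw [gsw167_mem_D]
  constructor
  · rintro ⟨-, ⟨h1, -⟩ | ⟨-, h1⟩⟩
    · exact absurd h1 hf
    · exact h1
  · exact fun h1 => ⟨(gsw167_mem_cfgs2.1 hx).1.2.1 h1, Or.inr ⟨hf, h1⟩⟩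

theorem gsw167_O_out {x : RswCfg × Finset ((ℤ × ℤ) × Bool)} (hx : x ∈ gsw167Cfgs2 Y) {e : (ℤ × ℤ) × Bool} (he : e ∉ gsw167Cin Y XV XF) :
    e ∈ (gsw167Phi Y φV φF ψ XV XF x).1.O ↔ e ∈ x.1.O := by
  rw [gsw167_mem_O]
  constructor
  · rintro ⟨-, ⟨h1, -⟩ | ⟨-, h1⟩⟩
    · exact absurd h1 he
    · exact h1
  · exact fun h1 => ⟨(gsw167_mem_cfgs2.1 hx).1.2.2 h1, Or.inr ⟨he, h1⟩⟩

theorem gsw167_P_out {x : RswCfg × Finset ((ℤ × ℤ) × Bool)} (hx : x ∈ gsw167Cfgs2 Y) {e : (ℤ × ℤ) × Bool} (he : e ∉ gsw167Cin Y XV XF) :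
    e ∈ (gsw167Phi Y φV φF ψ XV XF x).2 ↔ e ∈ x.2 := by
  rw [gsw167_mem_P]
  constructor
  · rintro ⟨-, ⟨h1, -⟩ | ⟨-, h1⟩⟩
    · exact absurd h1 he
    · exact h1
  · exact fun h1 => ⟨(gsw167_mem_cfgs2.1 hx).2 h1, Or.inr ⟨he, h1⟩⟩

theorem gsw167_ext {x y : RswCfg × Finset ((ℤ × ℤ) × Bool)} (h1 : ∀ v, v ∈ x.1.S ↔ v ∈ y.1.S) (h2 : ∀ f, f ∈ x.1.D ↔ f ∈ y.1.D)
    (h3 : ∀ e, e ∈ x.1.O ↔ e ∈ y.1.O) (h4 : ∀ e, e ∈ x.2 ↔ e ∈ y.2) : x = y := by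
  obtain ⟨⟨S, D, O⟩, P⟩ := x
  obtain ⟨⟨S', D', O'⟩, P'⟩ := y
  have e1 : S = S' := Finset.ext h1
  have e2 : D = D' := Finset.ext h2
  have e3 : O = O' := Finset.ext h3
  have e4 : P = P' := Finset.ext h4
  subst e1 e2 e3 e4
  rfl

/-- the map is an involution of the configurations -/
theorem gsw167_phi_phi (h : Gsw167Sym Y φV φF ψ XV XF LV LF) {x : RswCfg × Finset ((ℤ × ℤ) × Bool)} (hx : x ∈ gsw167Cfgs2 Y) :
    gsw167Phi Y φV φF ψ XV XF (gsw167Phi Y φV φF ψ XV XF x) = x := by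
  have hm := gsw167_phi_mem (Y := Y) (φV := φV) (φF := φF) (ψ := ψ) (XV := XV) (XF := XF) x
  refine gsw167_ext (fun a => ?_) (fun a => ?_) (fun a => ?_) (fun a => ?_)
  · by_cases ha : a ∈ XV
    · rw [gsw167_S_in h _ ha, gsw167_D_in h _ (h.φVX a ha), h.φFV a ha]
    · rw [gsw167_S_out hm ha, gsw167_S_out hx ha]
  · by_cases ha : a ∈ XF
    · rw [gsw167_D_in h _ ha, gsw167_S_in h _ (h.φFX a ha), h.φVF a ha]
    · rw [gsw167_D_out hm ha, gsw167_D_out hx ha]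
  · by_cases ha : a ∈ gsw167Cin Y XV XF
    · rw [gsw167_O_in _ ha, gsw167_P_in _ (h.ψC a ha), h.ψψ a ha]
    · rw [gsw167_O_out hm ha, gsw167_O_out hx ha]
  · by_cases ha : a ∈ gsw167Cin Y XV XF
    · rw [gsw167_P_in _ ha, gsw167_O_in _ (h.ψC a ha), h.ψψ a ha]
    · rw [gsw167_P_out hm ha, gsw167_P_out hx ha]

/-- on the layers and outside the region nothing changes, if both spins are plus on the layers -/
theorem gsw167_S_same (h : Gsw167Sym Y φV φF ψ XV XF LV LF) {x : RswCfg × Finset ((ℤ × ℤ) × Bool)} (hx : x ∈ gsw167Cfgs2 Y)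
    (hS : LV ⊆ x.1.S) (hD : LF ⊆ x.1.D) {v : ℤ × ℤ} (hv : v ∈ XV → v ∈ LV) : v ∈ (gsw167Phi Y φV φF ψ XV XF x).1.S ↔ v ∈ x.1.S := by
  by_cases hvx : v ∈ XV
  · rw [gsw167_S_in h _ hvx]
    exact ⟨fun _ => hS (hv hvx), fun _ => hD (h.φVL v (hv hvx))⟩
  · exact gsw167_S_out hx hvx

theorem gsw167_D_same (h : Gsw167Sym Y φV φF ψ XV XF LV LF) {x : RswCfg × Finset ((ℤ × ℤ) × Bool)} (hx : x ∈ gsw167Cfgs2 Y)
    (hS : LV ⊆ x.1.S) (hD : LF ⊆ x.1.D) {f : ℤ × ℤ} (hf : f ∈ XF → f ∈ LF) : f ∈ (gsw167Phi Y φV φF ψ XV XF x).1.D ↔ f ∈ x.1.D := by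
  by_cases hfx : f ∈ XF
  · rw [gsw167_D_in h _ hfx]
    exact ⟨fun _ => hD (hf hfx), fun _ => hS (h.φFL f (hf hfx))⟩
  · exact gsw167_D_out hx hfx

theorem gsw167_iff_pair {a b c d : Prop} (h : (a ↔ c) ∧ (b ↔ d) ∨ (a ↔ d) ∧ (b ↔ c)) : (a ↔ b) ↔ (c ↔ d) := by
  rcases h with ⟨h1, h2⟩ | ⟨h1, h2⟩
  · rw [h1, h2]
  · rw [h1, h2]; exact Iff.comm

/-- **the weight with two statuses is preserved** -/
theorem gsw167_wt2 (t : ℝ) (h : Gsw167Sym Y φV φF ψ XV XF LV LF) {x : RswCfg × Finset ((ℤ × ℤ) × Bool)} (hx : x ∈ gsw167Cfgs2 Y)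
    (hS : LV ⊆ x.1.S) (hD : LF ⊆ x.1.D) : gsw167W2 Y t (gsw167Phi Y φV φF ψ XV XF x) = gsw167W2 Y t x := by
  unfold gsw167W2
  have hsub : gsw167Cin Y XV XF ⊆ Y.E := Finset.filter_subset _ _
  rw [← Finset.prod_sdiff hsub, ← Finset.prod_sdiff hsub]
  congr 1
  · refine Finset.prod_congr rfl fun e he => ?_
    obtain ⟨heE, heX⟩ := Finset.mem_sdiff.1 he
    have lv := h.layV e heE heX
    have lf := h.layF e heE heX
    exact gsw167_T_congr t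
      (iff_congr (gsw167_S_same h hx hS hD lv.1) (gsw167_S_same h hx hS hD lv.2))
      (iff_congr (gsw167_D_same h hx hS hD lf.1) (gsw167_D_same h hx hS hD lf.2))
      (gsw167_O_out hx heX) (gsw167_P_out hx heX)
  · refine Finset.prod_nbij' ψ ψ h.ψC h.ψC h.ψψ h.ψψ fun e he => ?_
    obtain ⟨-, p0, p1, f0, f1⟩ := gsw167_mem_cin.1 he
    unfold gsw167F2
    refine (gsw167_T_congr t (bc' := (Y.f0 (ψ e) ∈ x.1.D ↔ Y.f1 (ψ e) ∈ x.1.D)) (wc' := (Y.p0 (ψ e) ∈ x.1.S ↔ Y.p1 (ψ e) ∈ x.1.S))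
      ?_ ?_ (gsw167_O_in x he) (gsw167_P_in x he)).trans (gsw167_T_swap _ _ _ _ _)
    · apply gsw167_iff_pair
      rcases h.fp e he with ⟨a, b⟩ | ⟨a, b⟩
      · left; rw [a, b]; exact ⟨gsw167_S_in h x p0, gsw167_S_in h x p1⟩
      · right; rw [a, b]; exact ⟨gsw167_S_in h x p0, gsw167_S_in h x p1⟩
    · apply gsw167_iff_pair
      rcases h.pf e he with ⟨a, b⟩ | ⟨a, b⟩
      · left; rw [a, b]; exact ⟨gsw167_D_in h x f0, gsw167_D_in h x f1⟩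
      · right; rw [a, b]; exact ⟨gsw167_D_in h x f0, gsw167_D_in h x f1⟩

/-- **the history is preserved** -/
theorem gsw167_holds (h : Gsw167Sym Y φV φF ψ XV XF LV LF) {K : RswCfg → Prop} (hK : Gsw167Hist Y K XV XF LV LF)
    {x : RswCfg × Finset ((ℤ × ℤ) × Bool)} (hx : x ∈ gsw167Cfgs2 Y) (H : K x.1) (hD : LF ⊆ x.1.D) :
    K (gsw167Phi Y φV φF ψ XV XF x).1 ∧ LF ⊆ (gsw167Phi Y φV φF ψ XV XF x).1.D := by
  have hc := (gsw167_mem_cfgs2.1 hx).1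
  have hS : LV ⊆ x.1.S := hK.pin _ hc H
  have hm := gsw167_phi_mem (Y := Y) (φV := φV) (φF := φF) (ψ := ψ) (XV := XV) (XF := XF) x
  refine ⟨hK.loc x.1 _ hc (gsw167_mem_cfgs2.1 hm).1 (fun v hv => (gsw167_S_same h hx hS hD hv).symm)
    (fun f hf => (gsw167_D_same h hx hS hD hf).symm) (fun e he => (gsw167_O_out hx he).symm) H, ?_⟩
  intro f hf
  exact (gsw167_D_in h x (h.lf hf)).2 (hS (h.φFL f hf))

/-- **invariance of the law with two statuses** under the map -/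
theorem gsw167_N2 (t : ℝ) (h : Gsw167Sym Y φV φF ψ XV XF LV LF) {K : RswCfg → Prop} (hK : Gsw167Hist Y K XV XF LV LF)
    (G : RswCfg × Finset ((ℤ × ℤ) × Bool) → ℝ) :
    gsw167N2 Y t (fun x => K x.1 ∧ LF ⊆ x.1.D) (fun x => G (gsw167Phi Y φV φF ψ XV XF x))
      = gsw167N2 Y t (fun x => K x.1 ∧ LF ⊆ x.1.D) G := by
  classical
  unfold gsw167N2
  refine Finset.sum_nbij' (gsw167Phi Y φV φF ψ XV XF) (gsw167Phi Y φV φF ψ XV XF) (fun x _ => gsw167_phi_mem x) (fun x _ => gsw167_phi_mem x)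
    (fun x hx => gsw167_phi_phi h hx) (fun x hx => gsw167_phi_phi h hx) fun x hx => ?_
  by_cases hc : K x.1 ∧ LF ⊆ x.1.D
  · rw [if_pos hc, if_pos (gsw167_holds h hK hx hc.1 hc.2), gsw167_wt2 t h hx (hK.pin _ (gsw167_mem_cfgs2.1 hx).1 hc.1) hc.2]
  · rw [if_neg hc, if_neg]
    intro hc'
    have := gsw167_holds h hK (gsw167_phi_mem x) hc'.1 hc'.2
    rw [gsw167_phi_phi h hx] at this
    exact hc this

/-! ## 4. the label of the layer -/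

theorem gsw167_flipD_cfg {ω : RswCfg} (hω : Y.Cfg ω) : Y.Cfg (Y.flipD ω) := ⟨hω.1, Finset.sdiff_subset, hω.2.2⟩

theorem gsw167_flipD_flipD {ω : RswCfg} (hω : Y.Cfg ω) : Y.flipD (Y.flipD ω) = ω := by
  obtain ⟨S, D, O⟩ := ω
  have e : Y.Fc \ (Y.Fc \ D) = D := Finset.sdiff_sdiff_eq_self hω.2.1
  unfold Rcy162Sys.flipD
  simp only [e]

open Classical in
/-- **the label**: "`d` plus on the layer" is half (or all) of the law, for observables which do not read `d` -/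
theorem gsw167_label (hw : Y.WF) (t : ℝ) (hLF : LF ⊆ Y.Fc) {K : RswCfg → Prop} (hK : Gsw167Hist Y K XV XF LV LF) (F : RswCfg → ℝ)
    (hF : ∀ ω ω' : RswCfg, ω.S = ω'.S → ω.O = ω'.O → F ω = F ω') :
    Y.sum t K F = (if LF.Nonempty then 2 else 1) * Y.sum t (fun ω => K ω ∧ LF ⊆ ω.D) F := by
  by_cases hL : LF.Nonempty
  · rw [if_pos hL, two_mul]
    obtain ⟨f0, hf0⟩ := hL
    have e1 : Y.sum t (fun ω => K ω ∧ ¬ LF ⊆ ω.D) F = Y.sum t (fun ω => K ω ∧ LF ⊆ ω.D) F := by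
      rw [rcy162_flipD_sum Y hw t (fun ω => K ω ∧ ¬ LF ⊆ ω.D) F]
      have e2 : (fun ω => F (Y.flipD ω)) = F := funext fun ω => hF _ _ rfl rfl
      rw [e2]
      refine rcy162_sum_congr_K Y t (fun ω hω => ?_) F
      constructor
      · rintro ⟨H, hn⟩
        have H' := hK.flip _ (gsw167_flipD_cfg hω) H
        rw [gsw167_flipD_flipD hω] at H'
        refine ⟨H', fun f hf => ?_⟩
        rcases hK.tie _ (gsw167_flipD_cfg hω) H with h1 | h1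
        · exact absurd h1 hn
        · by_contra hfD
          exact h1 f hf (Finset.mem_sdiff.2 ⟨hLF hf, hfD⟩)
      · rintro ⟨H, hD⟩
        refine ⟨hK.flip _ hω H, fun hh => ?_⟩
        exact (Finset.mem_sdiff.1 (hh hf0)).2 (hD hf0)
    have e3 : Y.sum t K F = Y.sum t (fun ω => K ω ∧ LF ⊆ ω.D) F + Y.sum t (fun ω => K ω ∧ ¬ LF ⊆ ω.D) F := by
      rw [rcy162_sum_and, rcy162_sum_and, ← rcy162_sum_add]
      refine rcy162_sum_congr Y t K (fun ω _ _ => ?_)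
      by_cases h : LF ⊆ ω.D <;> simp [h]
    rw [e3, e1]
  · rw [if_neg hL, one_mul]
    rw [Finset.not_nonempty_iff_eq_empty] at hL
    subst hL
    exact rcy162_sum_congr_K Y t (fun ω _ => ⟨fun H => ⟨H, Finset.empty_subset _⟩, fun H => H.1⟩) F

/-! ## 5. the main lemma -/

open Classical in
/-- **THE COLOUR SWAP LEMMA IN AN AMBIENT SYSTEM** (cross multiplied) -/
theorem gsw167_main (hw : Y.WF) {t : ℝ} (h0 : 1 / 2 ≤ t) (h1 : t ≤ 1) (h : Gsw167Sym Y φV φF ψ XV XF LV LF) {K : RswCfg → Prop}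
    (hK : Gsw167Hist Y K XV XF LV LF) (Ev : RswCfg → Prop) (hEv : ∀ ω ω' : RswCfg, ω.S = ω'.S → ω.O = ω'.O → (Ev ω ↔ Ev ω'))
    (hd : ∀ x ∈ gsw167Cfgs2 Y, Gsw167Supp Y x → K x.1 → LV ⊆ x.1.S → LF ⊆ x.1.D → Ev x.1 ∨ Ev (gsw167Phi Y φV φF ψ XV XF x).1) :
    Y.sum t K (fun _ => 1) ≤ 2 * Y.sum t K (fun ω => if Ev ω then 1 else 0) := by
  set F : RswCfg → ℝ := fun ω => if Ev ω then 1 else 0 with hFd
  have hF0 : ∀ ω, 0 ≤ F ω := fun ω => by simp only [hFd]; split_ifs <;> norm_num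
  have hFW : ∀ ω ω' : RswCfg, ω.S = ω'.S → ω.O = ω'.O → F ω = F ω' := fun ω ω' a b => by
    simp only [hFd, hEv ω ω' a b]
  have hLF : LF ⊆ Y.Fc := h.lf.trans h.xf
  rw [gsw167_label hw t hLF hK (fun _ => 1) (fun _ _ _ _ => rfl), gsw167_label hw t hLF hK F hFW]
  have hc : (0 : ℝ) < (if LF.Nonempty then 2 else 1) := by split_ifs <;> norm_num
  have key : Y.sum t (fun ω => K ω ∧ LF ⊆ ω.D) (fun _ => 1) ≤ 2 * Y.sum t (fun ω => K ω ∧ LF ⊆ ω.D) F := by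
    rw [← gsw167_N2_fst Y t (fun ω => K ω ∧ LF ⊆ ω.D) (fun _ => 1), ← gsw167_N2_fst Y t (fun ω => K ω ∧ LF ⊆ ω.D) F, two_mul]
    have e3 : gsw167N2 Y t (fun x => K x.1 ∧ LF ⊆ x.1.D) (fun x => F (gsw167Phi Y φV φF ψ XV XF x).1)
        = gsw167N2 Y t (fun x => K x.1 ∧ LF ⊆ x.1.D) (fun x => F x.1) := gsw167_N2 t h hK (fun x => F x.1)
    nth_rewrite 2 [← e3]
    unfold gsw167N2
    rw [← Finset.sum_add_distrib]
    refine Finset.sum_le_sum fun x hx => ?_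
    by_cases hcond : K x.1 ∧ LF ⊆ x.1.D
    · rw [if_pos hcond, if_pos hcond, if_pos hcond, ← mul_add]
      have hwn := gsw167_W2_nonneg Y h0 h1 x
      by_cases hz : gsw167W2 Y t x = 0
      · rw [hz]; simp
      · refine mul_le_mul_of_nonneg_left ?_ hwn
        rcases hd x hx (gsw167_W2_supp hz) hcond.1 (hK.pin _ (gsw167_mem_cfgs2.1 hx).1 hcond.1) hcond.2 with h4 | h4
        · have a1 : F x.1 = 1 := by simp only [hFd]; rw [if_pos h4]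
          have a2 := hF0 (gsw167Phi Y φV φF ψ XV XF x).1
          linarith
        · have a1 : F (gsw167Phi Y φV φF ψ XV XF x).1 = 1 := by simp only [hFd]; rw [if_pos h4]
          have a2 := hF0 x.1
          linarith
    · rw [if_neg hcond, if_neg hcond, if_neg hcond]; simp
  nlinarith

/-- the colour swap lemma, normalised -/
theorem gsw167_main_P (hw : Y.WF) {t : ℝ} (h0 : 1 / 2 ≤ t) (h1 : t ≤ 1) (h : Gsw167Sym Y φV φF ψ XV XF LV LF) {K : RswCfg → Prop}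
    (hK : Gsw167Hist Y K XV XF LV LF) (hZ : 0 < Y.sum t K (fun _ => 1)) (Ev : RswCfg → Prop)
    (hEv : ∀ ω ω' : RswCfg, ω.S = ω'.S → ω.O = ω'.O → (Ev ω ↔ Ev ω'))
    (hd : ∀ x ∈ gsw167Cfgs2 Y, Gsw167Supp Y x → K x.1 → LV ⊆ x.1.S → LF ⊆ x.1.D → Ev x.1 ∨ Ev (gsw167Phi Y φV φF ψ XV XF x).1) :
    1 / 2 ≤ Y.Pr t K Ev := by
  have h2 := gsw167_main hw h0 h1 h hK Ev hEv hd
  unfold Rcy162Sys.Pr Rcy162Sys.Ex
  rw [le_div_iff₀ hZ]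
  linarith

open Classical in
/-- **LEMMA B, STEP 2** (abstract): `K` = the symmetric tied history, `Ka` = the actual history, above `K`: the order enters as a hypothesis on the indicator of the event, cross multiplied -/
theorem gsw167_step2 (hw : Y.WF) {t : ℝ} (h0 : 1 / 2 ≤ t) (h1 : t ≤ 1) (h : Gsw167Sym Y φV φF ψ XV XF LV LF) {K Ka : RswCfg → Prop}
    (hK : Gsw167Hist Y K XV XF LV LF) (hZ : 0 < Y.sum t K (fun _ => 1)) (hZa : 0 < Y.sum t Ka (fun _ => 1)) (Ev : RswCfg → Prop)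
    (hEv : ∀ ω ω' : RswCfg, ω.S = ω'.S → ω.O = ω'.O → (Ev ω ↔ Ev ω'))
    (hord : Y.sum t K (fun ω => if Ev ω then 1 else 0) * Y.sum t Ka (fun _ => 1)
      ≤ Y.sum t K (fun _ => 1) * Y.sum t Ka (fun ω => if Ev ω then 1 else 0))
    (hd : ∀ x ∈ gsw167Cfgs2 Y, Gsw167Supp Y x → K x.1 → LV ⊆ x.1.S → LF ⊆ x.1.D → Ev x.1 ∨ Ev (gsw167Phi Y φV φF ψ XV XF x).1) :
    1 / 2 ≤ Y.Pr t Ka Ev := by
  have h2 := gsw167_main hw h0 h1 h hK Ev hEv hd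
  unfold Rcy162Sys.Pr Rcy162Sys.Ex
  rw [le_div_iff₀ hZa]
  have h3 : Y.sum t K (fun _ => 1) * Y.sum t Ka (fun _ => 1)
      ≤ Y.sum t K (fun _ => 1) * (2 * Y.sum t Ka (fun ω => if Ev ω then 1 else 0)) := by nlinarith
  have h4 := le_of_mul_le_mul_left h3 hZ
  linarith

/-! ## 6. the path form -/

/-- the edge pairs which count as plus: the deterministic ones of `Dt` and the good ones (open, both ends plus) inside the region -/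
def gsw167Plus (Y : Rcy162Sys) (XV XF : Finset (ℤ × ℤ)) (Dt : Set ((ℤ × ℤ) × Bool)) (ω : RswCfg) : Set ((ℤ × ℤ) × Bool) :=
  {z | z ∈ Dt ∨ (z ∈ gsw167Cin Y XV XF ∧ Y.Good true ω z)}

/-- a path of plus edge pairs joins `I` to `III` -/
def Gsw167Path (Y : Rcy162Sys) (XV XF : Finset (ℤ × ℤ)) (G : SimpleGraph ((ℤ × ℤ) × Bool)) (Dt I III : Set ((ℤ × ℤ) × Bool)) (ω : RswCfg) : Prop :=
  ∃ y ∈ I, ∃ y' ∈ III, y ∈ gsw167Plus Y XV XF Dt ω ∧ TscR G (gsw167Plus Y XV XF Dt ω) y y'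

theorem gsw167_plus_mono (Dt : Set ((ℤ × ℤ) × Bool)) {ω ω' : RswCfg} (hle : Y.Le ω ω') :
    gsw167Plus Y XV XF Dt ω ⊆ gsw167Plus Y XV XF Dt ω' := by
  rintro z (hz | ⟨hz, h1⟩)
  · exact Or.inl hz
  · exact Or.inr ⟨hz, hle.2.1 z h1⟩

/-- the path event is increasing -/
theorem gsw167_path_mono (G : SimpleGraph ((ℤ × ℤ) × Bool)) (Dt I III : Set ((ℤ × ℤ) × Bool)) {ω ω' : RswCfg} (hle : Y.Le ω ω')
    (hp : Gsw167Path Y XV XF G Dt I III ω) : Gsw167Path Y XV XF G Dt I III ω' := by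
  obtain ⟨y, hy, y', hy', h1, h2⟩ := hp
  exact ⟨y, hy, y', hy', gsw167_plus_mono Dt hle h1, tsc_R_mono (gsw167_plus_mono Dt hle) h2⟩

theorem gsw167_good_iff (ω : RswCfg) (z : (ℤ × ℤ) × Bool) : Y.Good true ω z ↔ z ∈ ω.O ∧ Y.p0 z ∈ ω.S ∧ Y.p1 z ∈ ω.S := by
  unfold Rcy162Sys.Good
  simp

/-- the path event does not read `d` -/
theorem gsw167_path_read (G : SimpleGraph ((ℤ × ℤ) × Bool)) (Dt I III : Set ((ℤ × ℤ) × Bool)) (ω ω' : RswCfg) (hS : ω.S = ω'.S) (hO : ω.O = ω'.O) :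
    Gsw167Path Y XV XF G Dt I III ω ↔ Gsw167Path Y XV XF G Dt I III ω' := by
  have e : gsw167Plus Y XV XF Dt ω = gsw167Plus Y XV XF Dt ω' := by
    ext z
    unfold gsw167Plus
    simp only [Set.mem_ofPred_eq, gsw167_good_iff, hS, hO]
  unfold Gsw167Path
  rw [e]

/-- **propagation of the sign** along a path of edge pairs which are deterministic or open.   Generic: `(a0, a1, B, Op)` = (ends, `S`, `O`) or (faces, `D`, dual statuses) -/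
theorem gsw167_prop {a0 a1 : (ℤ × ℤ) × Bool → ℤ × ℤ} {XA LA B : Finset (ℤ × ℤ)} {C Op : Finset ((ℤ × ℤ) × Bool)} {Dt : Set ((ℤ × ℤ) × Bool)}
    (lay : ∀ z ∈ Dt, (a0 z ∈ XA → a0 z ∈ LA) ∧ (a1 z ∈ XA → a1 z ∈ LA)) (G : SimpleGraph ((ℤ × ℤ) × Bool))
    (hGs : ∀ z z', G.Adj z z' → ∃ v ∈ XA, (v = a0 z ∨ v = a1 z) ∧ (v = a0 z' ∨ v = a1 z')) (hL : LA ⊆ B)
    (hc : ∀ z ∈ C, z ∈ Op → (a0 z ∈ B ↔ a1 z ∈ B)) {y y' : (ℤ × ℤ) × Bool} (hy0 : y ∈ Dt ∨ a0 y ∈ LA ∨ a1 y ∈ LA)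
    (hyP : y ∈ {z | z ∈ Dt ∨ (z ∈ C ∧ z ∈ Op)}) (hpath : TscR G {z | z ∈ Dt ∨ (z ∈ C ∧ z ∈ Op)} y y') :
    y ∈ {z | z ∈ Dt ∨ (z ∈ C ∧ z ∈ Op ∧ a0 z ∈ B ∧ a1 z ∈ B)} ∧ TscR G {z | z ∈ Dt ∨ (z ∈ C ∧ z ∈ Op ∧ a0 z ∈ B ∧ a1 z ∈ B)} y y' := by
  -- an open edge pair inside with a plus end has two plus ends
  have hopen : ∀ z ∈ C, z ∈ Op → ∀ v, (v = a0 z ∨ v = a1 z) → v ∈ B → a0 z ∈ B ∧ a1 z ∈ B := by
    intro z hz hzO v hv hvB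
    rcases hv with rfl | rfl
    · exact ⟨hvB, (hc z hz hzO).1 hvB⟩
    · exact ⟨(hc z hz hzO).2 hvB, hvB⟩
  -- the ends in the region of a plus edge pair are plus
  have hsite : ∀ z ∈ {z | z ∈ Dt ∨ (z ∈ C ∧ z ∈ Op ∧ a0 z ∈ B ∧ a1 z ∈ B)}, ∀ v, (v = a0 z ∨ v = a1 z) → v ∈ XA → v ∈ B := by
    rintro z (hz | ⟨-, -, b0, b1⟩) v hv hvX
    · rcases hv with rfl | rfl
      · exact hL ((lay z hz).1 hvX)
      · exact hL ((lay z hz).2 hvX)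
    · rcases hv with rfl | rfl
      · exact b0
      · exact b1
  have hstart : y ∈ {z | z ∈ Dt ∨ (z ∈ C ∧ z ∈ Op ∧ a0 z ∈ B ∧ a1 z ∈ B)} := by
    rcases hyP with hy | ⟨hy, hyO⟩
    · exact Or.inl hy
    · rcases hy0 with hy0 | hy0 | hy0
      · exact Or.inl hy0
      · exact Or.inr ⟨hy, hyO, hopen y hy hyO _ (Or.inl rfl) (hL hy0)⟩
      · exact Or.inr ⟨hy, hyO, hopen y hy hyO _ (Or.inr rfl) (hL hy0)⟩
  have key : TscR G {z | z ∈ Dt ∨ (z ∈ C ∧ z ∈ Op ∧ a0 z ∈ B ∧ a1 z ∈ B)} y y' ∧ y' ∈ {z | z ∈ Dt ∨ (z ∈ C ∧ z ∈ Op ∧ a0 z ∈ B ∧ a1 z ∈ B)} := by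
    induction hpath with
    | refl => exact ⟨ReflTransGen.refl, hstart⟩
    | @tail b c _ hs ih =>
      obtain ⟨hadj, -, hcP⟩ := hs
      obtain ⟨v, hvX, hv1, hv2⟩ := hGs _ _ hadj
      have hvB := hsite _ ih.2 v hv1 hvX
      have hnew : c ∈ {z | z ∈ Dt ∨ (z ∈ C ∧ z ∈ Op ∧ a0 z ∈ B ∧ a1 z ∈ B)} := by
        rcases hcP with hcP | ⟨hcP, hcO⟩
        · exact Or.inl hcP
        · exact Or.inr ⟨hcP, hcO, hopen _ hcP hcO v hv2 hvB⟩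
      exact ⟨ih.1.tail ⟨hadj, ih.2, hnew⟩, hnew⟩
  exact ⟨hstart, key.1⟩

theorem gsw167_plus_eq (Dt : Set ((ℤ × ℤ) × Bool)) (ω : RswCfg) :
    gsw167Plus Y XV XF Dt ω = {z | z ∈ Dt ∨ (z ∈ gsw167Cin Y XV XF ∧ z ∈ ω.O ∧ Y.p0 z ∈ ω.S ∧ Y.p1 z ∈ ω.S)} := by
  ext z
  unfold gsw167Plus
  simp only [Set.mem_ofPred_eq, gsw167_good_iff]

/-- the dichotomy of the path event from planar duality on the edge pairs.   `DB`, `DW` = edge pairs with a deterministic status (not inside the region, so they touch it in the layers only);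
`Γ = DB ∪ DW ∪ Cin`;   `G` joins edge pairs through vertices of `XV`, `G'` through faces of `XF`;   `ψ` maps `DW` into `DB`, `II` into `I`, `IV` into `III`, `G'` into `G`. -/
theorem gsw167_path_dich (h : Gsw167Sym Y φV φF ψ XV XF LV LF) (G G' : SimpleGraph ((ℤ × ℤ) × Bool))
    (hGs : ∀ z z', G.Adj z z' → ∃ v ∈ XV, (v = Y.p0 z ∨ v = Y.p1 z) ∧ (v = Y.p0 z' ∨ v = Y.p1 z'))
    (hGs' : ∀ z z', G'.Adj z z' → ∃ f ∈ XF, (f = Y.f0 z ∨ f = Y.f1 z) ∧ (f = Y.f0 z' ∨ f = Y.f1 z'))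
    (hGψ : ∀ z z', G'.Adj z z' → G.Adj (ψ z) (ψ z'))
    (DB DW : Set ((ℤ × ℤ) × Bool)) (hDB : ∀ z ∈ DB, z ∈ Y.E ∧ z ∉ gsw167Cin Y XV XF) (hDW : ∀ z ∈ DW, z ∈ Y.E ∧ z ∉ gsw167Cin Y XV XF)
    (hψD : ∀ z ∈ DW, ψ z ∈ DB) (I II III IV : Set ((ℤ × ℤ) × Bool)) (hI : ∀ y ∈ I, y ∈ DB ∨ Y.p0 y ∈ LV ∨ Y.p1 y ∈ LV)
    (hII' : ∀ y ∈ II, y ∈ DW ∨ Y.f0 y ∈ LF ∨ Y.f1 y ∈ LF) (hII : ∀ y ∈ II, ψ y ∈ I) (hIV : ∀ y ∈ IV, ψ y ∈ III)
    (hDual : ∀ P : Set ((ℤ × ℤ) × Bool), (∃ y ∈ I, ∃ y' ∈ III, y ∈ P ∧ TscR G P y y') ∨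
      (∃ y ∈ II, ∃ y' ∈ IV, y ∈ (DB ∪ DW ∪ ↑(gsw167Cin Y XV XF)) \ P ∧ TscR G' ((DB ∪ DW ∪ ↑(gsw167Cin Y XV XF)) \ P) y y'))
    (x : RswCfg × Finset ((ℤ × ℤ) × Bool)) (hx : x ∈ gsw167Cfgs2 Y) (hs : Gsw167Supp Y x) (hS : LV ⊆ x.1.S) (hD : LF ⊆ x.1.D) :
    Gsw167Path Y XV XF G DB I III x.1 ∨ Gsw167Path Y XV XF G DB I III (gsw167Phi Y φV φF ψ XV XF x).1 := by
  have hcov := fun z (hz : z ∈ gsw167Cin Y XV XF) => hs z (Finset.mem_filter.1 hz).1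
  rcases hDual {z | z ∈ DB ∨ (z ∈ gsw167Cin Y XV XF ∧ z ∈ x.1.O)} with ⟨y, hy, y', hy', h1, h2⟩ | ⟨y, hy, y', hy', h1, h2⟩
  · left
    have := gsw167_prop (a0 := Y.p0) (a1 := Y.p1) (XA := XV) (LA := LV) (B := x.1.S) (fun z hz => h.layV z (hDB z hz).1 (hDB z hz).2) G hGs hS
      (fun z hz hzO => (hcov z hz).2.1 hzO) (hI y hy) h1 h2
    refine ⟨y, hy, y', hy', ?_, ?_⟩
    · rw [gsw167_plus_eq]; exact this.1
    · rw [gsw167_plus_eq]; exact this.2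
  · right
    have hsub : ((DB ∪ DW ∪ ↑(gsw167Cin Y XV XF)) \ {z | z ∈ DB ∨ (z ∈ gsw167Cin Y XV XF ∧ z ∈ x.1.O)} : Set ((ℤ × ℤ) × Bool))
        ⊆ {z | z ∈ DW ∨ (z ∈ gsw167Cin Y XV XF ∧ z ∈ x.2)} := by
      rintro z ⟨hz, hzP⟩
      rcases hz with (hz | hz) | hz
      · exact absurd (Or.inl hz) hzP
      · exact Or.inl hz
      · have hz' : z ∈ gsw167Cin Y XV XF := hz
        refine Or.inr ⟨hz', ?_⟩
        rcases (hcov z hz').1 with h3 | h3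
        · exact absurd (Or.inr ⟨hz', h3⟩) hzP
        · exact h3
    have := gsw167_prop (a0 := Y.f0) (a1 := Y.f1) (XA := XF) (LA := LF) (B := x.1.D) (fun z hz => h.layF z (hDW z hz).1 (hDW z hz).2) G' hGs' hD
      (fun z hz hzO => (hcov z hz).2.2 hzO) (hII' y hy) (hsub h1) (tsc_R_mono hsub h2)
    have hmap : ∀ z ∈ {z | z ∈ DW ∨ (z ∈ gsw167Cin Y XV XF ∧ z ∈ x.2 ∧ Y.f0 z ∈ x.1.D ∧ Y.f1 z ∈ x.1.D)},
        ψ z ∈ gsw167Plus Y XV XF DB (gsw167Phi Y φV φF ψ XV XF x).1 := by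
      rintro z (hz | ⟨hz, h3, d0, d1⟩)
      · exact Or.inl (hψD z hz)
      · refine Or.inr ⟨h.ψC z hz, ?_⟩
        obtain ⟨-, -, -, f0, f1⟩ := gsw167_mem_cin.1 hz
        obtain ⟨-, q0, q1, -, -⟩ := gsw167_mem_cin.1 (h.ψC z hz)
        rw [gsw167_good_iff]
        refine ⟨(gsw167_O_in x (h.ψC z hz)).2 (by rw [h.ψψ z hz]; exact h3), (gsw167_S_in h x q0).2 ?_, (gsw167_S_in h x q1).2 ?_⟩
        · rcases h.pf z hz with ⟨a, -⟩ | ⟨a, -⟩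
          · rw [a, h.φVF _ f0]; exact d0
          · rw [a, h.φVF _ f1]; exact d1
        · rcases h.pf z hz with ⟨-, b⟩ | ⟨-, b⟩
          · rw [b, h.φVF _ f1]; exact d1
          · rw [b, h.φVF _ f0]; exact d0
    refine ⟨ψ y, hII y hy, ψ y', hIV y' hy', hmap y this.1, ?_⟩
    refine tsc_R_mono ?_ (tsc_R_map (G' := G) ψ hGψ this.2)
    rintro _ ⟨z, hz, rfl⟩
    exact hmap z hz

open Classical in
/-- **THE COLOUR SWAP LEMMA, PATH FORM, with the order step**: under the actual history `Ka ≥ K` a path of plus edge pairs joins `I` to `III` with probability at least `1/2`.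
The order of the two histories enters as a hypothesis for the `Y.Le`-increasing observables, cross multiplied. -/
theorem gsw167_path (hw : Y.WF) {t : ℝ} (h0 : 1 / 2 ≤ t) (h1 : t ≤ 1) (h : Gsw167Sym Y φV φF ψ XV XF LV LF) {K Ka : RswCfg → Prop}
    (hK : Gsw167Hist Y K XV XF LV LF) (hZ : 0 < Y.sum t K (fun _ => 1)) (hZa : 0 < Y.sum t Ka (fun _ => 1))
    (hord : ∀ F : RswCfg → ℝ, (∀ ω ω', Y.Le ω ω' → F ω ≤ F ω') →
      Y.sum t K F * Y.sum t Ka (fun _ => 1) ≤ Y.sum t K (fun _ => 1) * Y.sum t Ka F)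
    (G G' : SimpleGraph ((ℤ × ℤ) × Bool))
    (hGs : ∀ z z', G.Adj z z' → ∃ v ∈ XV, (v = Y.p0 z ∨ v = Y.p1 z) ∧ (v = Y.p0 z' ∨ v = Y.p1 z'))
    (hGs' : ∀ z z', G'.Adj z z' → ∃ f ∈ XF, (f = Y.f0 z ∨ f = Y.f1 z) ∧ (f = Y.f0 z' ∨ f = Y.f1 z'))
    (hGψ : ∀ z z', G'.Adj z z' → G.Adj (ψ z) (ψ z'))
    (DB DW : Set ((ℤ × ℤ) × Bool)) (hDB : ∀ z ∈ DB, z ∈ Y.E ∧ z ∉ gsw167Cin Y XV XF) (hDW : ∀ z ∈ DW, z ∈ Y.E ∧ z ∉ gsw167Cin Y XV XF)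
    (hψD : ∀ z ∈ DW, ψ z ∈ DB) (I II III IV : Set ((ℤ × ℤ) × Bool)) (hI : ∀ y ∈ I, y ∈ DB ∨ Y.p0 y ∈ LV ∨ Y.p1 y ∈ LV)
    (hII' : ∀ y ∈ II, y ∈ DW ∨ Y.f0 y ∈ LF ∨ Y.f1 y ∈ LF) (hII : ∀ y ∈ II, ψ y ∈ I) (hIV : ∀ y ∈ IV, ψ y ∈ III)
    (hDual : ∀ P : Set ((ℤ × ℤ) × Bool), (∃ y ∈ I, ∃ y' ∈ III, y ∈ P ∧ TscR G P y y') ∨
      (∃ y ∈ II, ∃ y' ∈ IV, y ∈ (DB ∪ DW ∪ ↑(gsw167Cin Y XV XF)) \ P ∧ TscR G' ((DB ∪ DW ∪ ↑(gsw167Cin Y XV XF)) \ P) y y')) :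
    1 / 2 ≤ Y.Pr t Ka (Gsw167Path Y XV XF G DB I III) := by
  refine gsw167_step2 hw h0 h1 h hK hZ hZa _ (gsw167_path_read G DB I III) (hord _ ?_) fun x hx hs _ hS hD =>
    gsw167_path_dich h G G' hGs hGs' hGψ DB DW hDB hDW hψD I II III IV hI hII' hII hIV hDual x hx hs hS hD
  intro ω ω' hle
  by_cases e : Gsw167Path Y XV XF G DB I III ω
  · rw [if_pos e, if_pos (gsw167_path_mono G DB I III hle e)]
  · rw [if_neg e]; split_ifs <;> norm_num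

end abstract

/-- the equation lemmas of the definitions of this file are generated HERE -/
theorem gsw167_eqns_cite : True := by
  have := @gsw167T.eq_1
  have := @gsw167F2.eq_1
  have := @gsw167W2.eq_1
  have := @gsw167Cfgs2.eq_1
  have := @gsw167N2.eq_1
  have := @Gsw167Supp.eq_1
  have := @gsw167Cin.eq_1
  have := @gsw167Phi.eq_1
  have := @gsw167Plus.eq_1
  have := @Gsw167Path.eq_1
  trivial

end Claimed.Agent.R292
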