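import Claimed.Agent.R292.Rsw.Sys162
import Claimed.Agent.R292.Rsw.Dual251

/-!
# Row 292 (S0540), Rsw/GlueSym202 : R8 CORE, BLOCK A1, THE SYMMETRY LEMMAS X1, X1' ON AN EDGE-PAIR SYSTEM + THE SYMMETRIC DOMAIN (N1)      (owner helper202; prefix `gsy202` / `Gsy202`)      0 sorry

Port of R291 `Glue/Sym` (X1 `gl_sym`, X1' `gl_sym_swap`, path forms) to `Rcy162Sys` of `Rsw/Sys162`; TEX[annulus:straight-short] (display annulus:symmetric-short); `CORE_DICT.md` Sec. 1 (exchange X, T6) and Sec. 4 N1, N5.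
NEW ON Z^2: the two spins live on DIFFERENT sites, so the colour swap is a morphism from the DUAL system (faces play vertices) to the system.

§1 `gsy202Dual Y`;  THE TWO-STATUS TABLE `gsy202F2 Y t S D O O' e` (one uniform per edge pair, in discrete form: `O` = open for `s`, `O'` = open for `d`):  both spins equal: (o,o) `2t-1`, (o,c) `1-t`, (c,o) `1-t`, (c,c) `0`;
   only `s` equal: (o,c) `t`;  only `d` equal: (c,o) `t`.   `gsy202W2` its product;  marginals **`gsy202_W2_fst`**, **`gsy202_W2_snd`**;  `gsy202_W2_nonneg` (`1/2 ≤ t ≤ 1`);  support `Gsy202Supp` (`gsy202_W2_ne`): NEVER BOTH CLOSED (= T6).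
§2 `gsy202Sum2` (sum over `S, D, O, O'`), `gsy202_sum2_fst`, `gsy202_sum2_snd`, `gsy202_sum2_mono`;   **`gsy202_half`** (the coupling step).
§3 **`gsy202_sym_swap`** = X1' : `Rcy162Hom (gsy202Dual Y) Y gV gF gE`, `K` reads the spins only and is symmetric, `E ⟨S, D, O⟩ ∨ E (map ⟨D, S, O'⟩)` on the support  ⟹  `1/2 ≤ Y.Pr t K E`.   No monotonicity, no topology.
§4 paths: `Gsy202St`, `Gsy202Join`, `Gsy202Cross` (path of `Good true` edge pairs);  `gsy202_cross_of_join` (the sign propagates along open edges), `gsy202_cross_hom`;   **`gsy202_swap_path`** (planar duality enters as a hypothesis).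
§5 **`gsy202_sym`** = X1 (reflection + flip of `s`; the ORDER of the two constraints is a hypothesis), `gsy202_T_sum` (the transport), **`gsy202_sym_path`** (two adjacencies: star-plus against nn-minus, N5).
§7 (v2) THE SELF-DUAL RECTANGLE `gsy202RV a b n` (`(n+2) × (n+1)` vertices), `gsy202RF a b n` (`(n+1) × (n+2)` faces), `k = a + b + n`:  `gsy202_rect_sym`, **`gsy202_rect_duality`** (from `rdu251_duality` of `Rsw/Dual251`),
   **`gsy202_rect`** : `s = +` on `PS ⊇` the left side, `d = +` on the reflected faces  ⟹  `1/2 ≤ P[a path of good plus edges joins the left side to the right side]`.   NO HYPOTHESIS LEFT (leaf (d) of the plan of 291 for (LSS)).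
§6 N1, THE SYMMETRIC DOMAIN: `gsy202Dom VS VD`, the reflection `gsy202Sg k` in the line `x + y = k + 1/2` (vertex `(x,y)` ↦ face `(k-y,k-x)`, face ↦ vertex), `gsy202Tu k`;   **`gsy202_dom_hom`**, `gsy202_dom_feas`, **`gsy202_N1`**.
-/

set_option autoImplicit false
set_option linter.unusedVariables false
set_option linter.unusedSectionVars false
set_option linter.unusedSimpArgs false

namespace Claimed.Agent.R292

open Claims Claims.C0468 Finset Claimed.Agent.R291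

/-! ## 1. the dual system and the two-status table -/

/-- the dual system: the faces play the vertices -/
def gsy202Dual (Y : Rcy162Sys) : Rcy162Sys := ⟨Y.Fc, Y.V, Y.E, Y.f0, Y.f1, Y.p0, Y.p1⟩

theorem gsy202_dual_wf {Y : Rcy162Sys} (hw : Y.WF) : (gsy202Dual Y).WF := ⟨hw.f0, hw.f1, hw.p0, hw.p1⟩

theorem gsy202_dual_dual (Y : Rcy162Sys) : gsy202Dual (gsy202Dual Y) = Y := rfl

/-- `s` takes the same value at the two endpoints -/
def Gsy202Sa (Y : Rcy162Sys) (S : Finset (ℤ × ℤ)) (e : (ℤ × ℤ) × Bool) : Prop := Y.p0 e ∈ S ↔ Y.p1 e ∈ S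

/-- `d` takes the same value at the two faces -/
def Gsy202Da (Y : Rcy162Sys) (D : Finset (ℤ × ℤ)) (e : (ℤ × ℤ) × Bool) : Prop := Y.f0 e ∈ D ↔ Y.f1 e ∈ D

open Classical in
/-- (open, open) -/
noncomputable def gsy202oo (Y : Rcy162Sys) (t : ℝ) (S D : Finset (ℤ × ℤ)) (e : (ℤ × ℤ) × Bool) : ℝ :=
  if Gsy202Sa Y S e then (if Gsy202Da Y D e then 2 * t - 1 else 0) else 0

open Classical in
/-- (open, closed) -/
noncomputable def gsy202oc (Y : Rcy162Sys) (t : ℝ) (S D : Finset (ℤ × ℤ)) (e : (ℤ × ℤ) × Bool) : ℝ :=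
  if Gsy202Sa Y S e then (if Gsy202Da Y D e then 1 - t else t) else 0

open Classical in
/-- (closed, open) -/
noncomputable def gsy202co (Y : Rcy162Sys) (t : ℝ) (S D : Finset (ℤ × ℤ)) (e : (ℤ × ℤ) × Bool) : ℝ :=
  if Gsy202Da Y D e then (if Gsy202Sa Y S e then 1 - t else t) else 0

open Classical in
/-- **the two-status table** -/
noncomputable def gsy202F2 (Y : Rcy162Sys) (t : ℝ) (S D : Finset (ℤ × ℤ)) (O O' : Finset ((ℤ × ℤ) × Bool)) (e : (ℤ × ℤ) × Bool) : ℝ :=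
  if e ∈ O then (if e ∈ O' then gsy202oo Y t S D e else gsy202oc Y t S D e) else (if e ∈ O' then gsy202co Y t S D e else 0)

/-- joint weight of the two statuses given the spins -/
noncomputable def gsy202W2 (Y : Rcy162Sys) (t : ℝ) (S D : Finset (ℤ × ℤ)) (O O' : Finset ((ℤ × ℤ) × Bool)) : ℝ :=
  ∏ e ∈ Y.E, gsy202F2 Y t S D O O' e

theorem gsy202_oo_oc (Y : Rcy162Sys) (t : ℝ) (S D : Finset (ℤ × ℤ)) (e : (ℤ × ℤ) × Bool) :
    gsy202oo Y t S D e + gsy202oc Y t S D e = Y.fo t S e := by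
  unfold gsy202oo gsy202oc Rcy162Sys.fo Gsy202Sa Gsy202Da
  split_ifs <;> ring

theorem gsy202_co_eq (Y : Rcy162Sys) (t : ℝ) (S D : Finset (ℤ × ℤ)) (e : (ℤ × ℤ) × Bool) :
    gsy202co Y t S D e = Y.fc t S D e := by
  unfold gsy202co Rcy162Sys.fc Gsy202Sa Gsy202Da
  split_ifs <;> rfl

theorem gsy202_oo_co (Y : Rcy162Sys) (t : ℝ) (S D : Finset (ℤ × ℤ)) (e : (ℤ × ℤ) × Bool) :
    gsy202oo Y t S D e + gsy202co Y t S D e = (gsy202Dual Y).fo t D e := by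
  unfold gsy202oo gsy202co Rcy162Sys.fo Gsy202Sa Gsy202Da gsy202Dual
  split_ifs <;> ring

theorem gsy202_oc_eq (Y : Rcy162Sys) (t : ℝ) (S D : Finset (ℤ × ℤ)) (e : (ℤ × ℤ) × Bool) :
    gsy202oc Y t S D e = (gsy202Dual Y).fc t D S e := by
  unfold gsy202oc Rcy162Sys.fc Gsy202Sa Gsy202Da gsy202Dual
  split_ifs <;> rfl

/-- **first marginal**: the sum over the second status is the weight of the system -/
theorem gsy202_W2_fst (Y : Rcy162Sys) (t : ℝ) (S D : Finset (ℤ × ℤ)) (O : Finset ((ℤ × ℤ) × Bool)) :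
    ∑ O' ∈ Y.E.powerset, gsy202W2 Y t S D O O' = Y.w t ⟨S, D, O⟩ := by
  classical
  unfold gsy202W2 Rcy162Sys.w
  have e1 : ∀ O' e, gsy202F2 Y t S D O O' e = if e ∈ O' then (if e ∈ O then gsy202oo Y t S D e else gsy202co Y t S D e)
      else (if e ∈ O then gsy202oc Y t S D e else 0) := by
    intro O' e
    unfold gsy202F2
    by_cases h1 : e ∈ O <;> by_cases h2 : e ∈ O' <;> simp [h1, h2]
  simp only [e1]
  rw [rcy162_sum_powerset_prod]
  refine prod_congr rfl fun e _ => ?_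
  rw [rcy162_fac_eq]
  by_cases h1 : e ∈ O
  · simp only [h1, if_true]; exact gsy202_oo_oc Y t S D e
  · simp only [h1, if_false, add_zero]; exact gsy202_co_eq Y t S D e

/-- **second marginal**: the sum over the first status is the weight of the DUAL system at the exchanged spins -/
theorem gsy202_W2_snd (Y : Rcy162Sys) (t : ℝ) (S D : Finset (ℤ × ℤ)) (O' : Finset ((ℤ × ℤ) × Bool)) :
    ∑ O ∈ Y.E.powerset, gsy202W2 Y t S D O O' = (gsy202Dual Y).w t ⟨D, S, O'⟩ := by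
  classical
  unfold gsy202W2 Rcy162Sys.w
  have e1 : ∀ O e, gsy202F2 Y t S D O O' e = if e ∈ O then (if e ∈ O' then gsy202oo Y t S D e else gsy202oc Y t S D e)
      else (if e ∈ O' then gsy202co Y t S D e else 0) := by
    intro O e
    unfold gsy202F2
    by_cases h1 : e ∈ O <;> by_cases h2 : e ∈ O' <;> simp [h1, h2]
  simp only [e1]
  rw [rcy162_sum_powerset_prod]
  show _ = ∏ e ∈ Y.E, (gsy202Dual Y).fac t ⟨D, S, O'⟩ e
  refine prod_congr rfl fun e _ => ?_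
  rw [rcy162_fac_eq]
  by_cases h1 : e ∈ O'
  · simp only [h1, if_true]; exact gsy202_oo_co Y t S D e
  · simp only [h1, if_false, add_zero]; exact gsy202_oc_eq Y t S D e

theorem gsy202_F2_nonneg (Y : Rcy162Sys) {t : ℝ} (h1 : 1 / 2 ≤ t) (h2 : t ≤ 1) (S D : Finset (ℤ × ℤ)) (O O' : Finset ((ℤ × ℤ) × Bool))
    (e : (ℤ × ℤ) × Bool) : 0 ≤ gsy202F2 Y t S D O O' e := by
  unfold gsy202F2 gsy202oo gsy202oc gsy202co
  split_ifs <;> linarith

theorem gsy202_W2_nonneg (Y : Rcy162Sys) {t : ℝ} (h1 : 1 / 2 ≤ t) (h2 : t ≤ 1) (S D : Finset (ℤ × ℤ)) (O O' : Finset ((ℤ × ℤ) × Bool)) :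
    0 ≤ gsy202W2 Y t S D O O' := prod_nonneg fun e _ => gsy202_F2_nonneg Y h1 h2 S D O O' e

/-- the support of the two-status law: no edge pair is closed for both spins (T6); an open edge pair has equal spins -/
structure Gsy202Supp (Y : Rcy162Sys) (S D : Finset (ℤ × ℤ)) (O O' : Finset ((ℤ × ℤ) × Bool)) : Prop where
  nc : ∀ e ∈ Y.E, e ∈ O ∨ e ∈ O'
  sop : ∀ e ∈ Y.E, e ∈ O → (Y.p0 e ∈ S ↔ Y.p1 e ∈ S)
  dop : ∀ e ∈ Y.E, e ∈ O' → (Y.f0 e ∈ D ↔ Y.f1 e ∈ D)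

theorem gsy202_F2_ne {Y : Rcy162Sys} {t : ℝ} {S D : Finset (ℤ × ℤ)} {O O' : Finset ((ℤ × ℤ) × Bool)} {e : (ℤ × ℤ) × Bool}
    (h : gsy202F2 Y t S D O O' e ≠ 0) :
    (e ∈ O ∨ e ∈ O') ∧ (e ∈ O → (Y.p0 e ∈ S ↔ Y.p1 e ∈ S)) ∧ (e ∈ O' → (Y.f0 e ∈ D ↔ Y.f1 e ∈ D)) := by
  classical
  unfold gsy202F2 gsy202oo gsy202oc gsy202co Gsy202Sa Gsy202Da at h
  by_cases h1 : e ∈ O <;> by_cases h2 : e ∈ O' <;> by_cases h3 : (Y.p0 e ∈ S ↔ Y.p1 e ∈ S) <;>
    by_cases h4 : (Y.f0 e ∈ D ↔ Y.f1 e ∈ D) <;> simp only [h1, h2, h3, h4, if_true, if_false, ne_eq, not_true_eq_false] at h <;>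
    simp only [h1, h2, h3, h4, true_or, or_true, true_and, and_true, forall_true_left, imp_self, false_imp_iff, not_false_eq_true]

theorem gsy202_W2_ne {Y : Rcy162Sys} {t : ℝ} {S D : Finset (ℤ × ℤ)} {O O' : Finset ((ℤ × ℤ) × Bool)}
    (h : gsy202W2 Y t S D O O' ≠ 0) : Gsy202Supp Y S D O O' := by
  have h1 : ∀ e ∈ Y.E, gsy202F2 Y t S D O O' e ≠ 0 := fun e he h0 => h (prod_eq_zero he h0)
  exact ⟨fun e he => (gsy202_F2_ne (h1 e he)).1, fun e he => (gsy202_F2_ne (h1 e he)).2.1, fun e he => (gsy202_F2_ne (h1 e he)).2.2⟩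

/-! ## 2. the sum over both statuses; the coupling step -/

open Classical in
/-- unnormalised sum over the spins and BOTH statuses; the constraint reads the spins only -/
noncomputable def gsy202Sum2 (Y : Rcy162Sys) (t : ℝ) (K : RswCfg → Prop) (Φ : RswCfg → Finset ((ℤ × ℤ) × Bool) → ℝ) : ℝ :=
  ∑ S ∈ Y.V.powerset, ∑ D ∈ Y.Fc.powerset, ∑ O ∈ Y.E.powerset, ∑ O' ∈ Y.E.powerset,
    (if K ⟨S, D, ∅⟩ then gsy202W2 Y t S D O O' else 0) * Φ ⟨S, D, O⟩ O'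

/-- the constraint reads the spins only -/
def Gsy202Spin (K : RswCfg → Prop) : Prop := ∀ S D O, K ⟨S, D, O⟩ ↔ K ⟨S, D, ∅⟩

/-- the exchanged constraint (a constraint on the dual system) -/
def gsy202Kx (K : RswCfg → Prop) (ω : RswCfg) : Prop := K ⟨ω.D, ω.S, ∅⟩

theorem gsy202_sum2_fst (Y : Rcy162Sys) (t : ℝ) {K : RswCfg → Prop} (hK : Gsy202Spin K) (F : RswCfg → ℝ) :
    gsy202Sum2 Y t K (fun ω _ => F ω) = Y.sum t K F := by
  classical
  unfold gsy202Sum2 Rcy162Sys.sum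
  refine sum_congr rfl fun S _ => sum_congr rfl fun D _ => sum_congr rfl fun O _ => ?_
  rw [← Finset.sum_mul, rcy162_wt_eq]
  congr 1
  by_cases h : K ⟨S, D, ∅⟩
  · simp only [if_pos h, if_pos ((hK S D O).2 h)]
    exact gsy202_W2_fst Y t S D O
  · simp only [if_neg h, if_neg (fun hh => h ((hK S D O).1 hh)), sum_const_zero]

theorem gsy202_sum2_snd (Y : Rcy162Sys) (t : ℝ) (K : RswCfg → Prop) (G : RswCfg → ℝ) :
    gsy202Sum2 Y t K (fun ω O' => G ⟨ω.D, ω.S, O'⟩) = (gsy202Dual Y).sum t (gsy202Kx K) G := by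
  classical
  unfold gsy202Sum2 Rcy162Sys.sum
  show _ = ∑ D ∈ Y.Fc.powerset, ∑ S ∈ Y.V.powerset, ∑ O' ∈ Y.E.powerset, (gsy202Dual Y).wt t (gsy202Kx K) ⟨D, S, O'⟩ * G ⟨D, S, O'⟩
  rw [Finset.sum_comm]
  refine sum_congr rfl fun D _ => sum_congr rfl fun S _ => ?_
  rw [Finset.sum_comm]
  refine sum_congr rfl fun O' _ => ?_
  show ∑ O ∈ Y.E.powerset, (if K ⟨S, D, ∅⟩ then gsy202W2 Y t S D O O' else 0) * G ⟨D, S, O'⟩ = _
  rw [← Finset.sum_mul, rcy162_wt_eq]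
  congr 1
  have e : gsy202Kx K ⟨D, S, O'⟩ ↔ K ⟨S, D, ∅⟩ := Iff.rfl
  by_cases h : K ⟨S, D, ∅⟩
  · simp only [if_pos h, if_pos (e.2 h)]
    exact gsy202_W2_snd Y t S D O'
  · simp only [if_neg h, if_neg (fun hh => h (e.1 hh)), sum_const_zero]

theorem gsy202_sum2_add (Y : Rcy162Sys) (t : ℝ) (K : RswCfg → Prop) (Φ Ψ : RswCfg → Finset ((ℤ × ℤ) × Bool) → ℝ) :
    gsy202Sum2 Y t K (fun ω O' => Φ ω O' + Ψ ω O') = gsy202Sum2 Y t K Φ + gsy202Sum2 Y t K Ψ := by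
  unfold gsy202Sum2
  simp only [mul_add, Finset.sum_add_distrib]

/-- monotone, reading only the support -/
theorem gsy202_sum2_mono (Y : Rcy162Sys) {t : ℝ} (h1 : 1 / 2 ≤ t) (h2 : t ≤ 1) (K : RswCfg → Prop)
    {Φ Ψ : RswCfg → Finset ((ℤ × ℤ) × Bool) → ℝ}
    (h : ∀ S D O O', S ⊆ Y.V → D ⊆ Y.Fc → O ⊆ Y.E → O' ⊆ Y.E → K ⟨S, D, ∅⟩ → Gsy202Supp Y S D O O' → Φ ⟨S, D, O⟩ O' ≤ Ψ ⟨S, D, O⟩ O') :
    gsy202Sum2 Y t K Φ ≤ gsy202Sum2 Y t K Ψ := by
  classical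
  unfold gsy202Sum2
  refine sum_le_sum fun S hS => sum_le_sum fun D hD => sum_le_sum fun O hO => sum_le_sum fun O' hO' => ?_
  by_cases hK : K ⟨S, D, ∅⟩
  · simp only [if_pos hK]
    by_cases h0 : gsy202W2 Y t S D O O' = 0
    · rw [h0, zero_mul, zero_mul]
    · exact mul_le_mul_of_nonneg_left
        (h S D O O' (mem_powerset.1 hS) (mem_powerset.1 hD) (mem_powerset.1 hO) (mem_powerset.1 hO') hK (gsy202_W2_ne h0))
        (gsy202_W2_nonneg Y h1 h2 S D O O')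
  · simp only [if_neg hK, zero_mul, le_refl]

/-- **THE COUPLING STEP** (never both closed) -/
theorem gsy202_half (Y : Rcy162Sys) {t : ℝ} (h1 : 1 / 2 ≤ t) (h2 : t ≤ 1) {K : RswCfg → Prop} (hK : Gsy202Spin K) (F G : RswCfg → ℝ)
    (hd : ∀ S D O O', S ⊆ Y.V → D ⊆ Y.Fc → O ⊆ Y.E → O' ⊆ Y.E → K ⟨S, D, ∅⟩ → Gsy202Supp Y S D O O' →
      1 ≤ F ⟨S, D, O⟩ + G ⟨D, S, O'⟩) :
    Y.sum t K (fun _ => 1) ≤ Y.sum t K F + (gsy202Dual Y).sum t (gsy202Kx K) G := by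
  rw [← gsy202_sum2_fst Y t hK, ← gsy202_sum2_fst Y t hK F, ← gsy202_sum2_snd, ← gsy202_sum2_add]
  exact gsy202_sum2_mono Y h1 h2 K hd

/-- the coupling in the form of a domination (T6): an observable of the complement of the first status, increasing, is dominated by the second status -/
theorem gsy202_dom (Y : Rcy162Sys) {t : ℝ} (h1 : 1 / 2 ≤ t) (h2 : t ≤ 1) {K : RswCfg → Prop} (hK : Gsy202Spin K) (F G : RswCfg → ℝ)
    (hd : ∀ S D O O', S ⊆ Y.V → D ⊆ Y.Fc → O ⊆ Y.E → O' ⊆ Y.E → K ⟨S, D, ∅⟩ → Gsy202Supp Y S D O O' →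
      F ⟨S, D, O⟩ ≤ G ⟨D, S, O'⟩) :
    Y.sum t K F ≤ (gsy202Dual Y).sum t (gsy202Kx K) G := by
  rw [← gsy202_sum2_fst Y t hK F, ← gsy202_sum2_snd]
  exact gsy202_sum2_mono Y h1 h2 K hd

/-! ## 3. X1' : the symmetry lemma, colour swap form -/

section swap

variable {Y : Rcy162Sys} {gV gF : ℤ × ℤ → ℤ × ℤ} {gE : (ℤ × ℤ) × Bool → (ℤ × ℤ) × Bool}

/-- the constraint is invariant under (exchange of the spins) ∘ (the morphism) -/
def Gsy202KSym (Y : Rcy162Sys) (gV gF : ℤ × ℤ → ℤ × ℤ) (gE : (ℤ × ℤ) × Bool → (ℤ × ℤ) × Bool) (K : RswCfg → Prop) : Prop :=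
  ∀ ω : RswCfg, (gsy202Dual Y).Cfg ω → (K (rcy162Map gV gF gE ω) ↔ K ⟨ω.D, ω.S, ∅⟩)

/-- the exchange: the sum of the dual system under the exchanged constraint is the sum of the system -/
theorem gsy202_exchange (hw : Y.WF) (h : Rcy162Hom (gsy202Dual Y) Y gV gF gE) (t : ℝ) {K : RswCfg → Prop} (hs : Gsy202KSym Y gV gF gE K)
    (F : RswCfg → ℝ) : (gsy202Dual Y).sum t (gsy202Kx K) (fun ω => F (rcy162Map gV gF gE ω)) = Y.sum t K F := by
  rw [rcy162_hom_sum h (gsy202_dual_wf hw) t K F]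
  exact rcy162_sum_congr_K (gsy202Dual Y) t (fun ω hω => (hs ω hω).symm) _

open Classical in
/-- **X1', THE SYMMETRY LEMMA, COLOUR SWAP FORM.**   `h` = a morphism from the dual system to the system (a reflection which exchanges vertices and faces); the constraint reads the spins only and is symmetric;
`1/2 ≤ t`.   If on the support of the two-status law one of `E ⟨S, D, O⟩`, `E (map ⟨D, S, O'⟩)` holds then `E` has probability at least `1/2`.   No monotonicity, no topology. -/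
theorem gsy202_sym_swap {t : ℝ} (h1 : 1 / 2 ≤ t) (h2 : t ≤ 1) (hw : Y.WF) (h : Rcy162Hom (gsy202Dual Y) Y gV gF gE) {K : RswCfg → Prop}
    (hK : Gsy202Spin K) (hs : Gsy202KSym Y gV gF gE K) (hf : Y.Feas t K) (E : RswCfg → Prop)
    (hd : ∀ S D O O', S ⊆ Y.V → D ⊆ Y.Fc → O ⊆ Y.E → O' ⊆ Y.E → K ⟨S, D, ∅⟩ → Gsy202Supp Y S D O O' →
      E ⟨S, D, O⟩ ∨ E (rcy162Map gV gF gE ⟨D, S, O'⟩)) :
    1 / 2 ≤ Y.Pr t K E := by
  have h0 : 0 ≤ t := by linarith
  set F : RswCfg → ℝ := fun ω => if E ω then 1 else 0 with hF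
  have hF0 : ∀ ω, 0 ≤ F ω := fun ω => by simp only [hF]; split_ifs <;> norm_num
  have hZ := rcy162_Z_pos Y K h0 h2 hf
  have a1 := gsy202_half Y h1 h2 hK F (fun ω => F (rcy162Map gV gF gE ω)) (fun S D O O' hS hD hO hO' hk hsu => by
    rcases hd S D O O' hS hD hO hO' hk hsu with h4 | h4
    · have e : F ⟨S, D, O⟩ = 1 := by simp only [hF]; rw [if_pos h4]
      have := hF0 (rcy162Map gV gF gE ⟨D, S, O'⟩)
      show 1 ≤ F ⟨S, D, O⟩ + F (rcy162Map gV gF gE ⟨D, S, O'⟩)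
      linarith
    · have e : F (rcy162Map gV gF gE ⟨D, S, O'⟩) = 1 := by simp only [hF]; rw [if_pos h4]
      have := hF0 ⟨S, D, O⟩
      show 1 ≤ F ⟨S, D, O⟩ + F (rcy162Map gV gF gE ⟨D, S, O'⟩)
      linarith)
  rw [gsy202_exchange hw h t hs F] at a1
  rw [rcy162_P_def]
  unfold Rcy162Sys.Ex
  rw [le_div_iff₀ hZ]
  have : Y.sum t K (fun ω => if E ω then 1 else 0) = Y.sum t K F := rfl
  rw [this]
  linarith

end swap

/-! ## 4. paths of edge pairs; X1' in path form -/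

/-- one step along an edge pair of `P`, between its two endpoints -/
def Gsy202St (Y : Rcy162Sys) (P : Set ((ℤ × ℤ) × Bool)) (u v : ℤ × ℤ) : Prop :=
  ∃ e ∈ P, (u = Y.p0 e ∧ v = Y.p1 e) ∨ (u = Y.p1 e ∧ v = Y.p0 e)

/-- a path of edge pairs of `P` joins `I` to `III` -/
def Gsy202Join (Y : Rcy162Sys) (P : Set ((ℤ × ℤ) × Bool)) (I III : Set (ℤ × ℤ)) : Prop :=
  ∃ u ∈ I, ∃ v ∈ III, Relation.ReflTransGen (Gsy202St Y P) u v

/-- **the event**: a path of good plus edge pairs joins `I` to `III` -/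
def Gsy202Cross (Y : Rcy162Sys) (I III : Set (ℤ × ℤ)) (ω : RswCfg) : Prop :=
  Gsy202Join Y {e | e ∈ Y.E ∧ Y.Good true ω e} I III

theorem gsy202_st_mono {Y : Rcy162Sys} {P Q : Set ((ℤ × ℤ) × Bool)} (h : P ⊆ Q) {u v : ℤ × ℤ} (hs : Gsy202St Y P u v) : Gsy202St Y Q u v := by
  obtain ⟨e, he, h1⟩ := hs
  exact ⟨e, h he, h1⟩

theorem gsy202_join_mono {Y : Rcy162Sys} {P Q : Set ((ℤ × ℤ) × Bool)} (h : P ⊆ Q) {I I' III III' : Set (ℤ × ℤ)} (hI : I ⊆ I') (hIII : III ⊆ III')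
    (hj : Gsy202Join Y P I III) : Gsy202Join Y Q I' III' := by
  obtain ⟨u, hu, v, hv, hp⟩ := hj
  exact ⟨u, hI hu, v, hIII hv, Relation.ReflTransGen.mono (fun a b hab => gsy202_st_mono h hab) _ _ hp⟩

theorem gsy202_cross_mono_sets {Y : Rcy162Sys} {I I' III III' : Set (ℤ × ℤ)} (hI : I ⊆ I') (hIII : III ⊆ III') {ω : RswCfg}
    (hc : Gsy202Cross Y I III ω) : Gsy202Cross Y I' III' ω := gsy202_join_mono (Set.Subset.refl _) hI hIII hc

/-- the event is increasing for the order `(s, W⁺, -W⁻)` -/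
theorem gsy202_cross_mono {Y : Rcy162Sys} {I III : Set (ℤ × ℤ)} {ω ω' : RswCfg} (h : Y.Le ω ω') (hc : Gsy202Cross Y I III ω) :
    Gsy202Cross Y I III ω' :=
  gsy202_join_mono (P := {e | e ∈ Y.E ∧ Y.Good true ω e}) (Q := {e | e ∈ Y.E ∧ Y.Good true ω' e})
    (fun e he => ⟨he.1, h.2.1 e he.2⟩) (Set.Subset.refl _) (Set.Subset.refl _) hc

/-- **the sign propagates along open edge pairs** -/
theorem gsy202_cross_of_join {Y : Rcy162Sys} {ω : RswCfg} (hso : ∀ e ∈ Y.E, e ∈ ω.O → (Y.p0 e ∈ ω.S ↔ Y.p1 e ∈ ω.S))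
    {P : Set ((ℤ × ℤ) × Bool)} (hP : ∀ e ∈ P, e ∈ Y.E ∧ e ∈ ω.O) {I III : Set (ℤ × ℤ)} (hI : ∀ u ∈ I, u ∈ ω.S)
    (h : Gsy202Join Y P I III) : Gsy202Cross Y I III ω := by
  obtain ⟨u, hu, v, hv, hp⟩ := h
  have key : Relation.ReflTransGen (Gsy202St Y {e | e ∈ Y.E ∧ Y.Good true ω e}) u v ∧ v ∈ ω.S := by
    clear hv
    induction hp with
    | refl => exact ⟨Relation.ReflTransGen.refl, hI u hu⟩
    | tail _ hs ih =>
      obtain ⟨e, he, h1⟩ := hs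
      obtain ⟨heE, heO⟩ := hP e he
      have hiff := hso e heE heO
      rcases h1 with ⟨rfl, rfl⟩ | ⟨rfl, rfl⟩
      · have h2 : Y.p1 e ∈ ω.S := hiff.1 ih.2
        exact ⟨ih.1.tail ⟨e, ⟨heE, heO, by simp [ih.2], by simp [h2]⟩, Or.inl ⟨rfl, rfl⟩⟩, h2⟩
      · have h2 : Y.p0 e ∈ ω.S := hiff.2 ih.2
        exact ⟨ih.1.tail ⟨e, ⟨heE, heO, by simp [h2], by simp [ih.2]⟩, Or.inr ⟨rfl, rfl⟩⟩, h2⟩
  exact ⟨u, hu, v, hv, key.1⟩

section hom

variable {Y Y' : Rcy162Sys} {gV gF : ℤ × ℤ → ℤ × ℤ} {gE : (ℤ × ℤ) × Bool → (ℤ × ℤ) × Bool}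

/-- a morphism maps crossings to crossings -/
theorem gsy202_cross_hom (h : Rcy162Hom Y Y' gV gF gE) (hw : Y.WF) {ω : RswCfg} (hω : Y.Cfg ω) {I III : Set (ℤ × ℤ)}
    (hc : Gsy202Cross Y I III ω) : Gsy202Cross Y' (gV '' I) (gV '' III) (rcy162Map gV gF gE ω) := by
  obtain ⟨u, hu, v, hv, hp⟩ := hc
  refine ⟨gV u, ⟨u, hu, rfl⟩, gV v, ⟨v, hv, rfl⟩, ?_⟩
  clear hv
  induction hp with
  | refl => exact Relation.ReflTransGen.refl
  | tail _ hs ih =>
    refine ih.tail ?_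
    obtain ⟨e, ⟨heE, heG⟩, h1⟩ := hs
    refine ⟨gE e, ⟨rcy162_hom_memE h heE, (rcy162_hom_good h hw true hω heE).2 heG⟩, ?_⟩
    rcases h.pp e heE with ⟨a, b⟩ | ⟨a, b⟩ <;> rcases h1 with ⟨rfl, rfl⟩ | ⟨rfl, rfl⟩
    · exact Or.inl ⟨a.symm, b.symm⟩
    · exact Or.inr ⟨b.symm, a.symm⟩
    · exact Or.inr ⟨b.symm, a.symm⟩
    · exact Or.inl ⟨a.symm, b.symm⟩

end hom

section swappath

variable {Y : Rcy162Sys} {gV gF : ℤ × ℤ → ℤ × ℤ} {gE : (ℤ × ℤ) × Bool → (ℤ × ℤ) × Bool}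

/-- **planar duality** of a system with four marked sets: `I`, `III` (vertices), `II`, `IV` (faces) -/
def Gsy202Duality (Y : Rcy162Sys) (I III II IV : Set (ℤ × ℤ)) : Prop :=
  ∀ P : Finset ((ℤ × ℤ) × Bool), P ⊆ Y.E → Gsy202Join Y (↑P) I III ∨ Gsy202Join (gsy202Dual Y) (↑(Y.E \ P)) II IV

/-- **X1', PATH FORM** (display annulus:symmetric-short on Z^2; N1): `I` is pinned plus for `s`, `II` is pinned plus for `d`, the morphism maps `II` into `I` and `IV` into `III`, planar duality.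
Then with probability at least `1/2` a path of good plus edge pairs joins `I` to `III`. -/
theorem gsy202_swap_path {t : ℝ} (h1 : 1 / 2 ≤ t) (h2 : t ≤ 1) (hw : Y.WF) (h : Rcy162Hom (gsy202Dual Y) Y gV gF gE) {K : RswCfg → Prop}
    (hK : Gsy202Spin K) (hs : Gsy202KSym Y gV gF gE K) (hf : Y.Feas t K) (I III II IV : Set (ℤ × ℤ))
    (hI : ∀ ω, K ω → ∀ u ∈ I, u ∈ ω.S) (hII : ∀ ω, K ω → ∀ f ∈ II, f ∈ ω.D)
    (hgI : ∀ f ∈ II, gV f ∈ I) (hgIII : ∀ f ∈ IV, gV f ∈ III) (hdual : Gsy202Duality Y I III II IV) :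
    1 / 2 ≤ Y.Pr t K (Gsy202Cross Y I III) := by
  refine gsy202_sym_swap h1 h2 hw h hK hs hf _ ?_
  intro S D O O' hS hD hO hO' hk hsu
  rcases hdual O hO with hj | hj
  · left
    exact gsy202_cross_of_join (ω := ⟨S, D, O⟩) hsu.sop (fun e he => ⟨hO he, he⟩) (hI _ ((hK S D O).2 hk)) hj
  · right
    have hc : Gsy202Cross (gsy202Dual Y) II IV ⟨D, S, O'⟩ := by
      refine gsy202_cross_of_join (Y := gsy202Dual Y) (ω := ⟨D, S, O'⟩) hsu.dop (fun e he => ?_) (hII _ hk) hj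
      have he' : e ∈ Y.E \ O := he
      rw [mem_sdiff] at he'
      refine ⟨he'.1, ?_⟩
      rcases hsu.nc e he'.1 with h3 | h3
      · exact absurd h3 he'.2
      · exact h3
    have hc' := gsy202_cross_hom h (gsy202_dual_wf hw) (ω := ⟨D, S, O'⟩) ⟨hD, hS, hO'⟩ hc
    refine gsy202_cross_mono_sets ?_ ?_ hc'
    · rintro _ ⟨f, hf', rfl⟩; exact hgI f hf'
    · rintro _ ⟨f, hf', rfl⟩; exact hgIII f hf'

end swappath

/-! ## 5. X1 : the symmetry lemma, reflection + flip -/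

/-- the ORDER of two constraints on a system (`K'` is below `K`), in the cross-multiplied form of `Rse182Hist.Ok.ord1` -/
def Gsy202Below (Y : Rcy162Sys) (t : ℝ) (K' K : RswCfg → Prop) : Prop :=
  ∀ F : RswCfg → ℝ, (∀ ω ω', Y.Le ω ω' → F ω ≤ F ω') →
    Y.sum t K' F * Y.sum t K (fun _ => 1) ≤ Y.sum t K' (fun _ => 1) * Y.sum t K F

open Classical in
/-- **X1, THE SYMMETRY LEMMA** (reflection + flip).   `T` transports the law `K` to the law `K'`, which lies below `K`; `E` is increasing; on the support one of `E ω`, `E (T ω)` holds.   Then `E` has probability at least `1/2`. -/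
theorem gsy202_sym (Y : Rcy162Sys) {t : ℝ} (h0 : 0 ≤ t) (h1 : t ≤ 1) {K K' : RswCfg → Prop} (T : RswCfg → RswCfg)
    (hT : ∀ X : RswCfg → ℝ, Y.sum t K' X = Y.sum t K (fun ω => X (T ω))) (hord : Gsy202Below Y t K' K) (hf : Y.Feas t K)
    (E : RswCfg → Prop) (hE : ∀ ω ω', Y.Le ω ω' → E ω → E ω') (hd : ∀ ω, Y.Cfg ω → Y.wt t K ω ≠ 0 → E ω ∨ E (T ω)) :
    1 / 2 ≤ Y.Pr t K E := by
  set F : RswCfg → ℝ := fun ω => if E ω then 1 else 0 with hF
  have hF0 : ∀ ω, 0 ≤ F ω := fun ω => by simp only [hF]; split_ifs <;> norm_num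
  have hmono : ∀ ω ω', Y.Le ω ω' → F ω ≤ F ω' := by
    intro ω ω' hω
    simp only [hF]
    by_cases h3 : E ω
    · rw [if_pos h3, if_pos (hE _ _ hω h3)]
    · rw [if_neg h3]; split_ifs <;> norm_num
  have hZ := rcy162_Z_pos Y K h0 h1 hf
  have a1 := hord F hmono
  rw [hT F, hT (fun _ => 1), mul_comm] at a1
  have a2 : Y.sum t K (fun ω => F (T ω)) ≤ Y.sum t K F := le_of_mul_le_mul_left a1 hZ
  have a3 : Y.sum t K (fun _ => 1) ≤ Y.sum t K F + Y.sum t K (fun ω => F (T ω)) := by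
    rw [← rcy162_sum_add]
    refine rcy162_sum_mono' Y K h0 h1 fun ω hω hw => ?_
    rcases hd ω hω hw with h4 | h4
    · have e : F ω = 1 := by simp only [hF]; rw [if_pos h4]
      have := hF0 (T ω)
      linarith
    · have e : F (T ω) = 1 := by simp only [hF]; rw [if_pos h4]
      have := hF0 ω
      linarith
  rw [rcy162_P_def]
  unfold Rcy162Sys.Ex
  rw [le_div_iff₀ hZ]
  have : Y.sum t K (fun ω => if E ω then 1 else 0) = Y.sum t K F := rfl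
  rw [this]
  linarith

section refl

variable {Y : Rcy162Sys} {gV gF : ℤ × ℤ → ℤ × ℤ} {gE : (ℤ × ℤ) × Bool → (ℤ × ℤ) × Bool}

/-- (flip of `s`) followed by the morphism -/
def gsy202T (Y : Rcy162Sys) (gV gF : ℤ × ℤ → ℤ × ℤ) (gE : (ℤ × ℤ) × Bool → (ℤ × ℤ) × Bool) (ω : RswCfg) : RswCfg :=
  rcy162Map gV gF gE (Y.flipS ω)

/-- the transport by reflection + flip -/
theorem gsy202_T_sum (h : Rcy162Hom Y Y gV gF gE) (hw : Y.WF) (t : ℝ) {K K' : RswCfg → Prop}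
    (hK : ∀ ω, Y.Cfg ω → (K ω ↔ K' (gsy202T Y gV gF gE ω))) (X : RswCfg → ℝ) :
    Y.sum t K' X = Y.sum t K (fun ω => X (gsy202T Y gV gF gE ω)) := by
  rw [rcy162_hom_sum h hw t K' X, rcy162_flipS_sum Y hw]
  exact rcy162_sum_congr_K Y t (fun ω hω => (hK ω hω).symm) _

/-- a path of sites of `A` for the adjacency `R` joins `I` to `III` -/
def Gsy202Site (R : ℤ × ℤ → ℤ × ℤ → Prop) (A I III : Set (ℤ × ℤ)) : Prop :=
  ∃ u ∈ I, ∃ v ∈ III, u ∈ A ∧ Relation.ReflTransGen (fun a b => R a b ∧ b ∈ A) u v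

theorem gsy202_site_map {R R' : ℤ × ℤ → ℤ × ℤ → Prop} {A A' I I' III III' : Set (ℤ × ℤ)} (g : ℤ × ℤ → ℤ × ℤ)
    (hR : ∀ a b, a ∈ A → b ∈ A → R a b → R' (g a) (g b)) (hA : ∀ a ∈ A, g a ∈ A') (hI : ∀ a ∈ I, g a ∈ I') (hIII : ∀ a ∈ III, g a ∈ III')
    (h : Gsy202Site R A I III) : Gsy202Site R' A' I' III' := by
  obtain ⟨u, hu, v, hv, huA, hp⟩ := h
  refine ⟨g u, hI u hu, g v, hIII v hv, hA u huA, ?_⟩
  clear hv
  have key : Relation.ReflTransGen (fun a b => R' a b ∧ b ∈ A') (g u) (g v) ∧ v ∈ A := by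
    induction hp with
    | refl => exact ⟨Relation.ReflTransGen.refl, huA⟩
    | tail _ hs ih => exact ⟨ih.1.tail ⟨hR _ _ ih.2 hs.2 hs.1, hA _ hs.2⟩, hs.2⟩
  exact key.1

/-- **X1, PATH FORM WITH TWO ADJACENCIES** (N5): `Rs` (star) contains the image of `Rn` (nearest neighbours); site duality: for every `s` allowed by the constraint there is a star path of plus sites from `I` to `III`
or a nearest-neighbour path of minus sites from `II` to `IV`; the morphism maps `II` into `I`, `IV` into `III`.   Then the star-plus crossing has probability at least `1/2`. -/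
theorem gsy202_sym_path {t : ℝ} (h0 : 0 ≤ t) (h1 : t ≤ 1) (h : Rcy162Hom Y Y gV gF gE) (hw : Y.WF) {K K' : RswCfg → Prop}
    (hK : ∀ ω, Y.Cfg ω → (K ω ↔ K' (gsy202T Y gV gF gE ω))) (hord : Gsy202Below Y t K' K) (hf : Y.Feas t K)
    (Rs Rn : ℤ × ℤ → ℤ × ℤ → Prop) (hR : ∀ a b, a ∈ Y.V → b ∈ Y.V → Rn a b → Rs (gV a) (gV b)) (I III II IV : Set (ℤ × ℤ))
    (hgI : ∀ u ∈ II, gV u ∈ I) (hgIII : ∀ u ∈ IV, gV u ∈ III)
    (hHex : ∀ ω, Y.Cfg ω → K ω → Gsy202Site Rs (↑ω.S) I III ∨ Gsy202Site Rn (↑(Y.V \ ω.S)) II IV) :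
    1 / 2 ≤ Y.Pr t K (fun ω => Gsy202Site Rs (↑ω.S) I III) := by
  refine gsy202_sym Y h0 h1 (gsy202T Y gV gF gE) (gsy202_T_sum h hw t hK) hord hf _ ?_ ?_
  · intro ω ω' hω hs
    exact gsy202_site_map id (fun a b _ _ hab => hab) (fun a ha => hω.1 ha) (fun a ha => ha) (fun a ha => ha) hs
  · intro ω hω hwt
    rcases hHex ω hω (rcy162_K_of_wt Y hwt) with h3 | h3
    · exact Or.inl h3
    · right
      refine gsy202_site_map gV (fun a b ha hb hab => hR a b ?_ ?_ hab) (fun a ha => ?_) hgI hgIII h3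
      · exact (mem_sdiff.1 (Finset.mem_coe.1 ha)).1
      · exact (mem_sdiff.1 (Finset.mem_coe.1 hb)).1
      · exact Finset.mem_coe.2 (mem_image_of_mem gV (Finset.mem_coe.1 ha))

end refl

/-! ## 6. N1 : the symmetric domain -/

/-- all spins plus, all edge pairs open -/
theorem gsy202_feas_full (Y : Rcy162Sys) (hw : Y.WF) {t : ℝ} (ht : 0 < t) {K : RswCfg → Prop} (hK : K ⟨Y.V, Y.Fc, Y.E⟩) : Y.Feas t K := by
  classical
  refine ⟨⟨Y.V, Y.Fc, Y.E⟩, ⟨Finset.Subset.refl _, Finset.Subset.refl _, Finset.Subset.refl _⟩, ?_⟩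
  have e1 : ∀ e ∈ Y.E, Y.fac t ⟨Y.V, Y.Fc, Y.E⟩ e = t := by
    intro e he
    unfold Rcy162Sys.fac
    have a := hw.p0 e he
    have b := hw.p1 e he
    simp [he, a, b]
  rw [rcy162_wt_of Y hK, Finset.prod_congr rfl e1, Finset.prod_const]
  exact (pow_pos ht _).ne'

/-- the planar domain with vertices `VS` and faces `VD`: the edge pairs with both endpoints in `VS` and both faces in `VD` -/
def gsy202Dom (VS VD : Finset (ℤ × ℤ)) : Rcy162Sys :=
  ⟨VS, VD, (VS ×ˢ (Finset.univ : Finset Bool)).filter (fun e => rswEnd e ∈ VS ∧ e.1 ∈ VD ∧ rswCo e ∈ VD), fun e => e.1, rswEnd, fun e => e.1, rswCo⟩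

theorem gsy202_mem_domE {VS VD : Finset (ℤ × ℤ)} {e : (ℤ × ℤ) × Bool} :
    e ∈ (gsy202Dom VS VD).E ↔ e.1 ∈ VS ∧ rswEnd e ∈ VS ∧ e.1 ∈ VD ∧ rswCo e ∈ VD := by
  simp [gsy202Dom]

theorem gsy202_dom_wf (VS VD : Finset (ℤ × ℤ)) : (gsy202Dom VS VD).WF :=
  ⟨fun e he => (gsy202_mem_domE.1 he).1, fun e he => (gsy202_mem_domE.1 he).2.1, fun e he => (gsy202_mem_domE.1 he).2.2.1,
    fun e he => (gsy202_mem_domE.1 he).2.2.2⟩

/-- the factor of the planar domain is the factor of Defs/RSW -/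
theorem gsy202_dom_fac (t : ℝ) (VS VD : Finset (ℤ × ℤ)) (ω : RswCfg) (e : (ℤ × ℤ) × Bool) : (gsy202Dom VS VD).fac t ω e = rswFac t ω e := rfl

/-- the reflection in the line `x + y = k + 1/2`: vertex `(x, y)` ↦ face `(k - y, k - x)`, face `(x, y)` ↦ vertex `(k - y, k - x)` -/
def gsy202Sg (k : ℤ) (v : ℤ × ℤ) : ℤ × ℤ := (k - v.2, k - v.1)

/-- its action on the edge pairs: the reflected primal edge is the DUAL of the image -/
def gsy202Tu (k : ℤ) (e : (ℤ × ℤ) × Bool) : (ℤ × ℤ) × Bool := (gsy202Sg k e.1, e.2)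

theorem gsy202_sg_sg (k : ℤ) (v : ℤ × ℤ) : gsy202Sg k (gsy202Sg k v) = v := by
  obtain ⟨x, y⟩ := v
  simp [gsy202Sg]

theorem gsy202_tu_tu (k : ℤ) (e : (ℤ × ℤ) × Bool) : gsy202Tu k (gsy202Tu k e) = e := by
  obtain ⟨v, o⟩ := e
  simp [gsy202Tu, gsy202_sg_sg]

theorem gsy202_sg_inj (k : ℤ) : Function.Injective (gsy202Sg k) := fun a b h => by
  rw [← gsy202_sg_sg k a, h, gsy202_sg_sg]

theorem gsy202_tu_inj (k : ℤ) : Function.Injective (gsy202Tu k) := fun a b h => by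
  rw [← gsy202_tu_tu k a, h, gsy202_tu_tu]

theorem gsy202_end_tu (k : ℤ) (e : (ℤ × ℤ) × Bool) : rswEnd (gsy202Tu k e) = gsy202Sg k (rswCo e) := by
  obtain ⟨⟨x, y⟩, o⟩ := e
  cases o <;> simp [rswEnd, rswCo, gsy202Tu, gsy202Sg] <;> ring

theorem gsy202_co_tu (k : ℤ) (e : (ℤ × ℤ) × Bool) : rswCo (gsy202Tu k e) = gsy202Sg k (rswEnd e) := by
  obtain ⟨⟨x, y⟩, o⟩ := e
  cases o <;> simp [rswEnd, rswCo, gsy202Tu, gsy202Sg] <;> ring

theorem gsy202_image_image (k : ℤ) (A : Finset (ℤ × ℤ)) : (A.image (gsy202Sg k)).image (gsy202Sg k) = A := by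
  rw [Finset.image_image]
  have : gsy202Sg k ∘ gsy202Sg k = id := funext fun v => gsy202_sg_sg k v
  rw [this, Finset.image_id]

theorem gsy202_image_sub (k : ℤ) (A B : Finset (ℤ × ℤ)) : A ⊆ B.image (gsy202Sg k) ↔ A.image (gsy202Sg k) ⊆ B := by
  constructor
  · intro h
    have := Finset.image_subset_image (f := gsy202Sg k) h
    rwa [gsy202_image_image] at this
  · intro h
    have := Finset.image_subset_image (f := gsy202Sg k) h
    rwa [gsy202_image_image] at this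

/-- **the reflection is a morphism from the dual of a symmetric domain to the domain** -/
theorem gsy202_dom_hom (k : ℤ) {VS VD : Finset (ℤ × ℤ)} (hV : VD.image (gsy202Sg k) = VS) :
    Rcy162Hom (gsy202Dual (gsy202Dom VS VD)) (gsy202Dom VS VD) (gsy202Sg k) (gsy202Sg k) (gsy202Tu k) := by
  have hV' : VS.image (gsy202Sg k) = VD := by rw [← hV, gsy202_image_image]
  have hSD : ∀ f ∈ VD, gsy202Sg k f ∈ VS := fun f hf => by rw [← hV]; exact mem_image_of_mem _ hf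
  have hDS : ∀ v ∈ VS, gsy202Sg k v ∈ VD := fun v hv => by rw [← hV']; exact mem_image_of_mem _ hv
  refine ⟨(gsy202_sg_inj k).injOn, (gsy202_sg_inj k).injOn, (gsy202_tu_inj k).injOn, hV, hV', ?_, ?_, ?_⟩
  · refine rcy162_image_eq (s := (gsy202Dom VS VD).E) (fun e he => ?_) (gsy202_tu_inj k).injOn
    obtain ⟨a, b, c, d⟩ := gsy202_mem_domE.1 he
    refine gsy202_mem_domE.2 ⟨hSD _ c, ?_, hDS _ a, ?_⟩
    · rw [gsy202_end_tu]; exact hSD _ d
    · rw [gsy202_co_tu]; exact hDS _ b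
  · intro e _
    exact Or.inl ⟨rfl, gsy202_end_tu k e⟩
  · intro e _
    exact Or.inl ⟨rfl, gsy202_co_tu k e⟩

/-- the symmetric pins: `s = +` on `PS`, `d = +` on the reflected set -/
def Gsy202Pin (k : ℤ) (PS : Finset (ℤ × ℤ)) (ω : RswCfg) : Prop := PS ⊆ ω.S ∧ PS.image (gsy202Sg k) ⊆ ω.D

theorem gsy202_pin_spin (k : ℤ) (PS : Finset (ℤ × ℤ)) : Gsy202Spin (Gsy202Pin k PS) := fun _ _ _ => Iff.rfl

theorem gsy202_pin_sym (k : ℤ) (PS : Finset (ℤ × ℤ)) (Y : Rcy162Sys) :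
    Gsy202KSym Y (gsy202Sg k) (gsy202Sg k) (gsy202Tu k) (Gsy202Pin k PS) := by
  intro ω _
  show (PS ⊆ ω.S.image (gsy202Sg k) ∧ PS.image (gsy202Sg k) ⊆ ω.D.image (gsy202Sg k)) ↔ (PS ⊆ ω.D ∧ PS.image (gsy202Sg k) ⊆ ω.S)
  rw [gsy202_image_sub, Finset.image_subset_image_iff (gsy202_sg_inj k)]
  exact and_comm

theorem gsy202_dom_feas (k : ℤ) {VS VD : Finset (ℤ × ℤ)} (hV : VD.image (gsy202Sg k) = VS) {PS : Finset (ℤ × ℤ)} (hP : PS ⊆ VS)
    {t : ℝ} (ht : 0 < t) : (gsy202Dom VS VD).Feas t (Gsy202Pin k PS) := by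
  refine gsy202_feas_full _ (gsy202_dom_wf VS VD) ht ⟨hP, ?_⟩
  show PS.image (gsy202Sg k) ⊆ VD
  rw [← gsy202_image_sub, hV]
  exact hP

/-- **N1, THE SYMMETRIC DOMAIN LEMMA ON Z^2.**   `VD` = the reflected image of `VS`; `s = +` on `PS`, `d = +` on the reflected set; `I ⊆ PS`; planar duality between (`I`, `III`) and the reflected sets.
Then a path of good plus edges joins `I` to `III` with probability at least `1/2`. -/
theorem gsy202_N1 {t : ℝ} (h1 : 1 / 2 ≤ t) (h2 : t ≤ 1) (k : ℤ) {VS VD : Finset (ℤ × ℤ)} (hV : VD.image (gsy202Sg k) = VS)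
    {PS : Finset (ℤ × ℤ)} (hP : PS ⊆ VS) (I III : Set (ℤ × ℤ)) (hI : I ⊆ ↑PS)
    (hdual : Gsy202Duality (gsy202Dom VS VD) I III (gsy202Sg k '' I) (gsy202Sg k '' III)) :
    1 / 2 ≤ (gsy202Dom VS VD).Pr t (Gsy202Pin k PS) (Gsy202Cross (gsy202Dom VS VD) I III) := by
  refine gsy202_swap_path h1 h2 (gsy202_dom_wf VS VD) (gsy202_dom_hom k hV) (gsy202_pin_spin k PS) (gsy202_pin_sym k PS _)
    (gsy202_dom_feas k hV hP (by linarith)) I III _ _ (fun ω hω u hu => hω.1 (hI hu)) ?_ ?_ ?_ hdual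
  · rintro ω hω _ ⟨u, hu, rfl⟩
    exact hω.2 (mem_image_of_mem _ (hI hu))
  · rintro _ ⟨u, hu, rfl⟩
    rw [gsy202_sg_sg]; exact hu
  · rintro _ ⟨u, hu, rfl⟩
    rw [gsy202_sg_sg]; exact hu

/-- the equation lemmas of the definitions of this file are generated HERE (RULES.md, rule 6) -/
theorem gsy202_eqns_cite : True := by
  have := @gsy202Dual.eq_1
  have := @Gsy202Sa.eq_1
  have := @Gsy202Da.eq_1
  have := @gsy202oo.eq_1
  have := @gsy202oc.eq_1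
  have := @gsy202co.eq_1
  have := @gsy202F2.eq_1
  have := @gsy202W2.eq_1
  have := @gsy202Sum2.eq_1
  have := @Gsy202Spin.eq_1
  have := @gsy202Kx.eq_1
  have := @Gsy202KSym.eq_1
  have := @Gsy202St.eq_1
  have := @Gsy202Join.eq_1
  have := @Gsy202Cross.eq_1
  have := @Gsy202Duality.eq_1
  have := @Gsy202Below.eq_1
  have := @gsy202T.eq_1
  have := @Gsy202Site.eq_1
  have := @gsy202Dom.eq_1
  have := @gsy202Sg.eq_1
  have := @gsy202Tu.eq_1
  have := @Gsy202Pin.eq_1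
  trivial

/-! ## 7. the self-dual rectangle: no hypothesis left -/

/-- the vertices `[a, a + n + 1] × [b, b + n]` -/
noncomputable def gsy202RV (a b : ℤ) (n : ℕ) : Finset (ℤ × ℤ) := Finset.Icc a (a + n + 1) ×ˢ Finset.Icc b (b + n)

/-- the faces `[a, a + n] × [b - 1, b + n]` -/
noncomputable def gsy202RF (a b : ℤ) (n : ℕ) : Finset (ℤ × ℤ) := Finset.Icc a (a + n) ×ˢ Finset.Icc (b - 1) (b + n)

theorem gsy202_mem_RV {a b : ℤ} {n : ℕ} {v : ℤ × ℤ} : v ∈ gsy202RV a b n ↔ (a ≤ v.1 ∧ v.1 ≤ a + n + 1) ∧ b ≤ v.2 ∧ v.2 ≤ b + n := by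
  simp [gsy202RV, Finset.mem_product, Finset.mem_Icc]

theorem gsy202_mem_RF {a b : ℤ} {n : ℕ} {f : ℤ × ℤ} : f ∈ gsy202RF a b n ↔ (a ≤ f.1 ∧ f.1 ≤ a + n) ∧ b - 1 ≤ f.2 ∧ f.2 ≤ b + n := by
  simp [gsy202RF, Finset.mem_product, Finset.mem_Icc]

/-- the rectangle is symmetric -/
theorem gsy202_rect_sym (a b : ℤ) (n : ℕ) : (gsy202RF a b n).image (gsy202Sg (a + b + n)) = gsy202RV a b n := by
  ext v
  rw [Finset.mem_image, gsy202_mem_RV]
  constructor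
  · rintro ⟨f, hf, rfl⟩
    rw [gsy202_mem_RF] at hf
    simp only [gsy202Sg]
    omega
  · intro hv
    refine ⟨gsy202Sg (a + b + n) v, ?_, gsy202_sg_sg _ v⟩
    rw [gsy202_mem_RF]
    simp only [gsy202Sg]
    omega

/-- the left side -/
def gsy202RL (a b : ℤ) (n : ℕ) : Set (ℤ × ℤ) := {v | v.1 = a ∧ b ≤ v.2 ∧ v.2 ≤ b + n}

/-- the right side -/
def gsy202RR (a b : ℤ) (n : ℕ) : Set (ℤ × ℤ) := {v | v.1 = a + n + 1 ∧ b ≤ v.2 ∧ v.2 ≤ b + n}

/-- the projection of the plane on the rows of the rectangle -/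
def gsy202Pj (b : ℤ) (n : ℕ) (w : ℤ × ℤ) : ℤ × ℤ := (w.1, max b (min w.2 (b + n)))

theorem gsy202_pj_of_mem {a b : ℤ} {n : ℕ} {v : ℤ × ℤ} (hv : v ∈ gsy202RV a b n) : gsy202Pj b n v = v := by
  rw [gsy202_mem_RV] at hv
  obtain ⟨x, y⟩ := v
  simp only [gsy202Pj, Prod.mk.injEq, true_and]
  simp only at hv
  omega

/-- **PLANAR DUALITY IN THE SELF-DUAL RECTANGLE** -/
theorem gsy202_rect_duality (a b : ℤ) (n : ℕ) :
    Gsy202Duality (gsy202Dom (gsy202RV a b n) (gsy202RF a b n)) (gsy202RL a b n) (gsy202RR a b n)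
      (gsy202Sg (a + b + n) '' gsy202RL a b n) (gsy202Sg (a + b + n) '' gsy202RR a b n) := by
  intro P hP
  set Y := gsy202Dom (gsy202RV a b n) (gsy202RF a b n) with hY
  set G : Set ((ℤ × ℤ) × Bool) := {e | e ∈ P ∨ e ∉ Y.E} with hG
  have hx : a < a + n + 1 := by omega
  have hy : b - 1 < b + n + 1 := by omega
  by_cases hd : Rdu251DualBT a (a + n + 1) (b - 1) (b + n + 1) G
  · right
    obtain ⟨f, g, hf, hf0, hg, hg1, hch⟩ := hd
    rw [rdu251_mem_rect] at hf hg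
    refine ⟨g, ⟨gsy202Sg (a + b + n) g, ?_, gsy202_sg_sg _ g⟩, f, ⟨gsy202Sg (a + b + n) f, ?_, gsy202_sg_sg _ f⟩, ?_⟩
    · show (a + b + n - g.2 = a) ∧ b ≤ a + b + n - g.1 ∧ a + b + n - g.1 ≤ b + n
      omega
    · show (a + b + n - f.2 = a + n + 1) ∧ b ≤ a + b + n - f.1 ∧ a + b + n - f.1 ≤ b + n
      omega
    · refine Relation.ReflTransGen.mono (fun x y hxy => ?_) _ _ (rdu251_chain_symm hch)
      obtain ⟨_, _, e, he, heG⟩ := hxy
      have h1 : e ∉ P := fun h => heG (Or.inl h)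
      have h2 : e ∈ Y.E := by
        by_contra h; exact heG (Or.inr h)
      refine ⟨e, Finset.mem_coe.2 (mem_sdiff.2 ⟨h2, h1⟩), ?_⟩
      rcases he with ⟨h3, h4⟩ | ⟨h3, h4⟩
      · exact Or.inl ⟨h3, h4⟩
      · exact Or.inr ⟨h4, h3⟩
  · left
    obtain ⟨u, v, hu, hv, hch⟩ := (rdu251_duality hx hy G).2 hd
    refine ⟨gsy202Pj b n u, ?_, gsy202Pj b n v, ?_, ?_⟩
    · show u.1 = a ∧ b ≤ max b (min u.2 (b + n)) ∧ max b (min u.2 (b + n)) ≤ b + n
      omega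
    · show v.1 = a + n + 1 ∧ b ≤ max b (min v.2 (b + n)) ∧ max b (min v.2 (b + n)) ≤ b + n
      omega
    · refine Relation.ReflTransGen.lift' (gsy202Pj b n) (fun x y hxy => ?_) _ _ hch
      show Relation.ReflTransGen (Gsy202St Y ↑P) (gsy202Pj b n x) (gsy202Pj b n y)
      obtain ⟨e, heG, h1, h2, h3⟩ := hxy
      rcases heG with heP | heE
      · have heE := gsy202_mem_domE.1 (hP heP)
        have e1 := gsy202_pj_of_mem heE.1
        have e2 := gsy202_pj_of_mem heE.2.1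
        refine Relation.ReflTransGen.single ⟨e, Finset.mem_coe.2 heP, ?_⟩
        rcases h3 with ⟨rfl, rfl⟩ | ⟨rfl, rfl⟩
        · exact Or.inl ⟨e1, e2⟩
        · exact Or.inr ⟨e2, e1⟩
      · have key : gsy202Pj b n e.1 = gsy202Pj b n (rswEnd e) := by
          rw [rdu251_mem_rect] at h1 h2
          have hne : ¬ (e.1 ∈ gsy202RV a b n ∧ rswEnd e ∈ gsy202RV a b n ∧ e.1 ∈ gsy202RF a b n ∧ rswCo e ∈ gsy202RF a b n) :=
            fun h => heE (gsy202_mem_domE.2 h)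
          rw [gsy202_mem_RV, gsy202_mem_RV, gsy202_mem_RF, gsy202_mem_RF] at hne
          obtain ⟨⟨x, y⟩, o⟩ := e
          cases o
          · simp only [rswEnd, rswCo, Bool.false_eq_true, if_false] at h1 h2 hne ⊢
            exfalso; omega
          · simp only [rswEnd, rswCo, if_true] at h1 h2 hne ⊢
            simp only [gsy202Pj, Prod.mk.injEq, true_and]
            omega
        rcases h3 with ⟨rfl, rfl⟩ | ⟨rfl, rfl⟩
        · rw [key]
        · rw [key]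

/-- **THE SELF-DUAL RECTANGLE** (`1/2 ≤ t ≤ 1`): `s = +` on a set `PS` of vertices which contains the left side, `d = +` on the reflected faces (which contain the top row of faces).
With probability at least `1/2` a path of good plus edges joins the left side to the right side. -/
theorem gsy202_rect {t : ℝ} (h1 : 1 / 2 ≤ t) (h2 : t ≤ 1) (a b : ℤ) (n : ℕ) {PS : Finset (ℤ × ℤ)} (hP : PS ⊆ gsy202RV a b n)
    (hI : gsy202RL a b n ⊆ ↑PS) :
    1 / 2 ≤ (gsy202Dom (gsy202RV a b n) (gsy202RF a b n)).Pr t (Gsy202Pin (a + b + n) PS)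
      (Gsy202Cross (gsy202Dom (gsy202RV a b n) (gsy202RF a b n)) (gsy202RL a b n) (gsy202RR a b n)) :=
  gsy202_N1 h1 h2 (a + b + n) (gsy202_rect_sym a b n) hP _ _ hI (gsy202_rect_duality a b n)

theorem gsy202_eqns_cite2 : True := by
  have := @gsy202RV.eq_1
  have := @gsy202RF.eq_1
  have := @gsy202RL.eq_1
  have := @gsy202RR.eq_1
  have := @gsy202Pj.eq_1
  trivial

end Claimed.Agent.R292
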