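import Claimed.Agent.R292.Rsw.HpDefs12
import Claimed.Agent.R292.Rsw.Holley12

/-!
# Row 292 (S0540), Rsw/HolSys12 : (T2) HOLLEY ON AN ABSTRACT SYSTEM WITH VERTEX PINS AND FORCED EDGES; (S3) OF B5 = `Hpd12Ord t`      (owner helper12; prefix `hsy12` / `Hsy12`)      0 sorry

§1 `Hsy12Ok Y π K`, `Hsy12Le Y K₁ K₂` (prescriptions `MdlPin` on a system `Rcy162Sys` with contraction `π`), **`hsy12_holley`** = `hol12_AT_holley` (Holley12) read through `rci69_sum_AT` (CylInst69).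
§2 the cylinder: `hsy12_cyl_holley`.
§3 the prescriptions `hpd12Lo`, `hpd12Up` of `HpDefs12`: Ok, Ok, Le;   **`hsy12_ord : Hpd12Ord t`**.
§4 (S6a) **`hsy12_norm : Hpd12Cut t → Hpd12Top t → Hpd12Ord t → Hpd12Det → Hpd12Norm t`**.
-/

set_option autoImplicit false
set_option linter.unusedSectionVars false
set_option linter.unusedVariables false
set_option linter.unusedSimpArgs false

namespace Claimed.Agent.R292

open Claims Claims.C0468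
open Claimed.Agent.R291

/-! ## 1. abstract -/

/-- the prescriptions are compatible with the system and with the contraction: forced edges have pinned ends; the classes of `π` are pinned with one colour -/
structure Hsy12Ok (Y : Rcy162Sys) (π : ℤ × ℤ → ℤ × ℤ) (K : MdlPin) : Prop where
  ed : ∀ e ∈ K.Oo ∪ K.Oc, Y.p0 e ∈ K.Sp ∪ K.Sm ∧ Y.p1 e ∈ K.Sp ∪ K.Sm
  pp : ∀ v ∈ Y.V, v ∈ K.Sp → π v ∈ K.Sp
  pm : ∀ v ∈ Y.V, v ∈ K.Sm → π v ∈ K.Sm
  cl : ∀ v ∈ Y.V, π v ≠ v → v ∈ K.Sp ∪ K.Sm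

/-- order of prescriptions on a system (`Hol12Le` with the endpoints of the system) -/
structure Hsy12Le (Y : Rcy162Sys) (K₁ K₂ : MdlPin) : Prop where
  sp : K₁.Sp ⊆ K₂.Sp
  sm : K₂.Sm ⊆ K₁.Sm
  o1 : ∀ e ∈ K₁.Oo, (Y.p0 e ∈ K₁.Sm ∨ Y.p1 e ∈ K₁.Sm) ∨ e ∈ K₂.Oo
  o2 : ∀ e ∈ K₂.Oc, (Y.p0 e ∈ K₁.Sm ∨ Y.p1 e ∈ K₁.Sm) ∨ e ∈ K₁.Oo ∪ K₁.Oc
  o3 : ∀ e ∈ K₂.Oo, (Y.p0 e ∈ K₂.Sp ∨ Y.p1 e ∈ K₂.Sp) ∨ e ∈ K₁.Oo
  o4 : ∀ e ∈ K₁.Oc, (Y.p0 e ∈ K₂.Sp ∨ Y.p1 e ∈ K₂.Sp) ∨ e ∈ K₂.Oo ∪ K₂.Oc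

/-- vertex part of the prescriptions -/
def hsy12KS (K : MdlPin) (S : Finset (ℤ × ℤ)) : Prop := K.Sp ⊆ S ∧ ∀ v ∈ K.Sm, v ∉ S

section Abs

variable {Y : Rcy162Sys} {π : ℤ × ℤ → ℤ × ℤ}

theorem hsy12_sum_split (Y : Rcy162Sys) (t : ℝ) (K : MdlPin) (X : RswCfg → ℝ) :
    Y.sum t K.Holds X = Y.sum t (fun ω => hsy12KS K ω.S) (fun ω => cmq291PiO K ω.O * X ω) := by
  classical
  have e1 : Y.sum t K.Holds X = Y.sum t (fun ω => hsy12KS K ω.S ∧ (K.Oo ⊆ ω.O ∧ ∀ e ∈ K.Oc, e ∉ ω.O)) X :=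
    rcy162_sum_congr_K Y t (fun ω _ => by unfold MdlPin.Holds hsy12KS; tauto) X
  rw [e1, rcy162_sum_and]
  congr 1
  funext ω
  unfold cmq291PiO
  by_cases h : K.Oo ⊆ ω.O ∧ ∀ e ∈ K.Oc, e ∉ ω.O
  · rw [if_pos h, if_pos h, one_mul]
  · rw [if_neg h, if_neg h, zero_mul]

theorem hsy12_k1 {K : MdlPin} (ok : Hsy12Ok Y π K) (S : Finset (ℤ × ℤ)) (hS : hsy12KS K S) (v : ℤ × ℤ) (hv : v ∈ Y.V) : π v ∈ S ↔ v ∈ S := by
  by_cases h : π v = v
  · rw [h]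
  · rcases Finset.mem_union.1 (ok.cl v hv h) with a | a
    · exact iff_of_true (hS.1 (ok.pp v hv a)) (hS.1 a)
    · exact iff_of_false (hS.2 _ (ok.pm v hv a)) (hS.2 _ a)

theorem hsy12_k12 {K₁ K₂ : MdlPin} (hsp : K₁.Sp ⊆ K₂.Sp) (hsm : K₂.Sm ⊆ K₁.Sm) (S S' : Finset (ℤ × ℤ)) (h : hsy12KS K₁ S) (h' : hsy12KS K₂ S') :
    hsy12KS K₁ (S ∩ S') ∧ hsy12KS K₂ (S ∪ S') :=
  ⟨⟨Finset.subset_inter h.1 (hsp.trans h'.1), fun v hv hm => h.2 v hv (Finset.mem_inter.1 hm).1⟩,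
    ⟨h'.1.trans Finset.subset_union_right, fun v hv hm => by
      rcases Finset.mem_union.1 hm with a | a
      · exact h.2 v (hsm hv) a
      · exact h'.2 v hv a⟩⟩

/-- forced open / closed edges as finsets of the edge type -/
noncomputable def hsy12P1 (Y : Rcy162Sys) (K : MdlPin) : Finset ↥Y.E := K.Oo.subtype (· ∈ Y.E)

noncomputable def hsy12P0 (Y : Rcy162Sys) (K : MdlPin) : Finset ↥Y.E := K.Oc.subtype (· ∈ Y.E)

theorem hsy12_PiO_eq {K : MdlPin} (hO : K.Oo ⊆ Y.E) (W : Finset ↥Y.E) :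
    cmq291PiO K (rci69O Y W) = cmq291Pi (hsy12P1 Y K) (hsy12P0 Y K) W := by
  classical
  unfold cmq291PiO cmq291Pi hsy12P1 hsy12P0
  have : (K.Oo ⊆ rci69O Y W ∧ ∀ e ∈ K.Oc, e ∉ rci69O Y W)
      ↔ ∀ i : ↥Y.E, (i ∈ K.Oo.subtype (· ∈ Y.E) → i ∈ W) ∧ (i ∈ K.Oc.subtype (· ∈ Y.E) → i ∉ W) := by
    simp only [Finset.mem_subtype]
    constructor
    · rintro ⟨h1, h2⟩ i
      exact ⟨fun hi => (rci69_mem_O i).1 (h1 hi), fun hi hw => h2 i.1 hi ((rci69_mem_O i).2 hw)⟩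
    · intro h
      refine ⟨fun e he => ?_, fun e he hw => ?_⟩
      · exact (rci69_mem_O (⟨e, hO he⟩ : ↥Y.E)).2 ((h ⟨e, hO he⟩).1 he)
      · obtain ⟨i, hi, rfl⟩ := Finset.mem_map.1 hw
        exact (h i).2 he hi
  by_cases hh : K.Oo ⊆ rci69O Y W ∧ ∀ e ∈ K.Oc, e ∉ rci69O Y W
  · rw [if_pos hh, if_pos (this.1 hh)]
  · rw [if_neg hh, if_neg (fun h => hh (this.2 h))]

theorem hsy12_sum_zero (Y : Rcy162Sys) (t : ℝ) (K : MdlPin) (h : ¬ (K.Oo ⊆ Y.E ∧ ∀ e ∈ K.Oo, e ∉ K.Oc)) (X : RswCfg → ℝ) :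
    Y.sum t K.Holds X = 0 := by
  classical
  unfold Rcy162Sys.sum
  refine Finset.sum_eq_zero fun S _ => Finset.sum_eq_zero fun D _ => Finset.sum_eq_zero fun O hO => ?_
  rw [rcy162_wt_of_not, zero_mul]
  rintro ⟨_, _, h3, h4⟩
  exact h ⟨fun e he => Finset.mem_powerset.1 hO (h3 he), fun e he hc => h4 e hc (h3 he)⟩

theorem hsy12_sum_AT (hc : Rci69Ctr Y π) {t : ℝ} (ht : t ≠ 0) (hF : Rci69Dual hc) {K : MdlPin} (ok : Hsy12Ok Y π K) (hO : K.Oo ⊆ Y.E)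
    (X : RswCfg → ℝ) (hX : ∀ S D O, X ⟨S, D, O⟩ = X ⟨S, ∅, O⟩) :
    (2 : ℝ) ^ Fintype.card ↥Y.V * Y.sum t K.Holds X
      = rci69K hc t * ∑ s : ↥Y.V → Bool, ∑ W : Finset ↥Y.E,
          rci69Phi Y (hsy12KS K) s * cmp291AT (rci69Ep0 hc) (rci69Ep1 hc) ((1 - t) / t) s W
            * (cmq291Pi (hsy12P1 Y K) (hsy12P0 Y K) W * X ⟨rci69S hc s, ∅, rci69O Y W⟩) := by
  rw [hsy12_sum_split, rci69_sum_AT hc ht hF (hsy12KS K) (hsy12_k1 ok) _ (fun S D O => by show _ * _ = _ * _; rw [hX S D O])]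
  simp only [hsy12_PiO_eq hO]

theorem hsy12_pins_spec (K : MdlPin) (s : ↥Y.V → Bool) (hs : rci69Phi Y (hsy12KS K) s ≠ 0) :
    (∀ v : ↥Y.V, v.1 ∈ K.Sp → s v = true) ∧ ∀ v : ↥Y.V, v.1 ∈ K.Sm → s v = false := by
  classical
  have hh : hsy12KS K (rci69S0 Y s) := by
    by_contra hcn
    exact hs (by unfold rci69Phi; rw [if_neg hcn])
  refine ⟨fun v hv => (rci69_mem_S0 s v.2).1 (hh.1 hv), fun v hv => ?_⟩
  by_contra hne
  exact hh.2 v.1 hv ((rci69_mem_S0 s v.2).2 (Bool.eq_true_of_not_eq_false hne))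

theorem hsy12_end_pins (hc : Rci69Ctr Y π) {K : MdlPin} (ok : Hsy12Ok Y π K) (i : ↥Y.E) :
    (Y.p0 i.1 ∈ K.Sp → (rci69Ep0 hc i).1 ∈ K.Sp) ∧ (Y.p0 i.1 ∈ K.Sm → (rci69Ep0 hc i).1 ∈ K.Sm) ∧
      (Y.p1 i.1 ∈ K.Sp → (rci69Ep1 hc i).1 ∈ K.Sp) ∧ (Y.p1 i.1 ∈ K.Sm → (rci69Ep1 hc i).1 ∈ K.Sm) :=
  ⟨ok.pp _ (hc.wf.p0 _ i.2), ok.pm _ (hc.wf.p0 _ i.2), ok.pp _ (hc.wf.p1 _ i.2), ok.pm _ (hc.wf.p1 _ i.2)⟩

theorem hsy12_ok_gen (hc : Rci69Ctr Y π) {K : MdlPin} (ok : Hsy12Ok Y π K) (i : ↥Y.E) (hi : i ∈ hsy12P1 Y K ∪ hsy12P0 Y K) :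
    ((rci69Ep0 hc i).1 ∈ K.Sp ∨ (rci69Ep0 hc i).1 ∈ K.Sm) ∧ ((rci69Ep1 hc i).1 ∈ K.Sp ∨ (rci69Ep1 hc i).1 ∈ K.Sm) := by
  have hi' : i.1 ∈ K.Oo ∪ K.Oc := by
    rcases Finset.mem_union.1 hi with h | h
    · exact Finset.mem_union_left _ (Finset.mem_subtype.1 h)
    · exact Finset.mem_union_right _ (Finset.mem_subtype.1 h)
  obtain ⟨a, b⟩ := ok.ed i.1 hi'
  obtain ⟨e1, e2, e3, e4⟩ := hsy12_end_pins hc ok i
  exact ⟨(Finset.mem_union.1 a).imp e1 e2, (Finset.mem_union.1 b).imp e3 e4⟩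

/-- **(T2) HOLLEY ON A SYSTEM, PRESCRIPTIONS WITH FORCED EDGES** (unnormalised; infeasible prescriptions allowed) -/
theorem hsy12_holley (hc : Rci69Ctr Y π) {t : ℝ} (h0 : 0 < t) (h1 : t ≤ 1) (hF : Rci69Dual hc) {K₁ K₂ : MdlPin}
    (ok₁ : Hsy12Ok Y π K₁) (ok₂ : Hsy12Ok Y π K₂) (hle : Hsy12Le Y K₁ K₂) {X : RswCfg → ℝ} (hX : Rci69Inc Y X) :
    Y.sum t K₁.Holds X * Y.sum t K₂.Holds (fun _ => 1) ≤ Y.sum t K₁.Holds (fun _ => 1) * Y.sum t K₂.Holds X := by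
  classical
  by_cases hO1 : K₁.Oo ⊆ Y.E ∧ ∀ e ∈ K₁.Oo, e ∉ K₁.Oc
  swap
  · rw [hsy12_sum_zero Y t K₁ hO1 X, hsy12_sum_zero Y t K₁ hO1 (fun _ => 1), zero_mul, zero_mul]
  by_cases hO2 : K₂.Oo ⊆ Y.E ∧ ∀ e ∈ K₂.Oo, e ∉ K₂.Oc
  swap
  · rw [hsy12_sum_zero Y t K₂ hO2 X, hsy12_sum_zero Y t K₂ hO2 (fun _ => 1), mul_zero, mul_zero]
  have a1 := hsy12_sum_AT hc h0.ne' hF ok₁ hO1.1 X hX.noD
  have a2 := hsy12_sum_AT hc h0.ne' hF ok₂ hO2.1 X hX.noD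
  have a3 := hsy12_sum_AT hc h0.ne' hF ok₁ hO1.1 (fun _ => 1) (fun _ _ _ => rfl)
  have a4 := hsy12_sum_AT hc h0.ne' hF ok₂ hO2.1 (fun _ => 1) (fun _ _ _ => rfl)
  have key := hol12_AT_holley (rci69Ep0 hc) (rci69Ep1 hc) (cmi291_r_nonneg h0 h1)
    (hsy12P1 Y K₁) (hsy12P0 Y K₁) (hsy12P1 Y K₂) (hsy12P0 Y K₂)
    (fun i hi hi' => hO1.2 i.1 (Finset.mem_subtype.1 hi) (Finset.mem_subtype.1 hi'))
    (fun i hi hi' => hO2.2 i.1 (Finset.mem_subtype.1 hi) (Finset.mem_subtype.1 hi'))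
    (fun v : ↥Y.V => v.1 ∈ K₁.Sp) (fun v : ↥Y.V => v.1 ∈ K₁.Sm) (fun v : ↥Y.V => v.1 ∈ K₂.Sp) (fun v : ↥Y.V => v.1 ∈ K₂.Sm)
    (rci69_Phi_nonneg (Y := Y) (hsy12KS K₁)) (rci69_Phi_nonneg (Y := Y) (hsy12KS K₂))
    (rci69_Phi_holley2 (hsy12_k12 hle.sp hle.sm))
    (hsy12_pins_spec K₁) (hsy12_pins_spec K₂)
    (fun v hv => hle.sp hv) (fun v hv => hle.sm hv)
    (hsy12_ok_gen hc ok₁) (hsy12_ok_gen hc ok₂)
    (fun i hi => by
      obtain ⟨_, e2, _, e4⟩ := hsy12_end_pins hc ok₁ i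
      exact (hle.o1 i.1 (Finset.mem_subtype.1 hi)).imp (fun h => h.imp e2 e4) (fun h => Finset.mem_subtype.2 h))
    (fun i hi => by
      obtain ⟨_, e2, _, e4⟩ := hsy12_end_pins hc ok₁ i
      refine (hle.o2 i.1 (Finset.mem_subtype.1 hi)).imp (fun h => h.imp e2 e4) (fun h => ?_)
      rcases Finset.mem_union.1 h with h | h
      · exact Finset.mem_union_left _ (Finset.mem_subtype.2 h)
      · exact Finset.mem_union_right _ (Finset.mem_subtype.2 h))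
    (fun i hi => by
      obtain ⟨e1, _, e3, _⟩ := hsy12_end_pins hc ok₂ i
      exact (hle.o3 i.1 (Finset.mem_subtype.1 hi)).imp (fun h => h.imp e1 e3) (fun h => Finset.mem_subtype.2 h))
    (fun i hi => by
      obtain ⟨e1, _, e3, _⟩ := hsy12_end_pins hc ok₂ i
      refine (hle.o4 i.1 (Finset.mem_subtype.1 hi)).imp (fun h => h.imp e1 e3) (fun h => ?_)
      rcases Finset.mem_union.1 h with h | h
      · exact Finset.mem_union_left _ (Finset.mem_subtype.2 h)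
      · exact Finset.mem_union_right _ (Finset.mem_subtype.2 h))
    (rci69_inc_gen hc hX)
  have hKc := rci69_K_pos hc h0
  have hcc : (0 : ℝ) < (2 : ℝ) ^ Fintype.card ↥Y.V := by positivity
  refine le_of_mul_le_mul_left ?_ (mul_pos hcc hcc)
  have goal_form : ∀ A B C D : ℝ,
      ((2 : ℝ) ^ Fintype.card ↥Y.V * A) * ((2 : ℝ) ^ Fintype.card ↥Y.V * B) ≤ ((2 : ℝ) ^ Fintype.card ↥Y.V * C) * ((2 : ℝ) ^ Fintype.card ↥Y.V * D) →
      (2 : ℝ) ^ Fintype.card ↥Y.V * (2 : ℝ) ^ Fintype.card ↥Y.V * (A * B) ≤ (2 : ℝ) ^ Fintype.card ↥Y.V * (2 : ℝ) ^ Fintype.card ↥Y.V * (C * D) := by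
    intro A B C D h
    nlinarith [h]
  refine goal_form _ _ _ _ ?_
  rw [a1, a2, a3, a4]
  have := mul_le_mul_of_nonneg_left key (mul_pos hKc hKc).le
  nlinarith [this]

end Abs

/-- the equation lemmas of the definitions of this file are generated HERE (RULES.md, rule 6) -/
theorem hsy12_eqns_cite : True := by
  have := @hsy12KS.eq_1
  have := @hsy12P1.eq_1
  have := @hsy12P0.eq_1
  trivial

/-! ## 2. the cylinder -/

/-- **HOLLEY ON THE CYLINDER `rcy162Cyl L a b`** (the two boundary rows are contracted: each must be pinned with one colour, `Hsy12Ok`) -/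
theorem hsy12_cyl_holley {t : ℝ} (h0 : 0 < t) (h1 : t ≤ 1) {L : ℕ} (hL : 0 < L) {a b : ℤ} (hab : a < b) {K₁ K₂ : MdlPin}
    (ok₁ : Hsy12Ok (rcy162Cyl L a b) (rci69Pi a b) K₁) (ok₂ : Hsy12Ok (rcy162Cyl L a b) (rci69Pi a b) K₂) (hle : Hsy12Le (rcy162Cyl L a b) K₁ K₂)
    {X : RswCfg → ℝ} (hX : Rci69Inc (rcy162Cyl L a b) X) :
    (rcy162Cyl L a b).sum t K₁.Holds X * (rcy162Cyl L a b).sum t K₂.Holds (fun _ => 1)
      ≤ (rcy162Cyl L a b).sum t K₁.Holds (fun _ => 1) * (rcy162Cyl L a b).sum t K₂.Holds X :=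
  hsy12_holley (rci69_cyl_ctr hL hab) h0 h1 (rci69_cyl_dual hL hab) ok₁ ok₂ hle hX

/-! ## 3. the prescriptions of `HpDefs12` -/

section Geo

theorem hsy12_corner {F : Finset (ℤ × ℤ)} {v : ℤ × ℤ} (hv : v ∈ cornersOf F) :
    ∃ f ∈ F, (v.1 = f.1 ∨ v.1 = f.1 + 1) ∧ (v.2 = f.2 ∨ v.2 = f.2 + 1) := by
  unfold cornersOf at hv
  simp only [Finset.mem_biUnion, Finset.mem_insert, Finset.mem_singleton] at hv
  obtain ⟨f, hf, h⟩ := hv
  refine ⟨f, hf, ?_⟩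
  rcases h with rfl | rfl | rfl | rfl <;> simp

theorem hsy12_corner_mk {F : Finset (ℤ × ℤ)} {f v : ℤ × ℤ} (hf : f ∈ F) (h1 : v.1 = f.1 ∨ v.1 = f.1 + 1) (h2 : v.2 = f.2 ∨ v.2 = f.2 + 1) :
    v ∈ cornersOf F := by
  unfold cornersOf
  simp only [Finset.mem_biUnion, Finset.mem_insert, Finset.mem_singleton]
  refine ⟨f, hf, ?_⟩
  obtain ⟨x, y⟩ := v
  simp only at h1 h2
  rcases h1 with rfl | rfl <;> rcases h2 with rfl | rfl <;> simp

variable {L : ℕ} {a b B : ℤ} {F : Finset (ℤ × ℤ)} {K : RswCon}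

/-- corners of `F` : range -/
theorem hsy12_corner_range (hG : Hpd12Geo L a B F) {v : ℤ × ℤ} (hv : v ∈ cornersOf F) : 0 ≤ v.1 ∧ v.1 < L ∧ a ≤ v.2 ∧ v.2 < B := by
  obtain ⟨f, hf, h1, h2⟩ := hsy12_corner hv
  obtain ⟨g1, g2, g3, g4⟩ := hG f hf
  refine ⟨?_, ?_, ?_, ?_⟩ <;> omega

/-- corners of the part of `F` above the row `b` : range -/
theorem hsy12_corner_range' (hG : Hpd12Geo L a B F) {v : ℤ × ℤ} (hv : v ∈ cornersOf (F.filter (fun f => b ≤ f.2))) :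
    0 ≤ v.1 ∧ v.1 < L ∧ b ≤ v.2 ∧ v.2 < B := by
  obtain ⟨f, hf, h1, h2⟩ := hsy12_corner hv
  obtain ⟨hf1, hf2⟩ := Finset.mem_filter.1 hf
  obtain ⟨g1, g2, g3, g4⟩ := hG f hf1
  refine ⟨?_, ?_, ?_, ?_⟩ <;> omega

theorem hsy12_end_red (hG : Hpd12Geo L a B F) {e : (ℤ × ℤ) × Bool} (he : e.1 ∈ F) : rcy162Red L (rswEnd e) = rswEnd e := by
  obtain ⟨g1, g2, g3, g4⟩ := hG _ he
  refine rcy162_red_of_range ?_ ?_ <;> unfold rswEnd <;> split_ifs <;> simp only <;> omega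

/-- the two ends of an edge pair of the rim are on the rim -/
theorem hsy12_bd_ends (hG : Hpd12Geo L a B F) {e : (ℤ × ℤ) × Bool} (he : e ∈ hpd12Bd (rcy162Cyl L a B) F) :
    (rcy162Cyl L a B).p0 e ∈ cornersOf F \ rsxIn F ∧ (rcy162Cyl L a B).p1 e ∈ cornersOf F \ rsxIn F := by
  classical
  unfold hpd12Bd at he
  obtain ⟨h1, h2⟩ := Finset.mem_filter.1 he
  obtain ⟨hE, hn⟩ := Finset.mem_sdiff.1 h1
  obtain ⟨hr, -⟩ := rcy162_mem_cylE.1 hE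
  show e.1 ∈ _ ∧ rcy162Red L (rswEnd e) ∈ _
  have h2' : e.1 ∈ F ∨ rcy162Red L (rswCo e) ∈ F := h2
  obtain ⟨⟨x, y⟩, c⟩ := e
  simp only at hr
  by_cases hf : (x, y) ∈ F
  · have hco : rswCo ((x, y), c) ∉ F := fun h => hn (rsz_mem_int.2 ⟨hf, h⟩)
    rw [hsy12_end_red hG (e := ((x, y), c)) hf]
    refine ⟨Finset.mem_sdiff.2 ⟨rsz_face_corner hf, fun h => ?_⟩, Finset.mem_sdiff.2 ⟨rsz_end_corner (e := ((x, y), c)) hf, fun h => ?_⟩⟩
    · obtain ⟨_, q1, q2, _⟩ := rsx_mem_in.1 h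
      cases c
      · exact hco (by simpa [rswCo] using q2)
      · exact hco (by simpa [rswCo] using q1)
    · obtain ⟨_, q1, q2, q3⟩ := rsx_mem_in.1 h
      cases c
      · exact hco (by simpa [rswCo, rswEnd] using q3)
      · exact hco (by simpa [rswCo, rswEnd] using q3)
  · have hg : rcy162Red L (rswCo ((x, y), c)) ∈ F := h2'.resolve_left hf
    cases c
    · -- horizontal: the face below
      have e1 : rcy162Red L (rswCo ((x, y), false)) = (x, y - 1) := by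
        rw [rcy162_red_of_range (by simpa [rswCo] using hr.1) (by simpa [rswCo] using hr.2)]
        simp [rswCo]
      rw [e1] at hg
      obtain ⟨g1, g2, g3, g4⟩ := hG _ hg
      simp only at g1 g2 g3 g4
      have e2 : rcy162Red L (rswEnd ((x, y), false)) = (x + 1, y) := by
        rw [rcy162_red_of_range (by simp [rswEnd]; omega) (by simp [rswEnd]; omega)]
        simp [rswEnd]
      rw [e2]
      refine ⟨Finset.mem_sdiff.2 ⟨hsy12_corner_mk hg (Or.inl rfl) (Or.inr (by simp)), fun h => hf (rsx_mem_in.1 h).1⟩,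
        Finset.mem_sdiff.2 ⟨hsy12_corner_mk hg (Or.inr rfl) (Or.inr (by simp)), fun h => hf (by simpa using (rsx_mem_in.1 h).2.1)⟩⟩
    · -- vertical: the face on the left
      have hx : 1 ≤ x := by
        by_contra hx
        have hx0 : x = 0 := by omega
        subst hx0
        have e1 : rcy162Red L (rswCo ((0, y), true)) = ((L : ℤ) - 1, y) := by
          unfold rcy162Red rswCo
          simp only [if_true, Prod.mk.injEq, and_true]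
          have : ((0 : ℤ) - 1) % (L : ℤ) = (L : ℤ) - 1 := by
            rw [show ((0 : ℤ) - 1) = ((L : ℤ) - 1) + (L : ℤ) * (-1) by ring, Int.add_mul_emod_self_left]
            exact Int.emod_eq_of_lt (by omega) (by omega)
          exact this
        rw [e1] at hg
        obtain ⟨g1, g2, g3, g4⟩ := hG _ hg
        simp only at g2
        omega
      have e1 : rcy162Red L (rswCo ((x, y), true)) = (x - 1, y) := by
        rw [rcy162_red_of_range (by simp [rswCo]; omega) (by simp [rswCo]; omega)]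
        simp [rswCo]
      rw [e1] at hg
      have e2 : rcy162Red L (rswEnd ((x, y), true)) = (x, y + 1) := by
        rw [rcy162_red_of_range (by simpa [rswEnd] using hr.1) (by simpa [rswEnd] using hr.2)]
        simp [rswEnd]
      rw [e2]
      refine ⟨Finset.mem_sdiff.2 ⟨hsy12_corner_mk hg (Or.inr (by simp)) (Or.inl rfl), fun h => hf (rsx_mem_in.1 h).1⟩,
        Finset.mem_sdiff.2 ⟨hsy12_corner_mk hg (Or.inr (by simp)) (Or.inr rfl), fun h => hf (by simpa using (rsx_mem_in.1 h).2.2.1)⟩⟩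

end Geo

section Pins

variable {L : ℕ} {a b B : ℤ} {F : Finset (ℤ × ℤ)} {K : RswCon}

theorem hsy12_pi_of {a B : ℤ} {v : ℤ × ℤ} (h1 : v.2 ≠ a) (h2 : v.2 ≠ B) : rci69Pi a B v = v := by
  unfold rci69Pi
  rw [if_neg h1, if_neg h2]

theorem hsy12_pi_a {a B : ℤ} {v : ℤ × ℤ} (h1 : v.2 = a) : rci69Pi a B v = (0, a) := by
  unfold rci69Pi
  rw [if_pos h1]

theorem hsy12_pi_B {a B : ℤ} {v : ℤ × ℤ} (h1 : v.2 ≠ a) (h2 : v.2 = B) : rci69Pi a B v = (0, B) := by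
  unfold rci69Pi
  rw [if_neg h1, if_pos h2]

theorem hsy12_pi_ne {a B : ℤ} {v : ℤ × ℤ} (h : rci69Pi a B v ≠ v) : v.2 = a ∨ v.2 = B := by
  by_contra hc
  exact h (hsy12_pi_of (fun q => hc (Or.inl q)) (fun q => hc (Or.inr q)))

theorem hsy12_mem_upSp {v : ℤ × ℤ} : v ∈ (hpd12Up L a b B).Sp ↔ (0 ≤ v.1 ∧ v.1 < L) ∧ b ≤ v.2 ∧ v.2 ≤ B := by
  show v ∈ Finset.Ico (0 : ℤ) L ×ˢ Finset.Icc b B ↔ _
  rw [Finset.mem_product, Finset.mem_Ico, Finset.mem_Icc]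

/-- an edge pair above the row `b` -/
theorem hsy12_up_edge {e : (ℤ × ℤ) × Bool} (he : e ∈ (hpd12Up L a b B).Oo) : (0 ≤ e.1.1 ∧ e.1.1 < L) ∧ b ≤ e.1.2 ∧ e.1.2 < B := by
  have he' : e ∈ (rcy162Cyl L a B).E \ (rcy162Cyl L a b).E := he
  obtain ⟨h1, h2⟩ := Finset.mem_sdiff.1 he'
  obtain ⟨r, h3⟩ := rcy162_mem_cylE.1 h1
  refine ⟨r, ?_⟩
  by_contra hc
  refine h2 (rcy162_mem_cylE.2 ⟨r, ?_⟩)
  rcases h3 with ⟨c, x, y⟩ | ⟨c, x, y⟩
  · exact Or.inl ⟨c, x, by omega⟩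
  · exact Or.inr ⟨c, x, by omega⟩

theorem hsy12_up_ok (hL : 0 < L) (hab : a < b) (hbB : b < B) : Hsy12Ok (rcy162Cyl L a B) (rci69Pi a B) (hpd12Up L a b B) := by
  refine ⟨fun e he => ?_, fun v hv h => ?_, fun v hv h => ?_, fun v hv h => ?_⟩
  · have he' : e ∈ (hpd12Up L a b B).Oo := by
      rcases Finset.mem_union.1 he with h | h
      · exact h
      · exact absurd h (Finset.notMem_empty e)
    obtain ⟨r, y1, y2⟩ := hsy12_up_edge he'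
    refine ⟨Finset.mem_union_left _ (hsy12_mem_upSp.2 ⟨r, y1, y2.le⟩), Finset.mem_union_left _ (hsy12_mem_upSp.2 ⟨rcy162_red_range hL _, ?_⟩)⟩
    show b ≤ (rswEnd e).2 ∧ (rswEnd e).2 ≤ B
    unfold rswEnd
    split_ifs <;> simp only <;> omega
  · obtain ⟨r, y1, y2⟩ := hsy12_mem_upSp.1 h
    by_cases hB : v.2 = B
    · rw [hsy12_pi_B (by omega) hB]
      exact hsy12_mem_upSp.2 ⟨⟨le_rfl, (Int.natCast_pos.2 hL : (0 : ℤ) < (L : ℤ))⟩, hbB.le, le_rfl⟩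
    · rw [hsy12_pi_of (by omega) hB]
      exact h
  · have h' : v ∈ rcy162Row L a := h
    rw [hsy12_pi_a (rcy162_mem_row.1 h').2]
    exact rcy162_mem_row.2 ⟨⟨le_rfl, (Int.natCast_pos.2 hL : (0 : ℤ) < (L : ℤ))⟩, rfl⟩
  · obtain ⟨r, y1, y2⟩ := rcy162_mem_cylV.1 hv
    rcases hsy12_pi_ne h with q | q
    · exact Finset.mem_union_right _ (rcy162_mem_row.2 ⟨r, q⟩)
    · exact Finset.mem_union_left _ (hsy12_mem_upSp.2 ⟨r, by omega, by omega⟩)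

theorem hsy12_mem_loSp {v : ℤ × ℤ} : v ∈ (hpd12Lo L a B F K).Sp ↔ v ∈ rcy162Row L B ∨ v ∈ K.Sp ∨ v ∈ rrsEnds K.Gp := by
  show v ∈ rcy162Row L B ∪ K.Sp ∪ rrsEnds K.Gp ↔ _
  rw [Finset.mem_union, Finset.mem_union, or_assoc]

theorem hsy12_mem_loSm {v : ℤ × ℤ} :
    v ∈ (hpd12Lo L a B F K).Sm ↔ v ∈ rcy162Row L a ∨ v ∈ cornersOf F \ rsxIn F ∨ v ∈ K.Sm ∨ v ∈ rrsEnds K.Gm := by
  show v ∈ rcy162Row L a ∪ (cornersOf F \ rsxIn F) ∪ K.Sm ∪ rrsEnds K.Gm ↔ _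
  rw [Finset.mem_union, Finset.mem_union, Finset.mem_union, or_assoc, or_assoc]

theorem hsy12_mem_loOo {e : (ℤ × ℤ) × Bool} : e ∈ (hpd12Lo L a B F K).Oo ↔ e ∈ hpd12Bd (rcy162Cyl L a B) F ∨ e ∈ K.Gp ∨ e ∈ K.Gm := by
  show e ∈ hpd12Bd (rcy162Cyl L a B) F ∪ K.Gp ∪ K.Gm ↔ _
  rw [Finset.mem_union, Finset.mem_union, or_assoc]

/-- the ends of a set of interior edges are corners -/
theorem hsy12_ends_corner {G : Finset (ℤ × ℤ)} {E : Finset ((ℤ × ℤ) × Bool)} (hE : E ⊆ rswInt G) {v : ℤ × ℤ} (hv : v ∈ rrsEnds E) : v ∈ cornersOf G := by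
  obtain ⟨e, he, rfl | rfl⟩ := rrs189_mem_ends hv
  · exact rsb_int_fst_corner (hE he)
  · exact rsb_int_end_corner (hE he)

theorem hsy12_lo_ok (hL : 0 < L) (hab : a < b) (hbB : b < B) (hG : Hpd12Geo L a B F) (hK : K.Legal (F.filter (fun f => b ≤ f.2))) :
    Hsy12Ok (rcy162Cyl L a B) (rci69Pi a B) (hpd12Lo L a B F K) := by
  have hGp : K.Gp ⊆ rswInt (F.filter (fun f => b ≤ f.2)) := fun e he => hK.ed (Finset.mem_union_left _ (Finset.mem_union_left _ he))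
  have hGm : K.Gm ⊆ rswInt (F.filter (fun f => b ≤ f.2)) := fun e he => hK.ed (Finset.mem_union_left _ (Finset.mem_union_right _ he))
  have hCl : K.Cl ⊆ rswInt (F.filter (fun f => b ≤ f.2)) := fun e he => hK.ed (Finset.mem_union_right _ he)
  have hfst : ∀ e ∈ rswInt (F.filter (fun f => b ≤ f.2)), e.1 ∈ F := fun e he => (Finset.mem_filter.1 (rsz_mem_int.1 he).1).1
  have fixed : ∀ v ∈ cornersOf (F.filter (fun f => b ≤ f.2)), rci69Pi a B v = v := fun v hv => by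
    obtain ⟨_, _, y1, y2⟩ := hsy12_corner_range' hG hv
    exact hsy12_pi_of (by omega) (by omega)
  refine ⟨fun e he => ?_, fun v hv h => ?_, fun v hv h => ?_, fun v hv h => ?_⟩
  · rcases Finset.mem_union.1 he with h | h
    · rcases hsy12_mem_loOo.1 h with h | h | h
      · obtain ⟨q1, q2⟩ := hsy12_bd_ends hG h
        exact ⟨Finset.mem_union_right _ (hsy12_mem_loSm.2 (Or.inr (Or.inl q1))), Finset.mem_union_right _ (hsy12_mem_loSm.2 (Or.inr (Or.inl q2)))⟩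
      · refine ⟨Finset.mem_union_left _ (hsy12_mem_loSp.2 (Or.inr (Or.inr (rrs189_ends_fst h)))), Finset.mem_union_left _ (hsy12_mem_loSp.2 (Or.inr (Or.inr ?_)))⟩
        show rcy162Red L (rswEnd e) ∈ _
        rw [hsy12_end_red hG (hfst e (hGp h))]
        exact rrs189_ends_end h
      · refine ⟨Finset.mem_union_right _ (hsy12_mem_loSm.2 (Or.inr (Or.inr (Or.inr (rrs189_ends_fst h))))),
          Finset.mem_union_right _ (hsy12_mem_loSm.2 (Or.inr (Or.inr (Or.inr ?_))))⟩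
        show rcy162Red L (rswEnd e) ∈ _
        rw [hsy12_end_red hG (hfst e (hGm h))]
        exact rrs189_ends_end h
    · have h' : e ∈ K.Cl := h
      obtain ⟨q1, q2⟩ := hK.full e (Finset.mem_union_right _ h')
      have conv : ∀ w, w ∈ K.Sp ∪ K.Sm → w ∈ (hpd12Lo L a B F K).Sp ∪ (hpd12Lo L a B F K).Sm := fun w hw => by
        rcases Finset.mem_union.1 hw with q | q
        · exact Finset.mem_union_left _ (hsy12_mem_loSp.2 (Or.inr (Or.inl q)))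
        · exact Finset.mem_union_right _ (hsy12_mem_loSm.2 (Or.inr (Or.inr (Or.inl q))))
      refine ⟨conv _ q1, ?_⟩
      show rcy162Red L (rswEnd e) ∈ _
      rw [hsy12_end_red hG (hfst e (hCl h'))]
      exact conv _ q2
  · rcases hsy12_mem_loSp.1 h with q | q | q
    · rw [hsy12_pi_B (by have := (rcy162_mem_row.1 q).2; omega) (rcy162_mem_row.1 q).2]
      exact hsy12_mem_loSp.2 (Or.inl (rcy162_mem_row.2 ⟨⟨le_rfl, (Int.natCast_pos.2 hL : (0 : ℤ) < (L : ℤ))⟩, rfl⟩))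
    · rw [fixed v (hK.sp q)]; exact h
    · rw [fixed v (hsy12_ends_corner hGp q)]; exact h
  · rcases hsy12_mem_loSm.1 h with q | q | q | q
    · rw [hsy12_pi_a (rcy162_mem_row.1 q).2]
      exact hsy12_mem_loSm.2 (Or.inl (rcy162_mem_row.2 ⟨⟨le_rfl, (Int.natCast_pos.2 hL : (0 : ℤ) < (L : ℤ))⟩, rfl⟩))
    · obtain ⟨_, _, y1, y2⟩ := hsy12_corner_range hG (Finset.mem_sdiff.1 q).1
      by_cases hva : v.2 = a
      · rw [hsy12_pi_a hva]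
        exact hsy12_mem_loSm.2 (Or.inl (rcy162_mem_row.2 ⟨⟨le_rfl, (Int.natCast_pos.2 hL : (0 : ℤ) < (L : ℤ))⟩, rfl⟩))
      · rw [hsy12_pi_of hva (by omega)]; exact h
    · rw [fixed v (hK.sm q)]; exact h
    · rw [fixed v (hsy12_ends_corner hGm q)]; exact h
  · obtain ⟨r, y1, y2⟩ := rcy162_mem_cylV.1 hv
    rcases hsy12_pi_ne h with q | q
    · exact Finset.mem_union_right _ (hsy12_mem_loSm.2 (Or.inl (rcy162_mem_row.2 ⟨r, q⟩)))
    · exact Finset.mem_union_left _ (hsy12_mem_loSp.2 (Or.inl (rcy162_mem_row.2 ⟨r, q⟩)))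

theorem hsy12_lo_le_up (hL : 0 < L) (hab : a < b) (hbB : b < B) (hG : Hpd12Geo L a B F) (hK : K.Legal (F.filter (fun f => b ≤ f.2))) :
    Hsy12Le (rcy162Cyl L a B) (hpd12Lo L a B F K) (hpd12Up L a b B) := by
  have hGp : K.Gp ⊆ rswInt (F.filter (fun f => b ≤ f.2)) := fun e he => hK.ed (Finset.mem_union_left _ (Finset.mem_union_left _ he))
  have hCl : K.Cl ⊆ rswInt (F.filter (fun f => b ≤ f.2)) := fun e he => hK.ed (Finset.mem_union_right _ he)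
  have up : ∀ v ∈ cornersOf (F.filter (fun f => b ≤ f.2)), v ∈ (hpd12Up L a b B).Sp := fun v hv => by
    obtain ⟨x1, x2, y1, y2⟩ := hsy12_corner_range' hG hv
    exact hsy12_mem_upSp.2 ⟨⟨x1, x2⟩, y1, y2.le⟩
  refine ⟨fun v hv => ?_, fun v hv => hsy12_mem_loSm.2 (Or.inl hv), fun e he => ?_, fun e he => absurd he (Finset.notMem_empty e), fun e he => ?_, fun e he => ?_⟩
  · rcases hsy12_mem_loSp.1 hv with q | q | q
    · obtain ⟨r, y⟩ := rcy162_mem_row.1 q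
      exact hsy12_mem_upSp.2 ⟨r, by omega, by omega⟩
    · exact up v (hK.sp q)
    · exact up v (hsy12_ends_corner hGp q)
  · rcases hsy12_mem_loOo.1 he with h | h | h
    · exact Or.inl (Or.inl (hsy12_mem_loSm.2 (Or.inr (Or.inl (hsy12_bd_ends hG h).1))))
    · refine Or.inr ?_
      show e ∈ (rcy162Cyl L a B).E \ (rcy162Cyl L a b).E
      obtain ⟨q1, q2⟩ := rsz_mem_int.1 (hGp h)
      obtain ⟨f1, f2⟩ := Finset.mem_filter.1 q1
      obtain ⟨c1, c2⟩ := Finset.mem_filter.1 q2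
      obtain ⟨g1, g2, g3, g4⟩ := hG _ f1
      obtain ⟨⟨x, y⟩, c⟩ := e
      simp only at f2 g1 g2 g3 g4
      cases c
      · have c2' : b ≤ y - 1 := by simpa [rswCo] using c2
        refine Finset.mem_sdiff.2 ⟨rcy162_mem_cylE.2 ⟨⟨g1, by simp only; omega⟩, Or.inl ⟨rfl, by simp only; omega, by simp only; omega⟩⟩, fun hc => ?_⟩
        obtain ⟨_, hh⟩ := rcy162_mem_cylE.1 hc
        rcases hh with ⟨_, _, z⟩ | ⟨z, _, _⟩
        · simp only at z; omega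
        · exact absurd z (by simp)
      · refine Finset.mem_sdiff.2 ⟨rcy162_mem_cylE.2 ⟨⟨g1, by simp only; omega⟩, Or.inr ⟨rfl, by simp only; omega, by simp only; omega⟩⟩, fun hc => ?_⟩
        obtain ⟨_, hh⟩ := rcy162_mem_cylE.1 hc
        rcases hh with ⟨z, _, _⟩ | ⟨_, _, z⟩
        · exact absurd z (by simp)
        · simp only at z; omega
    · exact Or.inl (Or.inl (hsy12_mem_loSm.2 (Or.inr (Or.inr (Or.inr (rrs189_ends_fst h))))))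
  · obtain ⟨r, y1, y2⟩ := hsy12_up_edge he
    exact Or.inl (Or.inl (hsy12_mem_upSp.2 ⟨r, y1, y2.le⟩))
  · have h' : e ∈ K.Cl := he
    exact Or.inl (Or.inl (up _ (rsb_int_fst_corner (hCl h'))))

/-- **(S3) OF B5**: `Hpd12Ord t`, verbatim -/
theorem hsy12_ord {t : ℝ} (h0 : 0 < t) (h1 : t ≤ 1) : Hpd12Ord t := by
  intro L a b B F K X hL hab hbB hG hK hX
  exact hsy12_cyl_holley h0 h1 hL (hab.trans hbB) (hsy12_lo_ok hL hab hbB hG hK) (hsy12_up_ok hL hab hbB) (hsy12_lo_le_up hL hab hbB hG hK) hX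

end Pins

/-! ## 4. (S6a) ASSEMBLY IN NORMAL POSITION : `Hpd12Norm t` from the four contracts -/

section Norm

theorem hsy12_on_anti {τ τ' : CyF} (h : ∀ u, τ u ≤ τ' u) : cyOn (-1) τ' ⊆ cyOn (-1) τ := by
  intro u hu
  have h1 : τ' u = -1 := hu
  have h2 := h u
  rw [h1] at h2
  exact le_antisymm h2 (SignType.neg_one_le _)

/-- a minus blocking is a decreasing event -/
theorem hsy12_blk_dec (c d : ℤ) {τ τ' : CyF} (h : ∀ u, τ u ≤ τ' u) (ht : τ' ∈ cyBlk (-1) c d) : τ ∈ cyBlk (-1) c d :=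
  fun hx => ht (cy_X_mono (Set.sdiff_subset_sdiff_right (hsy12_on_anti h)) hx)

theorem hsy12_ind_not (p : Prop) : rsxInd (¬ p) = 1 - rsxInd p := by
  by_cases h : p
  · rw [rsx_ind_pos h, rsx_ind_neg (not_not.2 h), sub_self]
  · rw [rsx_ind_neg h, rsx_ind_pos h, sub_zero]

theorem hsy12_sum_not (Y : Rcy162Sys) (t : ℝ) (C : RswCfg → Prop) (A : RswCfg → Prop) :
    Y.sum t C (fun ω => rsxInd (¬ A ω)) = Y.sum t C (fun _ => 1) - Y.sum t C (fun ω => rsxInd (A ω)) := by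
  rw [← rcy162_sum_sub]
  congr 1
  funext ω
  exact hsy12_ind_not _

/-- **(S6a)** -/
theorem hsy12_norm {t : ℝ} (h0 : 0 < t) (h1 : t ≤ 1) (hCut : Hpd12Cut t) (hTop : Hpd12Top t) (hOrd : Hpd12Ord t) (hDet : Hpd12Det) : Hpd12Norm t := by
  intro L H B F K δ hL hH hHB hG hK hfe hδ
  have hH' : (0 : ℤ) < (H : ℤ) := Int.natCast_pos.2 hH
  have hKF : K.Legal F := rnz_legal_mono (Finset.filter_subset _ _) hK
  obtain ⟨hZ1, hcut⟩ := hCut L 0 B F K hL (hH'.trans hHB) hG hKF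
  obtain ⟨hZ2, htop⟩ := hTop L 0 H B hL hH' hHB
  have hZ1 := hZ1 hfe
  set Y := rcy162Cyl L 0 B with hY
  set Lo := hpd12Lo L 0 B F K with hLo
  set Up := hpd12Up L 0 H B with hUp
  set c : ℤ := ((H / 10 : ℕ) : ℤ) with hc
  set d5 : ℤ := ((H / 5 : ℕ) : ℤ) with hd5
  have hcd : c ≤ d5 := by
    rw [hc, hd5]
    have : H / 10 ≤ H / 5 := by omega
    exact_mod_cast this
  have hd5H : d5 + 1 ≤ (H : ℤ) := by
    rw [hd5]
    have : H / 5 + 1 ≤ H := by omega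
    exact_mod_cast this
  have hc0 : 0 ≤ c := by rw [hc]; exact Int.natCast_nonneg _
  set E : Set CyF := cyBlk (-1) (2 * c + 1) (2 * d5 + 1) with hE
  have hsup : CySup (2 * 0 + 1) (2 * (H : ℤ) - 1) E := cy_sup_mono (cy_sup_Blk _ _ _) (by omega) (by omega)
  have e2 := htop E hsup
  -- order
  have hinc : Rci69Inc Y (fun ω => rsxInd (¬ rcy162Fld L Y ω ∈ E)) := by
    intro ω ω' hle
    show rsxInd (¬ rcy162Fld L Y ω ∈ E) ≤ rsxInd (¬ rcy162Fld L Y ω' ∈ E)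
    by_cases a : rcy162Fld L Y ω ∈ E
    · rw [rsx_ind_neg (not_not.2 a)]; exact rsx_ind_nonneg _
    · rw [rsx_ind_pos a, rsx_ind_pos (fun a' => a (hsy12_blk_dec _ _ (rcy162_fld_mono L hle) a'))]
  have e3 := hOrd L 0 H B F K _ hL hH' hHB hG hK hinc
  rw [hsy12_sum_not, hsy12_sum_not] at e3
  -- deterministic
  set Sp : RswCfg → Prop := fun ω => RswSep F false ω (F.filter (fun f => f.2 ≤ c)) (F.filter (fun f => d5 ≤ f.2)) with hSp
  have e4 : Y.sum t Lo.Holds (fun ω => rsxInd (rcy162Fld L Y ω ∈ E)) ≤ Y.sum t Lo.Holds (fun ω => rsxInd (Sp ω)) := by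
    refine rcy162_sum_mono' Y _ h0.le h1 fun ω hω _ => ?_
    by_cases a : rcy162Fld L Y ω ∈ E
    · have a' : rcy162Fld L (rcy162Cyl L 0 B) ω ∈ cyBlk (-1) (2 * c + 1) (2 * (d5 + 1) - 1) := by
        have : 2 * (d5 + 1) - 1 = 2 * d5 + 1 := by ring
        rw [this]; exact a
      have := hDet L 0 B c (d5 + 1) F ω hL hG hω.2.2 (by omega) a'
      simp only [add_sub_cancel_right] at this
      rw [rsx_ind_pos a, rsx_ind_pos (show Sp ω from this)]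
    · rw [rsx_ind_neg a]; exact rsx_ind_nonneg _
  -- cut
  have hins : RskInside F (fun ω => rsxInd (Sp ω)) := rrs189_inside (Finset.Subset.refl F) (rrt109_sep_loc F _ _ false)
  have e5 := hcut _ hins
  -- arithmetic
  have hq : δ ≤ rcy162QM t L 0 H E := hδ
  set Z1 := Y.sum t Lo.Holds (fun _ => 1) with hZ1d
  set Z2 := Y.sum t Up.Holds (fun _ => 1) with hZ2d
  set N1 := Y.sum t Lo.Holds (fun ω => rsxInd (rcy162Fld L Y ω ∈ E)) with hN1d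
  set N2 := Y.sum t Up.Holds (fun ω => rsxInd (rcy162Fld L Y ω ∈ E)) with hN2d
  set M1 := Y.sum t Lo.Holds (fun ω => rsxInd (Sp ω)) with hM1d
  have s1 : δ * Z1 ≤ M1 := by
    have a1 : Z1 * N2 ≤ N1 * Z2 := by nlinarith [e3]
    have a2 : δ * Z1 * Z2 ≤ M1 * Z2 := by
      calc δ * Z1 * Z2 ≤ rcy162QM t L 0 H E * Z1 * Z2 := by
            exact mul_le_mul_of_nonneg_right (mul_le_mul_of_nonneg_right hq hZ1.le) hZ2.le
        _ = Z1 * N2 := by rw [e2]; ring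
        _ ≤ N1 * Z2 := a1
        _ ≤ M1 * Z2 := mul_le_mul_of_nonneg_right e4 hZ2.le
    exact le_of_mul_le_mul_right a2 hZ2
  have s2 : δ * rnzZ t F false K ≤ rnzN t F false K (fun ω => rsxInd (Sp ω)) := by
    have a3 : δ * rnzZ t F false K * Z1 ≤ rnzN t F false K (fun ω => rsxInd (Sp ω)) * Z1 := by
      rw [← e5]
      have := mul_le_mul_of_nonneg_right s1 (rnz_Z_nonneg h0.le h1 F false K)
      nlinarith [this]
    exact le_of_mul_le_mul_right a3 hZ1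
  exact (rnz_ge_iff hfe Sp δ).1 s2

end Norm

end Claimed.Agent.R292
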