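import Claimed.Agent.R292.Rsw.CylInst69
import Claimed.Agent.R292.Rsw.CylDict111
import Claimed.Agent.R292.Rsw.RenSep189

/-!
# Row 292 (S0540), Rsw/HpDefs12 : R8 CORE, block A5-B5 = (HP) FROM (CYL): THE TYPED CONTRACTS      (owner helper12; prefix `hpd12` / `Hpd12`)      0 sorry

ONE direction (`l = f.2`), ONE colour (`s = false`; the mixed law of `Sys162` is minus on the bottom row); the rest = `rrs189_hpd_flip`, `rrs189_hp_of_one` (RenSep189 sec. 10, 11).

Ambient system: the TALL cylinder `Y = rcy162Cyl L a B`.   `F` = a planar domain in the fundamental domain (`Hpd12Geo`), `K` = a legal history of `F` above the row `b`.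
* `hpd12Lo L a B F K` : LOWER prescriptions = mixed rows + "the rim of `F` is minus, the edge pairs off `F` with a face in `F` are open" + `K`.      By the cut (`rcy162_cut_cross`): the law inside `F` is `P^-_F( . | K)`   (`Hpd12Cut`).
* `hpd12Up L a b B`   : UPPER prescriptions = bottom row minus + "everything in the rows `b..B` is plus, open".      By the cut: the law of the field below the row `b` is `rcy162QM t L a b`   (`Hpd12Top`).
* `Hpd12Ord` : Lower ≤ Upper   (Holley on a system with forced edges: `hol12_AT_holley` + `rci69_sum_AT` + `rci69_cyl_dual`).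
* `Hpd12Det` : deterministic, a minus blocking of the band of the cylinder separates in `F`   (`rcd111_Blk_sep`).
* `Hpd12Cyl` : (CYL), mirror form, unrefined sizes   (from `Rct127CylM`).
* `Hpd12Norm` : the conclusion for `(F, K)` in normal position (assembly of the four contracts; then translations, flips: RenSep189).
-/

set_option autoImplicit false
set_option linter.unusedVariables false

namespace Claimed.Agent.R292

open Claims Claims.C0468 Claimed.Agent.R291

/-- `F` sits in the fundamental domain of the cylinder with the vertex rows `a..B`, off the seam and off the top row -/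
def Hpd12Geo (L : ℕ) (a B : ℤ) (F : Finset (ℤ × ℤ)) : Prop := ∀ f ∈ F, 0 ≤ f.1 ∧ f.1 + 2 ≤ L ∧ a ≤ f.2 ∧ f.2 + 2 ≤ B

/-- the edge pairs of `Y` off `F` which have a face in `F` -/
noncomputable def hpd12Bd (Y : Rcy162Sys) (F : Finset (ℤ × ℤ)) : Finset ((ℤ × ℤ) × Bool) :=
  open Classical in (Y.E \ rswInt F).filter (fun e => Y.f0 e ∈ F ∨ Y.f1 e ∈ F)

/-- the LOWER prescriptions -/
noncomputable def hpd12Lo (L : ℕ) (a B : ℤ) (F : Finset (ℤ × ℤ)) (K : RswCon) : MdlPin :=
  ⟨rcy162Row L B ∪ K.Sp ∪ rrsEnds K.Gp, rcy162Row L a ∪ (cornersOf F \ rsxIn F) ∪ K.Sm ∪ rrsEnds K.Gm,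
    hpd12Bd (rcy162Cyl L a B) F ∪ K.Gp ∪ K.Gm, K.Cl⟩

/-- the UPPER prescriptions -/
noncomputable def hpd12Up (L : ℕ) (a b B : ℤ) : MdlPin :=
  ⟨Finset.Ico (0 : ℤ) L ×ˢ Finset.Icc b B, rcy162Row L a, (rcy162Cyl L a B).E \ (rcy162Cyl L a b).E, ∅⟩

/-- **(S2) CUT**: inside `F` the lower law is `P^-_F( . | K)`      (cross form) + positivity -/
def Hpd12Cut (t : ℝ) : Prop :=
  ∀ (L : ℕ) (a B : ℤ) (F : Finset (ℤ × ℤ)) (K : RswCon), 0 < L → a < B → Hpd12Geo L a B F → K.Legal F →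
    (K.Feas t F false → 0 < (rcy162Cyl L a B).sum t (hpd12Lo L a B F K).Holds (fun _ => 1)) ∧
    ∀ X : RswCfg → ℝ, RskInside F X →
      (rcy162Cyl L a B).sum t (hpd12Lo L a B F K).Holds X * rnzZ t F false K
        = rnzN t F false K X * (rcy162Cyl L a B).sum t (hpd12Lo L a B F K).Holds (fun _ => 1)

/-- **(S4) TOP**: below the row `b` the upper law is the mixed law of the cylinder `a..b` + positivity -/
def Hpd12Top (t : ℝ) : Prop :=
  ∀ (L : ℕ) (a b B : ℤ), 0 < L → a < b → b < B →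
    0 < (rcy162Cyl L a B).sum t (hpd12Up L a b B).Holds (fun _ => 1) ∧
    ∀ E : Set CyF, CySup (2 * a + 1) (2 * b - 1) E →
      (rcy162Cyl L a B).sum t (hpd12Up L a b B).Holds (fun ω => rsxInd (rcy162Fld L (rcy162Cyl L a B) ω ∈ E))
        = rcy162QM t L a b E * (rcy162Cyl L a B).sum t (hpd12Up L a b B).Holds (fun _ => 1)

/-- **(S3) ORDER**: Lower ≤ Upper -/
def Hpd12Ord (t : ℝ) : Prop :=
  ∀ (L : ℕ) (a b B : ℤ) (F : Finset (ℤ × ℤ)) (K : RswCon) (X : RswCfg → ℝ), 0 < L → a < b → b < B → Hpd12Geo L a B F →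
    K.Legal (F.filter (fun f => b ≤ f.2)) → Rci69Inc (rcy162Cyl L a B) X →
    (rcy162Cyl L a B).sum t (hpd12Lo L a B F K).Holds X * (rcy162Cyl L a B).sum t (hpd12Up L a b B).Holds (fun _ => 1)
      ≤ (rcy162Cyl L a B).sum t (hpd12Lo L a B F K).Holds (fun _ => 1) * (rcy162Cyl L a B).sum t (hpd12Up L a b B).Holds X

/-- **(S5) DETERMINISTIC**: a minus blocking of the band `c..d` of the cylinder separates the faces of `F` below from the faces of `F` above -/
def Hpd12Det : Prop :=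
  ∀ (L : ℕ) (a B c d : ℤ) (F : Finset (ℤ × ℤ)) (ω : RswCfg), 0 < L → Hpd12Geo L a B F → ω.O ⊆ (rcy162Cyl L a B).E → c < d →
    rcy162Fld L (rcy162Cyl L a B) ω ∈ cyBlk (-1) (2 * c + 1) (2 * d - 1) →
    RswSep F false ω (F.filter (fun f => f.2 ≤ c)) (F.filter (fun f => d - 1 ≤ f.2))

/-- **(CYL)**, mirror form, unrefined sizes -/
def Hpd12Cyl (t : ℝ) : Prop :=
  ∀ C : ℕ, ∃ δ : ℝ, 0 < δ ∧ ∃ H₀ : ℕ, ∀ L H : ℕ, H₀ ≤ H → H ≤ L → L ≤ C * H →
    δ ≤ rcy162Q t L H (cyBlk (-1) (2 * ((H / 10 : ℕ) : ℤ) + 1) (2 * ((H / 5 : ℕ) : ℤ) + 1))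

/-- **(S6a) NORMAL POSITION**: `F` in the fundamental domain, bottom row `0`, history above the row `H` -/
def Hpd12Norm (t : ℝ) : Prop :=
  ∀ (L H : ℕ) (B : ℤ) (F : Finset (ℤ × ℤ)) (K : RswCon) (δ : ℝ), 0 < L → 0 < H → (H : ℤ) < B → Hpd12Geo L 0 B F →
    K.Legal (F.filter (fun f => (H : ℤ) ≤ f.2)) → K.Feas t F false →
    δ ≤ rcy162Q t L H (cyBlk (-1) (2 * ((H / 10 : ℕ) : ℤ) + 1) (2 * ((H / 5 : ℕ) : ℤ) + 1)) →
    δ ≤ rswPK t F false K (fun ω => RswSep F false ω (F.filter (fun f => f.2 ≤ ((H / 10 : ℕ) : ℤ))) (F.filter (fun f => ((H / 5 : ℕ) : ℤ) ≤ f.2)))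

/-- the family of laws of the kit of `CylTop127` -/
noncomputable def hpd12P (t : ℝ) (L H : ℕ) (_ _ : Bool) (E : Set CyF) : ℝ := rcy162Q t (L / 2) (H / 2) E

/-- admissible sizes -/
def Hpd12Adm (L H : ℕ) : Prop := Even L ∧ Even H

/-- the equation lemmas of the definitions of this file are generated HERE (RULES.md, rule 6) -/
theorem hpd12_eqns_cite : True := by
  have := @Hpd12Geo.eq_1
  have := @hpd12Bd.eq_1
  have := @hpd12Lo.eq_1
  have := @hpd12Up.eq_1
  have := @Hpd12Cut.eq_1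
  have := @Hpd12Top.eq_1
  have := @Hpd12Ord.eq_1
  have := @Hpd12Det.eq_1
  have := @Hpd12Cyl.eq_1
  have := @Hpd12Norm.eq_1
  have := @hpd12P.eq_1
  have := @Hpd12Adm.eq_1
  trivial

end Claimed.Agent.R292
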