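import Claimed.Agent.R292.Rsw.LenInst182

/-!
# Row 292 (S0540), Rsw/LenGeo52 : fields `inV`, `outV` of `Rse182Geo` on the mixed cylinder      (pen helper52; prefix `lg52_`, `Lg52`; c1_post row 10, shared with 262)

`lg52_inV`, `lg52_outV` = the two fields of `Rse182Geo (rse182Y L H) (rse182Cyl t L H) (rse182KM L H) (lcyG L H w k (k + r - 1)) a b` VERBATIM, from `Rse182Box L H k r w a b`
(contract `Rse182CGeo` of `LenInst182` par. 6; assembly by 262 in `LenGeo262`).  0 sorry.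

METHOD. `Lg52Sh L u u' δ₁ δ₂`: `u' = u + (δ₁, δ₂)` on the refined cylinder (first coordinate modulo `L`).  Every incidence (endpoint, face) of the system is such a shift by a unit
vector between refined points (sec 2); near the box (margin `3` to the seam of the window) the shifts are read on the lifted coordinate `lcyX` (sec 1); the rest is arithmetic of a
rectangle `[a, b] × [c, d]` in `ℤ²` (sec 3: `lg52_core_in`, `lg52_core_out`; parities replace the case distinctions).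
-/

set_option autoImplicit false

namespace Claimed.Agent.R292

open Claims Claims.C0468 Relation Claimed.Agent.R291

/-! ## 1. shifts on the refined cylinder and the lifted coordinate -/

/-- `u' = u + (δ₁, δ₂)` on the cylinder of refined circumference `L` -/
def Lg52Sh (L : ℕ) (u u' : TV) (δ₁ δ₂ : ℤ) : Prop := (∃ q : ℤ, u'.1 = u.1 + δ₁ + L * q) ∧ u'.2 = u.2 + δ₂

theorem lg52_X_eq {L : ℕ} {w s : ℤ} {y : TV} {q : ℤ} (h : y.1 = s + L * q) (h1 : w ≤ s) (h2 : s < w + L) :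
    lcyX L w y = s := by
  unfold lcyX
  have e : y.1 - w = (s - w) + L * q := by rw [h]; ring
  rw [e, Int.add_mul_emod_self_left, Int.emod_eq_of_lt (by omega) (by omega)]
  ring

theorem lg52_X_def (L : ℕ) (w : ℤ) (u : TV) : u.1 = lcyX L w u + L * ((u.1 - w) / L) := by
  unfold lcyX
  have := Int.emod_add_mul_ediv (u.1 - w) (L : ℤ)
  omega

theorem lg52_X_sh {L : ℕ} {w : ℤ} {u u' : TV} {δ₁ δ₂ : ℤ} (h : Lg52Sh L u u' δ₁ δ₂) (h1 : w ≤ lcyX L w u + δ₁)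
    (h2 : lcyX L w u + δ₁ < w + L) : lcyX L w u' = lcyX L w u + δ₁ := by
  obtain ⟨⟨q, hq⟩, -⟩ := h
  refine lg52_X_eq (q := q + (u.1 - w) / L) ?_ h1 h2
  have := lg52_X_def L w u
  rw [hq, mul_add]
  omega

theorem lg52_X_par {L : ℕ} (eL : L % 2 = 0) (w : ℤ) (u : TV) : lcyX L w u % 2 = u.1 % 2 := by
  have h := lg52_X_def L w u
  obtain ⟨n, hn⟩ : ∃ n : ℤ, (L : ℤ) = 2 * n := ⟨((L / 2 : ℕ) : ℤ), by omega⟩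
  rw [hn, mul_assoc] at h
  omega

theorem lg52_eq_of_lift {L H : ℕ} {w : ℤ} {x y : TV} (hx : x ∈ sdCells L 0 H) (hy : y ∈ sdCells L 0 H) (h1 : lcyX L w x = lcyX L w y)
    (h2 : x.2 = y.2) : x = y := by
  obtain ⟨a1, a2, -, -⟩ := lcy_mem_cells hx
  obtain ⟨b1, b2, -, -⟩ := lcy_mem_cells hy
  rw [← lcy_red_lift (w := w) a1 a2, ← lcy_red_lift (w := w) b1 b2]
  unfold lcyLift
  rw [h1, h2]

theorem lg52_adj {L H : ℕ} {w c d : ℤ} {u v : TV}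
    (h : (lcyX L w u ≠ lcyX L w v ∨ u.2 ≠ v.2) ∧ lcyX L w v - lcyX L w u ≤ 1 ∧ lcyX L w u - lcyX L w v ≤ 1 ∧ v.2 - u.2 ≤ 1 ∧ u.2 - v.2 ≤ 1 ∧
      lcyX L w v - lcyX L w u + (v.2 - u.2) ≤ 1 ∧ lcyX L w u - lcyX L w v + (u.2 - v.2) ≤ 1) : (lcyG L H w c d).adj u v := by
  obtain ⟨hne, h'⟩ := h
  refine ((lge_adj_iff (lcyLift L w u) (lcyLift L w v)).2 h').resolve_left fun e => ?_
  have e1 : (lcyLift L w u).1 = (lcyLift L w v).1 := congrArg Prod.fst e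
  have e2 : (lcyLift L w u).2 = (lcyLift L w v).2 := congrArg Prod.snd e
  rcases hne with hne | hne
  · exact hne e1
  · exact hne e2

theorem lg52_mem_O {t : ℝ} {L H : ℕ} {w c d a b : ℤ} {y : TV} :
    y ∈ rse182O (rse182Cyl t L H) (lcyG L H w c d) a b ↔
      y ∈ sdCells L 0 H ∧ (a ≤ lcyX L w y ∧ lcyX L w y ≤ b ∧ c ≤ y.2 ∧ y.2 ≤ d) := by
  rw [rse182_mem_O]
  constructor
  · rintro ⟨h1, ⟨_, h2, h3⟩, h4, h5⟩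
    exact ⟨h1, h4, h5, h2, h3⟩
  · rintro ⟨h1, h4, h5, h2, h3⟩
    exact ⟨h1, ⟨h1, h2, h3⟩, h4, h5⟩

/-! ## 2. the incidences of the cylinder are unit shifts -/

theorem lg52_two_emod {L : ℕ} (eL : L % 2 = 0) (s : ℤ) : 2 * (s % ((L / 2 : ℕ) : ℤ)) = 2 * s + L * (-(s / ((L / 2 : ℕ) : ℤ))) := by
  have hLL : (L : ℤ) = 2 * ((L / 2 : ℕ) : ℤ) := by omega
  have := Int.emod_add_mul_ediv s ((L / 2 : ℕ) : ℤ)
  rw [hLL]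
  linarith

theorem lg52_end {L H : ℕ} (eL : L % 2 = 0) {e : (ℤ × ℤ) × Bool} {v : ℤ × ℤ} (h : Rse182End (rse182Y L H) e v) :
    ∃ δ₁ δ₂ : ℤ, Lg52Sh L (rtd111E e) (rtd111P v) δ₁ δ₂ ∧ δ₁ ≤ 1 ∧ -1 ≤ δ₁ ∧ δ₂ ≤ 1 ∧ -1 ≤ δ₂ := by
  obtain ⟨⟨x, y⟩, s⟩ := e
  cases s
  · rcases h with rfl | rfl
    · exact ⟨-1, 0, ⟨⟨0, by show 2 * x = 2 * x + 1 + -1 + L * 0; ring⟩, by show 2 * y = 2 * y + 0; ring⟩, by norm_num, by norm_num, by norm_num, by norm_num⟩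
    · refine ⟨1, 0, ⟨⟨-((x + 1) / ((L / 2 : ℕ) : ℤ)), ?_⟩, by show 2 * y = 2 * y + 0; ring⟩, by norm_num, by norm_num, by norm_num, by norm_num⟩
      show 2 * ((x + 1) % ((L / 2 : ℕ) : ℤ)) = 2 * x + 1 + 1 + L * _
      rw [lg52_two_emod eL]
      ring
  · rcases h with rfl | rfl
    · exact ⟨0, -1, ⟨⟨0, by show 2 * x = 2 * x + 0 + L * 0; ring⟩, by show 2 * y = 2 * y + 1 + -1; ring⟩, by norm_num, by norm_num, by norm_num, by norm_num⟩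
    · refine ⟨0, 1, ⟨⟨-(x / ((L / 2 : ℕ) : ℤ)), ?_⟩, by show 2 * (y + 1) = 2 * y + 1 + 1; ring⟩, by norm_num, by norm_num, by norm_num, by norm_num⟩
      show 2 * (x % ((L / 2 : ℕ) : ℤ)) = 2 * x + 0 + L * _
      rw [lg52_two_emod eL]
      ring

theorem lg52_fac {L H : ℕ} (eL : L % 2 = 0) {e : (ℤ × ℤ) × Bool} {f : ℤ × ℤ} (h : Rse182Fac (rse182Y L H) e f) :
    ∃ δ₁ δ₂ : ℤ, Lg52Sh L (rtd111E e) (rtd111F f) δ₁ δ₂ ∧ δ₁ ≤ 1 ∧ -1 ≤ δ₁ ∧ δ₂ ≤ 1 ∧ -1 ≤ δ₂ := by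
  obtain ⟨⟨x, y⟩, s⟩ := e
  cases s
  · rcases h with rfl | rfl
    · exact ⟨0, 1, ⟨⟨0, by show 2 * x + 1 = 2 * x + 1 + 0 + L * 0; ring⟩, by show 2 * y + 1 = 2 * y + 1; ring⟩, by norm_num, by norm_num, by norm_num, by norm_num⟩
    · refine ⟨0, -1, ⟨⟨-(x / ((L / 2 : ℕ) : ℤ)), ?_⟩, by show 2 * (y - 1) + 1 = 2 * y + -1; ring⟩, by norm_num, by norm_num, by norm_num, by norm_num⟩
      show 2 * (x % ((L / 2 : ℕ) : ℤ)) + 1 = 2 * x + 1 + 0 + L * _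
      rw [lg52_two_emod eL]
      ring
  · rcases h with rfl | rfl
    · exact ⟨1, 0, ⟨⟨0, by show 2 * x + 1 = 2 * x + 1 + L * 0; ring⟩, by show 2 * y + 1 = 2 * y + 1 + 0; ring⟩, by norm_num, by norm_num, by norm_num, by norm_num⟩
    · refine ⟨-1, 0, ⟨⟨-((x - 1) / ((L / 2 : ℕ) : ℤ)), ?_⟩, by show 2 * y + 1 = 2 * y + 1 + 0; ring⟩, by norm_num, by norm_num, by norm_num, by norm_num⟩
      show 2 * ((x - 1) % ((L / 2 : ℕ) : ℤ)) + 1 = 2 * x + -1 + L * _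
      rw [lg52_two_emod eL]
      ring

theorem lg52_emod_range {L : ℕ} (hL : 2 ≤ L) (s : ℤ) : 0 ≤ s % ((L / 2 : ℕ) : ℤ) ∧ s % ((L / 2 : ℕ) : ℤ) < ((L / 2 : ℕ) : ℤ) := by
  have h : (0 : ℤ) < ((L / 2 : ℕ) : ℤ) := by omega
  exact ⟨Int.emod_nonneg _ h.ne', Int.emod_lt_of_pos _ h⟩

theorem lg52_mem_E {L H : ℕ} {e : (ℤ × ℤ) × Bool} (he : e ∈ (rse182Y L H).E) :
    (0 ≤ e.1.1 ∧ e.1.1 < ((L / 2 : ℕ) : ℤ)) ∧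
      ((e.2 = false ∧ 0 < e.1.2 ∧ e.1.2 < ((H / 2 : ℕ) : ℤ)) ∨ (e.2 = true ∧ 0 ≤ e.1.2 ∧ e.1.2 < ((H / 2 : ℕ) : ℤ))) :=
  rcy162_mem_cylE.1 he

theorem lg52_end_range {L H : ℕ} (hL : 2 ≤ L) {e : (ℤ × ℤ) × Bool} (he : e ∈ (rse182Y L H).E) {v : ℤ × ℤ}
    (h : Rse182End (rse182Y L H) e v) : 0 ≤ v.1 ∧ v.1 < ((L / 2 : ℕ) : ℤ) := by
  rcases h with rfl | rfl
  · exact (lg52_mem_E he).1
  · exact lg52_emod_range hL _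

theorem lg52_fac_range {L H : ℕ} (hL : 2 ≤ L) {e : (ℤ × ℤ) × Bool} (he : e ∈ (rse182Y L H).E) {f : ℤ × ℤ}
    (h : Rse182Fac (rse182Y L H) e f) : 0 ≤ f.1 ∧ f.1 < ((L / 2 : ℕ) : ℤ) := by
  rcases h with rfl | rfl
  · exact (lg52_mem_E he).1
  · exact lg52_emod_range hL _

theorem lg52_E_cell {L H : ℕ} (eL : L % 2 = 0) (eH : H % 2 = 0) {e : (ℤ × ℤ) × Bool} (he : e ∈ (rse182Y L H).E) :
    rtd111E e ∈ sdCells L 0 H := by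
  obtain ⟨⟨h1, h2⟩, h3⟩ := lg52_mem_E he
  obtain ⟨⟨x, y⟩, s⟩ := e
  unfold sdCells
  simp only [Finset.mem_product, Finset.mem_Ico]
  simp only at h1 h2 h3
  cases s
  · rw [rtd111_E_f]
    simp only
    simp at h3
    omega
  · rw [rtd111_E_t]
    simp only
    simp at h3
    omega

theorem lg52_E_par (e : (ℤ × ℤ) × Bool) : ((rtd111E e).1 + (rtd111E e).2) % 2 = 1 := by
  obtain ⟨⟨x, y⟩, s⟩ := e
  cases s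
  · rw [rtd111_E_f]
    simp only
    omega
  · rw [rtd111_E_t]
    simp only
    omega

/-! ## 3. arithmetic of a rectangle -/

theorem lg52_core_in (a b c d x1 x2 y1 y2 v1 v2 : ℤ)
    (hx : a ≤ x1 ∧ x1 ≤ b ∧ c ≤ x2 ∧ x2 ≤ d) (hy : a ≤ y1 ∧ y1 ≤ b ∧ c ≤ y2 ∧ y2 ≤ d)
    (xv : (v1 - x1) + (v2 - x2) ≤ 1 ∧ (x1 - v1) + (x2 - v2) ≤ 1 ∧ (v1 - x1) - (v2 - x2) ≤ 1 ∧ (x1 - v1) - (x2 - v2) ≤ 1)
    (yv : (v1 - y1) + (v2 - y2) ≤ 1 ∧ (y1 - v1) + (y2 - v2) ≤ 1 ∧ (v1 - y1) - (v2 - y2) ≤ 1 ∧ (y1 - v1) - (y2 - v2) ≤ 1) :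
    (x1 = y1 ∧ x2 = y2) ∨
    ((x1 ≠ y1 ∨ x2 ≠ y2) ∧ y1 - x1 ≤ 1 ∧ x1 - y1 ≤ 1 ∧ y2 - x2 ≤ 1 ∧ x2 - y2 ≤ 1 ∧ y1 - x1 + (y2 - x2) ≤ 1 ∧ x1 - y1 + (x2 - y2) ≤ 1) ∨
    ((a ≤ v1 ∧ v1 ≤ b ∧ c ≤ v2 ∧ v2 ≤ d) ∧
      ((x1 ≠ v1 ∨ x2 ≠ v2) ∧ v1 - x1 ≤ 1 ∧ x1 - v1 ≤ 1 ∧ v2 - x2 ≤ 1 ∧ x2 - v2 ≤ 1 ∧ v1 - x1 + (v2 - x2) ≤ 1 ∧ x1 - v1 + (x2 - v2) ≤ 1) ∧
      ((v1 ≠ y1 ∨ v2 ≠ y2) ∧ y1 - v1 ≤ 1 ∧ v1 - y1 ≤ 1 ∧ y2 - v2 ≤ 1 ∧ v2 - y2 ≤ 1 ∧ y1 - v1 + (y2 - v2) ≤ 1 ∧ v1 - y1 + (v2 - y2) ≤ 1)) := by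
  omega

theorem lg52_core_out (a b c d m1 m2 f1 f2 w1 w2 v1 v2 y1 y2 : ℤ)
    (hm : a ≤ m1 ∧ m1 ≤ b ∧ c ≤ m2 ∧ m2 ≤ d) (hy : a ≤ y1 ∧ y1 ≤ b ∧ c ≤ y2 ∧ y2 ≤ d)
    (hw : ¬ (a ≤ w1 ∧ w1 ≤ b ∧ c ≤ w2 ∧ w2 ≤ d))
    (pf : f1 % 2 = 1 ∧ f2 % 2 = 1) (pv : v1 % 2 = 0 ∧ v2 % 2 = 0) (pm : (m1 + m2) % 2 = 1) (pw : (w1 + w2) % 2 = 1)
    (mf : f1 - m1 ≤ 1 ∧ m1 - f1 ≤ 1 ∧ f2 - m2 ≤ 1 ∧ m2 - f2 ≤ 1)
    (wf : f1 - w1 ≤ 1 ∧ w1 - f1 ≤ 1 ∧ f2 - w2 ≤ 1 ∧ w2 - f2 ≤ 1)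
    (wv : v1 - w1 ≤ 1 ∧ w1 - v1 ≤ 1 ∧ v2 - w2 ≤ 1 ∧ w2 - v2 ≤ 1)
    (yv : (v1 - y1) + (v2 - y2) ≤ 1 ∧ (y1 - v1) + (y2 - v2) ≤ 1 ∧ (v1 - y1) - (v2 - y2) ≤ 1 ∧ (y1 - v1) - (y2 - v2) ≤ 1) :
    (m1 = y1 ∧ m2 = y2) ∨
    ((a ≤ v1 ∧ v1 ≤ b ∧ c ≤ v2 ∧ v2 ≤ d) ∧
      ((m1 ≠ v1 ∨ m2 ≠ v2) ∧ v1 - m1 ≤ 1 ∧ m1 - v1 ≤ 1 ∧ v2 - m2 ≤ 1 ∧ m2 - v2 ≤ 1 ∧ v1 - m1 + (v2 - m2) ≤ 1 ∧ m1 - v1 + (m2 - v2) ≤ 1) ∧
      ((v1 = y1 ∧ v2 = y2) ∨ ((v1 ≠ y1 ∨ v2 ≠ y2) ∧ y1 - v1 ≤ 1 ∧ v1 - y1 ≤ 1 ∧ y2 - v2 ≤ 1 ∧ v2 - y2 ≤ 1 ∧ y1 - v1 + (y2 - v2) ≤ 1 ∧ v1 - y1 + (v2 - y2) ≤ 1))) ∨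
    ((a ≤ f1 ∧ f1 ≤ b ∧ c ≤ f2 ∧ f2 ≤ d) ∧
      ((m1 ≠ f1 ∨ m2 ≠ f2) ∧ f1 - m1 ≤ 1 ∧ m1 - f1 ≤ 1 ∧ f2 - m2 ≤ 1 ∧ m2 - f2 ≤ 1 ∧ f1 - m1 + (f2 - m2) ≤ 1 ∧ m1 - f1 + (m2 - f2) ≤ 1) ∧
      ((f1 ≠ y1 ∨ f2 ≠ y2) ∧ y1 - f1 ≤ 1 ∧ f1 - y1 ≤ 1 ∧ y2 - f2 ≤ 1 ∧ f2 - y2 ≤ 1 ∧ y1 - f1 + (y2 - f2) ≤ 1 ∧ f1 - y1 + (f2 - y2) ≤ 1)) := by
  by_cases hv : a ≤ v1 ∧ v1 ≤ b ∧ c ≤ v2 ∧ v2 ≤ d
  · right; left
    refine ⟨hv, ⟨by omega, ?_, ?_, ?_, ?_, ?_, ?_⟩, ?_⟩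
    · omega
    · omega
    · omega
    · omega
    · omega
    · omega
    · by_cases e : v1 = y1 ∧ v2 = y2
      · exact Or.inl e
      · exact Or.inr ⟨by omega, by omega, by omega, by omega, by omega, by omega, by omega⟩
  · by_cases e : m1 = y1 ∧ m2 = y2
    · exact Or.inl e
    · right; right
      refine ⟨⟨?_, ?_, ?_, ?_⟩, ⟨by omega, by omega, by omega, by omega, by omega, by omega, by omega⟩, ⟨?_, ?_, ?_, ?_, ?_, ?_, ?_⟩⟩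
      all_goals omega

/-! ## 4. the two fields -/

theorem lg52_sh_symm {L : ℕ} {u u' : TV} {δ₁ δ₂ : ℤ} (h : Lg52Sh L u u' δ₁ δ₂) : Lg52Sh L u' u (-δ₁) (-δ₂) := by
  obtain ⟨⟨q, hq⟩, h2⟩ := h
  exact ⟨⟨-q, by rw [hq]; ring⟩, by rw [h2]; ring⟩

theorem lg52_box_num {L H : ℕ} {k r w a b : ℤ} (hB : Rse182Box L H k r w a b) :
    1 ≤ r ∧ 10 ≤ L ∧ 0 ≤ k ∧ k + r - 1 < H ∧ w + 3 ≤ a ∧ b + 3 < w + L := by
  obtain ⟨eL, eH, ek, er, ea, eb, h1, h2, h3, h4, h5, h6, h7⟩ := hB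
  have hr : 1 ≤ r := by omega
  refine ⟨hr, ?_, ?_, ?_, h4, h5⟩
  · have : (10 : ℤ) ≤ L := by omega
    exact_mod_cast this
  · omega
  · omega

theorem lg52_P_cell {L H : ℕ} (eL : L % 2 = 0) {v : ℤ × ℤ} (h1 : 0 ≤ v.1 ∧ v.1 < ((L / 2 : ℕ) : ℤ)) (h2 : 0 ≤ (rtd111P v).2) (h3 : (rtd111P v).2 < H) :
    rtd111P v ∈ sdCells L 0 H := by
  unfold sdCells
  simp only [Finset.mem_product, Finset.mem_Ico]
  refine ⟨?_, h2, h3⟩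
  show 0 ≤ 2 * v.1 ∧ 2 * v.1 < L
  omega

theorem lg52_F_cell {L H : ℕ} (eL : L % 2 = 0) {f : ℤ × ℤ} (h1 : 0 ≤ f.1 ∧ f.1 < ((L / 2 : ℕ) : ℤ)) (h2 : 0 ≤ (rtd111F f).2) (h3 : (rtd111F f).2 < H) :
    rtd111F f ∈ sdCells L 0 H := by
  unfold sdCells
  simp only [Finset.mem_product, Finset.mem_Ico]
  refine ⟨?_, h2, h3⟩
  show 0 ≤ 2 * f.1 + 1 ∧ 2 * f.1 + 1 < L
  omega

/-- a cell of the box which carries `v` is at `ℓ¹` distance at most one from the refined point of `v`, in the lifted coordinates -/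
theorem lg52_car {t : ℝ} {L H : ℕ} {k r w a b : ℤ} (hB : Rse182Box L H k r w a b) {y : TV} {v : ℤ × ℤ}
    (hy : y ∈ rse182O (rse182Cyl t L H) (lcyG L H w k (k + r - 1)) a b) (h : Rse182Car (rse182Y L H) y v) :
    (0 ≤ v.1 ∧ v.1 < ((L / 2 : ℕ) : ℤ)) ∧
      ((lcyX L w (rtd111P v) - lcyX L w y) + ((rtd111P v).2 - y.2) ≤ 1 ∧ (lcyX L w y - lcyX L w (rtd111P v)) + (y.2 - (rtd111P v).2) ≤ 1 ∧
        (lcyX L w (rtd111P v) - lcyX L w y) - ((rtd111P v).2 - y.2) ≤ 1 ∧ (lcyX L w y - lcyX L w (rtd111P v)) - (y.2 - (rtd111P v).2) ≤ 1) := by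
  obtain ⟨hr, hL, hk, hd, hwa, hbw⟩ := lg52_box_num hB
  have eL := hB.eL
  obtain ⟨hc, q1, q2, q3, q4⟩ := lg52_mem_O.1 hy
  rcases h with rfl | ⟨e, he, rfl, hend⟩
  · obtain ⟨c1, c2, -, -⟩ := lcy_mem_cells hc
    have c1' : 0 ≤ 2 * v.1 := c1
    have c2' : 2 * v.1 < L := c2
    exact ⟨by omega, by omega, by omega, by omega, by omega⟩
  · obtain ⟨δ₁, δ₂, hsh, b1, b2, b3, b4⟩ := lg52_end eL hend
    have hX := lg52_X_sh (w := w) hsh (by omega) (by omega)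
    have h2 := hsh.2
    have p1 := lg52_X_par eL w (rtd111E e)
    have p2 := lg52_X_par eL w (rtd111P v)
    have p3 := lg52_E_par e
    have p4 : (rtd111P v).1 = 2 * v.1 := rfl
    have p5 : (rtd111P v).2 = 2 * v.2 := rfl
    exact ⟨lg52_end_range (by omega) he hend, by omega, by omega, by omega, by omega⟩

/-- **field `inV` of `Rse182Geo` on the mixed cylinder** -/
theorem lg52_inV (t : ℝ) {L H : ℕ} {k r w a b : ℤ} (hB : Rse182Box L H k r w a b) :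
    ∀ x ∈ rse182O (rse182Cyl t L H) (lcyG L H w k (k + r - 1)) a b, ∀ y ∈ rse182O (rse182Cyl t L H) (lcyG L H w k (k + r - 1)) a b, ∀ v,
      Rse182Car (rse182Y L H) x v → Rse182Car (rse182Y L H) y v →
      Rse182LinkV (lcyG L H w k (k + r - 1)) (rse182O (rse182Cyl t L H) (lcyG L H w k (k + r - 1)) a b) x y v := by
  intro x hx y hy v cx cy
  obtain ⟨hr, hL, hk, hd, hwa, hbw⟩ := lg52_box_num hB
  obtain ⟨hv, dx⟩ := lg52_car hB hx cx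
  obtain ⟨-, dy⟩ := lg52_car hB hy cy
  obtain ⟨hxc, bx⟩ := lg52_mem_O.1 hx
  obtain ⟨hyc, by'⟩ := lg52_mem_O.1 hy
  rcases lg52_core_in a b k (k + r - 1) _ _ _ _ _ _ bx by' dx dy with ⟨e1, e2⟩ | h | ⟨hvB, h1, h2⟩
  · exact Or.inl (lg52_eq_of_lift hxc hyc e1 e2)
  · exact Or.inr (Or.inl (lg52_adj h))
  · refine Or.inr (Or.inr ⟨rtd111P v, lg52_mem_O.2 ⟨lg52_P_cell hB.eL hv (by omega) (by omega), hvB⟩, lg52_adj h1, Or.inr rfl,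
      Or.inr (lg52_adj h2)⟩)

/-- **field `outV` of `Rse182Geo` on the mixed cylinder** -/
theorem lg52_outV (t : ℝ) {L H : ℕ} {k r w a b : ℤ} (hB : Rse182Box L H k r w a b) :
    ∀ e ∈ rse182Out (rse182Y L H) (rse182Cyl t L H) (lcyG L H w k (k + r - 1)) a b,
      ∀ m ∈ rse182Ed (rse182Y L H) (rse182O (rse182Cyl t L H) (lcyG L H w k (k + r - 1)) a b), Rse182Touch (rse182Y L H) e m →
      ∀ v, Rse182End (rse182Y L H) e v → ∀ y ∈ rse182O (rse182Cyl t L H) (lcyG L H w k (k + r - 1)) a b, Rse182Car (rse182Y L H) y v →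
      Rse182LinkV (lcyG L H w k (k + r - 1)) (rse182O (rse182Cyl t L H) (lcyG L H w k (k + r - 1)) a b) (rtd111E m) y v := by
  intro e he m hm ⟨f, fe, fm⟩ v hev y hy cy
  obtain ⟨hr, hL, hk, hd, hwa, hbw⟩ := lg52_box_num hB
  have eL := hB.eL
  obtain ⟨heE, heO⟩ := rse182_mem_Out.1 he
  obtain ⟨hmE, hmO⟩ := rse182_mem_Ed.1 hm
  obtain ⟨hmc, bm⟩ := lg52_mem_O.1 hmO
  obtain ⟨hyc, by'⟩ := lg52_mem_O.1 hy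
  obtain ⟨hv, dy⟩ := lg52_car hB hy cy
  obtain ⟨α₁, α₂, sα, α1, α2, α3, α4⟩ := lg52_fac eL fm
  obtain ⟨β₁, β₂, sβ, β1, β2, β3, β4⟩ := lg52_fac eL fe
  obtain ⟨γ₁, γ₂, sγ, γ1, γ2, γ3, γ4⟩ := lg52_end eL hev
  have Xf := lg52_X_sh (w := w) sα (by omega) (by omega)
  have Xe := lg52_X_sh (w := w) (lg52_sh_symm sβ) (by omega) (by omega)
  have Xv := lg52_X_sh (w := w) sγ (by omega) (by omega)
  have Yf := sα.2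
  have Ye := sβ.2
  have Yv := sγ.2
  have hw : ¬ (a ≤ lcyX L w (rtd111E e) ∧ lcyX L w (rtd111E e) ≤ b ∧ k ≤ (rtd111E e).2 ∧ (rtd111E e).2 ≤ k + r - 1) :=
    fun h => heO (lg52_mem_O.2 ⟨lg52_E_cell eL hB.eH heE, h⟩)
  have pf1 := lg52_X_par eL w (rtd111F f)
  have pf2 : (rtd111F f).1 = 2 * f.1 + 1 := rfl
  have pf3 : (rtd111F f).2 = 2 * f.2 + 1 := rfl
  have pv1 := lg52_X_par eL w (rtd111P v)
  have pv2 : (rtd111P v).1 = 2 * v.1 := rfl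
  have pv3 : (rtd111P v).2 = 2 * v.2 := rfl
  have pm1 := lg52_X_par eL w (rtd111E m)
  have pm2 := lg52_E_par m
  have pe1 := lg52_X_par eL w (rtd111E e)
  have pe2 := lg52_E_par e
  rcases lg52_core_out a b k (k + r - 1) (lcyX L w (rtd111E m)) (rtd111E m).2 (lcyX L w (rtd111F f)) (rtd111F f).2
      (lcyX L w (rtd111E e)) (rtd111E e).2 (lcyX L w (rtd111P v)) (rtd111P v).2 (lcyX L w y) y.2 bm by' hw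
      ⟨by omega, by omega⟩ ⟨by omega, by omega⟩ (by omega) (by omega) ⟨by omega, by omega, by omega, by omega⟩
      ⟨by omega, by omega, by omega, by omega⟩ ⟨by omega, by omega, by omega, by omega⟩ dy with
    ⟨e1, e2⟩ | ⟨hvB, h1, h2⟩ | ⟨hfB, h1, h2⟩
  · exact Or.inl (lg52_eq_of_lift hmc hyc e1 e2)
  · have hPc : rtd111P v ∈ sdCells L 0 H := lg52_P_cell eL hv (by omega) (by omega)
    refine Or.inr (Or.inr ⟨rtd111P v, lg52_mem_O.2 ⟨hPc, hvB⟩, lg52_adj h1, Or.inr rfl, ?_⟩)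
    rcases h2 with ⟨e1, e2⟩ | h2
    · exact Or.inl (lg52_eq_of_lift hPc hyc e1 e2)
    · exact Or.inr (lg52_adj h2)
  · exact Or.inr (Or.inr ⟨rtd111F f, lg52_mem_O.2 ⟨lg52_F_cell eL (lg52_fac_range (by omega) hmE fm) (by omega) (by omega), hfB⟩,
      lg52_adj h1, Or.inl ⟨f, rfl⟩, Or.inr (lg52_adj h2)⟩)

/-- the equation lemma of the definition of this file is generated HERE (RULES.md, rule 6) -/
theorem lg52_defs_eqns_cite : True := by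
  have := @Lg52Sh.eq_1
  trivial

end Claimed.Agent.R292
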