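import Claimed.Agent.R292.Rsw.GlueDefs200

/-!
# Row 292 (S0540), Rsw/MidS290 : RSW CORE A3 PART II (TUBE), LEMMA B, STEP 2, THE SIDE OF THE STRIP on the edge-pair systems `Rcy162Sys`      (owner helper290; prefix `mds290` / `Mds290`)      0 sorry

Port of R291 `Glue/MidS` (c1_post row 6, chief 100).   Vocabulary: `Rsw/Enter210` (210), `Rsw/GlueDefs200` v1 (200), ports by classes `rpo102_two2_k` (102).   Histories = `Rpo102Con`, sums = `S.sum t (K.Holds S) F`.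

`C` = the nearest-neighbour MINUS cluster of the two ends of the strip (a set of SITES), `D0 = mds290D S C k` = the component of `S.V \ C` which contains the place `K ∋ k`, `Po = mds290Po S C k` = the sites of `D0` next to `C`
(plus pins of `mds290HC`), `Y0 = mds290Y` = the edges inside `D0`, `Q0 = mds290Q` = their FACES, `P0 = mds290P` = the faces of `Q0` which are also faces of an edge that is not inside `D0` (THE PORTS ARE FACES).

WHAT CHANGES ON `Z^2` (N5 of CORE_DICT):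
 (i)  R291: ties along `Po` LOWER the law (`am_order_eq`).   HERE the ties COST NOTHING: an edge with exactly one endpoint in `C` has its two spins pinned to different values under `mds290HC`, so its weight vanishes unless the face
      spin `d` agrees across it (`mds290_link_d`); two faces joined by a chain of such edges (`Mds290Link`: the Peierls interface of `C`) carry the same `d`.   Hence the sums under `mds290HC` with and without the ties are EQUAL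
      (`mds290_ties`): no order, no monotonicity of `F` is needed.
 (ii) the exterior of `D0` is FREED by `rpo102_two2_k`; the ties `mds290Tie S C k` = ALL pairs of ports joined by a chain of the interface; `n` classes of ports for each of the two histories, price `2 ^ ((n-1) + (n-1))`      (`mds290_ports`).
 THE ONLY PLANAR INPUT is the closed contract **`Mds290Cls S C k n`** : the ports fall into at most `n` classes, two ports of one class are joined by a chain of faces across edges with exactly one endpoint in `C`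
      (R291: `n = 2` by `tsc_timar_in` + `dconn` + `bconn`; on `Z^2`: ONE interface per exterior component of `D0`, one exterior component per end; `n` is left free for ports on the rim of the strip).
EXITS **`mds290_side_C`**, **`mds290_side`** : `N(H⁺; F) Z(H_C) ≤ 2 ^ ((n-1)+(n-1)) Z(H⁺) N(H_C; F)` (`= 4` for `n = 2`: `mds290_side_two`), `H⁺ = mds290Hp La Lc Po ER` = (plus on `La ∪ Lc ∪ Po`, ties `ER` between ports, NOTHING else), `F ≥ 0` local to `(D0, Y0)`;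
`mds290_Hp_feas`, `mds290_loc_join`, **`mds290_mid`** : the estimate `1/16` under the history of the cluster from the estimate `1/4 Z(H⁺) ≤ N(H⁺; E)`, `mds290_mid_clu` (the same at the minus cluster of a configuration).
-/

set_option autoImplicit false
set_option linter.unusedSectionVars false
set_option linter.unusedVariables false
set_option linter.unusedSimpArgs false

namespace Claimed.Agent.R292

open Claims Claims.C0468 Finset Relation Claimed.Agent.R291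

/-! ## 1. The component of the place, its edges, its faces, its ports -/

open Classical in
/-- the component of `k` off `C` (sites) -/
noncomputable def mds290D (S : Rcy162Sys) (C : Finset (ℤ × ℤ)) (k : ℤ × ℤ) : Finset (ℤ × ℤ) :=
  S.V.filter fun v => v ∈ tscComp (gd200Gr S) (↑S.V \ ↑C : Set (ℤ × ℤ)) k

open Classical in
/-- the sites of the component next to `C` -/
noncomputable def mds290Po (S : Rcy162Sys) (C : Finset (ℤ × ℤ)) (k : ℤ × ℤ) : Finset (ℤ × ℤ) :=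
  (mds290D S C k).filter fun v => ∃ c ∈ C, (gd200Gr S).Adj c v

open Classical in
/-- the edges inside the component -/
noncomputable def mds290Y (S : Rcy162Sys) (C : Finset (ℤ × ℤ)) (k : ℤ × ℤ) : Finset ((ℤ × ℤ) × Bool) :=
  S.E.filter fun y => rpo102Sv S y ⊆ mds290D S C k

/-- the faces of the edges inside the component -/
noncomputable def mds290Q (S : Rcy162Sys) (C : Finset (ℤ × ℤ)) (k : ℤ × ℤ) : Finset (ℤ × ℤ) := (mds290Y S C k).biUnion (rpo102Sd S)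

open Classical in
/-- THE PORTS: the retained faces which are also faces of an edge that is not retained -/
noncomputable def mds290P (S : Rcy162Sys) (C : Finset (ℤ × ℤ)) (k : ℤ × ℤ) : Finset (ℤ × ℤ) :=
  (mds290Q S C k).filter fun f => ∃ y ∈ S.E, y ∉ mds290Y S C k ∧ f ∈ rpo102Sd S y

open Classical in
/-- `glBdy`: the outer boundary of `C` -/
noncomputable def mds290Bdy (S : Rcy162Sys) (C : Finset (ℤ × ℤ)) : Finset (ℤ × ℤ) :=
  S.V.filter fun v => v ∉ C ∧ ∃ c ∈ C, (gd200Gr S).Adj c v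

open Classical in
/-- `glClu`: the minus cluster of `E` -/
noncomputable def mds290Clu (S : Rcy162Sys) (E : Finset (ℤ × ℤ)) (ω : RswCfg) : Finset (ℤ × ℤ) :=
  S.V.filter fun v => ∃ u ∈ E, TscR (gd200Gr S) (↑S.V \ ↑ω.S : Set (ℤ × ℤ)) u v

/-- `glHC`: the history "the minus cluster of the two ends is `C`", with the ties `ER` of the face spin (`ER = ∅`: the history itself) -/
noncomputable def mds290HC (S : Rcy162Sys) (La Lc C : Finset (ℤ × ℤ)) (ER : Finset ((ℤ × ℤ) × (ℤ × ℤ))) : Rpo102Con :=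
  ⟨La ∪ Lc ∪ mds290Bdy S C, C, ER, ∅, ∅, ∅⟩

/-- `gmsHp`: the history `H⁺` of the strip: plus on the two sides and on the sites `Po`, the face spin tied along `ER`, NOTHING else -/
def mds290Hp (La Lc Po : Finset (ℤ × ℤ)) (ER : Finset ((ℤ × ℤ) × (ℤ × ℤ))) : Rpo102Con := ⟨La ∪ Lc ∪ Po, ∅, ER, ∅, ∅, ∅⟩

/-- one step of the Peierls interface of `C`: the two faces of an edge with exactly one endpoint in `C` -/
def Mds290Link (S : Rcy162Sys) (C : Finset (ℤ × ℤ)) (f g : ℤ × ℤ) : Prop :=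
  ∃ e ∈ S.E, ((f = S.f0 e ∧ g = S.f1 e) ∨ (g = S.f0 e ∧ f = S.f1 e)) ∧ ((S.p0 e ∈ C ∧ S.p1 e ∉ C) ∨ (S.p1 e ∈ C ∧ S.p0 e ∉ C))

open Classical in
/-- the ties: two ports on one interface of `C` -/
noncomputable def mds290Tie (S : Rcy162Sys) (C : Finset (ℤ × ℤ)) (k : ℤ × ℤ) : Finset ((ℤ × ℤ) × (ℤ × ℤ)) :=
  (mds290P S C k ×ˢ mds290P S C k).filter fun p => ReflTransGen (Mds290Link S C) p.1 p.2

/-- **THE PLANAR CONTRACT**: at most `n` classes of ports; two ports of one class lie on one interface of `C` -/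
def Mds290Cls (S : Rcy162Sys) (C : Finset (ℤ × ℤ)) (k : ℤ × ℤ) (n : ℕ) : Prop :=
  ∃ κ : ℤ × ℤ → Fin n, ∀ u ∈ mds290P S C k, ∀ v ∈ mds290P S C k, κ u = κ v → ReflTransGen (Mds290Link S C) u v

theorem mds290_defs_eqns_cite : True := by
  have := @mds290D.eq_1
  have := @mds290Po.eq_1
  have := @mds290Y.eq_1
  have := @mds290Q.eq_1
  have := @mds290P.eq_1
  have := @mds290Tie.eq_1
  have := @mds290Bdy.eq_1
  have := @mds290Clu.eq_1
  have := @mds290HC.eq_1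
  have := @mds290Hp.eq_1
  have := @Mds290Link.eq_1
  have := @Mds290Cls.eq_1
  trivial

variable {S : Rcy162Sys} {t : ℝ} {La Lc Ld Lb C K : Finset (ℤ × ℤ)} {k : ℤ × ℤ}

theorem mds290_mem_D {v : ℤ × ℤ} : v ∈ mds290D S C k ↔ v ∈ tscComp (gd200Gr S) (↑S.V \ ↑C : Set (ℤ × ℤ)) k := by
  classical
  unfold mds290D
  rw [mem_filter]
  exact ⟨fun h => h.2, fun h => ⟨mem_coe.1 h.1.1, h⟩⟩

theorem mds290_D_sub : mds290D S C k ⊆ S.V := by
  classical
  exact filter_subset _ _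

theorem mds290_D_notC {v : ℤ × ℤ} (h : v ∈ mds290D S C k) : v ∉ C := fun hc => (mds290_mem_D.1 h).1.2 (mem_coe.2 hc)

theorem mds290_D_adj {u v : ℤ × ℤ} (hv : v ∈ mds290D S C k) (hu : u ∈ S.V) (huC : u ∉ C) (h : (gd200Gr S).Adj v u) : u ∈ mds290D S C k :=
  mds290_mem_D.2 (tsc_comp_adj (mds290_mem_D.1 hv) ⟨mem_coe.2 hu, fun h' => huC (mem_coe.1 h')⟩ h)

theorem mds290_mem_Po {v : ℤ × ℤ} : v ∈ mds290Po S C k ↔ v ∈ mds290D S C k ∧ ∃ c ∈ C, (gd200Gr S).Adj c v := by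
  classical
  unfold mds290Po
  exact mem_filter

theorem mds290_Po_sub : mds290Po S C k ⊆ mds290D S C k := fun _ h => (mds290_mem_Po.1 h).1

theorem mds290_mem_Y {y : (ℤ × ℤ) × Bool} : y ∈ mds290Y S C k ↔ y ∈ S.E ∧ rpo102Sv S y ⊆ mds290D S C k := by
  classical
  unfold mds290Y
  exact mem_filter

theorem mds290_mem_Q {f : ℤ × ℤ} : f ∈ mds290Q S C k ↔ ∃ y ∈ mds290Y S C k, f ∈ rpo102Sd S y := by
  unfold mds290Q
  exact mem_biUnion

theorem mds290_mem_P {f : ℤ × ℤ} : f ∈ mds290P S C k ↔ f ∈ mds290Q S C k ∧ ∃ y ∈ S.E, y ∉ mds290Y S C k ∧ f ∈ rpo102Sd S y := by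
  classical
  unfold mds290P
  exact mem_filter

theorem mds290_P_sub : mds290P S C k ⊆ mds290Q S C k := fun _ h => (mds290_mem_P.1 h).1

theorem mds290_mem_tie {p : (ℤ × ℤ) × (ℤ × ℤ)} : p ∈ mds290Tie S C k ↔
    (p.1 ∈ mds290P S C k ∧ p.2 ∈ mds290P S C k) ∧ ReflTransGen (Mds290Link S C) p.1 p.2 := by
  classical
  unfold mds290Tie
  rw [mem_filter, mem_product]

theorem mds290_mem_bdy {v : ℤ × ℤ} : v ∈ mds290Bdy S C ↔ v ∈ S.V ∧ v ∉ C ∧ ∃ c ∈ C, (gd200Gr S).Adj c v := by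
  classical
  unfold mds290Bdy
  exact mem_filter

theorem mds290_mem_clu (S : Rcy162Sys) (E : Finset (ℤ × ℤ)) (ω : RswCfg) (v : ℤ × ℤ) :
    v ∈ mds290Clu S E ω ↔ v ∈ S.V ∧ ∃ u ∈ E, TscR (gd200Gr S) (↑S.V \ ↑ω.S : Set (ℤ × ℤ)) u v := by
  classical
  unfold mds290Clu
  exact mem_filter

theorem mds290_Sv_sub (hw : S.WF) {y : (ℤ × ℤ) × Bool} (hy : y ∈ S.E) : rpo102Sv S y ⊆ S.V := by
  intro v hv
  unfold rpo102Sv at hv
  rcases mem_insert.1 hv with h | h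
  · exact h ▸ hw.p0 y hy
  · exact (mem_singleton.1 h) ▸ hw.p1 y hy

theorem mds290_Sd_sub (hw : S.WF) {y : (ℤ × ℤ) × Bool} (hy : y ∈ S.E) : rpo102Sd S y ⊆ S.Fc := by
  intro v hv
  unfold rpo102Sd at hv
  rcases mem_insert.1 hv with h | h
  · exact h ▸ hw.f0 y hy
  · exact (mem_singleton.1 h) ▸ hw.f1 y hy

theorem mds290_Q_sub (hw : S.WF) : mds290Q S C k ⊆ S.Fc := by
  intro f hf
  obtain ⟨y, hy, hfy⟩ := mds290_mem_Q.1 hf
  exact mds290_Sd_sub hw (mds290_mem_Y.1 hy).1 hfy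

theorem mds290_K_sub (hK : TscConn (gd200Gr S) (↑K : Set (ℤ × ℤ))) (kK : k ∈ K) (kA : K ⊆ S.V) (hKC : ∀ z ∈ K, z ∉ C) : K ⊆ mds290D S C k := by
  intro v hv
  have hsub : (↑K : Set (ℤ × ℤ)) ⊆ ↑S.V \ ↑C := fun z hz => ⟨mem_coe.2 (kA (mem_coe.1 hz)), fun h => hKC z (mem_coe.1 hz) (mem_coe.1 h)⟩
  exact mds290_mem_D.2 ⟨hsub (mem_coe.2 hv), tsc_R_mono hsub (hK k (mem_coe.2 kK) v (mem_coe.2 hv))⟩

/-- a neighbour of the component which is not in the component lies in `C` -/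
theorem mds290_nbr {u v : ℤ × ℤ} (hv : v ∈ mds290D S C k) (hu : u ∈ S.V) (huD : u ∉ mds290D S C k) (h : (gd200Gr S).Adj v u) : u ∈ C := by
  by_contra huC
  exact huD (mds290_D_adj hv hu huC h)

/-- an exterior edge meets the component in the sites `Po` -/
theorem mds290_edge_port (hw : S.WF) {y : (ℤ × ℤ) × Bool} (hy : y ∈ S.E) (hyD : y ∉ mds290Y S C k) :
    rpo102Sv S y ∩ mds290D S C k ⊆ mds290Po S C k := by
  intro v hv
  obtain ⟨h1, h2⟩ := mem_inter.1 hv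
  have hns : ¬ rpo102Sv S y ⊆ mds290D S C k := fun h => hyD (mds290_mem_Y.2 ⟨hy, h⟩)
  obtain ⟨u, hu, huD⟩ := not_subset.1 hns
  have hne : v ≠ u := fun h => huD (h ▸ h2)
  have hadj : (gd200Gr S).Adj v u := ⟨hne, y, hy, h1, hu⟩
  exact mds290_mem_Po.2 ⟨h2, u, mds290_nbr h2 (mds290_Sv_sub hw hy hu) huD hadj, hadj.symm⟩

theorem mds290_Po_bdy : mds290Po S C k ⊆ mds290Bdy S C := fun v hv =>
  mds290_mem_bdy.2 ⟨mds290_D_sub (mds290_Po_sub hv), mds290_D_notC (mds290_Po_sub hv), (mds290_mem_Po.1 hv).2⟩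

/-- the retained part with ports -/
theorem mds290_split (hw : S.WF) (h0 : 0 ≤ t) (h1 : t ≤ 1) (H : Rpo102Con) (hEq : H.Eq = mds290Tie S C k) (hSp : mds290Po S C k ⊆ H.Sp) :
    Rpo102Split S t H (mds290D S C k) (mds290Q S C k) (mds290Y S C k) (mds290Tie S C k) (mds290P S C k) where
  RA := mds290_D_sub
  QA := mds290_Q_sub hw
  YC := fun y hy => (mds290_mem_Y.1 hy).1
  sub := fun y hy => mds290_Sd_sub hw hy
  q0 := h0
  q1 := h1
  cellR := fun y hy => (mds290_mem_Y.1 hy).2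
  cellQ := fun y hy f hf => mds290_mem_Q.2 ⟨y, hy, hf⟩
  pinX := fun y hy hyR => (mds290_edge_port hw hy hyR).trans (hSp.trans subset_union_left)
  portC := fun y hy hyR => Or.inr fun f hf => mds290_mem_P.2 ⟨(mem_inter.1 hf).2, y, hy, hyR, (mem_inter.1 hf).1⟩
  eqR := by rw [hEq]
  eqR_in := fun e he => ⟨mds290_P_sub (mds290_mem_tie.1 he).1.1, mds290_P_sub (mds290_mem_tie.1 he).1.2⟩
  portE := fun e he hne => absurd (hEq ▸ he) hne
  eqA := fun e he => by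
    rw [hEq] at he
    exact ⟨mds290_Q_sub hw (mds290_P_sub (mds290_mem_tie.1 he).1.1), mds290_Q_sub hw (mds290_P_sub (mds290_mem_tie.1 he).1.2)⟩

/-- **the classes**: by the very definition of the ties -/
theorem mds290_classes {n : ℕ} {κ : ℤ × ℤ → Fin n}
    (hκ : ∀ u ∈ mds290P S C k, ∀ v ∈ mds290P S C k, κ u = κ v → ReflTransGen (Mds290Link S C) u v) :
    ∀ u ∈ mds290P S C k, ∀ v ∈ mds290P S C k, κ u = κ v → ReflTransGen (Prc2Step (mds290Tie S C k)) u v :=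
  fun u hu v hv h => ReflTransGen.single (Or.inl (mds290_mem_tie.2 ⟨⟨hu, hv⟩, hκ u hu v hv h⟩))

/-! ## 2. The ties cost nothing -/

/-- across an edge with exactly one endpoint in `C` the face spin agrees -/
theorem mds290_link_d (hw : S.WF) {ω : RswCfg} (hH : (mds290HC S La Lc C ∅).Holds S ω) (hne : ∏ e ∈ S.E, S.fac t ω e ≠ 0) {f g : ℤ × ℤ}
    (h : Mds290Link S C f g) : f ∈ ω.D ↔ g ∈ ω.D := by
  classical
  obtain ⟨e, he, hfg, hpc⟩ := h
  have hfac : S.fac t ω e ≠ 0 := Finset.prod_ne_zero_iff.1 hne e he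
  have hp : ∀ v ∈ mds290Bdy S C, v ∈ ω.S := fun v hv => hH.1 (mem_union_right _ hv)
  have hm : ∀ v ∈ C, v ∉ ω.S := hH.2.1
  have m0 : S.p0 e ∈ rpo102Sv S e := by simp [rpo102Sv]
  have m1 : S.p1 e ∈ rpo102Sv S e := by simp [rpo102Sv]
  have hs : ¬ (S.p0 e ∈ ω.S ↔ S.p1 e ∈ ω.S) := by
    rcases hpc with ⟨a, b⟩ | ⟨a, b⟩
    · have h1 : S.p1 e ∈ ω.S := hp _ (mds290_mem_bdy.2 ⟨hw.p1 e he, b, S.p0 e, a, fun h => b (h ▸ a), e, he, m0, m1⟩)
      exact fun h => hm _ a (h.2 h1)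
    · have h1 : S.p0 e ∈ ω.S := hp _ (mds290_mem_bdy.2 ⟨hw.p0 e he, b, S.p1 e, a, fun h => b (h ▸ a), e, he, m1, m0⟩)
      exact fun h => hm _ a (h.1 h1)
  have hd : S.f0 e ∈ ω.D ↔ S.f1 e ∈ ω.D := by
    by_contra hd
    apply hfac
    unfold Rcy162Sys.fac
    by_cases ho : e ∈ ω.O
    · rw [if_pos ho, if_neg hs]
    · rw [if_neg ho, if_neg hd]
  rcases hfg with ⟨rfl, rfl⟩ | ⟨rfl, rfl⟩
  · exact hd
  · exact hd.symm

theorem mds290_chain_d (hw : S.WF) {ω : RswCfg} (hH : (mds290HC S La Lc C ∅).Holds S ω) (hne : ∏ e ∈ S.E, S.fac t ω e ≠ 0) {f g : ℤ × ℤ}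
    (h : ReflTransGen (Mds290Link S C) f g) : f ∈ ω.D ↔ g ∈ ω.D := by
  induction h with
  | refl => exact Iff.rfl
  | tail _ hbc ih => exact ih.trans (mds290_link_d hw hH hne hbc)

theorem mds290_wt_eq (hw : S.WF) {ER : Finset ((ℤ × ℤ) × (ℤ × ℤ))} (hch : ∀ p ∈ ER, ReflTransGen (Mds290Link S C) p.1 p.2) (ω : RswCfg) :
    S.wt t ((mds290HC S La Lc C ER).Holds S) ω = S.wt t ((mds290HC S La Lc C ∅).Holds S) ω := by
  classical
  by_cases h : (mds290HC S La Lc C ∅).Holds S ω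
  · rw [rcy162_wt_of S h]
    by_cases hz : ∏ e ∈ S.E, S.fac t ω e = 0
    · rw [hz]
      unfold Rcy162Sys.wt
      split_ifs
      · exact hz
      · rfl
    · have h' : (mds290HC S La Lc C ER).Holds S ω :=
        ⟨h.1, h.2.1, fun p hp => mds290_chain_d hw h hz (hch p hp), h.2.2.2.1, h.2.2.2.2.1, h.2.2.2.2.2⟩
      rw [rcy162_wt_of S h']
  · rw [rcy162_wt_of_not S h, rcy162_wt_of_not S (fun h' => h ⟨h'.1, h'.2.1, fun e he => absurd he (notMem_empty _), h'.2.2.2.1, h'.2.2.2.2.1, h'.2.2.2.2.2⟩)]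

/-- **(i)** the ties along the interfaces of `C` do not change the sums -/
theorem mds290_ties (hw : S.WF) {ER : Finset ((ℤ × ℤ) × (ℤ × ℤ))} (hch : ∀ p ∈ ER, ReflTransGen (Mds290Link S C) p.1 p.2) (F : RswCfg → ℝ) :
    S.sum t ((mds290HC S La Lc C ER).Holds S) F = S.sum t ((mds290HC S La Lc C ∅).Holds S) F := by
  unfold Rcy162Sys.sum
  refine sum_congr rfl fun _ _ => sum_congr rfl fun _ _ => sum_congr rfl fun _ _ => ?_
  rw [mds290_wt_eq hw hch]

/-! ## 3. The exterior is freed -/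

/-- **(ii)** the exterior of the component is freed -/
theorem mds290_ports (hw : S.WF) (h0 : 0 ≤ t) (h1 : t ≤ 1) {n : ℕ} (hcl : Mds290Cls S C k n) {F : RswCfg → ℝ}
    (hF : Rpo102Loc (mds290D S C k) (mds290Y S C k) F) (hF0 : ∀ ω, 0 ≤ F ω) :
    S.sum t ((mds290Hp La Lc (mds290Po S C k) (mds290Tie S C k)).Holds S) F
        * S.sum t ((mds290HC S La Lc C (mds290Tie S C k)).Holds S) (fun _ => 1)
      ≤ 2 ^ ((n - 1) + (n - 1)) * (S.sum t ((mds290Hp La Lc (mds290Po S C k) (mds290Tie S C k)).Holds S) (fun _ => 1)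
        * S.sum t ((mds290HC S La Lc C (mds290Tie S C k)).Holds S) F) := by
  classical
  obtain ⟨κ, hκ⟩ := hcl
  have s1 : Rpo102Split S t (mds290Hp La Lc (mds290Po S C k) (mds290Tie S C k)) (mds290D S C k) (mds290Q S C k) (mds290Y S C k)
      (mds290Tie S C k) (mds290P S C k) := mds290_split hw h0 h1 _ rfl subset_union_right
  have s2 : Rpo102Split S t (mds290HC S La Lc C (mds290Tie S C k)) (mds290D S C k) (mds290Q S C k) (mds290Y S C k)
      (mds290Tie S C k) (mds290P S C k) := mds290_split hw h0 h1 _ rfl (mds290_Po_bdy.trans subset_union_right)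
  have hcard : ((mds290P S C k).image κ).card ≤ n := (card_le_univ _).trans (by simp)
  refine rpo102_two2_k s1 s2 mds290_P_sub mds290_P_sub κ κ (mds290_classes hκ) (mds290_classes hκ)
    n n hcard hcard ?_ ?_ rfl rfl rfl hF hF0
  · show (La ∪ Lc ∪ mds290Po S C k) ∩ mds290D S C k = (La ∪ Lc ∪ mds290Bdy S C) ∩ mds290D S C k
    ext v
    simp only [mem_inter, mem_union]
    constructor
    · rintro ⟨h | h, hD⟩
      · exact ⟨Or.inl h, hD⟩
      · exact ⟨Or.inr (mds290_Po_bdy h), hD⟩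
    · rintro ⟨h | h, hD⟩
      · exact ⟨Or.inl h, hD⟩
      · exact ⟨Or.inr (mds290_mem_Po.2 ⟨hD, (mds290_mem_bdy.1 h).2.2⟩), hD⟩
  · show ∅ ∩ mds290D S C k = C ∩ mds290D S C k
    rw [empty_inter]
    symm
    exact disjoint_iff_inter_eq_empty.1 (disjoint_right.2 fun v hv => mds290_D_notC hv)

/-- **(i) + (ii)** -/
theorem mds290_side_C (hw : S.WF) (h0 : 0 ≤ t) (h1 : t ≤ 1) {n : ℕ} (hcl : Mds290Cls S C k n) {F : RswCfg → ℝ}
    (hF : Rpo102Loc (mds290D S C k) (mds290Y S C k) F) (hF0 : ∀ ω, 0 ≤ F ω) :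
    S.sum t ((mds290Hp La Lc (mds290Po S C k) (mds290Tie S C k)).Holds S) F * S.sum t ((mds290HC S La Lc C ∅).Holds S) (fun _ => 1)
      ≤ 2 ^ ((n - 1) + (n - 1)) *
        (S.sum t ((mds290Hp La Lc (mds290Po S C k) (mds290Tie S C k)).Holds S) (fun _ => 1) * S.sum t ((mds290HC S La Lc C ∅).Holds S) F) := by
  have hc : ∀ p ∈ mds290Tie S C k, ReflTransGen (Mds290Link S C) p.1 p.2 := fun p hp => (mds290_mem_tie.1 hp).2
  have a := mds290_ports (La := La) (Lc := Lc) hw h0 h1 hcl hF hF0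
  rw [mds290_ties hw hc, mds290_ties hw hc] at a
  exact a

/-- the free history is feasible -/
theorem mds290_Hp_feas (hw : S.WF) (h0 : 0 ≤ t) (h1 : t < 1) (hla : La ⊆ S.V) (hlc : Lc ⊆ S.V) (Po : Finset (ℤ × ℤ)) (hPo : Po ⊆ S.V)
    (ER : Finset ((ℤ × ℤ) × (ℤ × ℤ))) : 0 < S.sum t ((mds290Hp La Lc Po ER).Holds S) (fun _ => 1) := by
  classical
  refine rcy162_Z_pos S _ h0 h1.le ⟨⟨S.V, ∅, ∅⟩, ⟨Subset.refl _, empty_subset _, empty_subset _⟩, ?_⟩
  have hH : (mds290Hp La Lc Po ER).Holds S ⟨S.V, ∅, ∅⟩ :=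
    ⟨union_subset (union_subset hla hlc) hPo, fun v hv => absurd hv (notMem_empty _), fun e _ => by simp,
      fun e he => absurd he (notMem_empty _), fun e he => absurd he (notMem_empty _), fun e he => absurd he (notMem_empty _)⟩
  rw [rcy162_wt_of S hH]
  refine Finset.prod_ne_zero_iff.2 fun e he => ?_
  have a0 := hw.p0 e he
  have a1 := hw.p1 e he
  unfold Rcy162Sys.fac
  simp only [notMem_empty, if_false, iff_self, if_true, a0, a1]
  exact sub_ne_zero.2 (ne_of_gt h1)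

/-! ## 4. The event of the glue machine; the exits -/

/-- the event of `gl_mid` is local -/
theorem mds290_loc_join {D : Finset (ℤ × ℤ)} {Y0 : Finset ((ℤ × ℤ) × Bool)} (hc : ∀ y ∈ Y0, rpo102Sv S y ⊆ D) (Kc : Finset ((ℤ × ℤ) × Bool))
    (hKc : Kc ⊆ Y0) (La Lc : Finset (ℤ × ℤ)) : Rpo102Loc D Y0 (ent210Ind fun ω => Ent210Join S (↑Kc ∩ ent210On S ω) La Lc) := by
  intro ω ω' h1 h2
  have e : (↑Kc ∩ ent210On S ω : Set ((ℤ × ℤ) × Bool)) = ↑Kc ∩ ent210On S ω' := by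
    ext y
    simp only [Set.mem_inter_iff, mem_coe]
    refine and_congr_right fun hy => ?_
    unfold ent210On
    simp only [Set.mem_ofPred_eq]
    rw [rpo102_good_loc hc h1 h2 (hKc hy) true]
  have e' : Ent210Join S (↑Kc ∩ ent210On S ω) La Lc ↔ Ent210Join S (↑Kc ∩ ent210On S ω') La Lc := by rw [e]
  by_cases h : Ent210Join S (↑Kc ∩ ent210On S ω) La Lc
  · rw [ent210_ind_pos (L := fun ω => Ent210Join S (↑Kc ∩ ent210On S ω) La Lc) h,
      ent210_ind_pos (L := fun ω => Ent210Join S (↑Kc ∩ ent210On S ω) La Lc) (e'.1 h)]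
  · rw [ent210_ind_neg (L := fun ω => Ent210Join S (↑Kc ∩ ent210On S ω) La Lc) h,
      ent210_ind_neg (L := fun ω => Ent210Join S (↑Kc ∩ ent210On S ω) La Lc) fun h' => h (e'.2 h')]

/-- **EXIT: the side of the strip**, for a set `C` of sites far from the place -/
theorem mds290_side (hw : S.WF) (h0 : 0 ≤ t) (h1 : t ≤ 1) (kA : K ⊆ S.V) (hK : TscConn (gd200Gr S) (↑K : Set (ℤ × ℤ))) (hKn : K.Nonempty)
    (hgood : ∀ z ∈ C, z ∉ K ∧ ∀ k ∈ K, ¬ (gd200Gr S).Adj z k) {n : ℕ} (hcl : ∀ k ∈ K, Mds290Cls S C k n) :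
    ∃ (D0 Po : Finset (ℤ × ℤ)) (Y0 : Finset ((ℤ × ℤ) × Bool)) (ER : Finset ((ℤ × ℤ) × (ℤ × ℤ))),
      K ⊆ D0 ∧ D0 ⊆ S.V ∧ Po ⊆ D0 ∧ Disjoint Po K ∧ Po ⊆ mds290Bdy S C ∧ (∀ y, y ∈ Y0 ↔ y ∈ S.E ∧ rpo102Sv S y ⊆ D0) ∧
      (∀ p ∈ ER, p.1 ∈ S.Fc ∧ p.2 ∈ S.Fc) ∧
      ∀ F : RswCfg → ℝ, Rpo102Loc D0 Y0 F → (∀ ω, 0 ≤ F ω) →
        S.sum t ((mds290Hp La Lc Po ER).Holds S) F * S.sum t ((mds290HC S La Lc C ∅).Holds S) (fun _ => 1)
          ≤ 2 ^ ((n - 1) + (n - 1)) * (S.sum t ((mds290Hp La Lc Po ER).Holds S) (fun _ => 1) * S.sum t ((mds290HC S La Lc C ∅).Holds S) F) := by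
  obtain ⟨k, kK⟩ := hKn
  refine ⟨mds290D S C k, mds290Po S C k, mds290Y S C k, mds290Tie S C k, mds290_K_sub hK kK kA fun z hz hc => (hgood z hc).1 hz, mds290_D_sub,
    mds290_Po_sub, ?_, mds290_Po_bdy, fun y => mds290_mem_Y,
    fun p hp => ⟨mds290_Q_sub hw (mds290_P_sub (mds290_mem_tie.1 hp).1.1), mds290_Q_sub hw (mds290_P_sub (mds290_mem_tie.1 hp).1.2)⟩,
    fun F hF hF0 => mds290_side_C hw h0 h1 (hcl k kK) hF hF0⟩
  refine disjoint_left.2 fun v hv hvK => ?_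
  obtain ⟨_, c, hc, hcv⟩ := mds290_mem_Po.1 hv
  exact (hgood c hc).2 v hvK hcv

/-- **the estimate under the history of the cluster from the estimate under the free history of the strip**, `n` classes -/
theorem mds290_mid_n (hw : S.WF) (h0 : 0 ≤ t) (h1 : t < 1) (hla : La ⊆ S.V) (hlc : Lc ⊆ S.V) (kA : K ⊆ S.V)
    (hK : TscConn (gd200Gr S) (↑K : Set (ℤ × ℤ))) (hKn : K.Nonempty) (Kc : Finset ((ℤ × ℤ) × Bool)) (hKc : ∀ y ∈ Kc, y ∈ S.E ∧ rpo102Sv S y ⊆ K)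
    (hgood : ∀ z ∈ C, z ∉ K ∧ ∀ k ∈ K, ¬ (gd200Gr S).Adj z k) {n : ℕ} (hcl : ∀ k ∈ K, Mds290Cls S C k n) (c : ℝ)
    (hX : ∀ (Po : Finset (ℤ × ℤ)) (ER : Finset ((ℤ × ℤ) × (ℤ × ℤ))), Po ⊆ S.V → Disjoint Po K → (∀ p ∈ ER, p.1 ∈ S.Fc ∧ p.2 ∈ S.Fc) →
      c * S.sum t ((mds290Hp La Lc Po ER).Holds S) (fun _ => 1)
        ≤ S.sum t ((mds290Hp La Lc Po ER).Holds S) (ent210Ind fun ω => Ent210Join S (↑Kc ∩ ent210On S ω) La Lc)) :
    c * S.sum t ((mds290HC S La Lc C ∅).Holds S) (fun _ => 1) ≤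
      2 ^ ((n - 1) + (n - 1)) * S.sum t ((mds290HC S La Lc C ∅).Holds S) (ent210Ind fun ω => Ent210Join S (↑Kc ∩ ent210On S ω) La Lc) := by
  obtain ⟨D0, Po, Y0, ER, hKD, hDA, hPD, hPK, _, hY, hER, key⟩ := mds290_side (La := La) (Lc := Lc) hw h0 h1.le kA hK hKn hgood hcl
  have a1 := key _ (mds290_loc_join (fun y hy => ((hY y).1 hy).2) Kc (fun y hy => (hY y).2 ⟨(hKc y hy).1, (hKc y hy).2.trans hKD⟩) La Lc)
    (ent210_ind_nonneg _)
  have a2 := hX Po ER (hPD.trans hDA) hPK hER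
  have zp := mds290_Hp_feas hw h0 h1 hla hlc Po (hPD.trans hDA) ER
  have zC : 0 ≤ S.sum t ((mds290HC S La Lc C ∅).Holds S) (fun _ => 1) := rcy162_sum_nonneg S _ h0 h1.le fun _ => zero_le_one
  refine le_of_mul_le_mul_left ?_ zp
  calc S.sum t ((mds290Hp La Lc Po ER).Holds S) (fun _ => 1) * (c * S.sum t ((mds290HC S La Lc C ∅).Holds S) (fun _ => 1))
      = (c * S.sum t ((mds290Hp La Lc Po ER).Holds S) (fun _ => 1)) * S.sum t ((mds290HC S La Lc C ∅).Holds S) (fun _ => 1) := by ring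
    _ ≤ S.sum t ((mds290Hp La Lc Po ER).Holds S) (ent210Ind fun ω => Ent210Join S (↑Kc ∩ ent210On S ω) La Lc)
        * S.sum t ((mds290HC S La Lc C ∅).Holds S) (fun _ => 1) := mul_le_mul_of_nonneg_right a2 zC
    _ ≤ _ := a1
    _ = _ := by ring

/-- **`gl_mid` from the estimate under the free history of the strip** (two classes: the constants of R291) -/
theorem mds290_mid (hw : S.WF) (h0 : 0 ≤ t) (h1 : t < 1) (hla : La ⊆ S.V) (hlc : Lc ⊆ S.V) (kA : K ⊆ S.V)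
    (hK : TscConn (gd200Gr S) (↑K : Set (ℤ × ℤ))) (hKn : K.Nonempty) (Kc : Finset ((ℤ × ℤ) × Bool)) (hKc : ∀ y ∈ Kc, y ∈ S.E ∧ rpo102Sv S y ⊆ K)
    (hgood : ∀ z ∈ C, z ∉ K ∧ ∀ k ∈ K, ¬ (gd200Gr S).Adj z k) (hcl : ∀ k ∈ K, Mds290Cls S C k 2)
    (hX : ∀ (Po : Finset (ℤ × ℤ)) (ER : Finset ((ℤ × ℤ) × (ℤ × ℤ))), Po ⊆ S.V → Disjoint Po K → (∀ p ∈ ER, p.1 ∈ S.Fc ∧ p.2 ∈ S.Fc) →
      1 / 4 * S.sum t ((mds290Hp La Lc Po ER).Holds S) (fun _ => 1)
        ≤ S.sum t ((mds290Hp La Lc Po ER).Holds S) (ent210Ind fun ω => Ent210Join S (↑Kc ∩ ent210On S ω) La Lc)) :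
    1 / 16 * S.sum t ((mds290HC S La Lc C ∅).Holds S) (fun _ => 1) ≤
      S.sum t ((mds290HC S La Lc C ∅).Holds S) (ent210Ind fun ω => Ent210Join S (↑Kc ∩ ent210On S ω) La Lc) := by
  have := mds290_mid_n hw h0 h1 hla hlc kA hK hKn Kc hKc hgood hcl (1 / 4) hX
  norm_num at this
  linarith

/-- the same at the minus cluster of the two ends of a configuration (the words of R291 `gms_mid`) -/
theorem mds290_mid_clu (hS : Gd200Strip S t La Lc Ld Lb) (kA : K ⊆ S.V) (hK : TscConn (gd200Gr S) (↑K : Set (ℤ × ℤ))) (hKn : K.Nonempty)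
    (Kc : Finset ((ℤ × ℤ) × Bool)) (hKc : ∀ y ∈ Kc, y ∈ S.E ∧ rpo102Sv S y ⊆ K) (ω₀ : RswCfg)
    (hgood : ∀ z ∈ mds290Clu S (glEnd La Lc Ld Lb) ω₀, z ∉ K ∧ ∀ k ∈ K, ¬ (gd200Gr S).Adj z k)
    (hcl : ∀ k ∈ K, Mds290Cls S (mds290Clu S (glEnd La Lc Ld Lb) ω₀) k 2)
    (hX : ∀ (Po : Finset (ℤ × ℤ)) (ER : Finset ((ℤ × ℤ) × (ℤ × ℤ))), Po ⊆ S.V → Disjoint Po K → (∀ p ∈ ER, p.1 ∈ S.Fc ∧ p.2 ∈ S.Fc) →
      1 / 4 * S.sum t ((mds290Hp La Lc Po ER).Holds S) (fun _ => 1)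
        ≤ S.sum t ((mds290Hp La Lc Po ER).Holds S) (ent210Ind fun ω => Ent210Join S (↑Kc ∩ ent210On S ω) La Lc)) :
    1 / 16 * S.sum t ((mds290HC S La Lc (mds290Clu S (glEnd La Lc Ld Lb) ω₀) ∅).Holds S) (fun _ => 1) ≤
      S.sum t ((mds290HC S La Lc (mds290Clu S (glEnd La Lc Ld Lb) ω₀) ∅).Holds S)
        (ent210Ind fun ω => Ent210Join S (↑Kc ∩ ent210On S ω) La Lc) :=
  mds290_mid hS.wf (by linarith [hS.half]) hS.t1 hS.la hS.lc kA hK hKn Kc hKc hgood hcl hX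

/-! ## 5. The stopping property of the cluster (R291 `gl_clu_iff` of `Glue/Place`: the hypothesis of the fibre sum over the clusters) -/

/-- STOPPING PROPERTY: the history of the cluster holds iff the strip law holds and the minus cluster of the two ends is the prescribed one -/
theorem mds290_clu_iff (hld : Ld ⊆ S.V) (hlb : Lb ⊆ S.V) (ω₀ ω : RswCfg) :
    (mds290HC S La Lc (mds290Clu S (glEnd La Lc Ld Lb) ω₀) ∅).Holds S ω ↔
      (ent210H0 S ∅ La Lc Ld Lb).Holds S ω ∧ mds290Clu S (glEnd La Lc Ld Lb) ω = mds290Clu S (glEnd La Lc Ld Lb) ω₀ := by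
  classical
  have hEA : glEnd La Lc Ld Lb ⊆ S.V := by
    intro v hv
    rcases Finset.mem_union.1 (Finset.mem_sdiff.1 hv).1 with h | h
    · exact hld h
    · exact hlb h
  have hmem := mds290_mem_clu S (glEnd La Lc Ld Lb)
  have hEC : ∀ ω' : RswCfg, glEnd La Lc Ld Lb ⊆ mds290Clu S (glEnd La Lc Ld Lb) ω' :=
    fun ω' v hv => (hmem ω' v).2 ⟨hEA hv, v, hv, ReflTransGen.refl⟩
  rw [ent210_H0_holds]
  constructor
  · rintro ⟨h1, h2, -, -, -, -⟩
    have h1' : La ∪ Lc ∪ mds290Bdy S (mds290Clu S (glEnd La Lc Ld Lb) ω₀) ⊆ ω.S := h1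
    have h2' : ∀ v ∈ mds290Clu S (glEnd La Lc Ld Lb) ω₀, v ∉ ω.S := h2
    refine ⟨⟨fun v hv => h1' (Finset.mem_union_left _ hv), fun v hv => h2' v (hEC ω₀ hv), fun e he => absurd he (notMem_empty _),
      fun e he => absurd he (notMem_empty _)⟩, ?_⟩
    ext v
    constructor
    · intro hv
      obtain ⟨-, u, hu, huv⟩ := (hmem ω v).1 hv
      induction huv with
      | refl => exact hEC ω₀ hu
      | @tail b c hab hbc ih =>
        by_contra hc
        have hb : b ∈ mds290Clu S (glEnd La Lc Ld Lb) ω₀ := ih ((hmem ω b).2 ⟨Finset.mem_coe.1 hbc.2.1.1, u, hu, hab⟩)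
        have hcB : c ∈ mds290Bdy S (mds290Clu S (glEnd La Lc Ld Lb) ω₀) :=
          mds290_mem_bdy.2 ⟨Finset.mem_coe.1 hbc.2.2.1, hc, b, hb, hbc.1⟩
        exact hbc.2.2.2 (Finset.mem_coe.2 (h1' (Finset.mem_union_right _ hcB)))
    · intro hv
      obtain ⟨hvA, u, hu, huv⟩ := (hmem ω₀ v).1 hv
      refine (hmem ω v).2 ⟨hvA, u, hu, ?_⟩
      clear hv hvA
      induction huv with
      | refl => exact ReflTransGen.refl
      | @tail b c hab hbc ih =>
        have hb : b ∈ mds290Clu S (glEnd La Lc Ld Lb) ω₀ := (hmem ω₀ b).2 ⟨Finset.mem_coe.1 hbc.2.1.1, u, hu, hab⟩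
        have hc : c ∈ mds290Clu S (glEnd La Lc Ld Lb) ω₀ := (hmem ω₀ c).2 ⟨Finset.mem_coe.1 hbc.2.2.1, u, hu, hab.tail hbc⟩
        exact ih.tail ⟨hbc.1, ⟨hbc.2.1.1, fun h => h2' b hb (Finset.mem_coe.1 h)⟩, ⟨hbc.2.2.1, fun h => h2' c hc (Finset.mem_coe.1 h)⟩⟩
  · rintro ⟨⟨h1, h2, -, -⟩, hC⟩
    have h1' : La ∪ Lc ⊆ ω.S := h1
    have h2' : ∀ v ∈ glEnd La Lc Ld Lb, v ∉ ω.S := h2
    have hin : ∀ v ∈ mds290Clu S (glEnd La Lc Ld Lb) ω, v ∈ (↑S.V \ ↑ω.S : Set (ℤ × ℤ)) := by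
      intro v hv
      obtain ⟨-, u, hu, huv⟩ := (hmem ω v).1 hv
      exact tsc_R_mem huv ⟨Finset.mem_coe.2 (hEA hu), fun h => h2' u hu (Finset.mem_coe.1 h)⟩
    refine ⟨?_, ?_, fun e he => absurd he (notMem_empty _), fun e he => absurd he (notMem_empty _), fun e he => absurd he (notMem_empty _),
      fun e he => absurd he (notMem_empty _)⟩
    · intro v hv
      have hv' : v ∈ La ∪ Lc ∪ mds290Bdy S (mds290Clu S (glEnd La Lc Ld Lb) ω₀) := hv
      rcases Finset.mem_union.1 hv' with hv1 | hv1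
      · exact h1' hv1
      · rw [← hC] at hv1
        obtain ⟨hvA, hvC, c, hc, hadj⟩ := mds290_mem_bdy.1 hv1
        by_contra hvB
        apply hvC
        obtain ⟨-, u, hu, huc⟩ := (hmem ω c).1 hc
        exact (hmem ω v).2 ⟨hvA, u, hu, huc.tail ⟨hadj, hin c hc, ⟨Finset.mem_coe.2 hvA, fun h => hvB (Finset.mem_coe.1 h)⟩⟩⟩
    · intro v hv
      have hv' : v ∈ mds290Clu S (glEnd La Lc Ld Lb) ω₀ := hv
      rw [← hC] at hv'
      exact fun h => (hin v hv').2 (Finset.mem_coe.2 h)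

end Claimed.Agent.R292
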