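import Claimed.Agent.R292.Rsw.PerJ69
import Claimed.Agent.R292.Rsw.RenTop109

/-!
# R292 / Rsw / PerJ0x57 (57): the contract (P0) of `PerJ69` (frame of `Rcs127PerJc`, owner 69)      0 sorry

`rpj057_P0 : 0 < t → t ≤ 1 → 0 < L → Rpj69P0 t L H` : the law `ν` of `Rcs127PerJc` is feasible.
Witness: every spin plus (`s` and `d`), every pair open: each pair has the factor `t`, the pins (`d = +` on the rim of `J`, the row `H` plus) hold,
because the rim belongs to the unexplored system and the record `J` lies under the row `H`.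
General form `rpj057_outP_pos` for any well formed system `Y`, any `J`, any constraint `k₂` met by `Y.V \ J`.
THE ROW 292 STAYS OPEN: (P2) - (P5) of `PerJ69` are not proved here (they are in the files of 69 111 162 12 291 127 31; top `rcf121_perJc`).   Prefix `rpj057`.

APPENDED 23:50Z (prefix `lss57`): `lss57_sea_feas` : the sea history `rrt109Sea` of the OPEN contract `RnzLSSd` (A1, `RenTop109`) is feasible in every ambient domain, for `0 < t ≤ 1`:
the conditional law `rswPK` of that contract is a genuine conditional law (no division by zero), so the contract is not met or failed for a formal reason.   The contract itself is NOT proved.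
-/

set_option autoImplicit false

namespace Claimed.Agent.R292
open Claimed.Agent.R291 Claims Claims.C0468

/-- the all-plus, all-open configuration of the unexplored system has weight `t ^ #E` -/
theorem rpj057_outP_feas (Y : Rcy162Sys) (hw : Y.WF) {t : ℝ} (ht : 0 < t) (J : Finset (ℤ × ℤ)) (k₂ : Finset (ℤ × ℤ) → Prop)
    (hk : k₂ (Y.V \ J)) : (rcs127OutP Y J).Feas t (Rcs127KP Y J k₂) := by
  classical
  refine ⟨⟨(rcs127OutP Y J).V, (rcs127OutP Y J).Fc, (rcs127OutP Y J).E⟩,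
    ⟨Finset.Subset.refl _, Finset.Subset.refl _, Finset.Subset.refl _⟩, ?_⟩
  have hK : Rcs127KP Y J k₂ ⟨(rcs127OutP Y J).V, (rcs127OutP Y J).Fc, (rcs127OutP Y J).E⟩ := by
    refine ⟨fun f hf => ⟨fun _ => rfl, fun _ => ?_⟩, hk⟩
    show f ∈ rcs127V2 (rcs127Sw Y) J
    exact Finset.mem_union_right _ hf
  have hfac : ∀ e ∈ (rcs127OutP Y J).E,
      (rcs127OutP Y J).fac t ⟨(rcs127OutP Y J).V, (rcs127OutP Y J).Fc, (rcs127OutP Y J).E⟩ e = t := by
    intro e he
    have he' : e ∈ rcs127E2 (rcs127Sw Y) J := he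
    obtain ⟨heE, h0, h1⟩ := Finset.mem_filter.1 he'
    have a0 : (rcs127OutP Y J).p0 e ∈ (rcs127OutP Y J).V := by
      show Y.p0 e ∈ Y.V \ J
      exact Finset.mem_sdiff.2 ⟨hw.p0 e heE, h0⟩
    have a1 : (rcs127OutP Y J).p1 e ∈ (rcs127OutP Y J).V := by
      show Y.p1 e ∈ Y.V \ J
      exact Finset.mem_sdiff.2 ⟨hw.p1 e heE, h1⟩
    unfold Rcy162Sys.fac
    rw [if_pos he, if_pos ⟨fun _ => a1, fun _ => a0⟩]
  rw [rcy162_wt_of _ hK, Finset.prod_congr rfl hfac, Finset.prod_const]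
  exact (pow_pos ht _).ne'

/-- the partition function of the unexplored system is positive -/
theorem rpj057_outP_pos (Y : Rcy162Sys) (hw : Y.WF) {t : ℝ} (ht : 0 < t) (h1 : t ≤ 1) (J : Finset (ℤ × ℤ)) (k₂ : Finset (ℤ × ℤ) → Prop)
    (hk : k₂ (Y.V \ J)) : 0 < (rcs127OutP Y J).sum t (Rcs127KP Y J k₂) (fun _ => 1) :=
  rcy162_Z_pos _ _ ht.le h1 (rpj057_outP_feas Y hw ht J k₂ hk)

/-- **(P0) of `PerJ69`** -/
theorem rpj057_P0 {t : ℝ} (ht : 0 < t) (h1 : t ≤ 1) {L : ℕ} (hL : 0 < L) (H : ℕ) : Rpj69P0 t L H := by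
  intro k m κ J ctx
  refine rpj057_outP_pos _ (rcy162_cyl_wf hL 0 H) ht h1 J _ ?_
  intro v hv
  obtain ⟨hv1, hv2⟩ := rcy162_mem_row.1 hv
  refine Finset.mem_sdiff.2 ⟨rcy162_mem_cylV.2 ⟨hv1, by omega, by omega⟩, fun hJ => ?_⟩
  have h3 := ctx.hlow v hJ
  have h4 := ctx.hκ
  have h5 := ctx.hκH
  have h6 := ctx.hm
  omega

/-! ## the sea history of the contract (LSS) of A1 is feasible -/

/-- the witness of a spin configuration in the plane: homogeneous interior edges open, `d` minus -/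
theorem lss57_wit_good (Λ S : Finset (ℤ × ℤ)) (a : Bool) {e : (ℤ × ℤ) × Bool} (he : e ∈ rswInt Λ)
    (h1 : e.1 ∈ S ↔ a = true) (h2 : rswEnd e ∈ S ↔ a = true) : RswGood a (rcy162Wit (rcy162Pl Λ) S) e := by
  classical
  refine ⟨?_, h1, h2⟩
  show e ∈ (rswInt Λ).filter (fun e => (e.1 ∈ S ↔ rswEnd e ∈ S))
  exact Finset.mem_filter.2 ⟨he, h1.trans h2.symm⟩

/-- **the sea history is feasible** in every ambient domain, both orientations (witness: minus on the minus pins, plus elsewhere, homogeneous edges open) -/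
theorem lss57_sea_feas {t : ℝ} (h0 : 0 < t) (h1 : t ≤ 1) (Λ : Finset (ℤ × ℤ)) (l τ : ℤ × ℤ → ℤ) (a₀ a₁ y₀ y₁ : ℤ) :
    (rrt109Sea Λ l τ a₀ a₁ y₀ y₁).Feas t Λ true := by
  classical
  have hPM : ∀ v ∈ rrt109SeaP Λ τ y₀ y₁, v ∉ rrt109SeaM Λ l τ a₀ a₁ y₀ y₁ := by
    intro v hv hv'
    have a := (Finset.mem_filter.1 hv).2
    have b := (Finset.mem_filter.1 hv').2
    omega
  have hPc : rrt109SeaP Λ τ y₀ y₁ ⊆ cornersOf Λ := Finset.filter_subset _ _
  have hMin : ∀ v ∈ rrt109SeaM Λ l τ a₀ a₁ y₀ y₁, v ∈ rsxIn Λ := fun v hv => (Finset.mem_filter.1 hv).1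
  generalize hM : rrt109SeaM Λ l τ a₀ a₁ y₀ y₁ = M at hPM hMin
  generalize hP : rrt109SeaP Λ τ y₀ y₁ = P at hPM hPc
  have hsea : rrt109Sea Λ l τ a₀ a₁ y₀ y₁ = ⟨P, M, (rswInt Λ).filter (fun e => e.1 ∈ P ∧ rswEnd e ∈ P),
      (rswInt Λ).filter (fun e => e.1 ∈ M ∧ rswEnd e ∈ M), ∅⟩ := by
    unfold rrt109Sea
    rw [hM, hP]
  rw [hsea]
  have hin : ∀ v ∈ P, v ∈ cornersOf Λ \ M := fun v hv => Finset.mem_sdiff.2 ⟨hPc hv, hPM v hv⟩
  have hout : ∀ v ∈ M, v ∉ cornersOf Λ \ M := fun v hv h => (Finset.mem_sdiff.1 h).2 hv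
  have hbc : RswBc Λ true (rcy162Wit (rcy162Pl Λ) (cornersOf Λ \ M)) := by
    intro v hv hp
    exact ⟨fun _ => rfl, fun _ => Finset.mem_sdiff.2 ⟨hv, fun hm => (rsx_in_iff.1 (hMin v hm)) hp⟩⟩
  have hholds : (⟨P, M, (rswInt Λ).filter (fun e => e.1 ∈ P ∧ rswEnd e ∈ P),
      (rswInt Λ).filter (fun e => e.1 ∈ M ∧ rswEnd e ∈ M), ∅⟩ : RswCon).Holds (rcy162Wit (rcy162Pl Λ) (cornersOf Λ \ M)) := by
    refine ⟨hin, hout, ?_, ?_, ?_⟩
    · intro e he
      obtain ⟨heI, e1, e2⟩ := Finset.mem_filter.1 he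
      exact lss57_wit_good Λ _ true heI ⟨fun _ => rfl, fun _ => hin _ e1⟩ ⟨fun _ => rfl, fun _ => hin _ e2⟩
    · intro e he
      obtain ⟨heI, e1, e2⟩ := Finset.mem_filter.1 he
      exact lss57_wit_good Λ _ false heI ⟨fun h => absurd h (hout _ e1), fun h => Bool.noConfusion h⟩
        ⟨fun h => absurd h (hout _ e2), fun h => Bool.noConfusion h⟩
    · intro e he
      exact absurd he (Finset.notMem_empty e)
  have hf := rcy162_feas_of (rcy162Pl Λ) h0 (K := fun ω => RswBc Λ true ω ∧ (⟨P, M, (rswInt Λ).filter (fun e => e.1 ∈ P ∧ rswEnd e ∈ P),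
      (rswInt Λ).filter (fun e => e.1 ∈ M ∧ rswEnd e ∈ M), ∅⟩ : RswCon).Holds ω) (S := cornersOf Λ \ M) Finset.sdiff_subset ⟨hbc, hholds⟩
  have hZ := rcy162_Z_pos _ _ h0.le h1 hf
  rw [rcy162_sum_and, rcy162_pl_sum] at hZ
  unfold RswCon.Feas
  convert hZ using 1

end Claimed.Agent.R292
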