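import Claimed.Agent.R292.Rsw.Recov69

/-!
# R292 / Rsw / PerJ69 (69): FRAME of `Rcs127PerJc` (the last input of the field `sym`): five typed contracts and the assembly

TEXT (121, 23:00Z; 69, 23:06Z).   `Y` = the cap `rci69Cap L 0 b`, `b = κ + m / 2`, self-dual by the glide `ρ` of `rcp162_hom` (refined `u ↦ (u.1 + 1, 2 κ + m - 1 - u.2)`).
`J` = a connected record (sites under the low band).   `G₊ = ρ J`, `G₋ = ρ⁻¹ J` = sets of FACES of the cap, above the row `H` (because `2 H + k + m + 7 ≤ 2 κ`).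
`D_s` = the DOUBLY CUT system: the pairs of `Y` with no endpoint in `J` and no face in `G_s`;   pins: `d = +` on the faces of the rim of `J`, `s = +` on the sites of the rim of `G_s`.
`Λ_s` = its law read on the statuses of `s`, `ΛD_s` = on the statuses of `d`;   `ν` = the law of `Rcs127PerJc` (`rcs127OutP (Cyl L 0 H) J`, `d = +` on the rim, row `H` plus).

* (P0) `ν` is feasible;
* (P2) `Λ_s(E) ≤ ν(E)` for `E` increasing in the high band (only PLUS pins are added: row `H` plus good; T1 / Holley with forced pairs on the minor `rcs127OutC Y J pole`, cut along the row `H`);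
* (P3) ALT in `D₋`;
* (P4) self-duality: the exchange followed by `ρ` carries `Sw D₋` to `D₊` (`gV (G₋) = J`, `gF J = G₊`): `ΛD₋(Blk_d^σ) ≤ Λ₊(Blk_s^σ)`;
* (P5) signs: `Λ_s(E⁻) ≤ Λ_s(E⁺)` (flip + Holley minus pins ≤ plus pins).

`rpj69_perJc : P0 → P2 → P3 → P4 → P5 → Rcs127PerJc t L H` is PROVED here.   PROVED here too: (P0) `rpj69_P0`; (P2) `rpj69_P2` FROM the contracts `Rpj69Fkg` (T1 on `D_s`) and `Rpj69Wf`;
`rpj69_perJc2 : Fkg → Wf → P3 → P4 → P5 → Rcs127PerJc t L H`.   The contracts Fkg, Wf, P3, P4, P5 are NOT proved here.   Prefix `rpj69` / `Rpj69`.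
THEY ARE PROVED ON MAIN (23:45Z): Fkg `pjf291_fkg` (PerJF291, with `rpt127_hgeo` of PerJT127), Wf `rpw111_Wf` and P3 `rpw111_P3` (PerJW111; `rhp31_P3`, RenHP31), P4 `rpq162_P4` (PerJ4x162),
P5 `pjb12_P5_closed` (PerJb12);   top line `rhp31_perJc` (RenHP31) = `rcf121_perJc` (CoreFrontier121) `: Rcs127PerJc t L H` for `1/2 ≤ t ≤ 1`, `0 < L`, with no hypothesis.
-/

set_option autoImplicit false
set_option linter.unusedVariables false
set_option linter.unusedSectionVars false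

namespace Claimed.Agent.R292
open Claimed.Agent.R291 Claims Claims.C0468 Relation

/-- the hypotheses of `Rcs127PerJc` on `(k, m, κ, J)` -/
structure Rpj69Ctx (L H : ℕ) (k m κ : ℤ) (J : Finset (ℤ × ℤ)) : Prop where
  hm : 1 ≤ m
  hme : Even m
  hk : 3 ≤ k
  hκ : k + m + 3 ≤ κ
  hκH : κ + m - 1 ≤ 2 * (H : ℤ) - 4
  hN : 2 * (H : ℤ) + k + m + 7 ≤ 2 * κ
  h0 : rcy162Row L 0 ⊆ J
  hV : J ⊆ (rcy162Cyl L 0 H).V
  hlow : ∀ v ∈ J, 2 * v.2 < k + m - 1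
  hc : Rcs127Conn (rcs127Sw (rcy162Cyl L 0 H)) (rcy162Row L 0) J

/-- the cap of (perJ) -/
noncomputable def rpj69Y (L : ℕ) (κ m : ℤ) : Rcy162Sys := rci69Cap L 0 (κ + m / 2)

/-- the mirror images of the record: `G true = ρ J`, `G false = ρ⁻¹ J` (faces of the cap) -/
noncomputable def rpj69G (L : ℕ) (κ m : ℤ) (J : Finset (ℤ × ℤ)) (s : Bool) : Finset (ℤ × ℤ) :=
  if s then J.image (rcp162gF L 0 (κ + m / 2)) else (rpj69Y L κ m).Fc.filter (fun f => rcp162gV L 0 (κ + m / 2) f ∈ J)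

/-- **the doubly cut system** -/
noncomputable def rpj69D (L : ℕ) (κ m : ℤ) (J : Finset (ℤ × ℤ)) (s : Bool) : Rcy162Sys :=
  rcs127Out (rcs127OutP (rpj69Y L κ m) J) (rpj69G L κ m J s)

/-- its pins: `s = +` on the sites of the rim of `G_s`, `d = +` on the faces of the rim of `J` -/
def Rpj69K (L : ℕ) (κ m : ℤ) (J : Finset (ℤ × ℤ)) (s : Bool) (ω : RswCfg) : Prop :=
  Rcs127Pin (rcs127V0 (rcs127OutP (rpj69Y L κ m) J) (rpj69G L κ m J s)) true ω ∧ ∀ f ∈ rcs127V0 (rcs127Sw (rpj69Y L κ m)) J, f ∈ ω.D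

/-- the law of the doubly cut system, statuses of `s` -/
noncomputable def rpj69Lam (t : ℝ) (L H : ℕ) (κ m : ℤ) (J : Finset (ℤ × ℤ)) (s : Bool) (E : Set CyF) : ℝ :=
  (rpj69D L κ m J s).Pr t (Rpj69K L κ m J s) (fun ω => rcy162Fld L (rcy162Cyl L 0 H) ω ∈ E)

/-- the law of the doubly cut system, statuses of `d` -/
noncomputable def rpj69LamD (t : ℝ) (L H : ℕ) (κ m : ℤ) (J : Finset (ℤ × ℤ)) (s : Bool) (E : Set CyF) : ℝ :=
  (rcs127Sw (rpj69D L κ m J s)).Pr t (fun ω => Rpj69K L κ m J s ⟨ω.D, ω.S, ω.O⟩) (fun ω => rcs127FldD L (rcs127Sw (rcy162Cyl L 0 H)) ω ∈ E)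

/-- the law of `Rcs127PerJc` -/
noncomputable def rpj69Nu (t : ℝ) (L H : ℕ) (J : Finset (ℤ × ℤ)) (E : Set CyF) : ℝ :=
  (rcs127OutP (rcy162Cyl L 0 H) J).Pr t (Rcs127KP (rcy162Cyl L 0 H) J (fun S => rcy162Row L H ⊆ S)) (fun ω => rcy162Fld L (rcy162Cyl L 0 H) ω ∈ E)

/-- (P0) -/
def Rpj69P0 (t : ℝ) (L H : ℕ) : Prop :=
  ∀ (k m κ : ℤ) (J : Finset (ℤ × ℤ)), Rpj69Ctx L H k m κ J →
    0 < (rcs127OutP (rcy162Cyl L 0 H) J).sum t (Rcs127KP (rcy162Cyl L 0 H) J (fun S => rcy162Row L H ⊆ S)) (fun _ => 1)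

/-- (P2) only plus pins are added -/
def Rpj69P2 (t : ℝ) (L H : ℕ) : Prop :=
  ∀ (k m κ : ℤ) (J : Finset (ℤ × ℤ)), Rpj69Ctx L H k m κ J → ∀ (s : Bool) (E : Set CyF), CyInc E → CySup κ (κ + m - 1) E →
    rpj69Lam t L H κ m J s E ≤ rpj69Nu t L H J E

/-- (P3) ALT in `D₋` -/
def Rpj69P3 (t : ℝ) (L H : ℕ) : Prop :=
  ∀ (k m κ : ℤ) (J : Finset (ℤ × ℤ)), Rpj69Ctx L H k m κ J →
    1 ≤ rpj69Lam t L H κ m J false (cyVP 1 κ (κ + m - 1)) + rpj69Lam t L H κ m J false (cyVP (-1) κ (κ + m - 1)) +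
      rpj69LamD t L H κ m J false (cyBlk 1 κ (κ + m - 1)) + rpj69LamD t L H κ m J false (cyBlk (-1) κ (κ + m - 1))

/-- (P4) self-duality -/
def Rpj69P4 (t : ℝ) (L H : ℕ) : Prop :=
  ∀ (k m κ : ℤ) (J : Finset (ℤ × ℤ)), Rpj69Ctx L H k m κ J → ∀ σ : SignType, σ ≠ 0 →
    rpj69LamD t L H κ m J false (cyBlk σ κ (κ + m - 1)) ≤ rpj69Lam t L H κ m J true (cyBlk σ κ (κ + m - 1))

/-- (P5) signs -/
def Rpj69P5 (t : ℝ) (L H : ℕ) : Prop :=
  ∀ (k m κ : ℤ) (J : Finset (ℤ × ℤ)), Rpj69Ctx L H k m κ J → ∀ s : Bool,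
    rpj69Lam t L H κ m J s (cyVP (-1) κ (κ + m - 1)) ≤ rpj69Lam t L H κ m J s (cyVP 1 κ (κ + m - 1)) ∧
    rpj69Lam t L H κ m J s (cyBlk (-1) κ (κ + m - 1)) ≤ rpj69Lam t L H κ m J s (cyBlk 1 κ (κ + m - 1))

/-- **ASSEMBLY: the input per connected record from the five contracts** -/
theorem rpj69_perJc {t : ℝ} {L H : ℕ} (p0 : Rpj69P0 t L H) (p2 : Rpj69P2 t L H) (p3 : Rpj69P3 t L H) (p4 : Rpj69P4 t L H) (p5 : Rpj69P5 t L H) :
    Rcs127PerJc t L H := by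
  intro k m κ hm hme hk hκ hκH hN J h0 hV hlow hc
  have ctx : Rpj69Ctx L H k m κ J := ⟨hm, hme, hk, hκ, hκH, hN, h0, hV, hlow, hc⟩
  have hZ := p0 k m κ J ctx
  have a3 := p3 k m κ J ctx
  have a4p := p4 k m κ J ctx 1 (by decide)
  have a4m := p4 k m κ J ctx (-1) (by decide)
  have a5f := (p5 k m κ J ctx false).1
  have a5t := (p5 k m κ J ctx true).2
  have a2f := p2 k m κ J ctx false _ (cy_inc_VP κ (κ + m - 1)) (cy_sup_VP 1 κ (κ + m - 1))
  have a2t := p2 k m κ J ctx true _ (cy_inc_Blk κ (κ + m - 1)) (cy_sup_Blk 1 κ (κ + m - 1))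
  have key : 1 ≤ 2 * (rpj69Nu t L H J (cyVP 1 κ (κ + m - 1)) + rpj69Nu t L H J (cyBlk 1 κ (κ + m - 1))) := by linarith
  unfold rpj69Nu at key
  rw [rcy162_P_ind, rcy162_P_ind, ← add_div, ← mul_div_assoc, le_div_iff₀ hZ, one_mul, ← rcy162_sum_add] at key
  exact key

/-- the equation lemmas of the definitions of this file are generated HERE (RULES.md, rule 6) -/
theorem rpj69_eqns_cite : True := by
  have := @rpj69Y.eq_1
  have := @rpj69G.eq_1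
  have := @rpj69D.eq_1
  have := @Rpj69K.eq_1
  have := @rpj69Lam.eq_1
  have := @rpj69LamD.eq_1
  have := @rpj69Nu.eq_1
  have := @Rpj69P0.eq_1
  have := @Rpj69P2.eq_1
  have := @Rpj69P3.eq_1
  have := @Rpj69P4.eq_1
  have := @Rpj69P5.eq_1
  trivial

/-! ## (P0), the Markov property and DOM with a constraint read inside, two more contracts -/

/-- the full configuration: all plus, all open -/
def rpj69Full (Y : Rcy162Sys) : RswCfg := ⟨Y.V, Y.Fc, Y.E⟩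

theorem rpj69_full_wt (Y : Rcy162Sys) (hw : Y.WF) {t : ℝ} (ht : 0 < t) {K : RswCfg → Prop} (hK : K (rpj69Full Y)) : Y.wt t K (rpj69Full Y) ≠ 0 := by
  classical
  rw [rcy162_wt_of Y hK]
  have : ∀ e ∈ Y.E, Y.fac t (rpj69Full Y) e = t := by
    intro e he
    unfold Rcy162Sys.fac
    rw [if_pos (show e ∈ (rpj69Full Y).O from he), if_pos ⟨fun _ => hw.p1 e he, fun _ => hw.p0 e he⟩]
  rw [Finset.prod_congr rfl this, Finset.prod_const]
  exact (pow_pos ht _).ne'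

theorem rpj69_full_feas (Y : Rcy162Sys) (hw : Y.WF) {t : ℝ} (ht : 0 < t) {K : RswCfg → Prop} (hK : K (rpj69Full Y)) : Y.Feas t K :=
  ⟨rpj69Full Y, ⟨Finset.Subset.refl _, Finset.Subset.refl _, Finset.Subset.refl _⟩, rpj69_full_wt Y hw ht hK⟩

/-- the unexplored system of a search in the statuses of `d` is well formed -/
theorem rpj69_outP_wf {Y : Rcy162Sys} {A₀ J : Finset (ℤ × ℤ)} (hw : Y.WF) (h : Rcs127Adm (rcs127Sw Y) A₀ J) : (rcs127OutP Y J).WF := by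
  have c := rcs127_adm_cut (rcs127_sw_wf hw) h
  exact ⟨fun e he => (c.p2 e he).2.2.1, fun e he => (c.p2 e he).2.2.2, fun e he => (c.p2 e he).1, fun e he => (c.p2 e he).2.1⟩

theorem rpj69_ctx_H {L H : ℕ} {k m κ : ℤ} {J : Finset (ℤ × ℤ)} (c : Rpj69Ctx L H k m κ J) : (6 : ℤ) ≤ H := by
  have := c.hm; have := c.hk; have := c.hκ; have := c.hκH
  omega

/-- **(P0)** -/
theorem rpj69_P0 {t : ℝ} (h0 : 0 < t) (h1 : t ≤ 1) {L : ℕ} (hL : 0 < L) (H : ℕ) : Rpj69P0 t L H := by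
  intro k m κ J c
  have hH := rpj69_ctx_H c
  have hw := rpj69_outP_wf (rcy162_cyl_wf hL 0 H) (rcd111_adm_sw hL (by omega) c.h0 c.hV)
  refine rcy162_Z_pos _ _ h0.le h1 (rpj69_full_feas _ hw h0 ⟨fun f hf => ⟨fun _ => rfl, fun _ => rcs127_V0_sub_V2 hf⟩, fun v hv => ?_⟩)
  obtain ⟨r1, r2⟩ := rcy162_mem_row.1 hv
  refine Finset.mem_sdiff.2 ⟨rcy162_mem_cylV.2 ⟨r1, by omega, by omega⟩, fun hJ => ?_⟩
  have := c.hlow v hJ
  have := c.hκ; have := c.hκH; have := c.hm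
  omega


/-- the product formula across a cut, with a constraint `Ki` read inside -/
theorem rpj69_cut_in {Y Y' : Rcy162Sys} {C : Finset (ℤ × ℤ)} (h : Rcy162Sub Y Y' C) (t : ℝ) {Ko Ki : RswCfg → Prop}
    (hK : ∀ ω, Ko (rcy162Out Y' C ω) ↔ Ko ω) (A : Finset (ℤ × ℤ)) (B : RswCfg → Prop) :
    Y.sum t (fun ω => Ko ω ∧ Ki (rcy162In Y' ω)) (rcy162Ind fun ω => Rcy162Cut Y Y' C A ω ∧ B (rcy162In Y' ω)) =
      Y'.sum t (fun ω => Rcy162Pin Y' C A ω ∧ Ki ω) (rcy162Ind B) * rcy162G Y Y' C A t Ko (fun _ => 1) := by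
  classical
  rw [rcy162_sum_and, rcy162_sum_and, ← rcy162_cut_prod h t hK A (fun ω => if Ki ω then rcy162Ind B ω else 0) (fun _ => 1)]
  refine congrArg _ (funext fun ω => ?_)
  rw [mul_one, rcy162_ind_and]
  have e : rcy162Ind (Rcy162Cut Y Y' C A) ω = rcy162CutI Y Y' C A ω := rfl
  have e2 : rcy162Ind (fun ω => B (rcy162In Y' ω)) ω = rcy162Ind B (rcy162In Y' ω) := rfl
  rw [e, e2]
  split_ifs <;> ring

/-- **Markov property across a cut with a constraint read inside** -/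
theorem rpj69_markov_in {Y Y' : Rcy162Sys} {C : Finset (ℤ × ℤ)} (h : Rcy162Sub Y Y' C) {t : ℝ} {Ko Ki : RswCfg → Prop}
    (hK : ∀ ω, Ko (rcy162Out Y' C ω) ↔ Ko ω) (A : Finset (ℤ × ℤ))
    (hp : Y'.sum t (fun ω => Rcy162Pin Y' C A ω ∧ Ki ω) (fun _ => 1) ≠ 0) (B : RswCfg → Prop) :
    Y.Pr t (fun ω => Ko ω ∧ Ki (rcy162In Y' ω)) (fun ω => Rcy162Cut Y Y' C A ω ∧ B (rcy162In Y' ω)) =
      Y'.Pr t (fun ω => Rcy162Pin Y' C A ω ∧ Ki ω) B * Y.Pr t (fun ω => Ko ω ∧ Ki (rcy162In Y' ω)) (Rcy162Cut Y Y' C A) := by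
  have k1 := rpj69_cut_in h t (Ki := Ki) hK A B
  have k2 := rpj69_cut_in h t (Ki := Ki) hK A (fun _ => True)
  have e1 : (rcy162Ind fun ω => Rcy162Cut Y Y' C A ω ∧ (fun _ : RswCfg => True) (rcy162In Y' ω)) = rcy162Ind (Rcy162Cut Y Y' C A) := by
    funext ω
    exact rcy162_ind_iff ⟨fun x => x.1, fun x => ⟨x, trivial⟩⟩
  have e2 : rcy162Ind (fun _ : RswCfg => True) = fun _ => 1 := by
    funext ω
    exact rcy162_ind_pos trivial
  rw [e1, e2] at k2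
  rw [rcy162_P_ind, rcy162_P_ind, rcy162_P_ind, k1, k2]
  field_simp

/-- **DOM with a constraint read inside** -/
theorem rpj69_dom_in {Y Y' : Rcy162Sys} {C : Finset (ℤ × ℤ)} (h : Rcy162Sub Y Y' C) {t : ℝ} (h0 : 0 < t) (h1 : t ≤ 1) {Ko Ki : RswCfg → Prop}
    (hK : ∀ ω, Ko (rcy162Out Y' C ω) ↔ Ko ω)
    (hfkg : ∀ A A' : RswCfg → Prop, (∀ ω ω', Y.Le ω ω' → A ω → A ω') → (∀ ω ω', Y.Le ω ω' → A' ω → A' ω') →
      Y.Pr t (fun ω => Ko ω ∧ Ki (rcy162In Y' ω)) A * Y.Pr t (fun ω => Ko ω ∧ Ki (rcy162In Y' ω)) A' ≤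
        Y.Pr t (fun ω => Ko ω ∧ Ki (rcy162In Y' ω)) (fun ω => A ω ∧ A' ω))
    (hrim : ∀ e ∈ Y.E \ Y'.E, (Y.f0 e ∈ Y'.Fc ∨ Y.f1 e ∈ Y'.Fc) → Y.p0 e ∈ Y'.V \ C ∧ Y.p1 e ∈ Y'.V \ C)
    (hw : Y.WF) (hKo : Ko (rpj69Full Y)) (hKi : Ki (rpj69Full Y'))
    {B : RswCfg → Prop} (hB : ∀ ω ω', Y.Le ω ω' → B (rcy162In Y' ω) → B (rcy162In Y' ω')) :
    Y.Pr t (fun ω => Ko ω ∧ Ki (rcy162In Y' ω)) (fun ω => B (rcy162In Y' ω)) ≤ Y'.Pr t (fun ω => Rcy162Pin Y' C Y'.V ω ∧ Ki ω) B := by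
  classical
  have hp : Y'.sum t (fun ω => Rcy162Pin Y' C Y'.V ω ∧ Ki ω) (fun _ => 1) ≠ 0 :=
    (rcy162_Z_pos Y' _ h0.le h1 (rpj69_full_feas Y' h.wf h0 ⟨fun v hv => ⟨fun _ => (Finset.mem_sdiff.1 hv).1, fun x => x⟩, hKi⟩)).ne'
  have hm := rpj69_markov_in h (Ki := Ki) hK Y'.V hp B
  have hf := hfkg _ _ (rci69_cut_inc hrim) hB
  rw [hm] at hf
  have hin : rcy162In Y' (rpj69Full Y) = rpj69Full Y' := by
    unfold rcy162In rpj69Full
    simp only [Finset.inter_eq_right.2 h.sV, Finset.inter_eq_right.2 h.sF, Finset.inter_eq_right.2 h.sE]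
  have hpos : 0 < Y.Pr t (fun ω => Ko ω ∧ Ki (rcy162In Y' ω)) (Rcy162Cut Y Y' C Y'.V) := by
    refine rcy162_P_pos Y h0.le h1 (ω := rpj69Full Y) ⟨Finset.Subset.refl _, Finset.Subset.refl _, Finset.Subset.refl _⟩
      (rpj69_full_wt Y hw h0 ⟨hKo, by rw [hin]; exact hKi⟩) ?_
    exact ⟨fun v hv => ⟨fun _ => (Finset.mem_sdiff.1 hv).1, fun x => h.sV x⟩, fun e he _ => (Finset.mem_sdiff.1 he).1⟩
  rw [mul_comm] at hf
  exact le_of_mul_le_mul_right hf hpos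

/-- (T1) association on the doubly cut system under its pins, for the events increasing for `Le`      (contract; producer 291 / 12) -/
def Rpj69Fkg (t : ℝ) (L H : ℕ) : Prop :=
  ∀ (k m κ : ℤ) (J : Finset (ℤ × ℤ)), Rpj69Ctx L H k m κ J → ∀ (s : Bool) (A A' : RswCfg → Prop),
    (∀ ω ω', (rpj69D L κ m J s).Le ω ω' → A ω → A ω') → (∀ ω ω', (rpj69D L κ m J s).Le ω ω' → A' ω → A' ω') →
    (rpj69D L κ m J s).Pr t (Rpj69K L κ m J s) A * (rpj69D L κ m J s).Pr t (Rpj69K L κ m J s) A' ≤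
      (rpj69D L κ m J s).Pr t (Rpj69K L κ m J s) (fun ω => A ω ∧ A' ω)

/-- (WF) the doubly cut system is well formed      (deterministic contract; producer 111) -/
def Rpj69Wf (L H : ℕ) : Prop :=
  ∀ (k m κ : ℤ) (J : Finset (ℤ × ℤ)), Rpj69Ctx L H k m κ J → ∀ s : Bool, (rpj69D L κ m J s).WF

theorem rpj69_eqns_cite2 : True := by
  have := @rpj69Full.eq_1
  have := @Rpj69Fkg.eq_1
  have := @Rpj69Wf.eq_1
  trivial

/-! ## (P2): the cut along the row `H` -/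

section p2

variable {L H : ℕ} {k m κ : ℤ} {J : Finset (ℤ × ℤ)}

theorem rpj69_b (c : Rpj69Ctx L H k m κ J) : 2 * (κ + m / 2) = 2 * κ + m := by
  obtain ⟨r, hr⟩ := c.hme
  omega

theorem rpj69_Hb (c : Rpj69Ctx L H k m κ J) : (H : ℤ) < κ + m / 2 := by
  have := rpj69_b c; have := c.hN; have := c.hk; have := c.hm
  omega

/-- (g0) the mirror images of the record lie above the row `H` -/
theorem rpj69_G_high (c : Rpj69Ctx L H k m κ J) (s : Bool) {f : ℤ × ℤ} (hf : f ∈ rpj69G L κ m J s) : (H : ℤ) < f.2 := by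
  have hb := rpj69_b c
  have h1 := c.hN; have h2 := c.hk; have h3 := c.hm
  unfold rpj69G at hf
  cases s
  · simp only [Bool.false_eq_true, if_false] at hf
    obtain ⟨hF, hJ⟩ := Finset.mem_filter.1 hf
    have hl := c.hlow _ hJ
    unfold rcp162gV at hl
    rw [rcv69_top_snd, rcy162_red_snd] at hl
    simp only at hl
    omega
  · simp only [if_true] at hf
    obtain ⟨v, hv, rfl⟩ := Finset.mem_image.1 hf
    have hl := c.hlow _ hv
    unfold rcp162gF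
    rw [rcv69_bot_snd, rcy162_red_snd]
    simp only
    omega

/-- rows of the endpoints and of the faces of a pair of the cap -/
theorem rpj69_cap_rows (a b : ℤ) (e : (ℤ × ℤ) × Bool) :
    ((rci69Cap L a b).p0 e).2 = e.1.2 ∧ ((rci69Cap L a b).p1 e).2 = (if e.2 then e.1.2 + 1 else e.1.2) ∧
      ((rci69Cap L a b).f0 e).2 = e.1.2 ∧ ((rci69Cap L a b).f1 e).2 = (if e.2 then e.1.2 else e.1.2 - 1) := by
  refine ⟨rfl, ?_, rfl, ?_⟩
  · show (rci69TopV b (rcy162Red L (rswEnd e))).2 = _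
    rw [rcv69_top_snd, rcy162_red_snd, rcs127_end_row]
  · show (rci69BotF a (rcy162Red L (rswCo e))).2 = _
    rw [rcv69_bot_snd, rcy162_red_snd, rcs127_co_row]

/-- a pair of the cap with an endpoint in `J` is a pair of the cylinder or a horizontal pair of the row `0` -/
theorem rpj69_low_pair (c : Rpj69Ctx L H k m κ J) {e : (ℤ × ℤ) × Bool} (he : e ∈ (rpj69Y L κ m).E)
    (hJ : (rpj69Y L κ m).p0 e ∈ J ∨ (rpj69Y L κ m).p1 e ∈ J) : e ∈ (rcy162Cyl L 0 H).E ∨ (e.2 = false ∧ e.1.2 = 0) := by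
  obtain ⟨r1, r2, r3⟩ := rci69_mem_capE.1 he
  obtain ⟨q0, q1, _, _⟩ := rpj69_cap_rows (L := L) 0 (κ + m / 2) e
  have h1 := c.hκ; have h2 := c.hκH; have h3 := c.hm
  have hrow : 2 * e.1.2 < k + m - 1 := by
    rcases hJ with h | h
    · have := c.hlow _ h
      have e0 : ((rpj69Y L κ m).p0 e).2 = e.1.2 := q0
      omega
    · have := c.hlow _ h
      have e0 : ((rpj69Y L κ m).p1 e).2 = (if e.2 then e.1.2 + 1 else e.1.2) := q1
      rw [e0] at this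
      split_ifs at this <;> omega
  by_cases hb : e.2 = true
  · exact Or.inl (rcy162_mem_cylE.2 ⟨r1, Or.inr ⟨hb, r2, by omega⟩⟩)
  · have hb' : e.2 = false := by simpa using hb
    by_cases h0 : e.1.2 = 0
    · exact Or.inr ⟨hb', h0⟩
    · exact Or.inl (rcy162_mem_cylE.2 ⟨r1, Or.inl ⟨hb', by omega, by omega⟩⟩)

theorem rpj69_cyl_sub_cap (c : Rpj69Ctx L H k m κ J) {e : (ℤ × ℤ) × Bool} (he : e ∈ (rcy162Cyl L 0 H).E) : e ∈ (rpj69Y L κ m).E := by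
  obtain ⟨r1, r2⟩ := rcy162_mem_cylE.1 he
  have := rpj69_Hb c
  exact rci69_mem_capE.2 ⟨r1, by omega, by omega⟩

/-- the incidences of the cap and of the cylinder agree on the pairs of the cylinder -/
theorem rpj69_inc (c : Rpj69Ctx L H k m κ J) {e : (ℤ × ℤ) × Bool} (he : e ∈ (rcy162Cyl L 0 H).E) :
    (rpj69Y L κ m).p0 e = (rcy162Cyl L 0 H).p0 e ∧ (rpj69Y L κ m).p1 e = (rcy162Cyl L 0 H).p1 e ∧
      (rpj69Y L κ m).f0 e = (rcy162Cyl L 0 H).f0 e ∧ (rpj69Y L κ m).f1 e = (rcy162Cyl L 0 H).f1 e :=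
  ⟨rfl, (rcv69_cap_eq (L := L) le_rfl (rpj69_Hb c) he).1, rfl, (rcv69_cap_eq (L := L) le_rfl (rpj69_Hb c) he).2⟩

/-- a horizontal pair of the row `0` has both endpoints in `J` -/
theorem rpj69_row0_pair (hL : 0 < L) (c : Rpj69Ctx L H k m κ J) {e : (ℤ × ℤ) × Bool} (he : e ∈ (rpj69Y L κ m).E) (h1 : e.2 = false) (h2 : e.1.2 = 0) :
    (rpj69Y L κ m).p0 e ∈ J ∧ (rpj69Y L κ m).p1 e ∈ J := by
  obtain ⟨r1, _, _⟩ := rci69_mem_capE.1 he
  obtain ⟨⟨x, y⟩, bb⟩ := e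
  simp only at h1 h2 r1
  subst h1; subst h2
  have hb := rpj69_Hb c
  refine ⟨c.h0 (rcy162_mem_row.2 ⟨r1, rfl⟩), c.h0 ?_⟩
  show rci69TopV (κ + m / 2) (rcy162Red L (rswEnd ((x, 0), false))) ∈ _
  rw [rcv69_top_of (by rw [rcy162_red_snd, rtd111_end_f]; simp only; omega)]
  exact rcy162_mem_row.2 ⟨rcy162_red_range hL _, rfl⟩

/-- the cut pairs of `J` are the same in the cap and in the cylinder -/
theorem rpj69_E0_eq (hL : 0 < L) (c : Rpj69Ctx L H k m κ J) : rcs127E0 (rcs127Sw (rpj69Y L κ m)) J = rcs127E0 (rcs127Sw (rcy162Cyl L 0 H)) J := by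
  ext e
  rw [rcs127_mem_E0, rcs127_mem_E0]
  constructor
  · rintro ⟨he, hn⟩
    have he' : e ∈ (rpj69Y L κ m).E := he
    have hn' : ¬ ((rpj69Y L κ m).p0 e ∈ J ↔ (rpj69Y L κ m).p1 e ∈ J) := hn
    have hJ : (rpj69Y L κ m).p0 e ∈ J ∨ (rpj69Y L κ m).p1 e ∈ J := by
      by_contra hh
      push Not at hh
      exact hn' ⟨fun x => absurd x hh.1, fun x => absurd x hh.2⟩
    rcases rpj69_low_pair c he' hJ with h | ⟨h1, h2⟩
    · refine ⟨h, ?_⟩
      obtain ⟨i0, i1, _, _⟩ := rpj69_inc c h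
      show ¬ ((rcy162Cyl L 0 H).p0 e ∈ J ↔ (rcy162Cyl L 0 H).p1 e ∈ J)
      rw [← i0, ← i1]
      exact hn'
    · obtain ⟨a0, a1⟩ := rpj69_row0_pair hL c he' h1 h2
      exact absurd ⟨fun _ => a1, fun _ => a0⟩ hn'
  · rintro ⟨he, hn⟩
    have he' : e ∈ (rcy162Cyl L 0 H).E := he
    refine ⟨rpj69_cyl_sub_cap c he', ?_⟩
    obtain ⟨i0, i1, _, _⟩ := rpj69_inc c he'
    show ¬ ((rpj69Y L κ m).p0 e ∈ J ↔ (rpj69Y L κ m).p1 e ∈ J)
    rw [i0, i1]
    exact hn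

/-- (Lemma A) the rim of `J` is the same in the cap and in the cylinder -/
theorem rpj69_V0_eq (hL : 0 < L) (c : Rpj69Ctx L H k m κ J) : rcs127V0 (rcs127Sw (rpj69Y L κ m)) J = rcs127V0 (rcs127Sw (rcy162Cyl L 0 H)) J := by
  unfold rcs127V0
  rw [rpj69_E0_eq hL c]
  have hE : ∀ e ∈ rcs127E0 (rcs127Sw (rcy162Cyl L 0 H)) J, e ∈ (rcy162Cyl L 0 H).E := fun e he => (rcs127_mem_E0.1 he).1
  congr 1
  exact Finset.image_congr fun e he => (rpj69_inc c (hE e he)).2.2.2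

theorem rpj69_mem_outP_E {Y : Rcy162Sys} {J : Finset (ℤ × ℤ)} {e : (ℤ × ℤ) × Bool} : e ∈ (rcs127OutP Y J).E ↔ e ∈ Y.E ∧ Y.p0 e ∉ J ∧ Y.p1 e ∉ J :=
  rcs127_mem_E2 (Z := rcs127Sw Y)

theorem rpj69_mem_D_E {s : Bool} {e : (ℤ × ℤ) × Bool} : e ∈ (rpj69D L κ m J s).E ↔
    (e ∈ (rpj69Y L κ m).E ∧ (rpj69Y L κ m).p0 e ∉ J ∧ (rpj69Y L κ m).p1 e ∉ J) ∧ (rpj69Y L κ m).f0 e ∉ rpj69G L κ m J s ∧ (rpj69Y L κ m).f1 e ∉ rpj69G L κ m J s := by
  have h : e ∈ (rpj69D L κ m J s).E ↔ e ∈ (rcs127OutP (rpj69Y L κ m) J).E ∧ (rcs127OutP (rpj69Y L κ m) J).f0 e ∉ rpj69G L κ m J s ∧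
      (rcs127OutP (rpj69Y L κ m) J).f1 e ∉ rpj69G L κ m J s := rcs127_mem_E2
  rw [h, rpj69_mem_outP_E]
  rfl

/-- the sites of the explored part of the upper search lie above the row `H` -/
theorem rpj69_V1_high (c : Rpj69Ctx L H k m κ J) (s : Bool) {v : ℤ × ℤ} (hv : v ∈ rcs127V1 (rcs127OutP (rpj69Y L κ m) J) (rpj69G L κ m J s)) : (H : ℤ) < v.2 := by
  have key : ∀ e, ((rpj69Y L κ m).f0 e ∈ rpj69G L κ m J s ∨ (rpj69Y L κ m).f1 e ∈ rpj69G L κ m J s) →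
      (H : ℤ) < ((rpj69Y L κ m).p0 e).2 ∧ (H : ℤ) < ((rpj69Y L κ m).p1 e).2 := by
    intro e he
    obtain ⟨q0, q1, q2, q3⟩ := rpj69_cap_rows (L := L) 0 (κ + m / 2) e
    have q0' : ((rpj69Y L κ m).p0 e).2 = e.1.2 := q0
    have q1' : ((rpj69Y L κ m).p1 e).2 = (if e.2 then e.1.2 + 1 else e.1.2) := q1
    have q2' : ((rpj69Y L κ m).f0 e).2 = e.1.2 := q2
    have q3' : ((rpj69Y L κ m).f1 e).2 = (if e.2 then e.1.2 else e.1.2 - 1) := q3
    rw [q0', q1']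
    rcases he with h | h
    · have := rpj69_G_high c s h
      rw [q2'] at this
      constructor
      · exact this
      · split_ifs <;> omega
    · have := rpj69_G_high c s h
      rw [q3'] at this
      constructor
      · split_ifs at this <;> omega
      · split_ifs at this ⊢ <;> omega
  rcases rcd111_mem_V1 hv with h | ⟨e, he, hp⟩
  · rcases Finset.mem_union.1 h with h | h
    · obtain ⟨e, he, rfl⟩ := Finset.mem_image.1 h
      have hn := (rcs127_mem_E0.1 he).2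
      refine (key e ?_).1
      by_contra hh
      push Not at hh
      exact hn ⟨fun x => absurd x hh.1, fun x => absurd x hh.2⟩
    · obtain ⟨e, he, rfl⟩ := Finset.mem_image.1 h
      have hn := (rcs127_mem_E0.1 he).2
      refine (key e ?_).2
      by_contra hh
      push Not at hh
      exact hn ⟨fun x => absurd x hh.1, fun x => absurd x hh.2⟩
  · have h1 := (rcs127_mem_E1.1 he).2.1
    rcases hp with rfl | rfl
    · exact (key e (Or.inl h1)).1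
    · exact (key e (Or.inl h1)).2

/-- (Lemma B) -/
theorem rpj69_V1_low (hL : 0 < L) (c : Rpj69Ctx L H k m κ J) {f : ℤ × ℤ} (hf : f ∈ (rcy162Cyl L 0 H).Fc) (h : f ∈ rcs127V1 (rcs127Sw (rpj69Y L κ m)) J) :
    f ∈ rcs127V1 (rcs127Sw (rcy162Cyl L 0 H)) J := by
  have hH := rpj69_ctx_H c
  obtain ⟨e, he, hJ, hfe⟩ := rcs127_mem_V1_sw h
  rcases rpj69_low_pair c he hJ with hZ | ⟨h1, h2⟩
  · obtain ⟨i0, i1, i2, i3⟩ := rpj69_inc c hZ
    have hn : e ∉ rcs127E2 (rcs127Sw (rcy162Cyl L 0 H)) J := by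
      intro hh
      obtain ⟨_, a0, a1⟩ := rpj69_mem_outP_E.1 hh
      rw [i0, i1] at hJ
      exact hJ.elim a0 a1
    obtain ⟨_, b0, b1⟩ := rcs127_del_V1 hZ hn
    rcases hfe with rfl | rfl
    · rw [i2]; exact b0
    · rw [i3]; exact b1
  · obtain ⟨r1, _, _⟩ := rci69_mem_capE.1 he
    rcases hfe with rfl | rfl
    · have hZ : (e.1, true) ∈ (rcy162Cyl L 0 H).E := rcy162_mem_cylE.2 ⟨r1, Or.inr ⟨rfl, by show 0 ≤ e.1.2; omega, by show e.1.2 < H; omega⟩⟩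
      have hn : (e.1, true) ∉ rcs127E2 (rcs127Sw (rcy162Cyl L 0 H)) J := by
        intro hh
        exact (rpj69_mem_outP_E.1 hh).2.1 (c.h0 (rcy162_mem_row.2 ⟨r1, h2⟩))
      exact (rcs127_del_V1 hZ hn).2.1
    · exfalso
      obtain ⟨_, s1, _⟩ := rcy162_mem_cylF.1 hf
      have q3 := (rpj69_cap_rows (L := L) 0 (κ + m / 2) e).2.2.2
      have q3' : ((rpj69Y L κ m).f1 e).2 = (if e.2 then e.1.2 else e.1.2 - 1) := q3
      rw [q3', h1] at s1
      simp only [Bool.false_eq_true, if_false] at s1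
      omega

/-- the core of the lower system inside the doubly cut system -/
noncomputable def rpj69C (L H : ℕ) (J : Finset (ℤ × ℤ)) : Finset (ℤ × ℤ) := (rcs127OutP (rcy162Cyl L 0 H) J).V \ rcy162Row L H

theorem rpj69_N_wf (hL : 0 < L) (c : Rpj69Ctx L H k m κ J) : (rcs127OutP (rcy162Cyl L 0 H) J).WF :=
  rpj69_outP_wf (rcy162_cyl_wf hL 0 H) (rcd111_adm_sw hL (by have := rpj69_ctx_H c; omega) c.h0 c.hV)

theorem rpj69_mem_N_V {v : ℤ × ℤ} : v ∈ (rcs127OutP (rcy162Cyl L 0 H) J).V ↔ v ∈ (rcy162Cyl L 0 H).V ∧ v ∉ J := Finset.mem_sdiff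

theorem rpj69_N_Fc_sub (hL : 0 < L) : (rcs127OutP (rcy162Cyl L 0 H) J).Fc ⊆ (rcy162Cyl L 0 H).Fc := by
  intro f hf
  rcases Finset.mem_union.1 hf with h | h
  · exact (Finset.mem_sdiff.1 h).1
  · exact rcs127_V0_sub (rcs127_sw_wf (rcy162_cyl_wf hL 0 H)) h

/-- a pair of the doubly cut system which is not a pair of the lower system lies in the rows `≥ H` -/
theorem rpj69_upper_pair (hL : 0 < L) (c : Rpj69Ctx L H k m κ J) {s : Bool} {e : (ℤ × ℤ) × Bool} (he : e ∈ (rpj69D L κ m J s).E)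
    (hn : e ∉ (rcs127OutP (rcy162Cyl L 0 H) J).E) : (H : ℤ) ≤ e.1.2 := by
  obtain ⟨⟨hY, a0, a1⟩, _⟩ := rpj69_mem_D_E.1 he
  obtain ⟨r1, r2, r3⟩ := rci69_mem_capE.1 hY
  by_contra hlt
  have hZ : e ∈ (rcy162Cyl L 0 H).E ∨ (e.2 = false ∧ e.1.2 = 0) := by
    by_cases hb : e.2 = true
    · exact Or.inl (rcy162_mem_cylE.2 ⟨r1, Or.inr ⟨hb, r2, by omega⟩⟩)
    · have hb' : e.2 = false := by simpa using hb
      by_cases h0 : e.1.2 = 0
      · exact Or.inr ⟨hb', h0⟩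
      · exact Or.inl (rcy162_mem_cylE.2 ⟨r1, Or.inl ⟨hb', by omega, by omega⟩⟩)
  rcases hZ with hZ | ⟨h1, h2⟩
  · obtain ⟨i0, i1, _, _⟩ := rpj69_inc c hZ
    exact hn (rpj69_mem_outP_E.2 ⟨hZ, by rw [← i0]; exact a0, by rw [← i1]; exact a1⟩)
  · exact a0 (rpj69_row0_pair hL c hY h1 h2).1

/-- **(g1) the lower system is a subsystem of the doubly cut system** -/
theorem rpj69_sub (hL : 0 < L) (c : Rpj69Ctx L H k m κ J) (s : Bool) :
    Rcy162Sub (rpj69D L κ m J s) (rcs127OutP (rcy162Cyl L 0 H) J) (rpj69C L H J) := by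
  have hb := rpj69_Hb c
  have hwZ := rcy162_cyl_wf hL 0 (H : ℤ)
  refine ⟨fun v hv => ?_, fun f hf => ?_, fun e he => ?_, Finset.sdiff_subset, rpj69_N_wf hL c, fun _ _ => rfl, fun e he => ?_, fun _ _ => rfl,
    fun e he => ?_, fun e he hn => ?_⟩
  · obtain ⟨h1, h2⟩ := rpj69_mem_N_V.1 hv
    obtain ⟨r1, r2, r3⟩ := rcy162_mem_cylV.1 h1
    refine Finset.mem_union.2 (Or.inl (Finset.mem_sdiff.2 ⟨Finset.mem_sdiff.2 ⟨rci69_mem_capV.2 (Or.inl ⟨r1, r2, by omega⟩), h2⟩, fun hh => ?_⟩))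
    have := rpj69_V1_high c s hh
    omega
  · have hZ := rpj69_N_Fc_sub hL hf
    obtain ⟨r1, r2, r3⟩ := rcy162_mem_cylF.1 hZ
    refine Finset.mem_sdiff.2 ⟨?_, fun hG => by have := rpj69_G_high c s hG; omega⟩
    rcases Finset.mem_union.1 hf with h | h
    · refine Finset.mem_union.2 (Or.inl (Finset.mem_sdiff.2 ⟨rci69_mem_capF.2 (Or.inl ⟨r1, r2, by omega⟩), fun hh => ?_⟩))
      exact (Finset.mem_sdiff.1 h).2 (rpj69_V1_low hL c hZ hh)
    · refine Finset.mem_union.2 (Or.inr ?_)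
      rw [rpj69_V0_eq hL c]
      exact h
  · obtain ⟨hZ, a0, a1⟩ := rpj69_mem_outP_E.1 he
    obtain ⟨i0, i1, i2, i3⟩ := rpj69_inc c hZ
    refine rpj69_mem_D_E.2 ⟨⟨rpj69_cyl_sub_cap c hZ, by rw [i0]; exact a0, by rw [i1]; exact a1⟩, fun hG => ?_, fun hG => ?_⟩
    · have := rpj69_G_high c s hG
      rw [i2] at this
      have := (rcy162_mem_cylF.1 (hwZ.f0 e hZ)).2.2
      omega
    · have := rpj69_G_high c s hG
      rw [i3] at this
      have := (rcy162_mem_cylF.1 (hwZ.f1 e hZ)).2.2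
      omega
  · exact (rpj69_inc c (rpj69_mem_outP_E.1 he).1).2.1.symm
  · exact (rpj69_inc c (rpj69_mem_outP_E.1 he).1).2.2.2.symm
  · have hrow := rpj69_upper_pair hL c he hn
    obtain ⟨q0, q1, _, _⟩ := rpj69_cap_rows (L := L) 0 (κ + m / 2) e
    have notC : ∀ v : ℤ × ℤ, (H : ℤ) ≤ v.2 → v ∉ rpj69C L H J := by
      intro v hv hC
      obtain ⟨h1, h2⟩ := Finset.mem_sdiff.1 hC
      obtain ⟨r1, r2, r3⟩ := rcy162_mem_cylV.1 (rpj69_mem_N_V.1 h1).1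
      exact h2 (rcy162_mem_row.2 ⟨r1, by omega⟩)
    refine ⟨notC _ ?_, notC _ ?_⟩
    · show (H : ℤ) ≤ ((rci69Cap L 0 (κ + m / 2)).p0 e).2
      rw [q0]; exact hrow
    · show (H : ℤ) ≤ ((rci69Cap L 0 (κ + m / 2)).p1 e).2
      rw [q1]; split_ifs <;> omega

theorem rpj69_rowH_N (c : Rpj69Ctx L H k m κ J) : rcy162Row L H ⊆ (rcs127OutP (rcy162Cyl L 0 H) J).V := by
  intro v hv
  obtain ⟨r1, r2⟩ := rcy162_mem_row.1 hv
  refine rpj69_mem_N_V.2 ⟨rcy162_mem_cylV.2 ⟨r1, by omega, by omega⟩, fun hJ => ?_⟩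
  have := c.hlow v hJ
  have := c.hκ; have := c.hκH; have := c.hm
  omega

theorem rpj69_rim_eq (c : Rpj69Ctx L H k m κ J) : (rcs127OutP (rcy162Cyl L 0 H) J).V \ rpj69C L H J = rcy162Row L H := by
  unfold rpj69C
  ext v
  rw [Finset.mem_sdiff, Finset.mem_sdiff]
  constructor
  · rintro ⟨h1, h2⟩
    by_contra hn
    exact h2 ⟨h1, hn⟩
  · intro h
    exact ⟨rpj69_rowH_N c h, fun x => x.2 h⟩

/-- **(g2) the pairs of the cut end on the row `H`** -/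
theorem rpj69_rim (hL : 0 < L) (c : Rpj69Ctx L H k m κ J) (s : Bool) :
    ∀ e ∈ (rpj69D L κ m J s).E \ (rcs127OutP (rcy162Cyl L 0 H) J).E,
      ((rpj69D L κ m J s).f0 e ∈ (rcs127OutP (rcy162Cyl L 0 H) J).Fc ∨ (rpj69D L κ m J s).f1 e ∈ (rcs127OutP (rcy162Cyl L 0 H) J).Fc) →
      (rpj69D L κ m J s).p0 e ∈ (rcs127OutP (rcy162Cyl L 0 H) J).V \ rpj69C L H J ∧
        (rpj69D L κ m J s).p1 e ∈ (rcs127OutP (rcy162Cyl L 0 H) J).V \ rpj69C L H J := by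
  intro e he hf
  rw [rpj69_rim_eq c]
  obtain ⟨heD, heN⟩ := Finset.mem_sdiff.1 he
  have hrow := rpj69_upper_pair hL c heD heN
  obtain ⟨⟨hY, _, _⟩, _⟩ := rpj69_mem_D_E.1 heD
  obtain ⟨r1, r2, r3⟩ := rci69_mem_capE.1 hY
  obtain ⟨q0, q1, q2, q3⟩ := rpj69_cap_rows (L := L) 0 (κ + m / 2) e
  have hb := rpj69_Hb c
  have hrowf : e.2 = false ∧ e.1.2 = H := by
    rcases hf with h | h
    · have := (rcy162_mem_cylF.1 (rpj69_N_Fc_sub hL h)).2.2
      have e0 : ((rpj69D L κ m J s).f0 e).2 = e.1.2 := q2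
      omega
    · have := (rcy162_mem_cylF.1 (rpj69_N_Fc_sub hL h)).2.2
      have e0 : ((rpj69D L κ m J s).f1 e).2 = (if e.2 then e.1.2 else e.1.2 - 1) := q3
      rw [e0] at this
      split_ifs at this with hb2
      · omega
      · exact ⟨by simpa using hb2, by omega⟩
  obtain ⟨⟨x, y⟩, bb⟩ := e
  simp only at hrowf r1
  obtain ⟨rfl, rfl⟩ := hrowf
  refine ⟨rcy162_mem_row.2 ⟨r1, rfl⟩, ?_⟩
  show rci69TopV (κ + m / 2) (rcy162Red L (rswEnd ((x, (H : ℤ)), false))) ∈ _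
  rw [rcv69_top_of (by rw [rcy162_red_snd, rtd111_end_f]; simp only; omega)]
  exact rcy162_mem_row.2 ⟨rcy162_red_range hL _, rfl⟩

theorem rpj69_sub_cyl (hL : 0 < L) (c : Rpj69Ctx L H k m κ J) : Rcy162Sub (rcy162Cyl L 0 H) (rcs127OutP (rcy162Cyl L 0 H) J) ∅ :=
  ⟨Finset.sdiff_subset, rpj69_N_Fc_sub hL, fun e he => (rpj69_mem_outP_E.1 he).1, Finset.empty_subset _, rpj69_N_wf hL c, fun _ _ => rfl, fun _ _ => rfl,
    fun _ _ => rfl, fun _ _ => rfl, fun _ _ _ => ⟨Finset.notMem_empty _, Finset.notMem_empty _⟩⟩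

/-- the points of the high band belong to the lower system -/
theorem rpj69_band_V (hL : 0 < L) (c : Rpj69Ctx L H k m κ J) {v : ℤ × ℤ} (h1 : κ ≤ (rtd111P v).2) (h2 : (rtd111P v).2 ≤ κ + m - 1) :
    rcy162Red L v ∈ (rcs127OutP (rcy162Cyl L 0 H) J).V := by
  simp only [rtd111P] at h1 h2
  have a1 := c.hκ; have a2 := c.hκH; have a3 := c.hm; have a4 := c.hk
  refine rpj69_mem_N_V.2 ⟨rcy162_mem_cylV.2 ⟨rcy162_red_range hL _, by show 0 ≤ v.2; omega, by show v.2 ≤ H; omega⟩, fun hJ => ?_⟩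
  have := c.hlow _ hJ
  rw [rcy162_red_snd] at this
  omega

theorem rpj69_band_E (hL : 0 < L) (c : Rpj69Ctx L H k m κ J) {e : (ℤ × ℤ) × Bool} (h1 : κ ≤ (rtd111E e).2) (h2 : (rtd111E e).2 ≤ κ + m - 1) :
    rcy162RedE L e ∈ (rcs127OutP (rcy162Cyl L 0 H) J).E := by
  have a1 := c.hκ; have a2 := c.hκH; have a3 := c.hm; have a4 := c.hk
  obtain ⟨q0, q1, _, _⟩ := rcs127_cyl_rows L 0 H (rcy162RedE L e)
  have hr : (rcy162RedE L e).1.2 = e.1.2 := rfl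
  have hb : (rcy162RedE L e).2 = e.2 := rfl
  rw [rcs127_E_row] at h1 h2
  refine rpj69_mem_outP_E.2 ⟨rcy162_mem_cylE.2 ⟨rcy162_red_range hL _, ?_⟩, fun hJ => ?_, fun hJ => ?_⟩
  · rw [hr, hb]
    by_cases hbb : e.2 = true
    · rw [if_pos hbb] at h1 h2
      exact Or.inr ⟨hbb, by omega, by omega⟩
    · rw [if_neg hbb] at h1 h2
      exact Or.inl ⟨by simpa using hbb, by omega, by omega⟩
  · have := c.hlow _ hJ
    rw [q0, hr] at this
    split_ifs at h1 <;> omega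
  · have := c.hlow _ hJ
    rw [q1, hr, hb] at this
    split_ifs at h1 this <;> omega

/-- an event of the high band read in the three systems -/
theorem rpj69_ev_cyl (hL : 0 < L) (c : Rpj69Ctx L H k m κ J) {E : Set CyF} (hE : CySup κ (κ + m - 1) E) (ω : RswCfg) :
    rcy162Fld L (rcs127OutP (rcy162Cyl L 0 H) J) (rcy162In (rcs127OutP (rcy162Cyl L 0 H) J) ω) ∈ E ↔ rcy162Fld L (rcy162Cyl L 0 H) ω ∈ E :=
  hE _ _ fun u hu1 hu2 => rcv69_fld_sub (rpj69_sub_cyl hL c) ω (fun v hv => rpj69_band_V hL c (by rw [← hv]; exact hu1) (by rw [← hv]; exact hu2))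
    (fun e he => rpj69_band_E hL c (by rw [← he]; exact hu1) (by rw [← he]; exact hu2))

theorem rpj69_ev_D (hL : 0 < L) (c : Rpj69Ctx L H k m κ J) (s : Bool) {E : Set CyF} (hE : CySup κ (κ + m - 1) E) (ω : RswCfg) :
    rcy162Fld L (rcs127OutP (rcy162Cyl L 0 H) J) (rcy162In (rcs127OutP (rcy162Cyl L 0 H) J) ω) ∈ E ↔ rcy162Fld L (rpj69D L κ m J s) ω ∈ E :=
  hE _ _ fun u hu1 hu2 => rcv69_fld_sub (rpj69_sub hL c s) ω (fun v hv => rpj69_band_V hL c (by rw [← hv]; exact hu1) (by rw [← hv]; exact hu2))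
    (fun e he => rpj69_band_E hL c (by rw [← he]; exact hu1) (by rw [← he]; exact hu2))

theorem rpj69_V0_sub_N (hL : 0 < L) (c : Rpj69Ctx L H k m κ J) : rcs127V0 (rcs127Sw (rpj69Y L κ m)) J ⊆ (rcs127OutP (rcy162Cyl L 0 H) J).Fc := by
  rw [rpj69_V0_eq hL c]
  exact rcs127_V0_sub_V2

/-- **(P2) from T1 on the doubly cut system and its well-formedness** -/
theorem rpj69_P2 {t : ℝ} (h0 : 0 < t) (h1 : t ≤ 1) (hL : 0 < L) (hF : Rpj69Fkg t L H) (hW : Rpj69Wf L H) : Rpj69P2 t L H := by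
  intro k m κ J c s E hI hS
  have hsub := rpj69_sub hL c s
  have hV0 := rpj69_V0_sub_N hL c
  -- the constraint, split
  have hKiff : ∀ ω, Rpj69K L κ m J s ω ↔ (Rcs127Pin (rcs127V0 (rcs127OutP (rpj69Y L κ m) J) (rpj69G L κ m J s)) true ω ∧
      (fun ω : RswCfg => ∀ f ∈ rcs127V0 (rcs127Sw (rpj69Y L κ m)) J, f ∈ ω.D) (rcy162In (rcs127OutP (rcy162Cyl L 0 H) J) ω)) := by
    intro ω
    unfold Rpj69K
    refine and_congr_right fun _ => ⟨fun x f hf => Finset.mem_inter.2 ⟨x f hf, hV0 hf⟩, fun x f hf => (Finset.mem_inter.1 (x f hf)).1⟩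
  have key1 := fun ω => rpj69_ev_cyl hL c hS ω
  have key2 := fun ω => rpj69_ev_D hL c s hS ω
  have keyB : ∀ ω, rcy162Fld L (rcy162Cyl L 0 H) (rcy162In (rcs127OutP (rcy162Cyl L 0 H) J) ω) ∈ E ↔ rcy162Fld L (rpj69D L κ m J s) ω ∈ E := by
    intro ω
    rw [← key1, rcv69_in_in, key2]
  have hdom := rpj69_dom_in hsub h0 h1 (Ko := Rcs127Pin (rcs127V0 (rcs127OutP (rpj69Y L κ m) J) (rpj69G L κ m J s)) true)
    (Ki := fun ω : RswCfg => ∀ f ∈ rcs127V0 (rcs127Sw (rpj69Y L κ m)) J, f ∈ ω.D)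
    (fun ω => by
      unfold Rcs127Pin
      refine forall₂_congr fun v hv => ?_
      have hvC : v ∉ rpj69C L H J := by
        intro hC
        have a := rpj69_V1_high c s (rcs127_V0_sub_V1 hv)
        have b := (rcy162_mem_cylV.1 (rpj69_mem_N_V.1 (Finset.mem_sdiff.1 hC).1).1).2.2
        omega
      rw [rcy162_out_S hvC])
    (fun A A' hA hA' => by
      have := hF k m κ J c s A A' hA hA'
      rw [rcy162_P_congr_K _ t (fun ω _ => hKiff ω), rcy162_P_congr_K _ t (fun ω _ => hKiff ω), rcy162_P_congr_K _ t (fun ω _ => hKiff ω)] at this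
      exact this)
    (rpj69_rim hL c s) (hW k m κ J c s)
    (fun v hv => ⟨fun _ => rfl, fun _ => rcs127_V0_sub_V2 hv⟩)
    (fun f hf => hV0 hf)
    (B := fun ω => rcy162Fld L (rcy162Cyl L 0 H) ω ∈ E)
    (fun ω ω' hle hω => (keyB ω').2 (hI _ _ (rcy162_fld_mono L hle) ((keyB ω).1 hω)))
  unfold rpj69Lam rpj69Nu
  rw [rcy162_P_congr_K _ t (fun ω _ => hKiff ω)]
  refine le_trans (le_of_eq ?_) (le_trans hdom (le_of_eq ?_))
  · refine rcy162_P_congr _ _ t fun ω _ _ => ?_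
    rw [keyB, ← key2, key1]
  · refine rcy162_P_congr_K _ t (fun ω _ => ?_) _
    unfold Rcy162Pin Rcs127KP
    rw [rpj69_rim_eq c, rpj69_V0_eq hL c]
    constructor
    · rintro ⟨x, y⟩
      exact ⟨fun f hf => ⟨fun _ => rfl, fun _ => y f hf⟩, fun v hv => (x v hv).2 (rpj69_rowH_N c hv)⟩
    · rintro ⟨x, y⟩
      exact ⟨fun v hv => ⟨fun _ => rpj69_rowH_N c hv, fun _ => y hv⟩, fun f hf => (x f hf).2 rfl⟩

end p2

/-- **ASSEMBLY 2**: what remains of `Rcs127PerJc` = (T1) and (WF) on the doubly cut system, (P3), (P4), (P5) -/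
theorem rpj69_perJc2 {t : ℝ} (h0 : 0 < t) (h1 : t ≤ 1) {L : ℕ} (hL : 0 < L) {H : ℕ} (hF : Rpj69Fkg t L H) (hW : Rpj69Wf L H)
    (p3 : Rpj69P3 t L H) (p4 : Rpj69P4 t L H) (p5 : Rpj69P5 t L H) : Rcs127PerJc t L H :=
  rpj69_perJc (rpj69_P0 h0 h1 hL H) (rpj69_P2 h0 h1 hL hF hW) p3 p4 p5

theorem rpj69_eqns_cite3 : True := by
  have := @rpj69C.eq_1
  trivial

/-! ## the fields `u0`, `ch`, `dis` of `Rpt127Geo` (127, `PerJT127`): the upper explored sites are chained to the top pole      (prefix `rpc69`) -/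

/-! ## chains -/

theorem rpc69_chain_symm {Y : Rcy162Sys} {π : ℤ × ℤ → ℤ × ℤ} {E' : Finset ((ℤ × ℤ) × Bool)} {u v : ℤ × ℤ} (h : Rcs127Chain Y π E' u v) : Rcs127Chain Y π E' v u := by
  obtain ⟨z, h1, h2⟩ := h
  exact ⟨z, h1, fun ρ => by rw [h2 ρ, add_comm]⟩

theorem rpc69_chain_trans {Y : Rcy162Sys} {π : ℤ × ℤ → ℤ × ℤ} {E' : Finset ((ℤ × ℤ) × Bool)} {u v w : ℤ × ℤ} (h : Rcs127Chain Y π E' u v)
    (h' : Rcs127Chain Y π E' v w) : Rcs127Chain Y π E' u w := by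
  obtain ⟨z, h1, h2⟩ := h
  obtain ⟨z', h1', h2'⟩ := h'
  refine ⟨fun e => z e + z' e, fun e he => by show z e + z' e = 0; rw [h1 e he, h1' e he, add_zero], fun ρ => ?_⟩
  simp only [add_mul, Finset.sum_add_distrib]
  rw [h2 ρ, h2' ρ]
  have : ρ v + ρ v = 0 := CharTwo.add_self_eq_zero _
  calc ρ v + ρ u + (ρ w + ρ v) = ρ w + ρ u + (ρ v + ρ v) := by ring
    _ = ρ w + ρ u := by rw [this, add_zero]

theorem rpc69_chain_pair {Y : Rcy162Sys} {E' : Finset ((ℤ × ℤ) × Bool)} {e : (ℤ × ℤ) × Bool} (he : e ∈ Y.E) (hn : e ∉ E') :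
    Rcs127Chain Y id E' (Y.p0 e) (Y.p1 e) :=
  rcs127_chain_step (rcs127_chain_refl Y id E' (Y.p0 e)) he hn (Or.inl ⟨rfl, rfl⟩)

section up

variable {L H : ℕ} {k m κ : ℤ} {J : Finset (ℤ × ℤ)}

/-- the mirror map on the sites of the record -/
def rpc69Phi (L : ℕ) (κ m : ℤ) (s : Bool) (v : ℤ × ℤ) : ℤ × ℤ := rcy162Red L (v.1 - (if s then 0 else 1), κ + m / 2 - 1 - v.2)

theorem rpc69_J_range (c : Rpj69Ctx L H k m κ J) {v : ℤ × ℤ} (hv : v ∈ J) : (0 ≤ v.1 ∧ v.1 < L) ∧ 0 ≤ v.2 ∧ 2 * v.2 < k + m - 1 :=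
  ⟨(rcy162_mem_cylV.1 (c.hV hv)).1, (rcy162_mem_cylV.1 (c.hV hv)).2.1, c.hlow v hv⟩

theorem rpc69_not_J (c : Rpj69Ctx L H k m κ J) {v : ℤ × ℤ} (hv : (H : ℤ) < v.2) : v ∉ J := by
  intro hJ
  have := c.hlow v hJ
  have := c.hκ; have := c.hκH; have := c.hm
  omega

theorem rpc69_phi_mem (hL : 0 < L) (c : Rpj69Ctx L H k m κ J) (s : Bool) {v : ℤ × ℤ} (hv : v ∈ J) : rpc69Phi L κ m s v ∈ rpj69G L κ m J s := by
  obtain ⟨r1, r2, r3⟩ := rpc69_J_range c hv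
  have hb := rpj69_b c
  have a1 := c.hN; have a2 := c.hk; have a3 := c.hm
  unfold rpj69G rpc69Phi
  cases s
  · simp only [Bool.false_eq_true, if_false]
    refine Finset.mem_filter.2 ⟨rci69_mem_capF.2 (Or.inl ⟨rcy162_red_range hL _, by rw [rcy162_red_snd]; simp only; omega, by rw [rcy162_red_snd]; simp only; omega⟩), ?_⟩
    have : rcp162gV L 0 (κ + m / 2) (rcy162Red L (v.1 - 1, κ + m / 2 - 1 - v.2)) = v := by
      unfold rcp162gV
      rw [rcv69_top_of (by rw [rcy162_red_snd, rcy162_red_snd]; simp only; omega)]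
      unfold rcy162Red
      simp only
      refine Prod.ext ?_ (by simp only; ring)
      simp only
      rw [Int.emod_add_emod, sub_add_cancel, Int.emod_eq_of_lt r1.1 r1.2]
    rw [this]
    exact hv
  · simp only [if_true]
    refine Finset.mem_image.2 ⟨v, hv, ?_⟩
    unfold rcp162gF
    rw [rcv69_bot_of (by rw [rcy162_red_snd]; simp only; omega)]
    congr 2 <;> ring

theorem rpc69_mem_G (hL : 0 < L) (c : Rpj69Ctx L H k m κ J) (s : Bool) {f : ℤ × ℤ} (hf : f ∈ rpj69G L κ m J s) : ∃ v ∈ J, f = rpc69Phi L κ m s v := by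
  have hhigh := rpj69_G_high c s hf
  have hb := rpj69_b c
  have a1 := c.hN; have a2 := c.hk; have a3 := c.hm
  unfold rpj69G at hf
  cases s
  · simp only [Bool.false_eq_true, if_false] at hf
    obtain ⟨hF, hJ⟩ := Finset.mem_filter.1 hf
    refine ⟨_, hJ, ?_⟩
    rcases rci69_mem_capF.1 hF with ⟨r1, r2, r3⟩ | hp
    · unfold rpc69Phi rcp162gV
      rw [rcv69_top_of (by rw [rcy162_red_snd]; simp only; omega)]
      unfold rcy162Red
      simp only [Bool.false_eq_true, if_false]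
      refine Prod.ext ?_ (by simp only; ring)
      simp only
      rw [Int.emod_sub_emod, add_sub_cancel_right, Int.emod_eq_of_lt r1.1 r1.2]
    · rw [hp] at hhigh
      simp only at hhigh
      omega
  · simp only [if_true] at hf
    obtain ⟨v, hv, rfl⟩ := Finset.mem_image.1 hf
    obtain ⟨r1, r2, r3⟩ := rpc69_J_range c hv
    refine ⟨v, hv, ?_⟩
    unfold rcp162gF rpc69Phi
    rw [rcv69_bot_of (by rw [rcy162_red_snd]; simp only; omega)]
    congr 2 <;> simp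

/-- a face of `G` is a regular face above the row `H` -/
theorem rpc69_G_reg (hL : 0 < L) (c : Rpj69Ctx L H k m κ J) (s : Bool) {g : ℤ × ℤ} (hg : g ∈ rpj69G L κ m J s) :
    (0 ≤ g.1 ∧ g.1 < L) ∧ (H : ℤ) < g.2 ∧ g.2 < κ + m / 2 := by
  obtain ⟨v, hv, rfl⟩ := rpc69_mem_G hL c s hg
  obtain ⟨r1, r2, r3⟩ := rpc69_J_range c hv
  refine ⟨rcy162_red_range hL _, rpj69_G_high c s hg, ?_⟩
  show κ + m / 2 - 1 - v.2 < κ + m / 2
  omega

/-- a pair of the cap whose rows are above `H` and which has a face in `G`: it is a deleted pair of the minor -/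
theorem rpc69_del (c : Rpj69Ctx L H k m κ J) (s : Bool) {e : (ℤ × ℤ) × Bool} (he : e ∈ (rpj69Y L κ m).E) (hrow : (H : ℤ) < e.1.2)
    (hG : (rpj69Y L κ m).f0 e ∈ rpj69G L κ m J s ∨ (rpj69Y L κ m).f1 e ∈ rpj69G L κ m J s) :
    e ∈ (rcs127OutC (rpj69Y L κ m) J (0, -1)).E ∧ e ∉ rcs127E2 (rcs127OutP (rpj69Y L κ m) J) (rpj69G L κ m J s) := by
  obtain ⟨q0, q1, _, _⟩ := rpj69_cap_rows (L := L) 0 (κ + m / 2) e
  constructor
  · refine rpj69_mem_outP_E.2 ⟨he, rpc69_not_J c ?_, rpc69_not_J c ?_⟩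
    · show (H : ℤ) < ((rci69Cap L 0 (κ + m / 2)).p0 e).2
      rw [q0]; exact hrow
    · show (H : ℤ) < ((rci69Cap L 0 (κ + m / 2)).p1 e).2
      rw [q1]; split_ifs <;> omega
  · intro hh
    obtain ⟨_, b0, b1⟩ := rcs127_mem_E2.1 hh
    exact hG.elim b0 b1

/-- the chains of the upper part -/
abbrev Rpc69Ch (L : ℕ) (κ m : ℤ) (J : Finset (ℤ × ℤ)) (s : Bool) (u v : ℤ × ℤ) : Prop :=
  Rcs127Chain (rcs127OutC (rpj69Y L κ m) J (0, -1)) id (rcs127E2 (rcs127OutP (rpj69Y L κ m) J) (rpj69G L κ m J s)) u v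

theorem rpc69_ch_pair (c : Rpj69Ctx L H k m κ J) (s : Bool) {e : (ℤ × ℤ) × Bool} (he : e ∈ (rpj69Y L κ m).E) (hrow : (H : ℤ) < e.1.2)
    (hG : (rpj69Y L κ m).f0 e ∈ rpj69G L κ m J s ∨ (rpj69Y L κ m).f1 e ∈ rpj69G L κ m J s) :
    Rpc69Ch L κ m J s ((rpj69Y L κ m).p0 e) ((rpj69Y L κ m).p1 e) :=
  rpc69_chain_pair (rpc69_del c s he hrow hG).1 (rpc69_del c s he hrow hG).2

/-- from the anchor of a face of `G` to its right and upper corners -/
theorem rpc69_ch_right (hL : 0 < L) (c : Rpj69Ctx L H k m κ J) (s : Bool) {g : ℤ × ℤ} (hg : g ∈ rpj69G L κ m J s) :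
    Rpc69Ch L κ m J s g (rcy162Red L (g.1 + 1, g.2)) := by
  obtain ⟨r1, r2, r3⟩ := rpc69_G_reg hL c s hg
  have h := rpc69_ch_pair c s (e := (g, false)) (rci69_mem_capE.2 ⟨r1, by show 0 ≤ g.2; omega, r3⟩) r2 (Or.inl hg)
  have e1 : (rpj69Y L κ m).p1 (g, false) = rcy162Red L (g.1 + 1, g.2) := by
    show rci69TopV (κ + m / 2) (rcy162Red L (rswEnd (g, false))) = _
    obtain ⟨x, y⟩ := g
    rw [rtd111_end_f, rcv69_top_of (by rw [rcy162_red_snd]; simp only at r3 ⊢; omega)]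
  rw [e1] at h
  exact h

theorem rpc69_ch_up (hL : 0 < L) (c : Rpj69Ctx L H k m κ J) (s : Bool) {g : ℤ × ℤ} (hg : g ∈ rpj69G L κ m J s) :
    Rpc69Ch L κ m J s g (rci69TopV (κ + m / 2) (g.1, g.2 + 1)) := by
  obtain ⟨r1, r2, r3⟩ := rpc69_G_reg hL c s hg
  have h := rpc69_ch_pair c s (e := (g, true)) (rci69_mem_capE.2 ⟨r1, by show 0 ≤ g.2; omega, r3⟩) r2 (Or.inl hg)
  have e1 : (rpj69Y L κ m).p1 (g, true) = rci69TopV (κ + m / 2) (g.1, g.2 + 1) := by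
    show rci69TopV (κ + m / 2) (rcy162Red L (rswEnd (g, true))) = _
    obtain ⟨x, y⟩ := g
    rw [rtd111_end_t, rcy162_red_of_range (u := (x, y + 1)) r1.1 r1.2]
  rw [e1] at h
  exact h

/-- (c5) the endpoints of a pair with the face `g ∈ G` are chained to the anchor of `g` -/
theorem rpc69_ch_ends (hL : 0 < L) (c : Rpj69Ctx L H k m κ J) (s : Bool) {g : ℤ × ℤ} (hg : g ∈ rpj69G L κ m J s) {e : (ℤ × ℤ) × Bool}
    (he : e ∈ (rpj69Y L κ m).E) (hf : (rpj69Y L κ m).f0 e = g ∨ (rpj69Y L κ m).f1 e = g) :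
    Rpc69Ch L κ m J s g ((rpj69Y L κ m).p0 e) ∧ Rpc69Ch L κ m J s g ((rpj69Y L κ m).p1 e) := by
  obtain ⟨r1, r2, r3⟩ := rpc69_G_reg hL c s hg
  obtain ⟨t1, t2, t3⟩ := rci69_mem_capE.1 he
  obtain ⟨_, _, q2, q3⟩ := rpj69_cap_rows (L := L) 0 (κ + m / 2) e
  have hrow : (H : ℤ) < e.1.2 := by
    rcases hf with h | h
    · have : ((rci69Cap L 0 (κ + m / 2)).f0 e).2 = g.2 := by rw [← h]; rfl
      omega
    · have : ((rci69Cap L 0 (κ + m / 2)).f1 e).2 = g.2 := by rw [← h]; rfl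
      rw [q3] at this
      split_ifs at this <;> omega
  have hpair := rpc69_ch_pair c s he hrow (hf.elim (fun h => Or.inl (h ▸ hg)) (fun h => Or.inr (h ▸ hg)))
  have h0 : Rpc69Ch L κ m J s g ((rpj69Y L κ m).p0 e) := by
    rcases hf with h | h
    · have : (rpj69Y L κ m).p0 e = g := h
      rw [this]
      exact rcs127_chain_refl _ _ _ _
    · obtain ⟨⟨x, y⟩, bb⟩ := e
      simp only at t1 t2 t3 hrow
      have h' : rci69BotF 0 (rcy162Red L (rswCo ((x, y), bb))) = g := h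
      have p0e : (rpj69Y L κ m).p0 ((x, y), bb) = (x, y) := rfl
      rw [p0e]
      cases bb
      · rw [rtd111_co_f, rcv69_bot_of (by rw [rcy162_red_snd]; simp only; omega), rcy162_red_of_range (u := (x, y - 1)) t1.1 t1.2] at h'
        have hu := rpc69_ch_up hL c s hg
        rw [← h'] at hu ⊢
        simp only [sub_add_cancel] at hu
        rw [rcv69_top_of (by simp only; omega)] at hu
        exact hu
      · rw [rtd111_co_t, rcv69_bot_of (by rw [rcy162_red_snd]; simp only; omega)] at h'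
        have hu := rpc69_ch_right hL c s hg
        have e2 : rcy162Red L (g.1 + 1, g.2) = (x, y) := by
          rw [← h']
          unfold rcy162Red
          simp only
          rw [Int.emod_add_emod, sub_add_cancel, Int.emod_eq_of_lt t1.1 t1.2]
        rw [e2] at hu
        exact hu
  exact ⟨h0, rpc69_chain_trans h0 hpair⟩

/-- one step of the record: the anchors of the mirror faces are chained -/
theorem rpc69_ch_adj (hL : 0 < L) (c : Rpj69Ctx L H k m κ J) (s : Bool) {e : (ℤ × ℤ) × Bool} (h0 : e.1 ∈ J) (h1 : rcy162Red L (rswEnd e) ∈ J) :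
    Rpc69Ch L κ m J s (rpc69Phi L κ m s e.1) (rpc69Phi L κ m s (rcy162Red L (rswEnd e))) := by
  obtain ⟨⟨x, y⟩, bb⟩ := e
  simp only at h0
  obtain ⟨r1, r2, r3⟩ := rpc69_J_range c h0
  simp only at r1 r2 r3
  have hb := rpj69_b c
  have a1 := c.hN; have a2 := c.hk; have a3 := c.hm
  cases bb
  · have hu := rpc69_ch_right hL c s (rpc69_phi_mem hL c s h0)
    have e2 : rcy162Red L ((rpc69Phi L κ m s (x, y)).1 + 1, (rpc69Phi L κ m s (x, y)).2) = rpc69Phi L κ m s (rcy162Red L (rswEnd ((x, y), false))) := by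
      rw [rtd111_end_f]
      unfold rpc69Phi rcy162Red
      simp only
      refine Prod.ext ?_ rfl
      simp only
      rw [Int.emod_add_emod, Int.emod_sub_emod]
      congr 1
      ring
    rw [e2] at hu
    exact hu
  · have hu := rpc69_ch_up hL c s (rpc69_phi_mem hL c s h1)
    have e2 : rci69TopV (κ + m / 2) ((rpc69Phi L κ m s (rcy162Red L (rswEnd ((x, y), true)))).1, (rpc69Phi L κ m s (rcy162Red L (rswEnd ((x, y), true)))).2 + 1) =
        rpc69Phi L κ m s (x, y) := by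
      rw [rtd111_end_t]
      unfold rpc69Phi rcy162Red
      simp only
      rw [rcv69_top_of (by simp only; omega)]
      refine Prod.ext ?_ (by simp only; ring)
      simp only
      rw [Int.emod_sub_emod]
    rw [e2] at hu
    exact rpc69_chain_symm hu

/-- (c6) the anchor of every face of `G` is chained to the top pole -/
theorem rpc69_ch_pole (hL : 0 < L) (c : Rpj69Ctx L H k m κ J) (s : Bool) {v : ℤ × ℤ} (hv : v ∈ J) :
    Rpc69Ch L κ m J s (0, κ + m / 2) (rpc69Phi L κ m s v) := by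
  obtain ⟨f, hf, hpath⟩ := c.hc v hv
  induction hpath with
  | refl =>
    have hfJ := c.h0 hf
    have hu := rpc69_ch_up hL c s (rpc69_phi_mem hL c s hfJ)
    have hrow : (rpc69Phi L κ m s f).2 + 1 = κ + m / 2 := by
      have := (rcy162_mem_row.1 hf).2
      show κ + m / 2 - 1 - f.2 + 1 = κ + m / 2
      omega
    have e2 : rci69TopV (κ + m / 2) ((rpc69Phi L κ m s f).1, (rpc69Phi L κ m s f).2 + 1) = (0, κ + m / 2) := by
      unfold rci69TopV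
      rw [if_pos hrow]
    rw [e2] at hu
    exact rpc69_chain_symm hu
  | tail _ hs ih =>
    obtain ⟨hx, hy, e, he⟩ := hs
    have ihx := ih hx
    rcases he with ⟨rfl, rfl⟩ | ⟨rfl, rfl⟩
    · exact rpc69_chain_trans ihx (rpc69_ch_adj hL c s (e := e) hx hy)
    · exact rpc69_chain_trans ihx (rpc69_chain_symm (rpc69_ch_adj hL c s (e := e) hy hx))

/-- a site of the upper explored part is an endpoint of a pair with a face in `G` -/
theorem rpc69_V1_pair (s : Bool) {v : ℤ × ℤ} (hv : v ∈ rcs127V1 (rcs127OutP (rpj69Y L κ m) J) (rpj69G L κ m J s)) :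
    ∃ e ∈ (rpj69Y L κ m).E, ∃ g ∈ rpj69G L κ m J s, ((rpj69Y L κ m).f0 e = g ∨ (rpj69Y L κ m).f1 e = g) ∧ ((rpj69Y L κ m).p0 e = v ∨ (rpj69Y L κ m).p1 e = v) := by
  have key : ∀ e ∈ rcs127E0 (rcs127OutP (rpj69Y L κ m) J) (rpj69G L κ m J s), e ∈ (rpj69Y L κ m).E ∧
      ∃ g ∈ rpj69G L κ m J s, ((rpj69Y L κ m).f0 e = g ∨ (rpj69Y L κ m).f1 e = g) := by
    intro e he
    obtain ⟨h1, hn⟩ := rcs127_mem_E0.1 he
    refine ⟨(rpj69_mem_outP_E.1 h1).1, ?_⟩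
    by_cases h0 : (rpj69Y L κ m).f0 e ∈ rpj69G L κ m J s
    · exact ⟨_, h0, Or.inl rfl⟩
    · by_cases h2 : (rpj69Y L κ m).f1 e ∈ rpj69G L κ m J s
      · exact ⟨_, h2, Or.inr rfl⟩
      · exact absurd ⟨fun x => absurd x h0, fun x => absurd x h2⟩ hn
  rcases rcd111_mem_V1 hv with h | ⟨e, he, hp⟩
  · rcases Finset.mem_union.1 h with h | h
    · obtain ⟨e, he, rfl⟩ := Finset.mem_image.1 h
      obtain ⟨a, g, hg, hf⟩ := key e he
      exact ⟨e, a, g, hg, hf, Or.inl rfl⟩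
    · obtain ⟨e, he, rfl⟩ := Finset.mem_image.1 h
      obtain ⟨a, g, hg, hf⟩ := key e he
      exact ⟨e, a, g, hg, hf, Or.inr rfl⟩
  · obtain ⟨h1, h2, _⟩ := rcs127_mem_E1.1 he
    exact ⟨e, (rpj69_mem_outP_E.1 h1).1, _, h2, Or.inl rfl, hp⟩

/-- every site of the upper explored part is chained to the top pole -/
theorem rpc69_ch_V1 (hL : 0 < L) (c : Rpj69Ctx L H k m κ J) (s : Bool) {v : ℤ × ℤ} (hv : v ∈ rcs127V1 (rcs127OutP (rpj69Y L κ m) J) (rpj69G L κ m J s)) :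
    Rpc69Ch L κ m J s (0, κ + m / 2) v := by
  obtain ⟨e, he, g, hg, hf, hp⟩ := rpc69_V1_pair s hv
  obtain ⟨w, hw, rfl⟩ := rpc69_mem_G hL c s hg
  have h1 := rpc69_ch_pole hL c s hw
  obtain ⟨a0, a1⟩ := rpc69_ch_ends hL c s hg he hf
  rcases hp with rfl | rfl
  · exact rpc69_chain_trans h1 a0
  · exact rpc69_chain_trans h1 a1

/-- (c7) a site of the upper rim -/
theorem rpc69_u0 (hL : 0 < L) (c : Rpj69Ctx L H k m κ J) (s : Bool) : ∃ u₀, u₀ ∈ rcs127V0 (rcs127OutP (rpj69Y L κ m) J) (rpj69G L κ m J s) := by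
  have h00 : ((0 : ℤ), (0 : ℤ)) ∈ rcy162Row L 0 := rcy162_mem_row.2 ⟨⟨le_rfl, by show (0 : ℤ) < L; exact_mod_cast hL⟩, rfl⟩
  have hne : (rpj69G L κ m J s).Nonempty := ⟨_, rpc69_phi_mem hL c s (c.h0 h00)⟩
  obtain ⟨g, hg, hmin⟩ := Finset.exists_min_image (rpj69G L κ m J s) (fun f => f.2) hne
  obtain ⟨r1, r2, r3⟩ := rpc69_G_reg hL c s hg
  have heY : (g, false) ∈ (rpj69Y L κ m).E := rci69_mem_capE.2 ⟨r1, by show 0 ≤ g.2; omega, r3⟩
  have heP := (rpc69_del c s heY r2 (Or.inl hg)).1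
  have hE0 : (g, false) ∈ rcs127E0 (rcs127OutP (rpj69Y L κ m) J) (rpj69G L κ m J s) := by
    refine rcs127_mem_E0.2 ⟨heP, fun hiff => ?_⟩
    have h1 : (rpj69Y L κ m).f1 (g, false) ∈ rpj69G L κ m J s := hiff.1 hg
    have := hmin _ h1
    have q3 := (rpj69_cap_rows (L := L) 0 (κ + m / 2) (g, false)).2.2.2
    have q3' : ((rpj69Y L κ m).f1 (g, false)).2 = g.2 - 1 := q3
    omega
  exact ⟨_, (rcs127_p_V0 hE0).1⟩

/-- (c8) -/
theorem rpc69_dis (c : Rpj69Ctx L H k m κ J) (s : Bool) : Disjoint (rpj69G L κ m J s) (rcs127V1 (rcs127Sw (rpj69Y L κ m)) J) := by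
  rw [Finset.disjoint_left]
  intro f hG hV
  have hhigh := rpj69_G_high c s hG
  obtain ⟨e, he, hJ, hfe⟩ := rcs127_mem_V1_sw hV
  obtain ⟨q0, q1, q2, q3⟩ := rpj69_cap_rows (L := L) 0 (κ + m / 2) e
  have a1 := c.hκ; have a2 := c.hκH; have a3 := c.hm
  have hrow : 2 * e.1.2 < k + m - 1 := by
    rcases hJ with h | h
    · have := c.hlow _ h
      have e0 : ((rpj69Y L κ m).p0 e).2 = e.1.2 := q0
      omega
    · have := c.hlow _ h
      have e0 : ((rpj69Y L κ m).p1 e).2 = (if e.2 then e.1.2 + 1 else e.1.2) := q1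
      rw [e0] at this
      split_ifs at this <;> omega
  rcases hfe with rfl | rfl
  · have e0 : ((rpj69Y L κ m).f0 e).2 = e.1.2 := q2
    omega
  · have e0 : ((rpj69Y L κ m).f1 e).2 = (if e.2 then e.1.2 else e.1.2 - 1) := q3
    rw [e0] at hhigh
    split_ifs at hhigh <;> omega

/-- **the fields `u0`, `ch`, `dis` of `Rpt127Geo`** for the doubly cut system of (perJ) -/
theorem rpc69_geo3 (hL : 0 < L) (c : Rpj69Ctx L H k m κ J) (s : Bool) :
    ∃ u₀, u₀ ∈ rcs127V0 (rcs127OutP (rpj69Y L κ m) J) (rpj69G L κ m J s) ∧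
      (∀ v ∈ rcs127V1 (rcs127OutP (rpj69Y L κ m) J) (rpj69G L κ m J s),
        Rcs127Chain (rcs127OutC (rpj69Y L κ m) J (0, -1)) id (rcs127E2 (rcs127OutP (rpj69Y L κ m) J) (rpj69G L κ m J s)) u₀ v) ∧
      Disjoint (rpj69G L κ m J s) (rcs127V1 (rcs127Sw (rpj69Y L κ m)) J) := by
  obtain ⟨u₀, hu⟩ := rpc69_u0 hL c s
  exact ⟨u₀, hu, fun v hv => rpc69_chain_trans (rpc69_chain_symm (rpc69_ch_V1 hL c s (rcs127_V0_sub_V1 hu))) (rpc69_ch_V1 hL c s hv), rpc69_dis c s⟩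

end up

theorem rpj69_eqns_cite4 : True := by
  have := @rpc69Phi.eq_1
  trivial

end Claimed.Agent.R292
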