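import Claimed.Agent.R292.Rsw.PerJT127
import Claimed.Agent.R292.Rsw.CylOrd291

/-!
# Row 292 (S0540), Rsw/PerJF291 : the contract `Rpj69Fkg` of `Rsw/PerJ69.lean` (association in the doubly cut system under its pins, probability form)      (owner helper291; prefix `pjf291_` / `Pjf291`)      0 sorry

Frame: `Rsw/PerJ69.lean` (69).   Tool: the unnormalised association of 127 (`Rsw/PerJT127.lean`) or of `Rsw/CylOrd291.lean`.
par.A: the passage from the unnormalised form (functions increasing in the sense of `Rci69Inc`) to the probability form for the events increasing for `Le` (any system, any constraint):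
`pjf291_ind`, **`pjf291_Pr_of_sum`** (T1), **`pjf291_Pr_of_holley`** (T2).
par.B: `pjf291_fkg_of_sum`, **`pjf291_fkg : (for every context and sign, a record `Rpt127Geo` of 127) → Rpj69Fkg t L H`**.   The record itself (deterministic geometry of the cap) is NOT proved here: it is the exit of `Rsw/PerJT127.lean`.
-/

set_option autoImplicit false
set_option linter.unusedSectionVars false
set_option linter.unusedVariables false
set_option linter.unusedSimpArgs false

namespace Claimed.Agent.R292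

open Claimed.Agent.R291 Relation

section ParA

/-- the indicator of an event increasing for `Le` is increasing in the sense of 69 -/
theorem pjf291_ind {Y : Rcy162Sys} {A : RswCfg → Prop} [DecidablePred A] (hA : ∀ ω ω', Y.Le ω ω' → A ω → A ω') :
    Rci69Inc Y (fun ω => if A ω then (1 : ℝ) else 0) := by
  intro ω ω' h
  show (if A ω then (1 : ℝ) else 0) ≤ (if A ω' then (1 : ℝ) else 0)
  by_cases hb : A ω
  · rw [if_pos hb, if_pos (hA ω ω' h hb)]
  · rw [if_neg hb]
    split_ifs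
    · exact zero_le_one
    · exact le_rfl

/-- **par.A: from the unnormalised association to the probability form** (any system, any constraint) -/
theorem pjf291_Pr_of_sum {Y : Rcy162Sys} {t : ℝ} (h0 : 0 < t) (h1 : t ≤ 1) {K : RswCfg → Prop}
    (hs : ∀ X X' : RswCfg → ℝ, Rci69Inc Y X → Rci69Inc Y X' →
      Y.sum t K X * Y.sum t K X' ≤ Y.sum t K (fun _ => 1) * Y.sum t K (fun ω => X ω * X' ω))
    {A A' : RswCfg → Prop} (hA : ∀ ω ω', Y.Le ω ω' → A ω → A ω') (hA' : ∀ ω ω', Y.Le ω ω' → A' ω → A' ω') :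
    Y.Pr t K A * Y.Pr t K A' ≤ Y.Pr t K (fun ω => A ω ∧ A' ω) := by
  classical
  have key := hs _ _ (pjf291_ind hA) (pjf291_ind hA')
  have hmul : (fun ω => (if A ω then (1 : ℝ) else 0) * (if A' ω then (1 : ℝ) else 0)) =
      fun ω => @ite ℝ (A ω ∧ A' ω) (Classical.propDecidable _) 1 0 := by
    funext ω
    by_cases a : A ω <;> by_cases b : A' ω <;> simp [a, b]
  rw [hmul] at key
  rw [rcy162_P_def, rcy162_P_def, rcy162_P_def]
  unfold Rcy162Sys.Ex
  by_cases hZ : Y.sum t K (fun _ => 1) = 0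
  · rw [hZ, div_zero, div_zero, div_zero, mul_zero]
  · have hZ' : 0 < Y.sum t K (fun _ => 1) :=
      lt_of_le_of_ne (rcy162_sum_nonneg Y _ h0.le h1 (fun _ => zero_le_one)) (Ne.symm hZ)
    rw [div_mul_div_comm, div_le_div_iff₀ (mul_pos hZ' hZ') hZ']
    refine (mul_le_mul_of_nonneg_right key hZ'.le).trans (le_of_eq ?_)
    ring

/-- the same for the order (T2): raising the constraint raises the probability of an increasing event -/
theorem pjf291_Pr_of_holley {Y : Rcy162Sys} {t : ℝ} (h0 : 0 < t) (h1 : t ≤ 1) {K₁ K₂ : RswCfg → Prop}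
    (hs : ∀ X : RswCfg → ℝ, Rci69Inc Y X →
      Y.sum t K₁ X * Y.sum t K₂ (fun _ => 1) ≤ Y.sum t K₁ (fun _ => 1) * Y.sum t K₂ X)
    (hZ₂ : 0 < Y.sum t K₂ (fun _ => 1))
    {A : RswCfg → Prop} (hA : ∀ ω ω', Y.Le ω ω' → A ω → A ω') :
    Y.Pr t K₁ A ≤ Y.Pr t K₂ A := by
  classical
  have key := hs _ (pjf291_ind hA)
  rw [rcy162_P_def, rcy162_P_def]
  unfold Rcy162Sys.Ex
  by_cases hZ : Y.sum t K₁ (fun _ => 1) = 0
  · rw [hZ, div_zero]
    exact div_nonneg (rcy162_sum_nonneg Y _ h0.le h1 (fun ω => by split_ifs <;> norm_num)) hZ₂.le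
  · have hZ' : 0 < Y.sum t K₁ (fun _ => 1) :=
      lt_of_le_of_ne (rcy162_sum_nonneg Y _ h0.le h1 (fun _ => zero_le_one)) (Ne.symm hZ)
    rw [div_le_div_iff₀ hZ' hZ₂]
    refine key.trans (le_of_eq ?_)
    ring

end ParA

/-- **the contract `Rpj69Fkg` from the unnormalised association in every doubly cut system under its pins** -/
theorem pjf291_fkg_of_sum {t : ℝ} (h0 : 0 < t) (h1 : t ≤ 1) {L H : ℕ}
    (hs : ∀ (k m κ : ℤ) (J : Finset (ℤ × ℤ)), Rpj69Ctx L H k m κ J → ∀ (s : Bool) (X X' : RswCfg → ℝ),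
      Rci69Inc (rpj69D L κ m J s) X → Rci69Inc (rpj69D L κ m J s) X' →
      (rpj69D L κ m J s).sum t (Rpj69K L κ m J s) X * (rpj69D L κ m J s).sum t (Rpj69K L κ m J s) X' ≤
        (rpj69D L κ m J s).sum t (Rpj69K L κ m J s) (fun _ => 1) * (rpj69D L κ m J s).sum t (Rpj69K L κ m J s) (fun ω => X ω * X' ω)) :
    Rpj69Fkg t L H := by
  intro k m κ J ctx s A A' hA hA'
  exact pjf291_Pr_of_sum h0 h1 (hs k m κ J ctx s) hA hA'

/-- **THE CONTRACT `Rpj69Fkg` FROM THE GEOMETRIC RECORD OF 127** (`Rpt127Geo` for every context; any pole `q`): association in the doubly cut system under its pins, probability form -/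
theorem pjf291_fkg {t : ℝ} (h0 : 0 < t) (h1 : t ≤ 1) {L H : ℕ} {q : ℤ × ℤ}
    (hgeo : ∀ (k m κ : ℤ) (J : Finset (ℤ × ℤ)), Rpj69Ctx L H k m κ J → ∀ s : Bool,
      ∃ u₀, Rpt127Geo (rpj69Y L κ m) J (rpj69G L κ m J s) q u₀) :
    Rpj69Fkg t L H := by
  refine pjf291_fkg_of_sum h0 h1 ?_
  intro k m κ J ctx s X X' hX hX'
  obtain ⟨u₀, g⟩ := hgeo k m κ J ctx s
  exact rpt127_fkg_sum g h0 h1
    (KS := fun S => ∀ v ∈ rcs127V0 (rcs127OutP (rpj69Y L κ m) J) (rpj69G L κ m J s), (v ∈ S ↔ true = true))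
    (fun S hS => rpt127_pin_pi g true S hS)
    (fun S S' hS hS' => ⟨fun v hv => ⟨fun _ => rfl, fun _ => Finset.mem_inter.2 ⟨(hS v hv).2 rfl, (hS' v hv).2 rfl⟩⟩,
      fun v hv => ⟨fun _ => rfl, fun _ => Finset.mem_union_left _ ((hS v hv).2 rfl)⟩⟩)
    (X := X) (X' := X') hX hX'

end Claimed.Agent.R292
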