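import Claimed.Agent.R292.Rsw.Plane171
import Claimed.Agent.R292.Rsw.Expl107

/-!
# Row 292, Rsw/PlaneIn205 : the field `cut` of the record `RspIn` of Rsw/Plane171      (owner helper205; prefix `rpi205_`)      0 sorry

* `rpi205_cut` : the field `cut` VERBATIM (no condition on the ambient domain): behind the searched minus cut the law is the minus
  flat law of the unsearched set.  [`rsx_swap_E`, `rsx_out_loc`, `rsx_cross_good`, `rsx_bc_of_cross` of Rsw/Expl107]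
* dictionary: `rpi205_out_eq` (`rspOut = rsxOut · false`), `rpi205_inn_eq` (`rspInn = rsxIn`), `rpi205_K_iff`, `rpi205_K_locOut`, `rpi205_K_cut`.
  (the field `box`: `mdr201_jordan_box` of Model/DictRsw201; the record itself: Rsw/PlaneIn31.)
-/

set_option autoImplicit false

namespace Claimed.Agent.R292

open Claims Claims.C0468 Finset

/-! ## 1. dictionary `Plane171` <-> `Expl107` -/

theorem rpi205_out_eq (Λ : Finset (ℤ × ℤ)) (ω : RswCfg) : rspOut Λ ω = rsxOut Λ false ω := by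
  classical
  ext g
  rw [rsx_mem_out]
  unfold rspOut
  rw [Finset.mem_filter]

theorem rpi205_inn_eq (F : Finset (ℤ × ℤ)) : rspInn F = rsxIn F := by
  classical
  ext v
  unfold rspInn
  rw [Finset.mem_filter, rsx_in_iff]
  exact ⟨fun h => h.2, fun h => ⟨rsx_in_sub_corners F (rsx_in_iff.2 h), h⟩⟩

theorem rpi205_I_eq (L : RswCfg → Prop) (ω : RswCfg) : rspI L ω = rsxInd (L ω) := rfl

/-- the search event in the words of Expl107 -/
theorem rpi205_K_iff {Λ U : Finset (ℤ × ℤ)} (hU : U ⊆ Λ) (ω : RswCfg) : rspK Λ U ω ↔ rsxOut Λ false ω = Λ \ U := by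
  unfold rspK
  rw [rpi205_out_eq]
  constructor
  · intro h
    rw [← h, Finset.sdiff_sdiff_eq_self (rsx_out_sub Λ false ω)]
  · intro h
    rw [h, Finset.sdiff_sdiff_eq_self hU]

theorem rpi205_locIn {U : Finset (ℤ × ℤ)} {X : RswCfg → ℝ} (hX : RspLoc (rspInn U) U (rswInt U) X) : RsxLocIn U X := by
  intro ω ω' h1 h2 h3
  rw [← rpi205_inn_eq] at h1
  exact hX ω ω' h1 h2 h3

/-- the search event does not read the strict inside of `U` -/
theorem rpi205_K_locOut {Λ U : Finset (ℤ × ℤ)} (hU : U ⊆ Λ) : RsxLocOut U (fun ω => rsxInd (rspK Λ U ω)) := by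
  have h := rsx_out_loc Λ (Λ \ U) false
  rw [Finset.sdiff_sdiff_eq_self hU] at h
  intro ω ω' h1 h2 h3
  have := h ω ω' h1 h2 h3
  show rsxInd (rspK Λ U ω) = rsxInd (rspK Λ U ω')
  rw [rsx_ind_congr (rpi205_K_iff hU ω), rsx_ind_congr (rpi205_K_iff hU ω')]
  exact this

/-- on the search event the set `U` is sealed by a minus cut in EVERY ambient domain -/
theorem rpi205_K_cut {Λ U : Finset (ℤ × ℤ)} (F : Finset (ℤ × ℤ)) {ω : RswCfg} (h : rspK Λ U ω) : RsxCut F U false ω := by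
  have hU : Λ \ rsxOut Λ false ω = U := by rw [← rpi205_out_eq]; exact h
  have hg : ∀ e : (ℤ × ℤ) × Bool, ((e.1 ∈ U ∧ rswCo e ∉ U) ∨ (rswCo e ∈ U ∧ e.1 ∉ U)) → RswGood false ω e := by
    intro e he
    rw [← hU] at he
    exact rsx_cross_good he
  refine ⟨rsx_bc_of_cross hg, fun e _ he' hx => (hg e ?_).1⟩
  have hn : ¬ (e.1 ∈ U ∧ rswCo e ∈ U) := fun hh => he' (rsx_mem_int.2 hh)
  rcases hx with hx | hx
  · exact Or.inl ⟨hx, fun hh => hn ⟨hx, hh⟩⟩
  · exact Or.inr ⟨hx, fun hh => hn ⟨hh, hx⟩⟩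

/-! ## 2. the field `cut` -/

/-- unnormalised form -/
theorem rpi205_cut_sum {t : ℝ} (h0 : 0 < t) (h1 : t ≤ 1) {Λ F U : Finset (ℤ × ℤ)} (b : Bool) {X : RswCfg → ℝ}
    (hΛ : Λ ⊆ F) (hU : U ⊆ Λ) (hX : RspLoc (rspInn U) U (rswInt U) X) :
    rswSum t F b (fun ω => rspI (rspK Λ U) ω * X ω) = rswSum t F b (fun ω => rspI (rspK Λ U) ω) * rswE t U false X := by
  have hs := rsx_swap_E h0 h1 (hU.trans hΛ) false b (rpi205_locIn hX) (rpi205_K_locOut hU)
  have e1 : ∀ ω, rsxInd (RsxCut F U false ω) * X ω * rsxInd (rspK Λ U ω) = rspI (rspK Λ U) ω * X ω := by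
    intro ω
    rw [rpi205_I_eq]
    by_cases h : rspK Λ U ω
    · rw [rsx_ind_pos (rpi205_K_cut F h), rsx_ind_pos h]; ring
    · rw [rsx_ind_neg h]; ring
  have e2 : ∀ ω, rsxInd (RsxCut F U false ω) * rsxInd (rspK Λ U ω) = rspI (rspK Λ U) ω := by
    intro ω
    rw [rpi205_I_eq]
    by_cases h : rspK Λ U ω
    · rw [rsx_ind_pos (rpi205_K_cut F h), rsx_ind_pos h]; ring
    · rw [rsx_ind_neg h]; ring
  rw [rsx_sum_congr t F b e1, rsx_sum_congr t F b e2] at hs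
  exact hs

/-- **the field `cut` of `RspIn`, verbatim** (any ambient `F ⊇ Λ`) -/
theorem rpi205_cut {t : ℝ} (h0 : 0 < t) (h1 : t ≤ 1) (Λ F U : Finset (ℤ × ℤ)) (b : Bool) (X : RswCfg → ℝ)
    (hΛ : Λ ⊆ F) (hU : U ⊆ Λ) (hX : RspLoc (rspInn U) U (rswInt U) X) :
    rswE t F b (fun ω => rspI (rspK Λ U) ω * X ω) = rswP t F b (rspK Λ U) * rswE t U false X := by
  rw [rsx_E_eq, rpi205_cut_sum h0 h1 b hΛ hU hX, rsx_P_eq, rsx_E_eq t F b (fun ω => rsxInd (rspK Λ U ω))]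
  have e : (fun ω => rspI (rspK Λ U) ω) = (fun ω => rsxInd (rspK Λ U ω)) := rfl
  rw [e]
  ring

end Claimed.Agent.R292
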