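import Claimed.Agent.R292.Rsw.CylDict111
import Claimed.Agent.R292.Rsw.CylTop127
import Claimed.Agent.R292.Rsw.RenDefs12
import Claimed.Agent.R292.Rsw.Cut91
import Claimed.Agent.R292.Rsw.PerJ69
import Claimed.Agent.R292.Rsw.PerJb12
import Claimed.Agent.R292.Rsw.PerJF291

/-!
# Row 292 (S0540), Rsw/RenHP31 : A5, BLOCK B5: THE CUT WITH A HISTORY, `RswCon` FORM      (pen helper31; prefix `rhp31_` / `Rhp31` / `rhp31`)      0 sorry

STATUS: TOOL FILE, landed on the order of 12 (22:18Z).   B5 = (CYL) ⟹ (HP) IS CLOSED ON MAIN BY ANOTHER ROAD (12's six leaves of `HpDefs12`: `hpa189_hp`, `hpt109_cut_top`, `hpt109_top`, `hsy12_ord`, `hdt31_det`, `hdt31_cyl`);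
nothing on main imports this file.   What it holds (abstract, any `Rcy162Sub Y Y' C`):
* par. 1: `rhp31Ext Y Y' C P K` = a history `K` of the subsystem `Y'` + frozen outside (spins off the core follow the pattern `P`, every edge pair off `Y'` open);
  `rhp31_ext_holds`, `rhp31_ext_legal`, **`rhp31_ext_sum`** : `Y.sum t (Y.Holds Ext) X = Y'.sum t (Pin Y' C P ∧ Y'.Holds K) X * rhp31G`, `rhp31_G_pos`.
* par. 3 (23:26Z, A4 (perJ), frame `PerJ69` of 69): **`rhp31_P3 : 1/2 ≤ t → t ≤ 1 → 0 < L → Rpj69Wf L H → Rpj69P3 t L H`** (ALT in the doubly cut system, from `rcs127_alt_P`, `rcd111_alt_sys`, `rcd111_hW_cap` of 127 / 111);  kit for both signs `s`: `rhp31_G_high` (the mirror record lies above the refined row `2 H + m + 7`), `rhp31_band_D` (the pairs of the high band belong to `rpj69D`), `rhp31_K_full` (the pins `Rpj69K` hold for the full configuration), `rhp31_ctx_b`.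
* par. 4 (23:36Z, the deterministic half of (P2), typing of 121): with `D = rpj69D L κ m J s`, `P = rcs127OutP (rcy162Cyl L 0 H) J`, `C = rhp31C L H J = P.V \ rcy162Row L H`: **`rhp31_cut_sub`** : `Rcy162Sub D P C`;  **`rhp31_cut_rim`** (the hypothesis `hrim` of `rpj69_dom_in`);  **`rhp31_cut_pin`** : `P.V \ C = rcy162Row L H`;  kit `rhp31_mem_V1`, `rhp31_P_V/_P_E/_D_E/_P_F`, `rhp31_V1_high`, `rhp31_E0_cap`, `rhp31_D_off`, `rhp31_off_cyl`.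
* par. 5 (23:43Z) **`rhp31_perJc : 1/2 ≤ t → t ≤ 1 → 0 < L → Rcs127PerJc t L H`** : (perJ) CLOSED, the top line of the frame `PerJ69` from what 69, 127, 291, 111, 162, 12, 109 have on main (this file sits above `PerJb12` and `PerJF291`; DO NOT import it from a `PerJ*` file).
* par. 2: **`rhp31_cmp`** : from ONE order of two extended histories of `Y`, the comparison of the laws of two subsystems on a decreasing event.
-/

set_option autoImplicit false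
set_option linter.unusedSectionVars false
set_option linter.unusedVariables false

namespace Claimed.Agent.R292

open Claims Claims.C0468 Claimed.Agent.R291

/-! ## 1. a history of a subsystem, extended by a frozen outside -/

/-- the extension of a history `K` of the subsystem `Y'`: off the core `C` the spins follow the pattern `P`, every edge pair off `Y'` is open -/
noncomputable def rhp31Ext (Y Y' : Rcy162Sys) (C P : Finset (ℤ × ℤ)) (K : RswCon) : RswCon :=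
  open Classical in
  ⟨K.Sp ∪ ((Y.V \ C) ∩ P), K.Sm ∪ ((Y.V \ C) \ P), K.Gp ∪ (Y.E \ Y'.E).filter (fun e => Y.p0 e ∈ P),
    K.Gm ∪ (Y.E \ Y'.E).filter (fun e => Y.p0 e ∉ P), K.Cl⟩

/-- the frozen outside -/
def Rhp31Fro (Y Y' : Rcy162Sys) (C P : Finset (ℤ × ℤ)) (ω : RswCfg) : Prop :=
  (∀ v ∈ Y.V \ C, (v ∈ ω.S ↔ v ∈ P)) ∧ ∀ e ∈ Y.E \ Y'.E, e ∈ ω.O

section ext

variable {Y Y' : Rcy162Sys} {C P : Finset (ℤ × ℤ)} {K : RswCon}

theorem rhp31_good_sub (h : Rcy162Sub Y Y' C) (s : Bool) (ω : RswCfg) {e : (ℤ × ℤ) × Bool} (he : e ∈ Y'.E) :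
    Y'.Good s ω e ↔ Y.Good s ω e := by
  unfold Rcy162Sys.Good
  rw [h.p0 e he, h.p1 e he]

theorem rhp31_ext_holds (h : Rcy162Sub Y Y' C) (hw : Y.WF) (hP : ∀ e ∈ Y.E \ Y'.E, (Y.p0 e ∈ P ↔ Y.p1 e ∈ P)) (hK : Y'.Legal K)
    (ω : RswCfg) : Y.Holds (rhp31Ext Y Y' C P K) ω ↔ Rhp31Fro Y Y' C P ω ∧ Y'.Holds K ω := by
  classical
  have eGp : ∀ e ∈ K.Gp, e ∈ Y'.E := fun e he => hK.ed (by simp [he])
  have eGm : ∀ e ∈ K.Gm, e ∈ Y'.E := fun e he => hK.ed (by simp [he])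
  unfold Rcy162Sys.Holds rhp31Ext Rhp31Fro
  simp only [Finset.union_subset_iff, Finset.mem_union, Finset.mem_filter]
  constructor
  · rintro ⟨⟨a1, a2⟩, b, c, d, e⟩
    refine ⟨⟨fun v hv => ⟨fun hs => ?_, fun hp => a2 (Finset.mem_inter.2 ⟨hv, hp⟩)⟩, fun x hx => ?_⟩,
      a1, fun v hv => b v (Or.inl hv), fun x hx => (rhp31_good_sub h true ω (eGp x hx)).2 (c x (Or.inl hx)),
      fun x hx => (rhp31_good_sub h false ω (eGm x hx)).2 (d x (Or.inl hx)), e⟩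
    · by_contra hn
      exact b v (Or.inr (Finset.mem_sdiff.2 ⟨hv, hn⟩)) hs
    · by_cases hp : Y.p0 x ∈ P
      · exact (c x (Or.inr ⟨hx, hp⟩)).1
      · exact (d x (Or.inr ⟨hx, hp⟩)).1
  · rintro ⟨⟨z1, z2⟩, a, b, c, d, e⟩
    have hend : ∀ x ∈ Y.E \ Y'.E, Y.p0 x ∈ Y.V \ C ∧ Y.p1 x ∈ Y.V \ C := by
      intro x hx
      obtain ⟨x1, x2⟩ := Finset.mem_sdiff.1 hx
      obtain ⟨c0, c1⟩ := h.core x x1 x2
      exact ⟨Finset.mem_sdiff.2 ⟨hw.p0 x x1, c0⟩, Finset.mem_sdiff.2 ⟨hw.p1 x x1, c1⟩⟩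
    refine ⟨⟨a, fun v hv => (z1 v (Finset.mem_inter.1 hv).1).2 (Finset.mem_inter.1 hv).2⟩, ?_, ?_, ?_, e⟩
    · rintro v (hv | hv)
      · exact b v hv
      · exact fun hs => (Finset.mem_sdiff.1 hv).2 ((z1 v (Finset.mem_sdiff.1 hv).1).1 hs)
    · rintro x (hx | ⟨hx, hp⟩)
      · exact (rhp31_good_sub h true ω (eGp x hx)).1 (c x hx)
      · refine ⟨z2 x hx, ?_, ?_⟩
        · simp only [iff_true]; exact (z1 _ (hend x hx).1).2 hp
        · simp only [iff_true]; exact (z1 _ (hend x hx).2).2 ((hP x hx).1 hp)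
    · rintro x (hx | ⟨hx, hp⟩)
      · exact (rhp31_good_sub h false ω (eGm x hx)).1 (d x hx)
      · refine ⟨z2 x hx, ?_, ?_⟩
        · simp only [Bool.false_eq_true, iff_false]; exact fun hs => hp ((z1 _ (hend x hx).1).1 hs)
        · simp only [Bool.false_eq_true, iff_false]; exact fun hs => hp ((hP x hx).2 ((z1 _ (hend x hx).2).1 hs))

theorem rhp31_ext_legal (h : Rcy162Sub Y Y' C) (hw : Y.WF) (hK : Y'.Legal K) : Y.Legal (rhp31Ext Y Y' C P K) := by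
  classical
  have hend : ∀ x ∈ Y.E \ Y'.E, Y.p0 x ∈ Y.V \ C ∧ Y.p1 x ∈ Y.V \ C := by
    intro x hx
    obtain ⟨x1, x2⟩ := Finset.mem_sdiff.1 hx
    obtain ⟨c0, c1⟩ := h.core x x1 x2
    exact ⟨Finset.mem_sdiff.2 ⟨hw.p0 x x1, c0⟩, Finset.mem_sdiff.2 ⟨hw.p1 x x1, c1⟩⟩
  have hpin : ∀ v ∈ Y.V \ C, v ∈ (rhp31Ext Y Y' C P K).Sp ∪ (rhp31Ext Y Y' C P K).Sm := by
    intro v hv
    unfold rhp31Ext
    simp only [Finset.mem_union, Finset.mem_inter, Finset.mem_sdiff]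
    rw [Finset.mem_sdiff] at hv
    by_cases hp : v ∈ P
    · exact Or.inl (Or.inr ⟨hv, hp⟩)
    · exact Or.inr (Or.inr ⟨hv, hp⟩)
  have hold : ∀ v ∈ K.Sp ∪ K.Sm, v ∈ (rhp31Ext Y Y' C P K).Sp ∪ (rhp31Ext Y Y' C P K).Sm := by
    intro v hv
    unfold rhp31Ext
    simp only [Finset.mem_union] at hv ⊢
    tauto
  have hcase : ∀ e ∈ (rhp31Ext Y Y' C P K).Gp ∪ (rhp31Ext Y Y' C P K).Gm ∪ (rhp31Ext Y Y' C P K).Cl,
      e ∈ K.Gp ∪ K.Gm ∪ K.Cl ∨ e ∈ Y.E \ Y'.E := by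
    intro e he
    unfold rhp31Ext at he
    simp only [Finset.mem_union, Finset.mem_filter] at he ⊢
    tauto
  refine ⟨?_, ?_, ?_, ?_⟩
  · unfold rhp31Ext
    exact Finset.union_subset (hK.sp.trans h.sV) (Finset.inter_subset_left.trans Finset.sdiff_subset)
  · unfold rhp31Ext
    exact Finset.union_subset (hK.sm.trans h.sV) (Finset.sdiff_subset.trans Finset.sdiff_subset)
  · intro e he
    rcases hcase e he with h1 | h1
    · exact h.sE (hK.ed h1)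
    · exact (Finset.mem_sdiff.1 h1).1
  · intro e he
    rcases hcase e he with h1 | h1
    · have := hK.full e h1
      rw [h.p0 e (hK.ed h1), h.p1 e (hK.ed h1)] at this
      exact ⟨hold _ this.1, hold _ this.2⟩
    · exact ⟨hpin _ (hend e h1).1, hpin _ (hend e h1).2⟩

theorem rhp31_holds_in (h : Rcy162Sub Y Y' C) (hK : Y'.Legal K) (ω : RswCfg) : Y'.Holds K (rcy162In Y' ω) ↔ Y'.Holds K ω := by
  have eGp : ∀ e ∈ K.Gp, e ∈ Y'.E := fun e he => hK.ed (by simp [he])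
  have eGm : ∀ e ∈ K.Gm, e ∈ Y'.E := fun e he => hK.ed (by simp [he])
  have eCl : ∀ e ∈ K.Cl, e ∈ Y'.E := fun e he => hK.ed (by simp [he])
  have g : ∀ (s : Bool) e, e ∈ Y'.E → (Y'.Good s (rcy162In Y' ω) e ↔ Y'.Good s ω e) := fun s e he => by
    rw [rcy162_good_in h s ω he, rhp31_good_sub h s ω he]
  unfold Rcy162Sys.Holds
  constructor
  · rintro ⟨a, b, c, d, e⟩
    exact ⟨fun v hv => (Finset.mem_inter.1 (a hv)).1, fun v hv hs => b v hv (Finset.mem_inter.2 ⟨hs, hK.sm hv⟩),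
      fun x hx => (g true x (eGp x hx)).1 (c x hx), fun x hx => (g false x (eGm x hx)).1 (d x hx),
      fun x hx ho => e x hx (Finset.mem_inter.2 ⟨ho, eCl x hx⟩)⟩
  · rintro ⟨a, b, c, d, e⟩
    exact ⟨fun v hv => Finset.mem_inter.2 ⟨a hv, hK.sp hv⟩, fun v hv hs => b v hv (Finset.mem_inter.1 hs).1,
      fun x hx => (g true x (eGp x hx)).2 (c x hx), fun x hx => (g false x (eGm x hx)).2 (d x hx),
      fun x hx ho => e x hx (Finset.mem_inter.1 ho).1⟩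

theorem rhp31_fro_out (ω : RswCfg) : Rhp31Fro Y Y' C P (rcy162Out Y' C ω) ↔ Rhp31Fro Y Y' C P ω := by
  unfold Rhp31Fro
  refine and_congr (forall_congr' fun v => imp_congr_right fun hv => ?_) (forall_congr' fun e => imp_congr_right fun he => ?_)
  · rw [rcy162_out_S (Finset.mem_sdiff.1 hv).2]
  · rw [rcy162_out_O (Finset.mem_sdiff.1 he).2]

theorem rhp31_fro_cut (h : Rcy162Sub Y Y' C) {ω : RswCfg} (hf : Rhp31Fro Y Y' C P ω) : Rcy162Cut Y Y' C P ω :=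
  ⟨fun v hv => hf.1 v (Finset.mem_sdiff.2 ⟨h.sV (Finset.mem_sdiff.1 hv).1, (Finset.mem_sdiff.1 hv).2⟩), fun e he _ => hf.2 e he⟩

/-- the constant of the frozen outside -/
noncomputable def rhp31G (Y Y' : Rcy162Sys) (C P : Finset (ℤ × ℤ)) (t : ℝ) : ℝ :=
  rcy162G Y Y' C P t (fun _ => True) (rcy162Ind (Rhp31Fro Y Y' C P))

/-- **the law of the extended history is the law of the subsystem** (unnormalised): `X` reads inside `Y'` -/
theorem rhp31_ext_sum (h : Rcy162Sub Y Y' C) (hw : Y.WF) (hP : ∀ e ∈ Y.E \ Y'.E, (Y.p0 e ∈ P ↔ Y.p1 e ∈ P)) (hK : Y'.Legal K) (t : ℝ)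
    {X : RswCfg → ℝ} (hX : ∀ ω, X (rcy162In Y' ω) = X ω) :
    Y.sum t (Y.Holds (rhp31Ext Y Y' C P K)) X =
      Y'.sum t (fun ω => Rcy162Pin Y' C P ω ∧ Y'.Holds K ω) X * rhp31G Y Y' C P t := by
  classical
  have e1 : Y.sum t (Y.Holds (rhp31Ext Y Y' C P K)) X =
      Y.sum t (fun ω => True ∧ Y.Holds (rhp31Ext Y Y' C P K) ω) X :=
    rcy162_sum_congr_K Y t (fun ω _ => by simp) X
  rw [e1, rcy162_sum_and, rcy162_sum_and]
  unfold rhp31G
  rw [← rcy162_cut_prod h t (K := fun _ => True) (fun _ => Iff.rfl) P (fun ω => if Y'.Holds K ω then X ω else 0)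
    (rcy162Ind (Rhp31Fro Y Y' C P))]
  congr 1
  funext ω
  rw [rcy162_ind_iff (rhp31_fro_out (Y := Y) (Y' := Y') (C := C) (P := P) ω), hX ω]
  by_cases hf : Rhp31Fro Y Y' C P ω
  · have hc : rcy162CutI Y Y' C P ω = 1 := by unfold rcy162CutI; rw [if_pos (rhp31_fro_cut h hf)]
    rw [hc, rcy162_ind_pos hf, one_mul, mul_one]
    refine if_congr ?_ rfl rfl
    rw [rhp31_ext_holds h hw hP hK, rhp31_holds_in h hK]
    exact ⟨fun x => x.2, fun x => ⟨hf, x⟩⟩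
  · rw [rcy162_ind_neg hf, mul_zero, if_neg]
    rw [rhp31_ext_holds h hw hP hK]
    exact fun x => hf x.1

theorem rhp31_free_legal (Y' : Rcy162Sys) : Y'.Legal rswFree :=
  ⟨by simp [rswFree], by simp [rswFree], by simp [rswFree], fun e he => by simp [rswFree] at he⟩

theorem rhp31_G_pos (h : Rcy162Sub Y Y' C) (hw : Y.WF) (hP : ∀ e ∈ Y.E \ Y'.E, (Y.p0 e ∈ P ↔ Y.p1 e ∈ P)) {t : ℝ} (h0 : 0 < t) (h1 : t ≤ 1)
    (hf : Y.Feas t (Y.Holds (rhp31Ext Y Y' C P rswFree))) : 0 < rhp31G Y Y' C P t := by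
  have e := rhp31_ext_sum h hw hP (rhp31_free_legal Y') t (X := fun _ => 1) (fun _ => rfl)
  have hp := rcy162_Z_pos Y _ h0.le h1 hf
  rw [e] at hp
  have hn := rcy162_sum_nonneg Y' (fun ω => Rcy162Pin Y' C P ω ∧ Y'.Holds rswFree ω) h0.le h1 (X := fun _ => 1) fun _ => zero_le_one
  by_contra hc
  exact absurd hp (not_lt.2 (mul_nonpos_of_nonneg_of_nonpos hn (not_lt.1 hc)))

end ext

/-! ## 2. the abstract comparison -/

/-- **ONE order of two histories**: `K` in the subsystem `Y₁` with the frozen outside `P₁`, no history in the subsystem `Y₂` with the frozen outside `P₂` -/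
theorem rhp31_cmp {Y Y₁ Y₂ : Rcy162Sys} {C₁ P₁ C₂ P₂ : Finset (ℤ × ℤ)} {K : RswCon} (h₁ : Rcy162Sub Y Y₁ C₁) (h₂ : Rcy162Sub Y Y₂ C₂)
    (hw : Y.WF) (hP₁ : ∀ e ∈ Y.E \ Y₁.E, (Y.p0 e ∈ P₁ ↔ Y.p1 e ∈ P₁)) (hP₂ : ∀ e ∈ Y.E \ Y₂.E, (Y.p0 e ∈ P₂ ↔ Y.p1 e ∈ P₂))
    (hK : Y₁.Legal K) {t : ℝ} (h0 : 0 < t) (h1 : t ≤ 1)
    (hord : ∀ X : RswCfg → ℝ, (∀ ω ω', Y.Le ω ω' → X ω ≤ X ω') →
      Y.sum t (Y.Holds (rhp31Ext Y Y₁ C₁ P₁ K)) X * Y.sum t (Y.Holds (rhp31Ext Y Y₂ C₂ P₂ rswFree)) (fun _ => 1) ≤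
        Y.sum t (Y.Holds (rhp31Ext Y Y₁ C₁ P₁ K)) (fun _ => 1) * Y.sum t (Y.Holds (rhp31Ext Y Y₂ C₂ P₂ rswFree)) X)
    (hf₁ : Y.Feas t (Y.Holds (rhp31Ext Y Y₁ C₁ P₁ rswFree))) (hf₂ : Y.Feas t (Y.Holds (rhp31Ext Y Y₂ C₂ P₂ rswFree)))
    {Es Ep : RswCfg → Prop} (hdec : ∀ ω ω', Y.Le ω ω' → Es ω' → Es ω) (hEs : ∀ ω, Es (rcy162In Y₂ ω) ↔ Es ω)
    (hEp : ∀ ω, Ep (rcy162In Y₁ ω) ↔ Ep ω) (himp : ∀ ω, Es ω → Ep ω) :
    Y₁.sum t (fun ω => Rcy162Pin Y₁ C₁ P₁ ω ∧ Y₁.Holds K ω) (fun _ => 1) *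
        Y₂.sum t (fun ω => Rcy162Pin Y₂ C₂ P₂ ω ∧ Y₂.Holds rswFree ω) (rcy162Ind Es) ≤
      Y₁.sum t (fun ω => Rcy162Pin Y₁ C₁ P₁ ω ∧ Y₁.Holds K ω) (rcy162Ind Ep) *
        Y₂.sum t (fun ω => Rcy162Pin Y₂ C₂ P₂ ω ∧ Y₂.Holds rswFree ω) (fun _ => 1) := by
  have G₁ := rhp31_G_pos h₁ hw hP₁ h0 h1 hf₁
  have G₂ := rhp31_G_pos h₂ hw hP₂ h0 h1 hf₂
  have a1 := rhp31_ext_sum h₁ hw hP₁ hK t (X := fun _ => 1) (fun _ => rfl)
  have a2 := rhp31_ext_sum h₁ hw hP₁ hK t (X := rcy162Ind Ep) (fun ω => rcy162_ind_iff (hEp ω))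
  have b1 := rhp31_ext_sum h₂ hw hP₂ (rhp31_free_legal Y₂) t (X := fun _ => 1) (fun _ => rfl)
  have b2 := rhp31_ext_sum h₂ hw hP₂ (rhp31_free_legal Y₂) t (X := rcy162Ind Es) (fun ω => rcy162_ind_iff (hEs ω))
  -- the order, for the increasing function `1 - 1[Es]`
  have o := hord (fun ω => 1 - rcy162Ind Es ω) (fun ω ω' hle => by
    by_cases hh : Es ω'
    · rw [rcy162_ind_pos hh, rcy162_ind_pos (hdec ω ω' hle hh)]
    · rw [rcy162_ind_neg hh]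
      have := rcy162_ind_nonneg Es ω
      linarith)
  rw [rcy162_sum_sub, rcy162_sum_sub] at o
  have m : Y.sum t (Y.Holds (rhp31Ext Y Y₁ C₁ P₁ K)) (rcy162Ind Es) ≤ Y.sum t (Y.Holds (rhp31Ext Y Y₁ C₁ P₁ K)) (rcy162Ind Ep) :=
    rcy162_sum_mono Y _ h0.le h1 fun ω => by
      by_cases hh : Es ω
      · rw [rcy162_ind_pos hh, rcy162_ind_pos (himp ω hh)]
      · rw [rcy162_ind_neg hh]; exact rcy162_ind_nonneg _ _
  have z2 : 0 ≤ Y.sum t (Y.Holds (rhp31Ext Y Y₂ C₂ P₂ rswFree)) (fun _ => 1) := rcy162_sum_nonneg Y _ h0.le h1 fun _ => zero_le_one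
  have key : Y.sum t (Y.Holds (rhp31Ext Y Y₁ C₁ P₁ K)) (fun _ => 1) * Y.sum t (Y.Holds (rhp31Ext Y Y₂ C₂ P₂ rswFree)) (rcy162Ind Es) ≤
      Y.sum t (Y.Holds (rhp31Ext Y Y₁ C₁ P₁ K)) (rcy162Ind Ep) * Y.sum t (Y.Holds (rhp31Ext Y Y₂ C₂ P₂ rswFree)) (fun _ => 1) := by
    have := mul_le_mul_of_nonneg_right m z2
    nlinarith
  rw [a1, a2, b1, b2] at key
  have hG : 0 < rhp31G Y Y₁ C₁ P₁ t * rhp31G Y Y₂ C₂ P₂ t := mul_pos G₁ G₂
  refine le_of_mul_le_mul_right ?_ hG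
  calc _ = Y₁.sum t (fun ω => Rcy162Pin Y₁ C₁ P₁ ω ∧ Y₁.Holds K ω) (fun _ => 1) * rhp31G Y Y₁ C₁ P₁ t *
        (Y₂.sum t (fun ω => Rcy162Pin Y₂ C₂ P₂ ω ∧ Y₂.Holds rswFree ω) (rcy162Ind Es) * rhp31G Y Y₂ C₂ P₂ t) := by ring
    _ ≤ _ := key
    _ = _ := by ring

/-- the equation lemmas of the definitions of this file are generated HERE (RULES.md, rule 6) -/
theorem rhp31_eqns_cite : True := by
  have := @rhp31Ext.eq_1
  have := @Rhp31Fro.eq_1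
  have := @rhp31G.eq_1
  trivial

/-! ## 3. (perJ), contract (P3) of `PerJ69` from (WF): ALT in the doubly cut system -/

section perJ

variable {L H : ℕ} {k m κ : ℤ} {J : Finset (ℤ × ℤ)}

theorem rhp31_ctx_b (c : Rpj69Ctx L H k m κ J) : 2 * (κ + m / 2) - 1 = 2 * κ + m - 1 := by
  obtain ⟨r, hr⟩ := c.hme
  omega

/-- the faces of the mirror record lie above the refined row `2 H + m + 7` -/
theorem rhp31_G_high (c : Rpj69Ctx L H k m κ J) (s : Bool) {f : ℤ × ℤ} (hf : f ∈ rpj69G L κ m J s) : 2 * (H : ℤ) + m + 7 < 2 * f.2 + 1 := by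
  unfold rpj69G at hf
  cases s
  · rw [if_neg (by decide)] at hf
    exact rcd111_rho_inv_high (rhp31_ctx_b c) c.hN (c.hlow _ (Finset.mem_filter.1 hf).2)
  · rw [if_pos rfl] at hf
    obtain ⟨v, hv, rfl⟩ := Finset.mem_image.1 hf
    exact rcd111_rho_high (rhp31_ctx_b c) c.hN (c.hlow _ hv)

/-- the pairs of the high band belong to the doubly cut system -/
theorem rhp31_band_D (hL : 0 < L) (c : Rpj69Ctx L H k m κ J) (s : Bool) (e : (ℤ × ℤ) × Bool) (h1 : κ ≤ (rtd111E e).2) (h2 : (rtd111E e).2 ≤ κ + m - 1) :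
    rcy162RedE L e ∈ (rpj69D L κ m J s).E := by
  have hm := c.hm; have hk := c.hk; have hκ := c.hκ; have hκH := c.hκH; have hN := c.hN
  obtain ⟨r0, r1, -, -⟩ := rcd111_band_rows (H := H) (e := e) (by omega) (by omega)
  obtain ⟨g0, g1, g2, g3⟩ := rcd111_band_survive L 0 (κ + m / 2) (c := κ) (d := κ + m - 1) (J := J) (T := rpj69G L κ m J s)
    (fun v hv => by have := c.hlow v hv; omega) (fun f hf => by have := rhp31_G_high c s hf; omega) h1 h2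
  have hb := rhp31_ctx_b c
  have hY : rcy162RedE L e ∈ (rci69Cap L 0 (κ + m / 2)).E := rcp162_redE_mem hL r0 (by omega)
  have hQ : rcy162RedE L e ∈ rcs127E2 (rcs127Sw (rpj69Y L κ m)) J := rcs127_mem_E2.2 ⟨hY, g0, g1⟩
  exact rcs127_mem_E2.2 ⟨hQ, g2, g3⟩

/-- the pins of the doubly cut system hold for the full configuration -/
theorem rhp31_K_full (c : Rpj69Ctx L H k m κ J) (s : Bool) (O : Finset ((ℤ × ℤ) × Bool)) :
    Rpj69K L κ m J s ⟨(rpj69D L κ m J s).V, (rpj69D L κ m J s).Fc, O⟩ := by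
  have hm := c.hm; have hk := c.hk; have hκ := c.hκ; have hκH := c.hκH; have hN := c.hN
  refine ⟨fun v hv => ⟨fun _ => rfl, fun _ => rcs127_V0_sub_V2 hv⟩, fun f hf => ?_⟩
  refine Finset.mem_sdiff.2 ⟨rcs127_V0_sub_V2 hf, fun hG => ?_⟩
  have hh := rhp31_G_high c s hG
  have key : ∀ e ∈ rcs127E0 (rcs127Sw (rpj69Y L κ m)) J, 2 * ((rci69Cap L 0 (κ + m / 2)).f0 e).2 < k + m ∧ 2 * ((rci69Cap L 0 (κ + m / 2)).f1 e).2 < k + m := by
    intro e he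
    obtain ⟨-, hne⟩ := rcs127_mem_E0.1 he
    obtain ⟨q0, q1, -, -, q4, q5⟩ := rcd111_cap_rows L 0 (κ + m / 2) e
    have : (rci69Cap L 0 (κ + m / 2)).p0 e ∈ J ∨ (rci69Cap L 0 (κ + m / 2)).p1 e ∈ J := by
      by_contra hno
      exact hne ⟨fun x => absurd (Or.inl x) hno, fun x => absurd (Or.inr x) hno⟩
    rcases this with h | h
    · have := c.hlow _ h; constructor <;> omega
    · have := c.hlow _ h; constructor <;> omega
  rcases Finset.mem_union.1 hf with h | h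
  · obtain ⟨e, he, rfl⟩ := Finset.mem_image.1 h
    have := (key e he).1
    have e1 : ((rcs127Sw (rpj69Y L κ m)).p0 e).2 = ((rci69Cap L 0 (κ + m / 2)).f0 e).2 := rfl
    omega
  · obtain ⟨e, he, rfl⟩ := Finset.mem_image.1 h
    have := (key e he).2
    have e1 : ((rcs127Sw (rpj69Y L κ m)).p1 e).2 = ((rci69Cap L 0 (κ + m / 2)).f1 e).2 := rfl
    omega

/-- **(P3) from (WF)** -/
theorem rhp31_P3 {t : ℝ} (h0 : 1 / 2 ≤ t) (h1 : t ≤ 1) (hL : 0 < L) (hwf : Rpj69Wf L H) : Rpj69P3 t L H := by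
  intro k m κ J c
  have hm := c.hm; have hk := c.hk; have hκ := c.hκ; have hκH := c.hκH; have hN := c.hN
  have hb := rhp31_ctx_b c
  have hw := hwf k m κ J c false
  have hf : (rpj69D L κ m J false).Feas t (fun ω => (fun S D => Rpj69K L κ m J false ⟨S, D, ∅⟩) ω.S ω.D) :=
    rpj69_full_feas _ hw (by linarith) (rhp31_K_full c false ∅)
  have hW := rcd111_hW_cap (L := L) (H := H) (a := 0) (b := κ + m / 2) le_rfl (by omega) (c := κ) (d := κ + m - 1) (by omega) (by omega)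
    (rpj69D L κ m J false) rfl rfl rfl rfl (rhp31_band_D hL c false)
  have h := rcs127_alt_P (rpj69D L κ m J false) h0 h1 (fun S D => Rpj69K L κ m J false ⟨S, D, ∅⟩) hf
    (fun ω => rcy162Fld L (rcy162Cyl L 0 H) ω ∈ cyVP 1 κ (κ + m - 1)) (fun ω => rcy162Fld L (rcy162Cyl L 0 H) ω ∈ cyVP (-1) κ (κ + m - 1))
    (fun ω => rcs127FldD L (rcs127Sw (rcy162Cyl L 0 H)) ω ∈ cyBlk 1 κ (κ + m - 1)) (fun ω => rcs127FldD L (rcs127Sw (rcy162Cyl L 0 H)) ω ∈ cyBlk (-1) κ (κ + m - 1))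
    (fun S D O O' _ _ _ _ _ hω => rcd111_alt_sys hL (by omega) (by omega) (by omega) _ hW hω)
  exact h

end perJ

/-! ## 4. (perJ), the deterministic half of (P2): THE CUT ALONG THE ROW `H` (typing of 121) -/

/-- the sites of the explored part = the ends of the pairs with a face in the record -/
theorem rhp31_mem_V1 {Z : Rcy162Sys} {J : Finset (ℤ × ℤ)} {v : ℤ × ℤ} :
    v ∈ rcs127V1 Z J ↔ ∃ e ∈ Z.E, (Z.f0 e ∈ J ∨ Z.f1 e ∈ J) ∧ (v = Z.p0 e ∨ v = Z.p1 e) := by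
  classical
  unfold rcs127V1 rcs127V0
  simp only [Finset.mem_union, Finset.mem_image, rcs127_mem_E1, rcs127_mem_E0]
  constructor
  · rintro ((⟨e, ⟨h1, h2, h3⟩, rfl⟩ | ⟨e, ⟨h1, h2, h3⟩, rfl⟩) | (⟨e, ⟨h1, h2⟩, rfl⟩ | ⟨e, ⟨h1, h2⟩, rfl⟩))
    · exact ⟨e, h1, Or.inl h2, Or.inl rfl⟩
    · exact ⟨e, h1, Or.inl h2, Or.inr rfl⟩
    · refine ⟨e, h1, ?_, Or.inl rfl⟩
      by_contra hno
      exact h2 ⟨fun x => absurd (Or.inl x) hno, fun x => absurd (Or.inr x) hno⟩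
    · refine ⟨e, h1, ?_, Or.inr rfl⟩
      by_contra hno
      exact h2 ⟨fun x => absurd (Or.inl x) hno, fun x => absurd (Or.inr x) hno⟩
  · rintro ⟨e, h1, h2, h3⟩
    by_cases hb : Z.f0 e ∈ J ∧ Z.f1 e ∈ J
    · rcases h3 with rfl | rfl
      · exact Or.inl (Or.inl ⟨e, ⟨h1, hb.1, hb.2⟩, rfl⟩)
      · exact Or.inl (Or.inr ⟨e, ⟨h1, hb.1, hb.2⟩, rfl⟩)
    · have hne : ¬ (Z.f0 e ∈ J ↔ Z.f1 e ∈ J) := by
        intro hiff
        rcases h2 with h | h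
        · exact hb ⟨h, hiff.1 h⟩
        · exact hb ⟨hiff.2 h, h⟩
      rcases h3 with rfl | rfl
      · exact Or.inr (Or.inl ⟨e, ⟨h1, hne⟩, rfl⟩)
      · exact Or.inr (Or.inr ⟨e, ⟨h1, hne⟩, rfl⟩)

section cutH

variable {L H : ℕ} {k m κ : ℤ} {J : Finset (ℤ × ℤ)}

/-- the core of the cut along the row `H` -/
noncomputable def rhp31C (L H : ℕ) (J : Finset (ℤ × ℤ)) : Finset (ℤ × ℤ) := (rcs127OutP (rcy162Cyl L 0 H) J).V \ rcy162Row L H

theorem rhp31_C_eqns_cite : True := by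
  have := @rhp31C.eq_1
  trivial

theorem rhp31_ctx_Hb (c : Rpj69Ctx L H k m κ J) : (H : ℤ) < κ + m / 2 := by
  have hm := c.hm; have hk := c.hk; have hN := c.hN
  omega

theorem rhp31_J_low (c : Rpj69Ctx L H k m κ J) {v : ℤ × ℤ} (hv : v ∈ J) : v.2 + 4 ≤ H := by
  have hm := c.hm; have hk := c.hk; have hκ := c.hκ; have hκH := c.hκH
  have := c.hlow v hv
  omega

theorem rhp31_P_V {v : ℤ × ℤ} : v ∈ (rcs127OutP (rcy162Cyl L 0 H) J).V ↔ v ∈ (rcy162Cyl L 0 H).V ∧ v ∉ J := Finset.mem_sdiff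

theorem rhp31_P_E {e : (ℤ × ℤ) × Bool} : e ∈ (rcs127OutP (rcy162Cyl L 0 H) J).E ↔
    e ∈ (rcy162Cyl L 0 H).E ∧ (rcy162Cyl L 0 H).p0 e ∉ J ∧ (rcy162Cyl L 0 H).p1 e ∉ J := rcs127_mem_E2

theorem rhp31_D_E {s : Bool} {e : (ℤ × ℤ) × Bool} : e ∈ (rpj69D L κ m J s).E ↔
    (e ∈ (rci69Cap L 0 (κ + m / 2)).E ∧ (rci69Cap L 0 (κ + m / 2)).p0 e ∉ J ∧ (rci69Cap L 0 (κ + m / 2)).p1 e ∉ J) ∧
      (rci69Cap L 0 (κ + m / 2)).f0 e ∉ rpj69G L κ m J s ∧ (rci69Cap L 0 (κ + m / 2)).f1 e ∉ rpj69G L κ m J s := by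
  have h1 : e ∈ (rpj69D L κ m J s).E ↔ e ∈ rcs127E2 (rcs127Sw (rpj69Y L κ m)) J ∧
      (rci69Cap L 0 (κ + m / 2)).f0 e ∉ rpj69G L κ m J s ∧ (rci69Cap L 0 (κ + m / 2)).f1 e ∉ rpj69G L κ m J s := rcs127_mem_E2
  have h2 : e ∈ rcs127E2 (rcs127Sw (rpj69Y L κ m)) J ↔
      e ∈ (rci69Cap L 0 (κ + m / 2)).E ∧ (rci69Cap L 0 (κ + m / 2)).p0 e ∉ J ∧ (rci69Cap L 0 (κ + m / 2)).p1 e ∉ J := rcs127_mem_E2
  rw [h1, h2]

/-- the faces of the unexplored system of the cylinder are faces of the cylinder -/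
theorem rhp31_P_F (hL : 0 < L) (c : Rpj69Ctx L H k m κ J) : (rcs127OutP (rcy162Cyl L 0 H) J).Fc ⊆ (rcy162Cyl L 0 H).Fc := by
  have hH := rpj69_ctx_H c
  exact (rcv69_out_sub (rcs127_sw_wf (rcy162_cyl_wf hL 0 H)) (rcd111_adm_sw hL (by omega) c.h0 c.hV)).sV

/-- the row `H` belongs to the unexplored system -/
theorem rhp31_rowH (c : Rpj69Ctx L H k m κ J) : rcy162Row L H ⊆ (rcs127OutP (rcy162Cyl L 0 H) J).V := by
  intro v hv
  obtain ⟨r1, r2⟩ := rcy162_mem_row.1 hv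
  refine rhp31_P_V.2 ⟨rcy162_mem_cylV.2 ⟨r1, by omega, by omega⟩, fun hJ => ?_⟩
  have := rhp31_J_low c hJ
  omega

/-- **(PIN)** -/
theorem rhp31_cut_pin (c : Rpj69Ctx L H k m κ J) : (rcs127OutP (rcy162Cyl L 0 H) J).V \ rhp31C L H J = rcy162Row L H := by
  unfold rhp31C
  ext v
  rw [Finset.mem_sdiff, Finset.mem_sdiff]
  constructor
  · rintro ⟨h1, h2⟩
    by_contra hn
    exact h2 ⟨h1, hn⟩
  · exact fun h => ⟨rhp31_rowH c h, fun x => x.2 h⟩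

/-- a site of a row `≥ H` is off the core -/
theorem rhp31_not_C {v : ℤ × ℤ} (h : (H : ℤ) ≤ v.2) : v ∉ rhp31C L H J := by
  intro hv
  unfold rhp31C at hv
  obtain ⟨h1, h2⟩ := Finset.mem_sdiff.1 hv
  obtain ⟨r1, r2, r3⟩ := rcy162_mem_cylV.1 (rhp31_P_V.1 h1).1
  exact h2 (rcy162_mem_row.2 ⟨r1, by omega⟩)

/-- a pair of the cap off the cylinder: a horizontal pair of the row `0`, or a pair of a row `≥ H` -/
theorem rhp31_off_cyl {b : ℤ} {e : (ℤ × ℤ) × Bool} (he : e ∈ (rci69Cap L 0 b).E) (hn : e ∉ (rcy162Cyl L 0 H).E) :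
    (e.2 = false ∧ e.1.2 = 0) ∨ (H : ℤ) ≤ e.1.2 := by
  obtain ⟨r1, r2, r3⟩ := rci69_mem_capE.1 he
  by_contra hno
  refine hn (rcy162_mem_cylE.2 ⟨r1, ?_⟩)
  obtain ⟨⟨x, y⟩, q⟩ := e
  cases q
  · have h1 : ¬ (y = 0 ∨ (H : ℤ) ≤ y) := fun h => hno (h.elim (fun a => Or.inl ⟨rfl, a⟩) Or.inr)
    have h2 : 0 ≤ y := r2
    exact Or.inl ⟨rfl, by show 0 < y; omega, by show y < H; omega⟩
  · have h1 : ¬ ((H : ℤ) ≤ y) := fun h => hno (Or.inr h)
    have h2 : 0 ≤ y := r2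
    exact Or.inr ⟨rfl, h2, by show y < H; omega⟩

theorem rhp31_cap_p1_snd (b : ℤ) (e : (ℤ × ℤ) × Bool) : e.1.2 ≤ ((rci69Cap L 0 b).p1 e).2 := by
  have e3 : ((rci69Cap L 0 b).p1 e).2 = (rswEnd e).2 := by
    show (rci69TopV b (rcy162Red L (rswEnd e))).2 = _
    rw [rcd111_top_snd, rcy162_red_snd]
  rw [e3]
  obtain ⟨⟨x, y⟩, q⟩ := e
  cases q
  · rw [rtd111_end_f]
  · rw [rtd111_end_t]; simp only; omega

/-- a pair of the doubly cut system off the unexplored system of the cylinder lies in a row `≥ H` -/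
theorem rhp31_D_off (c : Rpj69Ctx L H k m κ J) {s : Bool} {e : (ℤ × ℤ) × Bool} (he : e ∈ (rpj69D L κ m J s).E)
    (hn : e ∉ (rcs127OutP (rcy162Cyl L 0 H) J).E) : (H : ℤ) ≤ e.1.2 := by
  obtain ⟨⟨h1, h2, h3⟩, -, -⟩ := rhp31_D_E.1 he
  have hnZ : e ∉ (rcy162Cyl L 0 H).E := by
    intro hZ
    obtain ⟨q1, -⟩ := rcv69_cap_eq (L := L) (a := 0) (b := κ + m / 2) le_rfl (rhp31_ctx_Hb c) hZ
    exact hn (rhp31_P_E.2 ⟨hZ, h2, by rw [← q1]; exact h3⟩)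
  rcases rhp31_off_cyl h1 hnZ with ⟨-, h0⟩ | h
  · exfalso
    obtain ⟨r1, -, -⟩ := rci69_mem_capE.1 h1
    exact h2 (c.h0 (rcy162_mem_row.2 ⟨r1, h0⟩))
  · exact h

/-- **(RIM)** -/
theorem rhp31_cut_rim (hL : 0 < L) (c : Rpj69Ctx L H k m κ J) (s : Bool) :
    ∀ e ∈ (rpj69D L κ m J s).E \ (rcs127OutP (rcy162Cyl L 0 H) J).E,
      ((rpj69D L κ m J s).f0 e ∈ (rcs127OutP (rcy162Cyl L 0 H) J).Fc ∨ (rpj69D L κ m J s).f1 e ∈ (rcs127OutP (rcy162Cyl L 0 H) J).Fc) →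
      (rpj69D L κ m J s).p0 e ∈ (rcs127OutP (rcy162Cyl L 0 H) J).V \ rhp31C L H J ∧
        (rpj69D L κ m J s).p1 e ∈ (rcs127OutP (rcy162Cyl L 0 H) J).V \ rhp31C L H J := by
  intro e he hf
  rw [rhp31_cut_pin c]
  obtain ⟨heD, heN⟩ := Finset.mem_sdiff.1 he
  have hrow := rhp31_D_off c heD heN
  obtain ⟨⟨h1, -, -⟩, -, -⟩ := rhp31_D_E.1 heD
  obtain ⟨r1, r2, r3⟩ := rci69_mem_capE.1 h1
  have hb := rhp31_ctx_Hb c
  obtain ⟨⟨x, y⟩, q⟩ := e
  simp only at hrow r1 r2 r3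
  have f0e : (rpj69D L κ m J s).f0 ((x, y), q) = (x, y) := rfl
  have f1e : (rpj69D L κ m J s).f1 ((x, y), q) = rci69BotF 0 (rcy162Red L (rswCo ((x, y), q))) := rfl
  have hF := rhp31_P_F hL c
  cases q
  · have hy : y = H := by
      rcases hf with h | h
      · obtain ⟨_, s1, s2⟩ := rcy162_mem_cylF.1 (hF h)
        rw [f0e] at s2
        simp only at s2
        omega
      · obtain ⟨_, s1, s2⟩ := rcy162_mem_cylF.1 (hF h)
        rw [f1e, rcd111_bot_snd, rcy162_red_snd, rtd111_co_f] at s2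
        simp only at s2
        omega
    subst hy
    refine ⟨rcy162_mem_row.2 ⟨r1, rfl⟩, ?_⟩
    show rci69TopV (κ + m / 2) (rcy162Red L (rswEnd ((x, (H : ℤ)), false))) ∈ _
    rw [rcv69_top_of (by rw [rcy162_red_snd, rtd111_end_f]; simp only; omega)]
    exact rcy162_mem_row.2 ⟨rcy162_red_range hL _, rfl⟩
  · exfalso
    rcases hf with h | h
    · obtain ⟨_, s1, s2⟩ := rcy162_mem_cylF.1 (hF h)
      rw [f0e] at s2
      simp only at s2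
      omega
    · obtain ⟨_, s1, s2⟩ := rcy162_mem_cylF.1 (hF h)
      rw [f1e, rcd111_bot_snd, rcy162_red_snd, rtd111_co_t] at s2
      simp only at s2
      omega

theorem rhp31_cyl_cap (c : Rpj69Ctx L H k m κ J) {e : (ℤ × ℤ) × Bool} (he : e ∈ (rcy162Cyl L 0 H).E) : e ∈ (rci69Cap L 0 (κ + m / 2)).E := by
  have hb := rhp31_ctx_Hb c
  obtain ⟨r1, r2⟩ := rcy162_mem_cylE.1 he
  exact rci69_mem_capE.2 ⟨r1, by omega, by omega⟩

/-- the explored part of the mirror record lies above the row `H` -/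
theorem rhp31_V1_high (c : Rpj69Ctx L H k m κ J) (s : Bool) {v : ℤ × ℤ}
    (hv : v ∈ rcs127V1 (rcs127OutP (rpj69Y L κ m) J) (rpj69G L κ m J s)) : (H : ℤ) < v.2 := by
  have hm := c.hm
  obtain ⟨e, he, hf, hv⟩ := rhp31_mem_V1.1 hv
  obtain ⟨-, t1, t2⟩ := rcd111_touch_high L 0 (κ + m / 2) (r := 2 * (H : ℤ) + m + 7) (e := e) (hf.imp (rhp31_G_high c s) (rhp31_G_high c s))
  rcases hv with rfl | rfl
  · have e1 : ((rcs127OutP (rpj69Y L κ m) J).p0 e).2 = ((rci69Cap L 0 (κ + m / 2)).p0 e).2 := rfl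
    omega
  · have e1 : ((rcs127OutP (rpj69Y L κ m) J).p1 e).2 = ((rci69Cap L 0 (κ + m / 2)).p1 e).2 := rfl
    omega

/-- the cut pairs of the record in the cylinder are cut pairs in the cap -/
theorem rhp31_E0_cap (c : Rpj69Ctx L H k m κ J) {e : (ℤ × ℤ) × Bool} (he : e ∈ rcs127E0 (rcs127Sw (rcy162Cyl L 0 H)) J) :
    e ∈ rcs127E0 (rcs127Sw (rpj69Y L κ m)) J := by
  obtain ⟨h1, h2⟩ := rcs127_mem_E0.1 he
  obtain ⟨q1, -⟩ := rcv69_cap_eq (L := L) (a := 0) (b := κ + m / 2) le_rfl (rhp31_ctx_Hb c) h1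
  refine rcs127_mem_E0.2 ⟨rhp31_cyl_cap c h1, fun hiff => h2 ?_⟩
  have hiff' : (rci69Cap L 0 (κ + m / 2)).p0 e ∈ J ↔ (rci69Cap L 0 (κ + m / 2)).p1 e ∈ J := hiff
  rw [q1] at hiff'
  exact hiff'

/-- (SUB), the faces -/
theorem rhp31_cut_sF (hL : 0 < L) (c : Rpj69Ctx L H k m κ J) (s : Bool) {f : ℤ × ℤ} (hf : f ∈ (rcs127OutP (rcy162Cyl L 0 H) J).Fc) :
    f ∈ (rpj69D L κ m J s).Fc := by
  have hH := rpj69_ctx_H c
  have hb := rhp31_ctx_Hb c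
  have hm := c.hm
  have hcap := fun {e : (ℤ × ℤ) × Bool} (hZ : e ∈ (rcy162Cyl L 0 H).E) => rcv69_cap_eq (L := L) (a := 0) (b := κ + m / 2) le_rfl hb hZ
  have hfC := rhp31_P_F hL c hf
  obtain ⟨r1, r2, r3⟩ := rcy162_mem_cylF.1 hfC
  refine Finset.mem_sdiff.2 ⟨?_, fun hG => by have := rhp31_G_high c s hG; omega⟩
  have hf' : f ∈ rcs127V2 (rcs127Sw (rcy162Cyl L 0 H)) J := hf
  show f ∈ rcs127V2 (rcs127Sw (rpj69Y L κ m)) J
  unfold rcs127V2 at hf' ⊢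
  rcases Finset.mem_union.1 hf' with h | h
  · obtain ⟨-, hn⟩ := Finset.mem_sdiff.1 h
    refine Finset.mem_union_left _ (Finset.mem_sdiff.2 ⟨rci69_mem_capF.2 (Or.inl ⟨r1, r2, by omega⟩), fun hV1 => hn ?_⟩)
    obtain ⟨e, he, hJ, hfe⟩ := rhp31_mem_V1.1 hV1
    have he' : e ∈ (rci69Cap L 0 (κ + m / 2)).E := he
    have hJ' : (rci69Cap L 0 (κ + m / 2)).p0 e ∈ J ∨ (rci69Cap L 0 (κ + m / 2)).p1 e ∈ J := hJ
    have hfe' : f = (rci69Cap L 0 (κ + m / 2)).f0 e ∨ f = (rci69Cap L 0 (κ + m / 2)).f1 e := hfe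
    by_cases hZ : e ∈ (rcy162Cyl L 0 H).E
    · obtain ⟨q1, q2⟩ := hcap hZ
      rw [q1] at hJ'
      rw [q2] at hfe'
      exact rhp31_mem_V1.2 ⟨e, hZ, hJ', hfe'⟩
    · obtain ⟨x1, -, -⟩ := rci69_mem_capE.1 he'
      rcases rhp31_off_cyl he' hZ with ⟨hq, h0⟩ | hHe
      · -- a horizontal pair of the row `0`
        have hfe1 : f = e.1 := by
          rcases hfe' with h | h
          · exact h
          · exfalso
            have : ((rci69Cap L 0 (κ + m / 2)).f1 e).2 = (rswCo e).2 := by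
              show (rci69BotF 0 (rcy162Red L (rswCo e))).2 = _
              rw [rcd111_bot_snd, rcy162_red_snd]
            obtain ⟨⟨x, y⟩, q⟩ := e
            simp only at hq h0
            subst hq
            rw [rtd111_co_f] at this
            simp only at this
            rw [← h] at this
            omega
        have hE' : ((e.1, true) : (ℤ × ℤ) × Bool) ∈ (rcy162Cyl L 0 H).E :=
          rcy162_mem_cylE.2 ⟨x1, Or.inr ⟨rfl, by show 0 ≤ e.1.2; omega, by show e.1.2 < H; omega⟩⟩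
        have hJ0 : (rcy162Cyl L 0 H).p0 (e.1, true) ∈ J := c.h0 (rcy162_mem_row.2 ⟨x1, h0⟩)
        have hf0 : f = (rcy162Cyl L 0 H).f0 (e.1, true) := hfe1
        exact rhp31_mem_V1.2 ⟨(e.1, true), hE', Or.inl hJ0, Or.inl hf0⟩
      · exfalso
        rcases hJ' with h | h
        · have := rhp31_J_low c h
          have e1 : ((rci69Cap L 0 (κ + m / 2)).p0 e).2 = e.1.2 := rfl
          omega
        · have := rhp31_J_low c h
          have := rhp31_cap_p1_snd (L := L) (κ + m / 2) e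
          omega
  · refine Finset.mem_union_right _ ?_
    unfold rcs127V0 at h ⊢
    rcases Finset.mem_union.1 h with h | h
    · obtain ⟨e, he, rfl⟩ := Finset.mem_image.1 h
      exact Finset.mem_union_left _ (Finset.mem_image.2 ⟨e, rhp31_E0_cap c he, rfl⟩)
    · obtain ⟨e, he, rfl⟩ := Finset.mem_image.1 h
      exact Finset.mem_union_right _ (Finset.mem_image.2 ⟨e, rhp31_E0_cap c he, (hcap (rcs127_mem_E0.1 he).1).2⟩)

/-- **(SUB)** the unexplored system of the cylinder is a subsystem of the doubly cut system -/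
theorem rhp31_cut_sub (hL : 0 < L) (c : Rpj69Ctx L H k m κ J) (s : Bool) :
    Rcy162Sub (rpj69D L κ m J s) (rcs127OutP (rcy162Cyl L 0 H) J) (rhp31C L H J) := by
  have hH := rpj69_ctx_H c
  have hb := rhp31_ctx_Hb c
  have hm := c.hm
  have hcap := fun {e : (ℤ × ℤ) × Bool} (hZ : e ∈ (rcy162Cyl L 0 H).E) => rcv69_cap_eq (L := L) (a := 0) (b := κ + m / 2) le_rfl hb hZ
  refine ⟨fun v hv => ?_, fun f hf => ?_, fun e he => ?_, Finset.sdiff_subset,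
    rpj69_outP_wf (rcy162_cyl_wf hL 0 H) (rcd111_adm_sw hL (by omega) c.h0 c.hV), fun _ _ => rfl, fun e he => ?_, fun _ _ => rfl,
    fun e he => ?_, fun e he hne => ?_⟩
  · -- sV
    obtain ⟨h1, h2⟩ := rhp31_P_V.1 hv
    obtain ⟨r1, r2, r3⟩ := rcy162_mem_cylV.1 h1
    show v ∈ rcs127V2 (rcs127OutP (rpj69Y L κ m) J) (rpj69G L κ m J s)
    unfold rcs127V2
    refine Finset.mem_union_left _ (Finset.mem_sdiff.2 ⟨?_, fun hV1 => ?_⟩)
    · exact Finset.mem_sdiff.2 ⟨rci69_mem_capV.2 (Or.inl ⟨r1, r2, by omega⟩), h2⟩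
    · have := rhp31_V1_high c s hV1
      omega
  · exact rhp31_cut_sF hL c s hf
  · -- sE
    obtain ⟨h1, h2, h3⟩ := rhp31_P_E.1 he
    obtain ⟨q1, q2⟩ := hcap h1
    obtain ⟨g0, g1, -, -, g4, -⟩ := rcd111_cap_rows L 0 (κ + m / 2) e
    have hrow : ((rci69Cap L 0 (κ + m / 2)).p0 e).2 < H := by
      obtain ⟨-, r2⟩ := rcy162_mem_cylE.1 h1
      show e.1.2 < H
      omega
    refine rhp31_D_E.2 ⟨⟨rhp31_cyl_cap c h1, h2, by rw [q1]; exact h3⟩, fun hG => ?_, fun hG => ?_⟩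
    · have := rhp31_G_high c s hG; omega
    · have := rhp31_G_high c s hG; omega
  · exact (hcap (rhp31_P_E.1 he).1).1.symm
  · exact (hcap (rhp31_P_E.1 he).1).2.symm
  · -- core
    have hrow := rhp31_D_off c he hne
    exact ⟨rhp31_not_C hrow, rhp31_not_C (le_trans hrow (rhp31_cap_p1_snd (L := L) (κ + m / 2) e))⟩

end cutH

/-! ## 5. (perJ) CLOSED for `0 < L`: the top line of the frame `PerJ69` -/

/-- **THE INPUT PER CONNECTED RECORD OF THE FIELD `sym`, NO HYPOTHESIS LEFT** (`0 < L`, `1/2 ≤ t ≤ 1`): frame and (P0), (P2) of 69, (T1) of 127 + 291, the record `Rpt127Geo` of 127 / 111 / 162 / 109 / 69, (WF), (P3) of 111, (P4) of 162, (P5) of 12 -/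
theorem rhp31_perJc {t : ℝ} (h0 : 1 / 2 ≤ t) (h1 : t ≤ 1) {L : ℕ} (hL : 0 < L) (H : ℕ) : Rcs127PerJc t L H :=
  have ht : 0 < t := by linarith
  rpj69_perJc2 ht h1 hL (pjf291_fkg ht h1 (rpt127_hgeo hL)) (rpw111_Wf hL H) (rpw111_P3 h0 h1 hL H) (rpq162_P4 ht.le h1 hL H)
    (pjb12_P5 ht h1 hL (rpt127_hgeo hL))

end Claimed.Agent.R292
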