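import Claimed.Agent.R291.Ann.Rsw
import Claimed.Agent.R292.Rsw.TriDict111

/-!
# Row 292 (S0540), Rsw/Rsw86 : BLOCK A3 = THE RSW ESTIMATE (56), PART I = ABSTRACT THEOREM ON `ℤ²`      (owner helper86; prefix `rrw86_`, `Rrw86`, `rrw86`)

    P[ V+(6r x r) ] ≥ δ   ⟹   P[ H+(4r x r) ] ≥ ψ(δ)          (PATH forms `RswV`, `RswH` of R291 `Ann/Rsw`, boxes `tscBox` of the REFINED lattice of `Rsw/TriDict111`)

PORT of R291 `Ann/Rsw` (187 + 259).   The record `RswLaw` of R291 has NO instance on `ℤ²`: its mirror `(u, v) ↦ (μ - u - v, v)` is the mirror of the triangular lattice, it sends face points to edge points.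
CURE (this is N2 of CORE_DICT): `Y` = the black set `rtd111Bl G` of the refined lattice (vertex points in, face points out, an edge point in iff the edge is good), or the plus cells of the status field of 162;
`rrw86X p = p.1` = refined abscissa = TWICE the abscissa of `ℤ²`;  `rrw86Sh t` = shift by `t` steps of `ℤ²` (adds `2 t` to `X`);  `rrw86Mi μ` = mirror in the vertical line through the vertex column `μ` (`X ↦ 2 μ - X`).
So the arithmetic of R291 (doubled Euclidean abscissa) is kept VERBATIM, only even refined shifts and mirrors through vertex columns are asked from the law.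
The mirror is not an automorphism of `tscG`; for a REFINED set `Y` (`Rrw86Ref`) and a region with the bounding box property (`Rtd111Rect`) an anti-diagonal step is replaced by two straight steps through the vertex corner
(`rrw86_R_mi`).   The record has one new field `supp : P (not refined) = 0`.
The ONLY inputs from the model (PART II) are the two gluing contracts `Rrw86Tip`, `Rrw86Tube` (bundled: `Rrw86Glue`).
-/

set_option autoImplicit false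

namespace Claimed.Agent.R292

open Claims Claims.C0467 Relation Claimed.Agent.R291

/-! ## §0 definitions -/

/-- abscissa in the refined lattice (`= 2 ×` the abscissa of `ℤ²`) -/
def rrw86X (p : ℤ × ℤ) : ℤ := p.1

/-- Euclidean rectangle -/
def rrw86Rect (A B c d : ℤ) : Set (ℤ × ℤ) := {p | A ≤ rrw86X p ∧ rrw86X p ≤ B ∧ c ≤ p.2 ∧ p.2 ≤ d}

/-- the set shifted to the right by `t` steps of `ℤ²` (`2 t` refined steps) -/
def rrw86Sh (t : ℤ) (Y : Set (ℤ × ℤ)) : Set (ℤ × ℤ) := {p | (p.1 - 2 * t, p.2) ∈ Y}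

/-- the mirror image of the set (`X ↦ 2 μ - X`) -/
def rrw86Mi (μ : ℤ) (Y : Set (ℤ × ℤ)) : Set (ℤ × ℤ) := {p | (2 * μ - p.1, p.2) ∈ Y}

/-- straight neighbours in the refined lattice -/
def Rrw86Nb (z z' : ℤ × ℤ) : Prop := (z'.1 = z.1 ∧ (z'.2 = z.2 + 1 ∨ z'.2 = z.2 - 1)) ∨ (z'.2 = z.2 ∧ (z'.1 = z.1 + 1 ∨ z'.1 = z.1 - 1))

/-- a REFINED set: no face point is in; with an edge point its two end points (the vertex points next to it) are in.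
(Met by the black sets `rtd111Bl G` of 111: ALL vertex points in; and by the plus cells `cyOn 1 (rcy162Fld ..)` of the status field of 162: plus vertices + good plus edges.) -/
def Rrw86Ref (Y : Set (ℤ × ℤ)) : Prop :=
  (∀ z ∈ Y, ¬ (z.1 % 2 = 1 ∧ z.2 % 2 = 1)) ∧ ∀ z ∈ Y, ∀ z' : ℤ × ℤ, z'.1 % 2 = 0 → z'.2 % 2 = 0 → Rrw86Nb z z' → z' ∈ Y

/-- what PART I uses of the law of the set of open-plus cells -/
structure Rrw86Law where
  P : (Set (ℤ × ℤ) → Prop) → ℝ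
  mono : ∀ E E' : Set (ℤ × ℤ) → Prop, (∀ Y, E Y → E' Y) → P E ≤ P E'
  bot : P (fun _ => False) = 0
  top : P (fun _ => True) = 1
  union : ∀ E E' : Set (ℤ × ℤ) → Prop, P (fun Y => E Y ∨ E' Y) ≤ P E + P E'
  fkg : ∀ E E' : Set (ℤ × ℤ) → Prop, RswInc E → RswInc E' → P E * P E' ≤ P (fun Y => E Y ∧ E' Y)
  shift : ∀ (t : ℤ) (E : Set (ℤ × ℤ) → Prop), P (fun Y => E (rrw86Sh t Y)) = P E
  mirror : ∀ (μ : ℤ) (E : Set (ℤ × ℤ) → Prop), P (fun Y => E (rrw86Mi μ Y)) = P E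
  supp : P (fun Y => ¬ Rrw86Ref Y) = 0

/-- crossing inside `R` from the bottom interval `|X - i| ≤ w` to the top interval `|X - j| ≤ w` -/
def Rrw86Cr (R : Set (ℤ × ℤ)) (c d i j w : ℤ) (Y : Set (ℤ × ℤ)) : Prop :=
  ∃ p q, p ∈ Y ∩ R ∧ p.2 = c ∧ q.2 = d ∧ (i - w ≤ rrw86X p ∧ rrw86X p ≤ i + w) ∧ (j - w ≤ rrw86X q ∧ rrw86X q ≤ j + w) ∧ TscR tscG (Y ∩ R) p q

/-- aligned crossing at the centre `m` inside `[m - l, m + ρ]` -/
def Rrw86E (c d w m l ρ : ℤ) : Set (ℤ × ℤ) → Prop := Rrw86Cr (rrw86Rect (m - l) (m + ρ) c d) c d m m w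

/-- aligned crossing inside `[m - e, m + e2]` which reaches `X < m - e1` -/
def Rrw86Asym (c d w m e e1 e2 : ℤ) (Y : Set (ℤ × ℤ)) : Prop :=
  ∃ p q z, p ∈ Y ∩ rrw86Rect (m - e) (m + e2) c d ∧ p.2 = c ∧ q.2 = d ∧ (m - w ≤ rrw86X p ∧ rrw86X p ≤ m + w) ∧ (m - w ≤ rrw86X q ∧ rrw86X q ≤ m + w) ∧
    TscR tscG (Y ∩ rrw86Rect (m - e) (m + e2) c d) p z ∧ TscR tscG (Y ∩ rrw86Rect (m - e) (m + e2) c d) z q ∧ rrw86X z < m - e1

/-- one cluster of the band holds a crossing at `m` and a crossing at `m + σ` -/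
def Rrw86F (c d w σ m : ℤ) (Y : Set (ℤ × ℤ)) : Prop :=
  ∃ p q p' q', p ∈ Y ∩ plsBand c d ∧ p.2 = c ∧ q.2 = d ∧ p'.2 = c ∧ q'.2 = d ∧ (m - w ≤ rrw86X p ∧ rrw86X p ≤ m + w) ∧ (m - w ≤ rrw86X q ∧ rrw86X q ≤ m + w) ∧
    (m + σ - w ≤ rrw86X p' ∧ rrw86X p' ≤ m + σ + w) ∧ (m + σ - w ≤ rrw86X q' ∧ rrw86X q' ≤ m + σ + w) ∧
    TscR tscG (Y ∩ plsBand c d) p q ∧ TscR tscG (Y ∩ plsBand c d) p p' ∧ TscR tscG (Y ∩ plsBand c d) p' q'

/-- **TIP** (G1 step 3 (iii); Lemma C3 + Lemma B): if no crossing at `m`, `m + σ` has a short excursion on either side, the leftmost crossing at `m` and the rightmost one at `m + σ` are glued -/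
def Rrw86Tip (𝔏 : Rrw86Law) (cg : ℝ) (c d w σ e e2 : ℤ) : Prop :=
  ∀ m : ℤ, cg * 𝔏.P (fun Y => Rrw86E c d w m e e Y ∧ Rrw86E c d w (m + σ) e e Y ∧ ¬ Rrw86E c d w m e e2 Y ∧ ¬ Rrw86E c d w m e2 e Y ∧
    ¬ Rrw86E c d w (m + σ) e e2 Y ∧ ¬ Rrw86E c d w (m + σ) e2 e Y) ≤ 𝔏.P (Rrw86F c d w σ m)

/-- **TUBE** (G1 terminal step; Lemma C4 + Lemma B) -/
def Rrw86Tube (𝔏 : Rrw86Law) (cg : ℝ) (c d w σ e : ℤ) : Prop :=
  ∀ m : ℤ, cg * 𝔏.P (fun Y => Rrw86E c d w m e e Y ∧ Rrw86E c d w (m + σ) e e Y) ≤ 𝔏.P (Rrw86F c d w σ m)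

/-- **the contract of PART II** at the band `[c, c + r]`, pigeonhole half width `w`:   `ws = 5 w + 1`, `σ = 4 (ws + 1) = 20 w + 8`.      (`12500 w ≤ r`, so `600 σ ≤ r`.) -/
structure Rrw86Glue (𝔏 : Rrw86Law) (cg : ℝ) (c r w : ℤ) : Prop where
  tip : ∀ e e2 : ℤ, e2 ≤ e → e + 3 * (20 * w + 8) + (5 * w + 1) + 8 ≤ 2 * e2 → e ≤ 7 * r → Rrw86Tip 𝔏 cg c (c + r) (5 * w + 1) (20 * w + 8) e e2
  tube : ∀ e : ℤ, e ≤ 20 * (20 * w + 8) → Rrw86Tube 𝔏 cg c (c + r) (5 * w + 1) (20 * w + 8) e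

/-! ## §1 calculus of the law -/

namespace Rrw86Law

variable (𝔏 : Rrw86Law)

theorem rrw86_nonneg (E : Set (ℤ × ℤ) → Prop) : 0 ≤ 𝔏.P E := by
  rw [← 𝔏.bot]; exact 𝔏.mono _ _ fun _ h => h.elim

theorem rrw86_congr {E E' : Set (ℤ × ℤ) → Prop} (h : ∀ Y, E Y ↔ E' Y) : 𝔏.P E = 𝔏.P E' :=
  le_antisymm (𝔏.mono _ _ fun Y => (h Y).1) (𝔏.mono _ _ fun Y => (h Y).2)

/-- monotonicity on the support -/
theorem rrw86_mono' {E E' : Set (ℤ × ℤ) → Prop} (h : ∀ Y, Rrw86Ref Y → E Y → E' Y) : 𝔏.P E ≤ 𝔏.P E' := by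
  have h1 : 𝔏.P E ≤ 𝔏.P (fun Y => E' Y ∨ ¬ Rrw86Ref Y) := 𝔏.mono _ _ fun Y hY => by
    by_cases hr : Rrw86Ref Y
    · exact Or.inl (h Y hr hY)
    · exact Or.inr hr
  have h2 := 𝔏.union E' (fun Y => ¬ Rrw86Ref Y)
  rw [𝔏.supp] at h2
  linarith

theorem rrw86_congr' {E E' : Set (ℤ × ℤ) → Prop} (h : ∀ Y, Rrw86Ref Y → (E Y ↔ E' Y)) : 𝔏.P E = 𝔏.P E' :=
  le_antisymm (𝔏.rrw86_mono' fun Y hr => (h Y hr).1) (𝔏.rrw86_mono' fun Y hr => (h Y hr).2)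

/-- finite union bound -/
theorem rrw86_union_fin {ι : Type*} (s : Finset ι) (E : ι → Set (ℤ × ℤ) → Prop) : 𝔏.P (fun Y => ∃ i ∈ s, E i Y) ≤ ∑ i ∈ s, 𝔏.P (E i) := by
  classical
  induction s using Finset.induction_on with
  | empty => simp [𝔏.bot]
  | insert a s ha ih =>
    rw [Finset.sum_insert ha]
    refine le_trans (𝔏.mono _ (fun Y => E a Y ∨ ∃ i ∈ s, E i Y) ?_) (le_trans (𝔏.union _ _) (by linarith))
    rintro Y ⟨i, hi, hE⟩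
    rcases Finset.mem_insert.1 hi with rfl | hi
    · exact Or.inl hE
    · exact Or.inr ⟨i, hi, hE⟩

/-- pigeonhole -/
theorem rrw86_pigeon {ι : Type*} (s : Finset ι) (E : ι → Set (ℤ × ℤ) → Prop) {E0 : Set (ℤ × ℤ) → Prop} (h : ∀ Y, E0 Y → ∃ i ∈ s, E i Y) {δ : ℝ} (hδ : 0 < δ)
    (h0 : δ ≤ 𝔏.P E0) : ∃ i ∈ s, δ / s.card ≤ 𝔏.P (E i) := by
  by_contra hc
  push Not at hc
  have h1 : δ ≤ ∑ i ∈ s, 𝔏.P (E i) := h0.trans ((𝔏.mono _ _ h).trans (rrw86_union_fin 𝔏 s E))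
  rcases s.eq_empty_or_nonempty with rfl | hs
  · simp at h1; linarith
  · have h2 : ∑ i ∈ s, 𝔏.P (E i) < ∑ _i ∈ s, δ / s.card := Finset.sum_lt_sum_of_nonempty hs hc
    rw [Finset.sum_const, nsmul_eq_mul] at h2
    have h3 : (0 : ℝ) < s.card := by exact_mod_cast hs.card_pos
    rw [mul_div_cancel₀ _ h3.ne'] at h2
    linarith

/-- finite FKG -/
theorem rrw86_fkg_fin (n : ℕ) (E : ℕ → Set (ℤ × ℤ) → Prop) (hE : ∀ j < n, RswInc (E j)) {t : ℝ} (ht : 0 ≤ t) (h : ∀ j < n, t ≤ 𝔏.P (E j)) :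
    t ^ n ≤ 𝔏.P (fun Y => ∀ j < n, E j Y) := by
  induction n with
  | zero => simp [𝔏.top]
  | succ n ih =>
    have h1 := ih (fun j hj => hE j (by omega)) (fun j hj => h j (by omega))
    have h2 := 𝔏.fkg _ _ (fun Y Y' hY h j hj => hE j (Nat.lt_succ_of_lt hj) Y Y' hY (h j hj) : RswInc (fun Y => ∀ j < n, E j Y)) (hE n (by omega))
    have h3 : t ^ (n + 1) ≤ 𝔏.P (fun Y => ∀ j < n, E j Y) * 𝔏.P (E n) := by
      rw [pow_succ]
      exact mul_le_mul h1 (h n (by omega)) ht (𝔏.rrw86_nonneg _)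
    refine h3.trans (h2.trans (𝔏.mono _ _ ?_))
    rintro Y ⟨ha, hb⟩ j hj
    rcases Nat.lt_succ_iff_lt_or_eq.1 hj with hj | rfl
    · exact ha j hj
    · exact hb

/-- removal of a bad event -/
theorem rrw86_diff (E B : Set (ℤ × ℤ) → Prop) : 𝔏.P E - 𝔏.P B ≤ 𝔏.P (fun Y => E Y ∧ ¬ B Y) := by
  have h1 : 𝔏.P E ≤ 𝔏.P (fun Y => (E Y ∧ ¬ B Y) ∨ B Y) := 𝔏.mono _ _ fun Y hY => by
    by_cases hB : B Y
    · exact Or.inr hB
    · exact Or.inl ⟨hY, hB⟩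
  have h2 := 𝔏.union (fun Y => E Y ∧ ¬ B Y) B
  linarith

end Rrw86Law

/-! ## §2 monotonicity and transport of the events -/

theorem rrw86_inc_cr (R : Set (ℤ × ℤ)) (c d i j w : ℤ) : RswInc (Rrw86Cr R c d i j w) := by
  rintro Y Y' hYY ⟨p, q, hp, h1, h2, h3, h4, h5⟩
  exact ⟨p, q, ⟨hYY hp.1, hp.2⟩, h1, h2, h3, h4, tsc_R_mono (Set.inter_subset_inter_left _ hYY) h5⟩

theorem rrw86_inc_E (c d w m l ρ : ℤ) : RswInc (Rrw86E c d w m l ρ) := rrw86_inc_cr _ _ _ _ _ _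

theorem rrw86_inc_asym (c d w m e e1 e2 : ℤ) : RswInc (Rrw86Asym c d w m e e1 e2) := by
  rintro Y Y' hYY ⟨p, q, z, hp, h1, h2, h3, h4, h5, h6, h7⟩
  exact ⟨p, q, z, ⟨hYY hp.1, hp.2⟩, h1, h2, h3, h4, tsc_R_mono (Set.inter_subset_inter_left _ hYY) h5,
    tsc_R_mono (Set.inter_subset_inter_left _ hYY) h6, h7⟩

theorem rrw86_inc_F (c d w σ m : ℤ) : RswInc (Rrw86F c d w σ m) := by
  rintro Y Y' hYY ⟨p, q, p', q', hp, h1, h2, h3, h4, h5, h6, h7, h8, h9, h10, h11⟩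
  exact ⟨p, q, p', q', ⟨hYY hp.1, hp.2⟩, h1, h2, h3, h4, h5, h6, h7, h8, tsc_R_mono (Set.inter_subset_inter_left _ hYY) h9,
    tsc_R_mono (Set.inter_subset_inter_left _ hYY) h10, tsc_R_mono (Set.inter_subset_inter_left _ hYY) h11⟩

theorem rrw86_inc_mi {E : Set (ℤ × ℤ) → Prop} (h : RswInc E) (μ : ℤ) : RswInc (fun Y => E (rrw86Mi μ Y)) := by
  intro Y Y' hYY hE
  exact h _ _ (fun p hp => hYY hp) hE

/-- a larger region -/
theorem rrw86_cr_mono {R R' : Set (ℤ × ℤ)} (h : R ⊆ R') {c d i j w : ℤ} {Y : Set (ℤ × ℤ)} (hc : Rrw86Cr R c d i j w Y) : Rrw86Cr R' c d i j w Y := by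
  obtain ⟨p, q, hp, h1, h2, h3, h4, h5⟩ := hc
  exact ⟨p, q, ⟨hp.1, h hp.2⟩, h1, h2, h3, h4, tsc_R_mono (Set.inter_subset_inter_right _ h) h5⟩

/-- larger landing intervals -/
theorem rrw86_cr_wide {R : Set (ℤ × ℤ)} {c d i j w i' j' w' : ℤ} (hi : i' - w' ≤ i - w ∧ i + w ≤ i' + w') (hj : j' - w' ≤ j - w ∧ j + w ≤ j' + w')
    {Y : Set (ℤ × ℤ)} (hc : Rrw86Cr R c d i j w Y) : Rrw86Cr R c d i' j' w' Y := by
  obtain ⟨p, q, hp, h1, h2, h3, h4, h5⟩ := hc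
  exact ⟨p, q, hp, h1, h2, ⟨by omega, by omega⟩, ⟨by omega, by omega⟩, h5⟩

/-- paths and shifts -/
theorem rrw86_R_sh (t : ℤ) {S : Set (ℤ × ℤ)} {p q : ℤ × ℤ} (h : TscR tscG S p q) : TscR tscG (rrw86Sh t S) (p.1 + 2 * t, p.2) (q.1 + 2 * t, q.2) := by
  have hm : ∀ z : ℤ × ℤ, z ∈ S → (z.1 + 2 * t, z.2) ∈ rrw86Sh t S := by
    intro z hz
    show (z.1 + 2 * t - 2 * t, z.2) ∈ S
    rw [add_sub_cancel_right]; exact hz
  induction h with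
  | refl => exact ReflTransGen.refl
  | tail _ hbc ih =>
    refine ih.tail ⟨?_, hm _ hbc.2.1, hm _ hbc.2.2⟩
    have := hbc.1
    rw [tsc_G_adj, tsc_adj_iff] at this ⊢
    dsimp only; omega

/-- `Rrw86Ref`: the vertex points next to a point of the set -/
theorem rrw86_ref_P {Y : Set (ℤ × ℤ)} (hY : Rrw86Ref Y) {z z' : ℤ × ℤ} (hz : z ∈ Y) (h1 : z'.1 % 2 = 0) (h2 : z'.2 % 2 = 0) (h : Rrw86Nb z z') : z' ∈ Y :=
  hY.2 z hz z' h1 h2 h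

/-- `Rrw86Ref`: face points -/
theorem rrw86_ref_F {Y : Set (ℤ × ℤ)} (hY : Rrw86Ref Y) {z : ℤ × ℤ} (h1 : z.1 % 2 = 1) (h2 : z.2 % 2 = 1) : z ∉ Y :=
  fun hz => hY.1 z hz ⟨h1, h2⟩

/-- the black sets of `Rsw/TriDict111` are refined -/
theorem rrw86_ref_Bl (G : (ℤ × ℤ) × Bool → Prop) : Rrw86Ref (rtd111Bl G) := by
  constructor
  · rintro z hz ⟨h1, h2⟩
    have e : rtd111F (z.1 / 2, z.2 / 2) = z := by
      unfold rtd111F; ext <;> dsimp only <;> omega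
    rw [← e] at hz
    exact rtd111_F_not_mem_Bl _ hz
  · intro z _ z' h1 h2 _
    have e : rtd111P (z'.1 / 2, z'.2 / 2) = z' := by
      unfold rtd111P; ext <;> dsimp only <;> omega
    rw [← e]
    exact rtd111_P_mem_Bl _

theorem rrw86_ref_mi (μ : ℤ) {Y : Set (ℤ × ℤ)} (hY : Rrw86Ref Y) : Rrw86Ref (rrw86Mi μ Y) := by
  constructor
  · intro z hz h
    exact hY.1 (2 * μ - z.1, z.2) hz ⟨by dsimp only; omega, h.2⟩
  · intro z hz z' h1 h2 h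
    refine hY.2 (2 * μ - z.1, z.2) hz (2 * μ - z'.1, z'.2) (by dsimp only; omega) h2 ?_
    unfold Rrw86Nb at h ⊢
    dsimp only
    omega

theorem rrw86_ref_sh (t : ℤ) {Y : Set (ℤ × ℤ)} (hY : Rrw86Ref Y) : Rrw86Ref (rrw86Sh t Y) := by
  constructor
  · intro z hz h
    exact hY.1 (z.1 - 2 * t, z.2) hz ⟨by dsimp only; omega, h.2⟩
  · intro z hz z' h1 h2 h
    refine hY.2 (z.1 - 2 * t, z.2) hz (z'.1 - 2 * t, z'.2) (by dsimp only; omega) h2 ?_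
    unfold Rrw86Nb at h ⊢
    dsimp only
    omega

theorem rrw86_rect_mi (μ : ℤ) {R : Set (ℤ × ℤ)} (hR : Rtd111Rect R) : Rtd111Rect (rrw86Mi μ R) := by
  intro p hp q hq z h1 h2 h3 h4
  exact hR _ hp _ hq (2 * μ - z.1, z.2) (by dsimp only; omega) (by dsimp only; omega) h3 h4

theorem rrw86_rect_rect (A B c d : ℤ) : Rtd111Rect (rrw86Rect A B c d) := by
  intro p hp q hq z h1 h2 h3 h4
  obtain ⟨p1, p2, p3, p4⟩ := hp
  obtain ⟨q1, q2, q3, q4⟩ := hq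
  unfold rrw86X at p1 p2 q1 q2
  exact ⟨by unfold rrw86X; omega, by unfold rrw86X; omega, by omega, by omega⟩

theorem rrw86_rect_band (c d : ℤ) : Rtd111Rect (plsBand c d) := by
  intro p hp q hq z h1 h2 h3 h4
  obtain ⟨p3, p4⟩ := hp
  obtain ⟨q3, q4⟩ := hq
  exact ⟨by omega, by omega⟩

/-- one step and the mirror: an anti-diagonal step joins two edge points, it is replaced by two straight steps through the vertex corner -/
theorem rrw86_step_mi (μ : ℤ) {Y R : Set (ℤ × ℤ)} (hY : Rrw86Ref Y) (hR : Rtd111Rect R) {b c : ℤ × ℤ} (hb : b ∈ Y ∩ R) (hc : c ∈ Y ∩ R) (h : triAdj b c) :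
    TscR tscG (rrw86Mi μ (Y ∩ R)) (2 * μ - b.1, b.2) (2 * μ - c.1, c.2) := by
  have hm : ∀ z : ℤ × ℤ, z ∈ Y ∩ R → (2 * μ - z.1, z.2) ∈ rrw86Mi μ (Y ∩ R) := by
    intro z hz
    show (2 * μ - (2 * μ - z.1), z.2) ∈ Y ∩ R
    rw [sub_sub_cancel]; exact hz
  rw [tsc_adj_iff] at h
  by_cases hs : c.1 = b.1 ∨ c.2 = b.2
  · exact tsc_R_step ((tsc_G_adj _ _).2 ((tsc_adj_iff _ _).2 (by dsimp only; omega))) (hm b hb) (hm c hc)
  · have hbF : ¬ (b.1 % 2 = 1 ∧ b.2 % 2 = 1) := fun h' => rrw86_ref_F hY h'.1 h'.2 hb.1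
    have hcF : ¬ (c.1 % 2 = 1 ∧ c.2 % 2 = 1) := fun h' => rrw86_ref_F hY h'.1 h'.2 hc.1
    have hd : (c.1 = b.1 - 1 ∧ c.2 = b.2 + 1) ∨ (c.1 = b.1 + 1 ∧ c.2 = b.2 - 1) := by omega
    clear h hs
    by_cases hp : b.1 % 2 = 0
    · have hz : (b.1, c.2) ∈ Y ∩ R := ⟨rrw86_ref_P hY hb.1 (by dsimp only; omega) (by dsimp only; omega) (by unfold Rrw86Nb; dsimp only; omega),
        hR b hb.2 c hc.2 _ (min_le_left _ _) (le_max_left _ _) (min_le_right _ _) (le_max_right _ _)⟩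
      clear hbF hcF hp
      have a1 : tscG.Adj (2 * μ - b.1, b.2) (2 * μ - b.1, c.2) := (tsc_G_adj _ _).2 ((tsc_adj_iff _ _).2 (by dsimp only; omega))
      have a2 : tscG.Adj (2 * μ - b.1, c.2) (2 * μ - c.1, c.2) := (tsc_G_adj _ _).2 ((tsc_adj_iff _ _).2 (by dsimp only; omega))
      exact tsc_R_trans (tsc_R_step a1 (hm b hb) (hm _ hz)) (tsc_R_step a2 (hm _ hz) (hm c hc))
    · have hz : (c.1, b.2) ∈ Y ∩ R := ⟨rrw86_ref_P hY hb.1 (by dsimp only; omega) (by dsimp only; omega) (by unfold Rrw86Nb; dsimp only; omega),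
        hR b hb.2 c hc.2 _ (min_le_right _ _) (le_max_right _ _) (min_le_left _ _) (le_max_left _ _)⟩
      clear hbF hcF hp
      have a1 : tscG.Adj (2 * μ - b.1, b.2) (2 * μ - c.1, b.2) := (tsc_G_adj _ _).2 ((tsc_adj_iff _ _).2 (by dsimp only; omega))
      have a2 : tscG.Adj (2 * μ - c.1, b.2) (2 * μ - c.1, c.2) := (tsc_G_adj _ _).2 ((tsc_adj_iff _ _).2 (by dsimp only; omega))
      exact tsc_R_trans (tsc_R_step a1 (hm b hb) (hm _ hz)) (tsc_R_step a2 (hm _ hz) (hm c hc))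

/-- paths and mirrors -/
theorem rrw86_R_mi (μ : ℤ) {Y R : Set (ℤ × ℤ)} (hY : Rrw86Ref Y) (hR : Rtd111Rect R) {p q : ℤ × ℤ} (h : TscR tscG (Y ∩ R) p q) :
    TscR tscG (rrw86Mi μ (Y ∩ R)) (2 * μ - p.1, p.2) (2 * μ - q.1, q.2) := by
  induction h with
  | refl => exact ReflTransGen.refl
  | tail _ hbc ih => exact tsc_R_trans ih (rrw86_step_mi μ hY hR hbc.2.1 hbc.2.2 hbc.1)

theorem rrw86_sh_sh (t : ℤ) (Y : Set (ℤ × ℤ)) : rrw86Sh (-t) (rrw86Sh t Y) = Y := by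
  ext p
  show (p.1 - 2 * -t - 2 * t, p.2) ∈ Y ↔ p ∈ Y
  have : p.1 - 2 * -t - 2 * t = p.1 := by ring
  rw [this]

theorem rrw86_mi_mi (μ : ℤ) (Y : Set (ℤ × ℤ)) : rrw86Mi μ (rrw86Mi μ Y) = Y := by
  ext p
  show (2 * μ - (2 * μ - p.1), p.2) ∈ Y ↔ p ∈ Y
  rw [sub_sub_cancel]

theorem rrw86_sh_rect (t A B c d : ℤ) : rrw86Sh t (rrw86Rect A B c d) = rrw86Rect (A + 2 * t) (B + 2 * t) c d := by
  ext p
  simp only [rrw86Sh, rrw86Rect, rrw86X, Set.mem_ofPred_eq]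
  constructor <;> intro h <;> refine ⟨?_, ?_, ?_, ?_⟩ <;> omega

theorem rrw86_mi_rect (μ A B c d : ℤ) : rrw86Mi μ (rrw86Rect A B c d) = rrw86Rect (2 * μ - B) (2 * μ - A) c d := by
  ext p
  simp only [rrw86Mi, rrw86Rect, rrw86X, Set.mem_ofPred_eq]
  constructor <;> intro h <;> refine ⟨?_, ?_, ?_, ?_⟩ <;> omega

theorem rrw86_sh_band (t c d : ℤ) : rrw86Sh t (plsBand c d) = plsBand c d := rfl

theorem rrw86_mi_band (μ c d : ℤ) : rrw86Mi μ (plsBand c d) = plsBand c d := rfl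

/-- a crossing and a shift, general region -/
theorem rrw86_cr_sh_aux (t : ℤ) {R : Set (ℤ × ℤ)} {c d i j w : ℤ} {Y : Set (ℤ × ℤ)} (h : Rrw86Cr R c d i j w Y) :
    Rrw86Cr (rrw86Sh t R) c d (i + 2 * t) (j + 2 * t) w (rrw86Sh t Y) := by
  obtain ⟨p, q, hp, h1, h2, h3, h4, h5⟩ := h
  have hm : (p.1 + 2 * t, p.2) ∈ rrw86Sh t (Y ∩ R) := by
    show (p.1 + 2 * t - 2 * t, p.2) ∈ Y ∩ R
    rw [add_sub_cancel_right]; exact hp
  unfold rrw86X at h3 h4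
  exact ⟨(p.1 + 2 * t, p.2), (q.1 + 2 * t, q.2), hm, h1, h2, ⟨by unfold rrw86X; dsimp only; omega, by unfold rrw86X; dsimp only; omega⟩,
    ⟨by unfold rrw86X; dsimp only; omega, by unfold rrw86X; dsimp only; omega⟩, rrw86_R_sh t h5⟩

/-- a crossing and a mirror, general region -/
theorem rrw86_cr_mi_aux (μ : ℤ) {R : Set (ℤ × ℤ)} (hR : Rtd111Rect R) {c d i j w : ℤ} {Y : Set (ℤ × ℤ)} (hY : Rrw86Ref Y) (h : Rrw86Cr R c d i j w Y) :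
    Rrw86Cr (rrw86Mi μ R) c d (2 * μ - i) (2 * μ - j) w (rrw86Mi μ Y) := by
  obtain ⟨p, q, hp, h1, h2, h3, h4, h5⟩ := h
  have hm : (2 * μ - p.1, p.2) ∈ rrw86Mi μ (Y ∩ R) := by
    show (2 * μ - (2 * μ - p.1), p.2) ∈ Y ∩ R
    rw [sub_sub_cancel]; exact hp
  unfold rrw86X at h3 h4
  exact ⟨(2 * μ - p.1, p.2), (2 * μ - q.1, q.2), hm, h1, h2, ⟨by unfold rrw86X; dsimp only; omega, by unfold rrw86X; dsimp only; omega⟩,
    ⟨by unfold rrw86X; dsimp only; omega, by unfold rrw86X; dsimp only; omega⟩, rrw86_R_mi μ hY hR h5⟩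

/-- general region, iff -/
theorem rrw86_cr_sh_iff (t : ℤ) (R : Set (ℤ × ℤ)) (c d i j w : ℤ) (Y : Set (ℤ × ℤ)) :
    Rrw86Cr (rrw86Sh t R) c d (i + 2 * t) (j + 2 * t) w (rrw86Sh t Y) ↔ Rrw86Cr R c d i j w Y := by
  refine ⟨fun h => ?_, rrw86_cr_sh_aux t⟩
  have := rrw86_cr_sh_aux (-t) h
  rw [rrw86_sh_sh, rrw86_sh_sh] at this
  have e1 : i + 2 * t + 2 * -t = i := by ring
  have e2 : j + 2 * t + 2 * -t = j := by ring
  rwa [e1, e2] at this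

/-- general region, iff -/
theorem rrw86_cr_mi_iff (μ : ℤ) {R : Set (ℤ × ℤ)} (hR : Rtd111Rect R) (c d i j w : ℤ) {Y : Set (ℤ × ℤ)} (hY : Rrw86Ref Y) :
    Rrw86Cr (rrw86Mi μ R) c d (2 * μ - i) (2 * μ - j) w (rrw86Mi μ Y) ↔ Rrw86Cr R c d i j w Y := by
  refine ⟨fun h => ?_, rrw86_cr_mi_aux μ hR hY⟩
  have := rrw86_cr_mi_aux μ (rrw86_rect_mi μ hR) (rrw86_ref_mi μ hY) h
  rw [rrw86_mi_mi, rrw86_mi_mi] at this
  have e1 : 2 * μ - (2 * μ - i) = i := by ring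
  have e2 : 2 * μ - (2 * μ - j) = j := by ring
  rwa [e1, e2] at this

theorem rrw86_cr_sh (t A B c d i j w : ℤ) (Y : Set (ℤ × ℤ)) :
    Rrw86Cr (rrw86Rect (A + 2 * t) (B + 2 * t) c d) c d (i + 2 * t) (j + 2 * t) w (rrw86Sh t Y) ↔ Rrw86Cr (rrw86Rect A B c d) c d i j w Y := by
  rw [← rrw86_sh_rect]; exact rrw86_cr_sh_iff t _ c d i j w Y

theorem rrw86_cr_mi (μ A B c d i j w : ℤ) {Y : Set (ℤ × ℤ)} (hY : Rrw86Ref Y) :
    Rrw86Cr (rrw86Rect (2 * μ - B) (2 * μ - A) c d) c d (2 * μ - i) (2 * μ - j) w (rrw86Mi μ Y) ↔ Rrw86Cr (rrw86Rect A B c d) c d i j w Y := by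
  rw [← rrw86_mi_rect]; exact rrw86_cr_mi_iff μ (rrw86_rect_rect A B c d) c d i j w hY

theorem rrw86_crb_sh (t c d i j w : ℤ) (Y : Set (ℤ × ℤ)) :
    Rrw86Cr (plsBand c d) c d (i + 2 * t) (j + 2 * t) w (rrw86Sh t Y) ↔ Rrw86Cr (plsBand c d) c d i j w Y :=
  rrw86_cr_sh_iff t (plsBand c d) c d i j w Y

theorem rrw86_crb_mi (μ c d i j w : ℤ) {Y : Set (ℤ × ℤ)} (hY : Rrw86Ref Y) :
    Rrw86Cr (plsBand c d) c d (2 * μ - i) (2 * μ - j) w (rrw86Mi μ Y) ↔ Rrw86Cr (plsBand c d) c d i j w Y :=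
  rrw86_cr_mi_iff μ (rrw86_rect_band c d) c d i j w hY

theorem rrw86_F_sh_aux (t : ℤ) {c d w σ m : ℤ} {Y : Set (ℤ × ℤ)} (h : Rrw86F c d w σ m Y) : Rrw86F c d w σ (m + 2 * t) (rrw86Sh t Y) := by
  obtain ⟨p, q, p', q', hp, h1, h2, h3, h4, h5, h6, h7, h8, h9, h10, h11⟩ := h
  have hm : (p.1 + 2 * t, p.2) ∈ rrw86Sh t (Y ∩ plsBand c d) := by
    show (p.1 + 2 * t - 2 * t, p.2) ∈ Y ∩ plsBand c d
    rw [add_sub_cancel_right]; exact hp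
  unfold rrw86X at h5 h6 h7 h8
  exact ⟨(p.1 + 2 * t, p.2), (q.1 + 2 * t, q.2), (p'.1 + 2 * t, p'.2), (q'.1 + 2 * t, q'.2), hm, h1, h2, h3, h4,
    ⟨by unfold rrw86X; dsimp only; omega, by unfold rrw86X; dsimp only; omega⟩, ⟨by unfold rrw86X; dsimp only; omega, by unfold rrw86X; dsimp only; omega⟩,
    ⟨by unfold rrw86X; dsimp only; omega, by unfold rrw86X; dsimp only; omega⟩, ⟨by unfold rrw86X; dsimp only; omega, by unfold rrw86X; dsimp only; omega⟩,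
    rrw86_R_sh t h9, rrw86_R_sh t h10, rrw86_R_sh t h11⟩

theorem rrw86_F_sh (t c d w σ m : ℤ) (Y : Set (ℤ × ℤ)) : Rrw86F c d w σ (m + 2 * t) (rrw86Sh t Y) ↔ Rrw86F c d w σ m Y := by
  refine ⟨fun h => ?_, rrw86_F_sh_aux t⟩
  have := rrw86_F_sh_aux (-t) h
  rw [rrw86_sh_sh] at this
  have e1 : m + 2 * t + 2 * -t = m := by ring
  rwa [e1] at this

namespace Rrw86Law

variable (𝔏 : Rrw86Law)

theorem rrw86_P_E_sh (t c d w m l ρ : ℤ) : 𝔏.P (Rrw86E c d w (m + 2 * t) l ρ) = 𝔏.P (Rrw86E c d w m l ρ) := by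
  rw [← 𝔏.shift t (Rrw86E c d w (m + 2 * t) l ρ)]
  refine 𝔏.rrw86_congr (fun Y => ?_)
  unfold Rrw86E
  have e1 : m + 2 * t - l = m - l + 2 * t := by ring
  have e2 : m + 2 * t + ρ = m + ρ + 2 * t := by ring
  rw [e1, e2]
  exact rrw86_cr_sh t _ _ c d m m w Y

theorem rrw86_P_E_mi (c d w m l ρ : ℤ) : 𝔏.P (Rrw86E c d w m ρ l) = 𝔏.P (Rrw86E c d w m l ρ) := by
  rw [← 𝔏.mirror m (Rrw86E c d w m ρ l)]
  refine 𝔏.rrw86_congr' (fun Y hY => ?_)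
  unfold Rrw86E
  have h := rrw86_cr_mi m (m - l) (m + ρ) c d m m w hY
  have e1 : 2 * m - (m + ρ) = m - ρ := by ring
  have e2 : 2 * m - (m - l) = m + l := by ring
  have e3 : 2 * m - m = m := by ring
  rw [e1, e2, e3] at h
  exact h

theorem rrw86_P_crb_sh (t c d i j w : ℤ) : 𝔏.P (Rrw86Cr (plsBand c d) c d (i + 2 * t) (j + 2 * t) w) = 𝔏.P (Rrw86Cr (plsBand c d) c d i j w) := by
  rw [← 𝔏.shift t (Rrw86Cr (plsBand c d) c d (i + 2 * t) (j + 2 * t) w)]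
  exact 𝔏.rrw86_congr (fun Y => rrw86_crb_sh t c d i j w Y)

theorem rrw86_P_crb_mi (μ c d i j w : ℤ) : 𝔏.P (Rrw86Cr (plsBand c d) c d (2 * μ - i) (2 * μ - j) w) = 𝔏.P (Rrw86Cr (plsBand c d) c d i j w) := by
  rw [← 𝔏.mirror μ (Rrw86Cr (plsBand c d) c d (2 * μ - i) (2 * μ - j) w)]
  exact 𝔏.rrw86_congr' (fun Y hY => rrw86_crb_mi μ c d i j w hY)

theorem rrw86_P_F_sh (t c d w σ m : ℤ) : 𝔏.P (Rrw86F c d w σ (m + 2 * t)) = 𝔏.P (Rrw86F c d w σ m) := by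
  rw [← 𝔏.shift t (Rrw86F c d w σ (m + 2 * t))]
  exact 𝔏.rrw86_congr (fun Y => rrw86_F_sh t c d w σ m Y)

end Rrw86Law

/-! ## §3 planar lemmas -/

/-- on one row the order of `X` is the order of the first coordinate -/
theorem rrw86_X_lt {p q : ℤ × ℤ} (h : p.2 = q.2) : rrw86X p < rrw86X q ↔ p.1 < q.1 := by
  unfold rrw86X; constructor <;> intro h' <;> omega

/-- a bottom-top path `T` of the band with `X ≤ M` meets every path of the band from the bottom row, on the left of the foot of `T`, to a point with `X > M` -/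
theorem rrw86_reach {S T : Set (ℤ × ℤ)} {c d M : ℤ} {p w u v : ℤ × ℤ} (hp : p ∈ S) (hpw : TscR tscG S p w) (hS : S ⊆ plsBand c d)
    (hu : u ∈ T) (huv : TscR tscG T u v) (hT : T ⊆ plsBand c d) (hTM : ∀ z ∈ T, z.1 ≤ M)
    (hpc : p.2 = c) (huc : u.2 = c) (hvd : v.2 = d) (hpu : p.1 < u.1) (hw : M < w.1) : (S ∩ T).Nonempty := by
  have hwS : w ∈ S := tsc_R_mem hpw hp
  have hwb := hS hwS
  have hvT : v ∈ T := tsc_R_mem huv hu
  set seg : Set (ℤ × ℤ) := {z | z.1 = w.1 ∧ w.2 ≤ z.2 ∧ z.2 ≤ d} with hseg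
  have h1 : TscR tscG seg (w.1, w.2) (w.1, d) := by
    refine tsc_R_vseg (fun z hz1 hz2 => ?_)
    rw [min_eq_left hwb.2] at hz1
    rw [max_eq_right hwb.2] at hz2
    exact ⟨rfl, hz1, hz2⟩
  have h2 : TscR tscG (S ∪ seg) p (w.1, d) :=
    tsc_R_trans (tsc_R_mono Set.subset_union_left hpw) (tsc_R_mono Set.subset_union_right h1)
  have hsub : S ∪ seg ⊆ plsBand c d := by
    rintro z (hz | hz)
    · exact hS hz
    · exact ⟨hwb.1.trans hz.2.1, hz.2.2⟩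
  have hv := hTM v hvT
  obtain ⟨z, hz1, hz2⟩ := pls_interlace (S := S ∪ seg) (T := T) (c := c) (d := d) (Or.inl hp) h2 hu huv hsub hT hpc rfl huc hvd hpu
    (by show v.1 < w.1; omega)
  rcases hz1 with hz1 | hz1
  · exact ⟨z, hz1, hz2⟩
  · exfalso
    have := hTM z hz2
    have h3 := hz1.1
    omega

/-- **TIP CROSS**: a path of the band from a site of the bottom row to a site `z` on the right of `T` meets the bottom-top path `T` if its foot is on the left of the foot of `T`. -/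
theorem rrw86_tip_cross {S T : Set (ℤ × ℤ)} {c d : ℤ} {p z u v : ℤ × ℤ} (hS : S ⊆ plsBand c d) (hT : T ⊆ plsBand c d) (hp : p ∈ S) (hpz : TscR tscG S p z)
    (hu : u ∈ T) (huv : TscR tscG T u v) (hpc : p.2 = c) (huc : u.2 = c) (hvd : v.2 = d) (h1 : p.1 < u.1) (h2 : ∀ y ∈ T, rrw86X y < rrw86X z) : (S ∩ T).Nonempty :=
  rrw86_reach (M := rrw86X z - 1) hp hpz hS hu huv hT (fun y hy => by have := h2 y hy; unfold rrw86X at this ⊢; omega) hpc huc hvd h1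
    (by unfold rrw86X; omega)

/-! ## §4 pigeonhole -/

/-- the vertical crossing lands in two of the `N` intervals -/
theorem rrw86_land {a b c d w : ℤ} (hw : 0 ≤ w) (N : ℕ) (hN : (b - a) + 1 ≤ N * (2 * w + 1)) {Y : Set (ℤ × ℤ)} (h : RswV a b c d Y) :
    ∃ n ∈ Finset.range N ×ˢ Finset.range N, Rrw86Cr (rrw86Rect (a) (b) c d) c d (a + w + (2 * w + 1) * (n.1 : ℤ)) (a + w + (2 * w + 1) * (n.2 : ℤ)) w Y := by
  have aux : ∀ x : ℤ, 0 ≤ x → x + 1 ≤ N * (2 * w + 1) → ∃ n : ℕ, n < N ∧ (2 * w + 1) * (n : ℤ) ≤ x ∧ x ≤ (2 * w + 1) * (n : ℤ) + 2 * w := by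
    intro x hx hxN
    have hq : 0 ≤ x / (2 * w + 1) := Int.ediv_nonneg hx (by omega)
    have h1 := Int.mul_ediv_add_emod x (2 * w + 1)
    have h2 := Int.emod_nonneg x (show 2 * w + 1 ≠ 0 by omega)
    have h3 := Int.emod_lt_of_pos x (show 0 < 2 * w + 1 by omega)
    refine ⟨(x / (2 * w + 1)).toNat, ?_, ?_, ?_⟩
    · by_contra hcon
      have h4 : (N : ℤ) ≤ x / (2 * w + 1) := by
        have : (N : ℤ) ≤ ((x / (2 * w + 1)).toNat : ℤ) := by exact_mod_cast not_lt.1 hcon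
        rwa [Int.toNat_of_nonneg hq] at this
      nlinarith
    · rw [Int.toNat_of_nonneg hq]; omega
    · rw [Int.toNat_of_nonneg hq]; omega
  obtain ⟨u, v, hu, huc, hvd, huv⟩ := h
  have hv := tsc_R_mem huv hu
  have hub := hu.1
  have hvb := hv.1
  simp only [tscBox, Set.mem_ofPred_eq] at hub hvb
  obtain ⟨n1, hn1, h11, h12⟩ := aux (rrw86X u - (a)) (by unfold rrw86X; omega) (by unfold rrw86X; omega)
  obtain ⟨n2, hn2, h21, h22⟩ := aux (rrw86X v - (a)) (by unfold rrw86X; omega) (by unfold rrw86X; omega)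
  have hsub : tscBox a b c d ∩ Y ⊆ Y ∩ rrw86Rect (a) (b) c d := by
    intro z hz
    have hzb := hz.1
    simp only [tscBox, Set.mem_ofPred_eq] at hzb
    exact ⟨hz.2, by unfold rrw86X; omega, by unfold rrw86X; omega, hzb.2.2.1, hzb.2.2.2⟩
  exact ⟨(n1, n2), Finset.mem_product.2 ⟨Finset.mem_range.2 hn1, Finset.mem_range.2 hn2⟩, u, v, hsub hu, huc, hvd,
    ⟨by dsimp only; omega, by dsimp only; omega⟩, ⟨by dsimp only; omega, by dsimp only; omega⟩, tsc_R_mono hsub huv⟩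

/-! ## §5 the tilted case -/

/-- the chain of the crossings `γ + n w` (from `i` to `j`) and of the mirror images `γ' + n w` (from `j + θ` to `i + θ`) lies in one cluster -/
theorem rrw86_tilt_chain {c d i j w θ : ℤ} (hw : 0 ≤ w) (hθ : 0 ≤ θ ∧ θ ≤ 1) (ho : 4 * w + 2 ≤ j - i) (n : ℕ) {Y : Set (ℤ × ℤ)}
    (h1 : ∀ k < n + 1, Rrw86Cr (plsBand c d) c d (i + 2 * (w * k)) (j + 2 * (w * k)) w Y)
    (h2 : ∀ k < n, Rrw86Cr (plsBand c d) c d (j + θ + 2 * (w * k)) (i + θ + 2 * (w * k)) w Y) :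
    ∃ p q, p ∈ Y ∩ plsBand c d ∧ p.2 = c ∧ q.2 = c ∧ rrw86X p ≤ i + w ∧ i + 2 * (w * n) - w ≤ rrw86X q ∧ TscR tscG (Y ∩ plsBand c d) p q := by
  have hQ : Y ∩ plsBand c d ⊆ plsBand c d := Set.inter_subset_right
  have key : ∀ m : ℕ, m ≤ n → ∃ p q t, p ∈ Y ∩ plsBand c d ∧ p.2 = c ∧ rrw86X p ≤ i + w ∧ q ∈ Y ∩ plsBand c d ∧ q.2 = c ∧ t.2 = d ∧
      (i + 2 * (w * m) - w ≤ rrw86X q ∧ rrw86X q ≤ i + 2 * (w * m) + w) ∧ (j + 2 * (w * m) - w ≤ rrw86X t ∧ rrw86X t ≤ j + 2 * (w * m) + w) ∧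
      TscR tscG (Y ∩ plsBand c d) p q ∧ TscR tscG (Y ∩ plsBand c d) q t := by
    intro m
    induction m with
    | zero =>
      intro _
      obtain ⟨p, q, hp, hpc, hqd, hpX, hqX, hpq⟩ := h1 0 (by omega)
      exact ⟨p, p, q, hp, hpc, by simpa using hpX.2, hp, hpc, hqd, hpX, hqX, tsc_R_refl _, hpq⟩
    | succ m ih =>
      intro hm
      obtain ⟨p, q, t, hp, hpc, hpX, hq, hqc, htd, hqX, htX, hpq, hqt⟩ := ih (by omega)
      obtain ⟨u, v, hu, huc, hvd, huX, hvX, huv⟩ := h2 m (by omega)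
      obtain ⟨q', t', hq', hqc', htd', hqX', htX', hqt'⟩ := h1 (m + 1) (by omega)
      have e0 : w * ((m + 1 : ℕ) : ℤ) = w * m + w := by push_cast; ring
      have e1 : TscR tscG (Y ∩ plsBand c d) q u := rsd_meet hQ hq hqt hu huv hqc htd huc hvd
        (Or.inl ⟨(rrw86_X_lt (hqc.trans huc.symm)).1 (by omega), (rrw86_X_lt (hvd.trans htd.symm)).1 (by omega)⟩)
      have e2 : TscR tscG (Y ∩ plsBand c d) u q' := rsd_meet hQ hu huv hq' hqt' huc hvd hqc' htd'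
        (Or.inr ⟨(rrw86_X_lt (hqc'.trans huc.symm)).1 (by rw [e0] at hqX'; omega), (rrw86_X_lt (hvd.trans htd'.symm)).1 (by rw [e0] at htX'; omega)⟩)
      exact ⟨p, q', t', hp, hpc, hpX, hq', hqc', htd', hqX', htX', tsc_R_trans hpq (tsc_R_trans e1 e2), hqt'⟩
  obtain ⟨p, q, t, hp, hpc, hpX, hq, hqc, htd, hqX, htX, hpq, hqt⟩ := key n le_rfl
  exact ⟨p, q, hp, hpc, hqc, hpX, hqX.1, hpq⟩

/-- **the tilted case** -/
theorem rrw86_tilt (𝔏 : Rrw86Law) {c d i j w : ℤ} (hcd : c ≤ d) (hw : 1 ≤ w) (ho : 4 * w + 2 ≤ j - i) {t : ℝ} (ht : 0 ≤ t) (h : t ≤ 𝔏.P (Rrw86Cr (plsBand c d) c d i j w))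
    (n : ℕ) (a b : ℤ) (hab : a ≤ b) (hn : 2 * (b - a) + 4 * w + 4 ≤ 2 * (w * n)) : t ^ (2 * n + 1) ≤ 𝔏.P (RswH a b c d) := by
  set s : ℤ := (a - w - i) / 2 with hs
  set θ : ℤ := (i + j) % 2 with hθ
  set μ : ℤ := (i + 2 * s + (j + 2 * s) + θ) / 2 with hμ
  have hμ2 : 2 * μ = i + 2 * s + (j + 2 * s) + θ := by omega
  have hP1 : ∀ k : ℕ, 𝔏.P (Rrw86Cr (plsBand c d) c d (i + 2 * s + 2 * (w * k)) (j + 2 * s + 2 * (w * k)) w) = 𝔏.P (Rrw86Cr (plsBand c d) c d i j w) := by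
    intro k
    have := 𝔏.rrw86_P_crb_sh (s + w * k) c d i j w
    rwa [show i + 2 * (s + w * k) = i + 2 * s + 2 * (w * k) by ring, show j + 2 * (s + w * k) = j + 2 * s + 2 * (w * k) by ring] at this
  have hP2 : ∀ k : ℕ, 𝔏.P (Rrw86Cr (plsBand c d) c d (j + 2 * s + θ + 2 * (w * k)) (i + 2 * s + θ + 2 * (w * k)) w) = 𝔏.P (Rrw86Cr (plsBand c d) c d i j w) := by
    intro k
    have e1 := 𝔏.rrw86_P_crb_sh (w * k) c d (j + 2 * s + θ) (i + 2 * s + θ) w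
    have e2 := 𝔏.rrw86_P_crb_mi μ c d (i + 2 * s) (j + 2 * s) w
    have e3 := 𝔏.rrw86_P_crb_sh s c d i j w
    rw [show 2 * μ - (i + 2 * s) = j + 2 * s + θ by omega, show 2 * μ - (j + 2 * s) = i + 2 * s + θ by omega] at e2
    rw [e1, e2, e3]
  have h1 := 𝔏.rrw86_fkg_fin (n + 1) (fun k => Rrw86Cr (plsBand c d) c d (i + 2 * s + 2 * (w * k)) (j + 2 * s + 2 * (w * k)) w) (fun k _ => rrw86_inc_cr _ _ _ _ _ _) ht
    (fun k _ => by rw [hP1]; exact h)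
  have h2 := 𝔏.rrw86_fkg_fin n (fun k => Rrw86Cr (plsBand c d) c d (j + 2 * s + θ + 2 * (w * k)) (i + 2 * s + θ + 2 * (w * k)) w) (fun k _ => rrw86_inc_cr _ _ _ _ _ _) ht
    (fun k _ => by rw [hP2]; exact h)
  have h3 := 𝔏.fkg _ _ (rsw_inc_all (n + 1) (fun k => Rrw86Cr (plsBand c d) c d (i + 2 * s + 2 * (w * k)) (j + 2 * s + 2 * (w * k)) w) (fun k _ => rrw86_inc_cr _ _ _ _ _ _))
    (rsw_inc_all n (fun k => Rrw86Cr (plsBand c d) c d (j + 2 * s + θ + 2 * (w * k)) (i + 2 * s + θ + 2 * (w * k)) w) (fun k _ => rrw86_inc_cr _ _ _ _ _ _))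
  have h4 : t ^ (2 * n + 1) ≤ 𝔏.P (fun Y => ∀ k < n + 1, Rrw86Cr (plsBand c d) c d (i + 2 * s + 2 * (w * k)) (j + 2 * s + 2 * (w * k)) w Y) *
      𝔏.P (fun Y => ∀ k < n, Rrw86Cr (plsBand c d) c d (j + 2 * s + θ + 2 * (w * k)) (i + 2 * s + θ + 2 * (w * k)) w Y) := by
    rw [show 2 * n + 1 = (n + 1) + n by ring, pow_add]
    exact mul_le_mul h1 h2 (by positivity) (𝔏.rrw86_nonneg _)
  refine h4.trans (h3.trans (𝔏.mono _ _ fun Y hY => ?_))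
  obtain ⟨p, q, hp, hpc, hqc, hpX, hqX, hpq⟩ := rrw86_tilt_chain (i := i + 2 * s) (j := j + 2 * s) (θ := θ) (by omega) (by omega) (by omega) n hY.1 hY.2
  unfold rrw86X at hpX hqX
  generalize w * (n : ℤ) = N at *
  exact rsw_H_of_path hab hcd hp hpq (by omega) (by omega)

/-! ## §6 the aligned case -/

/-- a crossing inside `[m - e, m + e2]` stays inside `[m - e1, m + e1]` or is asymmetric -/
theorem rrw86_E_sub {c d w m e e1 e2 : ℤ} (h21 : e2 ≤ e1) {Y : Set (ℤ × ℤ)} (h : Rrw86E c d w m e e2 Y) : Rrw86E c d w m e1 e1 Y ∨ Rrw86Asym c d w m e e1 e2 Y := by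
  obtain ⟨p, q, hp, hpc, hqd, hpX, hqX, hpq⟩ := h
  rcases rsw_split (S' := rrw86Rect (m - e1) (m + e1) c d) hp hpq with ⟨hp', h1⟩ | ⟨z, hz, hz', hpz, hzq⟩
  · left
    have hs : Y ∩ rrw86Rect (m - e) (m + e2) c d ∩ rrw86Rect (m - e1) (m + e1) c d ⊆ Y ∩ rrw86Rect (m - e1) (m + e1) c d := fun z hz => ⟨hz.1.1, hz.2⟩
    exact ⟨p, q, ⟨hp.1, hp'⟩, hpc, hqd, hpX, hqX, tsc_R_mono hs h1⟩
  · right
    refine ⟨p, q, z, hp, hpc, hqd, hpX, hqX, hpz, hzq, ?_⟩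
    by_contra hcon
    apply hz'
    have h2 := hz.2
    exact ⟨by omega, by have := h2.2.1; omega, h2.2.2.1, h2.2.2.2⟩

/-- (ii): an asymmetric crossing at `m` meets the mirror image, placed at `m - σ`, of another one -/
theorem rrw86_asym_F {c d w σ m μ e e1 e2 : ℤ} (hσ : 2 * w < σ) (hμ : 2 * μ = 2 * m - σ) (h12 : σ < e1 - e2) {Y : Set (ℤ × ℤ)} (hY : Rrw86Ref Y)
    (h : Rrw86Asym c d w m e e1 e2 Y) (h' : Rrw86Asym c d w m e e1 e2 (rrw86Mi μ Y)) : Rrw86F c d w σ (m - σ) Y := by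
  obtain ⟨p, q, z, hp, hpc, hqd, hpX, hqX, hpz, hzq, hz⟩ := h
  obtain ⟨p', q', z', hp', hpc', hqd', hpX', hqX', hpz', hzq', hz'⟩ := h'
  set R := rrw86Rect (m - e) (m + e2) c d with hR
  set S' := rrw86Mi μ (rrw86Mi μ Y ∩ R) with hS'
  have hmem : ∀ x : ℤ × ℤ, x ∈ rrw86Mi μ Y ∩ R → (2 * μ - x.1, x.2) ∈ S' := by
    intro x hx
    show (2 * μ - (2 * μ - x.1), x.2) ∈ rrw86Mi μ Y ∩ R
    rw [sub_sub_cancel]
    exact hx
  have hS'sub : ∀ x ∈ S', x ∈ Y ∧ (c ≤ x.2 ∧ x.2 ≤ d) ∧ m - σ - e2 ≤ rrw86X x ∧ rrw86X x ≤ m - σ + e := by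
    intro x hx
    have h1 : (2 * μ - x.1, x.2) ∈ rrw86Mi μ Y ∩ R := hx
    obtain ⟨h2, h3⟩ := h1
    have h2' : (2 * μ - (2 * μ - x.1), x.2) ∈ Y := h2
    rw [sub_sub_cancel] at h2'
    obtain ⟨r1, r2, r3, r4⟩ := h3
    unfold rrw86X at r1 r2 ⊢
    dsimp only at r1 r2 r3 r4
    exact ⟨h2', ⟨r3, r4⟩, by omega, by omega⟩
  have hRsub : ∀ x ∈ Y ∩ R, x ∈ Y ∧ (c ≤ x.2 ∧ x.2 ≤ d) ∧ rrw86X x ≤ m + e2 := fun x hx => ⟨hx.1, ⟨hx.2.2.2.1, hx.2.2.2.2⟩, hx.2.2.1⟩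
  have sS : S' ⊆ Y ∩ plsBand c d := fun x hx => ⟨(hS'sub x hx).1, (hS'sub x hx).2.1⟩
  have sR : Y ∩ R ⊆ Y ∩ plsBand c d := fun x hx => ⟨(hRsub x hx).1, (hRsub x hx).2.1⟩
  -- the mirror images
  have hP : (2 * μ - p'.1, p'.2) ∈ S' := hmem p' hp'
  have hPZ : TscR tscG S' (2 * μ - p'.1, p'.2) (2 * μ - z'.1, z'.2) := rrw86_R_mi μ (rrw86_ref_mi μ hY) (rrw86_rect_rect _ _ _ _) hpz'
  have hZQ : TscR tscG S' (2 * μ - z'.1, z'.2) (2 * μ - q'.1, q'.2) := rrw86_R_mi μ (rrw86_ref_mi μ hY) (rrw86_rect_rect _ _ _ _) hzq'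
  unfold rrw86X at hpX hqX hz hpX' hqX' hz'
  -- the two clusters meet
  have hcross : (tscComp tscG S' (2 * μ - p'.1, p'.2) ∩ tscComp tscG (Y ∩ R) p).Nonempty := by
    refine rrw86_tip_cross (c := c) (d := d) (z := (2 * μ - z'.1, z'.2)) (v := q) ((tsc_comp_sub _).trans (sS.trans Set.inter_subset_right))
      ((tsc_comp_sub _).trans (sR.trans Set.inter_subset_right)) (tsc_comp_self hP) (tsc_comp_R (tsc_comp_self hP) hPZ)
      (tsc_comp_self hp) (tsc_comp_R (tsc_comp_self hp) (tsc_R_trans hpz hzq)) hpc' hpc hqd ?_ ?_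
    · show 2 * μ - p'.1 < p.1
      omega
    · intro y hy
      have := (hRsub y (tsc_comp_sub _ hy)).2.2
      unfold rrw86X at this ⊢
      dsimp only
      omega
  have hjoin : TscR tscG (Y ∩ plsBand c d) (2 * μ - p'.1, p'.2) p := rsw_join sS sR hcross
  refine ⟨(2 * μ - p'.1, p'.2), (2 * μ - q'.1, q'.2), p, q, sS hP, hpc', hqd', hpc, hqd, ?_, ?_, ?_, ?_,
    tsc_R_mono sS (tsc_R_trans hPZ hZQ), hjoin, tsc_R_mono sR (tsc_R_trans hpz hzq)⟩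
  · unfold rrw86X
    dsimp only
    constructor <;> omega
  · unfold rrw86X
    dsimp only
    constructor <;> omega
  · unfold rrw86X
    constructor <;> omega
  · unfold rrw86X
    constructor <;> omega

/-- two aligned crossings at `m`, `m + σ` -/
theorem rrw86_two (𝔏 : Rrw86Law) {c d w σ e m : ℤ} (hσ : σ = 4 * (w + 1)) {t : ℝ} (ht : 0 ≤ t) (h : t ≤ 𝔏.P (Rrw86E c d w m e e)) :
    t ^ 2 ≤ 𝔏.P (fun Y => Rrw86E c d w m e e Y ∧ Rrw86E c d w (m + σ) e e Y) := by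
  have h1 : 𝔏.P (Rrw86E c d w (m + σ) e e) = 𝔏.P (Rrw86E c d w m e e) := by
    have := 𝔏.rrw86_P_E_sh (2 * (w + 1)) c d w m e e
    rwa [show m + 2 * (2 * (w + 1)) = m + σ by rw [hσ]; ring] at this
  have h2 := 𝔏.fkg _ _ (rrw86_inc_E c d w m e e) (rrw86_inc_E c d w (m + σ) e e)
  rw [h1] at h2
  nlinarith [𝔏.rrw86_nonneg (Rrw86E c d w m e e)]

/-- the terminal step -/
theorem rrw86_term (𝔏 : Rrw86Law) {cg : ℝ} (hcg : 0 ≤ cg) {c d w σ e m : ℤ} (hσ : σ = 4 * (w + 1)) (hT : Rrw86Tube 𝔏 cg c d w σ e) {t : ℝ} (ht : 0 ≤ t) (h : t ≤ 𝔏.P (Rrw86E c d w m e e)) :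
    cg * t ^ 2 / 2 ≤ 𝔏.P (Rrw86F c d w σ m) := by
  have h1 := rrw86_two 𝔏 hσ ht h
  have h2 := hT m
  have h3 : cg * t ^ 2 ≤ cg * 𝔏.P (fun Y => Rrw86E c d w m e e Y ∧ Rrw86E c d w (m + σ) e e Y) := mul_le_mul_of_nonneg_left h1 hcg
  have h4 : 0 ≤ cg * t ^ 2 := by positivity
  linarith

/-- one step of the descent: (i), (ii) or (iii) -/
theorem rrw86_step (𝔏 : Rrw86Law) {cg : ℝ} (hcg : 0 ≤ cg) {c d w σ e e1 e2 m : ℤ} (hw : 0 ≤ w) (hσ : σ = 4 * (w + 1)) (h21 : e2 ≤ e1) (h12 : σ < e1 - e2)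
    (hT : Rrw86Tip 𝔏 cg c d w σ e e2) {t : ℝ} (ht : 0 < t) (h : t ≤ 𝔏.P (Rrw86E c d w m e e)) :
    t ^ 2 / 32 ≤ 𝔏.P (Rrw86E c d w m e1 e1) ∨ (t ^ 2 / 32) ^ 2 ≤ 𝔏.P (Rrw86F c d w σ m) ∨ cg * t ^ 2 / 2 ≤ 𝔏.P (Rrw86F c d w σ m) := by
  by_cases hi : t ^ 2 / 32 ≤ 𝔏.P (Rrw86E c d w m e1 e1)
  · exact Or.inl hi
  right
  push Not at hi
  by_cases hii : t ^ 2 / 32 ≤ 𝔏.P (Rrw86Asym c d w m e e1 e2)
  · left
    -- the mirror
    have hμ : 2 * (m - 2 * (w + 1)) = 2 * m - σ := by rw [hσ]; ring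
    have h1 := 𝔏.fkg _ _ (rrw86_inc_asym c d w m e e1 e2) (rrw86_inc_mi (rrw86_inc_asym c d w m e e1 e2) (m - 2 * (w + 1)))
    rw [𝔏.mirror] at h1
    have h2 : 𝔏.P (fun Y => Rrw86Asym c d w m e e1 e2 Y ∧ Rrw86Asym c d w m e e1 e2 (rrw86Mi (m - 2 * (w + 1)) Y)) ≤ 𝔏.P (Rrw86F c d w σ (m - σ)) :=
      𝔏.rrw86_mono' fun Y hr hY => rrw86_asym_F (by rw [hσ]; omega) hμ h12 hr hY.1 hY.2
    have h3 : 𝔏.P (Rrw86F c d w σ m) = 𝔏.P (Rrw86F c d w σ (m - σ)) := by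
      have := 𝔏.rrw86_P_F_sh (2 * (w + 1)) c d w σ (m - σ)
      rwa [show m - σ + 2 * (2 * (w + 1)) = m by rw [hσ]; ring] at this
    rw [h3]
    have h4 : 0 ≤ t ^ 2 / 32 := by positivity
    nlinarith
  · right
    push Not at hii
    set t' := t ^ 2 / 32 with ht'
    -- the four bad events
    have hb1 : 𝔏.P (Rrw86E c d w m e e2) < 2 * t' := by
      have := 𝔏.mono (Rrw86E c d w m e e2) (fun Y => Rrw86E c d w m e1 e1 Y ∨ Rrw86Asym c d w m e e1 e2 Y) fun Y hY => rrw86_E_sub h21 hY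
      have h' := 𝔏.union (Rrw86E c d w m e1 e1) (Rrw86Asym c d w m e e1 e2)
      linarith
    have hb2 : 𝔏.P (Rrw86E c d w m e2 e) < 2 * t' := by rw [𝔏.rrw86_P_E_mi]; exact hb1
    have hsh : ∀ l ρ, 𝔏.P (Rrw86E c d w (m + σ) l ρ) = 𝔏.P (Rrw86E c d w m l ρ) := by
      intro l ρ
      have := 𝔏.rrw86_P_E_sh (2 * (w + 1)) c d w m l ρ
      rwa [show m + 2 * (2 * (w + 1)) = m + σ by rw [hσ]; ring] at this
    have hb3 : 𝔏.P (Rrw86E c d w (m + σ) e e2) < 2 * t' := by rw [hsh]; exact hb1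
    have hb4 : 𝔏.P (Rrw86E c d w (m + σ) e2 e) < 2 * t' := by rw [hsh]; exact hb2
    have h0 := rrw86_two 𝔏 hσ ht.le h
    have hB : 𝔏.P (fun Y => (Rrw86E c d w m e e2 Y ∨ Rrw86E c d w m e2 e Y) ∨ (Rrw86E c d w (m + σ) e e2 Y ∨ Rrw86E c d w (m + σ) e2 e Y)) < 8 * t' := by
      have u1 := 𝔏.union (fun Y => Rrw86E c d w m e e2 Y ∨ Rrw86E c d w m e2 e Y) (fun Y => Rrw86E c d w (m + σ) e e2 Y ∨ Rrw86E c d w (m + σ) e2 e Y)
      have u2 := 𝔏.union (Rrw86E c d w m e e2) (Rrw86E c d w m e2 e)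
      have u3 := 𝔏.union (Rrw86E c d w (m + σ) e e2) (Rrw86E c d w (m + σ) e2 e)
      linarith
    have hD := 𝔏.rrw86_diff (fun Y => Rrw86E c d w m e e Y ∧ Rrw86E c d w (m + σ) e e Y)
      (fun Y => (Rrw86E c d w m e e2 Y ∨ Rrw86E c d w m e2 e Y) ∨ (Rrw86E c d w (m + σ) e e2 Y ∨ Rrw86E c d w (m + σ) e2 e Y))
    have hG : 𝔏.P (fun Y => (Rrw86E c d w m e e Y ∧ Rrw86E c d w (m + σ) e e Y) ∧
        ¬ ((Rrw86E c d w m e e2 Y ∨ Rrw86E c d w m e2 e Y) ∨ (Rrw86E c d w (m + σ) e e2 Y ∨ Rrw86E c d w (m + σ) e2 e Y))) ≤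
        𝔏.P (fun Y => Rrw86E c d w m e e Y ∧ Rrw86E c d w (m + σ) e e Y ∧ ¬ Rrw86E c d w m e e2 Y ∧ ¬ Rrw86E c d w m e2 e Y ∧
          ¬ Rrw86E c d w (m + σ) e e2 Y ∧ ¬ Rrw86E c d w (m + σ) e2 e Y) := 𝔏.mono _ _ fun Y hY => by
      obtain ⟨⟨a1, a2⟩, a3⟩ := hY
      push Not at a3
      exact ⟨a1, a2, a3.1.1, a3.1.2, a3.2.1, a3.2.2⟩
    have hT' := hT m
    have h5 : t ^ 2 / 2 ≤ 𝔏.P (fun Y => Rrw86E c d w m e e Y ∧ Rrw86E c d w (m + σ) e e Y ∧ ¬ Rrw86E c d w m e e2 Y ∧ ¬ Rrw86E c d w m e2 e Y ∧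
          ¬ Rrw86E c d w (m + σ) e e2 Y ∧ ¬ Rrw86E c d w (m + σ) e2 e Y) := by
      have : 8 * t' = t ^ 2 / 4 := by rw [ht']; ring
      have h6 : 0 ≤ t ^ 2 := by positivity
      linarith
    have h7 := mul_le_mul_of_nonneg_left h5 hcg
    linarith

/-- **scale descent** -/
theorem rrw86_descent (𝔏 : Rrw86Law) {cg : ℝ} (hcg : 0 ≤ cg) {c d w σ eM : ℤ} (hw : 0 ≤ w) (hσ : σ = 4 * (w + 1))
    (hTip : ∀ e e2 : ℤ, e2 ≤ e → e + 3 * σ + w + 8 ≤ 2 * e2 → e ≤ eM → Rrw86Tip 𝔏 cg c d w σ e e2)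
    (hTube : ∀ e : ℤ, e ≤ 20 * σ → Rrw86Tube 𝔏 cg c d w σ e) (n : ℕ) :
    ∀ e : ℤ, e ≤ eM → (e : ℝ) ≤ 20 * σ * (12 / 11 : ℝ) ^ n → ∀ (m : ℤ) (t : ℝ), 0 < t → t ≤ 𝔏.P (Rrw86E c d w m e e) → rswPhi cg n t ≤ 𝔏.P (Rrw86F c d w σ m) := by
  induction n with
  | zero =>
    intro e _ he m t ht h
    have he' : e ≤ 20 * σ := by
      have : (e : ℝ) ≤ ((20 * σ : ℤ) : ℝ) := by push_cast; simpa using he
      exact_mod_cast this
    exact (rsw_phi_le 0 t).trans (rrw86_term 𝔏 hcg hσ (hTube e he') ht.le h)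
  | succ n ih =>
    intro e heM he m t ht h
    by_cases he' : e ≤ 20 * σ
    · exact (rsw_phi_le (n + 1) t).trans (rrw86_term 𝔏 hcg hσ (hTube e he') ht.le h)
    push Not at he'
    have h1 : e - e / 10 - (e - e / 10) / 10 ≤ e := by omega
    have h2 : e + 3 * σ + w + 8 ≤ 2 * (e - e / 10 - (e - e / 10) / 10) := by omega
    have h3 : e - e / 10 - (e - e / 10) / 10 ≤ e - e / 10 := by omega
    have h4 : σ < (e - e / 10) - (e - e / 10 - (e - e / 10) / 10) := by omega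
    rcases rrw86_step 𝔏 hcg hw hσ h3 h4 (hTip e _ h1 h2 heM) ht h with hh | hh | hh
    · refine le_trans ?_ (ih (e - e / 10) (by omega) ?_ m (t ^ 2 / 32) (by positivity) hh)
      · simp only [rswPhi]; exact min_le_left _ _
      · have h5 : 12 * (e - e / 10) ≤ 11 * e := by omega
        have h6 : (12 : ℝ) * ((e - e / 10 : ℤ) : ℝ) ≤ 11 * (e : ℝ) := by exact_mod_cast h5
        rw [pow_succ] at he
        linarith
    · refine le_trans ?_ hh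
      simp only [rswPhi]; exact (min_le_right _ _).trans (min_le_left _ _)
    · exact (rsw_phi_le (n + 1) t).trans hh

/-- the events `F (m + j σ / 2)`, `j < n + 1`, lie in one cluster -/
theorem rrw86_F_chain {c d w σ m : ℤ} (hw : 0 ≤ w) (hσ : σ = 4 * (w + 1)) (n : ℕ) {Y : Set (ℤ × ℤ)} (h : ∀ j < n + 1, Rrw86F c d w σ (m + 2 * ((w + 1) * j)) Y) :
    ∃ p q, p ∈ Y ∩ plsBand c d ∧ p.2 = c ∧ q.2 = c ∧ rrw86X p ≤ m + w ∧ m + 2 * ((w + 1) * n) + σ - w ≤ rrw86X q ∧ TscR tscG (Y ∩ plsBand c d) p q := by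
  have hQ : Y ∩ plsBand c d ⊆ plsBand c d := Set.inter_subset_right
  have key : ∀ k : ℕ, k ≤ n → ∃ p a a', p ∈ Y ∩ plsBand c d ∧ p.2 = c ∧ rrw86X p ≤ m + w ∧ a ∈ Y ∩ plsBand c d ∧ a.2 = c ∧ a'.2 = c ∧
      rrw86X a ≤ m + 2 * ((w + 1) * k) + w ∧ m + 2 * ((w + 1) * k) + σ - w ≤ rrw86X a' ∧
      TscR tscG (Y ∩ plsBand c d) p a ∧ TscR tscG (Y ∩ plsBand c d) a a' := by
    intro k
    induction k with
    | zero =>
      intro _
      obtain ⟨p, q, p', q', hp, hpc, hqd, hpc', hqd', hpX, hqX, hpX', hqX', hpq, hpp', hpq'⟩ := h 0 (by omega)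
      exact ⟨p, p, p', hp, hpc, by simpa using hpX.2, hp, hpc, hpc', hpX.2, hpX'.1, tsc_R_refl _, hpp'⟩
    | succ k ih =>
      intro hk
      obtain ⟨p0, a, a', hp0, hp0c, hp0X, ha, hac, hac', haX, haX', hp0a, haa'⟩ := ih (by omega)
      obtain ⟨p, q, p', q', hp, hpc, hqd, hpc', hqd', hpX, hqX, hpX', hqX', hpq, hpp', hpq'⟩ := h (k + 1) (by omega)
      have e0 : (w + 1) * ((k + 1 : ℕ) : ℤ) = (w + 1) * k + (w + 1) := by push_cast; ring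
      have hx := rsw_foot_cross (S := tscComp tscG (Y ∩ plsBand c d) a) (T := tscComp tscG (Y ∩ plsBand c d) p) (c := c) (d := d)
        ((tsc_comp_sub a).trans hQ) ((tsc_comp_sub p).trans hQ) (tsc_comp_self ha) (tsc_comp_R (tsc_comp_self ha) haa')
        (tsc_comp_self hp) (tsc_comp_R (tsc_comp_self hp) hpq) hac hac' hpc hqd
        ((rrw86_X_lt (hac.trans hpc.symm)).1 (by rw [e0] at hpX; omega)) ((rrw86_X_lt (hpc.trans hac'.symm)).1 (by rw [e0] at hpX; omega))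
      have e1 : TscR tscG (Y ∩ plsBand c d) a p := rsw_join subset_rfl subset_rfl hx
      exact ⟨p0, p, p', hp0, hp0c, hp0X, hp, hpc, hpc', hpX.2, hpX'.1, tsc_R_trans hp0a e1, hpp'⟩
  obtain ⟨p0, a, a', hp0, hp0c, hp0X, ha, hac, hac', haX, haX', hp0a, haa'⟩ := key n le_rfl
  exact ⟨p0, a', hp0, hp0c, hac', hp0X, haX', tsc_R_trans hp0a haa'⟩

/-- **the aligned case, conclusion** -/
theorem rrw86_align (𝔏 : Rrw86Law) {c d w σ m : ℤ} (hcd : c ≤ d) (hw : 0 ≤ w) (hσ : σ = 4 * (w + 1)) {t : ℝ} (ht : 0 ≤ t) (h : t ≤ 𝔏.P (Rrw86F c d w σ m))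
    (n : ℕ) (a b : ℤ) (hab : a ≤ b) (hn : 2 * (b - a) + 4 * w + 4 ≤ 2 * ((w + 1) * n)) : t ^ (n + 1) ≤ 𝔏.P (RswH a b c d) := by
  set s : ℤ := (a - w - m) / 2 with hs
  have hP : ∀ j : ℕ, 𝔏.P (Rrw86F c d w σ (m + 2 * s + 2 * ((w + 1) * j))) = 𝔏.P (Rrw86F c d w σ m) := by
    intro j
    have := 𝔏.rrw86_P_F_sh (s + (w + 1) * j) c d w σ m
    rwa [show m + 2 * (s + (w + 1) * j) = m + 2 * s + 2 * ((w + 1) * j) by ring] at this
  have h1 := 𝔏.rrw86_fkg_fin (n + 1) (fun j => Rrw86F c d w σ (m + 2 * s + 2 * ((w + 1) * j))) (fun j _ => rrw86_inc_F _ _ _ _ _) ht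
    (fun j _ => by rw [hP]; exact h)
  refine h1.trans (𝔏.mono _ _ fun Y hY => ?_)
  obtain ⟨p, q, hp, hpc, hqc, hpX, hqX, hpq⟩ := rrw86_F_chain hw hσ n hY
  unfold rrw86X at hpX hqX
  generalize (w + 1) * (n : ℤ) = N at *
  exact rsw_H_of_path hab hcd hp hpq (by omega) (by omega)

/-! ## §7 the theorem -/

/-- TEX[annulus:RSW] **(56), abstract form, flexible widths** `A ≤ 6 r + 6`, `B ≤ 4 r + 4` (a band of `r + 1` index rows).   `w` = pigeonhole half width, `12500 w ≤ r ≤ 25000 w` (take `w = r / 12500`, `r ≥ 125000`). -/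
theorem rrw86_main_gen (cg δ : ℝ) (hcg : 0 < cg) (hδ : 0 < δ) : ∃ ψ : ℝ, 0 < ψ ∧ ∀ (𝔏 : Rrw86Law) (c r w : ℤ), 10 ≤ w → 12500 * w ≤ r → r ≤ 25000 * w → Rrw86Glue 𝔏 cg c r w →
    ∀ a a' A B : ℤ, 0 ≤ A → A ≤ 6 * r + 6 → 0 ≤ B → B ≤ 4 * r + 4 → δ ≤ 𝔏.P (RswV a (a + A) c (c + r)) → ψ ≤ 𝔏.P (RswH a' (a' + B) c (c + r)) := by
  obtain ⟨nd, hnd⟩ := pow_unbounded_of_one_lt (875 : ℝ) (show (1 : ℝ) < 12 / 11 by norm_num)
  obtain ⟨N, hN⟩ : ∃ N : ℕ, N = 325001 := ⟨_, rfl⟩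
  obtain ⟨p0, hp0d⟩ : ∃ p0 : ℝ, p0 = δ / ((Finset.range N ×ˢ Finset.range N).card : ℝ) := ⟨_, rfl⟩
  have hp0 : 0 < p0 := by
    rw [hp0d]
    apply div_pos hδ
    rw [Finset.card_product, Finset.card_range, hN]
    norm_num
  refine ⟨min (p0 ^ (2 * 100010 + 1)) ((rswPhi cg nd p0) ^ (20010 + 1)), lt_min (pow_pos hp0 _) (pow_pos (rsw_phi_pos hcg nd p0 hp0) _), ?_⟩
  intro 𝔏 c r w hw hr1 hr2 hG a a' A B hA0 hA hB0 hB hV
  obtain ⟨n, -, hPn⟩ := 𝔏.rrw86_pigeon (Finset.range N ×ˢ Finset.range N)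
    (fun n => Rrw86Cr (rrw86Rect (a) ((a + A)) c (c + r)) c (c + r) (a + w + (2 * w + 1) * (n.1 : ℤ)) (a + w + (2 * w + 1) * (n.2 : ℤ)) w)
    (fun Y hY => rrw86_land (by omega) N (by rw [hN]; push_cast; nlinarith) hY) hδ hV
  rw [← hp0d] at hPn
  generalize a + w + (2 * w + 1) * (n.1 : ℤ) = i at hPn
  generalize a + w + (2 * w + 1) * (n.2 : ℤ) = j at hPn
  have hsub : rrw86Rect (a) ((a + A)) c (c + r) ⊆ plsBand c (c + r) := fun z hz => ⟨hz.2.2.1, hz.2.2.2⟩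
  have hband : p0 ≤ 𝔏.P (Rrw86Cr (plsBand c (c + r)) c (c + r) i j w) := hPn.trans (𝔏.mono _ _ fun Y hY => rrw86_cr_mono hsub hY)
  by_cases h1 : 4 * w + 2 ≤ j - i
  · exact (min_le_left _ _).trans (rrw86_tilt 𝔏 (by omega) (by omega) h1 hp0.le hband 100010 a' (a' + B) (by omega) (by push_cast; omega))
  by_cases h2 : 4 * w + 2 ≤ i - j
  · have hm := 𝔏.rrw86_P_crb_mi 0 c (c + r) i j w
    rw [← hm] at hband
    exact (min_le_left _ _).trans (rrw86_tilt 𝔏 (by omega) (by omega) (by omega) hp0.le hband 100010 a' (a' + B) (by omega) (by push_cast; omega))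
  · -- aligned
    have hE : p0 ≤ 𝔏.P (Rrw86E c (c + r) (5 * w + 1) i (7 * r) (7 * r)) := by
      refine hPn.trans (𝔏.mono _ _ fun Y hY => ?_)
      have hi : a - w ≤ i ∧ i ≤ (a + A) + w := by
        obtain ⟨p, q, hp, -, -, hpi, -, -⟩ := hY
        have h3 := hp.2.1
        have h4 := hp.2.2.1
        omega
      have hsub2 : rrw86Rect (a) ((a + A)) c (c + r) ⊆ rrw86Rect (i - 7 * r) (i + 7 * r) c (c + r) := by
        intro z hz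
        obtain ⟨z1, z2, z3, z4⟩ := hz
        exact ⟨by omega, by omega, z3, z4⟩
      exact rrw86_cr_wide (by omega) (by omega) (rrw86_cr_mono hsub2 hY)
    have hF := rrw86_descent 𝔏 hcg.le (c := c) (d := c + r) (w := 5 * w + 1) (σ := 20 * w + 8) (eM := 7 * r) (by omega) (by ring)
      (fun e e2 a1 a2 a3 => hG.tip e e2 a1 a2 a3) (fun e a1 => hG.tube e a1) nd (7 * r) le_rfl (by
        have e1 : ((7 * r : ℤ) : ℝ) ≤ ((350000 * w : ℤ) : ℝ) := by exact_mod_cast (by omega : 7 * r ≤ 350000 * w)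
        have e2 : (0 : ℝ) < (w : ℝ) := by exact_mod_cast (by omega : 0 < w)
        push_cast at e1 ⊢
        nlinarith) i p0 hp0 hE
    exact (min_le_right _ _).trans (rrw86_align 𝔏 (by omega) (by omega) (by ring) (rsw_phi_pos hcg nd p0 hp0).le hF 20010 a' (a' + B) (by omega) (by push_cast; omega))

/-- TEX[annulus:RSW] **(56), abstract form.** -/
theorem rrw86_main (cg δ : ℝ) (hcg : 0 < cg) (hδ : 0 < δ) : ∃ ψ : ℝ, 0 < ψ ∧ ∀ (𝔏 : Rrw86Law) (c r w : ℤ), 10 ≤ w → 12500 * w ≤ r → r ≤ 25000 * w → Rrw86Glue 𝔏 cg c r w →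
    ∀ a a' : ℤ, δ ≤ 𝔏.P (RswV a (a + 6 * r) c (c + r)) → ψ ≤ 𝔏.P (RswH a' (a' + 4 * r) c (c + r)) := by
  obtain ⟨ψ, hψ, M⟩ := rrw86_main_gen cg δ hcg hδ
  exact ⟨ψ, hψ, fun 𝔏 c r w h1 h2 h3 hG a a' hV => M 𝔏 c r w h1 h2 h3 hG a a' (6 * r) (4 * r) (by omega) (by omega) (by omega) (by omega) hV⟩


/-- the equation lemmas of the definitions of this file are generated HERE -/
theorem rrw86_eqns_cite : True := by
  have := @rrw86X.eq_1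
  have := @rrw86Rect.eq_1
  have := @rrw86Sh.eq_1
  have := @rrw86Mi.eq_1
  have := @Rrw86Nb.eq_1
  have := @Rrw86Ref.eq_1
  have := @Rrw86Cr.eq_1
  have := @Rrw86E.eq_1
  have := @Rrw86Asym.eq_1
  have := @Rrw86F.eq_1
  have := @Rrw86Tip.eq_1
  have := @Rrw86Tube.eq_1
  trivial

end Claimed.Agent.R292
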