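import Claimed.Agent.R292.Rsw.RswTri257

/-!
# Row 292 (S0540), Rsw/RswNear117 : BLOCK A3 PART II, THE CASE NEAR: ONE FREE CELL NEXT TO BOTH LAYERS      (owner helper117; prefix `rwn117_`)      0 sorry

Second layer of the pen (the import layer forces it: `RswTri257` imports `RswClose117`).   Port of R291 `Ann/RswClose` sec. 5 (`rcl_close_lift`, `rcl_close_SE`: "the two explored crossings come within index distance 2").
Leaf of 86 (22:38Z): NEAR ==> `Rtr257Br` + `Rwc117Pb`, `n <= 4`.   DETERMINISTIC (no law).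
* `rwn117_ch_of_R`      : a path `TscR tscG X u v` is a chain `Rtr257Ch u l v` through cells of `X`;
* **`rwn117_near_of_R`** : `E'` = at most `n` lifted edges whose EDGE POINTS lie in the box and off the clusters `I`, `J`; `X` = a set of cells of these edges inside the band; a path of `X` from a cell equal or next to the
  layer `a` to a cell equal or next to the layer `c`   ==>   `Rtr257Near t L H n ..` (= `A3t86Near` of 86);
* **`rwn117_near_E`** (`n = 1`) : the free cell is an EDGE point;   **`rwn117_near_P`** (`n = 1`) : the free cell is a VERTEX point (it is an endpoint of a good plus edge of the layer `a`).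
v2: * `rwn117_hex_conn` (the neighbours, inside a nondegenerate box, of a cell of the box are connected), **`rwn117_near_F`** (`n = 4`) : the free cell is a FACE point (never plus: NEW ON `ℤ²`): the layers are joined along the
  boundary of the face; `rwn117_near_touch`, `rwn117_near_mono`;
* **`rwn117_near_one`** : ONE cell of the box off `I`, `J`, equal or next to a cell of `a` and to a cell of `c`   ==>   `Rtr257Near t L H 4 ..`, whatever its kind.   So FAR may assume: index distance of the layers at least 3.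
-/

set_option autoImplicit false
set_option linter.unusedSectionVars false
set_option linter.unusedVariables false

namespace Claimed.Agent.R292

open Claims Claims.C0467 Relation Claimed.Agent.R291

/-- a path inside `X` is a chain through cells of `X` -/
theorem rwn117_ch_of_R {X : Set TV} {u v : TV} (h : TscR tscG X u v) : ∃ l : List TV, (∀ y ∈ l, y ∈ X) ∧ Rtr257Ch u l v := by
  induction h with
  | refl => exact ⟨[], fun y hy => absurd hy (List.not_mem_nil), Or.inl rfl⟩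
  | @tail b c' _ hbc ih =>
    obtain ⟨l, hl, hch⟩ := ih
    refine ⟨l ++ [b], fun y hy => ?_, rtr257_ch_snoc l hch (Or.inr hbc.1)⟩
    rcases List.mem_append.1 hy with h | h
    · exact hl y h
    · rw [List.mem_singleton.1 h]; exact hbc.2.1

variable {t : ℝ} {L H : ℕ} {c d w σ m e : ℤ}

/-- **NEAR from a path through cells of a few free edges** -/
theorem rwn117_near_of_R (hL : 0 < L) (hW : σ + 2 * e + 2 < 2 * (L : ℤ)) (hc : 2 ≤ c) (hd : d < 2 * (H : ℤ)) (ω₀ : RswCfg) (n : ℕ)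
    (E' : List ((ℤ × ℤ) × Bool)) (hlen : E'.length ≤ n) (hR : ∀ e' ∈ E', rtd111E e' ∈ rrw86Rect (m - e) (m + σ + e) c d)
    (hI : ∀ e' ∈ E', rtd111E e' ∉ rrc86I (rrc86L t L H) (sdRed (2 * L)) c d w σ m e ω₀ ∧ rtd111E e' ∉ rrc86J (rrc86L t L H) (sdRed (2 * L)) c d w σ m e ω₀)
    (X : Set TV) (hXb : X ⊆ plsBand c d) (hX : ∀ y ∈ X, ∃ e' ∈ E', y = rtd111E e' ∨ y = rtd111P e'.1 ∨ y = rtd111P (rswEnd e'))
    {z z₁ z₁' z' : TV} (hz : z ∈ rrc86A (rrc86L t L H) (sdRed (2 * L)) c d w σ m e ω₀) (hz' : z' ∈ rrc86C (rrc86L t L H) (sdRed (2 * L)) c d w σ m e ω₀)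
    (h1 : z = z₁ ∨ tscG.Adj z z₁) (hz₁ : z₁ ∈ X) (hp : TscR tscG X z₁ z₁') (h2 : z₁' = z' ∨ tscG.Adj z₁' z') :
    Rtr257Near t L H n c d w σ m e ω₀ := by
  obtain ⟨l, hl, hch⟩ := rwn117_ch_of_R hp
  have hz₁' : z₁' ∈ X := tsc_R_mem hp hz₁
  have hmem : ∀ y ∈ z₁ :: (l ++ [z₁']), y ∈ X := by
    intro y hy
    rcases List.mem_cons.1 hy with h | h
    · rw [h]; exact hz₁
    · rcases List.mem_append.1 h with h | h
      · exact hl y h
      · rw [List.mem_singleton.1 h]; exact hz₁'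
  refine ⟨z₁ :: (l ++ [z₁']), ⟨fun y hy => hXb (hmem y hy), z, hz, z', hz', h1, rtr257_ch_snoc l hch h2⟩, ?_⟩
  exact rwc117_pb_of_edges hL (by omega) hc hd (rrc86Seed c d w σ m e) ω₀ n E' hlen hR
    (fun e' he' => rwc117_not_mem_seed _ _ c d w σ m e ω₀ (hI e' he').1 (hI e' he').2) _ (fun y hy => hX y (hmem y hy))

/-- **NEAR, the free cell is an edge point** -/
theorem rwn117_near_E (hL : 0 < L) (hW : σ + 2 * e + 2 < 2 * (L : ℤ)) (hc : 2 ≤ c) (hd : d < 2 * (H : ℤ)) (ω₀ : RswCfg) (e' : (ℤ × ℤ) × Bool)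
    (hR : rtd111E e' ∈ rrw86Rect (m - e) (m + σ + e) c d)
    (hI : rtd111E e' ∉ rrc86I (rrc86L t L H) (sdRed (2 * L)) c d w σ m e ω₀) (hJ : rtd111E e' ∉ rrc86J (rrc86L t L H) (sdRed (2 * L)) c d w σ m e ω₀)
    {z z' : TV} (hz : z ∈ rrc86A (rrc86L t L H) (sdRed (2 * L)) c d w σ m e ω₀) (hz' : z' ∈ rrc86C (rrc86L t L H) (sdRed (2 * L)) c d w σ m e ω₀)
    (h1 : z = rtd111E e' ∨ tscG.Adj z (rtd111E e')) (h2 : rtd111E e' = z' ∨ tscG.Adj (rtd111E e') z') :
    Rtr257Near t L H 1 c d w σ m e ω₀ := by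
  refine rwn117_near_of_R hL hW hc hd ω₀ 1 [e'] (by simp) (fun x hx => ?_) (fun x hx => ?_) {rtd111E e'} (fun y hy => ?_) (fun y hy => ?_)
    hz hz' h1 rfl (tsc_R_refl _) h2
  · rw [List.mem_singleton.1 hx]; exact hR
  · rw [List.mem_singleton.1 hx]; exact ⟨hI, hJ⟩
  · rw [Set.mem_singleton_iff.1 hy]; exact rrc86_rect_band hR
  · exact ⟨e', List.mem_singleton.2 rfl, Or.inl (Set.mem_singleton_iff.1 hy)⟩

/-- a plus cell next to a vertex point is the edge point of an edge at this vertex -/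
theorem rwn117_plus_nbr {ω₀ : RswCfg} {z : TV} {v : ℤ × ℤ} (hz : z ∈ rrc86Y (rrc86L t L H) (sdRed (2 * L)) ω₀) (hL : 0 < L) (hadj : tscG.Adj z (rtd111P v)) :
    ∃ e₁ : (ℤ × ℤ) × Bool, z = rtd111E e₁ ∧ (v = e₁.1 ∨ v = rswEnd e₁) := by
  rcases rtd111_cases z with ⟨u', rfl⟩ | ⟨f, rfl⟩ | ⟨e₁, rfl⟩
  · exact absurd hadj (rtd111_adj_PP _ _)
  · have h2 := hz.2
    rw [rwc117_red_F hL] at h2
    exact absurd ((rrc86_L_link t L H).npF ω₀ _) h2
  · refine ⟨e₁, rfl, ?_⟩
    have hadj' : triAdj (rtd111E e₁) (rtd111P v) := hadj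
    rw [tsc_adj_iff] at hadj'
    obtain ⟨⟨x, y⟩, b⟩ := e₁
    obtain ⟨vx, vy⟩ := v
    cases b
    · rw [rtd111_E_f] at hadj'
      rw [rtd111_end_f]
      unfold rtd111P at hadj'
      dsimp only at hadj' ⊢
      simp only [Prod.mk.injEq]
      omega
    · rw [rtd111_E_t] at hadj'
      rw [rtd111_end_t]
      unfold rtd111P at hadj'
      dsimp only at hadj' ⊢
      simp only [Prod.mk.injEq]
      omega

/-- **NEAR, the free cell is a vertex point** (next to a cell of the layer `a`; equal or next to a cell of the layer `c`) -/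
theorem rwn117_near_P (hL : 0 < L) (hW : σ + 2 * e + 2 < 2 * (L : ℤ)) (hc : 2 ≤ c) (hd : d < 2 * (H : ℤ)) (ω₀ : RswCfg) (v : ℤ × ℤ)
    (hR : rtd111P v ∈ plsBand c d)
    {z z' : TV} (hz : z ∈ rrc86A (rrc86L t L H) (sdRed (2 * L)) c d w σ m e ω₀) (hz' : z' ∈ rrc86C (rrc86L t L H) (sdRed (2 * L)) c d w σ m e ω₀)
    (h1 : tscG.Adj z (rtd111P v)) (h2 : rtd111P v = z' ∨ tscG.Adj (rtd111P v) z') :
    Rtr257Near t L H 1 c d w σ m e ω₀ := by
  have hzs := rrc86_A_sub (rrc86L t L H) (sdRed (2 * L)) ω₀ hz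
  obtain ⟨e₁, rfl, hv⟩ := rwn117_plus_nbr hzs.2 hL h1
  refine rwn117_near_of_R hL hW hc hd ω₀ 1 [e₁] (by simp) (fun x hx => ?_) (fun x hx => ?_) {rtd111P v} (fun y hy => ?_) (fun y hy => ?_)
    hz hz' (Or.inr h1) rfl (tsc_R_refl _) h2
  · rw [List.mem_singleton.1 hx]; exact hzs.1
  · rw [List.mem_singleton.1 hx]
    constructor
    · rintro ⟨s, hs, _, hsz⟩
      exact (tsc_R_mem hsz hs).2 hzs.2
    · rintro ⟨s, hs, _, hsz⟩
      exact (tsc_R_mem hsz hs).2 hzs.2
  · rw [Set.mem_singleton_iff.1 hy]; exact hR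
  · refine ⟨e₁, List.mem_singleton.2 rfl, Or.inr ?_⟩
    rw [Set.mem_singleton_iff.1 hy]
    rcases hv with rfl | rfl
    · exact Or.inl rfl
    · exact Or.inr rfl

/-! ## the free cell is a FACE point -/

/-- the neighbours, inside a nondegenerate box, of a cell of the box are connected -/
theorem rwn117_hex_conn {A B c d : ℤ} (hAB : A < B) (hcd : c < d) {y : TV} (hy : y ∈ rrw86Rect A B c d) {z z' : TV}
    (hz : tscG.Adj y z) (hzR : z ∈ rrw86Rect A B c d) (hz' : tscG.Adj y z') (hzR' : z' ∈ rrw86Rect A B c d) :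
    TscR tscG {x | tscG.Adj y x ∧ x ∈ rrw86Rect A B c d} z z' := by
  obtain ⟨p, q⟩ := y
  have hy' : A ≤ p ∧ p ≤ B ∧ c ≤ q ∧ q ≤ d := hy
  have mem : ∀ a b : ℤ, ((a = p + 1 ∧ b = q) ∨ (a = p ∧ b = q + 1) ∨ (a = p - 1 ∧ b = q + 1) ∨ (a = p - 1 ∧ b = q) ∨ (a = p ∧ b = q - 1) ∨
      (a = p + 1 ∧ b = q - 1)) → A ≤ a → a ≤ B → c ≤ b → b ≤ d → ((a, b) : TV) ∈ {x : TV | tscG.Adj (p, q) x ∧ x ∈ rrw86Rect A B c d} := by
    intro a b h h1 h2 h3 h4
    refine ⟨?_, h1, h2, h3, h4⟩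
    show triAdj _ _
    rw [tsc_adj_iff]
    exact h
  have st : ∀ a b a' b' : ℤ, ((a, b) : TV) ∈ {x : TV | tscG.Adj (p, q) x ∧ x ∈ rrw86Rect A B c d} →
      ((a', b') : TV) ∈ {x : TV | tscG.Adj (p, q) x ∧ x ∈ rrw86Rect A B c d} →
      ((a' = a + 1 ∧ b' = b) ∨ (a' = a ∧ b' = b + 1) ∨ (a' = a - 1 ∧ b' = b + 1) ∨ (a' = a - 1 ∧ b' = b) ∨ (a' = a ∧ b' = b - 1) ∨ (a' = a + 1 ∧ b' = b - 1)) →
      TscR tscG {x : TV | tscG.Adj (p, q) x ∧ x ∈ rrw86Rect A B c d} (a, b) (a', b') := by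
    intro a b a' b' h1 h2 h
    refine tsc_R_step ?_ h1 h2
    show triAdj _ _
    rw [tsc_adj_iff]
    exact h
  -- every neighbour in the box is joined to the hub
  have key : ∃ hub : TV, ∀ x : TV, tscG.Adj (p, q) x → x ∈ rrw86Rect A B c d →
      TscR tscG {x : TV | tscG.Adj (p, q) x ∧ x ∈ rrw86Rect A B c d} x hub := by
    by_cases hu : q + 1 ≤ d
    · refine ⟨(p, q + 1), ?_⟩
      rintro ⟨a, b⟩ hadj hR
      have hadj' : triAdj (p, q) (a, b) := hadj
      rw [tsc_adj_iff] at hadj'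
      have hR' : A ≤ a ∧ a ≤ B ∧ c ≤ b ∧ b ≤ d := hR
      dsimp only at hadj'
      have m1 := mem p (q + 1) (by omega) (by omega) (by omega) (by omega) (by omega)
      rcases hadj' with ⟨ha, hb⟩ | ⟨ha, hb⟩ | ⟨ha, hb⟩ | ⟨ha, hb⟩ | ⟨ha, hb⟩ | ⟨ha, hb⟩ <;> rw [ha, hb]
      · exact st _ _ _ _ (mem _ _ (by omega) (by omega) (by omega) (by omega) (by omega)) m1 (by omega)
      · exact tsc_R_refl _
      · exact st _ _ _ _ (mem _ _ (by omega) (by omega) (by omega) (by omega) (by omega)) m1 (by omega)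
      · have m2 := mem (p - 1) (q + 1) (by omega) (by omega) (by omega) (by omega) (by omega)
        exact tsc_R_trans (st _ _ _ _ (mem _ _ (by omega) (by omega) (by omega) (by omega) (by omega)) m2 (by omega)) (st _ _ _ _ m2 m1 (by omega))
      · have m4 := mem p (q - 1) (by omega) (by omega) (by omega) (by omega) (by omega)
        by_cases hl : A ≤ p - 1
        · have m3 := mem (p - 1) q (by omega) (by omega) (by omega) (by omega) (by omega)
          have m2 := mem (p - 1) (q + 1) (by omega) (by omega) (by omega) (by omega) (by omega)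
          exact tsc_R_trans (st _ _ _ _ m4 m3 (by omega)) (tsc_R_trans (st _ _ _ _ m3 m2 (by omega)) (st _ _ _ _ m2 m1 (by omega)))
        · have m5 := mem (p + 1) (q - 1) (by omega) (by omega) (by omega) (by omega) (by omega)
          have m0 := mem (p + 1) q (by omega) (by omega) (by omega) (by omega) (by omega)
          exact tsc_R_trans (st _ _ _ _ m4 m5 (by omega)) (tsc_R_trans (st _ _ _ _ m5 m0 (by omega)) (st _ _ _ _ m0 m1 (by omega)))
      · have m5 := mem (p + 1) (q - 1) (by omega) (by omega) (by omega) (by omega) (by omega)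
        have m0 := mem (p + 1) q (by omega) (by omega) (by omega) (by omega) (by omega)
        exact tsc_R_trans (st _ _ _ _ m5 m0 (by omega)) (st _ _ _ _ m0 m1 (by omega))
    · refine ⟨(p, q - 1), ?_⟩
      rintro ⟨a, b⟩ hadj hR
      have hadj' : triAdj (p, q) (a, b) := hadj
      rw [tsc_adj_iff] at hadj'
      have hR' : A ≤ a ∧ a ≤ B ∧ c ≤ b ∧ b ≤ d := hR
      dsimp only at hadj'
      have m4 := mem p (q - 1) (by omega) (by omega) (by omega) (by omega) (by omega)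
      rcases hadj' with ⟨ha, hb⟩ | ⟨ha, hb⟩ | ⟨ha, hb⟩ | ⟨ha, hb⟩ | ⟨ha, hb⟩ | ⟨ha, hb⟩ <;> rw [ha, hb]
      · have m0 := mem (p + 1) q (by omega) (by omega) (by omega) (by omega) (by omega)
        have m5 := mem (p + 1) (q - 1) (by omega) (by omega) (by omega) (by omega) (by omega)
        exact tsc_R_trans (st _ _ _ _ m0 m5 (by omega)) (st _ _ _ _ m5 m4 (by omega))
      · exact absurd (by omega) hu
      · exact absurd (by omega) hu
      · exact st _ _ _ _ (mem _ _ (by omega) (by omega) (by omega) (by omega) (by omega)) m4 (by omega)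
      · exact tsc_R_refl _
      · exact st _ _ _ _ (mem _ _ (by omega) (by omega) (by omega) (by omega) (by omega)) m4 (by omega)
  obtain ⟨hub, hh⟩ := key
  exact tsc_R_trans (hh z hz hzR) (tsc_R_symm (hh z' hz' hzR'))

/-- a face point is never plus -/
theorem rwn117_F_not_plus (hL : 0 < L) (ω₀ : RswCfg) (f : ℤ × ℤ) : rtd111F f ∉ rrc86Y (rrc86L t L H) (sdRed (2 * L)) ω₀ := by
  intro h
  have h2 := h.2
  rw [rwc117_red_F hL] at h2
  exact h2 ((rrc86_L_link t L H).npF ω₀ _)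

/-- a neighbour of a non-plus cell of the box which is off a cluster is off this cluster -/
theorem rwn117_nbr_off {R Pl σ' : Set TV} {y x : TV} (hy : y ∈ R) (hyP : y ∉ Pl) (hyI : y ∉ pleI tscG (R \ Pl) σ') (hadj : tscG.Adj x y) :
    x ∉ pleI tscG (R \ Pl) σ' := by
  rintro ⟨s, hs, hσ, hsx⟩
  exact hyI ⟨s, hs, hσ, tsc_R_trans hsx (tsc_R_step hadj (tsc_R_mem hsx hs) ⟨hy, hyP⟩)⟩

/-- **NEAR, the free cell is a FACE point**: the two layers are joined along the boundary of the face, at most four edges -/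
theorem rwn117_near_F (hL : 0 < L) (hW : σ + 2 * e + 2 < 2 * (L : ℤ)) (hW0 : 0 < σ + 2 * e) (hc : 2 ≤ c) (hcd : c < d) (hd : d < 2 * (H : ℤ)) (ω₀ : RswCfg) (f : ℤ × ℤ)
    (hR : rtd111F f ∈ rrw86Rect (m - e) (m + σ + e) c d)
    (hI : rtd111F f ∉ rrc86I (rrc86L t L H) (sdRed (2 * L)) c d w σ m e ω₀) (hJ : rtd111F f ∉ rrc86J (rrc86L t L H) (sdRed (2 * L)) c d w σ m e ω₀)
    {z z' : TV} (hz : z ∈ rrc86A (rrc86L t L H) (sdRed (2 * L)) c d w σ m e ω₀) (hz' : z' ∈ rrc86C (rrc86L t L H) (sdRed (2 * L)) c d w σ m e ω₀)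
    (h1 : tscG.Adj z (rtd111F f)) (h2 : tscG.Adj (rtd111F f) z') :
    Rtr257Near t L H 4 c d w σ m e ω₀ := by
  classical
  obtain ⟨fx, fy⟩ := f
  have hzR := (rrc86_A_sub (rrc86L t L H) (sdRed (2 * L)) ω₀ hz).1
  have hzR' := (rrc86_C_sub (rrc86L t L H) (sdRed (2 * L)) ω₀ hz').1
  have hnp := rwn117_F_not_plus (t := t) (H := H) hL ω₀ (fx, fy)
  have hyc : rtd111F (fx, fy) = (2 * fx + 1, 2 * fy + 1) := rfl
  have hR' : m - e ≤ 2 * fx + 1 ∧ 2 * fx + 1 ≤ m + σ + e ∧ c ≤ 2 * fy + 1 ∧ 2 * fy + 1 ≤ d := hR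
  have inE : ∀ e' : (ℤ × ℤ) × Bool, e' ∈ [((fx + 1, fy), true), ((fx, fy + 1), false), ((fx, fy), true), ((fx, fy), false)] →
      rtd111E e' ∈ rrw86Rect (m - e) (m + σ + e) c d →
      e' ∈ [((fx + 1, fy), true), ((fx, fy + 1), false), ((fx, fy), true), ((fx, fy), false)].filter
        (fun e' => decide (rtd111E e' ∈ rrw86Rect (m - e) (m + σ + e) c d)) :=
    fun e' a1 a2 => List.mem_filter.2 ⟨a1, decide_eq_true a2⟩
  refine rwn117_near_of_R hL hW hc hd ω₀ 4
    ([((fx + 1, fy), true), ((fx, fy + 1), false), ((fx, fy), true), ((fx, fy), false)].filter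
      (fun e' => decide (rtd111E e' ∈ rrw86Rect (m - e) (m + σ + e) c d)))
    ((List.length_filter_le _ _).trans (by simp)) (fun e' he' => ?_) (fun e' he' => ?_)
    {x | tscG.Adj (rtd111F (fx, fy)) x ∧ x ∈ rrw86Rect (m - e) (m + σ + e) c d} (fun x hx => rrc86_rect_band hx.2) (fun x hx => ?_)
    hz hz' (Or.inl rfl) ⟨h1.symm, hzR⟩ (rwn117_hex_conn (by omega) hcd hR h1.symm hzR h2 hzR') (Or.inl rfl)
  · exact of_decide_eq_true (List.mem_filter.1 he').2
  · have hm := (List.mem_filter.1 he').1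
    have hadj : tscG.Adj (rtd111E e') (rtd111F (fx, fy)) := by
      show triAdj _ _
      rw [tsc_adj_iff, hyc]
      simp only [List.mem_cons, List.not_mem_nil, or_false] at hm
      rcases hm with rfl | rfl | rfl | rfl
      · rw [rtd111_E_t]; dsimp only; omega
      · rw [rtd111_E_f]; dsimp only; omega
      · rw [rtd111_E_t]; dsimp only; omega
      · rw [rtd111_E_f]; dsimp only; omega
    exact ⟨rwn117_nbr_off hR hnp hI hadj, rwn117_nbr_off hR hnp hJ hadj⟩
  · obtain ⟨hadj, hxR⟩ := hx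
    obtain ⟨a, b⟩ := x
    have hadj' : triAdj (rtd111F (fx, fy)) (a, b) := hadj
    rw [tsc_adj_iff, hyc] at hadj'
    dsimp only at hadj'
    have hxR' : m - e ≤ a ∧ a ≤ m + σ + e ∧ c ≤ b ∧ b ≤ d := hxR
    rcases hadj' with ⟨ha, hb⟩ | ⟨ha, hb⟩ | ⟨ha, hb⟩ | ⟨ha, hb⟩ | ⟨ha, hb⟩ | ⟨ha, hb⟩
    · have e1 : ((a, b) : TV) = rtd111E ((fx + 1, fy), true) := by
        rw [rtd111_E_t]; exact Prod.ext (by dsimp only; omega) (by dsimp only; omega)
      exact ⟨_, inE _ (by simp) (e1 ▸ hxR), Or.inl e1⟩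
    · have e1 : ((a, b) : TV) = rtd111E ((fx, fy + 1), false) := by
        rw [rtd111_E_f]; exact Prod.ext (by dsimp only; omega) (by dsimp only; omega)
      exact ⟨_, inE _ (by simp) (e1 ▸ hxR), Or.inl e1⟩
    · have e1 : ((a, b) : TV) = rtd111P (fx, fy + 1) := by
        unfold rtd111P; exact Prod.ext (by dsimp only; omega) (by dsimp only; omega)
      have e2 : rtd111E ((fx, fy + 1), false) ∈ rrw86Rect (m - e) (m + σ + e) c d := by
        rw [rtd111_E_f]
        show m - e ≤ 2 * fx + 1 ∧ 2 * fx + 1 ≤ m + σ + e ∧ c ≤ 2 * (fy + 1) ∧ 2 * (fy + 1) ≤ d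
        omega
      exact ⟨_, inE _ (by simp) e2, Or.inr (Or.inl e1)⟩
    · have e1 : ((a, b) : TV) = rtd111E ((fx, fy), true) := by
        rw [rtd111_E_t]; exact Prod.ext (by dsimp only; omega) (by dsimp only; omega)
      exact ⟨_, inE _ (by simp) (e1 ▸ hxR), Or.inl e1⟩
    · have e1 : ((a, b) : TV) = rtd111E ((fx, fy), false) := by
        rw [rtd111_E_f]; exact Prod.ext (by dsimp only; omega) (by dsimp only; omega)
      exact ⟨_, inE _ (by simp) (e1 ▸ hxR), Or.inl e1⟩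
    · have e1 : ((a, b) : TV) = rtd111P (rswEnd ((fx, fy), false)) := by
        rw [rtd111_end_f]; unfold rtd111P; exact Prod.ext (by dsimp only; omega) (by dsimp only; omega)
      have e2 : rtd111E ((fx, fy), false) ∈ rrw86Rect (m - e) (m + σ + e) c d := by
        rw [rtd111_E_f]
        show m - e ≤ 2 * fx + 1 ∧ 2 * fx + 1 ≤ m + σ + e ∧ c ≤ 2 * fy ∧ 2 * fy ≤ d
        omega
      exact ⟨_, inE _ (by simp) e2, Or.inr (Or.inr e1)⟩

theorem rwn117_near_mono {n n' : ℕ} (hn : n ≤ n') {ω₀ : RswCfg} (h : Rtr257Near t L H n c d w σ m e ω₀) : Rtr257Near t L H n' c d w σ m e ω₀ := by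
  obtain ⟨l, hb, P, h1, h2, h3⟩ := h
  exact ⟨l, hb, P, h1, h2.trans hn, h3⟩

/-- TOUCH is NEAR (empty chain, nothing to patch) -/
theorem rwn117_near_touch (n : ℕ) {ω₀ : RswCfg} {z z' : TV} (hz : z ∈ rrc86A (rrc86L t L H) (sdRed (2 * L)) c d w σ m e ω₀)
    (hz' : z' ∈ rrc86C (rrc86L t L H) (sdRed (2 * L)) c d w σ m e ω₀) (h : z = z' ∨ tscG.Adj z z') : Rtr257Near t L H n c d w σ m e ω₀ :=
  ⟨[], ⟨fun y hy => absurd hy List.not_mem_nil, z, hz, z', hz', h⟩, ∅, Finset.empty_subset _, by simp,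
    fun e' he' => absurd he' (Finset.notMem_empty _), fun e' he' => absurd he' (Finset.notMem_empty _), fun y hy => absurd hy List.not_mem_nil⟩

/-- **NEAR = INDEX DISTANCE TWO** (R291 `rcl_close_SE`, deterministic half, on `ℤ²`): ONE cell `y` of the box, off the two explored clusters, equal or next to a cell of the layer `a` and to a cell of the layer `c`
==> `Rtr257Near` (= `A3t86Near`) with `n = 4`, whatever the kind of `y` (vertex, edge or FACE point) -/
theorem rwn117_near_one (hL : 0 < L) (hW : σ + 2 * e + 2 < 2 * (L : ℤ)) (hW0 : 0 < σ + 2 * e) (hc : 2 ≤ c) (hcd : c < d) (hd : d < 2 * (H : ℤ)) (ω₀ : RswCfg) (y : TV)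
    (hR : y ∈ rrw86Rect (m - e) (m + σ + e) c d)
    (hI : y ∉ rrc86I (rrc86L t L H) (sdRed (2 * L)) c d w σ m e ω₀) (hJ : y ∉ rrc86J (rrc86L t L H) (sdRed (2 * L)) c d w σ m e ω₀)
    {z z' : TV} (hz : z ∈ rrc86A (rrc86L t L H) (sdRed (2 * L)) c d w σ m e ω₀) (hz' : z' ∈ rrc86C (rrc86L t L H) (sdRed (2 * L)) c d w σ m e ω₀)
    (h1 : z = y ∨ tscG.Adj z y) (h2 : y = z' ∨ tscG.Adj y z') :
    Rtr257Near t L H 4 c d w σ m e ω₀ := by
  rcases rtd111_cases y with ⟨v, rfl⟩ | ⟨f, rfl⟩ | ⟨e', rfl⟩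
  · rcases h1 with rfl | h1
    · exact rwn117_near_touch 4 hz hz' h2
    · exact rwn117_near_mono (by norm_num) (rwn117_near_P hL hW hc hd ω₀ v (rrc86_rect_band hR) hz hz' h1 h2)
  · have hnp := rwn117_F_not_plus (t := t) (H := H) hL ω₀ f
    rcases h1 with rfl | h1
    · exact absurd (rrc86_A_sub (rrc86L t L H) (sdRed (2 * L)) ω₀ hz).2 hnp
    · rcases h2 with rfl | h2
      · exact absurd (rrc86_C_sub (rrc86L t L H) (sdRed (2 * L)) ω₀ hz').2 hnp
      · exact rwn117_near_F hL hW hW0 hc hcd hd ω₀ f hR hI hJ hz hz' h1 h2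
  · exact rwn117_near_mono (by norm_num) (rwn117_near_E hL hW hc hd ω₀ e' hR hI hJ hz hz' h1 h2)

end Claimed.Agent.R292
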