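import Claimed.Agent.R292.Rsw.RswCyl86
import Claimed.Agent.R292.Rsw.RswClose117
import Claimed.Agent.R292.Rsw.Enter210
import Claimed.Agent.R292.Rsw.RswWall180
import Claimed.Agent.R292.Rsw.LenOrd292

/-!
# Row 292 (S0540), Rsw/RswTri257 : BLOCK A3 PART II, THE TRICHOTOMY UNDER ONE RECORD      (pen helper257; head of A3 helper86; rows 5, 6 of c1_post; prefix `rtr257_`, `Rtr257`)

Port of R291 `Ann/RswGlue` §5 (`rsg_N_of`, `rsg_one`) over the abstract law `Rln182Law` of 182 and the layers `rrc86A`, `rrc86C` of 86.   0 sorry.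
TOUCH is already inside `Rrc86LK` (86, `rrc86_SE_of_LK`).   Under a NON-TOUCHING record:
* NEAR  = a finite chain `l` of cells of the band bridges the two layers (`Rtr257Br`) and can be patched at cost `κ` under the record (`Rtr257Pat`, producer: (C1) of 117);
          ON `ℤ²` A FACE POINT IS NEVER PLUS, so the chain is a LIST (vertex and edge points of a short lattice path), not one cell as on the triangular lattice;
* FAR   = the strip data `Rtr257Strip` = `Rrc86Strip` of 86 WITHOUT its field `h1 ⟹ rec` (warning of 210: false for the sea history) (producers: (E) 180 / 210, (L) 221 + 100).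
EXITS
* `rtr257_N_of`            from an event to a weaker one under a constraint
* `rtr257_ch_R`, `rtr257_br_link`      (N) a bridge of plus cells ⟹ LINK under the record (deterministic)
* `rtr257_LK_of_pat`       NEAR ⟹ the link estimate at one record;   `rtr257_join_mono`, `rtr257_LK_of_strip`  FAR ⟹ the link estimate;   `rtr257_strip_of : Rrc86Strip ⟹ Rtr257Strip`
* **`rtr257_LK`**          `Rtr257Alt` (NEAR or FAR at every non-touching record of `G`) ⟹ `Rrc86LK .. (min κ (c₀ / C)) .. G`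
* `rtr257_alt_of`          the alternative from (GEO) + (C1) + (ST), for ANY predicates `Pb` (patchable chain), `Far`
* `rtr257_edge_ch`         one lattice edge whose two end points lie on the two layers is a chain
* closed contract **`Rtr257AltC t`** on the mixed cylinder, **`rtr257_LKc : Rtr257AltC t ⟹ Rrc86LKc t`**, `rtr257_rsw : Rtr257AltC t ⟹ Rrc86Rsw t`
v2 (22:55Z): NEAR IS CLOSED by (C1) of 117 (`rwc117_pat_cyl`, Rsw/RswClose117).   `Rtr257Near L H n ..` = a bridge which is a patchable list (`Rwc117Pb`) of at most `n` edges;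
* `rtr257_pat_cyl`         `Rwc117Pb` ⟹ `Rtr257Pat` with `κ = rwc117Kap t n`
* closed contract **`Rtr257FarC t`** = THE ONLY OPEN END OF A3 PART II: under every non-touching record (TIP / TUBE) WITHOUT a near bridge there are strip data;   **`rtr257_altC_of_far`**, **`rtr257_rsw_far : Rtr257FarC t ⟹ Rrc86Rsw t`**
* `rtr257_near_edge`       what FAR excludes, simplest case: one edge of the cylinder, not looked at, in the band, off the bottom row, whose two end points lie on the two layers (and whose end points, if carried by a cell looked at, are plus)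
v3 (22:55Z DB): ONE RECORD IN NAMED INPUTS (imports Enter210, RswWall180, LenOrd292).   `Rtr257LK1 t L H cg ..` = the body of `Rrc86LK` at one record of the mixed cylinder.
* `rtr257_ord_cyl`         (ORD) `Rse182Ord (rcy162Cyl L 0 H) (rrc86L t L H) (rwl180KM L H)`: PROVED (292 `lo292_cyl_ord`)
* `Rtr257NearG`, **`rtr257_LK1_near`**      NEAR = PURE PLANAR GEOMETRY (lifted primal chain of at most `n` edges in the box, off `I`, `J`, whose cells bridge the layers) ⟹ link estimate, constant `rwc117Kap t n` (117 `rwc117_pat_Q2`)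
* `Rtr257Far210`, **`rtr257_LK1_far210`**   FAR through the entrance of 210 (`Ent210Geo` + window + at most `a` reduced ports + (L)) ⟹ link estimate, constant `c₀ / 2 ^ a` (`ent210_LK_rec`)
* `Rtr257Far180`, **`rtr257_LK1_far180`**   FAR through the wall of 180 (`Rwl180Geo` + at most 4 ports + (L)) ⟹ link estimate, constant `c₀ / 8` (`rwl180_LK_cyl`)
* `rtr257_LK1_zero`, `rtr257_feas`          a record of zero mass needs nothing;   `0 < Z(record)` gives the field `feas` of `Ent210Geo`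
* `Rtr257Sch t P`          the scheme of all closed contracts of PART II (sizes, centres, events of `Rrc86LKc`), `rtr257_LKc_of_sch`
* closed contract **`Rtr257GeoC t`** (GEO + L): near chain or data of 210 or data of 180 under every non-touching record of positive mass;   **`rtr257_LKc_geo`**, **`rtr257_rsw_geo : 0 < t < 1 → Rtr257GeoC t → Rrc86Rsw t`**.
  WHAT IS LEFT IN IT: planar geometry of the two layers (producers: 200 `Gd200Rec`, 240 window, 290 `MidS290`, 31 / 182 ports ≤ 4) and the estimate (L) in the closed strip law (221 + 100).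
END STATE (23:36Z DB).   NOTHING IN THIS FILE PROVES (56): `Rtr257AltC`, `Rtr257FarC`, `Rtr257GeoC` are CONTRACTS (hypotheses of `rtr257_rsw`, `rtr257_rsw_far`, `rtr257_rsw_geo`), none of them is proved anywhere.
  After this file: the geometry `Rwl180Geo` and the bound of four ports are PROVED for every non-touching record (110 `Rsw/RswGeo110`: `rpg110_geo_cyl`, `rpg110_ports_cyl`; 180, 31), NEAR with `n ≤ 4` by 117 (`Rsw/RswNear117`);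
  the top of the block is `Rsw/A3Top86` (86): `a3t86_rsw_Lf : A3t86Lf t → Krl96Rsw t`, which calls `rtr257_LKc` of this file.   THE ONE OPEN CONTRACT OF A3 IS (L) = `A3t86Lf` (estimate in the closed strip system, far records); IT HAS NO TEXT ON `ℤ²`.
-/

set_option autoImplicit false

namespace Claimed.Agent.R292

open Claims Claims.C0467 Relation Claimed.Agent.R291

section model

variable {Ω Y : Type}

/-- a chain of cells from `z` through the list `l` to `z'`: consecutive cells are equal or adjacent -/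
def Rtr257Ch : TV → List TV → TV → Prop
  | z, [], z' => z = z' ∨ tscG.Adj z z'
  | z, y :: l, z' => (z = y ∨ tscG.Adj z y) ∧ Rtr257Ch y l z'

/-- a chain inside `X` is a path of `X` -/
theorem rtr257_ch_R {X : Set TV} : ∀ (l : List TV) {z z' : TV}, z ∈ X → z' ∈ X → (∀ y ∈ l, y ∈ X) → Rtr257Ch z l z' → TscR tscG X z z'
  | [], _, _, hz, hz', _, h => rrc86_R_of_adj hz hz' h
  | y :: l, _, _, hz, hz', hl, h =>
    tsc_R_trans (rrc86_R_of_adj hz (hl y List.mem_cons_self) h.1)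
      (rtr257_ch_R l (hl y List.mem_cons_self) hz' (fun u hu => hl u (List.mem_cons_of_mem _ hu)) h.2)

/-- the cells of `l` bridge the two layers of `ω₀` inside the band -/
def Rtr257Br (𝓛 : Rln182Law Ω Y) (ι : TV → Y) (c d w σ m e : ℤ) (ω₀ : Ω) (l : List TV) : Prop :=
  (∀ y ∈ l, y ∈ plsBand c d) ∧ ∃ z ∈ rrc86A 𝓛 ι c d w σ m e ω₀, ∃ z' ∈ rrc86C 𝓛 ι c d w σ m e ω₀, Rtr257Ch z l z'

/-- **(C1) THE PATCH UNDER ONE RECORD**: all the cells of `l` are plus with conditional probability at least `κ` -/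
def Rtr257Pat (𝓛 : Rln182Law Ω Y) (K : Ω → Prop) (ι : TV → Y) (κ : ℝ) (c d w σ m e : ℤ) (ω₀ : Ω) (l : List TV) : Prop :=
  κ * 𝓛.Z (rrc86Rec 𝓛 K (rrc86Q2 𝓛 ι c d w σ m e) ω₀) ≤
    𝓛.N (rrc86Rec 𝓛 K (rrc86Q2 𝓛 ι c d w σ m e) ω₀) (rln182Ind fun ω => ∀ y ∈ l, y ∈ rrc86Y 𝓛 ι ω)

/-- **(ST') THE STRIP DATA OF ONE RECORD, WITHOUT the field `h1 ⟹ rec`** of `Rrc86Strip` (warning of 210, 22:24Z: that field fails for the sea history, where closed minus-minus edges of the record are opened;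
R291 `rsg_one` T3 never used it: the chain is run for the JOIN itself, which is increasing, and JOIN ⟹ LINK is read under the RECORD) -/
def Rtr257Strip (𝓛 : Rln182Law Ω Y) (K : Ω → Prop) (ι : TV → Y) (c₀ C : ℝ) (c d w σ m e : ℤ) (ω₀ : Ω) : Prop :=
  ∃ (W : Set TV) (M : Finset Y) (𝓛Q : Rln182Law Ω Y) (h1 H0 : Ω → Prop), W ⊆ plsBand c d ∧ (∀ z ∈ W, ι z ∈ 𝓛.cells → ι z ∈ M) ∧
    Rrc86Chain 𝓛 𝓛Q (rrc86Rec 𝓛 K (rrc86Q2 𝓛 ι c d w σ m e) ω₀) h1 H0 M C ∧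
    c₀ * 𝓛Q.Z H0 ≤ 𝓛Q.N H0 (rln182Ind (Rrc86Join 𝓛 ι W (rrc86A 𝓛 ι c d w σ m e ω₀) (rrc86C 𝓛 ι c d w σ m e ω₀)))

/-- the strip data of 86 are strip data -/
theorem rtr257_strip_of {𝓛 : Rln182Law Ω Y} {K : Ω → Prop} {ι : TV → Y} {c₀ C : ℝ} {c d w σ m e : ℤ} {ω₀ : Ω}
    (h : Rrc86Strip 𝓛 K ι c₀ C c d w σ m e ω₀) : Rtr257Strip 𝓛 K ι c₀ C c d w σ m e ω₀ := by
  obtain ⟨W, M, 𝓛Q, h1, H0, hW, hM, -, hch, hest⟩ := h
  exact ⟨W, M, 𝓛Q, h1, H0, hW, hM, hch, hest⟩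

/-- **THE ALTERNATIVE under one record**: NEAR (bridge + patch) or FAR (strip data) -/
def Rtr257Alt (𝓛 : Rln182Law Ω Y) (K : Ω → Prop) (ι : TV → Y) (κ c₀ C : ℝ) (c d w σ m e : ℤ) (ω₀ : Ω) : Prop :=
  (∃ l : List TV, Rtr257Br 𝓛 ι c d w σ m e ω₀ l ∧ Rtr257Pat 𝓛 K ι κ c d w σ m e ω₀ l) ∨ Rtr257Strip 𝓛 K ι c₀ C c d w σ m e ω₀

variable (𝓛 : Rln182Law Ω Y) (hS : 𝓛.Ok) (ι : TV → Y) {c d w σ m e : ℤ}

include hS

/-- from an event to a weaker one      (R291 `rsg_N_of`) -/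
theorem rtr257_N_of (K : Ω → Prop) {a : ℝ} {E F : Ω → Prop} (h : a * 𝓛.Z K ≤ 𝓛.N K (rln182Ind E)) (hEF : ∀ ω, K ω → E ω → F ω) :
    a * 𝓛.Z K ≤ 𝓛.N K (rln182Ind F) := by
  refine h.trans (rln182_N_mono 𝓛 hS K _ _ fun ω hω => ?_)
  by_cases hE : E ω
  · rw [rln182_ind_pos hE, rln182_ind_pos (hEF ω hω hE)]
  · rw [rln182_ind_neg hE]
    exact rln182_ind_nonneg _ _

/-- a smaller constant -/
theorem rtr257_N_le (K : Ω → Prop) {a a' : ℝ} (ha : a' ≤ a) {F : Ω → ℝ} (h : a * 𝓛.Z K ≤ 𝓛.N K F) : a' * 𝓛.Z K ≤ 𝓛.N K F :=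
  (mul_le_mul_of_nonneg_right ha (rln182_Z_nonneg 𝓛 hS K)).trans h

/-- **(N) A BRIDGE OF PLUS CELLS ⟹ LINK** under the record -/
theorem rtr257_br_link {ω₀ ω : Ω} (h : 𝓛.agr (rrc86Q2 𝓛 ι c d w σ m e ω₀) ω₀ ω) {l : List TV} (hb : Rtr257Br 𝓛 ι c d w σ m e ω₀ l)
    (hp : ∀ y ∈ l, y ∈ rrc86Y 𝓛 ι ω) : Rrc86Link 𝓛 ι c d w σ m e ω₀ ω := by
  obtain ⟨hband, z, hz, z', hz', hch⟩ := hb
  exact ⟨z, hz, z', hz', rtr257_ch_R l (rrc86_A_plus 𝓛 hS ι h hz) (rrc86_C_plus 𝓛 hS ι h hz') (fun y hy => ⟨hp y hy, hband y hy⟩) hch⟩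

/-- **NEAR ⟹ the link estimate** at one record -/
theorem rtr257_LK_of_pat (K : Ω → Prop) {κ : ℝ} {ω₀ : Ω} {l : List TV} (hb : Rtr257Br 𝓛 ι c d w σ m e ω₀ l)
    (hp : Rtr257Pat 𝓛 K ι κ c d w σ m e ω₀ l) :
    κ * 𝓛.Z (rrc86Rec 𝓛 K (rrc86Q2 𝓛 ι c d w σ m e) ω₀) ≤
      𝓛.N (rrc86Rec 𝓛 K (rrc86Q2 𝓛 ι c d w σ m e) ω₀) (rln182Ind (Rrc86Link 𝓛 ι c d w σ m e ω₀)) :=
  rtr257_N_of 𝓛 hS _ hp fun _ hω hl => rtr257_br_link 𝓛 hS ι hω.2 hb hl

/-- the join is an increasing event -/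
theorem rtr257_join_mono {W a c' : Set TV} : 𝓛.MonoP (Rrc86Join 𝓛 ι W a c') := by
  rintro ω ω' hle ⟨z, hz, z', hz', u, u', hu, hu', h1, h2, hR⟩
  have hsub : rrc86Y 𝓛 ι ω ∩ W ⊆ rrc86Y 𝓛 ι ω' ∩ W := by
    rintro x ⟨⟨g1, g2⟩, hb⟩
    exact ⟨⟨g1, fun hn => g2 (hS.np_anti ω ω' hle _ g1 hn)⟩, hb⟩
  exact ⟨z, hz, z', hz', u, u', hsub hu, hsub hu', h1, h2, tsc_R_mono hsub hR⟩

/-- **FAR ⟹ the link estimate** at one record: the chain for the join, then JOIN ⟹ LINK under the record -/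
theorem rtr257_LK_of_strip (K : Ω → Prop) {c₀ C : ℝ} (hC : 0 < C) {ω₀ : Ω} (h : Rtr257Strip 𝓛 K ι c₀ C c d w σ m e ω₀) :
    c₀ / C * 𝓛.Z (rrc86Rec 𝓛 K (rrc86Q2 𝓛 ι c d w σ m e) ω₀) ≤
      𝓛.N (rrc86Rec 𝓛 K (rrc86Q2 𝓛 ι c d w σ m e) ω₀) (rln182Ind (Rrc86Link 𝓛 ι c d w σ m e ω₀)) := by
  obtain ⟨W, M, 𝓛Q, h1, H0, hW, hM, hch, hest⟩ := h
  have hj := rrc86_chain 𝓛 hS hC hch (fun ω => rln182_ind_nonneg _ ω) (rrc86_join_loc 𝓛 ι hM) hest
    (rln182_ind_mono 𝓛 (rtr257_join_mono 𝓛 hS ι)) (fun ω => rln182_ind_nonneg _ ω) (fun _ _ _ => le_rfl)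
  exact rtr257_N_of 𝓛 hS _ hj fun ω hω hjoin => rrc86_join_link 𝓛 hS ι hω.2 hW hjoin

/-- the link estimate at one record from the alternative -/
theorem rtr257_one (K : Ω → Prop) {κ c₀ C : ℝ} (hC : 0 < C) {ω₀ : Ω} (h : Rtr257Alt 𝓛 K ι κ c₀ C c d w σ m e ω₀) :
    min κ (c₀ / C) * 𝓛.Z (rrc86Rec 𝓛 K (rrc86Q2 𝓛 ι c d w σ m e) ω₀) ≤
      𝓛.N (rrc86Rec 𝓛 K (rrc86Q2 𝓛 ι c d w σ m e) ω₀) (rln182Ind (Rrc86Link 𝓛 ι c d w σ m e ω₀)) := by
  rcases h with ⟨l, hb, hp⟩ | hst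
  · exact rtr257_N_le 𝓛 hS _ (min_le_left _ _) (rtr257_LK_of_pat 𝓛 hS ι K hb hp)
  · exact rtr257_N_le 𝓛 hS _ (min_le_right _ _) (rtr257_LK_of_strip 𝓛 hS ι K hC hst)

/-- **THE TRICHOTOMY**: touch (inside `Rrc86LK`) / near / far ⟹ (LK)      (R291 `rsg_one`) -/
theorem rtr257_LK (K : Ω → Prop) {κ c₀ C cg : ℝ} (hC : 0 < C) (hcg : cg ≤ min κ (c₀ / C)) {G : Ω → Prop}
    (h : ∀ ω₀ ∈ 𝓛.cfgs, K ω₀ → G ω₀ → ¬ Rrc86Touch (rrc86A 𝓛 ι c d w σ m e ω₀) (rrc86C 𝓛 ι c d w σ m e ω₀) →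
      Rtr257Alt 𝓛 K ι κ c₀ C c d w σ m e ω₀) : Rrc86LK 𝓛 K ι cg c d w σ m e G :=
  fun ω₀ hω₀ hK hG ht => rtr257_N_le 𝓛 hS _ hcg (rtr257_one 𝓛 hS ι K hC (h ω₀ hω₀ hK hG ht))

omit hS in
/-- the alternative from (GEO) the geometry of a non-touching record, (C1) the patch, (ST) the strip, for ANY notions `Pb` of a patchable chain and `Far` of a far record -/
theorem rtr257_alt_of (K : Ω → Prop) {κ c₀ C : ℝ} (Pb : Ω → List TV → Prop) (Far : Ω → Prop) {ω₀ : Ω}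
    (hgeo : (∃ l, Rtr257Br 𝓛 ι c d w σ m e ω₀ l ∧ Pb ω₀ l) ∨ Far ω₀)
    (hpat : ∀ l, Rtr257Br 𝓛 ι c d w σ m e ω₀ l → Pb ω₀ l → Rtr257Pat 𝓛 K ι κ c d w σ m e ω₀ l)
    (hst : Far ω₀ → Rtr257Strip 𝓛 K ι c₀ C c d w σ m e ω₀) : Rtr257Alt 𝓛 K ι κ c₀ C c d w σ m e ω₀ := by
  rcases hgeo with ⟨l, hb, hp⟩ | hf
  · exact Or.inl ⟨l, hb, hpat l hb hp⟩
  · exact Or.inr (hst hf)

end model

/-! ## the chain of one lattice edge -/

/-- one more cell at the end of a chain -/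
theorem rtr257_ch_snoc : ∀ (l : List TV) {z y z' : TV}, Rtr257Ch z l y → Rtr257Ch y [] z' → Rtr257Ch z (l ++ [y]) z'
  | [], _, _, _, h, h' => ⟨h, h'⟩
  | _ :: l, _, _, _, h, h' => ⟨h.1, rtr257_ch_snoc l h.2 h'⟩

/-- ONE LATTICE EDGE: vertex point, edge point, vertex point is a chain of the refined lattice -/
theorem rtr257_edge_ch (e : (ℤ × ℤ) × Bool) : Rtr257Ch (rtd111P e.1) [rtd111E e] (rtd111P (rswEnd e)) := by
  obtain ⟨⟨x, y⟩, b⟩ := e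
  cases b
  · have he : rswEnd ((x, y), false) = (x + 1, y) := rfl
    refine ⟨Or.inr ?_, Or.inr ?_⟩
    · rw [tsc_G_adj, tsc_adj_iff, rtd111_E_f]
      dsimp only [rtd111P]
      omega
    · rw [tsc_G_adj, tsc_adj_iff, rtd111_E_f, he]
      dsimp only [rtd111P]
      omega
  · have he : rswEnd ((x, y), true) = (x, y + 1) := rfl
    refine ⟨Or.inr ?_, Or.inr ?_⟩
    · rw [tsc_G_adj, tsc_adj_iff, rtd111_E_t]
      dsimp only [rtd111P]
      omega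
    · rw [tsc_G_adj, tsc_adj_iff, rtd111_E_t, he]
      dsimp only [rtd111P]
      omega

/-- a chain read backwards -/
theorem rtr257_ch_symm : ∀ (l : List TV) {z z' : TV}, Rtr257Ch z l z' → Rtr257Ch z' l.reverse z
  | [], _, _, h => h.elim (fun h => Or.inl h.symm) (fun h => Or.inr h.symm)
  | y :: l, z, z', h => by
    have h1 := rtr257_ch_symm l h.2
    have h2 : Rtr257Ch y [] z := h.1.elim (fun h => Or.inl h.symm) (fun h => Or.inr h.symm)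
    rw [List.reverse_cons]
    exact rtr257_ch_snoc l.reverse h1 h2

/-- chains are concatenated -/
theorem rtr257_ch_append : ∀ (l l' : List TV) {z y z' : TV}, Rtr257Ch z l y → Rtr257Ch y l' z' → Rtr257Ch z (l ++ y :: l') z'
  | [], _, _, _, _, h, h' => ⟨h, h'⟩
  | _ :: l, l', _, _, _, h, h' => ⟨h.1, rtr257_ch_append l l' h.2 h'⟩

/-! ## the closed contract on the mixed cylinder -/

/-- **THE CLOSED CONTRACT (ALT)** on the mixed cylinder: under every NON-TOUCHING record with long tips (TIP) / in a narrow box (TUBE): NEAR (bridge + patch at cost `κ`) or FAR (strip data, constants `c₀`, `C`);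
sizes, centres and events VERBATIM as in `Rrc86LKc` of 86 -/
def Rtr257AltC (t : ℝ) : Prop :=
  ∃ κ c₀ C : ℝ, 0 < κ ∧ 0 < c₀ ∧ 0 < C ∧ ∀ (L H : ℕ) (c r w : ℤ), 10 ≤ w → 12500 * w ≤ r → r ≤ 25000 * w → 16 * r ≤ 2 * L → r ≤ c → c + 2 * r ≤ 2 * (H : ℤ) - 1 →
    (∀ m e e2 : ℤ, (m = 7 * r ∨ m = 7 * r + 1) → e2 ≤ e → e + 3 * (20 * w + 8) + (5 * w + 1) + 8 ≤ 2 * e2 → e ≤ 7 * r →
      ∀ ω₀ ∈ (rrc86L t L H).cfgs, Rcy162Mix L 0 H ω₀ →
        Rrc86G1 (m - e) (m + (20 * w + 8) + e) c (c + r) (5 * w + 1) m (m + (20 * w + 8)) (m + e2) (m + (20 * w + 8) - e2)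
          (rrc86I (rrc86L t L H) (sdRed (2 * L)) c (c + r) (5 * w + 1) (20 * w + 8) m e ω₀) (rrc86J (rrc86L t L H) (sdRed (2 * L)) c (c + r) (5 * w + 1) (20 * w + 8) m e ω₀) →
        ¬ Rrc86Touch (rrc86A (rrc86L t L H) (sdRed (2 * L)) c (c + r) (5 * w + 1) (20 * w + 8) m e ω₀) (rrc86C (rrc86L t L H) (sdRed (2 * L)) c (c + r) (5 * w + 1) (20 * w + 8) m e ω₀) →
        Rtr257Alt (rrc86L t L H) (Rcy162Mix L 0 H) (sdRed (2 * L)) κ c₀ C c (c + r) (5 * w + 1) (20 * w + 8) m e ω₀) ∧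
    (∀ m e : ℤ, (m = 7 * r ∨ m = 7 * r + 1) → 5 * w + 1 ≤ e → e ≤ 20 * (20 * w + 8) →
      ∀ ω₀ ∈ (rrc86L t L H).cfgs, Rcy162Mix L 0 H ω₀ →
        Rrc86G0 (m - e) (m + (20 * w + 8) + e) c (c + r) (5 * w + 1) m (m + (20 * w + 8))
          (rrc86I (rrc86L t L H) (sdRed (2 * L)) c (c + r) (5 * w + 1) (20 * w + 8) m e ω₀) (rrc86J (rrc86L t L H) (sdRed (2 * L)) c (c + r) (5 * w + 1) (20 * w + 8) m e ω₀) →
        ¬ Rrc86Touch (rrc86A (rrc86L t L H) (sdRed (2 * L)) c (c + r) (5 * w + 1) (20 * w + 8) m e ω₀) (rrc86C (rrc86L t L H) (sdRed (2 * L)) c (c + r) (5 * w + 1) (20 * w + 8) m e ω₀) →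
        Rtr257Alt (rrc86L t L H) (Rcy162Mix L 0 H) (sdRed (2 * L)) κ c₀ C c (c + r) (5 * w + 1) (20 * w + 8) m e ω₀)

/-- **(ALT) ⟹ (LK)** on the mixed cylinder -/
theorem rtr257_LKc {t : ℝ} (h0 : 0 ≤ t) (h1 : t ≤ 1) (h : Rtr257AltC t) : Rrc86LKc t := by
  obtain ⟨κ, c₀, C, hκ, hc₀, hC, M⟩ := h
  have hq : 0 < c₀ / C := div_pos hc₀ hC
  refine ⟨min (min κ (c₀ / C)) 1, lt_min (lt_min hκ hq) one_pos, min_le_right _ _, fun L H c r w hw hr1 hr2 hL2 hc hcH => ?_⟩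
  obtain ⟨m1, m2⟩ := M L H c r w hw hr1 hr2 hL2 hc hcH
  refine ⟨fun m e e2 hm a1 a2 a3 => ?_, fun m e hm a1 a2 => ?_⟩
  · exact rtr257_LK (rrc86L t L H) (rrc86_L_ok h0 h1 L H) (sdRed (2 * L)) (Rcy162Mix L 0 H) hC (min_le_left _ _)
      (fun ω₀ hω₀ hK hG ht => m1 m e e2 hm a1 a2 a3 ω₀ hω₀ hK hG ht)
  · exact rtr257_LK (rrc86L t L H) (rrc86_L_ok h0 h1 L H) (sdRed (2 * L)) (Rcy162Mix L 0 H) hC (min_le_left _ _)
      (fun ω₀ hω₀ hK hG ht => m2 m e hm a1 a2 ω₀ hω₀ hK hG ht)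

/-- **(56) on the mixed cylinder from (ALT)** -/
theorem rtr257_rsw (t : ℝ) (h0 : 0 < t) (h1 : t ≤ 1) (h : Rtr257AltC t) : Rrc86Rsw t := rrc86_rsw_LK t h0 h1 (rtr257_LKc h0.le h1 h)

/-! ## v2: NEAR is closed by (C1) of 117 -/

/-- (C1) of 117 in the words of this file -/
theorem rtr257_pat_cyl {t : ℝ} (h0 : 0 ≤ t) (h1 : t ≤ 1) {L : ℕ} (hL : 0 < L) (H : ℕ) (n : ℕ) {c d w σ m e : ℤ} {ω₀ : RswCfg} {l : List TV}
    (h : Rwc117Pb L H (rrc86Q2 (rrc86L t L H) (sdRed (2 * L)) c d w σ m e) n ω₀ l) :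
    Rtr257Pat (rrc86L t L H) (Rcy162Mix L 0 H) (sdRed (2 * L)) (rwc117Kap t n) c d w σ m e ω₀ l :=
  rwc117_pat_cyl h0 h1 hL H _ n ω₀ l h

/-- **NEAR** on the mixed cylinder: a bridge of the two layers which is a patchable list of at most `n` edges -/
def Rtr257Near (t : ℝ) (L H n : ℕ) (c d w σ m e : ℤ) (ω₀ : RswCfg) : Prop :=
  ∃ l : List TV, Rtr257Br (rrc86L t L H) (sdRed (2 * L)) c d w σ m e ω₀ l ∧ Rwc117Pb L H (rrc86Q2 (rrc86L t L H) (sdRed (2 * L)) c d w σ m e) n ω₀ l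

/-- near or far ⟹ the alternative -/
theorem rtr257_alt_cyl {t : ℝ} (h0 : 0 ≤ t) (h1 : t ≤ 1) {L : ℕ} (hL : 0 < L) (H : ℕ) (n : ℕ) {c₀ C : ℝ} {c d w σ m e : ℤ} {ω₀ : RswCfg}
    (h : ¬ Rtr257Near t L H n c d w σ m e ω₀ → Rtr257Strip (rrc86L t L H) (Rcy162Mix L 0 H) (sdRed (2 * L)) c₀ C c d w σ m e ω₀) :
    Rtr257Alt (rrc86L t L H) (Rcy162Mix L 0 H) (sdRed (2 * L)) (rwc117Kap t n) c₀ C c d w σ m e ω₀ := by
  by_cases hn : Rtr257Near t L H n c d w σ m e ω₀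
  · obtain ⟨l, hb, hp⟩ := hn
    exact Or.inl ⟨l, hb, rtr257_pat_cyl h0 h1 hL H n hp⟩
  · exact Or.inr (h hn)

/-- **THE CLOSED CONTRACT (FAR)** = the only open end of A3 PART II: under every NON-TOUCHING record with long tips (TIP) / in a narrow box (TUBE) which has NO near bridge of at most `n` edges there are strip data, constants `c₀`, `C`;
sizes, centres and events VERBATIM as in `Rrc86LKc` of 86 -/
def Rtr257FarC (t : ℝ) : Prop :=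
  ∃ (n : ℕ) (c₀ C : ℝ), 0 < c₀ ∧ 0 < C ∧ ∀ (L H : ℕ) (c r w : ℤ), 10 ≤ w → 12500 * w ≤ r → r ≤ 25000 * w → 16 * r ≤ 2 * L → r ≤ c → c + 2 * r ≤ 2 * (H : ℤ) - 1 →
    (∀ m e e2 : ℤ, (m = 7 * r ∨ m = 7 * r + 1) → e2 ≤ e → e + 3 * (20 * w + 8) + (5 * w + 1) + 8 ≤ 2 * e2 → e ≤ 7 * r →
      ∀ ω₀ ∈ (rrc86L t L H).cfgs, Rcy162Mix L 0 H ω₀ →
        Rrc86G1 (m - e) (m + (20 * w + 8) + e) c (c + r) (5 * w + 1) m (m + (20 * w + 8)) (m + e2) (m + (20 * w + 8) - e2)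
          (rrc86I (rrc86L t L H) (sdRed (2 * L)) c (c + r) (5 * w + 1) (20 * w + 8) m e ω₀) (rrc86J (rrc86L t L H) (sdRed (2 * L)) c (c + r) (5 * w + 1) (20 * w + 8) m e ω₀) →
        ¬ Rrc86Touch (rrc86A (rrc86L t L H) (sdRed (2 * L)) c (c + r) (5 * w + 1) (20 * w + 8) m e ω₀) (rrc86C (rrc86L t L H) (sdRed (2 * L)) c (c + r) (5 * w + 1) (20 * w + 8) m e ω₀) →
        ¬ Rtr257Near t L H n c (c + r) (5 * w + 1) (20 * w + 8) m e ω₀ →
        Rtr257Strip (rrc86L t L H) (Rcy162Mix L 0 H) (sdRed (2 * L)) c₀ C c (c + r) (5 * w + 1) (20 * w + 8) m e ω₀) ∧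
    (∀ m e : ℤ, (m = 7 * r ∨ m = 7 * r + 1) → 5 * w + 1 ≤ e → e ≤ 20 * (20 * w + 8) →
      ∀ ω₀ ∈ (rrc86L t L H).cfgs, Rcy162Mix L 0 H ω₀ →
        Rrc86G0 (m - e) (m + (20 * w + 8) + e) c (c + r) (5 * w + 1) m (m + (20 * w + 8))
          (rrc86I (rrc86L t L H) (sdRed (2 * L)) c (c + r) (5 * w + 1) (20 * w + 8) m e ω₀) (rrc86J (rrc86L t L H) (sdRed (2 * L)) c (c + r) (5 * w + 1) (20 * w + 8) m e ω₀) →
        ¬ Rrc86Touch (rrc86A (rrc86L t L H) (sdRed (2 * L)) c (c + r) (5 * w + 1) (20 * w + 8) m e ω₀) (rrc86C (rrc86L t L H) (sdRed (2 * L)) c (c + r) (5 * w + 1) (20 * w + 8) m e ω₀) →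
        ¬ Rtr257Near t L H n c (c + r) (5 * w + 1) (20 * w + 8) m e ω₀ →
        Rtr257Strip (rrc86L t L H) (Rcy162Mix L 0 H) (sdRed (2 * L)) c₀ C c (c + r) (5 * w + 1) (20 * w + 8) m e ω₀)

/-- **(FAR) ⟹ (ALT)** -/
theorem rtr257_altC_of_far {t : ℝ} (h0 : 0 < t) (h1 : t ≤ 1) (h : Rtr257FarC t) : Rtr257AltC t := by
  obtain ⟨n, c₀, C, hc₀, hC, M⟩ := h
  refine ⟨rwc117Kap t n, c₀, C, rwc117_Kap_pos h0 n, hc₀, hC, fun L H c r w hw hr1 hr2 hL2 hc hcH => ?_⟩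
  have hL : 0 < L := by omega
  obtain ⟨m1, m2⟩ := M L H c r w hw hr1 hr2 hL2 hc hcH
  refine ⟨fun m e e2 hm a1 a2 a3 ω₀ hω₀ hK hG ht => ?_, fun m e hm a1 a2 ω₀ hω₀ hK hG ht => ?_⟩
  · exact rtr257_alt_cyl h0.le h1 hL H n (m1 m e e2 hm a1 a2 a3 ω₀ hω₀ hK hG ht)
  · exact rtr257_alt_cyl h0.le h1 hL H n (m2 m e hm a1 a2 ω₀ hω₀ hK hG ht)

/-- **(56) on the mixed cylinder from (FAR)** -/
theorem rtr257_rsw_far (t : ℝ) (h0 : 0 < t) (h1 : t ≤ 1) (h : Rtr257FarC t) : Rrc86Rsw t := rtr257_rsw t h0 h1 (rtr257_altC_of_far h0 h1 h)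

/-- what FAR excludes, the simplest case: ONE lattice edge `e0` of the lift (its edge point reduces to the edge point of the edge `e1` of the cylinder) inside the band, whose two end points lie on the two layers -/
theorem rtr257_near_edge {t : ℝ} {L H n : ℕ} (hn : 1 ≤ n) {c d w σ m e : ℤ} {ω₀ : RswCfg} (e0 e1 : (ℤ × ℤ) × Bool)
    (hE : e1 ∈ (rcy162Cyl L 0 H).E) (hred : sdRed (2 * L) (rtd111E e0) = rtd111E e1) (hband : rtd111E e0 ∈ plsBand c d)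
    (hA : rtd111P e0.1 ∈ rrc86A (rrc86L t L H) (sdRed (2 * L)) c d w σ m e ω₀ ∧ rtd111P (rswEnd e0) ∈ rrc86C (rrc86L t L H) (sdRed (2 * L)) c d w σ m e ω₀ ∨
      rtd111P (rswEnd e0) ∈ rrc86A (rrc86L t L H) (sdRed (2 * L)) c d w σ m e ω₀ ∧ rtd111P e0.1 ∈ rrc86C (rrc86L t L H) (sdRed (2 * L)) c d w σ m e ω₀)
    (hlook : rtd111E e1 ∈ rrc86Q2 (rrc86L t L H) (sdRed (2 * L)) c d w σ m e ω₀ → (rcy162Cyl L 0 H).Good true ω₀ e1)
    (hend : ∀ v, Rse182End (rcy162Cyl L 0 H) e1 v → v.2 ≠ 0 ∧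
      (v ∈ rse182Sv (rcy162Cyl L 0 H) (rrc86Q2 (rrc86L t L H) (sdRed (2 * L)) c d w σ m e ω₀) → v ∈ ω₀.S)) :
    Rtr257Near t L H n c d w σ m e ω₀ := by
  refine ⟨[rtd111E e0], ⟨fun y hy => ?_, ?_⟩, {e1}, ?_, ?_, ?_, ?_, ?_⟩
  · rw [List.mem_singleton] at hy
    rw [hy]; exact hband
  · rcases hA with ⟨ha, hc⟩ | ⟨ha, hc⟩
    · exact ⟨_, ha, _, hc, rtr257_edge_ch e0⟩
    · exact ⟨_, ha, _, hc, rtr257_ch_symm _ (rtr257_edge_ch e0)⟩
  · exact Finset.singleton_subset_iff.2 hE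
  · rw [Finset.card_singleton]; exact hn
  · intro e' he'
    rw [Finset.mem_singleton] at he'
    rw [he']; exact hlook
  · intro e' he'
    rw [Finset.mem_singleton] at he'
    rw [he']; exact hend
  · intro y hy
    rw [List.mem_singleton] at hy
    exact Or.inl ⟨e1, Finset.mem_singleton_self _, by rw [hy]; exact hred⟩

/-- the equation lemmas of the definitions of this file are generated HERE (RULES.md, rule 6) -/
theorem rtr257_eqns_cite : True := by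
  have := @Rtr257Ch.eq_1; have := @Rtr257Ch.eq_2; have := @Rtr257Ch.eq_def
  have := @Rtr257Br.eq_1; have := @Rtr257Br.eq_def
  have := @Rtr257Pat.eq_1; have := @Rtr257Pat.eq_def
  have := @Rtr257Strip.eq_1; have := @Rtr257Strip.eq_def
  have := @Rtr257Alt.eq_1; have := @Rtr257Alt.eq_def
  have := @Rtr257AltC.eq_1; have := @Rtr257AltC.eq_def
  have := @Rtr257Near.eq_1; have := @Rtr257Near.eq_def
  have := @Rtr257FarC.eq_1; have := @Rtr257FarC.eq_def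
  trivial

/-! ## v3 (23:00Z): ONE RECORD ON THE MIXED CYLINDER.   NEAR = a planar chain (117 `rwc117_pat_Q2`);   FAR = geometry + (L) (210 `ent210_LK_rec` / 180 `rwl180_LK_cyl`);   (ORD) = 292 `lo292_cyl_ord` -/

/-- (ORD) of 182 on the mixed cylinder, for the law of 86 and the history `rwl180KM` of 180: PROVED (292) -/
theorem rtr257_ord_cyl {t : ℝ} (h0 : 0 < t) (h1 : t ≤ 1) {L H : ℕ} (hL : 0 < L) (hH : 0 < H) :
    Rse182Ord (rcy162Cyl L 0 H) (rrc86L t L H) (rwl180KM L H) :=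
  lo292_cyl_ord h0 h1 hL (by exact_mod_cast hH) (rrc86_L_link t L H) (fun _ _ h => h) (Finset.Subset.refl _) (Finset.Subset.refl _)

/-- the record of the two explorations of 86 on the mixed cylinder -/
abbrev rtr257Rec (t : ℝ) (L H : ℕ) (c d w σ m e : ℤ) (ω₀ : RswCfg) : RswCfg → Prop :=
  rrc86Rec (rrc86L t L H) (Rcy162Mix L 0 H) (rrc86Q2 (rrc86L t L H) (sdRed (2 * L)) c d w σ m e) ω₀

/-- the same record as a history of 182 -/
noncomputable abbrev rtr257Obs (t : ℝ) (L H : ℕ) (c d w σ m e : ℤ) (ω₀ : RswCfg) : RswCon :=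
  rse182Obs (rcy162Cyl L 0 H) (rwl180KM L H) (rrc86Q2 (rrc86L t L H) (sdRed (2 * L)) c d w σ m e ω₀) ω₀

/-- the join of the two layers inside the window `W` -/
abbrev Rtr257Join (t : ℝ) (L H : ℕ) (W : Set TV) (c d w σ m e : ℤ) (ω₀ : RswCfg) : RswCfg → Prop :=
  Rrc86Join (rrc86L t L H) (sdRed (2 * L)) W (rrc86A (rrc86L t L H) (sdRed (2 * L)) c d w σ m e ω₀) (rrc86C (rrc86L t L H) (sdRed (2 * L)) c d w σ m e ω₀)

/-- **the link estimate at ONE record** with the constant `cg` (= the body of `Rrc86LK`) -/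
def Rtr257LK1 (t : ℝ) (L H : ℕ) (cg : ℝ) (c d w σ m e : ℤ) (ω₀ : RswCfg) : Prop :=
  cg * (rrc86L t L H).Z (rtr257Rec t L H c d w σ m e ω₀) ≤
    (rrc86L t L H).N (rtr257Rec t L H c d w σ m e ω₀) (rln182Ind (Rrc86Link (rrc86L t L H) (sdRed (2 * L)) c d w σ m e ω₀))

/-- **NEAR = PURE PLANAR GEOMETRY** (no law, no record): a lifted primal chain `E'` of at most `n` edges inside the box, off the two explored clusters `I`, `J`, and a list `l` of its cells which bridges the two layers in the band -/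
def Rtr257NearG (t : ℝ) (L H n : ℕ) (c d w σ m e : ℤ) (ω₀ : RswCfg) : Prop :=
  ∃ (E' : List ((ℤ × ℤ) × Bool)) (l : List TV), E'.length ≤ n ∧
    (∀ e' ∈ E', rtd111E e' ∈ rrw86Rect (m - e) (m + σ + e) c d ∧ rtd111P e'.1 ∈ rrw86Rect (m - e) (m + σ + e) c d ∧
      rtd111P (rswEnd e') ∈ rrw86Rect (m - e) (m + σ + e) c d) ∧
    (∀ e' ∈ E', ∀ y, (y = rtd111E e' ∨ y = rtd111P e'.1 ∨ y = rtd111P (rswEnd e')) →
      y ∉ rrc86I (rrc86L t L H) (sdRed (2 * L)) c d w σ m e ω₀ ∧ y ∉ rrc86J (rrc86L t L H) (sdRed (2 * L)) c d w σ m e ω₀) ∧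
    (∀ y ∈ l, ∃ e' ∈ E', y = rtd111E e' ∨ y = rtd111P e'.1 ∨ y = rtd111P (rswEnd e')) ∧
    Rtr257Br (rrc86L t L H) (sdRed (2 * L)) c d w σ m e ω₀ l

/-- **FAR, ENTRANCE OF 210**: a closed strip system `S` with its law `𝓛Q`, the geometry `Ent210Geo` of (cylinder, `S`, record), a window `W` carried by the retained part, at most `a` (reduced) ports, and
the estimate (L) for the join inside `W` under the closed strip law -/
def Rtr257Far210 (t : ℝ) (L H a : ℕ) (c₀ : ℝ) (c d w σ m e : ℤ) (ω₀ : RswCfg) : Prop :=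
  ∃ (S : Rcy162Sys) (𝓛Q : Rln182Law RswCfg TV) (R Q : Finset (ℤ × ℤ)) (YR Cb : Finset ((ℤ × ℤ) × Bool)) (La Lc Ld Lb Pl : Finset (ℤ × ℤ))
    (Rib : Finset ((ℤ × ℤ) × Bool)) (M : Finset TV) (W : Set TV),
    Rse182Link S t 𝓛Q ∧
    Ent210Geo (rcy162Cyl L 0 H) S t (rpo102Of (rtr257Obs t L H c d w σ m e ω₀) ∅) R Q YR Cb La Lc Ld Lb Pl Rib ∧
    (rwl180KM L H).Sp ⊆ Pl ∧ Ent210Car R YR M ∧ W ⊆ plsBand c d ∧
    (∀ z ∈ W, sdRed (2 * L) z ∈ (rrc86L t L H).cells → sdRed (2 * L) z ∈ M) ∧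
    ((ent210P2 S Cb La Lc Ld Lb).card - 1) +
      ((ent210P1 (rcy162Cyl L 0 H) (rpo102Of (rtr257Obs t L H c d w σ m e ω₀) ∅) R Q YR Pl Rib).card - 1) ≤ a ∧
    c₀ * 𝓛Q.Z ((ent210H0 S Cb La Lc Ld Lb).Holds S) ≤ 𝓛Q.N ((ent210H0 S Cb La Lc Ld Lb).Holds S) (rln182Ind (Rtr257Join t L H W c d w σ m e ω₀))

/-- **FAR, WALL OF 180**: a finite set `T` of points of the system which carries the window `W`, the geometry `Rwl180Geo`, at most 4 ports, and the estimate (L) under the law of the retained system -/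
def Rtr257Far180 (t : ℝ) (L H : ℕ) (c₀ : ℝ) (c d w σ m e : ℤ) (ω₀ : RswCfg) : Prop :=
  ∃ (W : Set TV) (T : Finset TV) (O : Finset ((ℤ × ℤ) × Bool)) (Lp Lm : Finset (ℤ × ℤ)) (𝓛Q : Rln182Law RswCfg TV),
    W ⊆ plsBand c d ∧ (∀ y ∈ T, Rse182Pt (rcy162Cyl L 0 H) y) ∧
    (∀ z ∈ W, sdRed (2 * L) z ∈ (rrc86L t L H).cells → sdRed (2 * L) z ∈ T) ∧
    Rwl180Geo (rcy162Cyl L 0 H) (rtr257Obs t L H c d w σ m e ω₀) O (rse182Ed (rcy162Cyl L 0 H) T) (rse182Sv (rcy162Cyl L 0 H) T) Lp Lm ∧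
    (rwl180P (rcy162Cyl L 0 H) (rtr257Obs t L H c d w σ m e ω₀) O (rse182Ed (rcy162Cyl L 0 H) T)).card ≤ 4 ∧
    Rse182Link (rwl180SQ (rcy162Cyl L 0 H) (rse182Ed (rcy162Cyl L 0 H) T) (rse182Sv (rcy162Cyl L 0 H) T)) t 𝓛Q ∧ 𝓛Q.Ok ∧
    c₀ * 𝓛Q.Z (rse182Holds (rwl180SQ (rcy162Cyl L 0 H) (rse182Ed (rcy162Cyl L 0 H) T) (rse182Sv (rcy162Cyl L 0 H) T)) (rwl180H0 Lp Lm)) ≤
      𝓛Q.N (rse182Holds (rwl180SQ (rcy162Cyl L 0 H) (rse182Ed (rcy162Cyl L 0 H) T) (rse182Sv (rcy162Cyl L 0 H) T)) (rwl180H0 Lp Lm))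
        (rln182Ind (Rtr257Join t L H W c d w σ m e ω₀))

section one

variable {t : ℝ} {L H n a : ℕ} {c₀ : ℝ} {c d w σ m e : ℤ} {ω₀ : RswCfg}

/-- a smaller constant at one record -/
theorem rtr257_LK1_le (h0 : 0 ≤ t) (h1 : t ≤ 1) {cg cg' : ℝ} (hc : cg' ≤ cg) (h : Rtr257LK1 t L H cg c d w σ m e ω₀) :
    Rtr257LK1 t L H cg' c d w σ m e ω₀ :=
  rtr257_N_le (rrc86L t L H) (rrc86_L_ok h0 h1 L H) _ hc h

/-- a record of zero mass satisfies every link estimate -/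
theorem rtr257_LK1_zero (h0 : 0 ≤ t) (h1 : t ≤ 1) (cg : ℝ) (hZ : ¬ 0 < (rrc86L t L H).Z (rtr257Rec t L H c d w σ m e ω₀)) :
    Rtr257LK1 t L H cg c d w σ m e ω₀ := by
  have hz : (rrc86L t L H).Z (rtr257Rec t L H c d w σ m e ω₀) = 0 :=
    le_antisymm (not_lt.1 hZ) (rln182_Z_nonneg _ (rrc86_L_ok h0 h1 L H) _)
  unfold Rtr257LK1
  rw [hz, mul_zero]
  exact rln182_N_nonneg _ (rrc86_L_ok h0 h1 L H) _ _ fun ω _ => rln182_ind_nonneg _ ω

/-- **NEAR ⟹ the link estimate** (117 + the bridge) -/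
theorem rtr257_LK1_near (h0 : 0 ≤ t) (h1 : t ≤ 1) (hL : 0 < L) (hW : σ + 2 * e + 1 < 2 * (L : ℤ)) (hc : 0 < c) (hd : d < 2 * (H : ℤ))
    (h : Rtr257NearG t L H n c d w σ m e ω₀) : Rtr257LK1 t L H (rwc117Kap t n) c d w σ m e ω₀ := by
  obtain ⟨E', l, hlen, hR, hI, hl, hb⟩ := h
  exact rtr257_LK_of_pat (rrc86L t L H) (rrc86_L_ok h0 h1 L H) (sdRed (2 * L)) (Rcy162Mix L 0 H) hb
    (rwc117_pat_Q2 h0 h1 hL hW hc hd ω₀ n E' hlen hR hI l hl)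

/-- **FAR (210) ⟹ the link estimate**, constant `c₀ / 2 ^ a` -/
theorem rtr257_LK1_far210 (h0 : 0 < t) (h1 : t ≤ 1) (hL : 0 < L) (hH : 0 < H) (hc : 1 ≤ c) (hd : d ≤ 2 * (H : ℤ) - 1) (hc₀ : 0 ≤ c₀)
    (h : Rtr257Far210 t L H a c₀ c d w σ m e ω₀) : Rtr257LK1 t L H (c₀ / 2 ^ a) c d w σ m e ω₀ := by
  obtain ⟨S, 𝓛Q, R, Q, YR, Cb, La, Lc, Ld, Lb, Pl, Rib, M, W, lS, g, hKp, hM, hW, hMW, hP, hest⟩ := h
  have key := ent210_LK_rec (rrc86_L_ok h0.le h1 L H) (rrc86_L_link t L H) lS (sdRed (2 * L)) (Rcy162Mix L 0 H) (rwl180KM L H) ω₀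
    (fun ω _ _ => rwl180_KM_holds _ L H ω) (rwl180_KM_legal _ L H) (rwl180_Q2_pt t hc hd w σ m e ω₀) g (rtr257_ord_cyl h0 h1 hL hH) hKp hM hW hMW hest
  refine rtr257_LK1_le h0.le h1 ?_ key
  exact div_le_div_of_nonneg_left hc₀ (by positivity) (pow_le_pow_right₀ (by norm_num) hP)

/-- **FAR (180) ⟹ the link estimate**, constant `c₀ / 8` -/
theorem rtr257_LK1_far180 (h0 : 0 < t) (h1 : t < 1) (hL : 0 < L) (hH : 0 < H) (hc : 1 ≤ c) (hd : d ≤ 2 * (H : ℤ) - 1)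
    (h : Rtr257Far180 t L H c₀ c d w σ m e ω₀) : Rtr257LK1 t L H (c₀ / 8) c d w σ m e ω₀ := by
  obtain ⟨W, T, O, Lp, Lm, 𝓛Q, hW, hT, hM, hG, hP, hlQ, hSQ, hest⟩ := h
  exact rwl180_LK_cyl h0 h1 hL hc hd w σ m e (rtr257_ord_cyl h0 h1.le hL hH) ω₀ W hW T hT hM O Lp Lm hG hP hlQ hSQ hest

/-- the mass of the record is the mass of its history: the field `feas` of `Ent210Geo` is free under `0 < Z(record)` -/
theorem rtr257_feas (hc : 1 ≤ c) (hd : d ≤ 2 * (H : ℤ) - 1) (hZ : 0 < (rrc86L t L H).Z (rtr257Rec t L H c d w σ m e ω₀)) :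
    0 < (rrc86L t L H).Z ((rpo102Of (rtr257Obs t L H c d w σ m e ω₀) ∅).Holds (rcy162Cyl L 0 H)) := by
  rw [ent210_of_holds]
  unfold Rln182Law.Z at hZ ⊢
  rw [rwl180_rec_N (rrc86_L_link t L H) (rwl180KM L H) (rwl180_KM_holds _ L H) _ ω₀ (rwl180_Q2_pt t hc hd w σ m e ω₀)] at hZ
  exact hZ

end one

/-- **THE ALTERNATIVE AT ONE RECORD, in named inputs**: NEAR (planar chain) or FAR through the entrance of 210 or FAR through the wall of 180 -/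
def Rtr257Alt3 (t : ℝ) (L H n a : ℕ) (c₀ : ℝ) (c d w σ m e : ℤ) (ω₀ : RswCfg) : Prop :=
  Rtr257NearG t L H n c d w σ m e ω₀ ∨ Rtr257Far210 t L H a c₀ c d w σ m e ω₀ ∨ Rtr257Far180 t L H c₀ c d w σ m e ω₀

/-- the constant of the trichotomy -/
noncomputable def rtr257Cg (t : ℝ) (n a : ℕ) (c₀ : ℝ) : ℝ := min (min (rwc117Kap t n) (min (c₀ / 2 ^ a) (c₀ / 8))) 1

theorem rtr257_Cg_pos {t : ℝ} (h0 : 0 < t) (n a : ℕ) {c₀ : ℝ} (hc₀ : 0 < c₀) : 0 < rtr257Cg t n a c₀ :=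
  lt_min (lt_min (rwc117_Kap_pos h0 n) (lt_min (by positivity) (by positivity))) one_pos

/-- **the link estimate at one record from the alternative** -/
theorem rtr257_LK1_alt3 {t : ℝ} {L H n a : ℕ} {c₀ : ℝ} {c d w σ m e : ℤ} {ω₀ : RswCfg} (h0 : 0 < t) (h1 : t < 1) (hL : 0 < L) (hH : 0 < H)
    (hW : σ + 2 * e + 1 < 2 * (L : ℤ)) (hc : 1 ≤ c) (hd : d ≤ 2 * (H : ℤ) - 1) (hc₀ : 0 ≤ c₀)
    (h : 0 < (rrc86L t L H).Z (rtr257Rec t L H c d w σ m e ω₀) → Rtr257Alt3 t L H n a c₀ c d w σ m e ω₀) :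
    Rtr257LK1 t L H (rtr257Cg t n a c₀) c d w σ m e ω₀ := by
  by_cases hZ : 0 < (rrc86L t L H).Z (rtr257Rec t L H c d w σ m e ω₀)
  · rcases h hZ with hn | hf | hf
    · exact rtr257_LK1_le h0.le h1.le ((min_le_left _ _).trans (min_le_left _ _)) (rtr257_LK1_near h0.le h1.le hL hW (by omega) (by omega) hn)
    · exact rtr257_LK1_le h0.le h1.le ((min_le_left _ _).trans ((min_le_right _ _).trans (min_le_left _ _)))
        (rtr257_LK1_far210 h0 h1.le hL hH hc hd hc₀ hf)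
    · exact rtr257_LK1_le h0.le h1.le ((min_le_left _ _).trans ((min_le_right _ _).trans (min_le_right _ _)))
        (rtr257_LK1_far180 h0 h1 hL hH hc hd hf)
  · exact rtr257_LK1_zero h0.le h1.le _ hZ

/-- **THE SCHEME OF THE CLOSED CONTRACTS OF A3 PART II**: `P L H c d w σ m e ω₀` under every NON-TOUCHING record with long tips (TIP) / in a narrow box (TUBE);   sizes, centres and events VERBATIM as in `Rrc86LKc` of 86 -/
def Rtr257Sch (t : ℝ) (P : ℕ → ℕ → ℤ → ℤ → ℤ → ℤ → ℤ → ℤ → RswCfg → Prop) : Prop :=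
  ∀ (L H : ℕ) (c r w : ℤ), 10 ≤ w → 12500 * w ≤ r → r ≤ 25000 * w → 16 * r ≤ 2 * L → r ≤ c → c + 2 * r ≤ 2 * (H : ℤ) - 1 →
    (∀ m e e2 : ℤ, (m = 7 * r ∨ m = 7 * r + 1) → e2 ≤ e → e + 3 * (20 * w + 8) + (5 * w + 1) + 8 ≤ 2 * e2 → e ≤ 7 * r →
      ∀ ω₀ ∈ (rrc86L t L H).cfgs, Rcy162Mix L 0 H ω₀ →
        Rrc86G1 (m - e) (m + (20 * w + 8) + e) c (c + r) (5 * w + 1) m (m + (20 * w + 8)) (m + e2) (m + (20 * w + 8) - e2)
          (rrc86I (rrc86L t L H) (sdRed (2 * L)) c (c + r) (5 * w + 1) (20 * w + 8) m e ω₀) (rrc86J (rrc86L t L H) (sdRed (2 * L)) c (c + r) (5 * w + 1) (20 * w + 8) m e ω₀) →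
        ¬ Rrc86Touch (rrc86A (rrc86L t L H) (sdRed (2 * L)) c (c + r) (5 * w + 1) (20 * w + 8) m e ω₀) (rrc86C (rrc86L t L H) (sdRed (2 * L)) c (c + r) (5 * w + 1) (20 * w + 8) m e ω₀) →
        P L H c (c + r) (5 * w + 1) (20 * w + 8) m e ω₀) ∧
    (∀ m e : ℤ, (m = 7 * r ∨ m = 7 * r + 1) → 5 * w + 1 ≤ e → e ≤ 20 * (20 * w + 8) →
      ∀ ω₀ ∈ (rrc86L t L H).cfgs, Rcy162Mix L 0 H ω₀ →
        Rrc86G0 (m - e) (m + (20 * w + 8) + e) c (c + r) (5 * w + 1) m (m + (20 * w + 8))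
          (rrc86I (rrc86L t L H) (sdRed (2 * L)) c (c + r) (5 * w + 1) (20 * w + 8) m e ω₀) (rrc86J (rrc86L t L H) (sdRed (2 * L)) c (c + r) (5 * w + 1) (20 * w + 8) m e ω₀) →
        ¬ Rrc86Touch (rrc86A (rrc86L t L H) (sdRed (2 * L)) c (c + r) (5 * w + 1) (20 * w + 8) m e ω₀) (rrc86C (rrc86L t L H) (sdRed (2 * L)) c (c + r) (5 * w + 1) (20 * w + 8) m e ω₀) →
        P L H c (c + r) (5 * w + 1) (20 * w + 8) m e ω₀)

/-- (LK) of 86 IS the scheme for the link estimate at one record -/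
theorem rtr257_LKc_of_sch {t : ℝ} {cg : ℝ} (hcg : 0 < cg) (hcg1 : cg ≤ 1) (h : Rtr257Sch t fun L H c d w σ m e ω₀ => Rtr257LK1 t L H cg c d w σ m e ω₀) :
    Rrc86LKc t := by
  refine ⟨cg, hcg, hcg1, fun L H c r w hw hr1 hr2 hL2 hc hcH => ?_⟩
  obtain ⟨m1, m2⟩ := h L H c r w hw hr1 hr2 hL2 hc hcH
  exact ⟨fun m e e2 hm a1 a2 a3 ω₀ hω₀ hK hG ht => m1 m e e2 hm a1 a2 a3 ω₀ hω₀ hK hG ht,
    fun m e hm a1 a2 ω₀ hω₀ hK hG ht => m2 m e hm a1 a2 ω₀ hω₀ hK hG ht⟩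

/-- **THE CLOSED CONTRACT (GEO + L)** = what is left of A3 PART II after 117, 180, 210, 292: under every non-touching record OF POSITIVE MASS (TIP / TUBE): a planar near chain of at most `n` edges, or the data of the
entrance of 210 (at most `a` reduced ports), or the data of the wall of 180;   in both far cases with the estimate (L), constant `c₀`, in the closed strip law.   NO order, NO patch, NO chain of comparisons is left in it -/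
def Rtr257GeoC (t : ℝ) : Prop :=
  ∃ (n a : ℕ) (c₀ : ℝ), 0 < c₀ ∧ Rtr257Sch t fun L H c d w σ m e ω₀ =>
    0 < (rrc86L t L H).Z (rtr257Rec t L H c d w σ m e ω₀) → Rtr257Alt3 t L H n a c₀ c d w σ m e ω₀

/-- **(GEO + L) ⟹ (LK)** on the mixed cylinder -/
theorem rtr257_LKc_geo {t : ℝ} (h0 : 0 < t) (h1 : t < 1) (h : Rtr257GeoC t) : Rrc86LKc t := by
  obtain ⟨n, a, c₀, hc₀, M⟩ := h
  refine rtr257_LKc_of_sch (rtr257_Cg_pos h0 n a hc₀) (min_le_right _ _) fun L H c r w hw hr1 hr2 hL2 hc hcH => ?_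
  have hL : 0 < L := by omega
  have hH : 0 < H := by omega
  obtain ⟨m1, m2⟩ := M L H c r w hw hr1 hr2 hL2 hc hcH
  refine ⟨fun m e e2 hm a1 a2 a3 ω₀ hω₀ hK hG ht => ?_, fun m e hm a1 a2 ω₀ hω₀ hK hG ht => ?_⟩
  · exact rtr257_LK1_alt3 h0 h1 hL hH (by omega) (by omega) (by omega) hc₀.le (m1 m e e2 hm a1 a2 a3 ω₀ hω₀ hK hG ht)
  · exact rtr257_LK1_alt3 h0 h1 hL hH (by omega) (by omega) (by omega) hc₀.le (m2 m e hm a1 a2 ω₀ hω₀ hK hG ht)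

/-- **(56) on the mixed cylinder from (GEO + L)** -/
theorem rtr257_rsw_geo (t : ℝ) (h0 : 0 < t) (h1 : t < 1) (h : Rtr257GeoC t) : Rrc86Rsw t := rrc86_rsw_LK t h0 h1.le (rtr257_LKc_geo h0 h1 h)

/-- the equation lemmas of the definitions of v3 are generated HERE (RULES.md, rule 6) -/
theorem rtr257_eqns_cite3 : True := by
  have := @rtr257Rec.eq_1; have := @rtr257Rec.eq_def
  have := @rtr257Obs.eq_1; have := @rtr257Obs.eq_def
  have := @Rtr257Join.eq_1; have := @Rtr257Join.eq_def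
  have := @Rtr257LK1.eq_1; have := @Rtr257LK1.eq_def
  have := @Rtr257NearG.eq_1; have := @Rtr257NearG.eq_def
  have := @Rtr257Far210.eq_1; have := @Rtr257Far210.eq_def
  have := @Rtr257Far180.eq_1; have := @Rtr257Far180.eq_def
  have := @Rtr257Alt3.eq_1; have := @Rtr257Alt3.eq_def
  have := @rtr257Cg.eq_1; have := @rtr257Cg.eq_def
  have := @Rtr257Sch.eq_1; have := @Rtr257Sch.eq_def
  have := @Rtr257GeoC.eq_1; have := @Rtr257GeoC.eq_def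
  trivial

end Claimed.Agent.R292
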