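import Claimed.Agent.R292.Rsw.RswCyl86

/-!
# Row 292 (S0540), Rsw/RswTube100 : BLOCK A3 PART II, THE EXITS OF THE TWO HALVES (TIP, TUBE) AND LEVEL 0 OF THE TUBE      (owner helper100, chief of c1_post row 6; prefix `rtu100_`, `Rtu100`)      0 sorry

NOTE (22:15Z): `Rsw/RswCyl86` §6 - §12 of 86 (`rrc86_sum`, `rrc86_glue`, `Rrc86LKc`, `Rrc86Strip`) holds the same top in the vocabulary of `Rln182Law` and goes further: CITE 86, not this file; it is kept green only.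

§1 the two exits `Rtu100Tip`, `Rtu100Tube` (= the two fields of `Rrw86Glue` under the size hypotheses of `Rrc86Glue`, VERBATIM);   **`rtu100_glue : Rtu100Tip → Rtu100Tube → Rrc86Glue`**.
§2 the ABSTRACT PARTITION on a system of 162 (what `rsg_N_of` + the sum over the records did in R291 `Ann/RswGlue` §5 - §6): for ANY record map `ρ`, if `cg * Pr[ρ = ρ ω₀] ≤ Pr[ρ = ρ ω₀, F]` for every
   configuration `ω₀` of nonzero weight in `G`, then `cg * Pr[G] ≤ Pr[F]`      (`rtu100_part`).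
§3 LEVEL 0: `Rtu100Rec` = the contract (SE-TUBE) UNDER ONE RECORD, at two centres (no seam: `rrc86_tube_of_two` of 86);   **`rtu100_tube_of_rec : Rtu100Rec → Rtu100Tube`**.
-/

set_option autoImplicit false

namespace Claimed.Agent.R292

open Claims Claims.C0467 Relation Claimed.Agent.R291

/-! ## §1 the two exits -/

/-- **EXIT OF THE HALF TUBE** (row 6) -/
def Rtu100Tube (t : ℝ) (h0 : 0 < t) (h1 : t ≤ 1) : Prop :=
  ∃ cg : ℝ, 0 < cg ∧ ∀ (L H : ℕ) (hL : 0 < L) (hH : 0 < H) (hF : Rrc86Fkg t L H) (c r w : ℤ), 10 ≤ w → 12500 * w ≤ r → r ≤ 25000 * w → 16 * r ≤ 2 * L → r ≤ c →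
    c + 2 * r ≤ 2 * (H : ℤ) - 1 → ∀ e : ℤ, e ≤ 20 * (20 * w + 8) → Rrw86Tube (rrc86Law t h0 h1 L H hL hH hF) cg c (c + r) (5 * w + 1) (20 * w + 8) e

/-- **EXIT OF THE HALF TIP** (row 5) -/
def Rtu100Tip (t : ℝ) (h0 : 0 < t) (h1 : t ≤ 1) : Prop :=
  ∃ cg : ℝ, 0 < cg ∧ ∀ (L H : ℕ) (hL : 0 < L) (hH : 0 < H) (hF : Rrc86Fkg t L H) (c r w : ℤ), 10 ≤ w → 12500 * w ≤ r → r ≤ 25000 * w → 16 * r ≤ 2 * L → r ≤ c →
    c + 2 * r ≤ 2 * (H : ℤ) - 1 → ∀ e e2 : ℤ, e2 ≤ e → e + 3 * (20 * w + 8) + (5 * w + 1) + 8 ≤ 2 * e2 → e ≤ 7 * r →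
      Rrw86Tip (rrc86Law t h0 h1 L H hL hH hF) cg c (c + r) (5 * w + 1) (20 * w + 8) e e2

theorem rtu100_eqns_cite : True := by
  have := @Rtu100Tube.eq_1
  have := @Rtu100Tip.eq_1
  trivial

/-- a smaller constant is allowed -/
theorem rtu100_tube_mono (𝔏 : Rrw86Law) {cg cg' : ℝ} (h : cg' ≤ cg) {c d w σ e : ℤ} (hT : Rrw86Tube 𝔏 cg c d w σ e) : Rrw86Tube 𝔏 cg' c d w σ e :=
  fun m => (mul_le_mul_of_nonneg_right h (𝔏.rrw86_nonneg _)).trans (hT m)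

theorem rtu100_tip_mono (𝔏 : Rrw86Law) {cg cg' : ℝ} (h : cg' ≤ cg) {c d w σ e e2 : ℤ} (hT : Rrw86Tip 𝔏 cg c d w σ e e2) : Rrw86Tip 𝔏 cg' c d w σ e e2 :=
  fun m => (mul_le_mul_of_nonneg_right h (𝔏.rrw86_nonneg _)).trans (hT m)

/-- **the contract of PART II from its two halves** -/
theorem rtu100_glue (t : ℝ) (h0 : 0 < t) (h1 : t ≤ 1) (hTip : Rtu100Tip t h0 h1) (hTube : Rtu100Tube t h0 h1) : Rrc86Glue t h0 h1 := by
  obtain ⟨c1, hc1, T1⟩ := hTip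
  obtain ⟨c2, hc2, T2⟩ := hTube
  refine ⟨min c1 c2, lt_min hc1 hc2, fun L H hL hH hF c r w a1 a2 a3 a4 a5 a6 => ⟨fun e e2 b1 b2 b3 => ?_, fun e b1 => ?_⟩⟩
  · exact rtu100_tip_mono _ (min_le_left _ _) (T1 L H hL hH hF c r w a1 a2 a3 a4 a5 a6 e e2 b1 b2 b3)
  · exact rtu100_tube_mono _ (min_le_right _ _) (T2 L H hL hH hF c r w a1 a2 a3 a4 a5 a6 e b1)

/-! ## §2 the abstract partition -/

open Classical in
/-- unnormalised form -/
theorem rtu100_part_sum (Y : Rcy162Sys) {t : ℝ} (h0 : 0 ≤ t) (h1 : t ≤ 1) (K : RswCfg → Prop) {β : Type*} (ρ : RswCfg → β) (G F : RswCfg → Prop) {cg : ℝ} (hcg : 0 ≤ cg)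
    (h : ∀ ω₀ : RswCfg, Y.Cfg ω₀ → Y.wt t K ω₀ ≠ 0 → G ω₀ →
      cg * Y.sum t K (fun ω => if ρ ω = ρ ω₀ then 1 else 0) ≤ Y.sum t K (fun ω => if ρ ω = ρ ω₀ ∧ F ω then 1 else 0)) :
    cg * Y.sum t K (fun ω => if G ω then 1 else 0) ≤ Y.sum t K (fun ω => if F ω then 1 else 0) := by
  set B : Finset β := (Y.cfgs.filter fun ω => Y.wt t K ω ≠ 0 ∧ G ω).image ρ with hB
  have hw := fun ω => rcy162_wt_nonneg Y K h0 h1 ω
  -- the fibres cover `G`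
  have s1 : Y.sum t K (fun ω => if G ω then 1 else 0) ≤ ∑ b ∈ B, Y.sum t K (fun ω => if ρ ω = b then 1 else 0) := by
    simp only [rcy162_sum_cfgs]
    rw [Finset.sum_comm]
    refine Finset.sum_le_sum fun ω hω => ?_
    rw [← Finset.mul_sum]
    by_cases hz : Y.wt t K ω = 0
    · rw [hz, zero_mul, zero_mul]
    refine mul_le_mul_of_nonneg_left ?_ (hw ω)
    by_cases hG : G ω
    · rw [if_pos hG, Finset.sum_ite_eq, if_pos (Finset.mem_image.2 ⟨ω, Finset.mem_filter.2 ⟨hω, hz, hG⟩, rfl⟩)]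
    · rw [if_neg hG]
      exact Finset.sum_nonneg fun b _ => by split_ifs <;> norm_num
  -- the fibres are disjoint
  have s2 : ∑ b ∈ B, Y.sum t K (fun ω => if ρ ω = b ∧ F ω then 1 else 0) ≤ Y.sum t K (fun ω => if F ω then 1 else 0) := by
    simp only [rcy162_sum_cfgs]
    rw [Finset.sum_comm]
    refine Finset.sum_le_sum fun ω _ => ?_
    rw [← Finset.mul_sum]
    refine mul_le_mul_of_nonneg_left ?_ (hw ω)
    by_cases hF : F ω
    · simp only [hF, and_true, if_true]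
      rw [Finset.sum_ite_eq]
      split_ifs <;> norm_num
    · simp only [hF, and_false, if_false, Finset.sum_const_zero, le_refl]
  calc cg * Y.sum t K (fun ω => if G ω then 1 else 0)
      ≤ cg * ∑ b ∈ B, Y.sum t K (fun ω => if ρ ω = b then 1 else 0) := mul_le_mul_of_nonneg_left s1 hcg
    _ = ∑ b ∈ B, cg * Y.sum t K (fun ω => if ρ ω = b then 1 else 0) := Finset.mul_sum _ _ _
    _ ≤ ∑ b ∈ B, Y.sum t K (fun ω => if ρ ω = b ∧ F ω then 1 else 0) := by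
        refine Finset.sum_le_sum fun b hb => ?_
        obtain ⟨ω₀, hω₀, rfl⟩ := Finset.mem_image.1 hb
        obtain ⟨g1, g2, g3⟩ := Finset.mem_filter.1 hω₀
        exact h ω₀ (rcy162_mem_cfgs.1 g1) g2 g3
    _ ≤ _ := s2

/-- **THE PARTITION**: the inequality on every fibre of the record map which meets `G` gives it for `G` -/
theorem rtu100_part (Y : Rcy162Sys) {t : ℝ} (h0 : 0 ≤ t) (h1 : t ≤ 1) (K : RswCfg → Prop) {β : Type*} (ρ : RswCfg → β) (G F : RswCfg → Prop) {cg : ℝ} (hcg : 0 ≤ cg)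
    (h : ∀ ω₀ : RswCfg, Y.Cfg ω₀ → Y.wt t K ω₀ ≠ 0 → G ω₀ → cg * Y.Pr t K (fun ω => ρ ω = ρ ω₀) ≤ Y.Pr t K (fun ω => ρ ω = ρ ω₀ ∧ F ω)) :
    cg * Y.Pr t K G ≤ Y.Pr t K F := by
  classical
  have hZ : 0 ≤ Y.sum t K (fun _ => 1) := by
    rw [rcy162_sum_cfgs]
    exact Finset.sum_nonneg fun ω _ => mul_nonneg (rcy162_wt_nonneg Y K h0 h1 ω) zero_le_one
  rcases hZ.eq_or_lt with hZ0 | hZ1
  · unfold Rcy162Sys.Pr Rcy162Sys.Ex
    rw [← hZ0, div_zero, div_zero, mul_zero]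
  have key := rtu100_part_sum Y h0 h1 K ρ G F hcg (fun ω₀ a1 a2 a3 => by
    have := h ω₀ a1 a2 a3
    unfold Rcy162Sys.Pr Rcy162Sys.Ex at this
    rw [← mul_div_assoc, div_le_div_iff_of_pos_right hZ1] at this
    refine this.trans (le_of_eq ?_)
    congr 1
    funext ω
    congr)
  unfold Rcy162Sys.Pr Rcy162Sys.Ex
  rw [← mul_div_assoc, div_le_div_iff_of_pos_right hZ1]
  exact key

/-! ## §3 LEVEL 0 of the TUBE: one record, two centres -/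

/-- the plus cells of the status field of the mixed cylinder -/
noncomputable def rtu100Y (L H : ℕ) (ω : RswCfg) : Set (ℤ × ℤ) := cyOn 1 (rcy162Fld L (rcy162Cyl L 0 H) ω)

/-- **(SE-TUBE) UNDER ONE RECORD**, box inside the window (no seam): there is a record map such that on every fibre which meets `E(m) ∧ E(m + σ)` the gluing costs a constant.
(R291: `rsg_se_tube` of `Ann/RswGlue` §6 = `rsg_one` summed over the records `rsgRec`.) -/
def Rtu100Rec (t : ℝ) : Prop :=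
  ∃ cg : ℝ, 0 < cg ∧ ∀ (L H : ℕ) (c r w e m : ℤ), 0 < L → 0 < H → Rrc86Fkg t L H → 10 ≤ w → 12500 * w ≤ r → r ≤ 25000 * w → 16 * r ≤ 2 * L → r ≤ c →
    c + 2 * r ≤ 2 * (H : ℤ) - 1 → e ≤ 20 * (20 * w + 8) → 8 ≤ m - e → m + (20 * w + 8) + e + 8 ≤ 2 * L →
    ∃ (β : Type) (ρ : RswCfg → β), ∀ ω₀ : RswCfg, (rcy162Cyl L 0 H).Cfg ω₀ → (rcy162Cyl L 0 H).wt t (Rcy162Mix L 0 H) ω₀ ≠ 0 →
      Rrw86E c (c + r) (5 * w + 1) m e e (rtu100Y L H ω₀) → Rrw86E c (c + r) (5 * w + 1) (m + (20 * w + 8)) e e (rtu100Y L H ω₀) →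
      cg * (rcy162Cyl L 0 H).Pr t (Rcy162Mix L 0 H) (fun ω => ρ ω = ρ ω₀)
        ≤ (rcy162Cyl L 0 H).Pr t (Rcy162Mix L 0 H) (fun ω => ρ ω = ρ ω₀ ∧ Rrw86F c (c + r) (5 * w + 1) (20 * w + 8) m (rtu100Y L H ω))

theorem rtu100_eqns_cite2 : True := by
  have := @rtu100Y.eq_1
  have := @Rtu100Rec.eq_1
  trivial

/-- the law of 86 read on the configurations -/
theorem rtu100_law_P (t : ℝ) (h0 : 0 < t) (h1 : t ≤ 1) (L H : ℕ) (hL : 0 < L) (hH : 0 < H) (hF : Rrc86Fkg t L H) (E : Set (ℤ × ℤ) → Prop) :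
    (rrc86Law t h0 h1 L H hL hH hF).P E = (rcy162Cyl L 0 H).Pr t (Rcy162Mix L 0 H) (fun ω => E (rtu100Y L H ω)) := rfl

/-- **LEVEL 0**: the exit of the half TUBE from the contract under one record -/
theorem rtu100_tube_of_rec (t : ℝ) (h0 : 0 < t) (h1 : t ≤ 1) (hR : Rtu100Rec t) : Rtu100Tube t h0 h1 := by
  obtain ⟨cg, hcg, R⟩ := hR
  refine ⟨cg, hcg, fun L H hL hH hF c r w a1 a2 a3 a4 a5 a6 e he => rrc86_tube_of_two _ cg c (c + r) _ _ e (L : ℤ) fun m hm => ?_⟩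
  obtain ⟨β, ρ, hρ⟩ := R L H c r w e m hL hH hF a1 a2 a3 a4 a5 a6 he (by omega) (by omega)
  rw [rtu100_law_P, rtu100_law_P]
  exact rtu100_part _ h0.le h1 _ ρ _ _ hcg.le fun ω₀ b1 b2 b3 => hρ ω₀ b1 b2 b3.1 b3.2

end Claimed.Agent.R292
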