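import Claimed.Agent.R292.Rsw.Base31
import Claimed.Agent.R292.Rsw.Sd231
import Claimed.Agent.R292.Rsw.Dual251
import Claimed.Agent.R292.Rsw.CoreTop121

/-!
# Row 292 (S0540), Rsw/TCirc51 : THE T-CIRCUIT IN SPIN LANGUAGE      (pen helper51; prefix `tc51` / `Tc51`)      no sorry

NEW TEXT (not in the box; replaces R291 `Ann/DTc`, whose involution `h ↦ -h` off `E1` is false on `ℤ²` when `c > 1`).

* §0 `tc51_push`          push-forward of a product weight on the subsets of a finite set under an edgewise map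
* §1 ONE-COIN SELF-DUALITY.   `tc51Dag I ω = O† := {e ∈ I | d agrees across e and (e ∈ O or s disagrees along e)}`,   `tc51Und` = the same with `s ↔ d`.
     **`tc51_to_mirror`**   `Σ_W Z(S, D, O†) = Σ_W† Z(S, D, O)`       **`tc51_from_mirror`**   `Σ_W† X(S, D, und O) = Σ_W X(S, D, O)`
     (`rswFac` and the mirror factor `rssFacD` of 231 live on ONE probability space: no extra randomness, every `t`)
* §2 the current `N' = I \ O†` of the primal lattice (`s` is constant along it): `Tc51Step`, the cluster `tc51E1 I P O†` of the pinned vertices `P`, its complement `tc51T`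
* §3 **`tc51_mirror_flip`**   in the mirror representation: flipping `s` on any set `T(D, O†)` whose edge boundary is `W†`-open preserves the measure
* §4 **`tc51_flip`**          the same in the representation of `Defs/RSW`: the map `tc51Phi`
* §5 flat laws: `tc51E F ω` = the `N'`-cluster of the polygon, `tc51PhiF`, `tc51_flat_sum / _E / _P`
* §6 **`tc51_main`**          `P[corners(B) ∩ E = ∅, good-`a` separation inside B] ≤ P[corners(B) ∩ E = ∅, good-`!a` separation inside B]`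
* §7 a separation of the wrong colour is an arm (duality of 251 + `rdu251_drag`):  **`tc51_iso_le_arms`**
     `P[corners(Box(c,2n)) ∩ E = ∅] ≤ P[Arm_a(c,n)] + Σ_{x} P[Arm_a((x, c₂ - n), r)]`
-/

set_option autoImplicit false
set_option linter.unusedVariables false

namespace Claimed.Agent.R292

open Claims Claims.C0468 Finset

/-! ## 0. Product weights under an edgewise map -/

theorem tc51_expand {ι : Type*} [DecidableEq ι] {a : ι} {I : Finset ι} (ha : a ∉ I) (r s : ι → ℝ) (Y : Finset ι → ℝ) :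
    ∑ O ∈ (insert a I).powerset, (∏ i ∈ insert a I, if i ∈ O then r i else s i) * Y O
      = ∑ O ∈ I.powerset, (∏ i ∈ I, if i ∈ O then r i else s i) * (s a * Y O + r a * Y (insert a O)) := by
  rw [Finset.sum_powerset_insert ha, ← Finset.sum_add_distrib]
  refine Finset.sum_congr rfl fun O hO => ?_
  have hO' : O ⊆ I := Finset.mem_powerset.1 hO
  have haO : a ∉ O := fun h => ha (hO' h)
  rw [Finset.prod_insert ha, Finset.prod_insert ha, if_neg haO, if_pos (mem_insert_self a O)]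
  have e : ∏ i ∈ I, (if i ∈ insert a O then r i else s i) = ∏ i ∈ I, if i ∈ O then r i else s i := by
    refine Finset.prod_congr rfl fun i hi => ?_
    have hia : i ≠ a := fun h => ha (h ▸ hi)
    simp only [Finset.mem_insert, hia, false_or]
  rw [e]
  ring

/-- classical filter (one fixed decidability instance) -/
noncomputable def tc51Fil {ι : Type*} (I : Finset ι) (P : ι → Prop) : Finset ι := @Finset.filter ι P (Classical.decPred P) I

theorem tc51_mem_fil {ι : Type*} {I : Finset ι} {P : ι → Prop} {i : ι} : i ∈ tc51Fil I P ↔ i ∈ I ∧ P i := by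
  unfold tc51Fil
  exact @Finset.mem_filter ι P (Classical.decPred P) I i

theorem tc51_fil_sub {ι : Type*} (I : Finset ι) (P : ι → Prop) : tc51Fil I P ⊆ I := fun _ h => (tc51_mem_fil.1 h).1

theorem tc51_fil_insert_pos {ι : Type*} [DecidableEq ι] {a : ι} {I : Finset ι} {P Q : ι → Prop} (ha : P a)
    (h : ∀ i ∈ I, (P i ↔ Q i)) : tc51Fil (insert a I) P = insert a (tc51Fil I Q) := by
  ext i
  rw [tc51_mem_fil, Finset.mem_insert, Finset.mem_insert, tc51_mem_fil]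
  constructor
  · rintro ⟨rfl | hi, hp⟩
    · exact Or.inl rfl
    · exact Or.inr ⟨hi, (h i hi).1 hp⟩
  · rintro (rfl | ⟨hi, hq⟩)
    · exact ⟨Or.inl rfl, ha⟩
    · exact ⟨Or.inr hi, (h i hi).2 hq⟩

theorem tc51_fil_insert_neg {ι : Type*} [DecidableEq ι] {a : ι} {I : Finset ι} {P Q : ι → Prop} (ha : ¬ P a)
    (h : ∀ i ∈ I, (P i ↔ Q i)) : tc51Fil (insert a I) P = tc51Fil I Q := by
  ext i
  rw [tc51_mem_fil, Finset.mem_insert, tc51_mem_fil]
  constructor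
  · rintro ⟨rfl | hi, hp⟩
    · exact absurd hp ha
    · exact ⟨hi, (h i hi).1 hp⟩
  · rintro ⟨hi, hq⟩
    exact ⟨Or.inr hi, (h i hi).2 hq⟩

/-- the edgewise map `O ↦ {i | (A i ∧ i ∈ O) ∨ B i}`: identity where `A ∧ ¬ B`, constant "open" where `B`, constant "closed" elsewhere -/
theorem tc51_push {ι : Type*} [DecidableEq ι] (I : Finset ι) (p q p' q' : ι → ℝ) (A B : ι → Prop)
    (hB : ∀ i ∈ I, B i → p' i = p i + q i ∧ q' i = 0)
    (hA : ∀ i ∈ I, ¬ B i → A i → p' i = p i ∧ q' i = q i)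
    (hN : ∀ i ∈ I, ¬ B i → ¬ A i → p' i = 0 ∧ q' i = p i + q i) :
    ∀ X : Finset ι → ℝ,
    ∑ O ∈ I.powerset, (∏ i ∈ I, if i ∈ O then p i else q i) * X (tc51Fil I (fun i => (A i ∧ i ∈ O) ∨ B i))
      = ∑ O ∈ I.powerset, (∏ i ∈ I, if i ∈ O then p' i else q' i) * X O := by
  induction I using Finset.induction_on with
  | empty =>
    intro X
    have : ∀ P : ι → Prop, tc51Fil (∅ : Finset ι) P = ∅ := fun P => Finset.subset_empty.1 (tc51_fil_sub _ _)
    simp [this]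
  | insert a I ha ih =>
    intro X
    have ih' := ih (fun i hi => hB i (mem_insert_of_mem hi)) (fun i hi => hA i (mem_insert_of_mem hi))
      (fun i hi => hN i (mem_insert_of_mem hi))
    rw [tc51_expand ha p q (fun O => X (tc51Fil (insert a I) (fun i => (A i ∧ i ∈ O) ∨ B i))), tc51_expand ha p' q' X]
    have c1 : ∀ O : Finset ι, ∀ i ∈ I, (((A i ∧ i ∈ O) ∨ B i) ↔ ((A i ∧ i ∈ O) ∨ B i)) := fun _ _ _ => Iff.rfl
    have c2 : ∀ O : Finset ι, ∀ i ∈ I, (((A i ∧ i ∈ insert a O) ∨ B i) ↔ ((A i ∧ i ∈ O) ∨ B i)) := by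
      intro O i hi
      have hia : i ≠ a := fun h => ha (h ▸ hi)
      simp only [Finset.mem_insert, hia, false_or]
    have ma := mem_insert_self a I
    by_cases hb : B a
    · obtain ⟨e1, e2⟩ := hB a ma hb
      rw [← ih' (fun R => q' a * X R + p' a * X (insert a R))]
      refine Finset.sum_congr rfl fun O hO => ?_
      rw [tc51_fil_insert_pos (P := fun i => (A i ∧ i ∈ O) ∨ B i) (Or.inr hb) (c1 O),
        tc51_fil_insert_pos (P := fun i => (A i ∧ i ∈ insert a O) ∨ B i) (Or.inr hb) (c2 O), e1, e2]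
      ring
    · by_cases haA : A a
      · obtain ⟨e1, e2⟩ := hA a ma hb haA
        rw [← ih' (fun R => q' a * X R + p' a * X (insert a R))]
        refine Finset.sum_congr rfl fun O hO => ?_
        have haO : a ∉ O := fun h => ha (Finset.mem_powerset.1 hO h)
        rw [tc51_fil_insert_neg (P := fun i => (A i ∧ i ∈ O) ∨ B i)
            (by rintro (⟨_, h⟩ | h); exacts [haO h, hb h]) (c1 O),
          tc51_fil_insert_pos (P := fun i => (A i ∧ i ∈ insert a O) ∨ B i) (Or.inl ⟨haA, mem_insert_self a O⟩) (c2 O), e1, e2]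
      · obtain ⟨e1, e2⟩ := hN a ma hb haA
        rw [← ih' (fun R => q' a * X R + p' a * X (insert a R))]
        refine Finset.sum_congr rfl fun O hO => ?_
        rw [tc51_fil_insert_neg (P := fun i => (A i ∧ i ∈ O) ∨ B i)
            (by rintro (⟨h, _⟩ | h); exacts [haA h, hb h]) (c1 O),
          tc51_fil_insert_neg (P := fun i => (A i ∧ i ∈ insert a O) ∨ B i)
            (by rintro (⟨h, _⟩ | h); exacts [haA h, hb h]) (c2 O), e1, e2]
        ring

/-! ## 1. One-coin self-duality -/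

/-- the mirror edge set `O†`: the dual edge of `e` is an open `W†` edge -/
noncomputable def tc51Dag (I : Finset RssE) (ω : RswCfg) : Finset RssE :=
  tc51Fil I (fun e => (RssDa ω.D e ∧ e ∈ ω.O) ∨ (RssDa ω.D e ∧ ¬ RssSa ω.S e))

/-- the inverse map: from the mirror edge set back to `O` -/
noncomputable def tc51Und (I : Finset RssE) (ω : RswCfg) : Finset RssE :=
  tc51Fil I (fun e => (RssSa ω.S e ∧ e ∈ ω.O) ∨ (RssSa ω.S e ∧ ¬ RssDa ω.D e))

theorem tc51_dag_sub (I : Finset RssE) (ω : RswCfg) : tc51Dag I ω ⊆ I := tc51_fil_sub _ _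

theorem tc51_und_sub (I : Finset RssE) (ω : RswCfg) : tc51Und I ω ⊆ I := tc51_fil_sub _ _

theorem tc51_mem_dag {I : Finset RssE} {ω : RswCfg} {e : RssE} :
    e ∈ tc51Dag I ω ↔ e ∈ I ∧ RssDa ω.D e ∧ (e ∈ ω.O ∨ ¬ RssSa ω.S e) := by
  unfold tc51Dag
  rw [tc51_mem_fil]
  tauto

theorem tc51_mem_und {I : Finset RssE} {ω : RswCfg} {e : RssE} :
    e ∈ tc51Und I ω ↔ e ∈ I ∧ RssSa ω.S e ∧ (e ∈ ω.O ∨ ¬ RssDa ω.D e) := by
  unfold tc51Und
  rw [tc51_mem_fil]
  tauto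

/-- **the law of `(S, D, O†)` under the weights of `Defs/RSW` is the mirror law** -/
theorem tc51_to_mirror (t : ℝ) (I : Finset RssE) (VS VD : Finset (ℤ × ℤ))
    (g : Finset (ℤ × ℤ) → Finset (ℤ × ℤ) → ℝ) (Z : RswCfg → ℝ) :
    rssSum (rswFac t) I VS VD g (fun ω => Z ⟨ω.S, ω.D, tc51Dag I ω⟩) = rssSum (rssFacD t) I VS VD g Z := by
  unfold rssSum
  refine Finset.sum_congr rfl fun S _ => Finset.sum_congr rfl fun D _ => ?_
  rw [← Finset.mul_sum, ← Finset.mul_sum]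
  congr 1
  simp only [rss_fac_eq, rss_facD_eq, tc51Dag]
  refine tc51_push I (rssWo t S) (rssWc t S D) (rssDo t D) (rssDc t S D) (fun e => RssDa D e)
    (fun e => RssDa D e ∧ ¬ RssSa S e) ?_ ?_ ?_ (fun O => Z ⟨S, D, O⟩)
  · rintro e _ ⟨h1, h2⟩
    unfold rssWo rssWc rssDo rssDc
    simp [h1, h2]
  · intro e _ h1 h2
    have h3 : RssSa S e := by by_contra h; exact h1 ⟨h2, h⟩
    unfold rssWo rssWc rssDo rssDc
    simp [h2, h3]
  · intro e _ _ h2
    unfold rssWo rssWc rssDo rssDc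
    simp [h2]

/-- **the law of `(S, D, und O)` under the mirror weights is the law of `Defs/RSW`** -/
theorem tc51_from_mirror (t : ℝ) (I : Finset RssE) (VS VD : Finset (ℤ × ℤ))
    (g : Finset (ℤ × ℤ) → Finset (ℤ × ℤ) → ℝ) (X : RswCfg → ℝ) :
    rssSum (rssFacD t) I VS VD g (fun ω => X ⟨ω.S, ω.D, tc51Und I ω⟩) = rssSum (rswFac t) I VS VD g X := by
  unfold rssSum
  refine Finset.sum_congr rfl fun S _ => Finset.sum_congr rfl fun D _ => ?_
  rw [← Finset.mul_sum, ← Finset.mul_sum]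
  congr 1
  simp only [rss_fac_eq, rss_facD_eq, tc51Und]
  refine tc51_push I (rssDo t D) (rssDc t S D) (rssWo t S) (rssWc t S D) (fun e => RssSa S e)
    (fun e => RssSa S e ∧ ¬ RssDa D e) ?_ ?_ ?_ (fun O => X ⟨S, D, O⟩)
  · rintro e _ ⟨h1, h2⟩
    unfold rssWo rssWc rssDo rssDc
    simp [h1, h2]
  · intro e _ h1 h2
    have h3 : RssDa D e := by by_contra h; exact h1 ⟨h2, h⟩
    unfold rssWo rssWc rssDo rssDc
    simp [h2, h3]
  · intro e _ _ h2
    unfold rssWo rssWc rssDo rssDc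
    simp [h2]

/-! ## 2. The primal current `N'` and the cluster of the pinned vertices -/

/-- one step along an edge of `I` whose dual edge is `W†`-closed -/
def Tc51Step (I O' : Finset RssE) (u v : ℤ × ℤ) : Prop :=
  ∃ e ∈ I, e ∉ O' ∧ ((u = e.1 ∧ v = rswEnd e) ∨ (v = e.1 ∧ u = rswEnd e))

/-- the cluster of the vertices `P` -/
def tc51E1 (I : Finset RssE) (P : Set (ℤ × ℤ)) (O' : Finset RssE) : Set (ℤ × ℤ) :=
  {v | ∃ u ∈ P, Relation.ReflTransGen (Tc51Step I O') u v}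

/-- the vertices of `VS` off the cluster -/
noncomputable def tc51T (I : Finset RssE) (VS : Finset (ℤ × ℤ)) (P : Set (ℤ × ℤ)) (O' : Finset RssE) : Finset (ℤ × ℤ) :=
  tc51Fil VS (fun v => v ∉ tc51E1 I P O')

theorem tc51_step_symm {I O' : Finset RssE} {u v : ℤ × ℤ} (h : Tc51Step I O' u v) : Tc51Step I O' v u := by
  obtain ⟨e, h1, h2, h3⟩ := h
  exact ⟨e, h1, h2, h3.symm⟩

theorem tc51_E1_base {I : Finset RssE} {P : Set (ℤ × ℤ)} {O' : Finset RssE} {u : ℤ × ℤ} (hu : u ∈ P) : u ∈ tc51E1 I P O' :=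
  ⟨u, hu, Relation.ReflTransGen.refl⟩

theorem tc51_E1_step {I : Finset RssE} {P : Set (ℤ × ℤ)} {O' : Finset RssE} {u v : ℤ × ℤ} (hu : u ∈ tc51E1 I P O')
    (h : Tc51Step I O' u v) : v ∈ tc51E1 I P O' := by
  obtain ⟨w, hw, hwu⟩ := hu
  exact ⟨w, hw, hwu.tail h⟩

theorem tc51_E1_edge {I : Finset RssE} {P : Set (ℤ × ℤ)} {O' : Finset RssE} {e : RssE} (he : e ∈ I) (heO : e ∉ O') :
    e.1 ∈ tc51E1 I P O' ↔ rswEnd e ∈ tc51E1 I P O' :=
  ⟨fun h => tc51_E1_step h ⟨e, he, heO, Or.inl ⟨rfl, rfl⟩⟩, fun h => tc51_E1_step h ⟨e, he, heO, Or.inr ⟨rfl, rfl⟩⟩⟩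

theorem tc51_mem_T {I : Finset RssE} {VS : Finset (ℤ × ℤ)} {P : Set (ℤ × ℤ)} {O' : Finset RssE} {v : ℤ × ℤ} :
    v ∈ tc51T I VS P O' ↔ v ∈ VS ∧ v ∉ tc51E1 I P O' := tc51_mem_fil

/-- the edge boundary of `T` is `W†`-open -/
theorem tc51_T_bd {I : Finset RssE} {VS : Finset (ℤ × ℤ)} (hI : ∀ e ∈ I, e.1 ∈ VS ∧ rswEnd e ∈ VS) (P : Set (ℤ × ℤ))
    {O' : Finset RssE} {e : RssE} (he : e ∈ I) (heO : e ∉ O') : e.1 ∈ tc51T I VS P O' ↔ rswEnd e ∈ tc51T I VS P O' := by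
  rw [tc51_mem_T, tc51_mem_T, tc51_E1_edge (P := P) he heO]
  have := hI e he
  tauto

/-! ## 3. The flip in the mirror representation -/

theorem tc51_sum_symmDiff {α : Type*} [DecidableEq α] (V T : Finset α) (hT : T ⊆ V) (f : Finset α → ℝ) :
    ∑ S ∈ V.powerset, f (symmDiff S T) = ∑ S ∈ V.powerset, f S := by
  have hm : ∀ S ∈ V.powerset, symmDiff S T ∈ V.powerset := by
    intro S hS
    rw [Finset.mem_powerset] at *
    intro x hx
    rw [Finset.mem_symmDiff] at hx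
    rcases hx with ⟨h, _⟩ | ⟨h, _⟩
    exacts [hS h, hT h]
  refine Finset.sum_nbij' (fun S => symmDiff S T) (fun S => symmDiff S T) hm hm ?_ ?_ ?_
  · intro S _; exact symmDiff_symmDiff_cancel_right T S
  · intro S _; exact symmDiff_symmDiff_cancel_right T S
  · intro S _; rfl

theorem tc51_Sa_flip {S T : Finset (ℤ × ℤ)} {e : RssE} (h : e.1 ∈ T ↔ rswEnd e ∈ T) :
    RssSa (symmDiff S T) e ↔ RssSa S e := by
  unfold RssSa
  rw [Finset.mem_symmDiff, Finset.mem_symmDiff]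
  tauto

/-- **flipping `s` on a set `T(D, O†)` whose edge boundary is `W†`-open preserves the mirror measure** -/
theorem tc51_mirror_flip (t : ℝ) (I : Finset RssE) (VS VD : Finset (ℤ × ℤ))
    (g : Finset (ℤ × ℤ) → Finset (ℤ × ℤ) → ℝ) (T : Finset (ℤ × ℤ) → Finset RssE → Finset (ℤ × ℤ))
    (hT : ∀ D O, T D O ⊆ VS)
    (hbd : ∀ D O, O ⊆ I → ∀ e ∈ I, e ∉ O → (e.1 ∈ T D O ↔ rswEnd e ∈ T D O))
    (hg : ∀ S D O, S ⊆ VS → O ⊆ I → g (symmDiff S (T D O)) D = g S D) (Z : RswCfg → ℝ) :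
    rssSum (rssFacD t) I VS VD g (fun ω => Z ⟨symmDiff ω.S (T ω.D ω.O), ω.D, ω.O⟩) = rssSum (rssFacD t) I VS VD g Z := by
  unfold rssSum
  have sw : ∀ f : Finset (ℤ × ℤ) → Finset (ℤ × ℤ) → Finset RssE → ℝ,
      ∑ S ∈ VS.powerset, ∑ D ∈ VD.powerset, ∑ O ∈ I.powerset, f S D O
        = ∑ D ∈ VD.powerset, ∑ O ∈ I.powerset, ∑ S ∈ VS.powerset, f S D O := by
    intro f
    rw [Finset.sum_comm]
    refine Finset.sum_congr rfl fun D _ => ?_
    rw [Finset.sum_comm]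
  rw [sw, sw]
  refine Finset.sum_congr rfl fun D _ => Finset.sum_congr rfl fun O hO => ?_
  have hO' := Finset.mem_powerset.1 hO
  rw [← tc51_sum_symmDiff VS (T D O) (hT D O) (fun S => g S D * ((∏ e ∈ I, rssFacD t ⟨S, D, O⟩ e) * Z ⟨S, D, O⟩))]
  refine Finset.sum_congr rfl fun S hS => ?_
  show g S D * ((∏ e ∈ I, rssFacD t ⟨S, D, O⟩ e) * Z ⟨symmDiff S (T D O), D, O⟩)
    = g (symmDiff S (T D O)) D * ((∏ e ∈ I, rssFacD t ⟨symmDiff S (T D O), D, O⟩ e) * Z ⟨symmDiff S (T D O), D, O⟩)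
  rw [hg S D O (Finset.mem_powerset.1 hS) hO']
  congr 2
  refine Finset.prod_congr rfl fun e he => ?_
  rw [rss_facD_eq, rss_facD_eq]
  by_cases heO : e ∈ O
  · rw [if_pos heO, if_pos heO]
  · rw [if_neg heO, if_neg heO]
    unfold rssDc
    have := tc51_Sa_flip (S := S) (hbd D O hO' e he heO)
    by_cases h : RssSa S e
    · rw [if_pos h, if_pos (this.2 h)]
    · rw [if_neg h, if_neg (fun h' => h (this.1 h'))]

/-! ## 4. The flip in the representation of `Defs/RSW` -/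

/-- the T-circuit map: flip `s` on `T(D, O†)`, keep `D` and `O†` -/
noncomputable def tc51Phi (I : Finset RssE) (T : Finset (ℤ × ℤ) → Finset RssE → Finset (ℤ × ℤ)) (ω : RswCfg) : RswCfg :=
  ⟨symmDiff ω.S (T ω.D (tc51Dag I ω)), ω.D,
    tc51Und I ⟨symmDiff ω.S (T ω.D (tc51Dag I ω)), ω.D, tc51Dag I ω⟩⟩

/-- **the T-circuit map preserves the measure** -/
theorem tc51_flip (t : ℝ) (I : Finset RssE) (VS VD : Finset (ℤ × ℤ))
    (g : Finset (ℤ × ℤ) → Finset (ℤ × ℤ) → ℝ) (T : Finset (ℤ × ℤ) → Finset RssE → Finset (ℤ × ℤ))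
    (hT : ∀ D O, T D O ⊆ VS)
    (hbd : ∀ D O, O ⊆ I → ∀ e ∈ I, e ∉ O → (e.1 ∈ T D O ↔ rswEnd e ∈ T D O))
    (hg : ∀ S D O, S ⊆ VS → O ⊆ I → g (symmDiff S (T D O)) D = g S D) (X : RswCfg → ℝ) :
    rssSum (rswFac t) I VS VD g (fun ω => X (tc51Phi I T ω)) = rssSum (rswFac t) I VS VD g X := by
  have h1 := tc51_to_mirror t I VS VD g
    (fun ω => X ⟨symmDiff ω.S (T ω.D ω.O), ω.D, tc51Und I ⟨symmDiff ω.S (T ω.D ω.O), ω.D, ω.O⟩⟩)
  have h2 := tc51_mirror_flip t I VS VD g T hT hbd hg (fun ω => X ⟨ω.S, ω.D, tc51Und I ω⟩)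
  have h3 := tc51_from_mirror t I VS VD g X
  exact (h1.trans h2).trans h3

/-- the mirror edge set is not changed by the T-circuit map -/
theorem tc51_dag_phi {I : Finset RssE} {T : Finset (ℤ × ℤ) → Finset RssE → Finset (ℤ × ℤ)}
    (hbd : ∀ D O, O ⊆ I → ∀ e ∈ I, e ∉ O → (e.1 ∈ T D O ↔ rswEnd e ∈ T D O)) (ω : RswCfg) :
    tc51Dag I (tc51Phi I T ω) = tc51Dag I ω := by
  ext e
  constructor
  · intro h
    obtain ⟨heI, hDa, h3⟩ := tc51_mem_dag.1 h
    by_contra hn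
    have hb := hbd ω.D (tc51Dag I ω) (tc51_dag_sub I ω) e heI hn
    have hSa := tc51_Sa_flip (S := ω.S) hb
    rcases h3 with h3 | h3
    · obtain ⟨_, _, h4⟩ := tc51_mem_und.1 h3
      rcases h4 with h4 | h4
      · exact hn h4
      · exact h4 hDa
    · exact hn (tc51_mem_dag.2 ⟨heI, hDa, Or.inr fun h => h3 (hSa.2 h)⟩)
  · intro h
    obtain ⟨heI, hDa, _⟩ := tc51_mem_dag.1 h
    refine tc51_mem_dag.2 ⟨heI, hDa, ?_⟩
    by_cases hs : RssSa (tc51Phi I T ω).S e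
    · exact Or.inl (tc51_mem_und.2 ⟨heI, hs, Or.inl h⟩)
    · exact Or.inr hs

/-! ## 5. Flat laws -/

/-- the vertices of the polygon -/
def tc51Pol (F : Finset (ℤ × ℤ)) : Set (ℤ × ℤ) := {v | v ∈ cornersOf F ∧ OnPolygon F v}

/-- the `N'`-cluster of the polygon -/
def tc51E (F : Finset (ℤ × ℤ)) (ω : RswCfg) : Set (ℤ × ℤ) := tc51E1 (rswInt F) (tc51Pol F) (tc51Dag (rswInt F) ω)

/-- the flipped set of the flat problem -/
noncomputable def tc51TF (F : Finset (ℤ × ℤ)) : Finset (ℤ × ℤ) → Finset RssE → Finset (ℤ × ℤ) :=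
  fun _ O => tc51T (rswInt F) (cornersOf F) (tc51Pol F) O

/-- the T-circuit map of the flat problem -/
noncomputable def tc51PhiF (F : Finset (ℤ × ℤ)) (ω : RswCfg) : RswCfg := tc51Phi (rswInt F) (tc51TF F) ω

theorem tc51_TF_bd (F : Finset (ℤ × ℤ)) :
    ∀ (D : Finset (ℤ × ℤ)) (O : Finset RssE), O ⊆ rswInt F → ∀ e ∈ rswInt F, e ∉ O → (e.1 ∈ tc51TF F D O ↔ rswEnd e ∈ tc51TF F D O) :=
  fun _ _ _ _ he heO => tc51_T_bd (fun e he => ⟨rsb_int_fst_corner he, rsb_int_end_corner he⟩) _ he heO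

theorem tc51_flat_sum (t : ℝ) (F : Finset (ℤ × ℤ)) (b : Bool) (X : RswCfg → ℝ) :
    rswSum t F b (fun ω => X (tc51PhiF F ω)) = rswSum t F b X := by
  classical
  rw [rss_flat, rss_flat]
  refine tc51_flip t (rswInt F) (cornersOf F) F _ (tc51TF F) (fun _ O => tc51_fil_sub _ _) (tc51_TF_bd F) ?_ X
  intro S D O _ _
  refine if_congr ?_ rfl rfl
  unfold RswBc
  refine forall_congr' fun v => forall_congr' fun hv => forall_congr' fun hp => ?_
  have hvT : v ∉ tc51TF F D O := fun h => (tc51_mem_T.1 h).2 (tc51_E1_base ⟨hv, hp⟩)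
  show (v ∈ symmDiff S (tc51TF F D O) ↔ b = true) ↔ (v ∈ S ↔ b = true)
  rw [Finset.mem_symmDiff]
  tauto

theorem tc51_flat_E (t : ℝ) (F : Finset (ℤ × ℤ)) (b : Bool) (X : RswCfg → ℝ) :
    rswE t F b (fun ω => X (tc51PhiF F ω)) = rswE t F b X := by
  unfold rswE
  rw [tc51_flat_sum]

theorem tc51_flat_P (t : ℝ) (F : Finset (ℤ × ℤ)) (b : Bool) (L : RswCfg → Prop) :
    rswP t F b (fun ω => L (tc51PhiF F ω)) = rswP t F b L := by
  classical
  unfold rswP
  exact tc51_flat_E t F b (fun ω => if L ω then 1 else 0)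

theorem tc51_E_phi (F : Finset (ℤ × ℤ)) (ω : RswCfg) : tc51E F (tc51PhiF F ω) = tc51E F ω := by
  unfold tc51E tc51PhiF
  rw [tc51_dag_phi (tc51_TF_bd F)]

/-! ## 6. Off the cluster the separations change colour -/

theorem tc51_phi_mem {F : Finset (ℤ × ℤ)} {ω : RswCfg} {v : ℤ × ℤ} (hv : v ∈ cornersOf F) (hE : v ∉ tc51E F ω) :
    v ∈ (tc51PhiF F ω).S ↔ v ∉ ω.S := by
  have hT : v ∈ tc51TF F ω.D (tc51Dag (rswInt F) ω) := tc51_mem_T.2 ⟨hv, hE⟩
  show v ∈ symmDiff ω.S (tc51TF F ω.D (tc51Dag (rswInt F) ω)) ↔ _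
  rw [Finset.mem_symmDiff]
  tauto

theorem tc51_phi_mem_E {F : Finset (ℤ × ℤ)} {ω : RswCfg} {v : ℤ × ℤ} (hE : v ∈ tc51E F ω) :
    v ∈ (tc51PhiF F ω).S ↔ v ∈ ω.S := by
  have hT : v ∉ tc51TF F ω.D (tc51Dag (rswInt F) ω) := fun h => (tc51_mem_T.1 h).2 hE
  show v ∈ symmDiff ω.S (tc51TF F ω.D (tc51Dag (rswInt F) ω)) ↔ _
  rw [Finset.mem_symmDiff]
  tauto

theorem tc51_phi_D (F : Finset (ℤ × ℤ)) (ω : RswCfg) : (tc51PhiF F ω).D = ω.D := rfl

/-- a good edge of the image, off the cluster, was a good edge of the other colour -/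
theorem tc51_good_of_phi {t : ℝ} {F : Finset (ℤ × ℤ)} {b : Bool} {ω : RswCfg} (hw : rswWt t F b ω ≠ 0) {e : RssE}
    (he : e ∈ rswInt F) (h1 : e.1 ∉ tc51E F ω) (h2 : rswEnd e ∉ tc51E F ω) {a : Bool}
    (hg : RswGood a (tc51PhiF F ω) e) : RswGood (!a) ω e := by
  obtain ⟨g1, g2, g3⟩ := hg
  rw [tc51_phi_mem (rsb_int_fst_corner he) h1] at g2
  rw [tc51_phi_mem (rsb_int_end_corner he) h2] at g3
  have c1 : e.1 ∈ ω.S ↔ (!a) = true := by
    cases a
    · simpa using g2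
    · simpa using g2
  have c2 : rswEnd e ∈ ω.S ↔ (!a) = true := by
    cases a
    · simpa using g3
    · simpa using g3
  refine ⟨?_, c1, c2⟩
  have hSa : RssSa ω.S e := c1.trans c2.symm
  obtain ⟨_, _, h4⟩ := tc51_mem_und.1 g1
  rcases h4 with h4 | h4
  · obtain ⟨_, _, h5⟩ := tc51_mem_dag.1 h4
    rcases h5 with h5 | h5
    · exact h5
    · exact absurd hSa h5
  · by_contra hO
    exact h4 (((rsb_wt_ne_zero hw).2 e he).2.2 hO)

/-- the endpoints of an edge are corners of its two faces -/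
theorem tc51_edge_corner {B : Finset (ℤ × ℤ)} {e : RssE} {f : ℤ × ℤ} (hf : f ∈ B) (h : f = e.1 ∨ f = rswCo e) :
    e.1 ∈ cornersOf B ∧ rswEnd e ∈ cornersOf B := by
  obtain ⟨⟨x, y⟩, o⟩ := e
  unfold cornersOf
  simp only [Finset.mem_biUnion]
  constructor <;> refine ⟨f, hf, ?_⟩ <;> rcases h with rfl | rfl <;> cases o <;> simp [rswEnd, rswCo]

/-- **a separation inside `B` changes colour when `B` is off the cluster** -/
theorem tc51_sep_of_phi {t : ℝ} {F : Finset (ℤ × ℤ)} {b : Bool} {ω : RswCfg} (hw : rswWt t F b ω ≠ 0)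
    {A B : Finset (ℤ × ℤ)} (hA : A ⊆ B) (hE : ∀ v ∈ cornersOf B, v ∉ tc51E F ω) {a : Bool}
    (hs : RswSep F a (tc51PhiF F ω) A (F \ B)) : RswSep F (!a) ω A (F \ B) := by
  intro f hf g hg hfg
  have key : ∀ x, Relation.ReflTransGen (RswStep F (!a) ω) x g → x ∈ B →
      ∃ g' ∈ F \ B, Relation.ReflTransGen (RswStep F a (tc51PhiF F ω)) x g' := by
    intro x hx
    induction hx using Relation.ReflTransGen.head_induction_on with
    | refl => intro hgB; exact absurd hgB (Finset.mem_sdiff.1 hg).2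
    | @head x y hxy _ ih =>
      intro hxB
      obtain ⟨hxF, hyF, e, hxe, hne⟩ := hxy
      have heI : e ∈ rswInt F := by
        rcases hxe with ⟨r1, r2⟩ | ⟨r1, r2⟩
        · exact rsb_mem_int.2 ⟨r1 ▸ hxF, r2 ▸ hyF⟩
        · exact rsb_mem_int.2 ⟨r1 ▸ hyF, r2 ▸ hxF⟩
      have hc := tc51_edge_corner (e := e) hxB (by rcases hxe with ⟨r1, _⟩ | ⟨_, r2⟩; exacts [Or.inl r1, Or.inr r2])
      have hst : RswStep F a (tc51PhiF F ω) x y :=
        ⟨hxF, hyF, e, hxe, fun hgd => hne (tc51_good_of_phi hw heI (hE _ hc.1) (hE _ hc.2) hgd)⟩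
      by_cases hyB : y ∈ B
      · obtain ⟨g', hg', hp⟩ := ih hyB
        exact ⟨g', hg', hp.head hst⟩
      · exact ⟨y, Finset.mem_sdiff.2 ⟨hyF, hyB⟩, Relation.ReflTransGen.single hst⟩
  obtain ⟨g', hg', hp⟩ := key f hfg (hA hf)
  exact hs f hf g' hg' hp

/-- **THE T-CIRCUIT INEQUALITY** -/
theorem tc51_main {t : ℝ} (h0 : 0 < t) (h1 : t ≤ 1) (F : Finset (ℤ × ℤ)) (b a : Bool) {A B : Finset (ℤ × ℤ)} (hA : A ⊆ B) :
    rswP t F b (fun ω => (∀ v ∈ cornersOf B, v ∉ tc51E F ω) ∧ RswSep F a ω A (F \ B))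
      ≤ rswP t F b (fun ω => (∀ v ∈ cornersOf B, v ∉ tc51E F ω) ∧ RswSep F (!a) ω A (F \ B)) := by
  rw [← tc51_flat_P t F b (fun ω => (∀ v ∈ cornersOf B, v ∉ tc51E F ω) ∧ RswSep F a ω A (F \ B))]
  refine rsb_P_mono h0 h1 fun ω _ hw h => ?_
  rw [tc51_E_phi] at h
  exact ⟨h.1, tc51_sep_of_phi hw hA h.1 h.2⟩

/-- the two colours have the same probability off the cluster -/
theorem tc51_main_eq {t : ℝ} (h0 : 0 < t) (h1 : t ≤ 1) (F : Finset (ℤ × ℤ)) (b a : Bool) {A B : Finset (ℤ × ℤ)} (hA : A ⊆ B) :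
    rswP t F b (fun ω => (∀ v ∈ cornersOf B, v ∉ tc51E F ω) ∧ RswSep F a ω A (F \ B))
      = rswP t F b (fun ω => (∀ v ∈ cornersOf B, v ∉ tc51E F ω) ∧ RswSep F (!a) ω A (F \ B)) := by
  refine le_antisymm (tc51_main h0 h1 F b a hA) ?_
  have := tc51_main h0 h1 F b (!a) hA
  rwa [Bool.not_not] at this

/-- `B` is off the cluster: either no separation of colour `a`, or a separation of colour `!a` -/
theorem tc51_iso_le {t : ℝ} (h0 : 0 < t) (h1 : t ≤ 1) (F : Finset (ℤ × ℤ)) (b a : Bool) {A B : Finset (ℤ × ℤ)} (hA : A ⊆ B) :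
    rswP t F b (fun ω => ∀ v ∈ cornersOf B, v ∉ tc51E F ω)
      ≤ rswP t F b (fun ω => ¬ RswSep F a ω A (F \ B)) + rswP t F b (fun ω => RswSep F (!a) ω A (F \ B)) := by
  have s1 : rswP t F b (fun ω => ∀ v ∈ cornersOf B, v ∉ tc51E F ω)
      ≤ rswP t F b (fun ω => ¬ RswSep F a ω A (F \ B) ∨ ((∀ v ∈ cornersOf B, v ∉ tc51E F ω) ∧ RswSep F a ω A (F \ B))) :=
    rsb_P_mono h0 h1 fun ω _ _ h => by
      by_cases hs : RswSep F a ω A (F \ B)
      · exact Or.inr ⟨h, hs⟩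
      · exact Or.inl hs
  have s2 := rsb_P_union h0 h1 F b (fun ω => ¬ RswSep F a ω A (F \ B))
    (fun ω => (∀ v ∈ cornersOf B, v ∉ tc51E F ω) ∧ RswSep F a ω A (F \ B))
  have s3 := tc51_main h0 h1 F b a hA
  have s4 : rswP t F b (fun ω => (∀ v ∈ cornersOf B, v ∉ tc51E F ω) ∧ RswSep F (!a) ω A (F \ B))
      ≤ rswP t F b (fun ω => RswSep F (!a) ω A (F \ B)) := rsb_P_mono h0 h1 fun ω _ _ h => h.2
  linarith

/-! ## 7. A separation of the wrong colour is an arm -/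

theorem tc51_mem_box {z p : ℤ × ℤ} {n : ℕ} :
    p ∈ rswBox z n ↔ (z.1 - n ≤ p.1 ∧ p.1 < z.1 + n) ∧ (z.2 - n ≤ p.2 ∧ p.2 < z.2 + n) := by
  simp only [rswBox, Finset.mem_product, Finset.mem_Ico]

/-- a bottom-top chain of good edges of colour `!a` drags a bottom-top chain of faces which crosses no good edge of colour `a` -/
theorem tc51_dualBT_of_primBT {x0 x1 y0 y1 : ℤ} (hy : y0 < y1) {a : Bool} {ω : RswCfg}
    (h : Rdu251PrimBT x0 x1 y0 y1 (rdu251Good (!a) ω)) : Rdu251DualBT x0 x1 y0 y1 (rdu251Good a ω) := by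
  obtain ⟨u, v, hu, hv, huv⟩ := h
  have hne : u ≠ v := fun h => by rw [h] at hu; omega
  -- an endpoint of a step has colour `!a`
  have col : ∀ {p q : ℤ × ℤ}, rdu251PStep (rdu251Rect x0 x1 y0 y1) (rdu251Good (!a) ω) p q →
      (p ∈ ω.S ↔ (!a) = true) ∧ (q ∈ ω.S ↔ (!a) = true) := by
    rintro p q ⟨e, ⟨_, g2, g3⟩, _, _, h4⟩
    rcases h4 with ⟨r1, r2⟩ | ⟨r1, r2⟩
    · rw [r1, r2]; exact ⟨g2, g3⟩
    · rw [r1, r2]; exact ⟨g3, g2⟩
  -- a face of the rectangle round each endpoint of a step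
  have fac : ∀ {p q : ℤ × ℤ}, rdu251PStep (rdu251Rect x0 x1 y0 y1) (rdu251Good (!a) ω) p q →
      ∃ f ∈ rdu251Rect x0 x1 y0 y1, f ∈ rdu251Around p ∧ f ∈ rdu251Around q := by
    rintro p q ⟨e, _, h2, _, h4⟩
    have ha := rdu251_face_around e
    rcases h4 with ⟨r1, r2⟩ | ⟨r1, r2⟩
    · rw [r1, r2]; exact ⟨e.1, h2, ha.1, ha.2⟩
    · rw [r1, r2]; exact ⟨e.1, h2, ha.2, ha.1⟩
  obtain ⟨c, huc, _⟩ : ∃ c, rdu251PStep (rdu251Rect x0 x1 y0 y1) (rdu251Good (!a) ω) u c ∧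
      Relation.ReflTransGen (rdu251PStep (rdu251Rect x0 x1 y0 y1) (rdu251Good (!a) ω)) c v := by
    rcases Relation.ReflTransGen.cases_head huv with h | h
    · exact absurd h hne
    · exact h
  obtain ⟨c', _, hcv⟩ : ∃ c', Relation.ReflTransGen (rdu251PStep (rdu251Rect x0 x1 y0 y1) (rdu251Good (!a) ω)) u c' ∧
      rdu251PStep (rdu251Rect x0 x1 y0 y1) (rdu251Good (!a) ω) c' v := by
    rcases Relation.ReflTransGen.cases_tail huv with h | h
    · exact absurd h.symm hne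
    · exact h
  have hcol : ∀ z, Relation.ReflTransGen (rdu251PStep (rdu251Rect x0 x1 y0 y1) (rdu251Good (!a) ω)) u z →
      (z ∈ ω.S ↔ (!a) = true) := by
    intro z hz
    rcases Relation.ReflTransGen.cases_tail hz with h | ⟨w, _, hw⟩
    · rw [h]; exact (col huc).1
    · exact (col hw).2
  have hfree : ∀ z, Relation.ReflTransGen (rdu251PStep (rdu251Rect x0 x1 y0 y1) (rdu251Good (!a) ω)) u z →
      ∀ e : (ℤ × ℤ) × Bool, (e.1 = z ∨ rswEnd e = z) → e ∉ rdu251Good a ω := by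
    rintro z hz e he ⟨_, g2, g3⟩
    have hz' := hcol z hz
    rcases he with rfl | rfl
    · have := hz'.symm.trans g2
      cases a <;> simp at this
    · have := hz'.symm.trans g3
      cases a <;> simp at this
  obtain ⟨f, hfR, hfu, _⟩ := fac huc
  obtain ⟨g, hgR, _, hgv⟩ := fac hcv
  refine ⟨f, g, hfR, ?_, hgR, ?_, rdu251_drag huv hfree hfu hfR hgv hgR⟩
  · have h1 := (rdu251_mem_rect.1 hfR).2.2.1
    rcases hfu with r | r | r | r <;> rw [r] at h1 ⊢ <;> (try simp only at h1 ⊢) <;> omega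
  · have h1 := (rdu251_mem_rect.1 hgR).2.2.2
    rcases hgv with r | r | r | r <;> rw [r] at h1 ⊢ <;> (try simp only at h1 ⊢) <;> omega

/-- a separation of colour `!a` in the annulus `Box(c,2n) \ Box(c,n)` forces a long chain of faces which crosses no good edge of colour `a` -/
theorem tc51_dualBT_of_sep {F : Finset (ℤ × ℤ)} {a : Bool} {ω : RswCfg} {c : ℤ × ℤ} {n : ℕ} (hn : 1 ≤ n)
    (hF : rswBox c (2 * n + 1) ⊆ F) (hs : RswSep F (!a) ω (rswBox c n) (F \ rswBox c (2 * n))) :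
    Rdu251DualBT (c.1 + n - 1) (c.1 + 2 * n + 1) (c.2 - n) (c.2 + n) (rdu251Good a ω) := by
  have hn' : (1 : ℤ) ≤ n := by exact_mod_cast hn
  refine tc51_dualBT_of_primBT (by omega) ((rdu251_duality' (by omega) (by omega) _).2 ?_)
  rintro ⟨f, g, hf, hf1, hg, hg1, hfg⟩
  have hf' := rdu251_mem_rect.1 hf
  have hg' := rdu251_mem_rect.1 hg
  have hsub : rdu251Rect (c.1 + n - 1) (c.1 + 2 * n + 1) (c.2 - n) (c.2 + n) ⊆ (↑F : Set (ℤ × ℤ)) := by
    intro p hp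
    have hp' := rdu251_mem_rect.1 hp
    refine hF (tc51_mem_box.2 ?_)
    push_cast
    refine ⟨⟨by omega, by omega⟩, by omega, by omega⟩
  refine (rdu251_rswSep F (!a) ω _ _).1 hs f (tc51_mem_box.2 ⟨⟨by omega, by omega⟩, by omega, by omega⟩) g
    (Finset.mem_sdiff.2 ⟨hsub hg, fun h => ?_⟩) (rdu251_chain_mono hsub (fun _ h => h) hfg)
  have := (tc51_mem_box.1 h).1.2
  push_cast at this
  omega

/-- the long chain of faces is an arm at a smaller scale -/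
theorem tc51_arm_of_dualBT {F : Finset (ℤ × ℤ)} {a : Bool} {ω : RswCfg} {c : ℤ × ℤ} {n r : ℕ} (hr1 : 1 ≤ r) (hr : r + 1 ≤ n)
    (hF : rswBox c (2 * n + 1) ⊆ F)
    (h : Rdu251DualBT (c.1 + n - 1) (c.1 + 2 * n + 1) (c.2 - n) (c.2 + n) (rdu251Good a ω)) :
    ∃ x ∈ Finset.Ico (c.1 + n - 1) (c.1 + 2 * n + 1), RcArm F a (x, c.2 - n) r ω := by
  obtain ⟨f, g, hf, hf2, hg, hg2, hfg⟩ := h
  have hr1' : (1 : ℤ) ≤ r := by exact_mod_cast hr1
  have hr' : (r : ℤ) + 1 ≤ n := by exact_mod_cast hr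
  have hf' := rdu251_mem_rect.1 hf
  have hg' := rdu251_mem_rect.1 hg
  have hsub : rdu251Rect (c.1 + n - 1) (c.1 + 2 * n + 1) (c.2 - n) (c.2 + n) ⊆ (↑F : Set (ℤ × ℤ)) := by
    intro p hp
    have hp' := rdu251_mem_rect.1 hp
    refine hF (tc51_mem_box.2 ?_)
    push_cast
    refine ⟨⟨by omega, by omega⟩, by omega, by omega⟩
  refine ⟨f.1, Finset.mem_Ico.2 ⟨hf'.1, hf'.2.1⟩, fun hsep => ?_⟩
  have hfe : (f.1, c.2 - (n : ℤ)) = f := by rw [← hf2]
  rw [hfe] at hsep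
  refine (rdu251_rswSep F a ω _ _).1 hsep f (tc51_mem_box.2 ⟨⟨by omega, by omega⟩, by omega, by omega⟩) g
    (Finset.mem_sdiff.2 ⟨hsub hg, fun h => ?_⟩) (rdu251_chain_mono hsub (fun _ h => h) hfg)
  have := (tc51_mem_box.1 h).2.2
  push_cast at this
  omega

/-- **the T-circuit inequality in terms of arms only** -/
theorem tc51_iso_le_arms {t : ℝ} (h0 : 0 < t) (h1 : t ≤ 1) (F : Finset (ℤ × ℤ)) (b a : Bool) (c : ℤ × ℤ) {n r : ℕ}
    (hr1 : 1 ≤ r) (hr : r + 1 ≤ n) (hF : rswBox c (2 * n + 1) ⊆ F) :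
    rswP t F b (fun ω => ∀ v ∈ cornersOf (rswBox c (2 * n)), v ∉ tc51E F ω)
      ≤ rswP t F b (RcArm F a c n)
        + ∑ x ∈ Finset.Ico (c.1 + n - 1) (c.1 + 2 * n + 1), rswP t F b (RcArm F a (x, c.2 - n) r) := by
  have hsub : rswBox c n ⊆ rswBox c (2 * n) := by
    intro p hp
    have := tc51_mem_box.1 hp
    refine tc51_mem_box.2 ?_
    push_cast
    refine ⟨⟨by omega, by omega⟩, by omega, by omega⟩
  have s1 := tc51_iso_le h0 h1 F b a hsub
  have s2 : rswP t F b (fun ω => RswSep F (!a) ω (rswBox c n) (F \ rswBox c (2 * n)))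
      ≤ rswP t F b (fun ω => ∃ x ∈ Finset.Ico (c.1 + n - 1) (c.1 + 2 * n + 1), RcArm F a (x, c.2 - n) r ω) :=
    rsb_P_mono h0 h1 fun ω _ _ h => tc51_arm_of_dualBT hr1 hr hF (tc51_dualBT_of_sep (by omega) hF h)
  have s3 := rsb_P_finset_union h0 h1 F b (Finset.Ico (c.1 + n - 1) (c.1 + 2 * n + 1)) (fun x => RcArm F a (x, c.2 - n) r)
  have e : rswP t F b (fun ω => ¬ RswSep F a ω (rswBox c n) (F \ rswBox c (2 * n))) = rswP t F b (RcArm F a c n) := rfl
  linarith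

/-- the equation lemmas of the definitions of this file are generated HERE (RULES.md, rule 6) -/
theorem tc51_eqns_cite : True := by
  have := @tc51Fil.eq_1.{0}
  have := @tc51Dag.eq_1
  have := @tc51Und.eq_1
  have := @Tc51Step.eq_1
  have := @tc51E1.eq_1
  have := @tc51T.eq_1
  have := @tc51Phi.eq_1
  have := @tc51Pol.eq_1
  have := @tc51E.eq_1
  have := @tc51TF.eq_1
  have := @tc51PhiF.eq_1
  trivial

end Claimed.Agent.R292
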